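import Crest.Agent.R122.LNRetX_383
import Crest.Agent.R122.LNNearE_383
import Crest.Agent.R122.LNS1_674

/-!
# Row 122, LN1 events (helper383), part 8: near-line and tube events in helper674's frame

`One`, `Exits` (helper674) over the gas `cfg w`, the family of lines contains the root line of a tree
`(P, z)` which is a sub-world of the structure (`TreeIn`, labels `g`).

* `nearFam_of_one` : `NearFam` for the lines of any sub-family without the root line.
* `nearD_of_one` : the family of the exits and one more line `d` (inequality 3): `NearFam` for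
  `withD exits d`; `encParts6_of_one`.
* `not_retC_of_one` : no return of `d` to the hidden curves of the tree.
-/

set_option autoImplicit false
set_option linter.unusedSectionVars false

open MeasureTheory Set Filter Topology
open scoped ENNReal
open Crest.AnalysisR.Kinetic
open Crest.Agent.R122.Flow671 hiding rel
open Crest.Agent.R122.Ins45 Crest.Agent.R122.Causal291
open Crest.Agent.R122.Inf879 Crest.Agent.R122.GC311 Crest.Agent.R122.EDefs602
open Crest.Agent.R122.EDefs602.MW Crest.Agent.R122.MWFam255 Crest.Agent.R122.GIV566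
open Crest.Agent.R122.VL581 Crest.Agent.R122.LN304 Crest.Agent.R122.LNg410
open Crest.Agent.R122.LNEv968
open Crest.Agent.R122.Kin796 Crest.Agent.R122.Kin796.CTree Crest.Agent.R122.Tree674
open Crest.Agent.R122.PathFlow968 Crest.Agent.R122.TreeLines335
open Crest.Agent.R122.LNTree410
open Crest.Agent.R122.LNEv818 (ReachAll)
open Crest.Agent.R122.LNPart424 (gsys)
open Crest.Agent.R122.OneC285 (ptube cT cD)
open Crest.Agent.R122.OCout796
open Crest.Agent.R122.E6Hyp879 (withD)
open Crest.Agent.R122.LNS674 (One Exits pS LS)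
open Crest.Agent.R122.PWInst442 Crest.Agent.R122.PWGlue491
open scoped Classical

namespace Crest.Agent.R122.LNEv383

noncomputable section

variable {σ μ ν : Type} [Fintype σ] {n : ℕ} {Φ : Space3 → ℝ} {T₀ T T' te ε c ℓ ς r ρ : ℝ}
  {K N N₁ : ℕ} {b : σ → ℝ} {w : Config n} {V : σ → PhasePoint}
  {cl : Fin n ⊕ σ → Finset (Fin n ⊕ σ)} {R : ℝ → Fin n ⊕ σ → Fin n ⊕ σ → Prop}
  {f : Fin n ↪ Fin n ⊕ σ} {P : CTree} {z : PhasePoint × Par P} {g : Idx P ↪ σ} {ls : μ → ML}
  {p : μ → σ} {d : ML}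

/-- **Near-line data** for a sub-family of exits without the root line `ls x₀`. -/
theorem nearFam_of_one (h : One Φ T₀ ε c b V w cl R)
    (E : Exits Φ T₀ te ε b V w cl R (MW.cfg w) f ls p) (hf : ∀ i, f i = Sum.inl i)
    (hΦ : AdmissiblePotential Φ) (hε : 0 < ε) (hte : 0 ≤ te) (hT : te ≤ T') (hT₀ : te ≤ T₀)
    (hc : 1 ≤ c) (hr : r ≤ c * ε) (hℓ : 2 * ℓ ≤ ς)
    (hNB : NoBad (gsys Φ T₀ ε n b) c ℓ ς (Sum.elim w V) (LS n σ) N₁) (hN : N + N + N ≤ N₁)
    (hRA : ∀ x, ReachAll (Reach (gsys Φ T₀ ε n b) c (Sum.elim w V) (LS n σ) (pS n σ)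
      (Sum.inr (p x)) N) Φ ε K te (MW.cfg w) f (ls x) (Sum.inr (p x)))
    (hTr : TreeIn (gsys Φ T₀ ε n b) (Sum.elim w V) T' P z.1 z.2 (g.trans Function.Embedding.inr))
    {x₀ : μ} (hx₀ : p x₀ = g (root P)) (G : ν → μ) (hG : ∀ y, G y ≠ x₀) :
    NearFam Φ T₀ te T' ε K c ℓ ς r N b w V R P z g (fun y => ls (G y)) fun y => p (G y) where
  hΦ := hΦ
  hε := hε
  hT := hte
  hTT := hT
  hTT₀ := hT₀
  hc := hc
  hr := hr
  hℓς := hℓ
  okZ := E.ok0
  okL y := E.ok1 (G y)
  tree := hTr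
  noBad := fun Q h1 h2 h3 => hNB Q h1 h2 (h3.trans hN)
  fam := h.fam
  ne y hy := hG y (E.inj (hy.trans hx₀.symm))
  old y s hs := (E.old (G y) x₀ (hG y) s (by rw [hx₀]; exact hs)).2
  b0 y := by
    have h1 := GDMW.bb_le (M := gsys Φ T₀ ε n b) (W := (MW.cfg w).ins (ls (G y)))
      (f := insF f (Sum.inr (p (G y))) (E.out (G y))) (E.gd1 (G y)) (Sum.inr ())
    exact (VLInst442.bb_nonneg (gsys Φ T₀ ε n b) _).trans h1
  reach y := by
    have h1 := hRA (G y)
    have h2 : (f : Fin n → Fin n ⊕ σ) = Sum.inl := funext hf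
    rw [h2] at h1
    exact h1

/-! ### Inequality 3: the family `lineML`, `d` -/

/-- The labels of the exits (root excluded) and `d` in the family `withD (lineML Φ ε P z) d`. -/
def exD (P : CTree) : {j : Idx P // j ≠ root P} ⊕ Unit → Idx P ⊕ Unit := Sum.map Subtype.val id

theorem exD_ne (y : {j : Idx P // j ≠ root P} ⊕ Unit) : exD P y ≠ Sum.inl (root P) := by
  rcases y with y | y
  · exact fun h => y.2 (Sum.inl_injective h)
  · exact fun h => by cases h

theorem withD_exD (Φ : Space3 → ℝ) (ε : ℝ) (P : CTree) (z : PhasePoint × Par P) (d : ML) :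
    (fun y => withD (lineML Φ ε P z) d (exD P y)) = withD (exL Φ ε P z) d := by
  funext y
  rcases y with y | y <;> rfl

theorem elim_exD (g : Idx P ↪ σ) (x : σ) :
    (fun y => Sum.elim g (fun _ => x) (exD P y)) =
      Sum.elim (fun j : {j : Idx P // j ≠ root P} => g j.1) fun _ => x := by
  funext y
  rcases y with y | y <;> rfl

/-- **Near-line data** of the exits and `d` (label `x`). -/
theorem nearD_of_one {x : σ} (h : One Φ T₀ ε c b V w cl R)
    (E : Exits Φ T₀ te ε b V w cl R (MW.cfg w) f (withD (lineML Φ ε P z) d)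
      (Sum.elim g fun _ => x)) (hf : ∀ i, f i = Sum.inl i)
    (hΦ : AdmissiblePotential Φ) (hε : 0 < ε) (hte : 0 ≤ te) (hT : te ≤ T') (hT₀ : te ≤ T₀)
    (hc : 1 ≤ c) (hr : r ≤ c * ε) (hℓ : 2 * ℓ ≤ ς)
    (hNB : NoBad (gsys Φ T₀ ε n b) c ℓ ς (Sum.elim w V) (LS n σ) N₁) (hN : N + N + N ≤ N₁)
    (hRA : ∀ y, ReachAll (Reach (gsys Φ T₀ ε n b) c (Sum.elim w V) (LS n σ) (pS n σ)
      (Sum.inr (Sum.elim g (fun _ => x) y)) N) Φ ε K te (MW.cfg w) f
      (withD (lineML Φ ε P z) d y) (Sum.inr (Sum.elim g (fun _ => x) y)))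
    (hTr : TreeIn (gsys Φ T₀ ε n b) (Sum.elim w V) T' P z.1 z.2
      (g.trans Function.Embedding.inr)) :
    NearFam Φ T₀ te T' ε K c ℓ ς r N b w V R P z g (withD (exL Φ ε P z) d)
      (Sum.elim (fun j => g j.1) fun _ => x) := by
  have h1 := nearFam_of_one h E hf hΦ hε hte hT hT₀ hc hr hℓ hNB hN hRA hTr
    (x₀ := Sum.inl (root P)) rfl (exD P) exD_ne
  rw [withD_exD, elim_exD] at h1
  exact h1

/-- **No return of `d`** to the hidden curves of the tree: `d` has no contact with the tree in the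
connecting family. -/
theorem NearFam.not_retC_d {x : σ}
    (h : NearFam Φ T₀ te T' ε K c ℓ ς r N b w V R P z g (withD (exL Φ ε P z) d)
      (Sum.elim (fun j => g j.1) fun _ => x))
    (hx : ∀ k, x ≠ g k) (hR : ∀ k s, ¬ R s (Sum.inr x) (Sum.inr (g k))) :
    ¬ RetC Φ ε r K te (MW.cfg w) d (ptube Φ ε P z) :=
  h.not_retC (Sum.inr ()) hx hR

end

end Crest.Agent.R122.LNEv383
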