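import Crest.Agent.R122.LNNear_383
import Crest.Agent.R122.LNRetT_383
import Crest.Agent.R122.EncFar_45
import Crest.Agent.R122.LNPart_424

/-!
# Row 122, LN1 events (helper383), part 5: near-line events at the root line of a tree

The member `m₀` of `LNNear_383` is the root of a tree `P` (part of the structure), followed in the
sub-world of its tree: its position is `z.1.1 + t • z.1.2` after its release.

* `NearHyp.tree_cf`, `NearHyp.tree_line` : the forms consumed by helper45 (`cf`, `line`) and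
  helper796; `NearHyp.tree_C` : a contact of the line before `t` with a particle of the base.
* `NearHyp.gas` : the hypotheses for the gas `cfg w` and a structure `V`, one part.
* `NearFam`, `NearFam.cf`, `NearFam.line` : families of lines over `cfg w`.
-/

set_option autoImplicit false
set_option linter.unusedSectionVars false

open MeasureTheory Set Filter Topology
open scoped ENNReal
open Crest.AnalysisR.Kinetic
open Crest.Agent.R122.Flow671 hiding rel
open Crest.Agent.R122.Ins45 Crest.Agent.R122.Causal291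
open Crest.Agent.R122.Inf879 Crest.Agent.R122.GC311 Crest.Agent.R122.EDefs602
open Crest.Agent.R122.EDefs602.MW Crest.Agent.R122.MWFam255 Crest.Agent.R122.GIV566
open Crest.Agent.R122.VL581 Crest.Agent.R122.LN304 Crest.Agent.R122.LNg410
open Crest.Agent.R122.LNEv968
open Crest.Agent.R122.Kin796 Crest.Agent.R122.Kin796.CTree Crest.Agent.R122.Tree674
open Crest.Agent.R122.PathFlow968 Crest.Agent.R122.TreeLines335
open Crest.Agent.R122.LNTree410
open Crest.Agent.R122.LNEv818 (ReachAll)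
open Crest.Agent.R122.LNPart424 (gsys)
open scoped Classical

namespace Crest.Agent.R122.LNEv383

noncomputable section

/-! ### The root line -/

section root

variable {ι κ J : Type} [Fintype ι] [Fintype J]
variable {Φ : Space3 → ℝ} {ε T T' r : ℝ} {K : ℕ} {Z : MW ι}
variable {M : VSys J κ} {c ℓ ς : ℝ} {Zc : J → PhasePoint} {Λ : Finset (Finset J)}
  {π : Finset J} {a : J} {N : ℕ} {lab : ι → J} {l : ML} {R : ℝ → J → J → Prop}
  {P : CTree} {z : PhasePoint × Par P} {e : Idx P ↪ J} {t : ℝ}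

/-- The root of a tree, after its release, is on its undeflected line. -/
theorem root_line (hΦ : AdmissiblePotential M.Φ) (hε : 0 < M.ε)
    (hT : TreeIn M Zc T' P z.1 z.2 e) (hr : TreeLines335.rel P z.2 (root P) ≤ t) (ht : t ≤ T') :
    (M.st (LNTree410.part e) t Zc (e (root P))).1 = z.1.1 + t • z.1.2 := by
  rw [hT.line_tree hΦ hε (root P) hr ht, fin_root, onLine_fst]

variable (h : NearHyp M c ℓ ς Zc Λ π (LNTree410.part e) a (e (root P)) N R Φ ε T K Z lab l r)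
  (hΦ : AdmissiblePotential M.Φ) (hT : TreeIn M Zc T' P z.1 z.2 e) (hTT : T ≤ T')

include h hΦ hT hTT

theorem NearHyp.root_line (hr : TreeLines335.rel P z.2 (root P) ≤ t) (ht : t ≤ T) :
    (M.st (LNTree410.part e) t Zc (e (root P))).1 = z.1.1 + t • z.1.2 :=
  LNEv383.root_line hΦ (by rw [h.hMε]; exact h.hε) hT hr (ht.trans hTT)

/-- **An influenced particle is not near the root line**, in `Z + l` and in `Z`. -/
theorem NearHyp.tree_cf [Nonempty κ] (h0 : 0 ≤ t)
    (hr : TreeLines335.rel P z.2 (root P) ≤ t) (ht : t ≤ T)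
    (htl : t ≤ Z.thetaL Φ ε K T l) {k : ι} (hk : CF Φ ε K Z (MW.line l) t k) :
    r < dist ((Z.ins l).path Φ ε t (Sum.inl k)).1 (z.1.1 + t • z.1.2) ∧
      r < dist (Z.path Φ ε t k).1 (z.1.1 + t • z.1.2) := by
  rw [← h.root_line hΦ hT hTT hr ht]
  exact h.influenced ⟨h0, ht⟩ htl hk

/-- **The altered line is not near the root line.** -/
theorem NearHyp.tree_C [Nonempty κ] (h0 : 0 ≤ t)
    (hr : TreeLines335.rel P z.2 (root P) ≤ t) (ht : t ≤ T)
    (htl : t ≤ Z.thetaL Φ ε K T l) {s : ℝ} (hs : s < Z.thetaL Φ ε K T l) (hst : s ≤ t) {k : ι}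
    (hk : (Z.ins l).C Φ ε s (Sum.inr ()) (Sum.inl k)) :
    r < dist ((Z.ins l).path Φ ε t (Sum.inr ())).1 (z.1.1 + t • z.1.2) := by
  rw [← h.root_line hΦ hT hTT hr ht]
  exact h.altered ⟨h0, ht⟩ htl hs hst hk

/-- **The altered line is not near the root line**, form of helper45. -/
theorem NearHyp.tree_line [Nonempty κ] (h0 : 0 ≤ t)
    (hr : TreeLines335.rel P z.2 (root P) ≤ t) (ht : t ≤ T)
    (htl : t ≤ Z.thetaL Φ ε K T l)
    (hk : ∃ s k, s < t ∧ (Z.ins l).C Φ ε s (Sum.inr ()) (Sum.inl k)) :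
    r < dist ((Z.ins l).path Φ ε t (Sum.inr ())).1 (z.1.1 + t • z.1.2) := by
  obtain ⟨s, k, hs, hk⟩ := hk
  exact h.tree_C hΦ hT hTT h0 hr ht htl (hs.trans_le htl) hs.le hk

end root

/-! ### Gas and structure -/

section gas

variable {σ μ : Type} [Fintype σ] {n : ℕ} {Φ : Space3 → ℝ} {T₀ T T' ε c ℓ ς r : ℝ} {K N : ℕ}
  {b : σ → ℝ} {w : Config n} {V : σ → PhasePoint} {π : Finset (Fin n ⊕ σ)}
  {R : ℝ → Fin n ⊕ σ → Fin n ⊕ σ → Prop} {P : CTree} {z : PhasePoint × Par P}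
  {e : Idx P ↪ Fin n ⊕ σ}

/-- The structure labels. -/
def strP (n : ℕ) (σ : Type) [Fintype σ] : Finset (Fin n ⊕ σ) :=
  Finset.univ.map Function.Embedding.inr

theorem mem_strP {j : Fin n ⊕ σ} : j ∈ strP n σ ↔ ∃ y, j = Sum.inr y := by
  simp only [strP, Finset.mem_map, Finset.mem_univ, true_and, Function.Embedding.inr_apply]
  exact ⟨fun ⟨y, hy⟩ => ⟨y, hy.symm⟩, fun ⟨y, hy⟩ => ⟨y, hy.symm⟩⟩

/-- **Near-line data** for lines `ls x` with labels `p x` over the gas `cfg w`; the tube is the root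
line of the tree `(P, z)` with labels `g i`, `T` the horizon, `T'` the horizon of the tree. One
part. -/
structure NearFam (Φ : Space3 → ℝ) (T₀ T T' ε : ℝ) (K : ℕ) (c ℓ ς r : ℝ) (N : ℕ) (b : σ → ℝ)
    (w : Config n) (V : σ → PhasePoint) (R : ℝ → Fin n ⊕ σ → Fin n ⊕ σ → Prop) (P : CTree)
    (z : PhasePoint × Par P) (g : Idx P ↪ σ) (ls : μ → ML) (p : μ → σ) : Prop where
  hΦ : AdmissiblePotential Φ
  hε : 0 < ε
  hT : 0 ≤ T
  hTT : T ≤ T'
  hTT₀ : T ≤ T₀
  hc : 1 ≤ c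
  hr : r ≤ c * ε
  hℓς : 2 * ℓ ≤ ς
  okZ : (MW.cfg w).Ok Φ ε
  okL : ∀ x, ((MW.cfg w).ins (ls x)).Ok Φ ε
  tree : TreeIn (gsys Φ T₀ ε n b) (Sum.elim w V) T' P z.1 z.2 (g.trans Function.Embedding.inr)
  noBad : NoBad (gsys Φ T₀ ε n b) c ℓ ς (Sum.elim w V) {strP n σ} (N + N + N)
  fam : Fam (gsys Φ T₀ ε n b) c (Sum.elim w V) (strP n σ) R
  ne : ∀ x, p x ≠ g (root P)
  old : ∀ x s, R s (Sum.inr (p x)) (Sum.inr (g (root P))) → s ≤ (ls x).1.1
  b0 : ∀ x, 0 ≤ (ls x).1.1
  reach : ∀ x, ReachAll (Reach (gsys Φ T₀ ε n b) c (Sum.elim w V) {strP n σ} (strP n σ)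
    (Sum.inr (p x)) N) Φ ε K T (MW.cfg w) Sum.inl (ls x) (Sum.inr (p x))

namespace NearFam

variable {g : Idx P ↪ σ} {ls : μ → ML} {p : μ → σ}
  (h : NearFam Φ T₀ T T' ε K c ℓ ς r N b w V R P z g ls p)

include h

theorem conn : (gsys Φ T₀ ε n b).Conn c (strP n σ) (Sum.elim w V) :=
  conn_of_cut h.fam.conn fun i hi j hj hij ⟨s, hs, hR⟩ => ⟨s, hs, h.fam.vct s hs i hi j hj hij hR⟩

/-- The near-line hypotheses of one line. -/
theorem hyp (x : μ) : NearHyp (gsys Φ T₀ ε n b) c ℓ ς (Sum.elim w V) {strP n σ} (strP n σ)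
    (LNTree410.part (g.trans Function.Embedding.inr)) (Sum.inr (p x))
    ((g.trans Function.Embedding.inr) (root P)) N R Φ ε T K (MW.cfg w) Sum.inl (ls x) r where
  hΦ := h.hΦ
  hε := h.hε
  okZ := h.okZ
  okZl := h.okL x
  hMε := rfl
  hTM := h.hTT₀
  hc := h.hc
  hr := h.hr
  hℓς := h.hℓς
  conn := h.conn
  noBad := h.noBad
  part := Finset.mem_singleton_self _
  mem := mem_strP.2 ⟨_, rfl⟩
  m₀B := mem_part_self _
  Bπ := by
    intro j hj
    obtain ⟨i, rfl⟩ := mem_part.1 hj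
    exact mem_strP.2 ⟨_, rfl⟩
  m₀a := fun h' => h.ne x (Sum.inr_injective h').symm
  obs := h.tree.o _
  okB v hv := h.tree.ok_tree h.hΦ h.hε (h.hT.trans h.hTT) v
  labNe k := by simp
  fam := h.fam
  old s hs := h.old x s hs
  b0 := h.b0 x
  reach := h.reach x

/-- **No particle influenced by a line of the family near the root line.** -/
theorem cf {t : ℝ} (h0 : 0 ≤ t) (hr : TreeLines335.rel P z.2 (root P) ≤ t) (ht : t ≤ T) {x : μ}
    (htl : t ≤ (MW.cfg w).thetaL Φ ε K T (ls x)) {k : Fin n}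
    (hk : CF Φ ε K (MW.cfg w) (MW.line (ls x)) t k) :
    r < dist (((MW.cfg w).ins (ls x)).path Φ ε t (Sum.inl k)).1 (z.1.1 + t • z.1.2) :=
  ((h.hyp x).tree_cf h.hΦ h.tree h.hTT h0 hr ht htl hk).1

/-- The same in the world without the line. -/
theorem cf' {t : ℝ} (h0 : 0 ≤ t) (hr : TreeLines335.rel P z.2 (root P) ≤ t) (ht : t ≤ T) {x : μ}
    (htl : t ≤ (MW.cfg w).thetaL Φ ε K T (ls x)) {k : Fin n}
    (hk : CF Φ ε K (MW.cfg w) (MW.line (ls x)) t k) :
    r < dist ((MW.cfg w).path Φ ε t k).1 (z.1.1 + t • z.1.2) :=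
  ((h.hyp x).tree_cf h.hΦ h.tree h.hTT h0 hr ht htl hk).2

/-- **No altered line of the family near the root line.** -/
theorem line {t : ℝ} (h0 : 0 ≤ t) (hr : TreeLines335.rel P z.2 (root P) ≤ t) (ht : t ≤ T) {x : μ}
    (htl : t ≤ (MW.cfg w).thetaL Φ ε K T (ls x))
    (hk : ∃ s k, s < t ∧ ((MW.cfg w).ins (ls x)).C Φ ε s (Sum.inr ()) (Sum.inl k)) :
    r < dist (((MW.cfg w).ins (ls x)).path Φ ε t (Sum.inr ())).1 (z.1.1 + t • z.1.2) :=
  (h.hyp x).tree_line h.hΦ h.tree h.hTT h0 hr ht htl hk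

end NearFam

end gas

end

end Crest.Agent.R122.LNEv383
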