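import Crest.Agent.R122.LNRetB_383
import Crest.Agent.R122.LNExit_968

/-!
# Row 122, LN1 events (helper383), part 4: near-line events

`l` : line with label `a` in the part `π`; `m₀ ≠ a` : another member of `π`, followed in a sub-world
`B ⊆ π`; radius `r ≤ c ε`. Everything from `LNEv818.ReachAll (Reach …)` only (no glue).

* `NearHyp` : the hypotheses. `NearHyp.influenced` : an influenced particle (in `Z + l` or in `Z`) is
  not within `r` of `m₀`.
* `NearHyp.altered` : the line, after a contact with a particle of `Z`, is not within `r` of `m₀`.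
* `NearHyp.no_contact` : if the line is within `r` of `m₀` at time `t`, it had no contact before.
-/

set_option autoImplicit false
set_option linter.unusedSectionVars false

open MeasureTheory Set Filter Topology
open scoped ENNReal
open Crest.AnalysisR.Kinetic
open Crest.Agent.R122.Flow671 Crest.Agent.R122.Ins45 Crest.Agent.R122.Causal291
open Crest.Agent.R122.Inf879 Crest.Agent.R122.GC311 Crest.Agent.R122.EDefs602
open Crest.Agent.R122.EDefs602.MW Crest.Agent.R122.MWFam255 Crest.Agent.R122.GIV566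
open Crest.Agent.R122.VL581 Crest.Agent.R122.LN304 Crest.Agent.R122.LNg410
open Crest.Agent.R122.LNEv968
open Crest.Agent.R122.LNEv818 (ReachAll)
open scoped Classical

namespace Crest.Agent.R122.LNEv383

noncomputable section

variable {ι κ J : Type} [Fintype ι] [Fintype J]
variable {Φ : Space3 → ℝ} {ε T r : ℝ} {K : ℕ} {Z : MW ι}
variable {M : VSys J κ} {c ℓ ς : ℝ} {Zc : J → PhasePoint} {Λ : Finset (Finset J)}
  {π π' Y Y' B : Finset J} {a m₀ i : J} {N N' : ℕ} {v : ℝ} {q : Space3} {lab : ι → J} {l : ML}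
  {R : ℝ → J → J → Prop}

/-- Union of two groups of one exit. -/
theorem grp_union (h : Grp M c Zc Λ π a N Y) (h' : Grp M c Zc Λ π a N' Y') :
    Grp M c Zc Λ π a (N + N') (Y ∪ Y') where
  root := Finset.mem_union_left _ h.root
  gas k hk := (Finset.mem_union.1 hk).elim (h.gas k) (h'.gas k)
  obs k hk := (Finset.mem_union.1 hk).elim (h.obs k) (h'.obs k)
  card := by
    refine le_trans (Finset.card_le_card ?_) ((Finset.card_union_le (Y ∪ uni Λ) (Y' ∪ uni Λ)).trans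
      (Nat.add_le_add h.card h'.card))
    intro z hz
    simp only [Finset.mem_union] at hz ⊢
    tauto
  conn := (h.conn_mono (by intro z hz; simp only [Finset.mem_union] at hz ⊢; tauto)).union
    (h'.conn_mono (by intro z hz; simp only [Finset.mem_union] at hz ⊢; tauto))
    ⟨a, Finset.mem_inter.2 ⟨h.root, h'.root⟩⟩

/-- Hypotheses of the near-line events. -/
structure NearHyp (M : VSys J κ) (c ℓ ς : ℝ) (Zc : J → PhasePoint) (Λ : Finset (Finset J))
    (π B : Finset J) (a m₀ : J) (N : ℕ) (R : ℝ → J → J → Prop) (Φ : Space3 → ℝ) (ε T : ℝ) (K : ℕ)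
    (Z : MW ι) (lab : ι → J) (l : ML) (r : ℝ) : Prop where
  hΦ : AdmissiblePotential Φ
  hε : 0 < ε
  okZ : Z.Ok Φ ε
  okZl : (Z.ins l).Ok Φ ε
  hMε : M.ε = ε
  hTM : T ≤ M.T
  hc : 1 ≤ c
  hr : r ≤ c * M.ε
  hℓς : 2 * ℓ ≤ ς
  conn : M.Conn c π Zc
  noBad : NoBad M c ℓ ς Zc Λ (N + N + N)
  part : π ∈ Λ
  mem : a ∈ π
  m₀B : m₀ ∈ B
  Bπ : B ⊆ π
  m₀a : m₀ ≠ a
  obs : M.o ≠ some m₀
  okB : ∀ v ∈ Icc 0 T, M.ok B v Zc
  labNe : ∀ k, lab k ≠ a
  /-- a family of contacts connecting the part, in which `a` and `m₀` meet only before the line is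
  born -/
  fam : Fam M c Zc π R
  old : ∀ s, R s a m₀ → s ≤ l.1.1
  b0 : 0 ≤ l.1.1
  reach : ReachAll (Reach M c Zc Λ π a N) Φ ε K T Z lab l a

namespace NearHyp

variable (h : NearHyp M c ℓ ς Zc Λ π B a m₀ N R Φ ε T K Z lab l r)

include h in
theorem noBad' {N' : ℕ} (hN : N' ≤ N + N + N) : NoBad M c ℓ ς Zc Λ N' :=
  fun P h1 h2 h3 => h.noBad P h1 h2 (h3.trans hN)

include h in
/-- A reached particle which is not the line is not near `m₀`. -/
theorem not_near [Nonempty κ] {v : ℝ} (hv : v ∈ Icc 0 T) (hia : i ≠ a)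
    (hR : Reach M c Zc Λ π a N i v q) : r < dist q (M.st B v Zc m₀).1 := by
  by_contra hcon
  rw [not_lt] at hcon
  exact hR.ret h.part h.conn h.mem h.m₀B h.Bπ h.m₀a hia ⟨hv.1, hv.2.trans h.hTM⟩ (h.okB v hv) h.obs
    (hcon.trans h.hr) (h.noBad' (by omega))

include h in
/-- **Influenced particles are not near `m₀`**, in `Z + l` and in `Z`. -/
theorem influenced [Nonempty κ] {v : ℝ} (hv : v ∈ Icc 0 T) (hvt : v ≤ Z.thetaL Φ ε K T l) {k : ι}
    (hk : CF Φ ε K Z (MW.line l) v k) :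
    r < dist ((Z.ins l).path Φ ε v (Sum.inl k)).1 (M.st B v Zc m₀).1 ∧
      r < dist (Z.path Φ ε v k).1 (M.st B v Zc m₀).1 := by
  have h0 : (Z.add (MW.line l)).b (Sum.inl k) ≤ v := by
    have := born_of_cf h.hΦ h.hε hk
    exact this
  have h1 := h.reach v hv hvt (Sum.inl k) (ci_inl hk) h0
  exact ⟨h.not_near hv (h.labNe k) h1.1, h.not_near hv (h.labNe k) (h1.2 k rfl)⟩

include h in
/-- **The altered line is not near `m₀`.** -/
theorem altered [Nonempty κ] {v s : ℝ} (hv : v ∈ Icc 0 T) (hvt : v ≤ Z.thetaL Φ ε K T l)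
    (hs : s < Z.thetaL Φ ε K T l) (hsv : s ≤ v) {k : ι}
    (hk : (Z.ins l).C Φ ε s (Sum.inr ()) (Sum.inl k)) :
    r < dist ((Z.ins l).path Φ ε v (Sum.inr ())).1 (M.st B v Zc m₀).1 := by
  by_contra hcon
  rw [not_lt] at hcon
  have hbs : l.1.1 ≤ s := hk.1
  have hs0 : 0 ≤ s := h.b0.trans hbs
  have hsT : s ∈ Icc 0 T := ⟨hs0, hsv.trans hv.2⟩
  have hvM : v ∈ Icc 0 M.T := ⟨hv.1, hv.2.trans h.hTM⟩
  have hsM : s ∈ Icc 0 M.T := ⟨hs0, hsT.2.trans h.hTM⟩
  -- the line and `m₀` are in contact at time `v`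
  obtain ⟨Y₁, hY₁, ha₁, A₁, hA₁, haA₁, hok₁, hq₁⟩ :=
    (h.reach v hv hvt (Sum.inr ()) ci_inr (hbs.trans hsv)).1
  -- the line and the particle `k` at time `s`
  have hnt : ¬ Z.Touched Φ ε K (MW.line l) s := fun ht =>
    absurd (MW.theta_le_of_touched hsT ht) (not_le.2 hs)
  have hfut : Z.Fut Φ ε (MW.line l) s k :=
    .new₂ (Sum.inr ()) (by rintro ⟨j, hj⟩; cases hj) hk hs0 le_rfl
  have hcf : CF Φ ε K Z (MW.line l) s k := cf_of_fut h.hΦ h.hε h.okZ h.okZl hsT hnt hfut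
  obtain ⟨Y₂, hY₂, ha₂, A₂, hA₂, haA₂, hok₂, hq₂⟩ :=
    (h.reach s hsT hs.le (Sum.inr ()) ci_inr hbs).1
  have h0 : (Z.add (MW.line l)).b (Sum.inl k) ≤ s := by
    have := born_of_cf h.hΦ h.hε hcf
    exact this
  obtain ⟨Y₃, hY₃, hk₃, A₃, hA₃, hkA₃, hok₃, hq₃⟩ :=
    (h.reach s hsT hs.le (Sum.inl k) (ci_inl hcf) h0).1
  set Y := Y₁ ∪ Y₂ ∪ Y₃ with hY
  have hG : Grp M c Zc Λ π a (N + N + N) Y := grp_union (grp_union hY₁ hY₂) hY₃
  have hY1 : π ∪ Y₁ ⊆ π ∪ Y := by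
    intro z hz; simp only [hY, Finset.mem_union] at hz ⊢; tauto
  have hY2 : π ∪ Y₂ ⊆ π ∪ Y := by
    intro z hz; simp only [hY, Finset.mem_union] at hz ⊢; tauto
  have hY3 : π ∪ Y₃ ⊆ π ∪ Y := by
    intro z hz; simp only [hY, Finset.mem_union] at hz ⊢; tauto
  have hcn : M.Conn c (π ∪ Y) Zc := hG.conn_union h.conn h.mem
  have hcard : (π ∪ Y ∪ uni Λ).card ≤ N + N + N := by
    refine (Finset.card_le_card ?_).trans hG.card
    intro z hz
    simp only [Finset.mem_union] at hz ⊢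
    rcases hz with (hz | hz) | hz
    · exact Or.inr (sub_uni h.part hz)
    · exact Or.inl hz
    · exact Or.inr hz
  have hT := h.noBad _ hcn ⟨π, h.part, Finset.subset_union_left⟩ hcard
  have hv1 : M.VCt c (π ∪ Y) a m₀ v Zc := by
    refine vct_of_st (hA₁.trans hY1) (h.Bπ.trans Finset.subset_union_left) haA₁ h.m₀B hok₁
      (h.okB v hv) (hY₁.obs a ha₁) h.obs ?_
    have : (M.st A₁ v Zc a).1 = ((Z.add (MW.line l)).path Φ ε v (Sum.inr ())).1 := hq₁
    rw [this]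
    exact hcon.trans h.hr
  have hv2 : M.VCt c (π ∪ Y) a (lab k) s Zc := by
    refine vct_of_st (hA₂.trans hY2) (hA₃.trans hY3) haA₂ hkA₃ hok₂ hok₃ (hY₂.obs a ha₂)
      (hY₃.obs _ hk₃) ?_
    have e1 : (M.st A₂ s Zc a).1 = ((Z.add (MW.line l)).path Φ ε s (Sum.inr ())).1 := hq₂
    have e2 : (M.st A₃ s Zc (lab k)).1 = ((Z.add (MW.line l)).path Φ ε s (Sum.inl k)).1 := hq₃
    rw [e1, e2, h.hMε]
    have h5 : dist ((Z.add (MW.line l)).path Φ ε s (Sum.inr ())).1
      ((Z.add (MW.line l)).path Φ ε s (Sum.inl k)).1 ≤ ε := hk.2.2.2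
    have := h.hc
    have := h.hε
    nlinarith
  obtain ⟨t, ht, hRt, hwin⟩ := window h.fam hT hcn Finset.subset_union_left h.hℓς h.mem
    (h.Bπ h.m₀B) h.m₀a hvM hv1
  have hkY : lab k ∈ π ∪ Y := by
    refine Finset.mem_union_right _ ?_
    simp only [hY, Finset.mem_union]
    exact Or.inr hk₃
  have h6 := hwin s hsM ((h.old t hRt).trans hbs) hsv (lab k) hkY (h.labNe k) hv2
  have h7 : lab k ∈ π := by
    rw [h6]
    exact h.Bπ h.m₀B
  exact (hY₃.not_mem h.part hk₃ (h.labNe k)) h7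

include h in
/-- If the line is near `m₀` at time `v`, it has not met any particle of `Z` before. -/
theorem no_contact [Nonempty κ] {v s : ℝ} (hv : v ∈ Icc 0 T) (hvt : v ≤ Z.thetaL Φ ε K T l)
    (hd : dist ((Z.ins l).path Φ ε v (Sum.inr ())).1 (M.st B v Zc m₀).1 ≤ r)
    (hs : s < Z.thetaL Φ ε K T l) (hsv : s ≤ v) (k : ι) :
    ¬ (Z.ins l).C Φ ε s (Sum.inr ()) (Sum.inl k) := fun hk =>
  absurd hd (not_le.2 (h.altered hv hvt hs hsv hk))

end NearHyp

end

end Crest.Agent.R122.LNEv383
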