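import Crest.Agent.R122.LNOS_515
import Crest.Agent.R122.LNBind_302

/-!
# Row 122, LN1: the instance (OS), classes and labels (helper515)

* `lab_of_cls` : members of a class (helper410) are admissible labels (helper442).
* `clP`, `clR` : one class (tree and line, after the encounter) resp. the tree alone as a class.
* `OSIn.baseP`, `OSIn.baseR` : helper442's `Base`; `OSIn.labP`, `OSIn.labR` : the lines `l'`, `c'`,
  exits resp. all lines of the tree are admissible labels.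
* `OSIn.famP`, `OSIn.famR` : connecting families of the part (helper968's `Fam`), `oldP`, `oldR`.
-/

set_option autoImplicit false
set_option linter.unusedSectionVars false

open MeasureTheory Set Filter
open scoped ENNReal Topology
open Crest.AnalysisR.Kinetic
open Crest.Agent.R122.GIV566 Crest.Agent.R122.VL581 Crest.Agent.R122.LN304
open Crest.Agent.R122.LNTree410 Crest.Agent.R122.PWInst442 Crest.Agent.R122.PWGlue491
open Crest.Agent.R122.LNPart424 Crest.Agent.R122.EDefs602 Crest.Agent.R122.TreeLines335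
open Crest.Agent.R122.Kin796 Crest.Agent.R122.Kin796.CTree Crest.Agent.R122.Tree674
open Crest.Agent.R122.Loc45 Crest.Agent.R122.Ins45 Crest.Agent.R122.LNg410
open Crest.Agent.R122.Scat818 Crest.Agent.R122.OCout796
open Crest.Agent.R122.LNGraft410
open Crest.Agent.R122.OneC285 (lpos cT cB cD cX oneLs exS)

noncomputable section

namespace Crest.Agent.R122.LNOS515

open scoped Classical

/-! ### Classes and labels -/

section gen

variable {J κ : Type} [Fintype J] {M : VSys J κ} {Z : J → PhasePoint} {S : Finset J} {bD : J → ℝ}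

/-- Members of a class are admissible labels. -/
theorem lab_of_cls (hS : Cls M Z S bD) {cl : J → Finset J} {j : J} (hj : j ∈ S) (hcl : cl j = S)
    {b : ℝ} {y : PhasePoint} (hb : b = bD j) (hy : b ≤ M.T → onLine y b = M.st S b Z j) :
    Lab M Z cl j b y := by
  subst hb
  refine Or.inr ⟨⟨?_, hS.bb_le j hj, ?_, ?_⟩, ?_⟩
  · rw [hcl]; exact hj
  · rw [hcl]; exact hy
  · rw [hcl]
    exact hS.exit j hj
  · intro h
    rw [hcl]
    exact hS.last j hj h

/-- helper302's family from helper968's. -/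
theorem partR_of_fam {c : ℝ} {R : ℝ → J → J → Prop} (h : LNEv968.Fam M c Z S R) :
    Bind302.PartR M c Z S R := ⟨h.conn, h.symm, h.vct⟩

end gen

variable {Φ : Space3 → ℝ} {ε T c ℓ ς : ℝ} {n : ℕ} {P : CTree} {z : PhasePoint × Par P}
  {w : Config n} {l : ML}

/-- One class: the tree and the line (family `l'`, `c'`, exits). -/
abbrev clP (n : ℕ) (P : CTree) : Fin n ⊕ (Idx P ⊕ Unit) → Finset (Fin n ⊕ (Idx P ⊕ Unit)) :=
  cl1 n (Idx P ⊕ Unit)

/-- The tree is a class, the line is an independent line (family of the tree). -/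
abbrev clR (n : ℕ) (P : CTree) : Fin n ⊕ (Idx P ⊕ Unit) → Finset (Fin n ⊕ (Idx P ⊕ Unit)) :=
  clOf n (Sum.elim (fun _ => some ()) fun _ => none : Idx P ⊕ Unit → Option Unit)

theorem clP_inr (x : Idx P ⊕ Unit) : clP n P (Sum.inr x) = pS n P := by
  ext j
  rw [mem_clOf, mem_pS]
  simp

theorem clR_inl (i : Idx P) : clR n P (Sum.inr (Sum.inl i)) = pT n P := by
  ext j
  rw [mem_clOf, mem_pT]
  constructor
  · rintro ⟨_, x | x, rfl, hx⟩
    · exact ⟨x, rfl⟩
    · simp at hx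
  · rintro ⟨x, rfl⟩
    exact ⟨by simp, Sum.inl x, rfl, rfl⟩

theorem clR_inr (i : Unit) : clR n P (Sum.inr (Sum.inr i)) = ∅ := clOf_none rfl

namespace OSIn

variable (h : OSIn Φ ε T P z l) (hΦ : AdmissiblePotential Φ) (hε : 0 < ε)
include h hΦ hε

/-- The base of the family of the tree. -/
theorem baseR : Base (Mo Φ T ε n P l) w (zO Φ ε z l) (clR n P) := by
  refine base_clOf (fun i => le_rfl) (fun i => o_ne _) (fun x _ => o_ne _) fun x hx => ?_
  rcases x with x | x
  · have h1 : clOf n (Sum.elim (fun _ => some ()) fun _ => none : Idx P ⊕ Unit → Option Unit)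
        (Sum.inr (Sum.inl x)) = pT n P := clR_inl x
    rw [h1]
    exact (h.clsT hΦ hε).ok
  · exact absurd rfl hx

/-- The label of a line of the tree. -/
theorem labR (i : Idx P) : Lab (Mo Φ T ε n P l) (Zo Φ ε w z l) (clR n P) (Sum.inr (Sum.inl i))
    (lineML Φ ε P z i).1.1 (back (lineML Φ ε P z i).1) := by
  refine lab_of_cls (h.clsT hΦ hε) (eT_mem_pT i) (clR_inl i) rfl fun hb => ?_
  rw [back_lineML]
  exact (h.treeIn.line_tree (M := Mo Φ T ε n P l) hΦ hε i le_rfl hb).symm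

/-- The family of contacts of the part, before the encounter. -/
theorem famR (hc : 1 ≤ c) : LNEv968.Fam (Mo Φ T ε n P l) c (Zo Φ ε w z l) (pS n P)
    (LNFam255.RG (Mo Φ T ε n P l) (Zo Φ ε w z l) {aL n P} (pT n P) (aL n P) (eT n P (root P))
      (cT ε z l)) :=
  ((h.graft hΦ hε).touch hε).fam (M := Mo Φ T ε n P l) hε hc

/-- Contacts of two members of the tree are not later than their exits. -/
theorem oldR {r : ℝ} {j k : Fin n ⊕ (Idx P ⊕ Unit)} (hj : j ∈ pT n P) (hk : k ∈ pT n P)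
    (hjk : j ≠ k) (hr : LNFam255.RG (Mo Φ T ε n P l) (Zo Φ ε w z l) {aL n P} (pT n P) (aL n P)
      (eT n P (root P)) (cT ε z l) r j k) : r ≤ bd0 n P z l j ∧ r ≤ bd0 n P z l k := by
  have hn : ∀ {x}, x ∈ pT n P → x ∉ ({aL n P} : Finset (Fin n ⊕ (Idx P ⊕ Unit))) := by
    intro x hx hx'
    rw [Finset.mem_singleton.1 hx'] at hx
    exact aL_notMem_pT hx
  rcases hr with h1 | h1 | ⟨_, ⟨h1, _⟩ | ⟨_, h1⟩⟩
  · exact absurd h1.2.1 (hn hj)
  · exact ⟨h1.2.le (h.clsT hΦ hε) h1.1.2 hjk, h1.2.symm.le (h.clsT hΦ hε) h1.1.2 hjk.symm⟩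
  · exact absurd (h1 ▸ hj) aL_notMem_pT
  · exact absurd (h1 ▸ hk) aL_notMem_pT

variable (hTL : TL (Mo Φ T ε n P l) c ℓ ς (pS n P) (Zo Φ ε w z l)) (hc : 1 ≤ c)
  (hℓς : 2 * ℓ ≤ ς) (hlT : cT ε z l + 2 * ℓ < T)
include hTL hc hℓς hlT

/-- The base of the family after the encounter. -/
theorem baseP : Base (Mo Φ T ε n P l) w (zO Φ ε z l) (clP n P) := by
  refine base_clOf (fun i => le_rfl) (fun i => o_ne _) (fun x _ => o_ne _) fun x _ => ?_
  have h1 : clOf n (fun _ : Idx P ⊕ Unit => some ()) (Sum.inr x) = pS n P := clP_inr x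
  rw [h1]
  exact (h.clsS hΦ hε hTL hc hℓς hlT).ok

/-- The label of a line of the family after the encounter. -/
theorem labP {x : Idx P ⊕ Bool} (hx : x ∈ F2 P) :
    Lab (Mo Φ T ε n P l) (Zo Φ ε w z l) (clP n P) (Sum.inr (gO P x))
      (oneLs Φ ε P z l x).1.1 (back (oneLs Φ ε P z l x).1) := by
  refine lab_of_cls (h.clsS hΦ hε hTL hc hℓς hlT) (inr_mem_pS _) (clP_inr _) (bd2_gO hx)
    fun hb => ?_
  rw [onLine_back]
  exact (h.st_gO hΦ hε hTL hc hℓς hlT hx (bd2_gO hx).ge hb).symm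

/-- The family of contacts of the part, after the encounter. -/
theorem famP : LNEv968.Fam (Mo Φ T ε n P l) c (Zo Φ ε w z l) (pS n P)
    (LNFam255.RC' (Mo Φ T ε n P l) (Zo Φ ε w z l) (pS n P)) :=
  LNFam255.famC (M := Mo Φ T ε n P l) (h.clsS hΦ hε hTL hc hℓς hlT) hε hc

theorem oldP {r : ℝ} {j k : Fin n ⊕ (Idx P ⊕ Unit)} (hjk : j ≠ k)
    (hr : LNFam255.RC' (Mo Φ T ε n P l) (Zo Φ ε w z l) (pS n P) r j k) :
    r ≤ bd2 Φ ε n P z l j ∧ r ≤ bd2 Φ ε n P z l k :=
  ⟨hr.2.le (h.clsS hΦ hε hTL hc hℓς hlT) hr.1.2 hjk,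
    hr.2.symm.le (h.clsS hΦ hε hTL hc hℓς hlT) hr.1.2 hjk.symm⟩

end OSIn

end Crest.Agent.R122.LNOS515

end
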