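import Crest.Agent.R122.OneCDefs_285
import Crest.Agent.R122.LNFam_255
import Crest.Agent.R122.PWInst3_442
import Crest.Agent.R122.LNPart_424

/-!
# Row 122, LN1: the one-contact structure (tree and a line on the contact), tree class (helper255)

Structure labels `Idx P ⊕ Unit` (tree, line), births `bO l`, phase points `VO`.

* `lab_tree_cl` : the particles of a tree class are admissible labels, every system.
* `MO`, `ZO`, `eO`, `jO`, `clO` : system, configuration, labels of the tree, label of the line,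
  classes (the tree is a class, the line is independent).
* `touchO`, `famO`, `connO` : the structure is connected by its real contacts.
* `baseO` : helper442's `Base`; `labO` : labels of the tree lines.
* `oldO` : helper968's `Old` for two tree lines.
-/

set_option autoImplicit false
set_option linter.unusedSectionVars false

open MeasureTheory Set Filter Topology
open Crest.AnalysisR.Kinetic
open Crest.Agent.R122.Flow671 hiding rel
open Crest.Agent.R122.Loc45 Crest.Agent.R122.Ins45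
open Crest.Agent.R122.Kin796 Crest.Agent.R122.Kin796.CTree Crest.Agent.R122.Tree674
open Crest.Agent.R122.PathFlow968 Crest.Agent.R122.TreeLines335
open Crest.Agent.R122.VL581 Crest.Agent.R122.VL581.VSys Crest.Agent.R122.VLInst442
open Crest.Agent.R122.LN304 Crest.Agent.R122.LNg410 Crest.Agent.R122.EDefs602
open Crest.Agent.R122.LNTree410 Crest.Agent.R122.LNGraft410 Crest.Agent.R122.PWInst442
open Crest.Agent.R122.LNFam255
open Crest.Agent.R122.OneC285 (cT)
open scoped Classical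

noncomputable section

namespace Crest.Agent.R122.LNOS255

section gen

variable {J κ : Type} [Fintype J] {M : VSys J κ} {Z : J → PhasePoint} {P : CTree}
  {z : PhasePoint × Par P} {e : Idx P ↪ J}

/-- **The particles of a tree class are admissible labels**, with the marked lines `lineML`. -/
theorem lab_tree_cl (hΦ : AdmissiblePotential M.Φ) (hε : 0 < M.ε) (hT : 0 < M.T)
    (h : TreeIn M Z M.T P z.1 z.2 e) {cl : J → Finset J} (hcl : ∀ x, cl (e x) = part e)
    (x : Idx P) : Lab M Z cl (e x) (lineML M.Φ M.ε P z x).1.1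
      (back (lineML M.Φ M.ε P z x).1) := by
  rw [back_lineML]
  refine Or.inr ⟨⟨?_, ?_, ?_, ?_⟩, ?_⟩
  · rw [hcl]
    exact mem_part_self x
  · rw [h.bb x]
    exact rel_nonneg hε.le h.valid.2 x
  · intro hb'
    rw [hcl]
    exact (h.line_tree hΦ hε x le_rfl hb').symm
  · intro t ht htT k hk hkx _
    rw [hcl] at hk ⊢
    exact h.exit_tree hΦ hε hk hkx ht htT
  · intro _
    rw [hcl]
    exact h.last_tree hΦ hε hT x

/-- A single particle flies freely. -/
theorem st_single (hΦ : AdmissiblePotential M.Φ) (hε : 0 < M.ε) {j : J} (ho : M.o ≠ some j)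
    {t : ℝ} (h1 : M.bb j ≤ t) (h2 : t ≤ M.T) : M.st {j} t Z j = onLine (Z j) t := by
  have h3 := (Cls.single (M := M) (Z := Z) ho (bD := M.bb) rfl).line hΦ hε
    (Finset.mem_singleton_self j) le_rfl h1 h2
  have h4 : j ∉ M.mem {j} (M.bb j) := fun h => lt_irrefl _ (Finset.mem_filter.1 h).2.2
  have h5 : M.st {j} (M.bb j) Z j = ((Z j).1 + M.bb j • (Z j).2, (Z j).2) := dif_neg h4
  rw [h3, h5]
  unfold lineAt onLine
  refine Prod.ext ?_ rfl
  change (Z j).1 + M.bb j • (Z j).2 + (t - M.bb j) • (Z j).2 = (Z j).1 + t • (Z j).2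
  rw [add_assoc, ← add_smul]
  congr 2
  ring

/-- Distance at the entrance time. -/
theorem norm_ent {ε : ℝ} {y : Space3 × Space3} (hg : y.2 ≠ 0) (hb : ‖Flux663.bline y‖ ≤ ε) :
    ‖y.1 + OC663.entT ε y • y.2‖ = ε := by
  have hε : 0 ≤ ε := (norm_nonneg _).trans hb
  have hg' : ‖y.2‖ ≠ 0 := norm_ne_zero_iff.2 hg
  have hs : 0 ≤ ε ^ 2 - ‖Flux663.bline y‖ ^ 2 := by
    nlinarith [norm_nonneg (Flux663.bline y)]
  have h1 : y.1 + OC663.entT ε y • y.2 = Flux663.bline y +
      (-(Real.sqrt (ε ^ 2 - ‖Flux663.bline y‖ ^ 2) / ‖y.2‖)) • y.2 := by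
    unfold OC663.entT Flux663.bline
    module
  have h2 : ‖y.1 + OC663.entT ε y • y.2‖ ^ 2 = ε ^ 2 := by
    rw [h1, norm_add_sq_real, inner_smul_right, Flux663.inner_bline hg, norm_smul, norm_neg,
      Real.norm_eq_abs, mul_pow, sq_abs, div_pow, Real.sq_sqrt hs]
    field_simp
    ring
  have h3 := norm_nonneg (y.1 + OC663.entT ε y • y.2)
  nlinarith [sq_nonneg (‖y.1 + OC663.entT ε y • y.2‖ - ε),
    sq_nonneg (‖y.1 + OC663.entT ε y • y.2‖ + ε)]

end gen

/-! ### The structure -/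

variable {Φ : Space3 → ℝ} {ε te T' : ℝ} {n : ℕ} {P : CTree} {z : PhasePoint × Par P}
  {w : Config n} {l : ML}

/-- Births: the tree at `0`, the line at its birth. -/
def bO (P : CTree) (l : ML) : Idx P ⊕ Unit → ℝ := Sum.elim (fun _ => 0) fun _ => l.1.1

/-- Phase points at time `0`. -/
def VO (Φ : Space3 → ℝ) (ε : ℝ) {P : CTree} (z : PhasePoint × Par P) (l : ML) :
    Idx P ⊕ Unit → PhasePoint := Sum.elim (Tree674.lines Φ ε P z.1 z.2) fun _ => back l.1

/-- The master system. -/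
abbrev MO (Φ : Space3 → ℝ) (T' ε : ℝ) (n : ℕ) (P : CTree) (l : ML) :
    VSys (Fin n ⊕ (Idx P ⊕ Unit)) Unit := LNPart424.gsys Φ T' ε n (bO P l)

/-- The master configuration. -/
abbrev ZO (Φ : Space3 → ℝ) (ε : ℝ) (w : Config n) (z : PhasePoint × Par P) (l : ML) :
    Fin n ⊕ (Idx P ⊕ Unit) → PhasePoint := Sum.elim w (VO Φ ε z l)

/-- Labels of the tree. -/
def eO (n : ℕ) (P : CTree) : Idx P ↪ Fin n ⊕ (Idx P ⊕ Unit) :=
  ⟨fun x => Sum.inr (Sum.inl x), fun _ _ h => Sum.inl_injective (Sum.inr_injective h)⟩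

/-- Label of the line. -/
def jO (n : ℕ) (P : CTree) : Fin n ⊕ (Idx P ⊕ Unit) := Sum.inr (Sum.inr ())

@[simp] theorem eO_apply (x : Idx P) : eO n P x = Sum.inr (Sum.inl x) := rfl

/-- Classes: the tree; the line is independent. -/
abbrev clO (n : ℕ) (P : CTree) : Fin n ⊕ (Idx P ⊕ Unit) → Finset (Fin n ⊕ (Idx P ⊕ Unit)) :=
  clOf n (Sum.elim (fun _ : Idx P => some ()) fun _ : Unit => none)

theorem clO_tree (x : Idx P) : clO n P (eO n P x) = part (eO n P) := by
  ext j
  rw [eO_apply, mem_clOf, mem_part]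
  constructor
  · rintro ⟨_, y | y, rfl, h⟩
    · exact ⟨y, rfl⟩
    · exact absurd h (by simp)
  · rintro ⟨y, rfl⟩
    exact ⟨by simp, Sum.inl y, rfl, rfl⟩

theorem clO_line : clO n P (jO n P) = ∅ := clOf_none rfl

theorem jO_not_mem : jO n P ∉ part (eO n P) := by
  rw [mem_part]
  rintro ⟨x, hx⟩
  exact absurd (Sum.inr_injective hx) (by simp)

theorem disjO : Disjoint (part (eO n P)) {jO n P} :=
  Finset.disjoint_singleton_right.2 jO_not_mem

/-- The structure labels. -/
theorem univ_str (D : DecidableEq (Fin n ⊕ (Idx P ⊕ Unit))) :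
    Finset.univ.map (strE n (Idx P ⊕ Unit)) =
      @Union.union _ (@Finset.instUnion _ D) (part (eO n P)) {jO n P} := by
  ext j
  rw [Finset.mem_map, @Finset.mem_union _ D, mem_part, Finset.mem_singleton]
  constructor
  · rintro ⟨x | x, _, rfl⟩
    · exact Or.inl ⟨x, rfl⟩
    · exact Or.inr rfl
  · rintro (⟨x, rfl⟩ | rfl)
    · exact ⟨Sum.inl x, Finset.mem_univ _, rfl⟩
    · exact ⟨Sum.inr (), Finset.mem_univ _, rfl⟩

theorem no_obs (j : Fin n ⊕ (Idx P ⊕ Unit)) : (MO Φ T' ε n P l).o ≠ some j := by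
  intro h
  have h1 : (none : Option (Fin n ⊕ (Idx P ⊕ Unit))) = some _ := h
  exact absurd h1 (by simp)

theorem treeInO (hV : Valid Φ ε P T' z.1.2 z.2) (hS : Sep Φ ε P T' z.1 z.2) :
    TreeIn (MO Φ T' ε n P l) (ZO Φ ε w z l) (MO Φ T' ε n P l).T P z.1 z.2 (eO n P) where
  b _ := le_rfl
  Z _ := rfl
  o _ := no_obs _
  valid := hV
  sep := hS

theorem bb_jO (hl : 0 ≤ l.1.1) : (MO Φ T' ε n P l).bb (jO n P) = l.1.1 := max_eq_left hl

/-- Exit times of the tree class (the line: its birth). -/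
def bDO (n : ℕ) (P : CTree) (z : PhasePoint × Par P) (l : ML) : Fin n ⊕ (Idx P ⊕ Unit) → ℝ :=
  Sum.elim (fun _ => 0) (Sum.elim (rel P z.2) fun _ => l.1.1)

section facts

variable (hΦ : AdmissiblePotential Φ) (hε : 0 < ε)
include hΦ hε

/-- **The line touches the tree at the contact time.** -/
theorem touchO (hV : Valid Φ ε P T' z.1.2 z.2) (hS : Sep Φ ε P T' z.1 z.2)
    (hct : (z, l.1) ∈ OneC423.ctSet Φ ε te P) (hte : te ≤ T') (hl : 0 ≤ l.1.1) :
    Touch (MO Φ T' ε n P l) (ZO Φ ε w z l) (part (eO n P)) {jO n P} (bDO n P z l)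
      (eO n P (root P)) (jO n P) (cT ε z l) := by
  obtain ⟨h1, h2, h3, h4, h5⟩ := hct
  have hs0 : 0 < cT ε z l := hl.trans_lt h3
  have hsT : cT ε z l ≤ T' := h4.trans hte
  have hrel : rel P z.2 (root P) ≤ cT ε z l := (rel_lt hε.le hs0 h5.2 (root P)).le
  refine touch_tree hΦ hε (treeInO hV hS) (fun _ => rfl) (no_obs _) (bb_jO hl).symm
    ⟨hs0.le, hsT⟩ (hs0.trans_le hsT) hrel ?_
  rw [st_single hΦ hε (no_obs _) (by rw [bb_jO hl]; exact h3.le) hsT]
  have h6 := norm_ent h1 h2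
  have h7 : (onLine z.1 (cT ε z l)).1 - (onLine (ZO Φ ε w z l (jO n P)) (cT ε z l)).1 =
      -((OneC423.relL z.1 l.1).1 + OC663.entT ε (OneC423.relL z.1 l.1) •
        (OneC423.relL z.1 l.1).2) := by
    change z.1.1 + cT ε z l • z.1.2 - ((back l.1).1 + cT ε z l • (back l.1).2) =
      -((back l.1).1 - z.1.1 + cT ε z l • ((back l.1).2 - z.1.2))
    module
  rw [dist_eq_norm, h7, norm_neg, h6]
  exact le_rfl

variable {c : ℝ}

/-- **The structure is connected.** -/
theorem connO (hV : Valid Φ ε P T' z.1.2 z.2) (hS : Sep Φ ε P T' z.1 z.2)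
    (hct : (z, l.1) ∈ OneC423.ctSet Φ ε te P) (hte : te ≤ T') (hl : 0 ≤ l.1.1) (hc : 1 ≤ c) :
    (MO Φ T' ε n P l).Conn c (Finset.univ.map (strE n (Idx P ⊕ Unit))) (ZO Φ ε w z l) := by
  rw [univ_str fun a b => Classical.propDecidable (a = b)]
  exact (touchO (n := n) (w := w) hΦ hε hV hS hct hte hl).conn hε hc

/-- The connecting family of the structure. -/
def RO (Φ : Space3 → ℝ) (T' ε : ℝ) (w : Config n) (z : PhasePoint × Par P) (l : ML) :
    ℝ → Fin n ⊕ (Idx P ⊕ Unit) → Fin n ⊕ (Idx P ⊕ Unit) → Prop :=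
  RG (MO Φ T' ε n P l) (ZO Φ ε w z l) (part (eO n P)) {jO n P} (eO n P (root P)) (jO n P)
    (cT ε z l)

theorem famO (hV : Valid Φ ε P T' z.1.2 z.2) (hS : Sep Φ ε P T' z.1 z.2)
    (hct : (z, l.1) ∈ OneC423.ctSet Φ ε te P) (hte : te ≤ T') (hl : 0 ≤ l.1.1) (hc : 1 ≤ c) :
    LNEv968.Fam (MO Φ T' ε n P l) c (ZO Φ ε w z l) (Finset.univ.map (strE n (Idx P ⊕ Unit)))
      (RO Φ T' ε w z l) := by
  rw [univ_str fun a b => Classical.propDecidable (a = b)]
  exact (touchO (n := n) (w := w) hΦ hε hV hS hct hte hl).fam hε hc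

/-- Real contacts of two tree particles are not later than the release of the first one. -/
theorem oldO (hV : Valid Φ ε P T' z.1.2 z.2) (hS : Sep Φ ε P T' z.1 z.2)
    (hct : (z, l.1) ∈ OneC423.ctSet Φ ε te P) (hte : te ≤ T') (hl : 0 ≤ l.1.1) {x y : Idx P}
    (hxy : x ≠ y) : LNEv968.Old (clO n P) (bDO n P z l) (RO Φ T' ε w z l) (eO n P x)
      (eO n P y) :=
  (touchO (n := n) (w := w) hΦ hε hV hS hct hte hl).old₁ disjO (mem_part_self x)
    (mem_part_self y) (fun h => hxy ((eO n P).injective h)) (clO_tree x)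

/-- helper442's `Base`. -/
theorem baseO (hT : 0 ≤ T') (hV : Valid Φ ε P T' z.1.2 z.2) (hS : Sep Φ ε P T' z.1 z.2) :
    Base (MO Φ T' ε n P l) w (VO Φ ε z l) (clO n P) := by
  refine base_clOf (fun i => le_rfl) (fun i => no_obs _) (fun x _ => no_obs _) fun x hx => ?_
  rcases x with x | x
  · have h1 : clOf n (Sum.elim (fun _ : Idx P => some ()) fun _ : Unit => none)
        (Sum.inr (Sum.inl x)) = part (eO n P) := clO_tree x
    rw [h1]
    exact (treeInO (w := w) hV hS).ok_tree hΦ hε hT T'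
  · exact absurd rfl hx

/-- The tree lines are admissible labels. -/
theorem labO (hT : 0 < T') (hV : Valid Φ ε P T' z.1.2 z.2) (hS : Sep Φ ε P T' z.1 z.2)
    (x : Idx P) : Lab (MO Φ T' ε n P l) (ZO Φ ε w z l) (clO n P) (Sum.inr (Sum.inl x))
      (lineML Φ ε P z x).1.1 (back (lineML Φ ε P z x).1) :=
  lab_tree_cl hΦ hε hT (treeInO (w := w) hV hS) clO_tree x

end facts

end Crest.Agent.R122.LNOS255

end
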