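import Crest.Agent.R122.LNPart_424

/-!
# Row 122, LN1 → gateway (helper547): bad partitions of a part of the structure

Generalisation of `LNPart_424`: the bad partition concerns the gas and the structure labels in the
range of `g : S' ↪ S` only; the parts are anchored by labels of the structure in `A₀` or by gas
particles.

* `exists_emb_g`, `pull_g`, `elim_comp_g`.
* `badGasW_of_conn_g` : a bad connected set.
* `badGasW_one` : one connected set containing the structure (fewer parts than `s`).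
-/

set_option autoImplicit false
set_option linter.unusedSectionVars false
set_option maxHeartbeats 400000

open MeasureTheory Set
open scoped Classical ENNReal
open Crest.AnalysisR.Kinetic
open Crest.Agent.R122.VL581 Crest.Agent.R122.VLMeas973 Crest.Agent.R122.LNg410
open Crest.Agent.R122.LN304 Crest.Agent.R122.LNBridge968 Crest.Agent.R122.LNPart424

noncomputable section

namespace Crest.Agent.R122.LNPartG547

variable {Φ : Space3 → ℝ} {T ε C R ς : ℝ} {S S' : Type} [Fintype S] [Fintype S'] {n : ℕ}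

/-- The embedding of the gas particles in `Q` and the structure labels in the range of `g`. -/
theorem exists_emb_g (g : S' ↪ S) (Q : Finset (Fin n ⊕ S))
    (hQ : ∀ y : S, Sum.inr y ∈ Q ↔ ∃ y', g y' = y) :
    ∃ (k : ℕ) (ι : Fin k ↪ Fin n) (e : (Fin k ⊕ S') ↪ (Fin n ⊕ S)), k ≤ Q.card ∧
      (∀ x, e x = Sum.map ι g x) ∧ ∀ x, (∃ y, e y = x) ↔ x ∈ Q := by
  set A : Finset (Fin n) := Finset.univ.filter fun i => Sum.inl i ∈ Q with hA
  refine ⟨A.card, (A.orderEmbOfFin rfl).toEmbedding,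
    ⟨Sum.map (A.orderEmbOfFin rfl) g, Function.Injective.sumMap
      (A.orderEmbOfFin rfl).injective g.injective⟩, ?_, fun x => rfl, ?_⟩
  · have h1 : A.map ⟨Sum.inl, Sum.inl_injective⟩ ⊆ Q := by
      intro x hx
      obtain ⟨i, hi, rfl⟩ := Finset.mem_map.1 hx
      exact (Finset.mem_filter.1 hi).2
    have h2 := Finset.card_le_card h1
    rwa [Finset.card_map] at h2
  · intro x
    simp only [Function.Embedding.coeFn_mk]
    constructor
    · rintro ⟨y, rfl⟩
      rcases y with i | y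
      · exact (Finset.mem_filter.1 (A.orderEmbOfFin_mem rfl i)).2
      · exact (hQ _).2 ⟨y, rfl⟩
    · intro hx
      rcases x with i | y
      · have h1 : i ∈ Set.range (A.orderEmbOfFin rfl) := by
          rw [Finset.range_orderEmbOfFin]
          exact Finset.mem_filter.2 ⟨Finset.mem_univ _, hx⟩
        obtain ⟨j, hj⟩ := h1
        exact ⟨Sum.inl j, by simp [hj]⟩
      · obtain ⟨y', rfl⟩ := (hQ y).1 hx
        exact ⟨Sum.inr y', rfl⟩

/-- The pull back of the system. -/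
theorem pull_g (g : S' ↪ S) (b : S → ℝ) {k : ℕ} {ι : Fin k ↪ Fin n}
    {e : (Fin k ⊕ S') ↪ (Fin n ⊕ S)} (he : ∀ x, e x = Sum.map ι g x) :
    Pull (gsys Φ T ε k fun y => b (g y)) (gsys Φ T ε n b) e where
  Φ := rfl
  T := rfl
  ε := rfl
  b i := by
    rw [he]
    rcases i with i | i <;> rfl
  o i := by
    show (none : Option _) = _ ↔ (none : Option _) = _
    simp
  S := rfl

theorem elim_comp_g (g : S' ↪ S) (w : Config n) (z : S → PhasePoint) {k : ℕ} {ι : Fin k ↪ Fin n}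
    {e : (Fin k ⊕ S') ↪ (Fin n ⊕ S)} (he : ∀ x, e x = Sum.map ι g x) :
    (fun x => (Sum.elim w z : Fin n ⊕ S → PhasePoint) (e x)) =
      Sum.elim (fun i => w (ι i)) (fun y => z (g y)) := by
  funext x
  rw [he]
  rcases x with i | i <;> rfl

/-- **A bad connected set gives a bad partition** of a sub-gas and the structure labels in the range
of `g`; the parts are anchored by structure labels in `A₀` or by gas particles. -/
theorem badGasW_of_conn_g (hΦ : AdmissiblePotential Φ) (hε : 0 < ε) (g : S' ↪ S) {b : S → ℝ}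
    {z : S → PhasePoint} {w : Config n} {s N : ℕ} {A₀ : Finset S'}
    {Λ : Finset (Finset (Fin n ⊕ S))} (hd : ∀ π ∈ Λ, ∀ π' ∈ Λ, π ≠ π' → Disjoint π π')
    (hcard : Λ.card ≤ s) (hc : ∀ π ∈ Λ, (gsys Φ T ε n b).Conn C π (Sum.elim w z))
    (hA : ∀ π ∈ Λ, (∃ y ∈ A₀, Sum.inr (g y) ∈ π) ∨ ∃ i, Sum.inl i ∈ π)
    {G π₀ Q : Finset (Fin n ⊕ S)} (hG : (gsys Φ T ε n b).Conn C G (Sum.elim w z))
    (h0 : π₀ ∈ Λ) (hs : π₀ ⊆ G) (hQm : ∀ x, x ∈ Q ↔ x ∈ G ∨ x ∈ uni Λ)
    (hg : ∀ y : S, Sum.inr y ∈ Q ↔ ∃ y', g y' = y) (hN : Q.card ≤ N)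
    (hbad : ¬ TL (gsys Φ T ε n b) C (R * ε) ς G (Sum.elim w z) ∨
      ∃ π ∈ Λ, (∃ x ∈ π, x ∈ G) ∧ π ≠ π₀) :
    LN2.BadGasW Φ T C R ς ε N s A₀ (fun y => b (g y)) (fun y => z (g y)) w := by
  obtain ⟨k, ι, e, hk, he, hQ⟩ := exists_emb_g g Q hg
  refine ⟨k, hk.trans hN, ι, ?_⟩
  have h1 := badPartW_of_conn (pull_g (Φ := Φ) (T := T) (ε := ε) g b he) hΦ hε
    (A' := LN2.anch k A₀) (ℓ := R * ε) (ς := ς) hc hd hcard (fun π hπ => by
      rcases hA π hπ with ⟨y, hy, hyπ⟩ | ⟨i, hi⟩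
      · refine ⟨Sum.inr y, Finset.inr_mem_disjSum.2 hy, ?_⟩
        rw [he]
        exact hyπ
      · have hiQ : (Sum.inl i : Fin n ⊕ S) ∈ Q :=
          (hQm _).2 (Or.inr (LNPart424.mem_uni.2 ⟨π, hπ, hi⟩))
        obtain ⟨y, hy⟩ := (hQ _).2 hiQ
        rcases y with j | y
        · exact ⟨Sum.inl j, Finset.inl_mem_disjSum.2 (Finset.mem_univ _), by rw [hy]; exact hi⟩
        · rw [he] at hy
          simp at hy) hG h0 hs (fun x => (hQ x).trans (hQm x)) hbad
  rwa [elim_comp_g g w z he] at h1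

/-- One connected part. -/
theorem badPartW_one {J κ : Type} [Fintype J] {M : VSys J κ} {ℓ : ℝ} {Z : J → PhasePoint} {s : ℕ}
    {A : Finset J} (h1s : 1 < s) (hc : M.Conn C Finset.univ Z) (hA : A.Nonempty) :
    LN2.BadPartW M C ℓ ς s A Z := by
  have hne : (Finset.univ : Finset J) ≠ ∅ := hc.1.ne_empty
  refine ⟨Finpartition.indiscrete hne, fun P hP => ?_, Or.inl ?_⟩
  · rw [Finpartition.indiscrete_parts, Finset.mem_singleton] at hP
    subst hP
    obtain ⟨y, hy⟩ := hA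
    exact ⟨hc, y, Finset.mem_univ _, hy⟩
  · rw [Finpartition.indiscrete_parts, Finset.card_singleton]
    exact h1s

/-- **One connected set containing the structure**: a bad partition if `1 < s`. -/
theorem badGasW_one (hΦ : AdmissiblePotential Φ) (hε : 0 < ε) {b : S → ℝ}
    {z : S → PhasePoint} {w : Config n} {s N : ℕ} (h1s : 1 < s) {A₀ : Finset S}
    {G : Finset (Fin n ⊕ S)} (hG : (gsys Φ T ε n b).Conn C G (Sum.elim w z))
    (hS : ∀ y : S, Sum.inr y ∈ G) (hA : A₀.Nonempty) (hN : G.card ≤ N) :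
    LN2.BadGasW Φ T C R ς ε N s A₀ b z w := by
  obtain ⟨k, ι, e, hk, he, hQ⟩ := exists_emb G hS
  have hp := pull_gsys (Φ := Φ) (T := T) (ε := ε) b he
  have hmap : (Finset.univ : Finset (Fin k ⊕ S)).map e = G := by
    ext x
    rw [Finset.mem_map, ← hQ]
    exact ⟨fun ⟨y, _, hy⟩ => ⟨y, hy⟩, fun ⟨y, hy⟩ => ⟨y, Finset.mem_univ _, hy⟩⟩
  have hc : (gsys Φ T ε k b).Conn C Finset.univ (fun x => (Sum.elim w z : Fin n ⊕ S → PhasePoint)
      (e x)) := (hp.conn hΦ hε).1 (by rw [hmap]; exact hG)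
  rw [elim_comp w z he] at hc
  obtain ⟨y, hy⟩ := hA
  exact ⟨k, hk.trans hN, ι, badPartW_one h1s hc ⟨Sum.inr y, Finset.inr_mem_disjSum.2 hy⟩⟩

end Crest.Agent.R122.LNPartG547

end
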