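import Crest.Agent.R122.LNPartS_291
import Crest.Agent.R122.LNExit_968

/-!
# Exit data of the glued world, from the connecting family of helper968

`famG_of_old` : `LNEv968.Fam` + `LNEv968.Old` for the pairs of exits of the derived world.
-/

set_option autoImplicit false
set_option linter.unusedSectionVars false

open MeasureTheory Set Filter Topology
open Crest.AnalysisR.Kinetic
open Crest.Agent.R122.Flow671 Crest.Agent.R122.Loc45 Crest.Agent.R122.Ins45
open Crest.Agent.R122.VL581 Crest.Agent.R122.VL581.VSys Crest.Agent.R122.VLInst442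
open Crest.Agent.R122.LNInst491 Crest.Agent.R122.LN304 Crest.Agent.R122.LNg410
open Crest.Agent.R122.PWGlue491 Crest.Agent.R122.LNW291

noncomputable section

namespace Crest.Agent.R122.LNPartS291

variable {J κ : Type} [Fintype J] {M : VSys J κ} {Z : J → PhasePoint}
  {Sp : J → Finset J} {bD : J → ℝ} {A : Finset J} {XD : ℝ → J → PhasePoint}
  {c : ℝ} {π : Finset J} {R : ℝ → J → J → Prop}

/-- helper968's timed family as an untimed one. -/
theorem fam_of (hF : LNEv968.Fam M c Z π R) :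
    Fam M c Z π fun j k => ∃ r ∈ Icc 0 M.T, R r j k :=
  ⟨hF.conn, fun i hi j hj hij ⟨r, hr, h⟩ => ⟨r, hr, hF.vct r hr i hi j hj hij h⟩⟩

/-- helper968's `Fam` and `Old` give `FamG`. -/
theorem famG_of_old (hF : LNEv968.Fam M c Z π R)
    (hold : ∀ a ∈ π, a ∈ A → ∀ b ∈ π, b ∈ A → a ≠ b → LNEv968.Old Sp bD R a b) :
    FamG M c Z Sp bD A π fun j k => ∃ r ∈ Icc 0 M.T, R r j k := by
  refine ⟨fam_of hF, fun i hi j hj hij ⟨r, hr, h⟩ hiA hjA => ?_⟩
  obtain ⟨h1, h2⟩ := hold i hi hiA j hj hjA hij r h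
  obtain ⟨_, h3⟩ := hold j hj hjA i hi hiA hij.symm r (hF.symm r i j h)
  exact ⟨h1, r, hr.1, h2, h3, hF.vct r hr i hi j hj hij h⟩

/-- **PartS**, helper968's form. -/
theorem partS_of_old (H : GD M Z Sp bD A XD) (hsub : ∀ i ∈ π, Sp i ⊆ π)
    (hnon : ∀ i ∈ π, i ∈ A → (Sp i).Nonempty) (hF : LNEv968.Fam M c Z π R)
    (hold : ∀ a ∈ π, a ∈ A → ∀ b ∈ π, b ∈ A → a ≠ b → LNEv968.Old Sp bD R a b) :
    PartS M c Z (CG M Z Sp bD A XD) π :=
  partS_of_gd H hsub hnon (famG_of_old hF hold)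

/-- **PartD**, helper968's form. -/
theorem partD_of_old (hΦ : AdmissiblePotential M.Φ) (hε : 0 < M.ε) (H : GD M Z Sp bD A XD)
    (hT : 0 ≤ M.T) (hF : LNEv968.Fam M c Z π R)
    (hold : ∀ a ∈ π, a ∈ A → ∀ b ∈ π, b ∈ A → a ≠ b → LNEv968.Old Sp bD R a b)
    {C' : ℝ → J → J → Prop} {a : J} (ha : a ∈ π)
    (hC' : ∀ v d, C' v a d → CD M.ε bD A XD v a d) :
    PartD M c Z (CG M Z Sp bD A XD) C' π a :=
  partD_of_gd hΦ hε H hT (famG_of_old hF hold) ha hC'

end Crest.Agent.R122.LNPartS291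

end
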