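import Crest.Agent.R122.LNNearT_383

/-!
# Row 122, LN1 events (helper383), part 7: returns to the hidden curves of a tree

The tubes are `ptube Φ ε P z` (helper285), the paths of all members (root included) of a tree which is
a sub-world (`TreeIn`, helper410) of the part `π`.

* `NearHyp.never` : a line whose pair with the member `m₀` is not in the connecting family is never
  near `m₀`, before the touch time.
* `not_retC_own` : the line belongs to the part of the tree (it is not a member of the tree and has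
  no contact with a member of the tree in the family): no return (closed form `RetC`, `RetD`).
* `not_retC_indep` : the line is independent (its own part `{p}`).
* `NearFam.not_retC` : the gas form of `not_retC_own`.
-/

set_option autoImplicit false
set_option linter.unusedSectionVars false

open MeasureTheory Set Filter Topology
open scoped ENNReal
open Crest.AnalysisR.Kinetic
open Crest.Agent.R122.Flow671 hiding rel
open Crest.Agent.R122.Ins45 Crest.Agent.R122.Causal291
open Crest.Agent.R122.Inf879 Crest.Agent.R122.GC311 Crest.Agent.R122.EDefs602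
open Crest.Agent.R122.EDefs602.MW Crest.Agent.R122.MWFam255 Crest.Agent.R122.GIV566
open Crest.Agent.R122.VL581 Crest.Agent.R122.LN304 Crest.Agent.R122.LNg410
open Crest.Agent.R122.LNEv968
open Crest.Agent.R122.Kin796 Crest.Agent.R122.Kin796.CTree Crest.Agent.R122.Tree674
open Crest.Agent.R122.PathFlow968 Crest.Agent.R122.TreeLines335
open Crest.Agent.R122.LNTree410
open Crest.Agent.R122.LNEv818 (ReachAll)
open Crest.Agent.R122.RtG302 (near)
open Crest.Agent.R122.LNPart424 (gsys)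
open Crest.Agent.R122.OneC285 (ptube)
open scoped Classical

namespace Crest.Agent.R122.LNEv383

noncomputable section

variable {ι κ J : Type} [Fintype ι] [Fintype J]
variable {Φ : Space3 → ℝ} {ε T T' r : ℝ} {K : ℕ} {Z : MW ι}
variable {M : VSys J κ} {c ℓ ς : ℝ} {Zc : J → PhasePoint} {Λ : Finset (Finset J)}
  {π B : Finset J} {a m₀ p : J} {N : ℕ} {lab : ι → J} {l : ML} {R : ℝ → J → J → Prop}
  {P : CTree} {z : PhasePoint × Par P} {e : Idx P ↪ J} {v : ℝ}

/-- **A line is not near a member with which it has no contact.** -/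
theorem NearHyp.never [Nonempty κ] (h : NearHyp M c ℓ ς Zc Λ π B a m₀ N R Φ ε T K Z lab l r)
    (hR : ∀ s, ¬ R s a m₀) (hv : v ∈ Icc 0 T) (hvt : v ≤ Z.thetaL Φ ε K T l) (hb : l.1.1 ≤ v) :
    r < dist ((Z.ins l).path Φ ε v (Sum.inr ())).1 (M.st B v Zc m₀).1 := by
  by_contra hcon
  rw [not_lt] at hcon
  have hvM : v ∈ Icc 0 M.T := ⟨hv.1, hv.2.trans h.hTM⟩
  obtain ⟨Y, hY, ha, A, hA, haA, hok, hq⟩ := (h.reach v hv hvt (Sum.inr ()) ci_inr hb).1
  have hcn : M.Conn c (π ∪ Y) Zc := hY.conn_union h.conn h.mem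
  have hcard : (π ∪ Y ∪ uni Λ).card ≤ N + N + N := by
    refine (Finset.card_le_card ?_).trans (hY.card.trans (by omega))
    intro z hz
    simp only [Finset.mem_union] at hz ⊢
    rcases hz with (hz | hz) | hz
    · exact Or.inr (sub_uni h.part hz)
    · exact Or.inl hz
    · exact Or.inr hz
  have hT := h.noBad _ hcn ⟨π, h.part, Finset.subset_union_left⟩ hcard
  have hv1 : M.VCt c (π ∪ Y) a m₀ v Zc := by
    refine vct_of_st hA (h.Bπ.trans Finset.subset_union_left) haA h.m₀B hok (h.okB v hv)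
      (hY.obs a ha) h.obs ?_
    have : (M.st A v Zc a).1 = ((Z.add (MW.line l)).path Φ ε v (Sum.inr ())).1 := hq
    rw [this]
    exact hcon.trans h.hr
  obtain ⟨t, -, hRt, -⟩ := window h.fam hT hcn Finset.subset_union_left h.hℓς h.mem
    (h.Bπ h.m₀B) h.m₀a hvM hv1
  exact hR t hRt

/-- The hidden curve of a member of the tree. -/
theorem ptube_eq (hΦ : AdmissiblePotential M.Φ) (hε : 0 < M.ε)
    (hT : TreeIn M Zc T' P z.1 z.2 e) (hv : v ∈ Icc 0 T') (k : Idx P) :
    (ptube M.Φ M.ε P z).c k v = (M.st (LNTree410.part e) v Zc (e k)).1 := by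
  rw [hT.st_tree hΦ hε hv]
  exact Hid424.curve_eq_path (X := z.1.1) (v := z.1.2) hΦ hε hT.valid hT.sep hv k

/-- **No return of a line of the part of the tree** to the hidden curves of the tree. -/
theorem not_retD_own [Nonempty κ] (hMΦ : M.Φ = Φ)
    (h : ∀ k, NearHyp M c ℓ ς Zc Λ π (LNTree410.part e) a (e k) N R Φ ε T K Z lab l r)
    (hT : TreeIn M Zc T' P z.1 z.2 e) (hTT : T ≤ T') (hR : ∀ k s, ¬ R s a (e k)) :
    ¬ RetD Φ ε r K T Z l (ptube Φ ε P z) := by
  have h0 := h (root P)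
  have hε := h0.hε
  rintro ⟨v, hv, hvt, hret⟩
  have hcv : ∀ k, (ptube Φ ε P z).c k v = (M.st (LNTree410.part e) v Zc (e k)).1 := by
    intro k
    have h1 := ptube_eq (by rw [hMΦ]; exact h0.hΦ) (by rw [h0.hMε]; exact hε) hT
      ⟨hv.1, hv.2.trans hTT⟩ k
    rwa [hMΦ, h0.hMε] at h1
  rcases hret with ⟨hb, k, -, hd⟩ | ⟨i, hi, ⟨k, -, hd⟩ | ⟨k, -, hd⟩⟩
  · rw [hcv, dist_comm] at hd
    exact absurd hd (not_le.2 ((h k).never (hR k) hv hvt hb))
  · rw [hcv, dist_comm] at hd
    exact absurd hd (not_le.2 ((h k).influenced hv hvt hi).1)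
  · rw [hcv, dist_comm] at hd
    exact absurd hd (not_le.2 ((h k).influenced hv hvt hi).2)

theorem not_retC_own [Nonempty κ] (hMΦ : M.Φ = Φ)
    (h : ∀ k, NearHyp M c ℓ ς Zc Λ π (LNTree410.part e) a (e k) N R Φ ε T K Z lab l r)
    (hT : TreeIn M Zc T' P z.1 z.2 e) (hTT : T ≤ T') (hR : ∀ k s, ¬ R s a (e k)) :
    ¬ RetC Φ ε r K T Z l (ptube Φ ε P z) :=
  fun hc => not_retD_own hMΦ h hT hTT hR (retC_retD hc)

/-- **No return of an independent line** (part `{p}`) to the hidden curves of a tree inside the part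
`π`. -/
theorem not_retD_indep [Nonempty κ] (hΦ : AdmissiblePotential M.Φ) (hε : 0 < M.ε)
    (hT : TreeIn M Zc T' P z.1 z.2 e) (hTT : T ≤ T') (hTM : T ≤ M.T)
    (hπΛ : π ∈ Λ) (hpΛ : ({p} : Finset J) ∈ Λ) (heπ : LNTree410.part e ⊆ π) (hpπ : p ∉ π)
    (hr : r ≤ c * M.ε) (hℓς : 2 * ℓ ≤ ς) (hconn : ∀ π ∈ Λ, M.Conn c π Zc)
    (hNB : NoBad M c ℓ ς Zc Λ N) (hNT : NoTwo M c Zc Λ N) (hlab : ∀ k, lab k ≠ p)
    (hR : ReachAll (Reach M c Zc Λ {p} p N) M.Φ M.ε K T Z lab l p) :
    ¬ RetD M.Φ M.ε r K T Z l (ptube M.Φ M.ε P z) := by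
  have hne : π ≠ {p} := fun h' => hpπ (h' ▸ Finset.mem_singleton_self p)
  have h1 : RetHyp M c ℓ ς Zc Λ {p} p N (ptube M.Φ M.ε P z) T (fun _ : Idx P => π) e lab l r :=
    { tube := {
        part := fun _ => hπΛ
        mem := fun i => heπ (mem_part_self i)
        obs := fun i => hT.o i
        path := fun i v hv hb => by
          have hv' : v ∈ Icc 0 T' := ⟨hv.1, hv.2.trans hTT⟩
          refine ⟨LNTree410.part e, heπ, mem_part_self i,
            hT.ok_tree hΦ hε (hv'.1.trans hv'.2) v, ?_⟩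
          exact ptube_eq hΦ hε hT hv' i }
      hTM := hTM
      hr := hr
      hℓς := hℓς
      conn := hconn
      noBad := hNB
      noTwo := hNT
      part := hpΛ
      mem := Finset.mem_singleton_self p
      lab := hlab
      own := fun k hk => absurd (hk ▸ heπ (mem_part_self k)) hpπ }
  exact h1.not_retD hΦ hε hR fun _ => hne

theorem not_retC_indep [Nonempty κ] (hΦ : AdmissiblePotential M.Φ) (hε : 0 < M.ε)
    (hT : TreeIn M Zc T' P z.1 z.2 e) (hTT : T ≤ T') (hTM : T ≤ M.T)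
    (hπΛ : π ∈ Λ) (hpΛ : ({p} : Finset J) ∈ Λ) (heπ : LNTree410.part e ⊆ π) (hpπ : p ∉ π)
    (hr : r ≤ c * M.ε) (hℓς : 2 * ℓ ≤ ς) (hconn : ∀ π ∈ Λ, M.Conn c π Zc)
    (hNB : NoBad M c ℓ ς Zc Λ N) (hNT : NoTwo M c Zc Λ N) (hlab : ∀ k, lab k ≠ p)
    (hR : ReachAll (Reach M c Zc Λ {p} p N) M.Φ M.ε K T Z lab l p) :
    ¬ RetC M.Φ M.ε r K T Z l (ptube M.Φ M.ε P z) := fun hc =>
  not_retD_indep hΦ hε hT hTT hTM hπΛ hpΛ heπ hpπ hr hℓς hconn hNB hNT hlab hR (retC_retD hc)

/-! ### Gas form -/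

section gas

variable {σ μ : Type} [Fintype σ] {n : ℕ} {T₀ : ℝ} {b : σ → ℝ} {w : Config n}
  {V : σ → PhasePoint} {RR : ℝ → Fin n ⊕ σ → Fin n ⊕ σ → Prop} {g : Idx P ↪ σ} {ls : μ → ML}
  {q : μ → σ}

namespace NearFam

variable (h : NearFam Φ T₀ T T' ε K c ℓ ς r N b w V RR P z g ls q)

include h

/-- The near-line hypotheses for any member `k` of the tree. -/
theorem hypk (x : μ) (k : Idx P) (hne : q x ≠ g k)
    (hold : ∀ s, RR s (Sum.inr (q x)) (Sum.inr (g k)) → s ≤ (ls x).1.1) :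
    NearHyp (gsys Φ T₀ ε n b) c ℓ ς (Sum.elim w V) {strP n σ} (strP n σ)
    (LNTree410.part (g.trans Function.Embedding.inr)) (Sum.inr (q x))
    ((g.trans Function.Embedding.inr) k) N RR Φ ε T K (MW.cfg w) Sum.inl (ls x) r where
  hΦ := h.hΦ
  hε := h.hε
  okZ := h.okZ
  okZl := h.okL x
  hMε := rfl
  hTM := h.hTT₀
  hc := h.hc
  hr := h.hr
  hℓς := h.hℓς
  conn := h.conn
  noBad := h.noBad
  part := Finset.mem_singleton_self _
  mem := mem_strP.2 ⟨_, rfl⟩
  m₀B := mem_part_self _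
  Bπ := by
    intro j hj
    obtain ⟨i, rfl⟩ := mem_part.1 hj
    exact mem_strP.2 ⟨_, rfl⟩
  m₀a := fun h' => hne (Sum.inr_injective h').symm
  obs := h.tree.o _
  okB v hv := h.tree.ok_tree h.hΦ h.hε (h.hT.trans h.hTT) v
  labNe k := by simp
  fam := h.fam
  old s hs := hold s hs
  b0 := h.b0 x
  reach := h.reach x

/-- **No return** of a line of the structure which has no contact with the tree. -/
theorem not_retC (x : μ) (hne : ∀ k, q x ≠ g k)
    (hR : ∀ k s, ¬ RR s (Sum.inr (q x)) (Sum.inr (g k))) :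
    ¬ RetC Φ ε r K T (MW.cfg w) (ls x) (ptube Φ ε P z) :=
  not_retC_own (M := gsys Φ T₀ ε n b) (e := g.trans Function.Embedding.inr) rfl
    (fun k => h.hypk x k (hne k) fun s hs => absurd hs (hR k s)) h.tree h.hTT hR

end NearFam

end gas

end

end Crest.Agent.R122.LNEv383
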