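import Crest.Agent.R122.LNS1_674
import Crest.Agent.R122.LNReachAll_818
import Crest.Agent.R122.LNPartS3_291
import Crest.Agent.R122.LinkX_331

/-!
# Row 122, LN1 (helper674): reachability for the exits of one structure

* `Exits.bindW`, `Exits.twoW` : the hypotheses of helper818's `reachAll_core`.
-/

set_option autoImplicit false
set_option linter.unusedSectionVars false

open MeasureTheory Set Filter Topology
open scoped NNReal ENNReal
open Crest.AnalysisR.Kinetic
open Crest.Agent.R122.Loc45 Crest.Agent.R122.Ins45 Crest.Agent.R122.EDefs602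
open Crest.Agent.R122.VL581 Crest.Agent.R122.VL581.VSys Crest.Agent.R122.VLInst442
open Crest.Agent.R122.LN304 Crest.Agent.R122.LNg410 Crest.Agent.R122.LNEv968
open Crest.Agent.R122.PWGlue491 Crest.Agent.R122.PWInst442 Crest.Agent.R122.LNPart424
open Crest.Agent.R122.MWFam255 Crest.Agent.R122.LNEv818 Crest.Agent.R122.LinkD331
open scoped Classical

noncomputable section

namespace Crest.Agent.R122.LNS674

variable {σ : Type} [Fintype σ] {n : ℕ} {ι μ : Type} [Fintype ι] {Φ : Space3 → ℝ}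
  {T te ε c ℓ ς : ℝ} {b : σ → ℝ} {V : σ → PhasePoint} {w : Config n}
  {cl : Fin n ⊕ σ → Finset (Fin n ⊕ σ)} {R : ℝ → Fin n ⊕ σ → Fin n ⊕ σ → Prop} {W : MW ι}
  {f : ι ↪ Fin n ⊕ σ} {ls : μ → ML} {p : μ → σ} {K N m : ℕ}

theorem One.sub_pS (h : One Φ T ε c b V w cl R) (j : Fin n ⊕ σ) : cl j ⊆ pS n σ := by
  intro k hk
  rcases j with j | j
  · rw [h.base.gas_cl] at hk
    exact absurd hk (Finset.notMem_empty k)
  · rcases k with k | k
    · have h2 := h.base.cover.eq _ _ hk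
      rw [h.base.gas_cl] at h2
      rw [← h2] at hk
      exact absurd hk (Finset.notMem_empty _)
    · exact inr_mem_pS k

theorem One.sub_uni (h : One Φ T ε c b V w cl R) (j : Fin n ⊕ σ) : cl j ⊆ uni (LS n σ) := by
  rw [uni_LS]
  exact h.sub_pS j

namespace Exits

/-- The glued worlds of `W` and of `W.ins (ls x)`. -/
def X (E : Exits Φ T te ε b V w cl R W f ls p) (x : μ) : Bool → ℝ → Fin n ⊕ σ → PhasePoint
  | false => XG (gsys Φ T ε n b) (Sum.elim w V) cl (bD W f) (labs f) (XD W f Φ ε)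
  | true => XG (gsys Φ T ε n b) (Sum.elim w V) cl
      (bD (W.ins (ls x)) (insF f (Sum.inr (p x)) (E.out x)))
      (labs (insF f (Sum.inr (p x)) (E.out x)))
      (XD (W.ins (ls x)) (insF f (Sum.inr (p x)) (E.out x)) Φ ε)

/-- The contacts of the glued worlds of `W` and of `W.ins (ls x)`. -/
def C (E : Exits Φ T te ε b V w cl R W f ls p) (x : μ) : Bool → ℝ → Fin n ⊕ σ → Fin n ⊕ σ → Prop
  | false => CG (gsys Φ T ε n b) (Sum.elim w V) cl (bD W f) (labs f) (XD W f Φ ε)
  | true => CG (gsys Φ T ε n b) (Sum.elim w V) cl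
      (bD (W.ins (ls x)) (insF f (Sum.inr (p x)) (E.out x)))
      (labs (insF f (Sum.inr (p x)) (E.out x)))
      (XD (W.ins (ls x)) (insF f (Sum.inr (p x)) (E.out x)) Φ ε)

variable (E : Exits Φ T te ε b V w cl R W f ls p)
include E

theorem holdB (h : One Φ T ε c b V w cl R) (i i' : ι) (hi : f i ∈ pS n σ) (hi' : f i' ∈ pS n σ)
    (hne : i ≠ i') (r : ℝ) (hr : R r (f i) (f i')) : f i' ∈ cl (f i) ∧ r ≤ W.b i := by
  obtain ⟨x, hx⟩ := mem_pS.1 hi
  obtain ⟨y, hy⟩ := mem_pS.1 hi'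
  rw [hx, hy] at hr ⊢
  exact E.oldB i i' x y hx hy hne r hr

theorem holdI (h : One Φ T ε c b V w cl R) (x : μ) (i i' : ι ⊕ Unit)
    (hi : insF f (Sum.inr (p x)) (E.out x) i ∈ pS n σ)
    (hi' : insF f (Sum.inr (p x)) (E.out x) i' ∈ pS n σ) (hne : i ≠ i') (r : ℝ)
    (hr : R r (insF f (Sum.inr (p x)) (E.out x) i) (insF f (Sum.inr (p x)) (E.out x) i')) :
    insF f (Sum.inr (p x)) (E.out x) i' ∈ cl (insF f (Sum.inr (p x)) (E.out x) i) ∧
      r ≤ (W.ins (ls x)).b i := by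
  rcases i with i | i <;> rcases i' with i' | i'
  · exact E.holdB h i i' hi hi' (fun h' => hne (by rw [h'])) r hr
  · obtain ⟨y, hy⟩ := mem_pS.1 hi
    change f i = Sum.inr y at hy
    change R r (f i) (Sum.inr (p x)) at hr
    have h1 := E.oldX x i y hy r (by rw [← hy]; exact h.fam.symm _ _ _ hr)
    refine ⟨?_, h1.2.2⟩
    change Sum.inr (p x) ∈ cl (f i)
    rw [hy, h.base.cover.eq _ _ h1.1]
    exact E.memC x
  · obtain ⟨y, hy⟩ := mem_pS.1 hi'
    change f i' = Sum.inr y at hy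
    change R r (Sum.inr (p x)) (f i') at hr
    have h1 := E.oldX x i' y hy r (by rw [← hy]; exact hr)
    refine ⟨?_, h1.2.1⟩
    change f i' ∈ cl (Sum.inr (p x))
    rw [hy]
    exact h1.1
  · exact absurd rfl hne

/-- **The hypotheses of helper818 on the master worlds.** -/
theorem twoW (h : One Φ T ε c b V w cl R) (hT0 : 0 ≤ T)
    (hX : Ctx (gsys Φ T ε n b) c ℓ ς (Sum.elim w V) (LS n σ) N) (x : μ)
    (hH : ∀ β, ¬ BadHit (gsys Φ T ε n b) c (Sum.elim w V) (E.X x β) (E.C x β) (LS n σ) N) :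
    TwoW (gsys Φ T ε n b) c ℓ ς (Sum.elim w V) (E.X x) (E.C x)
      (cmL (gsys Φ T ε n b) W (ls x) f (Sum.inr (p x)))
      (fjL (gsys Φ T ε n b) W (ls x) f (Sum.inr (p x))) (LS n σ) (pS n σ) (Sum.inr (p x)) N where
  hΦ := hX.hΦ
  hε := hX.hε
  hc := hX.hc
  hℓς := hX.hℓς
  rw β := by
    cases β
    · exact E.gd0.rw hX.hΦ hX.hε hT0
    · exact (E.gd1 x).rw hX.hΦ hX.hε hT0
  parts := h.parts
  noBad := hX.nb
  noTwo := hX.nt
  noHit := hH
  hπ := mem_LS.2 rfl
  ha := inr_mem_pS (p x)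
  partS β := by
    cases β
    · exact LNPartS291.partS_lab (M := gsys Φ T ε n b) (W := W) (f := f) E.gd0
        (fun i _ => h.sub_pS i) (fun i hi => ⟨_, E.memB i hi⟩) h.fam (E.holdB h)
    · exact LNPartS291.partS_lab (M := gsys Φ T ε n b) (W := W.ins (ls x))
        (f := insF f (Sum.inr (p x)) (E.out x)) (E.gd1 x)
        (fun i _ => h.sub_pS i) (fun i hi => by
          rcases i with i | i
          · exact ⟨_, E.memB i hi⟩
          · exact ⟨_, E.memC x⟩) h.fam (E.holdI h x)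
  sub β s j k hjk hc := by
    cases β
    · exact LNPartS291.cg_of_cl (M := gsys Φ T ε n b) (W := W) (f := f) E.gd0 hc
    · exact LNPartS291.cg_of_cl (M := gsys Φ T ε n b) (W := W.ins (ls x))
        (f := insF f (Sum.inr (p x)) (E.out x)) (E.gd1 x) hc
  exit β d v hd hda hv _ hc := by
    cases β
    · exact LNPartS291.partD_lab (M := gsys Φ T ε n b) (W := W) (f := f) E.gd0 hX.hΦ hX.hε hT0
        h.fam (E.holdB h) (inr_mem_pS (p x)) d v hd hda hv hc
    · exact LNPartS291.partD_lab (M := gsys Φ T ε n b) (W := W.ins (ls x))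
        (f := insF f (Sum.inr (p x)) (E.out x)) (E.gd1 x) hX.hΦ hX.hε hT0
        h.fam (E.holdI h x) (inr_mem_pS (p x)) d v hd hda hv hc
  obs := by
    intro h'
    cases h'
  out s k hc := by
    obtain ⟨i, j, _, h2, _⟩ := hc
    exact E.out x i h2

/-- **The hypotheses of helper818 on the marked worlds.** -/
theorem bindW (h : One Φ T ε c b V w cl R) (hΦ : AdmissiblePotential Φ) (hε : 0 < ε)
    (hte : te ≤ T) (x : μ) :
    BindW (gsys Φ T ε n b) (E.X x) (E.C x) (LS n σ) W (ls x) f (Sum.inr (p x)) K te where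
  inj := (insF f (Sum.inr (p x)) (E.out x)).injective
  nonneg i := (bb_nonneg (gsys Φ T ε n b) _).trans (GDMW.bb_le (M := gsys Φ T ε n b) (E.gd1 x) i)
  ok := E.ok0
  okA := E.ok1 x
  le := hte
  path0 s hs k hk := GDMW.xg_eq (M := gsys Φ T ε n b) E.gd0 fun _ => hk
  path1 s hs k hk := GDMW.xg_eq (M := gsys Φ T ε n b) (E.gd1 x) fun _ => hk
  size0 v hv k hk := PW365.card_preF_le (M := gsys Φ T ε n b) (W := W) (f := f) E.gd0 E.cb0 hv.2
    h.sub_uni (fun i hi => E.mark i (by rwa [← uni_LS])) hk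
  size1 v hv k hk := PW365.card_preF_le (M := gsys Φ T ε n b) (W := W.ins (ls x))
    (f := insF f (Sum.inr (p x)) (E.out x)) (E.gd1 x) (E.cb1 x) hv.2
    h.sub_uni (fun i hi => by
      rw [uni_LS] at hi
      rcases i with i | i
      · exact E.mark i hi
      · exact absurd (inr_mem_pS (p x)) hi) hk

end Exits

end Crest.Agent.R122.LNS674

end
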