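import Crest.Agent.R122.E6Str_491
import Crest.Agent.R122.LNS1_674
import Crest.Agent.R122.LNCls_515
import Crest.Agent.R122.PWBirth_365
import Crest.Agent.R122.E6Facts_879
import Crest.Agent.R122.LNStr_968

/-!
# Row 122, LN1 (helper968): the family `nl₂` of `E6Hyp`

Structure: a pair structure `(x, y; d, e)` (helper491's `PTree`) whose second line `e` meets the root
of the tree `(P, z)` at time `cT`; merged classes `cl6`, exit times `bD6`, connecting family `R6`.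

* `In6` : the data over the gas `w`.
* `In6.one` : helper674's `One` for `cl6`, `R6`.
* `In6.exits` : helper674's `Exits` for the lines `e'`, `c'` over the base world `(cfg w).ins d`.
* `In6.nl2` : exits `lineML i`, `i ≠ root`, `e'`, `c'` are pairwise unlinked in `(cfg w).ins d`, from
  the reachability (`ReachAll`) of each of these lines.
-/

set_option autoImplicit false
set_option linter.unusedSectionVars false

open MeasureTheory Set Filter Topology
open Crest.AnalysisR.Kinetic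
open Crest.Agent.R122.Flow671 hiding rel
open Crest.Agent.R122.Loc45 Crest.Agent.R122.Ins45
open Crest.Agent.R122.VL581 Crest.Agent.R122.VL581.VSys Crest.Agent.R122.VLInst442
open Crest.Agent.R122.LN304 Crest.Agent.R122.LNg410 Crest.Agent.R122.LNPart424
open Crest.Agent.R122.Kin796 Crest.Agent.R122.Kin796.CTree Crest.Agent.R122.Tree674
open Crest.Agent.R122.PathFlow968 Crest.Agent.R122.TreeLines335 Crest.Agent.R122.EDefs602
open Crest.Agent.R122.LNTree410 Crest.Agent.R122.PWGlue491 Crest.Agent.R122.Inf879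
open Crest.Agent.R122.LNGraft410 Crest.Agent.R122.LNEv968 Crest.Agent.R122.PWInst442
open Crest.Agent.R122.OCout796 Crest.Agent.R122.Scat818 Crest.Agent.R122.StrG491
open Crest.Agent.R122.MWFam255 Crest.Agent.R122.LNEv818 Crest.Agent.R122.LNS674
open Crest.Agent.R122.OneC285 (cT cB cD cX)
open Crest.Agent.R122.E6Hyp879 (plus)
open Crest.Agent.R122.Decomp811 (exF)
open scoped Classical

noncomputable section

namespace Crest.Agent.R122.LNS968

variable {σ : Type} [Fintype σ] {n : ℕ}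

/-! ### Generic labels -/

section gen

variable {J κ : Type} [Fintype J] {M : VSys J κ} {Z : J → PhasePoint} {c ℓ ς : ℝ}
  {R : ℝ → J → J → Prop} {π Q : Finset J} {cl : J → Finset J} {bD : J → ℝ} {x y : J}
  {d : ℝ × PhasePoint} {e : ML} {te : ℝ} {P : CTree} {z : PhasePoint × Par P} {eP : Idx P ↪ J}

/-- All exits. -/
def E6 (x y : J) (eP : Idx P ↪ J) : Finset J := {x, y} ∪ part eP

theorem mem_E6 {j : J} : j ∈ E6 x y eP ↔ j = x ∨ j = y ∨ ∃ i, eP i = j := by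
  unfold E6
  rw [Finset.mem_union, Finset.mem_insert, Finset.mem_singleton, mem_part, or_assoc]

variable [Nonempty κ] (h : PTree M c Z R π cl bD x y d e te P z eP)
  (hC : 1 ≤ c) (hΦ : AdmissiblePotential M.Φ) (hε : 0 < M.ε)
  (hQ : ∀ j, j ∈ Q ↔ j ∈ π ∨ j ∈ part eP)
  (hT : TL M c ℓ ς Q Z) (hℓς : 2 * ℓ ≤ ς) (hp : CDpass M.Φ (cD M.ε z e))
  (hle : cT M.ε z e + outT M.Φ M.ε (cD M.ε z e) ≤ M.T)
include h hC hΦ hε hQ hT hℓς hp hle

theorem str6_of : Str M c Z (joinR R (StrG491.RC M Z (part eP)) y (eP (root P)) (cT M.ε z e)) Q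
    (clMrg cl (clOf (part eP)) y (eP (root P)))
    (grafted M.Φ M.ε bD y (eP (root P)) (cT M.ε z e) (cD M.ε z e)) (E6 x y eP) := by
  have hQ' : Q = π ∪ part eP := by
    ext j
    rw [Finset.mem_union]
    exact hQ j
  rw [hQ'] at hT ⊢
  exact h.str6 hC hΦ hε hT hℓς hp hle

theorem lab6_d_of : Lab M Z (clMrg cl (clOf (part eP)) y (eP (root P))) x d.1 (back d) := by
  have hQ' : Q = π ∪ part eP := by
    ext j
    rw [Finset.mem_union]
    exact hQ j
  rw [hQ'] at hT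
  exact h.lab6_d hC hΦ hε hT hℓς hp hle

theorem lab6_e_of : Lab M Z (clMrg cl (clOf (part eP)) y (eP (root P))) y
    (PairD292.outL6 M.Φ M.ε P z e (some false)).1.1
    (back (PairD292.outL6 M.Φ M.ε P z e (some false)).1) := by
  have hQ' : Q = π ∪ part eP := by
    ext j
    rw [Finset.mem_union]
    exact hQ j
  rw [hQ'] at hT
  exact h.lab6_e hC hΦ hε hT hℓς hp hle

theorem lab6_c_of : Lab M Z (clMrg cl (clOf (part eP)) y (eP (root P))) (eP (root P))
    (PairD292.outL6 M.Φ M.ε P z e (some true)).1.1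
    (back (PairD292.outL6 M.Φ M.ε P z e (some true)).1) := by
  have hQ' : Q = π ∪ part eP := by
    ext j
    rw [Finset.mem_union]
    exact hQ j
  rw [hQ'] at hT
  exact h.lab6_c hC hΦ hε hT hℓς hp hle

/-- The merged class. -/
theorem cls6_of : Cls M Z (clMrg cl (clOf (part eP)) y (eP (root P)) y)
    (grafted M.Φ M.ε bD y (eP (root P)) (cT M.ε z e) (cD M.ε z e)) ∧
    ∀ i, eP i ∈ clMrg cl (clOf (part eP)) y (eP (root P)) y := by
  have hs := str6_of h hC hΦ hε hQ hT hℓς hp hle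
  refine ⟨hs.cls y (mem_E6.2 (Or.inr (Or.inl rfl))), fun i => ?_⟩
  have hen := (h.hit hC hΦ hε).enc hΦ hε
  rw [hen.clMrg_mem (Finset.mem_union_left _ (hen.s₁.mem y hen.hy))]
  refine Finset.mem_union_right _ ?_
  rw [clOf_mem (mem_part_self (root P))]
  exact mem_part_self i

/-- The exits of the tree, merged classes. -/
theorem lab6_i_of {i : Idx P} (hi : i ≠ root P) :
    Lab M Z (clMrg cl (clOf (part eP)) y (eP (root P))) (eP i)
      (lineML M.Φ M.ε P z i).1.1 (back (lineML M.Φ M.ε P z i).1) := by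
  have hQ' : Q = π ∪ part eP := by
    ext j
    rw [Finset.mem_union]
    exact hQ j
  rw [hQ'] at hT
  exact h.lab6 hC hΦ hε hT hℓς hp hle hi

end gen

/-- The structure of `nl₂` over the gas `w`. -/
structure In6 (Φ : Space3 → ℝ) (T ε c ℓ ς : ℝ) (b : σ → ℝ) (V : σ → PhasePoint) (w : Config n)
    (R : ℝ → Fin n ⊕ σ → Fin n ⊕ σ → Prop) (π : Finset (Fin n ⊕ σ))
    (cl : Fin n ⊕ σ → Finset (Fin n ⊕ σ)) (bD : Fin n ⊕ σ → ℝ) (x y : σ) (d e : ML) (te : ℝ)
    (P : CTree) (z : PhasePoint × Par P) (iP : Idx P ↪ σ) : Prop where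
  hΦ : AdmissiblePotential Φ
  hε : 0 < ε
  hC : 1 ≤ c
  pt : PTree (gsys Φ T ε n b) c (Sum.elim w V) R π cl bD (Sum.inr x) (Sum.inr y) d.1 e te P z
    (iP.trans (strE n σ))
  full : ∀ j, j ∈ pS n σ ↔ j ∈ π ∨ j ∈ part (iP.trans (strE n σ))
  tl : TL (gsys Φ T ε n b) c ℓ ς (pS n σ) (Sum.elim w V)
  hℓς : 2 * ℓ ≤ ς
  pass : CDpass Φ (cD ε z e)
  le : cT ε z e + outT Φ ε (cD ε z e) ≤ T
  pe : w ∈ PairExcluded ε n

/-- The classes of `nl₂`. -/
def cl6 {n : ℕ} {σ : Type} (cl : Fin n ⊕ σ → Finset (Fin n ⊕ σ)) (y : σ) {P : CTree}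
    (iP : Idx P ↪ σ) : Fin n ⊕ σ → Finset (Fin n ⊕ σ) :=
  clMrg cl (clOf (part (iP.trans (strE n σ)))) (Sum.inr y) (Sum.inr (iP (root P)))

/-- The exit times of `nl₂`. -/
def bD6 {n : ℕ} {σ : Type} (Φ : Space3 → ℝ) (ε : ℝ) (bD : Fin n ⊕ σ → ℝ) (y : σ) {P : CTree}
    (iP : Idx P ↪ σ) (z : PhasePoint × Par P) (e : ML) : Fin n ⊕ σ → ℝ :=
  grafted Φ ε bD (Sum.inr y) (Sum.inr (iP (root P))) (cT ε z e) (cD ε z e)

/-- The connecting family of `nl₂`. -/
def R6 {n : ℕ} {σ : Type} [Fintype σ] (Φ : Space3 → ℝ) (T ε : ℝ) (b : σ → ℝ)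
    (V : σ → PhasePoint) (w : Config n) (R : ℝ → Fin n ⊕ σ → Fin n ⊕ σ → Prop) (y : σ) {P : CTree}
    (iP : Idx P ↪ σ) (z : PhasePoint × Par P) (e : ML) : ℝ → Fin n ⊕ σ → Fin n ⊕ σ → Prop :=
  joinR R (StrG491.RC (gsys Φ T ε n b) (Sum.elim w V) (part (iP.trans (strE n σ)))) (Sum.inr y)
    (Sum.inr (iP (root P))) (cT ε z e)

/-- The two outgoing lines: `true` = `e'`, `false` = `c'`. -/
def out6 (Φ : Space3 → ℝ) (ε : ℝ) (P : CTree) (z : PhasePoint × Par P) (e : ML) (k : Bool) : ML :=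
  cond k (PairD292.outL6 Φ ε P z e (some false)) (PairD292.outL6 Φ ε P z e (some true))

/-- The lines of the family. -/
def fam6 (Φ : Space3 → ℝ) (ε : ℝ) (P : CTree) (z : PhasePoint × Par P) (e : ML) :
    {i : Idx P // i ≠ root P} ⊕ Bool → ML :=
  plus (exF (lineML Φ ε P z) (root P)) (out6 Φ ε P z e true) (out6 Φ ε P z e false)

/-- Labels of the outgoing lines. -/
def lab6o {P : CTree} (y : σ) (iP : Idx P ↪ σ) (k : Bool) : σ := cond k y (iP (root P))

/-- Labels of the family. -/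
def lab6f {P : CTree} (y : σ) (iP : Idx P ↪ σ) : {i : Idx P // i ≠ root P} ⊕ Bool → σ :=
  Sum.elim (fun i => iP i.1) (lab6o y iP)

namespace In6

variable {Φ : Space3 → ℝ} {T ε c ℓ ς : ℝ} {b : σ → ℝ} {V : σ → PhasePoint} {w : Config n}
  {R : ℝ → Fin n ⊕ σ → Fin n ⊕ σ → Prop} {π : Finset (Fin n ⊕ σ)}
  {cl : Fin n ⊕ σ → Finset (Fin n ⊕ σ)} {bD : Fin n ⊕ σ → ℝ} {x y : σ} {d e : ML} {te : ℝ}
  {P : CTree} {z : PhasePoint × Par P} {iP : Idx P ↪ σ}
  (h : In6 Φ T ε c ℓ ς b V w R π cl bD x y d e te P z iP)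
include h

theorem xy : x ≠ y := fun h' => h.pt.pr.ne (congrArg Sum.inr h')

theorem x_ne (i : Idx P) : x ≠ iP i := fun h' =>
  Finset.disjoint_left.1 h.pt.dj h.pt.pr.xπ (mem_part.2 ⟨i, congrArg Sum.inr h'.symm⟩)

theorem y_ne (i : Idx P) : y ≠ iP i := fun h' =>
  Finset.disjoint_left.1 h.pt.dj h.pt.pr.yπ (mem_part.2 ⟨i, congrArg Sum.inr h'.symm⟩)

theorem T_pos : 0 < T := h.pt.T_pos

theorem str : Str (gsys Φ T ε n b) c (Sum.elim w V) (R6 Φ T ε b V w R y iP z e) (pS n σ)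
    (cl6 cl y iP) (bD6 Φ ε bD y iP z e) (E6 (Sum.inr x) (Sum.inr y) (iP.trans (strE n σ))) :=
  str6_of h.pt h.hC h.hΦ h.hε h.full h.tl h.hℓς h.pass h.le

theorem mem_x : (Sum.inr x : Fin n ⊕ σ) ∈ E6 (Sum.inr x) (Sum.inr y) (iP.trans (strE n σ)) :=
  mem_E6.2 (Or.inl rfl)

theorem mem_f (k : {i : Idx P // i ≠ root P} ⊕ Bool) : (Sum.inr (lab6f y iP k) : Fin n ⊕ σ) ∈
    E6 (Sum.inr x) (Sum.inr y) (iP.trans (strE n σ)) := by
  rcases k with i | k
  · exact mem_E6.2 (Or.inr (Or.inr ⟨i.1, rfl⟩))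
  · cases k
    · exact mem_E6.2 (Or.inr (Or.inr ⟨root P, rfl⟩))
    · exact mem_E6.2 (Or.inr (Or.inl rfl))

theorem lab_inj : Function.Injective (lab6f y iP) := by
  rintro (i | k) (j | k') hk
  · exact congrArg Sum.inl (Subtype.ext (iP.injective hk))
  · cases k'
    · exact absurd (iP.injective hk) i.2
    · exact absurd hk.symm (h.y_ne _)
  · cases k
    · exact absurd (iP.injective hk).symm j.2
    · exact absurd hk (h.y_ne _)
  · cases k <;> cases k'
    · rfl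
    · exact absurd hk.symm (h.y_ne _)
    · exact absurd hk (h.y_ne _)
    · rfl

theorem x_ne_lab (k : {i : Idx P // i ≠ root P} ⊕ Bool) : x ≠ lab6f y iP k := by
  rcases k with i | k
  · exact h.x_ne _
  · cases k
    · exact h.x_ne _
    · exact h.xy

/-- Births of the family. -/
theorem birth (k : {i : Idx P // i ≠ root P} ⊕ Bool) :
    (plus (exF (lineML Φ ε P z) (root P)) (out6 Φ ε P z e true) (out6 Φ ε P z e false) k).1.1 =
      bD6 Φ ε bD y iP z e (Sum.inr (lab6f y iP k)) := by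
  rcases k with i | k
  · have h1 : (Sum.inr (iP i.1) : Fin n ⊕ σ) ≠ Sum.inr y :=
      fun h' => h.y_ne i.1 (Sum.inr_injective h').symm
    have h2 : (Sum.inr (iP i.1) : Fin n ⊕ σ) ≠ Sum.inr (iP (root P)) :=
      fun h' => i.2 (iP.injective (Sum.inr_injective h'))
    refine (Eq.trans ?_ (if_neg (not_or.2 ⟨h1, h2⟩)).symm)
    exact (h.pt.bP i.1).symm
  · cases k
    · exact (if_pos (Or.inr rfl)).symm
    · exact (if_pos (Or.inl rfl)).symm

theorem birth_d : d.1.1 = bD6 Φ ε bD y iP z e (Sum.inr x) := by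
  rw [h.pt.pr.bx]
  refine (if_neg (not_or.2 ⟨h.pt.pr.ne, fun h' => ?_⟩)).symm
  exact h.x_ne _ (Sum.inr_injective h')

/-- The base of the instance. -/
theorem base : Base (gsys Φ T ε n b) w V (cl6 cl y iP) where
  gas_b _ := le_rfl
  gas_o _ h' := Option.some_ne_none _ h'.symm
  gas_cl i := h.str.cl_empty (inl_not_mem_pS i)
  cover := h.str.cov

theorem one : One Φ T ε c b V w (cl6 cl y iP) (R6 Φ T ε b V w R y iP z e) where
  base := h.base
  pe := h.pe
  fam := h.str.fam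

theorem lab_d : Lab (gsys Φ T ε n b) (Sum.elim w V) (cl6 cl y iP) (Sum.inr x) d.1.1
    (back d.1) :=
  lab6_d_of h.pt h.hC h.hΦ h.hε h.full h.tl h.hℓς h.pass h.le

theorem lab_out (k : Bool) : Lab (gsys Φ T ε n b) (Sum.elim w V) (cl6 cl y iP)
    (Sum.inr (lab6o y iP k)) (out6 Φ ε P z e k).1.1 (back (out6 Φ ε P z e k).1) := by
  cases k
  · exact lab6_c_of h.pt h.hC h.hΦ h.hε h.full h.tl h.hℓς h.pass h.le
  · exact lab6_e_of h.pt h.hC h.hΦ h.hε h.full h.tl h.hℓς h.pass h.le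

theorem x_ne_out (k : Bool) : x ≠ lab6o y iP k := h.x_ne_lab (Sum.inr k)

/-- Contacts of two exits in the connecting family. -/
theorem old {i j : Fin n ⊕ σ}
    (hi : i ∈ E6 (Sum.inr x) (Sum.inr y) (iP.trans (strE n σ)))
    (hj : j ∈ E6 (Sum.inr x) (Sum.inr y) (iP.trans (strE n σ)))
    (hij : i ≠ j) {r : ℝ} (hr : R6 Φ T ε b V w R y iP z e r i j) :
    j ∈ cl6 cl y iP i ∧ r ≤ bD6 Φ ε bD y iP z e i ∧ r ≤ bD6 Φ ε bD y iP z e j := by
  have h1 := h.str.old i hi j hj hij r hr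
  have h2 := h.str.old j hj i hi hij.symm r (h.str.fam.symm r i j hr)
  exact ⟨h1.1, h1.2, h2.2⟩

/-- Two exits of different classes are not close at the time of a simultaneous birth. -/
theorem far_birth {i j : Fin n ⊕ σ} {li lj : ML}
    (hi : i ∈ E6 (Sum.inr x) (Sum.inr y) (iP.trans (strE n σ)))
    (hj : j ∈ E6 (Sum.inr x) (Sum.inr y) (iP.trans (strE n σ)))
    (hij : i ≠ j) (hli : Lab (gsys Φ T ε n b) (Sum.elim w V) (cl6 cl y iP) i li.1.1 (back li.1))
    (hlj : Lab (gsys Φ T ε n b) (Sum.elim w V) (cl6 cl y iP) j lj.1.1 (back lj.1))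
    (hb : li.1.1 = lj.1.1) (hT : li.1.1 ≤ T) :
    j ∈ cl6 cl y iP i ∨ ε < dist li.1.2.1 lj.1.2.1 := by
  by_contra hcon
  push Not at hcon
  obtain ⟨hc, hd⟩ := hcon
  have key : ∀ {k : Fin n ⊕ σ} {l : ML},
      k ∈ E6 (Sum.inr x) (Sum.inr y) (iP.trans (strE n σ)) →
      Lab (gsys Φ T ε n b) (Sum.elim w V) (cl6 cl y iP) k l.1.1 (back l.1) → l.1.1 ≤ T →
      (gsys Φ T ε n b).st (cl6 cl y iP k) l.1.1 (Sum.elim w V) k = l.1.2 ∧ 0 ≤ l.1.1 := by
    intro k l hk hl hlT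
    rcases hl with hl | ⟨hl, _⟩
    · have h3 := h.str.mem k hk
      rw [hl.cl] at h3
      exact absurd h3 (Finset.notMem_empty _)
    · refine ⟨?_, (bb_nonneg _ k).trans hl.bb_le⟩
      have h3 := hl.hand hlT
      rw [← h3, Str.onLine_back]
  obtain ⟨s1, h0⟩ := key hi hli hT
  obtain ⟨s2, -⟩ := key hj hlj (by rw [← hb]; exact hT)
  rw [← hb] at s2
  have hv : (gsys Φ T ε n b).VCt c (pS n σ) i j li.1.1 (Sum.elim w V) := by
    refine vct_st h.hC h.hε (h.str.sub i) (h.str.sub j) (h.str.mem i hi) (h.str.mem j hj)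
      (ok_anti hT (h.str.cov.ok i)) (ok_anti hT (h.str.cov.ok j)) (h.str.obs hi) (h.str.obs hj) ?_
    rw [s1, s2]
    exact hd
  obtain ⟨r, hr, hRr, _⟩ := window h.str.fam h.tl h.str.conn subset_rfl h.hℓς
    (h.str.mem_π hi) (h.str.mem_π hj) hij.symm ⟨h0, hT⟩ hv
  exact hc (h.old hi hj hij hRr).1

/-- **The lines `e'`, `c'` as exits** over the base world `(cfg w).ins d`. -/
theorem exits {t₀ : ℝ} (ht₀ : t₀ ≤ T) (ok0 : ((MW.cfg w).ins d).Ok Φ ε)
    (okc : (MW.cfg w).Ok Φ ε) (ok1 : ∀ k, (((MW.cfg w).ins d).ins (out6 Φ ε P z e k)).Ok Φ ε)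
    (hBd : PW365.NoB Φ ε (MW.cfg w) d)
    (hBo : ∀ k, PW365.NoB Φ ε (MW.cfg w) (out6 Φ ε P z e k)) :
    Exits Φ T t₀ ε b V w (cl6 cl y iP) (R6 Φ T ε b V w R y iP z e) ((MW.cfg w).ins d)
      (lab1 n x) (out6 Φ ε P z e) (lab6o y iP) where
  inj k k' hk := by
    have := h.lab_inj (a₁ := Sum.inr k) (a₂ := Sum.inr k') hk
    exact Sum.inr_injective this
  out k i := lab1_ne (h.x_ne_out k) i
  mark i hi := by
    rcases i with i | i
    · exact le_rfl
    · exact absurd (inr_mem_pS x) hi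
  memC k := h.str.mem _ (h.mem_f (Sum.inr k))
  memB i hi := by
    rcases i with i | i
    · exact absurd hi (inl_not_mem_pS i)
    · exact h.str.mem _ h.mem_x
  ok0 := ok0
  ok1 := ok1
  gd0 := h.base.gd1 h.hΦ h.hε h.lab_d ok0
  gd1 k := h.base.gd2 h.hΦ h.hε (h.x_ne_out k) h.lab_d (h.lab_out k) (ok1 k)
  cb0 := by
    refine PW365.cleanB_ins (h.base.gd1 h.hΦ h.hε h.lab_d ok0) (fun i => h.base.gas_cl i)
      (fun i => le_rfl) t₀
  cb1 k := by
    refine PW365.cleanB_ins2 (h.base.gd2 h.hΦ h.hε (h.x_ne_out k) h.lab_d (h.lab_out k) (ok1 k))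
      h.hΦ h.hε okc ok0 (ok1 k) (fun i => h.base.gas_cl i) (fun i => le_rfl)
      (fun _ _ _ => hBd) (fun _ _ _ => hBo k) fun hb hu => ?_
    exact h.far_birth h.mem_x (h.mem_f (Sum.inr k))
      (fun h' => h.x_ne_out k (Sum.inr_injective h')) h.lab_d (h.lab_out k) hb (hu.trans ht₀)
  old k k' hk r hr := by
    have h1 := h.old (h.mem_f (Sum.inr k)) (h.mem_f (Sum.inr k'))
      (fun h' => hk (Sum.inr_injective (h.lab_inj (Sum.inr_injective h')))) hr
    refine ⟨h1.1, h1.2.1.trans (le_of_eq ?_)⟩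
    have h2 := h.birth (Sum.inr k)
    rw [← h2]
    cases k <;> rfl
  oldB i j x' y' hi hj hij := by
    rcases i with i | i
    · cases hi
    · rcases j with j | j
      · cases hj
      · exact absurd rfl hij
  oldX k i y' hi r hr := by
    rcases i with i | i
    · cases hi
    · have hxy' : x = y' := Sum.inr_injective hi
      subst hxy'
      have h1 := h.old (h.mem_f (Sum.inr k)) h.mem_x
        (fun h' => h.x_ne_out k (Sum.inr_injective h').symm) hr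
      refine ⟨h1.1, h1.2.1.trans (le_of_eq ?_), h1.2.2.trans (le_of_eq ?_)⟩
      · have h2 := h.birth (Sum.inr k)
        rw [← h2]
        cases k <;> rfl
      · exact h.birth_d.symm

theorem lab_f (k : {i : Idx P // i ≠ root P} ⊕ Bool) :
    Lab (gsys Φ T ε n b) (Sum.elim w V) (cl6 cl y iP) (Sum.inr (lab6f y iP k))
      (fam6 Φ ε P z e k).1.1 (back (fam6 Φ ε P z e k).1) := by
  rcases k with i | k
  · exact lab6_i_of h.pt h.hC h.hΦ h.hε h.full h.tl h.hℓς h.pass h.le i.2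
  · cases k
    · exact h.lab_out false
    · exact h.lab_out true

/-- State of an exit at its birth. -/
theorem st_birth {k : Fin n ⊕ σ} {l : ML}
    (hk : k ∈ E6 (Sum.inr x) (Sum.inr y) (iP.trans (strE n σ)))
    (hl : Lab (gsys Φ T ε n b) (Sum.elim w V) (cl6 cl y iP) k l.1.1 (back l.1)) (hT : l.1.1 ≤ T) :
    (gsys Φ T ε n b).st (cl6 cl y iP k) l.1.1 (Sum.elim w V) k = l.1.2 := by
  rcases hl with hl | ⟨hl, _⟩
  · have h3 := h.str.mem k hk
    rw [hl.cl] at h3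
    exact absurd h3 (Finset.notMem_empty _)
  · have h3 := hl.hand hT
    rw [← h3, Str.onLine_back]

/-- All members of the family are in the class of `y`. -/
theorem mem_S (k : {i : Idx P // i ≠ root P} ⊕ Bool) :
    (Sum.inr (lab6f y iP k) : Fin n ⊕ σ) ∈ cl6 cl y iP (Sum.inr y) := by
  have h1 := (cls6_of h.pt h.hC h.hΦ h.hε h.full h.tl h.hℓς h.pass h.le).2
  rcases k with i | k
  · exact h1 i.1
  · cases k
    · exact h1 (root P)
    · exact h.str.mem _ (mem_E6.2 (Or.inr (Or.inl rfl)))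

/-- Path of a member of the family in the merged class. -/
theorem line (k : {i : Idx P // i ≠ root P} ⊕ Bool) {t : ℝ}
    (ht : (fam6 Φ ε P z e k).1.1 ≤ t) (htT : t ≤ T) :
    (gsys Φ T ε n b).st (cl6 cl y iP (Sum.inr y)) t (Sum.elim w V) (Sum.inr (lab6f y iP k)) =
      lineAt (fam6 Φ ε P z e k).1.1 (fam6 Φ ε P z e k).1.2 t := by
  have h1 := h.str.cov.eq _ _ (h.mem_S k)
  rw [← h1, h.str.line h.hΦ h.hε (h.mem_f k) (u := (fam6 Φ ε P z e k).1.1) (h.birth k).ge ht htT,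
    h.st_birth (h.mem_f k) (h.lab_f k) (ht.trans htT)]

/-- **`nl₂` from reachability.** -/
theorem nl2 {t₀ : ℝ} (ht₀ : t₀ ≤ T) {K N N₁ : ℕ} (ok0 : ((MW.cfg w).ins d).Ok Φ ε)
    (ok1 : ∀ k, (((MW.cfg w).ins d).ins (fam6 Φ ε P z e k)).Ok Φ ε)
    (hNB : NoBad (gsys Φ T ε n b) c ℓ ς (Sum.elim w V) (LS n σ) N₁)
    (hN : N + N + (N + N) ≤ N₁)
    (hRA : ∀ k, ReachAll (Reach (gsys Φ T ε n b) c (Sum.elim w V) (LS n σ) (pS n σ)
      (Sum.inr (lab6f y iP k)) N) Φ ε K t₀ ((MW.cfg w).ins d) (lab1 n x) (fam6 Φ ε P z e k)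
        (Sum.inr (lab6f y iP k))) :
    PairNL Φ ε K t₀ ((MW.cfg w).ins d) (fam6 Φ ε P z e) := by
  have hS := (cls6_of h.pt h.hC h.hΦ h.hε h.full h.tl h.hℓς h.pass h.le).1
  have hR : Bind302.PartR (gsys Φ T ε n b) c (Sum.elim w V) (pS n σ)
      (R6 Φ T ε b V w R y iP z e) := ⟨h.str.fam.conn, h.str.fam.symm, h.str.fam.vct⟩
  have hne : ∀ {k k'}, k ≠ k' → (Sum.inr (lab6f y iP k) : Fin n ⊕ σ) ≠ Sum.inr (lab6f y iP k') :=
    fun hk h' => hk (h.lab_inj (Sum.inr_injective h'))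
  have hlg : ∀ k i, lab1 n x i ≠ Sum.inr (lab6f y iP k) := fun k i => lab1_ne (h.x_ne_lab k) i
  have hNB' := Bind302.noBad_mono hNB hN
  refine pairNL_of_reach h.hΦ h.hε (M := gsys Φ T ε n b) (c := c) (ℓ := ℓ) (ς := ς)
    (Zc := Sum.elim w V) (Λ := LS n σ) (N := N) rfl ht₀ h.hC h.one.parts.conn
    (Bind302.noBad_mono hNB' (Nat.le_add_right _ _)) (h.one.noTwo _) (lab1 n x).injective
    (P := fun _ => pS n σ) (p := fun k => Sum.inr (lab6f y iP k)) (fun _ => mem_LS.2 rfl)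
    (fun k => inr_mem_pS _) (fun k k' h' => h.lab_inj (Sum.inr_injective h')) ?_ hRA ?_
  · rintro k ⟨i, hi⟩
    exact hlg k i hi
  · intro k k' hk _ u hu hux huy hbx hby hb
    refine Bind302.exits_apart h.hΦ h.hε (M := gsys Φ T ε n b) (c := c) (ℓ := ℓ) (ς := ς) rfl
      ht₀ h.hC h.hℓς hR (mem_LS.2 rfl) ok0 (ok1 k) (ok1 k') (hRA k) (hRA k') (hlg k) (hlg k')
      hNB' (inr_mem_pS _) (inr_mem_pS _) (hne hk) (fun r _ hr => ?_) ?_ hu hux huy hbx hby hb
    · have h1 := h.old (h.mem_f k) (h.mem_f k') (hne hk) hr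
      exact ⟨h1.2.1.trans (h.birth k).ge, h1.2.2.trans (h.birth k').ge⟩
    · intro t ht h1 h2 h3
      have b1 : bD6 Φ ε bD y iP z e (Sum.inr (lab6f y iP k)) = (fam6 Φ ε P z e k).1.1 :=
        (h.birth k).symm
      have b2 : bD6 Φ ε bD y iP z e (Sum.inr (lab6f y iP k')) = (fam6 Φ ε P z e k').1.1 :=
        (h.birth k').symm
      rw [← h.line k h1 ht.2, ← h.line k' h2 ht.2]
      rcases h3 with h3 | h3
      · refine hS.exit _ (h.mem_S k) t (lt_of_eq_of_lt b1 h3) ht.2 _ (h.mem_S k') (hne hk).symm ?_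
        exact (hS.bb_le _ (h.mem_S k')).trans (b2.le.trans h2)
      · rw [dist_comm]
        refine hS.exit _ (h.mem_S k') t (lt_of_eq_of_lt b2 h3) ht.2 _ (h.mem_S k) (hne hk) ?_
        exact (hS.bb_le _ (h.mem_S k)).trans (b1.le.trans h1)

end In6

end Crest.Agent.R122.LNS968

end
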