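import Crest.Agent.R122.LNNear9_383

/-!
# Row 122, LINK6 (helper304): the fields `nl0`, `nl1` of `Slots6G`

* `nl0_q`, `nl1_q` : for a contact tree of the structure over the gas (`PTreeQ` of helper383), off a
  run, a bad partition and a bad hit the lines of the tree and `d` over `cfg w`, and the lines of the
  tree over `(cfg w).ins d`, are pairwise unlinked.
* `slot_nl0`, `slot_nl1` : the fields of helper796's `Slots6G`.
-/

set_option autoImplicit false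
set_option linter.unusedSectionVars false

open MeasureTheory Set Filter Topology
open scoped NNReal ENNReal
open Crest.AnalysisR.Kinetic
open Crest.Agent.R122.GC311 Crest.Agent.R122.EDefs602
open Crest.Agent.R122.Kin796 Crest.Agent.R122.Kin796.CTree Crest.Agent.R122.Tree674
open Crest.Agent.R122.TreeLines335 Crest.Agent.R122.MWFam255 Crest.Agent.R122.E6Hyp879
open Crest.Agent.R122.Gate424 Crest.Agent.R122.Gate973
open Crest.Agent.R122.PairD292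
open Crest.Agent.R122.PairRep581 (Shp ShpOk osP)
open Crest.Agent.R122.GateOsP424 (osB osZ)
open Crest.Agent.R122.LNS674 Crest.Agent.R122.LNEv383
open Crest.Agent.R122.OPX973 (OPX anT)
open Crest.Agent.R122.Link6796
open scoped Classical

noncomputable section

namespace Crest.Agent.R122.LNS3a304

variable {Φ : Space3 → ℝ} {f₀ : PhasePoint → ℝ} {bg γ β te T' : ℝ} {ρ : Space3 → ℝ≥0∞}
  {gl : ℝ → ℝ} {rm : ℝ≥0∞} {P : CTree} {S : Shp} {K : ℕ} {Q : EPar}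

/-- **Links of the tree lines and `d`**, base `cfg w`. -/
theorem nl0_q {r ς ε c : ℝ} {n m N : ℕ} {q : (PhasePoint × Par P) × S.Θ} {w : Config n}
    (hΦ : AdmissiblePotential Φ) (hε : 0 < ε) (hT0 : 0 ≤ T') (hlt : Q.te < T') (hc : 1 ≤ c)
    (hr : 2 * (r * ε) ≤ ς)
    (hN : (Fintype.card (Idx P ⊕ S.κ) + 2 * K * (m + 2)) +
      (Fintype.card (Idx P ⊕ S.κ) + 2 * K * (m + 2)) ≤ N) (hw : w ∈ PairExcluded ε n)
    (hok : Ok6 Φ ε P q.1 w (S.th ε q.2)) (hn : ¬ Nl0 Φ ε K Q.te P q.1 w (S.th ε q.2))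
    (hP : PTreeQ Φ T' Q.te ε c P S n w q) :
    RunS Φ ε T' K m (osB P S ε q) (osZ Φ P S ε q) w ∨
      LN2.BadGas Φ T' c r ς ε N 1 (anT P S) (osB P S ε q) (osZ Φ P S ε q) w ∨
      BH167.BadHitGas (BH167.bpos Φ (T' + 1) T') Φ T' c 1 ε N N 1 (anT P S) (osB P S ε q)
        (osZ Φ P S ε q) w := by
  obtain ⟨Rc, π, cl, β', x, y, H, hπ⟩ := hP
  by_contra hcon
  push Not at hcon
  obtain ⟨hR, hB, hBH⟩ := hcon
  exact hn (nl0_det H hπ hw hΦ hε hT0 hlt.le hc hr le_rfl le_rfl (lt_add_one T') anT_nonempty hN hB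
    hBH hR hok.ok₁)

/-- **Links of the tree lines**, base `(cfg w).ins d`. -/
theorem nl1_q {r ς ε c : ℝ} {n m N : ℕ} {q : (PhasePoint × Par P) × S.Θ} {w : Config n}
    (hΦ : AdmissiblePotential Φ) (hε : 0 < ε) (hT0 : 0 ≤ T') (hlt : Q.te < T') (hc : 1 ≤ c)
    (hr : 2 * (r * ε) ≤ ς)
    (hN : (Fintype.card (Idx P ⊕ S.κ) + 2 * K * (m + 2)) +
      (Fintype.card (Idx P ⊕ S.κ) + 2 * K * (m + 2)) ≤ N) (hw : w ∈ PairExcluded ε n)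
    (hok : Ok6 Φ ε P q.1 w (S.th ε q.2)) (hn : ¬ Nl1 Φ ε K Q.te P q.1 w (S.th ε q.2))
    (hP : PTreeQ Φ T' Q.te ε c P S n w q) :
    RunS Φ ε T' K m (osB P S ε q) (osZ Φ P S ε q) w ∨
      LN2.BadGas Φ T' c r ς ε N 1 (anT P S) (osB P S ε q) (osZ Φ P S ε q) w ∨
      BH167.BadHitGas (BH167.bpos Φ (T' + 1) T') Φ T' c 1 ε N N 1 (anT P S) (osB P S ε q)
        (osZ Φ P S ε q) w := by
  obtain ⟨Rc, π, cl, β', x, y, H, hπ⟩ := hP
  by_contra hcon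
  push Not at hcon
  obtain ⟨hR, hB, hBH⟩ := hcon
  exact hn (nl1_det H hπ hw hΦ hε hT0 hlt.le hc hr le_rfl le_rfl (lt_add_one T') anT_nonempty hN hB
    hBH hR hok.ok₁)

/-- **The field `nl0` of `Slots6G`.** -/
theorem slot_nl0 (h : OPX Φ f₀ bg γ β T' te ρ S gl rm) (hlt : Q.te < T')
    (hPA : ∀ c : ℝ, 1 ≤ c → PairAlt Φ f₀ Q T' K P S c) (R : ℝ) (_hR : 0 ≤ R) :
    GNull f₀ (osP Φ f₀ Q.te T' K P S) (fun ε _ _ q w =>
      Gx6 Φ ε R K Q T' P q.1 w (S.th ε q.2) ∧ Ok6 Φ ε P q.1 w (S.th ε q.2) ∧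
        ¬ Nl0 Φ ε K Q.te P q.1 w (S.th ε q.2)) :=
  gNull_of_pairAlt h hlt (hPA 1 le_rfl) (R := R) K
    (E := fun ε _ q w => Gx6 Φ ε R K Q T' P q.1 w (S.th ε q.2) ∧
      Ok6 Φ ε P q.1 w (S.th ε q.2) ∧ ¬ Nl0 Φ ε K Q.te P q.1 w (S.th ε q.2))
    (fun _ _ _ _ h => h.1)
    fun L => ⟨_, fun _ _ _ _ _ hε hr _ _ _ hw hE hP =>
      nl0_q h.adm hε h.T_pos.le hlt le_rfl hr (m := L) le_rfl hw hE.2.1 hE.2.2 hP⟩

/-- **The field `nl1` of `Slots6G`.** -/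
theorem slot_nl1 (h : OPX Φ f₀ bg γ β T' te ρ S gl rm) (hlt : Q.te < T')
    (hPA : ∀ c : ℝ, 1 ≤ c → PairAlt Φ f₀ Q T' K P S c) (R : ℝ) (_hR : 0 ≤ R) :
    GNull f₀ (osP Φ f₀ Q.te T' K P S) (fun ε _ _ q w =>
      Gx6 Φ ε R K Q T' P q.1 w (S.th ε q.2) ∧ Ok6 Φ ε P q.1 w (S.th ε q.2) ∧
        Nl0 Φ ε K Q.te P q.1 w (S.th ε q.2) ∧ ¬ Nl1 Φ ε K Q.te P q.1 w (S.th ε q.2)) :=
  gNull_of_pairAlt h hlt (hPA 1 le_rfl) (R := R) K
    (E := fun ε _ q w => Gx6 Φ ε R K Q T' P q.1 w (S.th ε q.2) ∧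
      Ok6 Φ ε P q.1 w (S.th ε q.2) ∧ Nl0 Φ ε K Q.te P q.1 w (S.th ε q.2) ∧
      ¬ Nl1 Φ ε K Q.te P q.1 w (S.th ε q.2))
    (fun _ _ _ _ h => h.1)
    fun L => ⟨_, fun _ _ _ _ _ hε hr _ _ _ hw hE hP =>
      nl1_q h.adm hε h.T_pos.le hlt le_rfl hr (m := L) le_rfl hw hE.2.1 hE.2.2.2 hP⟩

end Crest.Agent.R122.LNS3a304

end
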