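import Crest.Agent.R122.LNS1_674
import Crest.Agent.R122.LNStr_968
import Crest.Agent.R122.StrMap_491
import Crest.Agent.R122.PWBirth_365

/-!
# Row 122, LN1, the pair `(d, e)` of inequality 3 (helper726)

The pair structure of helper491 (`Pair`) on the labels of the structure gives helper674's `Exits` for
the family `{d, e}` over the gas `cfg w`; the second line `e` may be reborn.

* `ls2`, `p2` : the family and its labels.
* `one_of_pair` : helper674's `One`.
* `exits_pair` : helper674's `Exits`.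
* `Pair.up` : a pair structure of the structure alone (labels `σ`) in the system with the gas.
-/

set_option autoImplicit false
set_option linter.unusedSectionVars false

open MeasureTheory Set Filter Topology
open scoped NNReal ENNReal
open Crest.AnalysisR.Kinetic
open Crest.Agent.R122.Flow671 hiding rel
open Crest.Agent.R122.Loc45 Crest.Agent.R122.Ins45 Crest.Agent.R122.EDefs602
open Crest.Agent.R122.VL581 Crest.Agent.R122.VL581.VSys
open Crest.Agent.R122.LN304 Crest.Agent.R122.LNg410 Crest.Agent.R122.LNEv968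
open Crest.Agent.R122.PWGlue491 Crest.Agent.R122.PWInst442 Crest.Agent.R122.LNPart424
open Crest.Agent.R122.MWFam255 Crest.Agent.R122.LNEv818 Crest.Agent.R122.StrG491
open Crest.Agent.R122.LNS674 Crest.Agent.R122.LNS968 Crest.Agent.R122.LNBridge968
open Crest.Agent.R122.LNEmb410
open scoped Classical

noncomputable section

namespace Crest.Agent.R122.LNSE726

variable {σ : Type} [Fintype σ] {n : ℕ}

/-- The family of the two lines. -/
def ls2 (d e : ML) : Bool → ML
  | false => d
  | true => e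

/-- The labels of the two lines. -/
def p2 (x y : σ) : Bool → σ
  | false => x
  | true => y

@[simp] theorem ls2_false (d e : ML) : ls2 d e false = d := rfl
@[simp] theorem ls2_true (d e : ML) : ls2 d e true = e := rfl
@[simp] theorem p2_false (x y : σ) : p2 x y false = x := rfl
@[simp] theorem p2_true (x y : σ) : p2 x y true = y := rfl

variable {Φ : Space3 → ℝ} {T te ε c : ℝ} {b : σ → ℝ} {V : σ → PhasePoint} {w : Config n}
  {cl : Fin n ⊕ σ → Finset (Fin n ⊕ σ)} {R : ℝ → Fin n ⊕ σ → Fin n ⊕ σ → Prop}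
  {β : Fin n ⊕ σ → ℝ} {E : Finset (Fin n ⊕ σ)} {x y : σ} {d e : ML}

/-- A structure on all structure labels over the gas. -/
theorem sb_of_str (h : Str (gsys Φ T ε n b) c (Sum.elim w V) R (pS n σ) cl β E) :
    SB (gsys Φ T ε n b) c w V R (pS n σ) cl β E where
  str := h
  gas := inl_not_mem_pS
  go i h' := by
    have h1 : (none : Option (Fin n ⊕ σ)) = some (Sum.inl i) := h'
    cases h1
  gb _ := le_rfl

/-- helper674's `One`. -/
theorem one_of_str (hw : w ∈ PairExcluded ε n)
    (h : Str (gsys Φ T ε n b) c (Sum.elim w V) R (pS n σ) cl β E) : One Φ T ε c b V w cl R where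
  base := (sb_of_str h).base
  pe := hw
  fam := h.fam

theorem one_of_pair (hw : w ∈ PairExcluded ε n)
    (h : Pair (gsys Φ T ε n b) c (Sum.elim w V) R (pS n σ) cl β (Sum.inr x) (Sum.inr y) d.1 e.1) :
    One Φ T ε c b V w cl R := one_of_str hw h.str

/-- The first line is carried by `x`. -/
theorem car_x {J κ : Type} [Fintype J] {M : VSys J κ} {Z : J → PhasePoint}
    {R : ℝ → J → J → Prop} {π : Finset J} {cl : J → Finset J} {β : J → ℝ} {x y : J}
    (h : Pair M c Z R π cl β x y d.1 e.1) : Car M Z cl β {x, y} x d :=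
  ⟨h.hx, h.bx.ge, h.lx⟩

/-- The second line is carried by `y`. -/
theorem car_y {J κ : Type} [Fintype J] {M : VSys J κ} {Z : J → PhasePoint}
    {R : ℝ → J → J → Prop} {π : Finset J} {cl : J → Finset J} {β : J → ℝ} {x y : J}
    (h : Pair M c Z R π cl β x y d.1 e.1) : Car M Z cl β {x, y} y e :=
  ⟨h.hy, h.bY, h.ly⟩

/-- **The pair as a family of exits** over the gas. -/
theorem exits_pair (hΦ : AdmissiblePotential Φ) (hε : 0 < ε)
    (h : Pair (gsys Φ T ε n b) c (Sum.elim w V) R (pS n σ) cl β (Sum.inr x) (Sum.inr y) d.1 e.1)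
    (hw : (MW.cfg w).Ok Φ ε) (hd : ((MW.cfg w).ins d).Ok Φ ε) (he : ((MW.cfg w).ins e).Ok Φ ε)
    (hN : e.1.1 = β (Sum.inr y) ∨
      (0 < e.1.1 ∧ ∀ i : Fin n, ε < dist (flow Φ ε e.1.1 w i).1 e.1.2.1)) :
    Exits Φ T te ε b V w cl R (MW.cfg w) (gasE n σ) (ls2 d e) (p2 x y) := by
  have hSB := sb_of_str h.str
  have hgas : ∀ i : Fin n, cl (Sum.inl i) = ∅ := hSB.base.gas_cl
  have hb0 : ∀ i, (MW.cfg w).b i ≤ 0 := fun i => le_of_eq rfl
  have hNe : e.1.1 = β (Sum.inr y) ∨ NB Φ ε ((MW.cfg w).ins e) (Sum.inr ()) :=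
    hN.imp id fun h1 => nb_cfg hΦ hε h1.1 h1.2
  have hgd0 : GD (gsys Φ T ε n b) (Sum.elim w V) cl (bD (MW.cfg w) (gasE n σ)) (labs (gasE n σ))
      (XD (MW.cfg w) (gasE n σ) Φ ε) := hSB.gd0 hΦ hε hw
  have hgdd : GD (gsys Φ T ε n b) (Sum.elim w V) cl (bD ((MW.cfg w).ins d) (lab1 n x))
      (labs (lab1 n x)) (XD ((MW.cfg w).ins d) (lab1 n x) Φ ε) :=
    hSB.gd1 hΦ hε (car_x h) hd (Or.inl h.bx)
  have hgde : GD (gsys Φ T ε n b) (Sum.elim w V) cl (bD ((MW.cfg w).ins e) (lab1 n y))
      (labs (lab1 n y)) (XD ((MW.cfg w).ins e) (lab1 n y) Φ ε) :=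
    hSB.gd1 hΦ hε (car_y h) he hNe
  refine
    { inj := ?_
      out := fun q i => Sum.inl_ne_inr
      mark := fun i _ => le_of_eq rfl
      memC := ?_
      memB := fun i hi => absurd hi (inl_not_mem_pS i)
      ok0 := hw
      ok1 := ?_
      gd0 := hgd0
      gd1 := ?_
      cb0 := PW365.cleanB_gas (M := gsys Φ T ε n b) hgd0 hgas te
      cb1 := ?_
      old := ?_
      oldB := fun i j x' y' hi => absurd hi Sum.inl_ne_inr
      oldX := fun q i y' hi => absurd hi Sum.inl_ne_inr }
  · intro q q' hq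
    have hxy : x ≠ y := fun h' => h.ne (congrArg Sum.inr h')
    cases q <;> cases q' <;> first | rfl | exact absurd hq hxy | exact absurd hq.symm hxy
  · intro q
    cases q
    · exact h.str.mem _ h.hx
    · exact h.str.mem _ h.hy
  · intro q
    cases q
    · exact hd
    · exact he
  · intro q
    cases q
    · exact hgdd
    · exact hgde
  · intro q
    cases q
    · exact PW365.cleanB_ins (M := gsys Φ T ε n b) (Z := MW.cfg w) (a := d) hgdd hgas hb0 te
    · exact PW365.cleanB_ins (M := gsys Φ T ε n b) (Z := MW.cfg w) (a := e) hgde hgas hb0 te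
  · intro q q' hq r hr
    cases q <;> cases q'
    · exact absurd rfl hq
    · have h1 := (car_x h).old h.str (car_y h) h.ne r hr
      exact ⟨h1.1, h1.2.1⟩
    · have h1 := (car_y h).old h.str (car_x h) h.ne.symm r hr
      exact ⟨h1.1, h1.2.1⟩
    · exact absurd rfl hq

/-- The system of the structure alone in the system with the gas. -/
theorem pull_strE (b : σ → ℝ) :
    Pull (VLMeas973.vsys Φ T ε b) (gsys Φ T ε n b) (strE n σ) where
  Φ := rfl
  T := rfl
  ε := rfl
  b _ := rfl
  o i := by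
    show (none : Option _) = _ ↔ (none : Option _) = _
    simp
  S := rfl

/-- A pair structure on the labels `σ`, seen in the system with the gas. -/
theorem pair_up (hΦ : AdmissiblePotential Φ) (hε : 0 < ε) {R : ℝ → σ → σ → Prop}
    {cl : σ → Finset σ} {β : σ → ℝ}
    (h : Pair (VLMeas973.vsys Φ T ε b) c V R Finset.univ cl β x y d.1 e.1) :
    Pair (gsys Φ T ε n b) c (Sum.elim w V) (mapR (strE n σ) R) (pS n σ) (mapCl (strE n σ) cl)
      (Sum.elim (fun _ => 0) β) (Sum.inr x) (Sum.inr y) d.1 e.1 :=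
  Pair.map (M := gsys Φ T ε n b) (Z := Sum.elim w V) (e := strE n σ) (pull_strE b) hΦ hε
    (fun _ _ => rfl) h

end Crest.Agent.R122.LNSE726

end
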