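import Mathlib
import Crest.Prelude.Def_KineticLimit
import Crest.Agent.R122.LNS1_674
import Crest.Agent.R122.LNStr_968
import Crest.Agent.R122.PWBirth_365

/-!
# Row 122, LN1 (helper365): families of exits of a structure

`SB` (helper968): a structure over the gas; `Car` : a marked line carried by an exit.

* `SB.exits0` : the `Exits` (helper674) of a family over `cfg w`.
* `SB.exits1` : the `Exits` of a family over `(cfg w).ins d`, `d` carried by another exit.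
* `One.of_sb` : helper674's `One`.
* `SB.cb1`, `SB.cb2` : clean births.
-/

set_option autoImplicit false
set_option linter.unusedSectionVars false

open MeasureTheory Set Filter Topology
open scoped NNReal ENNReal
open Crest.AnalysisR.Kinetic
open Crest.Agent.R122.Loc45 Crest.Agent.R122.Ins45 Crest.Agent.R122.EDefs602
open Crest.Agent.R122.VL581 Crest.Agent.R122.VL581.VSys
open Crest.Agent.R122.LN304 Crest.Agent.R122.LNg410 Crest.Agent.R122.LNEv968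
open Crest.Agent.R122.PWGlue491 Crest.Agent.R122.PWInst442 Crest.Agent.R122.LNPart424
open Crest.Agent.R122.StrG491 Crest.Agent.R122.LNS968 Crest.Agent.R122.PW365
open scoped Classical

noncomputable section

namespace Crest.Agent.R122.LNS674

variable {σ μ : Type} [Fintype σ] {n : ℕ} {Φ : Space3 → ℝ} {T te ε c : ℝ} {b : σ → ℝ}
  {V : σ → PhasePoint} {w : Config n} {R : ℝ → Fin n ⊕ σ → Fin n ⊕ σ → Prop}
  {cl : Fin n ⊕ σ → Finset (Fin n ⊕ σ)} {β : Fin n ⊕ σ → ℝ} {E : Finset (Fin n ⊕ σ)}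
  {x₀ y₀ : σ} {d l : ML}

/-! ### Clean births -/

theorem sb_cb0 (h : SB (gsys Φ T ε n b) c w V R (pS n σ) cl β E)
    (H : GW (gsys Φ T ε n b) (Sum.elim w V) cl (MW.cfg w) (gasE n σ)) (u : ℝ) :
    CleanB (gsys Φ T ε n b) (Sum.elim w V) cl (bD (MW.cfg w) (gasE n σ)) (labs (gasE n σ))
      (XD (MW.cfg w) (gasE n σ) Φ ε) u :=
  cleanB_gas (M := gsys Φ T ε n b) H (fun i => h.str.cl_empty (h.gas i)) u

theorem sb_cb1 (h : SB (gsys Φ T ε n b) c w V R (pS n σ) cl β E)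
    (H : GW (gsys Φ T ε n b) (Sum.elim w V) cl ((MW.cfg w).ins d) (lab1 n x₀)) (u : ℝ) :
    CleanB (gsys Φ T ε n b) (Sum.elim w V) cl (bD ((MW.cfg w).ins d) (lab1 n x₀))
      (labs (lab1 n x₀)) (XD ((MW.cfg w).ins d) (lab1 n x₀) Φ ε) u :=
  cleanB_ins (M := gsys Φ T ε n b) H (fun i => h.str.cl_empty (h.gas i)) (fun _ => le_rfl) u

theorem sb_cb2 (h : SB (gsys Φ T ε n b) c w V R (pS n σ) cl β E)
    (hΦ : AdmissiblePotential Φ) (hε : 0 < ε) (hxy : x₀ ≠ y₀)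
    (H : GW (gsys Φ T ε n b) (Sum.elim w V) cl (((MW.cfg w).ins d).ins l) (lab2 n x₀ y₀ hxy))
    (h0 : (MW.cfg w).Ok Φ ε) (hd : ((MW.cfg w).ins d).Ok Φ ε)
    (hl : (((MW.cfg w).ins d).ins l).Ok Φ ε) {u : ℝ}
    (hBd : Sum.inr y₀ ∈ cl (Sum.inr x₀) → d.1.1 ≤ l.1.1 → d.1.1 ≤ u → NoB Φ ε (MW.cfg w) d)
    (hBl : Sum.inr y₀ ∈ cl (Sum.inr x₀) → l.1.1 ≤ d.1.1 → l.1.1 ≤ u → NoB Φ ε (MW.cfg w) l)
    (hne : d.1.1 = l.1.1 → d.1.1 ≤ u → Sum.inr y₀ ∈ cl (Sum.inr x₀) ∨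
      ε < dist d.1.2.1 l.1.2.1) :
    CleanB (gsys Φ T ε n b) (Sum.elim w V) cl
      (bD (((MW.cfg w).ins d).ins l) (lab2 n x₀ y₀ hxy)) (labs (lab2 n x₀ y₀ hxy))
      (XD (((MW.cfg w).ins d).ins l) (lab2 n x₀ y₀ hxy) Φ ε) u :=
  cleanB_ins2 (M := gsys Φ T ε n b) H hΦ hε h0 hd hl (fun i => h.str.cl_empty (h.gas i))
    (fun _ => le_rfl) hBd hBl hne

/-! ### `One` -/

theorem One.of_sb (h : SB (gsys Φ T ε n b) c w V R (pS n σ) cl β E) (hw : w ∈ PairExcluded ε n) :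
    One Φ T ε c b V w cl R :=
  ⟨h.base, hw, h.str.fam⟩

/-! ### Families of exits -/

variable {ls : μ → ML} {p : μ → σ}

/-- **Exits over the gas.** -/
theorem exits0 (h : SB (gsys Φ T ε n b) c w V R (pS n σ) cl β E)
    (hΦ : AdmissiblePotential Φ) (hε : 0 < ε) (hp : Function.Injective p)
    (hC : ∀ k, Car (gsys Φ T ε n b) (Sum.elim w V) cl β E (Sum.inr (p k)) (ls k))
    (ok0 : (MW.cfg w).Ok Φ ε) (ok1 : ∀ k, ((MW.cfg w).ins (ls k)).Ok Φ ε)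
    (hN : ∀ k, (ls k).1.1 = β (Sum.inr (p k)) ∨ NB Φ ε ((MW.cfg w).ins (ls k)) (Sum.inr ())) :
    Exits Φ T te ε b V w cl R (MW.cfg w) (gasE n σ) ls p where
  inj := hp
  out k i := Sum.inl_ne_inr
  mark i _ := le_rfl
  memC k := h.str.mem _ (hC k).mem
  memB i hi := absurd hi (inl_not_mem_pS i)
  ok0 := ok0
  ok1 := ok1
  gd0 := h.gd0 hΦ hε ok0
  gd1 k := h.gd1 hΦ hε (hC k) (ok1 k) (hN k)
  cb0 := sb_cb0 h (h.gd0 hΦ hε ok0) te
  cb1 k := sb_cb1 h (h.gd1 hΦ hε (hC k) (ok1 k) (hN k)) te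
  old k k' hk r hr := by
    have h1 := (hC k).old h.str (hC k') (fun h' => hk (hp (Sum.inr_injective h'))) r hr
    exact ⟨h1.1, h1.2.1⟩
  oldB i _ x _ hi := absurd hi Sum.inl_ne_inr
  oldX _ i y hi := absurd hi Sum.inl_ne_inr

/-- **Exits over the gas and one exit.** -/
theorem exits1 (h : SB (gsys Φ T ε n b) c w V R (pS n σ) cl β E)
    (hΦ : AdmissiblePotential Φ) (hε : 0 < ε) (hp : Function.Injective p)
    (hp0 : ∀ k, x₀ ≠ p k)
    (hd : Car (gsys Φ T ε n b) (Sum.elim w V) cl β E (Sum.inr x₀) d)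
    (hC : ∀ k, Car (gsys Φ T ε n b) (Sum.elim w V) cl β E (Sum.inr (p k)) (ls k))
    (ok : (MW.cfg w).Ok Φ ε) (ok0 : ((MW.cfg w).ins d).Ok Φ ε)
    (ok1 : ∀ k, (((MW.cfg w).ins d).ins (ls k)).Ok Φ ε)
    (hNd : d.1.1 = β (Sum.inr x₀))
    (hN : ∀ k, (ls k).1.1 = β (Sum.inr (p k)) ∨
      NB Φ ε (((MW.cfg w).ins d).ins (ls k)) (Sum.inr ()))
    (hBd : ∀ k, Sum.inr (p k) ∈ cl (Sum.inr x₀) → d.1.1 ≤ (ls k).1.1 → d.1.1 ≤ te →
      NoB Φ ε (MW.cfg w) d)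
    (hBl : ∀ k, Sum.inr (p k) ∈ cl (Sum.inr x₀) → (ls k).1.1 ≤ d.1.1 → (ls k).1.1 ≤ te →
      NoB Φ ε (MW.cfg w) (ls k))
    (hne : ∀ k, d.1.1 = (ls k).1.1 → d.1.1 ≤ te → Sum.inr (p k) ∈ cl (Sum.inr x₀) ∨
      ε < dist d.1.2.1 (ls k).1.2.1) :
    Exits Φ T te ε b V w cl R ((MW.cfg w).ins d) (lab1 n x₀) ls p where
  inj := hp
  out k := lab1_ne (hp0 k)
  mark i hi := by
    rcases i with i | i
    · exact le_rfl
    · exact absurd (inr_mem_pS x₀) hi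
  memC k := h.str.mem _ (hC k).mem
  memB i hi := by
    rcases i with i | i
    · exact absurd hi (inl_not_mem_pS i)
    · exact h.str.mem _ hd.mem
  ok0 := ok0
  ok1 := ok1
  gd0 := h.gd1 hΦ hε hd ok0 (Or.inl hNd)
  gd1 k := h.gd2 hΦ hε (hp0 k) hd (hC k) (ok1 k) (Or.inl hNd) (hN k)
  cb0 := sb_cb1 h (h.gd1 hΦ hε hd ok0 (Or.inl hNd)) te
  cb1 k := sb_cb2 h hΦ hε (hp0 k) (h.gd2 hΦ hε (hp0 k) hd (hC k) (ok1 k) (Or.inl hNd) (hN k))
    ok ok0 (ok1 k) (hBd k) (hBl k) (hne k)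
  old k k' hk r hr := by
    have h1 := (hC k).old h.str (hC k') (fun h' => hk (hp (Sum.inr_injective h'))) r hr
    exact ⟨h1.1, h1.2.1⟩
  oldB i j x y hi hj hij := by
    rcases i with i | i
    · exact absurd hi Sum.inl_ne_inr
    rcases j with j | j
    · exact absurd hj Sum.inl_ne_inr
    exact absurd rfl hij
  oldX k i y hi r hr := by
    rcases i with i | i
    · exact absurd hi Sum.inl_ne_inr
    · have h0 : x₀ = y := Sum.inr_injective hi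
      subst h0
      exact (hC k).old h.str hd (fun h' => hp0 k (Sum.inr_injective h').symm) r hr

end Crest.Agent.R122.LNS674

end
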