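import Crest.Agent.R122.LNS2_674
import Crest.Agent.R122.LNReachGD_818

/-!
# Row 122, LN1 (helper515): (RA) for the exits of one structure

* `Exits.gd2`, `Exits.cb2` : helper818's data of the two glued worlds.
* `Exits.reachAll_or_run` : **(RA)** for one exit.
* `One.ra` : the same from helper692's events `BadGas`, `BadHitGas`.
-/

set_option autoImplicit false
set_option linter.unusedSectionVars false

open MeasureTheory Set Filter Topology
open scoped NNReal ENNReal
open Crest.AnalysisR.Kinetic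
open Crest.Agent.R122.Loc45 Crest.Agent.R122.Ins45 Crest.Agent.R122.EDefs602
open Crest.Agent.R122.VL581 Crest.Agent.R122.VL581.VSys Crest.Agent.R122.VLInst442
open Crest.Agent.R122.LN304 Crest.Agent.R122.LNg410 Crest.Agent.R122.LNEv968
open Crest.Agent.R122.PWGlue491 Crest.Agent.R122.PWInst442 Crest.Agent.R122.LNPart424
open Crest.Agent.R122.MWFam255 Crest.Agent.R122.LNEv818 Crest.Agent.R122.LinkD331
open Crest.Agent.R122.LNS674
open scoped Classical

noncomputable section

namespace Crest.Agent.R122.LNCls515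

variable {σ : Type} [Fintype σ] {n : ℕ} {ι μ : Type} [Fintype ι] {Φ : Space3 → ℝ}
  {T te ε c ℓ ς : ℝ} {b : σ → ℝ} {V : σ → PhasePoint} {w : Config n}
  {cl : Fin n ⊕ σ → Finset (Fin n ⊕ σ)} {R : ℝ → Fin n ⊕ σ → Fin n ⊕ σ → Prop} {W : MW ι}
  {f : ι ↪ Fin n ⊕ σ} {ls : μ → ML} {p : μ → σ} {K N m : ℕ}

/-- The data of the glued worlds of `W` and of `W` with an exit. -/
theorem gd2_of_exits (E : Exits Φ T te ε b V w cl R W f ls p) (x : μ) :
    GD2 (gsys Φ T ε n b) (Sum.elim w V) cl W (ls x) f (Sum.inr (p x)) (E.out x) :=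
  ⟨E.gd0, E.gd1 x, E.ok0, E.ok1 x⟩

/-- Clean births. -/
theorem cb2_of_exits (E : Exits Φ T te ε b V w cl R W f ls p) (x : μ) :
    CB2 (gsys Φ T ε n b) (Sum.elim w V) cl W (ls x) f (Sum.inr (p x)) (E.out x) te :=
  ⟨E.cb0, E.cb1 x⟩

/-- **(RA)** for an exit: a run starts in a part of the structure, or everything which is
influenced up to the touch time is reached. -/
theorem reachAll_or_run (h : One Φ T ε c b V w cl R) (E : Exits Φ T te ε b V w cl R W f ls p)
    (hT0 : 0 ≤ T) (hte : te ≤ T)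
    (hX : Ctx (gsys Φ T ε n b) c ℓ ς (Sum.elim w V) (LS n σ) N) (x : μ)
    (hH : ∀ β, ¬ BadHit (gsys Φ T ε n b) c (Sum.elim w V) (E.X x β) (E.C x β) (LS n σ) N)
    (hgf : ∀ i : Fin n, ∃ k, f k = Sum.inl i) (m : ℕ)
    (hN : Fintype.card σ + 2 * K * (m + 2) ≤ N) :
    RunD (gsys Φ T ε n b) (Sum.elim w V) (pS n σ) (Sum.inr (p x)) K m w ∨
      ReachAll (Reach (gsys Φ T ε n b) c (Sum.elim w V) (LS n σ) (pS n σ) (Sum.inr (p x)) N)
        Φ ε K te W f (ls x) (Sum.inr (p x)) := by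
  have hcard : (uni (LS n σ)).card = Fintype.card σ := by
    rw [uni_LS, Finset.card_map, Finset.card_univ]
  have hTW := E.twoW h hT0 hX x hH
  have hgu : ∀ j : Fin n ⊕ σ, j ∉ uni (LS n σ) → ∃ i : Fin n, Sum.inl i = j := by
    intro j hj
    rcases j with j | j
    · exact ⟨j, rfl⟩
    · rw [uni_LS] at hj
      exact absurd (inr_mem_pS j) hj
  have hBW := E.bindW (K := K) h hX.hΦ hX.hε hte x
  have hGW := (gd2_of_exits E x).gasW (Λ := LS n σ) (c := c) hX.hΦ hX.hε h.parts h.sub_uni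
    (fun j hj => by
      obtain ⟨i, rfl⟩ := hgu j hj
      exact hgf i)
  have hE1 : E.X x = Xb (gsys Φ T ε n b) (Sum.elim w V) cl W (ls x) f (Sum.inr (p x)) (E.out x) := by
    funext β
    cases β <;> rfl
  have hE2 : E.C x = Cb (gsys Φ T ε n b) (Sum.elim w V) cl W (ls x) f (Sum.inr (p x)) (E.out x) := by
    funext β
    cases β <;> rfl
  rw [← hE2] at hGW
  refine (LNEv818.reachAll_or_run hBW hTW hGW (w := w) (g := gasE n σ) (fun i => rfl)
    (fun i => rfl) (fun i h' => by cases h') (fun j hj => ?_) m (by rw [hcard]; exact hN)).imp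
    id ?_
  · obtain ⟨i, rfl⟩ := hgu j hj
    exact ⟨i, rfl⟩
  · intro hR u hu hθ y hy hb
    have h1 := hR u hu hθ y hy hb
    have mono : ∀ {i : Fin n ⊕ σ} {v : ℝ} {q : Space3},
        Reach (gsys Φ T ε n b) c (Sum.elim w V) (LS n σ) (pS n σ) (Sum.inr (p x))
          ((uni (LS n σ)).card + 2 * K * (m + 2)) i v q →
        Reach (gsys Φ T ε n b) c (Sum.elim w V) (LS n σ) (pS n σ) (Sum.inr (p x)) N i v q := by
      rintro i v q ⟨Y, hY, hi, h⟩
      exact ⟨Y, hY.mono (by rw [hcard]; exact hN), hi, h⟩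
    exact ⟨mono h1.1, fun k hk => mono (h1.2 k hk)⟩

end Crest.Agent.R122.LNCls515

end
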