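import Crest.Agent.R122.LNvs_410

/-!
# Row 122, LN1 (helper491): restriction of `TreeLike` to a connected part

`treeLike_sub`: a connected part of a connected tree-like group is tree-like (same `C`, `ℓ`, `ς`).
`Conn C P Z` is needed: the edge set `E` of a non-connected `P` may contain a cycle inside `P'`.
-/

set_option autoImplicit false
set_option linter.unusedSectionVars false

open Set
open Crest.AnalysisR.Kinetic
open Crest.Agent.R122.GIV566 Crest.Agent.R122.VL581 Crest.Agent.R122.LNg410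

namespace Crest.Agent.R122.LNSub491

variable {J κ : Type} [Fintype J] {M : VSys J κ} {C ℓ ς : ℝ} {P P' : Finset J}
  {Z : J → PhasePoint}

/-- **Restriction**: a connected part of a connected tree-like group is tree-like. -/
theorem treeLike_sub (hC : M.Conn C P Z) (hT : M.TreeLike C ℓ ς P Z) (hP' : P' ⊆ P)
    (hC' : M.Conn C P' Z) : M.TreeLike C ℓ ς P' Z := by
  classical
  obtain ⟨hok, E, σ, hE, hE2, hE3a, hE3b, hE3, hE4⟩ := hT
  refine ⟨fun A hA => hok A (hA.trans hP'), ?_⟩
  have hconn := conn_iff.1 hC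
  have hSc := conn_iff.1 hC'
  have hedge : ∀ a ∈ P, ∀ b ∈ P, a ≠ b → (∃ t, vc M C P Z a b t) → (a, b) ∈ E ∨ (b, a) ∈ E := by
    rintro a ha b hb hab ⟨t, ht⟩
    obtain ⟨g, hg, hg', _⟩ := hE4 a ha b hb hab t ht.1 ht.2
    rcases hg' with rfl | rfl
    · exact Or.inl hg
    · exact Or.inr hg
  set E₁ := E.filter fun e => e.1 ∈ P' ∧ e.2 ∈ P' with hE₁
  have c₁ : P'.card ≤ E₁.card + 1 := by
    refine card_le_of_cutConn (hSc.mono fun a ha b hb hab hF => ?_)
    obtain ⟨t, ht⟩ := hF
    rcases hedge a (hP' ha) b (hP' hb) hab ⟨t, vc_mono hP' ht⟩ with h | h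
    · exact Or.inl (Finset.mem_filter.2 ⟨h, ha, hb⟩)
    · exact Or.inr (Finset.mem_filter.2 ⟨h, hb, ha⟩)
  have c₃ : (P \ P').card ≤ (outE E P').card :=
    card_le_outE (P := P) (hconn.mono fun a ha b hb hab hF => hedge a ha b hb hab hF) _ P' hP'
      hC'.1 rfl
  have h4 : E₁.card + (outE E P').card = E.card := by
    rw [hE₁, outE]
    exact Finset.card_filter_add_card_filter_not (s := E) fun e => e.1 ∈ P' ∧ e.2 ∈ P'
  have h5 : (P \ P').card = P.card - P'.card := Finset.card_sdiff_of_subset hP'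
  have h6 : P'.card ≤ P.card := Finset.card_le_card hP'
  have h7 : 0 < P'.card := Finset.card_pos.2 hC'.1
  refine ⟨E₁, σ, by omega, fun e he => ?_, fun e he => ?_, fun e he i => ?_,
    fun e he e' he' => ?_, fun i hi j hj hij t ht hv => ?_⟩
  · have := Finset.mem_filter.1 he
    exact ⟨this.2.1, this.2.2, (hE2 e this.1).2.2⟩
  · exact hE3a e (Finset.mem_filter.1 he).1
  · exact hE3b e (Finset.mem_filter.1 he).1 i
  · exact hE3 e (Finset.mem_filter.1 he).1 e' (Finset.mem_filter.1 he').1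
  · obtain ⟨e, he, he', h⟩ := hE4 i (hP' hi) j (hP' hj) hij t ht (vct_mono hP' hv)
    refine ⟨e, Finset.mem_filter.2 ⟨he, ?_⟩, he', h⟩
    rcases he' with rfl | rfl
    · exact ⟨hi, hj⟩
    · exact ⟨hj, hi⟩

/-- Contrapositive: a group containing a connected part which is not tree-like is not tree-like. -/
theorem not_treeLike_of_sub (hC : M.Conn C P Z) (hP' : P' ⊆ P) (hC' : M.Conn C P' Z)
    (hT' : ¬ M.TreeLike C ℓ ς P' Z) : ¬ M.TreeLike C ℓ ς P Z :=
  fun h => hT' (treeLike_sub hC h hP' hC')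

/-- Births may be compared with `max b 0` as well, contact times being larger than `ς`. -/
theorem sep_bb (h : M.TreeLike C ℓ ς P Z) {i j : J} (hi : i ∈ P) (hj : j ∈ P) (hij : i ≠ j)
    {t : ℝ} (ht : vc M C P Z i j t) (k : J) : ς - ℓ < |t - M.bb k| := by
  obtain ⟨h1, h2, _⟩ := sep_births h hi hj hij ht k
  unfold VSys.bb
  rcases max_choice (M.b k) 0 with h' | h'
  · rw [h']; exact h1
  · rw [h', sub_zero]
    exact h2.trans_le (le_abs_self t)

end Crest.Agent.R122.LNSub491
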