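import Crest.Agent.R122.LNTreeRA_399
import Crest.Agent.R122.LNLinkB_818
import Crest.Agent.R122.LNRet_383
import Crest.Agent.R122.Hid_424
import Crest.Agent.R122.LNPartG_547

/-!
# Row 122, LN1, instance (TL): one tree and one independent line (helper547)

One tree `(P, z)`, valid and separated on `[0, t]`, a gas `w` and an independent line `l`; labels
`Fin n ⊕ (Idx P ⊕ Unit)`, parts `{Idx P}` and `{l}`.

* `Ml`, `Zl`, `eT`, `pT`, `pL`, `Ll` : the master system, its configuration, parts.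
* `glue_cfg`, `glue_exit`, `glue_line` : the glued worlds of `cfg w`, `cfg w + exit`, `cfg w + l`.
* `parts`, `not_noBad`, `not_noTwo` : the graph data; bad partitions PER PART: either of the tree and
  the gas alone (`s = 1`), or of the tree, the gas and the line with the anchors of the tree
  (`s = 2`).
* `noLink_of`, `not_retC_of` : events (X2), (X3) of helper879 from reachability.
-/

set_option autoImplicit false
set_option linter.unusedSectionVars false
set_option maxHeartbeats 400000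

open MeasureTheory Set Filter
open scoped Classical ENNReal Topology
open Crest.AnalysisR.Kinetic
open Crest.Agent.R122.GIV566 Crest.Agent.R122.VL581 Crest.Agent.R122.LN304
open Crest.Agent.R122.LNTree410 Crest.Agent.R122.PWInst442 Crest.Agent.R122.PWGlue491
open Crest.Agent.R122.LNPart424 Crest.Agent.R122.EDefs602 Crest.Agent.R122.TreeLines335
open Crest.Agent.R122.Kin796 Crest.Agent.R122.Kin796.CTree Crest.Agent.R122.Tree674

noncomputable section

namespace Crest.Agent.R122.LNTL547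

variable {Φ : Space3 → ℝ} {ε t c ℓ ς : ℝ} {n : ℕ} {P : CTree} {z : PhasePoint × Par P}
  {w : Config n} {l : ML}

/-! ### Definitions -/

/-- Births of the structure. -/
def bTL (P : CTree) (l : ML) : Idx P ⊕ Unit → ℝ := Sum.elim (fun _ => 0) fun _ => l.1.1

/-- Time-`0` states of the structure. -/
def zTL (Φ : Space3 → ℝ) (ε : ℝ) (z : PhasePoint × Par P) (l : ML) : Idx P ⊕ Unit → PhasePoint :=
  Sum.elim (Tree674.lines Φ ε P z.1 z.2) fun _ => back l.1

/-- Anchors: the labels of the tree. -/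
def aTL (P : CTree) : Finset (Idx P ⊕ Unit) := Finset.univ.map ⟨Sum.inl, Sum.inl_injective⟩

/-- The master system of the gas, the tree and the line. -/
abbrev Ml (Φ : Space3 → ℝ) (t ε : ℝ) (n : ℕ) (P : CTree) (l : ML) :
    VSys (Fin n ⊕ (Idx P ⊕ Unit)) Unit := LNPart424.gsys Φ t ε n (bTL P l)

/-- The configuration at time `0`. -/
abbrev Zl (Φ : Space3 → ℝ) (ε : ℝ) (w : Config n) (z : PhasePoint × Par P) (l : ML) :
    Fin n ⊕ (Idx P ⊕ Unit) → PhasePoint := Sum.elim w (zTL Φ ε z l)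

/-- Labels of the tree. -/
def eT (n : ℕ) (P : CTree) : Idx P ↪ Fin n ⊕ (Idx P ⊕ Unit) :=
  ⟨fun x => Sum.inr (Sum.inl x), fun x y h => by simpa using h⟩

/-- Labels of the gas. -/
def eG (n : ℕ) (P : CTree) : Fin n ↪ Fin n ⊕ (Idx P ⊕ Unit) := ⟨Sum.inl, Sum.inl_injective⟩

/-- Label of the line. -/
abbrev xL (n : ℕ) (P : CTree) : Fin n ⊕ (Idx P ⊕ Unit) := Sum.inr (Sum.inr ())

/-- Labels of the gas and of one structure label `y`. -/
def eX (n : ℕ) (P : CTree) (y : Idx P ⊕ Unit) : Fin n ⊕ Unit ↪ Fin n ⊕ (Idx P ⊕ Unit) :=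
  ⟨Sum.elim Sum.inl fun _ => Sum.inr y, by
    rintro (i | i) (j | j) h
    · simpa using h
    · simp at h
    · simp at h
    · rfl⟩

/-- The part of the tree. -/
abbrev pT (n : ℕ) (P : CTree) : Finset (Fin n ⊕ (Idx P ⊕ Unit)) := part (eT n P)

/-- The part of the line. -/
abbrev pL (n : ℕ) (P : CTree) : Finset (Fin n ⊕ (Idx P ⊕ Unit)) := {xL n P}

/-- The set of parts. -/
def Ll (n : ℕ) (P : CTree) : Finset (Finset (Fin n ⊕ (Idx P ⊕ Unit))) := {pT n P, pL n P}

theorem mem_pT {j : Fin n ⊕ (Idx P ⊕ Unit)} : j ∈ pT n P ↔ ∃ x, j = Sum.inr (Sum.inl x) := by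
  rw [mem_part]
  exact ⟨fun ⟨i, hi⟩ => ⟨i, hi.symm⟩, fun ⟨i, hi⟩ => ⟨i, hi.symm⟩⟩

theorem inl_not_mem (i : Fin n) : (Sum.inl i : Fin n ⊕ (Idx P ⊕ Unit)) ∉ pT n P := by
  rw [mem_pT]
  rintro ⟨x, hx⟩
  simp at hx

theorem inr_mem (x : Idx P) : (Sum.inr (Sum.inl x) : Fin n ⊕ (Idx P ⊕ Unit)) ∈ pT n P :=
  mem_pT.2 ⟨x, rfl⟩

theorem line_not_mem : xL n P ∉ pT n P := by
  rw [mem_pT]
  rintro ⟨x, hx⟩
  simp at hx

theorem pT_ne_pL : pT n P ≠ pL n P := fun h =>
  line_not_mem (n := n) (P := P) (h ▸ Finset.mem_singleton_self _)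

theorem mem_Ll {π : Finset (Fin n ⊕ (Idx P ⊕ Unit))} : π ∈ Ll n P ↔ π = pT n P ∨ π = pL n P := by
  unfold Ll
  rw [Finset.mem_insert, Finset.mem_singleton]

theorem pT_mem : pT n P ∈ Ll n P := mem_Ll.2 (Or.inl rfl)

theorem pL_mem : pL n P ∈ Ll n P := mem_Ll.2 (Or.inr rfl)

theorem mem_uni_Ll {x : Fin n ⊕ (Idx P ⊕ Unit)} : x ∈ uni (Ll n P) ↔ ∃ y, x = Sum.inr y := by
  rw [LNPart424.mem_uni]
  constructor
  · rintro ⟨π, hπ, hx⟩
    rcases mem_Ll.1 hπ with rfl | rfl
    · obtain ⟨y, rfl⟩ := mem_pT.1 hx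
      exact ⟨_, rfl⟩
    · exact ⟨_, Finset.mem_singleton.1 hx⟩
  · rintro ⟨y | y, rfl⟩
    · exact ⟨_, pT_mem, inr_mem y⟩
    · exact ⟨_, pL_mem, Finset.mem_singleton_self _⟩

theorem disj_Ll : ∀ π ∈ Ll n P, ∀ π' ∈ Ll n P, π ≠ π' → Disjoint π π' := by
  have h : Disjoint (pT n P) (pL n P) := Finset.disjoint_singleton_right.2 line_not_mem
  intro π hπ π' hπ' hne
  rcases mem_Ll.1 hπ with rfl | rfl <;> rcases mem_Ll.1 hπ' with rfl | rfl
  · exact absurd rfl hne
  · exact h
  · exact h.symm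
  · exact absurd rfl hne

theorem none_ne (i : Fin n ⊕ (Idx P ⊕ Unit)) : (Ml Φ t ε n P l).o ≠ some i := by
  intro h
  have h1 : (none : Option (Fin n ⊕ (Idx P ⊕ Unit))) = some _ := h
  exact absurd h1 (by simp)

/-! ### The glued worlds -/

theorem treeIn (hV : Valid Φ ε P t z.1.2 z.2) (hS : Sep Φ ε P t z.1 z.2) :
    TreeIn (Ml Φ t ε n P l) (Zl Φ ε w z l) (Ml Φ t ε n P l).T P z.1 z.2 (eT n P) where
  b _ := le_rfl
  Z _ := rfl
  o _ := none_ne _
  valid := hV
  sep := hS

theorem forest (hV : Valid Φ ε P t z.1.2 z.2) (hS : Sep Φ ε P t z.1 z.2) :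
    Forest (Ml Φ t ε n P l) (Zl Φ ε w z l) (fun _ : Unit => P) (fun _ => z)
      (fun _ => eT n P) where
  tree _ := treeIn hV hS
  disj _ _ h := absurd rfl h

/-- The glued world of the gas alone. -/
theorem glue_cfg (hV : Valid Φ ε P t z.1.2 z.2) (hS : Sep Φ ε P t z.1 z.2)
    (hok : (MW.cfg w).Ok Φ ε) :
    Glue (Ml Φ t ε n P l) (Zl Φ ε w z l) (fun _ : Unit => P) (fun _ => z) (fun _ => eT n P)
      (MW.cfg w) (eG n P) where
  forest := forest hV hS
  ok := hok
  cls i := Or.inl ⟨fun _ => inl_not_mem i, none_ne _, max_self 0, rfl⟩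

/-- The glued world of the gas and an exit line. -/
theorem glue_exit (hV : Valid Φ ε P t z.1.2 z.2) (hS : Sep Φ ε P t z.1 z.2) (x : Idx P)
    (hok : ((MW.cfg w).ins (lineML Φ ε P z x)).Ok Φ ε) :
    Glue (Ml Φ t ε n P l) (Zl Φ ε w z l) (fun _ : Unit => P) (fun _ => z) (fun _ => eT n P)
      ((MW.cfg w).ins (lineML Φ ε P z x)) (eX n P (Sum.inl x)) where
  forest := forest hV hS
  ok := hok
  cls i := by
    rcases i with i | i
    · exact Or.inl ⟨fun _ => inl_not_mem i, none_ne _, max_self 0, rfl⟩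
    · exact Or.inr ⟨(), x, rfl, rfl, back_lineML Φ ε P z x⟩

/-- The glued world of the gas and the line. -/
theorem glue_line (hV : Valid Φ ε P t z.1.2 z.2) (hS : Sep Φ ε P t z.1 z.2) (hl : 0 ≤ l.1.1)
    (hok : ((MW.cfg w).ins l).Ok Φ ε) :
    Glue (Ml Φ t ε n P l) (Zl Φ ε w z l) (fun _ : Unit => P) (fun _ => z) (fun _ => eT n P)
      ((MW.cfg w).ins l) (eX n P (Sum.inr ())) where
  forest := forest hV hS
  ok := hok
  cls i := by
    rcases i with i | i
    · exact Or.inl ⟨fun _ => inl_not_mem i, none_ne _, max_self 0, rfl⟩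
    · exact Or.inl ⟨fun _ => line_not_mem, none_ne _, max_eq_left hl, rfl⟩

/-! ### Parts -/

theorem bTL_nonneg (hl : 0 ≤ l.1.1) (y : Idx P ⊕ Unit) : 0 ≤ bTL P l y := by
  rcases y with y | y
  · exact le_rfl
  · exact hl

variable (hΦ : AdmissiblePotential Φ) (hε : 0 < ε)
include hΦ hε

theorem conn_pT (hc : 1 ≤ c) (hV : Valid Φ ε P t z.1.2 z.2) (hS : Sep Φ ε P t z.1 z.2) :
    (Ml Φ t ε n P l).Conn c (pT n P) (Zl Φ ε w z l) :=
  (treeIn hV hS).Conn_tree (M := Ml Φ t ε n P l) hΦ hε le_rfl hc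

omit hΦ hε in
theorem conn_pL : (Ml Φ t ε n P l).Conn c (pL n P) (Zl Φ ε w z l) :=
  LNg410.conn_singleton _

theorem conn_Ll (hc : 1 ≤ c) (hV : Valid Φ ε P t z.1.2 z.2) (hS : Sep Φ ε P t z.1 z.2) :
    ∀ π ∈ Ll n P, (Ml Φ t ε n P l).Conn c π (Zl Φ ε w z l) := by
  intro π hπ
  rcases mem_Ll.1 hπ with rfl | rfl
  · exact conn_pT hΦ hε hc hV hS
  · exact conn_pL

theorem parts (hc : 1 ≤ c) (hV : Valid Φ ε P t z.1.2 z.2) (hS : Sep Φ ε P t z.1 z.2)
    (hw : w ∈ PairExcluded ε n) :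
    Parts (Ml Φ t ε n P l) c (Zl Φ ε w z l) (Ll n P) where
  conn := conn_Ll hΦ hε hc hV hS
  gas_o i _ := none_ne i
  gas_b i hi := by
    rcases i with i | i
    · exact le_rfl
    · exfalso
      obtain ⟨π, hπ, h⟩ := LNPart424.mem_uni.1 (mem_uni_Ll.2 ⟨i, rfl⟩ : _ ∈ uni (Ll n P))
      exact hi π hπ h
  gas_sep i j hi hj hij := by
    have key : ∀ y : Idx P ⊕ Unit, ¬ ∀ π ∈ Ll n P, (Sum.inr y : Fin n ⊕ (Idx P ⊕ Unit)) ∉ π := by
      intro y h
      obtain ⟨π, hπ, h'⟩ := LNPart424.mem_uni.1 (mem_uni_Ll.2 ⟨y, rfl⟩ : _ ∈ uni (Ll n P))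
      exact h π hπ h'
    rcases i with i | i
    · rcases j with j | j
      · exact hw i j fun h => hij (by rw [h])
      · exact absurd hj (key j)
    · exact absurd hi (key i)

omit hΦ hε in
/-- A single label is tree-like. -/
theorem tl_single {J κ : Type} [Fintype J] {M : VSys J κ} {Z : J → PhasePoint} (x : J) :
    TL M c ℓ ς {x} Z := by
  refine ⟨fun A hA i hi _ _ j hj _ hji _ => ?_, ∅, fun _ => 0, by simp, by simp, by simp, ?_⟩
  · have h1 := Finset.mem_singleton.1 (hA hi)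
    have h2 := Finset.mem_singleton.1 (hA hj)
    exact absurd (h2.trans h1.symm) hji
  · intro i hi j hj hij
    rw [Finset.mem_singleton] at hi hj
    exact absurd (hi.trans hj.symm) hij

/-- **Bad partitions, per part**: either the tree and the gas alone have a bad partition
(`s = 1`), or the tree, the gas and the line (`s = 2`, anchors of the tree). -/
theorem bad_of_not (hc : 1 ≤ c) (hV : Valid Φ ε P t z.1.2 z.2) (hS : Sep Φ ε P t z.1 z.2) {R : ℝ}
    {N : ℕ} (h : ¬ NoBad (Ml Φ t ε n P l) c (R * ε) ς (Zl Φ ε w z l) (Ll n P) N ∨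
      ¬ NoTwo (Ml Φ t ε n P l) c (Zl Φ ε w z l) (Ll n P) N) :
    LN2.BadGasW Φ t c R ς ε N 1 (Finset.univ : Finset (Idx P)) (fun _ => 0)
      (Tree674.lines Φ ε P z.1 z.2) w ∨
    LN2.BadGasW Φ t c R ς ε N 2 (aTL P) (bTL P l) (zTL Φ ε z l) w := by
  have hm : ∀ P' x, x ∈ (@Union.union (Finset (Fin n ⊕ (Idx P ⊕ Unit)))
      (@Finset.instUnion (Fin n ⊕ (Idx P ⊕ Unit)) fun a b => Classical.propDecidable (a = b)) P'
        (uni (Ll n P))) ↔ x ∈ P' ∨ x ∈ uni (Ll n P) :=
    fun P' x => @Finset.mem_union _ (fun a b => Classical.propDecidable _) _ _ _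
  -- the bad connected set
  have hex : ∃ G π₀ Q : Finset (Fin n ⊕ (Idx P ⊕ Unit)),
      (Ml Φ t ε n P l).Conn c G (Zl Φ ε w z l) ∧ π₀ ∈ Ll n P ∧ π₀ ⊆ G ∧
      (∀ x, x ∈ Q ↔ x ∈ G ∨ x ∈ uni (Ll n P)) ∧ Q.card ≤ N ∧
      (¬ TL (Ml Φ t ε n P l) c (R * ε) ς G (Zl Φ ε w z l) ∨
        ∃ π ∈ Ll n P, (∃ x ∈ π, x ∈ G) ∧ π ≠ π₀) := by
    rcases h with h | h
    · unfold NoBad at h
      push Not at h
      obtain ⟨P', hP, ⟨π, hπ, hs⟩, hN, hT⟩ := h
      exact ⟨P', π, _, hP, hπ, hs, hm P', hN, Or.inl hT⟩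
    · unfold NoTwo at h
      push Not at h
      obtain ⟨P', hP, hN, π, hπ, π', hπ', hs, hx, hne⟩ := h
      exact ⟨P', π, _, hP, hπ, hs, hm P', hN, Or.inr ⟨π', hπ', hx, hne.symm⟩⟩
  obtain ⟨G, π₀, Q, hG, h0, hs, hQm, hN, hbad⟩ := hex
  have hTc : (Ml Φ t ε n P l).Conn c (pT n P) (Zl Φ ε w z l) := conn_pT hΦ hε hc hV hS
  by_cases h1 : xL n P ∈ G
  · by_cases h2 : ∃ x, (Sum.inr (Sum.inl x) : Fin n ⊕ (Idx P ⊕ Unit)) ∈ G
    · -- the line and the tree in one connected set
      right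
      obtain ⟨x, hx⟩ := h2
      have h3 : (Ml Φ t ε n P l).Conn c (G ∪ pT n P) (Zl Φ ε w z l) :=
        LNg410.conn_union hG hTc ⟨_, Finset.mem_inter.2 ⟨hx, inr_mem x⟩⟩
      refine LNPartG547.badGasW_one hΦ hε one_lt_two h3 (fun y => ?_) ?_ ?_
      · rcases y with y | y
        · exact Finset.mem_union_right _ (inr_mem y)
        · exact Finset.mem_union_left _ h1
      · exact ⟨Sum.inl (root P), Finset.mem_map.2 ⟨root P, Finset.mem_univ _, rfl⟩⟩
      · refine (Finset.card_le_card fun y hy => ?_).trans hN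
        rw [hQm]
        rcases Finset.mem_union.1 hy with hy | hy
        · exact Or.inl hy
        · exact Or.inr (LNPart424.mem_uni.2 ⟨_, pT_mem, hy⟩)
    · -- the line and gas particles only
      right
      push Not at h2
      have hdis : Disjoint (pT n P) G := by
        rw [Finset.disjoint_left]
        intro y hy hyG
        obtain ⟨x, rfl⟩ := mem_pT.1 hy
        exact h2 x hyG
      have h0' : π₀ = pL n P := (mem_Ll.1 h0).resolve_left fun h' => by
        rw [h'] at hs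
        exact h2 (root P) (hs (inr_mem _))
      have hT : ¬ TL (Ml Φ t ε n P l) c (R * ε) ς G (Zl Φ ε w z l) := by
        rcases hbad with hbad | ⟨π, hπ, ⟨x, hx, hxG⟩, hne⟩
        · exact hbad
        · exfalso
          have h3 : π = pT n P := (mem_Ll.1 hπ).resolve_right fun h' => hne (h'.trans h0'.symm)
          rw [h3] at hx
          obtain ⟨y, rfl⟩ := mem_pT.1 hx
          exact h2 y hxG
      have hgas : ∃ i : Fin n, (Sum.inl i : Fin n ⊕ (Idx P ⊕ Unit)) ∈ G := by
        by_contra hcon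
        push Not at hcon
        have h3 : G = {xL n P} := by
          ext y
          rw [Finset.mem_singleton]
          constructor
          · intro hy
            rcases y with y | y | y
            · exact absurd hy (hcon y)
            · exact absurd hy (h2 y)
            · rfl
          · rintro rfl
            exact h1
        exact hT (h3 ▸ tl_single _)
      have hGT : G ≠ pT n P := fun h' => line_not_mem (n := n) (P := P) (h' ▸ h1)
      refine LNPartG547.badGasW_of_conn_g hΦ hε (Function.Embedding.refl _)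
        (Λ := {pT n P, G}) (π₀ := G) (Q := Q) (b := bTL P l) (z := zTL Φ ε z l)
        ?_ Finset.card_le_two ?_ ?_ hG ?_ subset_rfl ?_ ?_ hN (Or.inl hT)
      · intro π hπ π' hπ' hne
        rw [Finset.mem_insert, Finset.mem_singleton] at hπ hπ'
        rcases hπ with rfl | rfl <;> rcases hπ' with rfl | rfl
        · exact absurd rfl hne
        · exact hdis
        · exact hdis.symm
        · exact absurd rfl hne
      · intro π hπ
        rw [Finset.mem_insert, Finset.mem_singleton] at hπ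
        rcases hπ with rfl | rfl
        · exact hTc
        · exact hG
      · intro π hπ
        rw [Finset.mem_insert, Finset.mem_singleton] at hπ
        rcases hπ with rfl | rfl
        · exact Or.inl ⟨Sum.inl (root P), Finset.mem_map.2 ⟨root P, Finset.mem_univ _, rfl⟩,
            inr_mem _⟩
        · exact Or.inr hgas
      · rw [Finset.mem_insert, Finset.mem_singleton]
        exact Or.inr rfl
      · intro x
        rw [hQm, LNPart424.mem_uni, LNPart424.mem_uni]
        constructor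
        · rintro (hx | ⟨π, hπ, hx⟩)
          · exact Or.inl hx
          · rcases mem_Ll.1 hπ with rfl | rfl
            · exact Or.inr ⟨_, Finset.mem_insert_self _ _, hx⟩
            · rw [Finset.mem_singleton] at hx
              exact Or.inl (hx ▸ h1)
        · rintro (hx | ⟨π, hπ, hx⟩)
          · exact Or.inl hx
          · rw [Finset.mem_insert, Finset.mem_singleton] at hπ
            rcases hπ with rfl | rfl
            · exact Or.inr ⟨_, pT_mem, hx⟩
            · exact Or.inl hx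
      · intro y
        refine ⟨fun _ => ⟨y, rfl⟩, fun _ => (hQm _).2 (Or.inr (mem_uni_Ll.2 ⟨y, rfl⟩))⟩
  · -- the tree and gas particles only
    left
    have h0' : π₀ = pT n P := (mem_Ll.1 h0).resolve_right fun h' => by
      rw [h'] at hs
      exact h1 (hs (Finset.mem_singleton_self _))
    have hT : ¬ TL (Ml Φ t ε n P l) c (R * ε) ς G (Zl Φ ε w z l) := by
      rcases hbad with hbad | ⟨π, hπ, ⟨x, hx, hxG⟩, hne⟩
      · exact hbad
      · exfalso
        have h3 : π = pL n P := (mem_Ll.1 hπ).resolve_left fun h' => hne (h'.trans h0'.symm)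
        rw [h3, Finset.mem_singleton] at hx
        exact h1 (hx ▸ hxG)
    rw [h0'] at hs
    refine LNPartG547.badGasW_of_conn_g hΦ hε ⟨Sum.inl, Sum.inl_injective⟩
      (Λ := {pT n P}) (π₀ := pT n P) (Q := G) (b := bTL P l) (z := zTL Φ ε z l)
      ?_ (Finset.card_singleton _).le ?_ ?_ hG (Finset.mem_singleton_self _) hs ?_ ?_ ?_
      (Or.inl hT)
    · intro π hπ π' hπ' hne
      rw [Finset.mem_singleton] at hπ hπ'
      exact absurd (hπ.trans hπ'.symm) hne
    · intro π hπ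
      rw [Finset.mem_singleton] at hπ
      exact hπ ▸ hTc
    · intro π hπ
      rw [Finset.mem_singleton] at hπ
      exact Or.inl ⟨root P, Finset.mem_univ _, hπ ▸ inr_mem _⟩
    · intro x
      rw [LNPart424.mem_uni]
      refine ⟨Or.inl, ?_⟩
      rintro (hx | ⟨π, hπ, hx⟩)
      · exact hx
      · rw [Finset.mem_singleton] at hπ
        exact hs (hπ ▸ hx)
    · intro y
      constructor
      · intro hy
        rcases y with y | y
        · exact ⟨y, rfl⟩
        · exact absurd hy h1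
      · rintro ⟨y, rfl⟩
        exact hs (inr_mem y)
    · exact (Finset.card_le_card fun x hx => (hQm x).2 (Or.inl hx)).trans hN

end Crest.Agent.R122.LNTL547

end
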