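import Crest.Agent.R122.TreeGate2_302
import Crest.Agent.R122.LNTreeHit_399
import Crest.Agent.R122.PWInst2_442

/-!
# Row 122, LN1: links of two lines of a tree in the gas and a third line (helper255)

One tree `(P, z)`, valid and separated on `[0, t]`, a gas `w`, a line `d` of the tree (the root line
included) in the base world: `(cfg w).ins d`.  Master system of helper399.

* `eX2`, `glue_ins2` : labels and glued world of the gas and two lines of the tree.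
* `HitTB`, `RAllB`, `RATB` : bad hits, reachability, deterministic alternative.
* `badHitGas_of_hitTB`, `tNull_hitSB` : bad hits are null.
* `LinkB` : two lines of the tree are linked in `(cfg w).ins d`; `not_linkB`, **`linkB_null`**,
  `linkRB_null` (with the base world `cfg w`).
-/

set_option autoImplicit false
set_option linter.unusedSectionVars false

open MeasureTheory Set Filter Topology
open scoped ENNReal
open Crest.AnalysisR.Kinetic
open Crest.Agent.R122.GC311 Crest.Agent.R122.EDefs602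
open Crest.Agent.R122.Kin796 Crest.Agent.R122.Kin796.CTree Crest.Agent.R122.Tree674
open Crest.Agent.R122.TreeLines335 Crest.Agent.R122.LineMeas994
open Crest.Agent.R122.PWInst442 Crest.Agent.R122.BH167
open Crest.Agent.R122.LinkM547 Crest.Agent.R122.LN2
open Crest.Agent.R122.Gate424 Crest.Agent.R122.RtG302 Crest.Agent.R122.Excl302
open Crest.Agent.R122.TreeGate302 Crest.Agent.R122.LN304 Crest.Agent.R122.LNEv968
open Crest.Agent.R122.LNEv818 Crest.Agent.R122.LNTree399 Crest.Agent.R122.TreeBind302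
open Crest.Agent.R122.TreeGate2302

noncomputable section

open scoped Classical

namespace Crest.Agent.R122.TreeB255

variable {Φ : Space3 → ℝ} {f₀ : PhasePoint → ℝ} {ε t T' c : ℝ} {n N K K' : ℕ} {P : CTree}
  {z : PhasePoint × Par P} {w : Config n}

/-! ### Worlds -/

theorem eX_ne {d x : Idx P} (h : d ≠ x) (i : Fin n ⊕ Unit) : eX n P d i ≠ Sum.inr x := by
  rcases i with i | i
  · exact fun h' => by cases h'
  · exact fun h' => h (Sum.inr_injective h')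

/-- Labels of the gas and of two lines of the tree. -/
def eX2 (n : ℕ) (P : CTree) {d x : Idx P} (h : d ≠ x) : (Fin n ⊕ Unit) ⊕ Unit ↪ Fin n ⊕ Idx P :=
  insF (eX n P d) (Sum.inr x) (eX_ne h)

/-- The glued world of the gas and two lines of the tree. -/
theorem glue_ins2 (hV : Valid Φ ε P t z.1.2 z.2) (hS : Sep Φ ε P t z.1 z.2) {d x : Idx P}
    (h : d ≠ x)
    (hok : (((MW.cfg w).ins (lineML Φ ε P z d)).ins (lineML Φ ε P z x)).Ok Φ ε) :
    Glue (Mt Φ t ε n P) (Zt Φ ε w z) (fun _ : Unit => P) (fun _ => z) (fun _ => eT n P)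
      (((MW.cfg w).ins (lineML Φ ε P z d)).ins (lineML Φ ε P z x)) (eX2 n P h) where
  forest := forest hV hS
  ok := hok
  cls i := by
    rcases i with (i | i) | i
    · exact Or.inl ⟨fun _ => inl_not_mem i, fun h => by
        have h1 : (none : Option (Fin n ⊕ Idx P)) = some _ := h
        exact absurd h1 (by simp), max_self 0, rfl⟩
    · exact Or.inr ⟨(), d, rfl, rfl, back_lineML Φ ε P z d⟩
    · exact Or.inr ⟨(), x, rfl, rfl, back_lineML Φ ε P z x⟩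

/-- The world of the gas and two lines of a good family. -/
theorem ok_ins2 (hΦ : AdmissiblePotential Φ) (hε : 0 < ε) {ι κ : Type} [Fintype ι] [Fintype κ]
    {Z : MW ι} {ls : κ → ML} (h : MW.OkFam Φ ε Z ls) {d x : κ} (hdx : d ≠ x) :
    ((Z.ins (ls d)).ins (ls x)).Ok Φ ε := by
  have h1 := h.add_insert hΦ hε (S := {d}) (k := x) (by
    rw [Finset.mem_singleton]
    exact hdx.symm)
  have h2 : (((Z.add (MWAlg255.sub ls {d})).add (MW.line (ls x))).comap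
      (Equiv.sumCongr (Equiv.sumCongr (Equiv.refl ι)
        (Equiv.ofUnique Unit ({d} : Finset κ) : Unit ≃ ({d} : Finset κ))) (Equiv.refl Unit))) =
      (Z.ins (ls d)).ins (ls x) := by
    unfold MW.ins MW.comap MW.add
    congr 1 <;> · funext x; rcases x with (x | x) | x <;> rfl
  rw [← h2]
  exact h1.comap hΦ hε _

/-! ### The deterministic alternative -/

/-- Bad hit in the glued world of the gas and at most two lines of the tree. -/
def HitTB (Φ : Space3 → ℝ) (t c ε : ℝ) (N : ℕ) {n : ℕ} {P : CTree} (z : PhasePoint × Par P)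
    (w : Config n) : Prop :=
  HitTR Φ t c ε N z w ∨ ∃ (d x : Idx P) (h : d ≠ x),
    HitW Φ t c ε N z w (((MW.cfg w).ins (lineML Φ ε P z d)).ins (lineML Φ ε P z x)) (eX2 n P h)

/-- Everything which is influenced by a line of the tree, up to its touch time, is reached, in the
gas and another line of the tree. -/
def RAllB (Φ : Space3 → ℝ) (t c ε : ℝ) (K N : ℕ) {n : ℕ} {P : CTree} (z : PhasePoint × Par P)
    (w : Config n) : Prop :=
  ∀ d x : Idx P, d ≠ x → ReachAll (Reach (Mt Φ t ε n P) c (Zt Φ ε w z) (Lt n P) (pT n P)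
    (Sum.inr x) N) Φ ε K t ((MW.cfg w).ins (lineML Φ ε P z d)) (eX n P d) (lineML Φ ε P z x)
      (Sum.inr x)

/-- **The deterministic alternative**, base worlds `cfg w` and `(cfg w).ins d`. -/
def RATB (Φ : Space3 → ℝ) (t : ℝ) (K K₂ : ℕ) : Prop :=
  ∀ L : ℕ, ∃ N : ℕ, ∀ (c ε ℓ ς : ℝ), 1 ≤ c → 0 < ε → 0 ≤ ℓ → 2 * ℓ ≤ ς →
    ∀ (P : CTree) (z : PhasePoint × Par P) (n : ℕ) (w : Config n), P.leaves ≤ K →
      Valid Φ ε P t z.1.2 z.2 → Sep Φ ε P t z.1 z.2 → w ∈ PairExcluded ε n →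
      (∀ i q, ε < dist (Tree674.lines Φ ε P z.1 z.2 i).1 (w q).1) →
      MW.OkFam Φ ε (MW.cfg w) (lineML Φ ε P z) →
      LNTree399.RunS Φ t K₂ L ε z w ∨
      ¬ NoBad (Mt Φ t ε n P) c ℓ ς (Zt Φ ε w z) (Lt n P) (N + N) ∨
      HitTB Φ t c ε N z w ∨ (RAllR Φ t c ε K₂ N z w ∧ RAllB Φ t c ε K₂ N z w)

/-! ### Bad hits -/

/-- **Bad hits.** -/
theorem badHitGas_of_hitTB (hΦ : AdmissiblePotential Φ) (hε : 0 < ε) {T : ℝ} (htT : t ≤ T)
    (hc : 1 ≤ c) (hV : Valid Φ ε P t z.1.2 z.2) (hS : Sep Φ ε P t z.1 z.2)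
    (hw : w ∈ PairExcluded ε n) (hok : MW.OkFam Φ ε (MW.cfg w) (lineML Φ ε P z))
    (h : HitTB Φ t c ε N z w) :
    BadHitGas (BPos Φ T) Φ T c 1 ε N N 1 (Finset.univ : Finset (Idx P)) (fun _ => 0)
      (Tree674.lines Φ ε P z.1 z.2) w := by
  rcases h with (h | ⟨x, h⟩) | ⟨d, x, hdx, h⟩
  · exact badHitGas_of_hitW hΦ hε htT hc hV hS hw (glue_cfg hV hS (hok.base hΦ hε)) h
  · exact badHitGas_of_hitW hΦ hε htT hc hV hS hw (glue_ins hV hS x (hok.line hΦ hε x)) h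
  · exact badHitGas_of_hitW hΦ hε htT hc hV hS hw (glue_ins2 hV hS hdx (ok_ins2 hΦ hε hok hdx)) h

/-- `HitTB` for a separated tree and good worlds. -/
def HitSB (Φ : Space3 → ℝ) (t c ε : ℝ) (N : ℕ) {n : ℕ} {P : CTree} (z : PhasePoint × Par P)
    (w : Config n) : Prop :=
  Sep Φ ε P t z.1 z.2 ∧ MW.OkFam Φ ε (MW.cfg w) (lineML Φ ε P z) ∧ HitTB Φ t c ε N z w

theorem HitTB.pos (h : HitTB Φ t c ε N z w) : 0 < t := by
  rcases h with (h | ⟨x, h⟩) | ⟨d, x, hdx, h⟩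
  · exact h.pos
  · exact h.pos
  · exact h.pos

/-- **Bad hits of trees are null.** -/
theorem gNull_hitSB (hΦ : AdmissiblePotential Φ) {γ : ℝ} (hγ : 0 < γ) (hf : Measurable f₀)
    (h1 : ∫⁻ z, ENNReal.ofReal (f₀ z) ≤ 1) {ρ : Space3 → ℝ≥0∞} {C₀ : ℝ≥0∞}
    (he : LN2.Env f₀ γ ρ C₀) (hc : 1 ≤ c) (P : CTree) (t : ℝ) (N : ℕ) :
    GNull (I := Unit) f₀ (fun ε _ => TreeGate302.treeQ Φ f₀ ε P t)
      (fun ε _ n z w => Valid Φ ε P t z.1.2 z.2 ∧ HitSB Φ t c ε N z w) := by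
  by_cases ht : 0 ≤ t
  swap
  · refine fun δ _ => ⟨1, one_pos, fun ε _ _ _ => ⟨fun _ _ => 0, fun _ => measurable_const, ?_, ?_⟩⟩
    · rintro n z w - ⟨-, -, -, h⟩
      exact absurd h.pos.le ht
    · unfold GC311.gcE
      simp
  have ha : 0 < γ / 2 := by positivity
  have he' : LN2.Env f₀ (γ - γ / 2) ρ C₀ := ⟨he.meas, he.le_one, he.int, he.fin, fun z =>
    (he.le z).trans (mul_le_mul_right (mul_le_mul_right (LN2.wG_anti (by linarith) z.2) _) _)⟩
  have hs : 1 ≤ Fintype.card (Idx P) := Fintype.card_pos_iff.2 ⟨root P⟩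
  have h2 := gNull_badHit (I := Unit) (m := fun ε _ => TreeGate302.treeQ Φ f₀ ε P t)
    (κ := Idx P) (T := t) hΦ ht hf h1 he' (by linarith) hs Finset.univ
    (c := ENNReal.ofReal (Fintype.card (Idx P) + 1 / (γ / 2)) * C₀ ^ Fintype.card (Idx P))
    (ENNReal.mul_ne_top ENNReal.ofReal_ne_top (ENNReal.pow_ne_top he.fin))
    (Measure.dirac fun _ : Idx P => (0 : ℝ)) (b := fun _ _ _ _ => 0)
    (z := fun ε _ z => linesM Φ ε P z.1 z.2) (fun ε _ => inferInstance)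
    (fun ε _ hε => TreeGate302.dom_treeQ hΦ hf he hε ha P t) c 1 N N
  refine fun δ hδ => (h2 δ hδ).mono le_rfl ⟨1, one_pos, ?_⟩
  rintro ε hε - - n z w hw ⟨hV, hS, hok, h⟩
  rw [linesM_of_adm ε hV.1]
  exact badHitGas_of_hitTB hΦ hε le_rfl hc hV hS hw hok h

/-- **Bad hits of trees are null**, sums over trees. -/
theorem tNull_hitSB (hΦ : AdmissiblePotential Φ) {γ : ℝ} (hγ : 0 < γ) (hf : Measurable f₀)
    (h1 : ∫⁻ z, ENNReal.ofReal (f₀ z) ≤ 1) {ρ : Space3 → ℝ≥0∞} {C₀ : ℝ≥0∞}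
    (he : LN2.Env f₀ γ ρ C₀) (hc : 1 ≤ c) (K : ℕ) (t : ℝ) (N : ℕ) :
    TNull Φ f₀ t K fun ε P z m w => HitSB Φ t c ε N z w := by
  intro δ hδ
  have h2 : (0 : ℝ≥0∞) < ENNReal.ofReal δ := ENNReal.ofReal_pos.2 hδ
  obtain ⟨δ', hδ', hle⟩ := TreeGate302.exists_div (GIVStep383.trees K).card h2
  exact (TreeGate302.tLe_of_gLe hΦ hf (E := fun ε P z m w => HitSB Φ t c ε N z w) fun P _ =>
    (gNull_hitSB hΦ hγ hf h1 he hc P t N δ' hδ').mono le_rfl
      ⟨1, one_pos, fun ε _ _ _ n z w _ h => ⟨h.1, h.2.2⟩⟩).mono hle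
    ⟨1, one_pos, fun _ _ _ _ _ _ _ _ _ _ _ h => h⟩

/-! ### Links -/

/-- Two lines of the tree are linked in the gas and a third line of the tree. -/
def LinkB (Φ : Space3 → ℝ) (K' : ℕ) (u₀ : ℝ) : TEv := fun ε P z _ w =>
  ∃ d : Idx P, ¬ MWFam255.PairNL Φ ε K' u₀ ((MW.cfg w).ins (lineML Φ ε P z d))
    (fun i : {i : Idx P // i ≠ d} => lineML Φ ε P z i)

/-- Two lines of the tree are linked, in the gas or in the gas and a third line. -/
def LinkRB (Φ : Space3 → ℝ) (K' : ℕ) (u₀ : ℝ) : TEv := fun ε P z m w =>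
  LinkR Φ K' u₀ ε P z m w ∨ LinkB Φ K' u₀ ε P z m w

section det

variable {u₀ ℓ ς : ℝ}

/-- **No link** in the gas and a line of the tree. -/
theorem not_linkB (hΦ : AdmissiblePotential Φ) (hε : 0 < ε)
    (hV : Valid Φ ε P T' z.1.2 z.2) (hS : Sep Φ ε P T' z.1 z.2)
    (hOk : MW.OkFam Φ ε (MW.cfg w) (lineML Φ ε P z)) (hu : u₀ ≤ T') (hT : 0 ≤ T')
    (hℓς : 2 * ℓ ≤ ς)
    (hNB : NoBad (Mt Φ T' ε n P) 1 ℓ ς (Zt Φ ε w z) (Lt n P) (N + N + (N + N)))
    (hRA : RAllB Φ T' 1 ε K' N z w) : ¬ LinkB Φ K' u₀ ε P z n w := by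
  rintro ⟨d, hd⟩
  apply hd
  exact pairNL_tree hΦ hε hV hS (g := fun i : {i : Idx P // i ≠ d} => i.1)
    (Z := (MW.cfg w).ins (lineML Φ ε P z d)) (lab := eX n P d) (w := w) hu hT le_rfl hℓς
    (eX n P d).injective Subtype.val_injective (fun x i => eX_ne (Ne.symm x.2) i)
    (hOk.line hΦ hε d) (fun x => ok_ins2 hΦ hε hOk (Ne.symm x.2)) hNB
    (fun x => reachAll_hor hu (hRA d x.1 (Ne.symm x.2)))

theorem not_linkRB (hΦ : AdmissiblePotential Φ) (hε : 0 < ε)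
    (hV : Valid Φ ε P T' z.1.2 z.2) (hS : Sep Φ ε P T' z.1 z.2)
    (hOk : MW.OkFam Φ ε (MW.cfg w) (lineML Φ ε P z)) (hu : u₀ ≤ T') (hT : 0 ≤ T')
    (hℓς : 2 * ℓ ≤ ς)
    (hNB : NoBad (Mt Φ T' ε n P) 1 ℓ ς (Zt Φ ε w z) (Lt n P) (N + N + (N + N)))
    (h1 : RAllR Φ T' 1 ε K' N z w) (h2 : RAllB Φ T' 1 ε K' N z w) :
    ¬ LinkRB Φ K' u₀ ε P z n w := by
  rintro (h | h)
  · exact not_linkR hΦ hε hV hS hOk hu hT hℓς hNB h1 h
  · exact not_linkB hΦ hε hV hS hOk hu hT hℓς hNB h2 h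

end det

/-! ### Null events -/

section null

variable {u₀ : ℝ}

/-- **Links of all lines of the tree are null**, base worlds `cfg w` and `(cfg w).ins d`. -/
theorem linkRB_null (hΦ : AdmissiblePotential Φ) {γ : ℝ} (hγ : 0 < γ) (hf : Continuous f₀)
    (H : HasSummableGaussianBound γ (fun x v => f₀ (x, v)))
    (h1 : ∫⁻ z, ENNReal.ofReal (f₀ z) ≤ 1) {ρ : Space3 → ℝ≥0∞} {C₀ : ℝ≥0∞}
    (he : LN2.Env f₀ γ ρ C₀) (hT : 0 ≤ T') (hu : u₀ ≤ T')
    (hCN : VLMeas973.ClassNull Φ T') (hok : TNull Φ f₀ T' K (NOkR Φ)) (hR : RATB Φ T' K K') :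
    TNull Φ f₀ T' K (LinkRB Φ K' u₀) := by
  choose Nf hNf using hR
  refine tNull_of_det2 hΦ hγ hf H h1 hT hCN (K₂ := K')
    (Ht := fun L ε P z m w => HitSB Φ T' 1 ε (Nf L) z w)
    (G := fun ε P z m w => MW.OkFam Φ ε (MW.cfg w) (lineML Φ ε P z)) hok (fun L => ?_)
    fun L => tNull_hitSB hΦ hγ hf.measurable h1 he le_rfl K T' _
  refine ⟨Nf L + Nf L + (Nf L + Nf L), 1, fun R hR ς hς => ⟨ς / (2 * R), by positivity,
    fun ε hε hlt P z m w hP hV hS hE hOk hev => ?_⟩⟩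
  have hℓς : 2 * (R * ε) ≤ ς := by
    have h2 := (lt_div_iff₀ (by positivity : 0 < 2 * R)).1 hlt
    linarith
  by_cases hNB : NoBad (Mt Φ T' ε m P) 1 (R * ε) ς (Zt Φ ε w z) (Lt m P)
    (Nf L + Nf L + (Nf L + Nf L))
  · rcases hNf L 1 ε (R * ε) ς le_rfl hε (by positivity) hℓς P z m w hP hV hS hE.2.1 hE.2.2 hOk
      with h3 | h3 | h3 | h3
    · exact Or.inl h3
    · exact absurd (Bind302.noBad_mono hNB (Nat.le_add_right _ _)) h3
    · exact Or.inr (Or.inr ⟨hS, hOk, h3⟩)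
    · exact absurd hev (not_linkRB hΦ hε hV hS hOk hu hT hℓς hNB h3.1 h3.2)
  · right; left
    exact LNTree399.badGas_tree hΦ hε le_rfl hV hS le_rfl hNB

end null

end Crest.Agent.R122.TreeB255

end
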