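import Crest.Agent.R122.VLDefs_581

/-!
# Cycles through an obstacle node (row 122, helper370), item F3

Combinatorics of helper581's virtual systems: a connected family `P` together with two different
virtual contacts with a further node `o` is connected and not tree-like.

* `cut_count` : a finite set which is connected through the pairs of `F` has at most `|F| + 1`
  elements.
* `VCt.mono`, `VCt.symm`, `Conn.insert`.
* `not_treeLike_of_pairs` : too many contact pairs.
* `not_treeLike_insert` : two different members of a connected family in contact with `o`.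
* `not_treeLike_far` : two contacts of the same pair at times further apart than the windows.
-/

set_option autoImplicit false
set_option linter.unusedSectionVars false
open MeasureTheory Set Filter
open scoped Classical ENNReal Topology
open Crest.AnalysisR.Kinetic
open Crest.Agent.R122.VL581

noncomputable section

namespace Crest.Agent.R122.RetOb370

section graph

variable {J : Type}

/-- A set connected through the pairs of `F` has at most `|F| + 1` elements. -/
theorem cut_count {P : Finset J} (hP : P.Nonempty) {F : Finset (J × J)}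
    (hcut : ∀ Q ⊆ P, Q.Nonempty → Q ≠ P →
      ∃ i ∈ Q, ∃ j ∈ P \ Q, (i, j) ∈ F ∨ (j, i) ∈ F) :
    P.card ≤ (F.filter fun e => e.1 ∈ P ∧ e.2 ∈ P).card + 1 := by
  have key : ∀ n : ℕ, n + 1 ≤ P.card → ∃ Q ⊆ P, Q.card = n + 1 ∧
      n ≤ (F.filter fun e => e.1 ∈ Q ∧ e.2 ∈ Q).card := by
    intro n
    induction n with
    | zero =>
      intro _
      obtain ⟨x, hx⟩ := hP
      exact ⟨{x}, Finset.singleton_subset_iff.2 hx, Finset.card_singleton x, Nat.zero_le _⟩
    | succ n ih =>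
      intro hn
      obtain ⟨Q, hQ, hc, hF⟩ := ih (Nat.le_of_succ_le hn)
      have hne : Q ≠ P := by
        rintro rfl
        omega
      have hQn : Q.Nonempty := Finset.card_pos.1 (by omega)
      obtain ⟨i, hi, j, hj, hij⟩ := hcut Q hQ hQn hne
      obtain ⟨hjP, hjQ⟩ := Finset.mem_sdiff.1 hj
      refine ⟨insert j Q, Finset.insert_subset hjP hQ, by
        rw [Finset.card_insert_of_notMem hjQ, hc], ?_⟩
      -- the new pair
      obtain ⟨e, heF, he1, he2, heQ⟩ : ∃ e ∈ F, e.1 ∈ insert j Q ∧ e.2 ∈ insert j Q ∧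
          ¬ (e.1 ∈ Q ∧ e.2 ∈ Q) := by
        rcases hij with h | h
        · exact ⟨(i, j), h, Finset.mem_insert_of_mem hi, Finset.mem_insert_self _ _,
            fun h' => hjQ h'.2⟩
        · exact ⟨(j, i), h, Finset.mem_insert_self _ _, Finset.mem_insert_of_mem hi,
            fun h' => hjQ h'.1⟩
      have hsub : insert e (F.filter fun e => e.1 ∈ Q ∧ e.2 ∈ Q) ⊆
          F.filter fun e => e.1 ∈ insert j Q ∧ e.2 ∈ insert j Q := by
        intro f hf
        rcases Finset.mem_insert.1 hf with rfl | hf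
        · exact Finset.mem_filter.2 ⟨heF, he1, he2⟩
        · obtain ⟨h1, h2, h3⟩ := Finset.mem_filter.1 hf
          exact Finset.mem_filter.2 ⟨h1, Finset.mem_insert_of_mem h2, Finset.mem_insert_of_mem h3⟩
      have hnot : e ∉ F.filter fun e => e.1 ∈ Q ∧ e.2 ∈ Q := fun h =>
        heQ (Finset.mem_filter.1 h).2
      have := Finset.card_le_card hsub
      rw [Finset.card_insert_of_notMem hnot] at this
      omega
  have hpos : 0 < P.card := Finset.card_pos.2 hP
  obtain ⟨Q, hQ, hc, hF⟩ := key (P.card - 1) (by omega)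
  have hQP : Q = P := Finset.eq_of_subset_of_card_le hQ (by omega)
  subst hQP
  omega

end graph

section sys

variable {J κ : Type} [Fintype J] {M : VSys J κ} {C ℓ ς : ℝ} {Z : J → PhasePoint}
  {P P' : Finset J} {i j o : J} {s s' : ℝ}

theorem Ct.symm {A B : Finset J} {k l : κ} (h : M.Ct C A k i B l j s Z) :
    M.Ct C B l j A k i s Z := by
  obtain ⟨h1, h2, h3, h4, h5, h6, h7⟩ := h
  exact ⟨h2, h1, h4, h3, h6, h5, by rw [dist_comm]; exact h7⟩

theorem VCt.symm (h : M.VCt C P i j s Z) : M.VCt C P j i s Z := by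
  obtain ⟨A, hA, B, hB, k, l, h⟩ := h
  exact ⟨B, hB, A, hA, l, k, Ct.symm h⟩

theorem VCt.mono (hP : P ⊆ P') (h : M.VCt C P i j s Z) : M.VCt C P' i j s Z := by
  obtain ⟨A, hA, B, hB, k, l, h⟩ := h
  exact ⟨A, hA.trans hP, B, hB.trans hP, k, l, h⟩

theorem VCt.left_mem (h : M.VCt C P i j s Z) : i ∈ P := by
  obtain ⟨A, hA, B, hB, k, l, h⟩ := h
  exact hA h.1

theorem VCt.right_mem (h : M.VCt C P i j s Z) : j ∈ P := by
  obtain ⟨A, hA, B, hB, k, l, h⟩ := h
  exact hB h.2.1

/-- A connected family with a further node in virtual contact with a member is connected. -/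
theorem conn_insert (hP : M.Conn C P Z) (hi : i ∈ P) (hs : s ∈ Icc 0 M.T)
    (h : M.VCt C (insert o P) i o s Z) : M.Conn C (insert o P) Z := by
  refine ⟨Finset.insert_nonempty _ _, fun Q hQ hQn hne => ?_⟩
  by_cases ho : o ∈ Q
  · by_cases hPQ : P ⊆ Q
    · exfalso
      exact hne (Finset.Subset.antisymm hQ (Finset.insert_subset ho hPQ))
    · by_cases hiQ : i ∈ Q
      · -- cut `P ∩ Q`
        have hne' : P ∩ Q ≠ P := fun h' => hPQ (Finset.inter_eq_left.1 h')
        obtain ⟨a, ha, b, hb, t, ht, hc⟩ := hP.2 (P ∩ Q) Finset.inter_subset_left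
          ⟨i, Finset.mem_inter.2 ⟨hi, hiQ⟩⟩ hne'
        obtain ⟨hbP, hbQ⟩ := Finset.mem_sdiff.1 hb
        refine ⟨a, (Finset.mem_inter.1 ha).2, b, Finset.mem_sdiff.2
          ⟨Finset.mem_insert_of_mem hbP, fun h' => hbQ (Finset.mem_inter.2 ⟨hbP, h'⟩)⟩, t, ht,
          VCt.mono (Finset.subset_insert _ _) hc⟩
      · exact ⟨o, ho, i, Finset.mem_sdiff.2 ⟨Finset.mem_insert_of_mem hi, hiQ⟩, s, hs,
          VCt.symm h⟩
  · have hQP : Q ⊆ P := fun x hx => (Finset.mem_insert.1 (hQ hx)).resolve_left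
      (fun h' => ho (h' ▸ hx))
    by_cases hQe : Q = P
    · subst hQe
      exact ⟨i, hi, o, Finset.mem_sdiff.2 ⟨Finset.mem_insert_self _ _, ho⟩, s, hs, h⟩
    · obtain ⟨a, ha, b, hb, t, ht, hc⟩ := hP.2 Q hQP hQn hQe
      obtain ⟨hbP, hbQ⟩ := Finset.mem_sdiff.1 hb
      exact ⟨a, ha, b, Finset.mem_sdiff.2 ⟨Finset.mem_insert_of_mem hbP, hbQ⟩, t, ht,
        VCt.mono (Finset.subset_insert _ _) hc⟩

/-- The edges inside a connected subfamily of a tree-like family. -/
theorem card_edges_ge (hP : M.Conn C P Z) (hPP : P ⊆ P') {E : Finset (J × J)} {σ : J × J → ℝ}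
    (hE : ∀ i ∈ P', ∀ j ∈ P', i ≠ j → ∀ t ∈ Icc 0 M.T, M.VCt C P' i j t Z →
      ∃ e ∈ E, (e = (i, j) ∨ e = (j, i)) ∧ |t - σ e| ≤ ℓ) :
    P.card ≤ (E.filter fun e => e.1 ∈ P ∧ e.2 ∈ P).card + 1 := by
  refine cut_count hP.1 fun Q hQ hQn hne => ?_
  obtain ⟨a, ha, b, hb, t, ht, hc⟩ := hP.2 Q hQ hQn hne
  obtain ⟨hbP, hbQ⟩ := Finset.mem_sdiff.1 hb
  have hab : a ≠ b := by rintro rfl; exact hbQ ha
  obtain ⟨e, he, hab', -⟩ := hE a (hPP (hQ ha)) b (hPP hbP) hab t ht (VCt.mono hPP hc)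
  refine ⟨a, ha, b, hb, ?_⟩
  rcases hab' with h | h
  · left; rw [← h]; exact he
  · right; rw [← h]; exact he

/-- **Cycle through a further node.** -/
theorem not_treeLike_insert (hP : M.Conn C P Z) (ho : o ∉ P) (hi : i ∈ P) (hj : j ∈ P)
    (hij : i ≠ j) (hs : s ∈ Icc 0 M.T) (hs' : s' ∈ Icc 0 M.T)
    (h1 : M.VCt C (insert o P) i o s Z) (h2 : M.VCt C (insert o P) j o s' Z) :
    ¬ M.TreeLike C ℓ ς (insert o P) Z := by
  rintro ⟨-, E, σ, hcard, -, -, -, -, hE⟩
  have hcnt := card_edges_ge (P' := insert o P) hP (Finset.subset_insert _ _) hE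
  have hoi : i ≠ o := fun h => ho (h ▸ hi)
  have hoj : j ≠ o := fun h => ho (h ▸ hj)
  obtain ⟨e₁, he₁, h₁, -⟩ := hE i (Finset.mem_insert_of_mem hi) o (Finset.mem_insert_self _ _) hoi
    s hs h1
  obtain ⟨e₂, he₂, h₂, -⟩ := hE j (Finset.mem_insert_of_mem hj) o (Finset.mem_insert_self _ _) hoj
    s' hs' h2
  have hne : e₁ ≠ e₂ := by
    rintro rfl
    rcases h₁ with h₁ | h₁ <;> rcases h₂ with h₂ | h₂
    · exact hij (congrArg Prod.fst (h₁.symm.trans h₂))
    · exact hoi (congrArg Prod.fst (h₁.symm.trans h₂))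
    · exact hoj (congrArg Prod.fst (h₂.symm.trans h₁))
    · exact hij (congrArg Prod.snd (h₁.symm.trans h₂))
  have hn : ∀ e : J × J, ∀ a, (e = (a, o) ∨ e = (o, a)) →
      e ∉ E.filter fun e => e.1 ∈ P ∧ e.2 ∈ P := by
    rintro e a (rfl | rfl) h'
    · exact ho (Finset.mem_filter.1 h').2.2
    · exact ho (Finset.mem_filter.1 h').2.1
  have hsub : insert e₁ (insert e₂ (E.filter fun e => e.1 ∈ P ∧ e.2 ∈ P)) ⊆ E := by
    intro e he
    rcases Finset.mem_insert.1 he with rfl | he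
    · exact he₁
    rcases Finset.mem_insert.1 he with rfl | he
    · exact he₂
    · exact (Finset.mem_filter.1 he).1
  have h3 := Finset.card_le_card hsub
  rw [Finset.card_insert_of_notMem, Finset.card_insert_of_notMem (hn e₂ j h₂)] at h3
  · rw [Finset.card_insert_of_notMem ho] at hcard
    omega
  · intro h'
    rcases Finset.mem_insert.1 h' with h' | h'
    · exact hne h'
    · exact hn e₁ i h₁ h'

/-- In a connected tree-like family an edge occurs in one orientation only. -/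
theorem one_orientation (hP : M.Conn C P Z) {E : Finset (J × J)} {σ : J × J → ℝ}
    (hcard : E.card + 1 = P.card)
    (hE : ∀ i ∈ P, ∀ j ∈ P, i ≠ j → ∀ t ∈ Icc 0 M.T, M.VCt C P i j t Z →
      ∃ e ∈ E, (e = (i, j) ∨ e = (j, i)) ∧ |t - σ e| ≤ ℓ) (hij : i ≠ j) :
    ¬ ((i, j) ∈ E ∧ (j, i) ∈ E) := by
  rintro ⟨h1, h2⟩
  have hc := cut_count (F := E.erase (j, i)) hP.1 fun Q hQ hQn hne => by
    obtain ⟨a, ha, b, hb, t, ht, hc⟩ := hP.2 Q hQ hQn hne
    obtain ⟨hbP, hbQ⟩ := Finset.mem_sdiff.1 hb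
    have hab : a ≠ b := by rintro rfl; exact hbQ ha
    obtain ⟨e, he, hab', -⟩ := hE a (hQ ha) b hbP hab t ht hc
    refine ⟨a, ha, b, hb, ?_⟩
    by_cases hej : e = (j, i)
    · have hne' : (i, j) ≠ (j, i) := fun h => hij (congrArg Prod.fst h)
      rcases hab' with h | h
      · -- `(a, b) = (j, i)`
        right
        have h3 : (a, b) = (j, i) := h ▸ hej
        obtain ⟨rfl, rfl⟩ := Prod.mk.inj h3
        exact Finset.mem_erase.2 ⟨hne', h1⟩
      · left
        have h3 : (b, a) = (j, i) := h ▸ hej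
        obtain ⟨rfl, rfl⟩ := Prod.mk.inj h3
        exact Finset.mem_erase.2 ⟨hne', h1⟩
    · rcases hab' with h | h
      · left; rw [← h]; exact Finset.mem_erase.2 ⟨hej, he⟩
      · right; rw [← h]; exact Finset.mem_erase.2 ⟨hej, he⟩
  have h3 : ((E.erase (j, i)).filter fun e => e.1 ∈ P ∧ e.2 ∈ P).card ≤ E.card - 1 := by
    refine (Finset.card_filter_le _ _).trans (le_of_eq (Finset.card_erase_of_mem h2))
  have h4 : 0 < E.card := Finset.card_pos.2 ⟨_, h2⟩
  omega

/-- Two contacts of the same pair at times further apart than the windows. -/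
theorem not_treeLike_far (hP : M.Conn C P Z) (hij : i ≠ j) (hs : s ∈ Icc 0 M.T)
    (hs' : s' ∈ Icc 0 M.T) (h1 : M.VCt C P i j s Z) (h2 : M.VCt C P i j s' Z)
    (hfar : 2 * ℓ < |s - s'|) : ¬ M.TreeLike C ℓ ς P Z := by
  rintro ⟨-, E, σ, hcard, -, -, -, -, hE⟩
  have hi := VCt.left_mem h1
  have hj := VCt.right_mem h1
  obtain ⟨e₁, he₁, h₁, d₁⟩ := hE i hi j hj hij s hs h1
  obtain ⟨e₂, he₂, h₂, d₂⟩ := hE i hi j hj hij s' hs' h2
  have heq : e₁ = e₂ := by
    by_contra hne
    refine one_orientation hP hcard hE hij ?_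
    rcases h₁ with rfl | rfl <;> rcases h₂ with rfl | rfl
    · exact absurd rfl hne
    · exact ⟨he₁, he₂⟩
    · exact ⟨he₂, he₁⟩
    · exact absurd rfl hne
  subst heq
  have : |s - s'| ≤ |s - σ e₁| + |s' - σ e₁| := by
    calc |s - s'| = |(s - σ e₁) - (s' - σ e₁)| := by ring_nf
      _ ≤ _ := abs_sub _ _
  linarith

end sys

end Crest.Agent.R122.RetOb370
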