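import Crest.Agent.R122.ObGas_370
import Crest.Agent.R122.RetOb_370
import Crest.Agent.R122.VLInstD_442
import Crest.Agent.R122.Energy3_410

/-!
# The bad event with the obstacle from a chain end (row 122, helper370), F3

* `CEnd` : chain end: some `Y ⊆ w`, `|Y| ≤ N`, is connected together with the tree, and some member
  (not the root) of some ok sub-world is at the position `q` at time `v`.
* `obBad_of_cEnd` : root contact with the obstacle + chain end at the obstacle ⇒ `ObBad`.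
* `root_st` : the root of a tree which hits the obstacle.
-/

set_option autoImplicit false
set_option linter.unusedSectionVars false
open MeasureTheory Set Filter
open scoped Classical ENNReal Topology
open Crest.AnalysisR.Kinetic
open Crest.Agent.R122.Kin796 Crest.Agent.R122.Kin796.CTree Crest.Agent.R122.Flow671
open Crest.Agent.R122.Ins45
open Crest.Agent.R122.Tree674 Crest.Agent.R122.VL581 Crest.Agent.R122.VLInst442
open Crest.Agent.R122.GIV566 Crest.Agent.R122.RetOb370 Crest.Agent.R122.ObGas370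
open Crest.Agent.R122.PathFlow968 Crest.Agent.R122.RtG302 Crest.Agent.R122.Energy410
noncomputable section

namespace Crest.Agent.R122.ObDet370

section defs

variable {κ : Type} [Fintype κ]

/-- The system of `k` gas particles and a structure, births `0`, without obstacle. -/
abbrev gsys (Φ : Space3 → ℝ) (T ε : ℝ) (k : ℕ) (κ : Type) : VSys (Fin k ⊕ κ) Unit :=
  VLMeas973.vsys Φ T ε fun _ => 0

/-- Chain end at the time `v` and the position `q`: a member different from the root `r`. -/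
def CEnd (Φ : Space3 → ℝ) (T C ε : ℝ) (N : ℕ) (r : κ) (z : κ → PhasePoint) {n : ℕ} (w : Config n)
    (v : ℝ) (q : Space3) : Prop :=
  ∃ k ≤ N, ∃ g : Fin k ↪ Fin n,
    (gsys Φ T ε k κ).Conn C Finset.univ (Sum.elim (fun i => w (g i)) z) ∧
    ∃ A : Finset (Fin k ⊕ κ), ∃ i ∈ A, i ≠ Sum.inr r ∧
      (gsys Φ T ε k κ).ok A v (Sum.elim (fun i => w (g i)) z) ∧
      ((gsys Φ T ε k κ).st A v (Sum.elim (fun i => w (g i)) z) i).1 = q

end defs

section transfer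

variable {κ ι : Type} [Fintype κ] {Φ : Space3 → ℝ} {T C ε : ℝ} {S : Tubes ι} {k : ℕ}

/-- The embedding of the particles. -/
def emb (k : ℕ) (κ : Type) : Fin k ⊕ κ ↪ Fin k ⊕ (κ ⊕ Unit) :=
  ⟨Sum.map id Sum.inl, Function.Injective.sumMap Function.injective_id Sum.inl_injective⟩

/-- The system without obstacle, same tubes. -/
def gsysS (Φ : Space3 → ℝ) (T ε : ℝ) {ι : Type} (S : Tubes ι) (k : ℕ) (κ : Type) :
    VSys (Fin k ⊕ κ) ι := ⟨Φ, T, ε, fun _ => 0, none, S⟩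

theorem isSub : IsSub (gsysS Φ T ε S k κ) (osys Φ T ε S k κ) (emb k κ) where
  Φ := rfl
  T := rfl
  ε := rfl
  b _ := rfl
  o i := by
    constructor
    · intro h
      exact absurd h (by simp [gsysS])
    · intro h
      exfalso
      have h2 : (Sum.inr (Sum.inr ()) : Fin k ⊕ (κ ⊕ Unit)) = emb k κ i := by
        have h3 : some (Sum.inr (Sum.inr ()) : Fin k ⊕ (κ ⊕ Unit)) = some (emb k κ i) := h
        exact Option.some.inj h3
      rcases i with i | i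
      · simp [emb] at h2
      · simp [emb] at h2
  S := rfl

theorem st_gsys (A : Finset (Fin k ⊕ κ)) (t : ℝ) (Z : Fin k ⊕ κ → PhasePoint) (i : Fin k ⊕ κ) :
    (gsysS Φ T ε S k κ).st A t Z i = (gsys Φ T ε k κ).st A t Z i := rfl

theorem ok_gsys (A : Finset (Fin k ⊕ κ)) (t : ℝ) (Z : Fin k ⊕ κ → PhasePoint) :
    (gsysS Φ T ε S k κ).ok A t Z ↔ (gsys Φ T ε k κ).ok A t Z := Iff.rfl

theorem vct_gsys (j₀ : ι) {P : Finset (Fin k ⊕ κ)} {i j : Fin k ⊕ κ} {t : ℝ}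
    {Z : Fin k ⊕ κ → PhasePoint} (h : (gsys Φ T ε k κ).VCt C P i j t Z) :
    (gsysS Φ T ε S k κ).VCt C P i j t Z := by
  obtain ⟨A, hA, B, hB, _, _, h1, h2, h3, h4, _, _, h7⟩ := h
  refine ⟨A, hA, B, hB, j₀, j₀, h1, h2, h3, h4, fun h => ?_, fun h => ?_, ?_⟩
  · exact absurd h (by simp [gsysS])
  · exact absurd h (by simp [gsysS])
  · unfold VSys.pos at h7 ⊢
    rw [if_neg (by simp [gsysS]), if_neg (by simp [gsysS])]
    rw [if_neg (by simp [VLMeas973.vsys]), if_neg (by simp [VLMeas973.vsys])] at h7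
    exact h7

theorem conn_gsys (j₀ : ι) {P : Finset (Fin k ⊕ κ)} {Z : Fin k ⊕ κ → PhasePoint}
    (h : (gsys Φ T ε k κ).Conn C P Z) : (gsysS Φ T ε S k κ).Conn C P Z := by
  refine ⟨h.1, fun Q hQ hQn hne => ?_⟩
  obtain ⟨i, hi, j, hj, t, ht, hc⟩ := h.2 Q hQ hQn hne
  exact ⟨i, hi, j, hj, t, ht, vct_gsys j₀ hc⟩

/-- Connectedness in the system with the obstacle. -/
theorem conn_osys (hΦ : AdmissiblePotential Φ) (hε : 0 < ε) (j₀ : ι) {P : Finset (Fin k ⊕ κ)}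
    {Z : Fin k ⊕ (κ ⊕ Unit) → PhasePoint}
    (h : (gsys Φ T ε k κ).Conn C P fun i => Z (emb k κ i)) :
    (osys Φ T ε S k κ).Conn C (P.map (emb k κ)) Z := by
  have h1 := conn_gsys (S := S) j₀ h
  have hs : IsSub (gsysS Φ T ε S k κ) (osys Φ T ε S k κ) (emb k κ) := isSub
  refine ⟨Finset.map_nonempty.2 h1.1, fun Q hQ hQn hQP => ?_⟩
  obtain ⟨Q', hQ', rfl⟩ := Finset.subset_map_iff.1 hQ
  obtain ⟨i, hi, j, hj, t, ht, hc⟩ := h1.2 Q' hQ' (Finset.map_nonempty.1 hQn)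
    (fun h2 => hQP (by rw [h2]))
  refine ⟨emb k κ i, (Finset.mem_map' _).2 hi, emb k κ j, ?_, t, ht, (VCt_map hs hΦ hε).1 hc⟩
  have hj1 := (@Finset.mem_sdiff _ (fun a b => Classical.propDecidable (a = b)) _ _ _).1 hj
  exact (@Finset.mem_sdiff _ (fun a b => Classical.propDecidable (a = b)) _ _ _).2
    ⟨(Finset.mem_map' _).2 hj1.1, fun h2 => hj1.2 ((Finset.mem_map' _).1 h2)⟩

/-- A particle near the obstacle is in virtual contact with it. -/
theorem vct_obstacle (hΦ : AdmissiblePotential Φ) (hε : 0 < ε) (hC : 1 ≤ C)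
    {P : Finset (Fin k ⊕ (κ ⊕ Unit))} {Z : Fin k ⊕ (κ ⊕ Unit) → PhasePoint}
    {A : Finset (Fin k ⊕ κ)} {i : Fin k ⊕ κ} {v : ℝ} {a : ι} (hi : i ∈ A)
    (hA : A.map (emb k κ) ⊆ P) (ho : Sum.inr (Sum.inr ()) ∈ P) (hv : v ∈ Icc 0 T)
    (hok : (gsys Φ T ε k κ).ok A v fun i => Z (emb k κ i)) (ha : v ≤ S.b a)
    (hd : dist ((Z (Sum.inr (Sum.inr ()))).1 + S.c a v)
      ((gsys Φ T ε k κ).st A v (fun i => Z (emb k κ i)) i).1 ≤ ε) :
    (osys Φ T ε S k κ).VCt C P (emb k κ i) (Sum.inr (Sum.inr ())) v Z := by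
  have hs : IsSub (gsysS Φ T ε S k κ) (osys Φ T ε S k κ) (emb k κ) := isSub
  refine ⟨A.map (emb k κ), hA, {Sum.inr (Sum.inr ())}, Finset.singleton_subset_iff.2 ho, a, a,
    (Finset.mem_map' _).2 hi, Finset.mem_singleton_self _, ?_, ?_, ?_, ?_, ?_⟩
  · exact (ok_map hs hΦ hε).1 ((ok_gsys A v _).2 hok)
  · intro j hj hjo
    rw [Finset.mem_singleton] at hj
    exact absurd (by rw [hj]; rfl) hjo
  · intro h
    exfalso
    have h2 := (hs.o i).2 h
    exact absurd h2 (by simp [gsysS])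
  · intro _
    exact ha
  · have hno : (osys Φ T ε S k κ).o ≠ some (emb k κ i) := fun h =>
      absurd ((hs.o i).2 h) (by simp [gsysS])
    unfold VSys.pos
    rw [if_neg hno, if_pos (show (osys Φ T ε S k κ).o = some (Sum.inr (Sum.inr ())) from rfl)]
    have h1 := st_map hs hΦ hε (A' := A) (t := v) (Z := Z) i
    rw [← h1, st_gsys]
    have h2 : max 0 (min v (osys Φ T ε S k κ).T) = v := by
      change max 0 (min v T) = v
      rw [min_eq_left hv.2, max_eq_right hv.1]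
    rw [h2, dist_comm]
    refine hd.trans ?_
    change ε ≤ C * ε
    nlinarith

end transfer

section main

variable {κ ι : Type} [Fintype κ] {Φ : Space3 → ℝ} {T C ε : ℝ} {S : Tubes ι} {N n : ℕ}

/-- **Root contact and chain end at the obstacle.** -/
theorem obBad_of_cEnd (hΦ : AdmissiblePotential Φ) (hε : 0 < ε) (hC : 1 ≤ C) {r : κ}
    {z : κ → PhasePoint} {w : Config n} {v σ : ℝ} {q : Space3} {x : Space3}
    (hv : v ∈ Icc 0 T) (hσ : σ ∈ Icc 0 T) (h : CEnd Φ T C ε N r z w v q)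
    (hn : near ε (S.shift x) v q)
    (hroot : ∀ k (g : Fin k ↪ Fin n), ∃ A₀ : Finset (Fin k ⊕ κ), Sum.inr r ∈ A₀ ∧
      (gsys Φ T ε k κ).ok A₀ σ (Sum.elim (fun i => w (g i)) z) ∧
      near ε (S.shift x) σ
        ((gsys Φ T ε k κ).st A₀ σ (Sum.elim (fun i => w (g i)) z) (Sum.inr r)).1) (u : Space3) :
    ObBad Φ T C ε N S z (x, u) w := by
  obtain ⟨k, hk, g, hconn, A, i, hi, hir, hok, hq⟩ := h
  obtain ⟨A₀, hr0, hok0, a₀, ha0, hd0⟩ := hroot k g
  obtain ⟨a, ha, hd⟩ := hn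
  let _ : DecidableEq (Fin k ⊕ (κ ⊕ Unit)) := fun a b => Classical.propDecidable (a = b)
  set Z : Fin k ⊕ (κ ⊕ Unit) → PhasePoint :=
    Sum.elim (fun i => w (g i)) (Sum.elim z fun _ => (x, u)) with hZ
  have hZe : (fun i => Z (emb k κ i)) = Sum.elim (fun i => w (g i)) z := by
    funext i
    rcases i with i | i <;> rfl
  set o : Fin k ⊕ (κ ⊕ Unit) := Sum.inr (Sum.inr ()) with ho
  set P : Finset (Fin k ⊕ (κ ⊕ Unit)) := Finset.univ.map (emb k κ) with hP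
  have hoP : o ∉ P := by
    intro h
    obtain ⟨j, _, hj⟩ := Finset.mem_map.1 h
    rcases j with j | j <;> simp [emb, ho] at hj
  have huniv : insert o P = Finset.univ := by
    ext y
    simp only [Finset.mem_insert, Finset.mem_univ, iff_true]
    rcases y with y | y | y
    · exact Or.inr (Finset.mem_map.2 ⟨Sum.inl y, Finset.mem_univ _, rfl⟩)
    · exact Or.inr (Finset.mem_map.2 ⟨Sum.inr y, Finset.mem_univ _, rfl⟩)
    · exact Or.inl rfl
  have hconnO : (osys Φ T ε S k κ).Conn C P Z := by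
    refine conn_osys hΦ hε a₀ ?_
    rw [hZe]
    exact hconn
  have hsub : ∀ A : Finset (Fin k ⊕ κ), A.map (emb k κ) ⊆ insert o P := fun A =>
    (Finset.map_subset_map.2 (Finset.subset_univ A)).trans (Finset.subset_insert _ _)
  have hc1 : (osys Φ T ε S k κ).VCt C (insert o P) (emb k κ (Sum.inr r)) o σ Z := by
    refine vct_obstacle hΦ hε hC hr0 (hsub A₀) (Finset.mem_insert_self _ _) hσ ?_ ha0 ?_
    · rw [hZe]; exact hok0
    · rw [hZe]
      change dist (x + S.c a₀ σ) _ ≤ ε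
      rw [add_comm]
      exact hd0
  have hc2 : (osys Φ T ε S k κ).VCt C (insert o P) (emb k κ i) o v Z := by
    refine vct_obstacle hΦ hε hC hi (hsub A) (Finset.mem_insert_self _ _) hv ?_ ha ?_
    · rw [hZe]; exact hok
    · rw [hZe, hq]
      change dist (x + S.c a v) _ ≤ ε
      rw [add_comm]
      exact hd
  have hne : emb k κ (Sum.inr r) ≠ emb k κ i := fun h => hir ((emb k κ).injective h).symm
  have hmem : ∀ j, emb k κ j ∈ P := fun j => (Finset.mem_map' _).2 (Finset.mem_univ _)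
  refine ⟨k, hk, g, ?_, fun ℓ ς => ?_⟩
  · rw [← huniv]
    exact conn_insert hconnO (hmem _) hσ hc1
  · rw [← huniv]
    exact not_treeLike_insert hconnO hoP (hmem _) (hmem _) hne hσ hv hc1 hc2

end main

section tree

variable {Φ : Space3 → ℝ} {T ε σ : ℝ} {P : CTree} {ℓ : PhasePoint} {p : Par P} {n : ℕ}

/-- The sub-world of the tree: paths and absence of bad births. -/
theorem tree_st (hΦ : AdmissiblePotential Φ) (hε : 0 < ε)
    (hv : Valid Φ ε P σ ℓ.2 p) (hs : Sep Φ ε P σ ℓ p)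
    (hex : ∀ i j, i ≠ j → ε < dist (lines Φ ε P ℓ p i).1 (lines Φ ε P ℓ p j).1) {k : ℕ}
    (V : Fin k → PhasePoint) :
    (gsys Φ T ε k (Idx P)).ok (Finset.univ.map ⟨Sum.inr, Sum.inr_injective⟩) σ
      (Sum.elim V (lines Φ ε P ℓ p)) ∧
    ∀ s ∈ Icc 0 σ, ∀ x : Idx P, (gsys Φ T ε k (Idx P)).st
      (Finset.univ.map ⟨Sum.inr, Sum.inr_injective⟩) s (Sum.elim V (lines Φ ε P ℓ p)) (Sum.inr x) =
        path Φ ε P ℓ p s x := by
  set M := gsys Φ T ε k (Idx P) with hM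
  set A : Finset (Fin k ⊕ Idx P) := Finset.univ.map ⟨Sum.inr, Sum.inr_injective⟩ with hA
  set Z : Fin k ⊕ Idx P → PhasePoint := Sum.elim V (lines Φ ε P ℓ p) with hZ
  set f : Fin k ⊕ Idx P → Idx P := Sum.elim (fun _ => root P) id with hf
  have hmemA : ∀ i ∈ A, ∃ x, i = Sum.inr x := by
    intro i hi
    obtain ⟨x, _, hx⟩ := Finset.mem_map.1 hi
    exact ⟨x, hx.symm⟩
  have hbb : ∀ i, M.bb i = 0 := fun i => max_self 0
  have hX : LWorld M.Φ M.ε (fun _ : Idx P => (0 : ℝ)) 0 σ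
      (fun s => flow Φ ε s (lines Φ ε P ℓ p)) :=
    LWorld.of_bworld (bworld_flow hΦ hε fun i j hij => (hex i j hij).le)
  have h0 : ∀ i ∈ A, M.o ≠ some i → flow Φ ε 0 (lines Φ ε P ℓ p) (f i) = Z i := by
    intro i hi _
    obtain ⟨x, rfl⟩ := hmemA i hi
    rw [flow_zero hΦ hε]
    rfl
  have hinj : ∀ i ∈ A, M.o ≠ some i → ∀ j ∈ A, M.o ≠ some j → f i = f j → i = j := by
    intro i hi _ j hj _ hij
    obtain ⟨x, rfl⟩ := hmemA i hi
    obtain ⟨y, rfl⟩ := hmemA j hj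
    exact congrArg Sum.inr hij
  have hb : ∀ i ∈ A, M.o ≠ some i → ∀ s ∈ Ico 0 σ, ((0 : ℝ) ≤ s ↔ M.bb i ≤ s) := by
    intro i _ _ s _
    rw [hbb]
  have hfar : ∀ s ∈ Ico 0 σ, ∀ i ∈ A, M.o ≠ some i → (0 : ℝ) ≤ s → ∀ k',
      (∀ j ∈ A, M.o ≠ some j → f j ≠ k') → (0 : ℝ) ≤ s →
      M.ε ≤ dist (flow Φ ε s (lines Φ ε P ℓ p) (f i)).1
        (flow Φ ε s (lines Φ ε P ℓ p) k').1 := by
    intro s _ i _ _ _ k' hk' _
    exfalso
    exact hk' (Sum.inr k') (Finset.mem_map.2 ⟨k', Finset.mem_univ _, rfl⟩) (by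
      simp [hM, VLMeas973.vsys]) rfl
  have h := st_eq_of_lworld (M := M) hΦ hε hX hinj hb h0 hfar
  refine ⟨?_, fun s hs' x => ?_⟩
  · rw [ok_iff_of_lworld (M := M) hΦ hε hX hinj hb h0 hfar]
    intro i hi _ _ j hj _ hji _
    obtain ⟨x, rfl⟩ := hmemA i hi
    obtain ⟨y, rfl⟩ := hmemA j hj
    rw [hbb]
    change M.ε < dist (flow Φ ε 0 (lines Φ ε P ℓ p) x).1 (flow Φ ε 0 (lines Φ ε P ℓ p) y).1
    rw [flow_zero hΦ hε]
    exact hex x y fun h' => hji (by rw [h'])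
  · rw [h s hs' (Sum.inr x) (Finset.mem_map.2 ⟨x, Finset.mem_univ _, rfl⟩) (by
      simp [hM, VLMeas973.vsys])]
    rw [path_eq_flow hΦ hε hv hs hs']
    rfl

end tree

/-! ### The deterministic input of `ObGas370.obNull_of_bad` -/

section final

variable {Φ : Space3 → ℝ} {f₀ : PhasePoint → ℝ}

/-- **(CE)** for the exit lines of a tree cluster: before it touches, every particle influenced by
an exit line (with its state in the world without and in the world with the line) and the line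
itself is a chain end. -/
def CEIn (Φ : Space3 → ℝ) (T t : ℝ) (P : CTree) (K : ℕ)
    (X : ℝ → PhasePoint × Par P → (m : ℕ) → Config m → Prop) (C : ℝ) (N : ℕ) : Prop :=
  ∀ᶠ ε in 𝓝[>] (0 : ℝ), ∀ σ ∈ Ioc 0 t, ∀ z m (w : Config m), F3Fin370.Excl Φ ε P z w →
    Valid Φ ε P σ z.1.2 z.2 → Sep Φ ε P σ z.1 z.2 → AllOk Φ ε w (exL Φ ε P z) →
    (∀ x, t < (EDefs602.MW.cfg w).thetaL Φ ε K t (exL Φ ε P z x)) →
    ¬ LinkEx Φ ε K t w (exL Φ ε P z) → ¬ X ε z m w →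
    ∀ x, ∀ v ∈ Icc 0 t,
      ¬ (EDefs602.MW.cfg w).Touched Φ ε K (EDefs602.MW.line (exL Φ ε P z x)) v →
      (∀ i, (EDefs602.MW.cfg w).Fut Φ ε (EDefs602.MW.line (exL Φ ε P z x)) v i →
        CEnd Φ T C ε N (root P) (lines Φ ε P z.1 z.2) w v (Causal291.pth Φ ε w v i).1 ∧
        CEnd Φ T C ε N (root P) (lines Φ ε P z.1 z.2) w v
          (((EDefs602.MW.cfg w).ins (exL Φ ε P z x)).path Φ ε v (Sum.inl i)).1) ∧
      ((exL Φ ε P z x).1.1 < v →
        CEnd Φ T C ε N (root P) (lines Φ ε P z.1 z.2) w v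
          (((EDefs602.MW.cfg w).ins (exL Φ ε P z x)).path Φ ε v (Sum.inr ())).1)

theorem hdet_of_ceIn (hΦ : AdmissiblePotential Φ) {T t : ℝ} (htT : t ≤ T) {P : CTree} {K : ℕ}
    {X : ℝ → PhasePoint × Par P → (m : ℕ) → Config m → Prop} {C : ℝ} (hC : 1 ≤ C) {N : ℕ}
    (h : CEIn Φ T t P K X C N) :
    ∀ᶠ ε in 𝓝[>] (0 : ℝ), ∀ (ι : Type) [Fintype ι] (S : Tubes ι) (x : Space3) z m
      (w : Config m), F3Fin370.Excl Φ ε P z w → F3Fin370.ObEv Φ ε K t (S.shift x) P z w →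
        ¬ X ε z m w → ∀ u, ObBad Φ T C ε N S (lines Φ ε P z.1 z.2) (x, u) w := by
  filter_upwards [h, self_mem_nhdsWithin] with ε hε hpos
  intro ι _ S x z m w hex hev hX u
  have hp : 0 < ε := hpos
  obtain ⟨σ, hσ, hF, hOk, hth, hL, hR⟩ := hev
  have hce := hε σ hσ z m w hex hF.valid hF.sep hOk hth hL hX
  have hσT : σ ∈ Icc 0 T := ⟨hσ.1.le, hσ.2.trans htT⟩
  -- the root contact
  have hroot : ∀ k (g : Fin k ↪ Fin m), ∃ A₀ : Finset (Fin k ⊕ Idx P), Sum.inr (root P) ∈ A₀ ∧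
      (gsys Φ T ε k (Idx P)).ok A₀ σ (Sum.elim (fun i => w (g i)) (lines Φ ε P z.1 z.2)) ∧
      near ε (S.shift x) σ ((gsys Φ T ε k (Idx P)).st A₀ σ
        (Sum.elim (fun i => w (g i)) (lines Φ ε P z.1 z.2)) (Sum.inr (root P))).1 := by
    intro k g
    obtain ⟨h1, h2⟩ := tree_st (T := T) hΦ hp hF.valid hF.sep hex.1 (fun i => w (g i))
    refine ⟨_, Finset.mem_map.2 ⟨root P, Finset.mem_univ _, rfl⟩, h1, ?_⟩
    rw [h2 σ ⟨hσ.1.le, le_rfl⟩ (root P), path_root_after hp.le hF.valid.2 le_rfl]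
    obtain ⟨a, ha, hd⟩ := hF.hit
    exact ⟨a, ha, hd⟩
  rcases hR with ⟨y, v, hv, hT, i, hi, hn | hn⟩ | ⟨y, v, hv, hT, hb, hn⟩
  · exact obBad_of_cEnd hΦ hp hC ⟨hv.1, hv.2.trans htT⟩ hσT ((hce y v hv hT).1 i hi).1 hn hroot u
  · exact obBad_of_cEnd hΦ hp hC ⟨hv.1, hv.2.trans htT⟩ hσT ((hce y v hv hT).1 i hi).2 hn hroot u
  · exact obBad_of_cEnd hΦ hp hC ⟨hv.1, hv.2.trans htT⟩ hσT ((hce y v hv hT).2 hb) hn hroot u

/-- The remaining input of F3: for every tree and `δ` there are `K`, exceptional events `X`, `N` with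
small mass and (CE). -/
def F3CE (Φ : Space3 → ℝ) (f₀ : PhasePoint → ℝ) (T t : ℝ) : Prop :=
  ∀ (P : CTree) (δ : ℝ), 0 < δ → ∃ (K : ℕ)
    (X : ℝ → PhasePoint × Par P → (m : ℕ) → Config m → Prop) (C : ℝ) (N : ℕ), 1 ≤ C ∧
    (∀ᶠ ε in 𝓝[>] (0 : ℝ), ∃ H : PhasePoint × Par P → (m : ℕ) → Config m → ℝ≥0∞,
      (∀ m, Measurable fun q : (PhasePoint × Par P) × Config m => H q.1 m q.2) ∧
      (∀ z m (w : Config m), F3Fin370.Excl Φ ε P z w →
        F3Fin370.TreeEv Φ ε K t P z w ∨ X ε z m w → 1 ≤ H z m w) ∧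
      F3Fin370.tI Φ f₀ ε t P (fun z m w => InEq2.wQ Φ ε P z * H z m w) ≤ ENNReal.ofReal δ) ∧
    CEIn Φ T t P K X C N

/-- **F3 from (CE) and the x-independent null fact.** -/
theorem F3_of_f3CE (hf : Measurable f₀) (hΦ : AdmissiblePotential Φ) (hVC : VC Φ) (hVL : VL Φ)
    (h1 : ∫⁻ z, ENNReal.ofReal (f₀ z) ≤ 1) {γ : ℝ} {ρ : Space3 → ℝ≥0∞} {C₀ : ℝ≥0∞}
    (he : LN2.Env f₀ γ ρ C₀) (hγ : 0 < γ) {T tw t : ℝ} (hT : 0 < T) (htw : 0 ≤ tw) (ht : 0 ≤ t)
    (htT : t ≤ T) (h : F3CE Φ f₀ T t) : GhostErr370.F3 Φ f₀ T tw t := by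
  refine F3Fin370.F3_of_f3Null hf hΦ htw ht htT fun P δ hδ => ?_
  obtain ⟨K, X, C, N, hC, hA, hB⟩ := h P δ hδ
  exact ⟨K, X, hA, obNull_of_bad hΦ hVC hVL hf h1 he hγ hT P K X C N
    (hdet_of_ceIn hΦ htT hC hB)⟩

end final

end Crest.Agent.R122.ObDet370
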