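import Crest.Agent.R122.LNTreeDef_399
import Crest.Agent.R122.ObDet_370
import Crest.Agent.R122.LNRet_383
import Crest.Agent.R122.LNHor_424

/-!
# Row 122, F3: chain ends of the exit lines from `RAT` (helper399)

* `cEnd_of_reach` : a reached particle (different from the root) is a chain end (helper370).
* `ends_of_rall` : before the touch time all influenced particles and the line are chain ends.
* `XEv`, `ceIn_of_rat` : `ObDet370.CEIn` from `RAT`.
-/

set_option autoImplicit false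
set_option linter.unusedSectionVars false
open MeasureTheory Set Filter
open scoped Classical ENNReal Topology
open Crest.AnalysisR.Kinetic
open Crest.Agent.R122.GIV566 Crest.Agent.R122.VL581 Crest.Agent.R122.LN304
open Crest.Agent.R122.LNTree410 Crest.Agent.R122.PWInst442 Crest.Agent.R122.PWGlue491
open Crest.Agent.R122.LNPart424 Crest.Agent.R122.EDefs602 Crest.Agent.R122.TreeLines335
open Crest.Agent.R122.Kin796 Crest.Agent.R122.Kin796.CTree Crest.Agent.R122.Tree674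
open Crest.Agent.R122.RtG302 Crest.Agent.R122.LNEv968 Crest.Agent.R122.LNBridge968
open Crest.Agent.R122.ObDet370 (CEnd CEIn)
open Crest.Agent.R122.EDefs602.MW Crest.Agent.R122.MWFam255

noncomputable section

namespace Crest.Agent.R122.LNTree399

variable {Φ : Space3 → ℝ} {ε t T c : ℝ} {n N K : ℕ} {P : CTree} {z : PhasePoint × Par P}
  {w : Config n}

/-- **Reached particles are chain ends.** -/
theorem cEnd_of_reach (hΦ : AdmissiblePotential Φ) (hε : 0 < ε) (hc : 1 ≤ c)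
    (hV : Valid Φ ε P t z.1.2 z.2) (hS : Sep Φ ε P t z.1 z.2) (htT : t ≤ T) {x : Idx P}
    {i : Fin n ⊕ Idx P} (hi : i ≠ Sum.inr (root P)) {v : ℝ} {q : Space3}
    (h : Reach (Mt Φ t ε n P) c (Zt Φ ε w z) (Lt n P) (pT n P) (Sum.inr x) N i v q) :
    CEnd Φ T c ε N (root P) (Tree674.lines Φ ε P z.1 z.2) w v q := by
  let _ : DecidableEq (Fin n ⊕ Idx P) := fun a b => Classical.propDecidable (a = b)
  obtain ⟨Y, hY, hiY, A, hA, hiA, hok, hq⟩ := h
  have hπ : (Mt Φ t ε n P).Conn c (pT n P) (Zt Φ ε w z) := conn_pT hΦ hε hc hV hS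
  have hconn : (Mt Φ t ε n P).Conn c (pT n P ∪ Y) (Zt Φ ε w z) := hY.conn_union hπ (inr_mem x)
  have hconnT : (Mt Φ T ε n P).Conn c (pT n P ∪ Y) (Zt Φ ε w z) :=
    LNHor424.conn_hor (M := Mt Φ T ε n P) (t := t) htT hconn
  set Q : Finset (Fin n ⊕ Idx P) := pT n P ∪ Y with hQ
  have hcard : Q.card ≤ N := by
    refine (Finset.card_le_card ?_).trans hY.card
    intro j hj
    rcases Finset.mem_union.1 hj with h1 | h1
    · exact Finset.mem_union_right _ (by rw [uni_Lt]; exact h1)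
    · exact Finset.mem_union_left _ h1
  obtain ⟨k, ι, e, hk, he, hQe⟩ := exists_emb Q fun y => Finset.mem_union_left _ (inr_mem y)
  have hmap : Finset.univ.map e = Q := by
    ext y
    rw [Finset.mem_map]
    constructor
    · rintro ⟨a, _, ha⟩
      exact (hQe y).1 ⟨a, ha⟩
    · intro hy
      obtain ⟨a, ha⟩ := (hQe y).2 hy
      exact ⟨a, Finset.mem_univ _, ha⟩
  have hp : Pull (ObDet370.gsys Φ T ε k (Idx P)) (Mt Φ T ε n P) e :=
    { Φ := rfl
      T := rfl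
      ε := rfl
      b := fun j => by
        rw [he]
        rcases j with j | j <;> rfl
      o := fun j => by
        show (none : Option _) = _ ↔ (none : Option _) = _
        simp
      S := rfl }
  have hZ := elim_comp w (Tree674.lines Φ ε P z.1 z.2) he
  refine ⟨k, hk.trans hcard, ι, ?_, ?_⟩
  · rw [← hZ, ← hp.conn (M := Mt Φ T ε n P) hΦ hε, hmap]
    exact hconnT
  · rw [← hmap] at hA
    obtain ⟨A', -, rfl⟩ := Finset.subset_map_iff.1 hA
    obtain ⟨i', hi', rfl⟩ := Finset.mem_map.1 hiA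
    refine ⟨A', i', hi', fun h' => hi ?_, ?_, ?_⟩
    · rw [h', he]
      rfl
    · rw [← hZ]
      exact (hp.ok (M := Mt Φ T ε n P) hΦ hε v).1 hok
    · rw [← hZ, ← hp.st (M := Mt Φ T ε n P) hΦ hε v]
      exact hq

/-- **Chain ends** of an exit line. -/
theorem ends_of_rall (hΦ : AdmissiblePotential Φ) (hε : 0 < ε) (hc : 1 ≤ c)
    (hV : Valid Φ ε P t z.1.2 z.2) (hS : Sep Φ ε P t z.1 z.2) (htT : t ≤ T)
    (hOk : AllOk Φ ε w (exL Φ ε P z)) (h : RAll Φ t c ε K N z w) (x : {x : Idx P // x ≠ root P})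
    {v : ℝ} (hv : v ∈ Icc 0 t)
    (hnt : ¬ (MW.cfg w).Touched Φ ε K (MW.line (exL Φ ε P z x)) v) :
    (∀ i, (MW.cfg w).Fut Φ ε (MW.line (exL Φ ε P z x)) v i →
        CEnd Φ T c ε N (root P) (Tree674.lines Φ ε P z.1 z.2) w v (Causal291.pth Φ ε w v i).1 ∧
        CEnd Φ T c ε N (root P) (Tree674.lines Φ ε P z.1 z.2) w v
          (((MW.cfg w).ins (exL Φ ε P z x)).path Φ ε v (Sum.inl i)).1) ∧
      ((exL Φ ε P z x).1.1 < v →
        CEnd Φ T c ε N (root P) (Tree674.lines Φ ε P z.1 z.2) w v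
          (((MW.cfg w).ins (exL Φ ε P z x)).path Φ ε v (Sum.inr ())).1) := by
  have hZ : (MW.cfg w).Ok Φ ε := MW.OkFam.base hΦ hε hOk
  have hZa : ((MW.cfg w).ins (exL Φ ε P z x)).Ok Φ ε := MW.OkFam.line hΦ hε hOk x
  have h2 : v ≤ (MW.cfg w).thetaL Φ ε K t (exL Φ ε P z x) :=
    (LNEv383.lt_theta_of_not_touched hΦ hε hZ hZa hv hnt).le
  refine ⟨fun i hi => ?_, fun hb => ?_⟩
  · have h1 : CF Φ ε K (MW.cfg w) (MW.line (exL Φ ε P z x)) v i :=
      LNEv383.cf_of_fut hΦ hε hZ hZa hv hnt hi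
    have h0 : ((MW.cfg w).add (MW.line (exL Φ ε P z x))).b (Sum.inl i) ≤ v := hv.1
    have h3 := h x v hv h2 (Sum.inl i) (MWFam255.ci_inl h1) h0
    refine ⟨?_, ?_⟩
    · have h4 := h3.2 i rfl
      rw [EBasic602.cfg_path hΦ hε] at h4
      exact cEnd_of_reach hΦ hε hc hV hS htT (by simp) h4
    · exact cEnd_of_reach hΦ hε hc hV hS htT (i := Sum.inl i) (by simp) h3.1
  · have h3 := h x v hv h2 (Sum.inr ()) MWFam255.ci_inr hb.le
    exact cEnd_of_reach hΦ hε hc hV hS htT (i := Sum.inr x.1)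
      (fun h' => x.2 (Sum.inr_injective h')) h3.1

/-- The exceptional events: the tree is not separated up to `t`, run, bad partition, bad hit. -/
def XEv (Φ : Space3 → ℝ) (t c : ℝ) (K L N : ℕ) (R ς : ℝ) (ε : ℝ) {P : CTree}
    (z : PhasePoint × Par P) (n : ℕ) (w : Config n) : Prop :=
  ¬ Sep Φ ε P t z.1 z.2 ∨ RunS Φ t K L ε z w ∨
    ¬ NoBad (Mt Φ t ε n P) c (R * ε) ς (Zt Φ ε w z) (Lt n P) (N + N) ∨ HitT Φ t c ε N z w

/-- **(CE) from `RAT`.** -/
theorem ceIn_of_rat (hΦ : AdmissiblePotential Φ) {t T : ℝ} (htT : t ≤ T) {K K₂ : ℕ}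
    (h : RAT Φ t K K₂) (L : ℕ) : ∃ N : ℕ, ∀ (c R ς : ℝ), 1 ≤ c → 0 ≤ R → 0 < ς →
      ∀ P : CTree, P.leaves ≤ K →
        CEIn Φ T t P K₂ (fun ε z n w => XEv Φ t c K₂ L N R ς ε z n w) c N := by
  obtain ⟨N, hN⟩ := h L
  refine ⟨N, fun c R ς hc hR hς P hP => ?_⟩
  have hsmall : ∀ᶠ ε in 𝓝[>] (0 : ℝ), 2 * (R * ε) ≤ ς := by
    have h1 : Tendsto (fun ε : ℝ => 2 * (R * ε)) (𝓝[>] 0) (𝓝 (2 * (R * 0))) :=
      (((tendsto_id.const_mul R).const_mul 2).mono_left nhdsWithin_le_nhds)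
    rw [mul_zero, mul_zero] at h1
    exact (h1.eventually_lt_const hς).mono fun _ h => h.le
  filter_upwards [hsmall, self_mem_nhdsWithin] with ε hε2 hε
  have hε : 0 < ε := hε
  intro σ hσ z n w hex hV hS hOk _ _ hX x v hv hnt
  have hVt : Valid Φ ε P t z.1.2 z.2 := valid_mono hσ.2 hV
  unfold XEv at hX
  push Not at hX
  obtain ⟨h1, h2, h3, h4⟩ := hX
  rcases hN c ε (R * ε) ς hc hε (by positivity) hε2 P z n w hP hVt h1 hex.2.1 hex.2.2 hOk with
    h5 | h5 | h5 | h5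
  · exact absurd h5 h2
  · exact absurd h3 h5
  · exact absurd h5 h4
  · exact ends_of_rall hΦ hε hc hVt h1 htT hOk h5 x hv hnt

end Crest.Agent.R122.LNTree399

end
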