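import Crest.Agent.R122.LNTreeRA_399
import Crest.Agent.R122.LNPartS3_291
import Crest.Agent.R122.LNFam_255

/-!
# Exit data of the tree instance of LN1 (row 122, helper370)

* `fam_tree` : the real contacts of the isolated tree are a connecting family of its part.
* `partS_cfg`, `partS_ins`, `partD_ins` : `LN304.PartS`, `LN304.PartD` for the glued worlds of the gas
  and of the gas and one exit line.
-/

set_option autoImplicit false
set_option linter.unusedSectionVars false
open MeasureTheory Set Filter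
open scoped Classical ENNReal Topology
open Crest.AnalysisR.Kinetic
open Crest.Agent.R122.GIV566 Crest.Agent.R122.VL581 Crest.Agent.R122.LN304
open Crest.Agent.R122.LNTree410 Crest.Agent.R122.PWInst442 Crest.Agent.R122.PWGlue491
open Crest.Agent.R122.EDefs602 Crest.Agent.R122.TreeLines335
open Crest.Agent.R122.Kin796 Crest.Agent.R122.Kin796.CTree Crest.Agent.R122.Tree674
open Crest.Agent.R122.LNTree399

noncomputable section

namespace Crest.Agent.R122.LNTreeFam370

variable {Φ : Space3 → ℝ} {ε t c : ℝ} {n : ℕ} {P : CTree} {z : PhasePoint × Par P} {w : Config n}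

/-- The real contacts of the isolated tree. -/
abbrev RT (Φ : Space3 → ℝ) (t ε : ℝ) (n : ℕ) (P : CTree) (w : Config n) (z : PhasePoint × Par P) :
    ℝ → Fin n ⊕ Idx P → Fin n ⊕ Idx P → Prop :=
  LNFam255.RC' (Mt Φ t ε n P) (Zt Φ ε w z) (pT n P)

/-- The exit times on the labels. -/
def relT (n : ℕ) (P : CTree) (p : Par P) : Fin n ⊕ Idx P → ℝ :=
  Sum.elim (fun _ => 0) fun i => rel P p i

theorem sp_of_mem {i : Fin n ⊕ Idx P} (hi : i ∈ pT n P) :
    Sp (fun _ : Unit => eT n P) i = pT n P := by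
  have h : ∃ _ : Unit, i ∈ part (eT n P) := ⟨(), hi⟩
  unfold Sp
  rw [dif_pos h]

/-- The classes inside the part are contained in the part. -/
theorem sp_sub (i : Fin n ⊕ Idx P) (hi : i ∈ pT n P) : Sp (fun _ : Unit => eT n P) i ⊆ pT n P := by
  rw [sp_of_mem hi]

theorem sp_nonempty {i : Fin n ⊕ Idx P} (hi : i ∈ pT n P) :
    (Sp (fun _ : Unit => eT n P) i).Nonempty := by
  rw [sp_of_mem hi]
  exact ⟨_, hi⟩

section

variable (hΦ : AdmissiblePotential Φ) (hε : 0 < ε) (ht : 0 < t)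
  (hV : Valid Φ ε P t z.1.2 z.2) (hS : Sep Φ ε P t z.1 z.2)
include hΦ hε ht hV hS

/-- **The real contacts of the isolated tree are a connecting family of its part.** -/
theorem fam_tree (hc : 1 ≤ c) :
    LNEv968.Fam (Mt Φ t ε n P) c (Zt Φ ε w z) (pT n P) (RT Φ t ε n P w z) :=
  LNFam255.famC (LNGraft410.Cls.of_tree (bD := relT n P z.2) hΦ hε ht (treeIn hV hS)
    fun _ => rfl) hε hc

/-- `PartS` in the glued world of the gas. -/
theorem partS_cfg (hc : 1 ≤ c) (hok : (MW.cfg w).Ok Φ ε) :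
    LN304.PartS (Mt Φ t ε n P) c (Zt Φ ε w z)
      (CG (Mt Φ t ε n P) (Zt Φ ε w z) (Sp fun _ : Unit => eT n P) (bD (MW.cfg w) (eG n P))
        (labs (eG n P)) (XD (MW.cfg w) (eG n P) Φ ε)) (pT n P) :=
  LNPartS291.partS_lab ((glue_cfg hV hS hok).gd hΦ hε ht) sp_sub
    (fun i h => absurd h (inl_not_mem i)) (fam_tree hΦ hε ht hV hS hc)
    fun i _ h => absurd h (inl_not_mem i)

/-- `PartS` in the glued world of the gas and one exit line. -/
theorem partS_ins (hc : 1 ≤ c) (x : Idx P)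
    (hok : ((MW.cfg w).ins (lineML Φ ε P z x)).Ok Φ ε) :
    LN304.PartS (Mt Φ t ε n P) c (Zt Φ ε w z)
      (CG (Mt Φ t ε n P) (Zt Φ ε w z) (Sp fun _ : Unit => eT n P)
        (bD ((MW.cfg w).ins (lineML Φ ε P z x)) (eX n P x)) (labs (eX n P x))
        (XD ((MW.cfg w).ins (lineML Φ ε P z x)) (eX n P x) Φ ε)) (pT n P) := by
  refine LNPartS291.partS_lab ((glue_ins hV hS x hok).gd hΦ hε ht) sp_sub
    (fun i h => ?_) (fam_tree hΦ hε ht hV hS hc) fun i i' h h' hne => ?_
  · exact sp_nonempty h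
  · rcases i with i | i
    · exact absurd h (inl_not_mem i)
    · rcases i' with i' | i'
      · exact absurd h' (inl_not_mem i')
      · exact absurd rfl hne

/-- `PartD` in the glued world of the gas and one exit line. -/
theorem partD_ins (hc : 1 ≤ c) (x : Idx P)
    (hok : ((MW.cfg w).ins (lineML Φ ε P z x)).Ok Φ ε) :
    LN304.PartD (Mt Φ t ε n P) c (Zt Φ ε w z)
      (CG (Mt Φ t ε n P) (Zt Φ ε w z) (Sp fun _ : Unit => eT n P)
        (bD ((MW.cfg w).ins (lineML Φ ε P z x)) (eX n P x)) (labs (eX n P x))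
        (XD ((MW.cfg w).ins (lineML Φ ε P z x)) (eX n P x) Φ ε))
      (LNEv818.CL Φ ε ((MW.cfg w).ins (lineML Φ ε P z x)) (eX n P x)) (pT n P) (Sum.inr x) := by
  refine LNPartS291.partD_lab ((glue_ins hV hS x hok).gd hΦ hε ht) hΦ hε ht.le
    (fam_tree hΦ hε ht hV hS hc) (fun i i' h h' hne => ?_) (inr_mem x)
  rcases i with i | i
  · exact absurd h (inl_not_mem i)
  · rcases i' with i' | i'
    · exact absurd h' (inl_not_mem i')
    · exact absurd rfl hne

/-- `PartD` in the glued world of the gas. -/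
theorem partD_cfg (hc : 1 ≤ c) (hok : (MW.cfg w).Ok Φ ε) (a : Fin n ⊕ Idx P) (ha : a ∈ pT n P) :
    LN304.PartD (Mt Φ t ε n P) c (Zt Φ ε w z)
      (CG (Mt Φ t ε n P) (Zt Φ ε w z) (Sp fun _ : Unit => eT n P) (bD (MW.cfg w) (eG n P))
        (labs (eG n P)) (XD (MW.cfg w) (eG n P) Φ ε)) (LNEv818.CL Φ ε (MW.cfg w) (eG n P))
      (pT n P) a :=
  LNPartS291.partD_lab ((glue_cfg hV hS hok).gd hΦ hε ht) hΦ hε ht.le
    (fam_tree hΦ hε ht hV hS hc) (fun i _ h => absurd h (inl_not_mem i)) ha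

end

end Crest.Agent.R122.LNTreeFam370

end
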