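import Crest.Agent.R122.LNBind_302
import Crest.Agent.R122.LNRetT_383

/-!
# Row 122, EVENTS (helper317): one tree inside an arbitrary master system

`TreeIn` (helper410): a tree with the labels `e` in the master system `M`, `part e` is a part.
* `RI`, `partR_in` : contacts of the isolated tree as a connecting family (helper302's `PartR`).
* `exits_apart_in` : two exits of the tree do not meet each other.
* `not_retB_in` : no return of an exit to the protected tubes of its tree.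
-/

set_option autoImplicit false
set_option linter.unusedSectionVars false

open MeasureTheory Set Filter Topology
open Crest.AnalysisR.Kinetic
open Crest.Agent.R122.GIV566 Crest.Agent.R122.VL581 Crest.Agent.R122.LNg410
open Crest.Agent.R122.LN304 Crest.Agent.R122.Ins45
open Crest.Agent.R122.Inf879 Crest.Agent.R122.EDefs602 Crest.Agent.R122.MWFam255
open Crest.Agent.R122.LNEv968 Crest.Agent.R122.LNEv818 Crest.Agent.R122.LNEv383
open Crest.Agent.R122.LNTree410 Crest.Agent.R122.Bind302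
open Crest.Agent.R122.TreeLines335 Crest.Agent.R122.Kin796 Crest.Agent.R122.Kin796.CTree
open Crest.Agent.R122.Tree674 Crest.Agent.R122.PathFlow968
open Crest.Agent.R122.RtG302 (near protT)
open scoped Classical

noncomputable section

namespace Crest.Agent.R122.TreeIn317

variable {J κ : Type} [Fintype J] [Nonempty κ] {M : VSys J κ} {Zc : J → PhasePoint}
  {Λ : Finset (Finset J)} {Φ : Space3 → ℝ} {ε T t u v c ℓ ς : ℝ} {N K : ℕ} {P : CTree}
  {z : PhasePoint × Par P} {e : Idx P ↪ J}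

/-- Contacts of the isolated part. -/
def RI (M : VSys J κ) (Zc : J → PhasePoint) (π : Finset J) (r : ℝ) (j k : J) : Prop :=
  dist (M.st π r Zc j).1 (M.st π r Zc k).1 ≤ M.ε

theorem lineAt_lineML (Φ : Space3 → ℝ) (ε : ℝ) (P : CTree) (z : PhasePoint × Par P) (x : Idx P)
    (u : ℝ) : Ins45.lineAt (lineML Φ ε P z x).1.1 (lineML Φ ε P z x).1.2 u =
      onLine (fin Φ ε P z.1 z.2 x) u := by
  unfold Ins45.lineAt lineML onLine
  refine Prod.ext ?_ rfl
  simp only
  rw [add_assoc, ← add_smul]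
  congr 2
  ring

section

variable (hΦ : AdmissiblePotential Φ) (hε : 0 < ε) (hMΦ : M.Φ = Φ) (hMε : M.ε = ε)
  (h : TreeIn M Zc M.T P z.1 z.2 e)
include hΦ hε hMΦ hMε h

theorem st_eq_lineAt (i : Idx P) (ht : rel P z.2 i ≤ t) (htT : t ≤ M.T) :
    M.st (part e) t Zc (e i) =
      Ins45.lineAt (lineML Φ ε P z i).1.1 (lineML Φ ε P z i).1.2 t := by
  subst hMΦ hMε
  rw [lineAt_lineML]
  exact h.line_tree hΦ hε i ht htT

theorem far_of_rel {i : Idx P} {k : J} (hk : k ∈ part e) (hki : k ≠ e i)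
    (ht : rel P z.2 i < t) (htT : t ≤ M.T) :
    ε < dist (M.st (part e) t Zc (e i)).1 (M.st (part e) t Zc k).1 := by
  subst hMΦ hMε
  exact h.exit_tree hΦ hε hk hki ht htT

theorem rI_le_rel {r : ℝ} {i : Idx P} {k : J} (hk : k ∈ part e) (hki : k ≠ e i)
    (hr : r ∈ Icc 0 M.T) (hR : RI M Zc (part e) r (e i) k) : r ≤ rel P z.2 i := by
  by_contra hcon
  refine absurd hR (not_le.2 ?_)
  rw [hMε]
  exact far_of_rel hΦ hε hMΦ hMε h hk hki (not_le.1 hcon) hr.2

/-- **The contacts of the isolated tree connect its part.** -/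
theorem partR_in (hT : 0 ≤ M.T) (hc : 1 ≤ c) :
    PartR M c Zc (part e) (RI M Zc (part e)) := by
  subst hMΦ hMε
  refine ⟨(h.conn_tree hΦ hε).mono fun i _ j _ _ h => Or.inl (by
      obtain ⟨r, hr, _, _, hd⟩ := h
      exact ⟨r, hr, hd⟩), fun r j k h => ?_, fun r _ j hj k hk _ h' => ?_⟩
  · unfold RI at h ⊢
    rwa [dist_comm]
  · have ho : ∀ j ∈ part e, M.o ≠ some j := fun j hj => by
      obtain ⟨i, rfl⟩ := mem_part.1 hj
      exact h.o i
    refine vct_of_st subset_rfl subset_rfl hj hk (h.ok_tree hΦ hε hT r)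
      (h.ok_tree hΦ hε hT r) (ho j hj) (ho k hk) (le_trans h' ?_)
    nlinarith

variable {ι : Type} [Fintype ι] {Z : MW ι} {lab : ι → J}

/-- **Two exits of one tree do not meet each other.** -/
theorem exits_apart_in (hπ : part e ∈ Λ) (hT0 : 0 ≤ M.T) (hTM : T ≤ M.T) (hc : 1 ≤ c)
    (hℓς : 2 * ℓ ≤ ς) {x y : Idx P} (hxy : x ≠ y) (hlx : ∀ g, lab g ≠ e x)
    (hly : ∀ g, lab g ≠ e y) (hZ : Z.Ok Φ ε) (hZx : (Z.ins (lineML Φ ε P z x)).Ok Φ ε)
    (hZy : (Z.ins (lineML Φ ε P z y)).Ok Φ ε)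
    (hRx : ReachAll (Reach M c Zc Λ (part e) (e x) N) Φ ε K T Z lab (lineML Φ ε P z x) (e x))
    (hRy : ReachAll (Reach M c Zc Λ (part e) (e y) N) Φ ε K T Z lab (lineML Φ ε P z y) (e y))
    (hNB : NoBad M c ℓ ς Zc Λ (N + N + (N + N))) (hu : u ∈ Icc 0 T)
    (hux : u ≤ Z.thetaL Φ ε K T (lineML Φ ε P z x)) (huy : u ≤ Z.thetaL Φ ε K T (lineML Φ ε P z y))
    (hbx : (lineML Φ ε P z x).1.1 ≤ u) (hby : (lineML Φ ε P z y).1.1 ≤ u)
    (hb : (lineML Φ ε P z x).1.1 < u ∨ (lineML Φ ε P z y).1.1 < u) :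
    ε < dist ((Z.add (MW.line (lineML Φ ε P z x))).path Φ ε u (Sum.inr ())).1
      ((Z.add (MW.line (lineML Φ ε P z y))).path Φ ε u (Sum.inr ())).1 := by
  have hR := partR_in (c := c) hΦ hε hMΦ hMε h hT0 hc
  have hne : e x ≠ e y := fun h' => hxy (e.injective h')
  refine exits_apart hΦ hε hMε hTM hc hℓς hR hπ hZ hZx hZy hRx hRy hlx hly hNB (mem_part_self x)
    (mem_part_self y) hne (fun r hr h' => ⟨rI_le_rel hΦ hε hMΦ hMε h (mem_part_self y) hne.symm hr
      h', rI_le_rel hΦ hε hMΦ hMε h (mem_part_self x) hne hr (hR.symm r _ _ h')⟩) ?_ hu hux huy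
    hbx hby hb
  intro t ht h1 h2 h3
  rw [← st_eq_lineAt hΦ hε hMΦ hMε h x h1 ht.2, ← st_eq_lineAt hΦ hε hMΦ hMε h y h2 ht.2]
  rcases h3 with h3 | h3
  · exact far_of_rel hΦ hε hMΦ hMε h (mem_part_self y) hne.symm h3 ht.2
  · rw [dist_comm]
    exact far_of_rel hΦ hε hMΦ hMε h (mem_part_self x) hne h3 ht.2

/-- **No return of an exit to the protected tubes of its tree.** -/
theorem not_retB_in (hπ : part e ∈ Λ) (hT0 : 0 < M.T) (hTM : T ≤ M.T) (hc : 1 ≤ c)
    (hℓς : 2 * ℓ ≤ ς) {x : Idx P} (hx : x ≠ root P) (hlx : ∀ g, lab g ≠ e x)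
    (hlb : ∀ i y, lab i = e y → prot P T z.2 y ≤ Z.b i)
    (hZ : Z.Ok Φ ε) (hZx : (Z.ins (lineML Φ ε P z x)).Ok Φ ε)
    (hRx : ReachAll (Reach M c Zc Λ (part e) (e x) N) Φ ε K T Z lab (lineML Φ ε P z x) (e x))
    (hNB : NoBad M c ℓ ς Zc Λ (N + (N + N))) :
    ¬ RetB Φ ε ε K T Z (lineML Φ ε P z x) (protT Φ ε P T z) := by
  have hR := partR_in (c := c) hΦ hε hMΦ hMε h hT0.le hc
  refine not_retB_of hΦ hε (ξ := Idx P) hMε hTM hc hℓς hR hπ hZ hZx hRx hlx hNB
    (mem_part_self x) ?_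
  intro y v hv hbv hvy
  have hvT : v ∈ Icc 0 M.T := ⟨hv.1, hv.2.trans hTM⟩
  have hbv' : rel P z.2 x < v := hbv
  have hc' : (protT Φ ε P T z).c y v = (M.st (part e) v Zc (e y)).1 := by
    subst hMΦ hMε
    rw [h.st_tree hΦ hε hvT]
    rfl
  have hxy : y ≠ x := by
    rintro rfl
    have h1 : v ≤ rel P z.2 y := by rw [rel_eq_prot P T z.2 y hx]; exact hvy
    exact absurd hbv' (not_lt.2 h1)
  have hne : e y ≠ e x := fun h => hxy (e.injective h)
  refine ⟨e y, mem_part_self y, hne, h.o y, ?_, hc',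
    fun i hi => (show v ≤ prot P T z.2 y from hvy).trans (hlb i y hi),
    fun r hr h' => rI_le_rel hΦ hε hMΦ hMε h (mem_part_self y) hne hr h', ?_⟩
  · subst hMΦ hMε
    exact h.ok_tree hΦ hε hT0.le v
  · rw [hc', ← st_eq_lineAt hΦ hε hMΦ hMε h x hbv'.le hvT.2, dist_comm]
    exact far_of_rel hΦ hε hMΦ hMε h (mem_part_self y) hne hbv' hvT.2

end

end Crest.Agent.R122.TreeIn317

end
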