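import Mathlib

/-!
# Row 122, LN1, graph part (helper410): counting edges of tree-like contact structures

Everything is finite and elementary: `P : Finset J`, a timed relation `c : J → J → ℝ → Prop`.

* `CutConn P R` : the relation `R` connects `P` (cut condition).
* `card_le_of_cutConn` : edges outside a part `P'` of `P` are at least `|P \ P'|`.
* `TLg P c ℓ ς` : tree-like timed contacts (same data as `VSys.TreeLike`).
* `TLg.mem_of_cutConn` (G3), `TLg.card_inter_le_one` (G6), `TLg.not_outer_path` (G4),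
  `TLg.sub` (restriction to a connected part), `TLg.two_times`, `TLg.far_times` (G2).
-/

set_option autoImplicit false
set_option linter.unusedSectionVars false

open Set

namespace Crest.Agent.R122.LNg410

variable {J : Type*}

/-- The relation `R` connects the finite set `P` (cut condition). -/
def CutConn (P : Finset J) (R : J → J → Prop) : Prop :=
  P.Nonempty ∧ ∀ Q ⊆ P, Q.Nonempty → Q ≠ P → ∃ i ∈ Q, ∃ j ∈ P, j ∉ Q ∧ (R i j ∨ R j i)

theorem CutConn.mono {P : Finset J} {R R' : J → J → Prop} (h : CutConn P R)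
    (hR : ∀ i ∈ P, ∀ j ∈ P, i ≠ j → R i j → R' i j ∨ R' j i) : CutConn P R' := by
  refine ⟨h.1, fun Q hQ hne hneP => ?_⟩
  obtain ⟨i, hi, j, hj, hjQ, hR1 | hR1⟩ := h.2 Q hQ hne hneP
  · exact ⟨i, hi, j, hj, hjQ, hR i (hQ hi) j hj (fun h => hjQ (h ▸ hi)) hR1⟩
  · exact ⟨i, hi, j, hj, hjQ, (hR j hj i (hQ hi) (fun h => hjQ (h ▸ hi)) hR1).symm⟩

theorem cutConn_singleton (i : J) (R : J → J → Prop) : CutConn {i} R := by
  classical
  refine ⟨Finset.singleton_nonempty i, fun Q hQ hne hneP => absurd ?_ hneP⟩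
  exact (Finset.subset_singleton_iff.1 hQ).resolve_left hne.ne_empty

variable [DecidableEq J]

/-- Two connected sets with a common vertex have a connected union. -/
theorem CutConn.union {P Q : Finset J} {R : J → J → Prop} (hP : CutConn P R) (hQ : CutConn Q R)
    (hPQ : (P ∩ Q).Nonempty) : CutConn (P ∪ Q) R := by
  refine ⟨hP.1.mono Finset.subset_union_left, fun A hA hne hneA => ?_⟩
  obtain ⟨x, hx⟩ := hPQ
  rw [Finset.mem_inter] at hx
  -- a cut of the union cuts `P` or `Q`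
  by_cases hAP : (A ∩ P).Nonempty ∧ A ∩ P ≠ P
  · obtain ⟨i, hi, j, hj, hjA, h⟩ := hP.2 (A ∩ P) Finset.inter_subset_right hAP.1 hAP.2
    rw [Finset.mem_inter] at hi
    exact ⟨i, hi.1, j, Finset.mem_union_left _ hj,
      fun h' => hjA (Finset.mem_inter.2 ⟨h', hj⟩), h⟩
  by_cases hAQ : (A ∩ Q).Nonempty ∧ A ∩ Q ≠ Q
  · obtain ⟨i, hi, j, hj, hjA, h⟩ := hQ.2 (A ∩ Q) Finset.inter_subset_right hAQ.1 hAQ.2
    rw [Finset.mem_inter] at hi
    exact ⟨i, hi.1, j, Finset.mem_union_right _ hj,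
      fun h' => hjA (Finset.mem_inter.2 ⟨h', hj⟩), h⟩
  exfalso
  have hP' : A ∩ P = ∅ ∨ A ∩ P = P := by
    by_contra h
    push Not at h
    exact hAP ⟨h.1, h.2⟩
  have hQ' : A ∩ Q = ∅ ∨ A ∩ Q = Q := by
    by_contra h
    push Not at h
    exact hAQ ⟨h.1, h.2⟩
  by_cases hxA : x ∈ A
  · have h1 : A ∩ P = P := hP'.resolve_left fun h =>
      Finset.notMem_empty x (h ▸ Finset.mem_inter.2 ⟨hxA, hx.1⟩)
    have h2 : A ∩ Q = Q := hQ'.resolve_left fun h =>
      Finset.notMem_empty x (h ▸ Finset.mem_inter.2 ⟨hxA, hx.2⟩)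
    refine hneA (Finset.Subset.antisymm hA (Finset.union_subset ?_ ?_))
    · rw [← h1]; exact Finset.inter_subset_left
    · rw [← h2]; exact Finset.inter_subset_left
  · have h1 : A ∩ P = ∅ := hP'.resolve_right fun h =>
      hxA (Finset.mem_inter.1 (h.symm ▸ hx.1 : x ∈ A ∩ P)).1
    have h2 : A ∩ Q = ∅ := hQ'.resolve_right fun h =>
      hxA (Finset.mem_inter.1 (h.symm ▸ hx.2 : x ∈ A ∩ Q)).1
    obtain ⟨y, hy⟩ := hne
    rcases Finset.mem_union.1 (hA hy) with h | h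
    · exact Finset.notMem_empty y (h1 ▸ Finset.mem_inter.2 ⟨hy, h⟩)
    · exact Finset.notMem_empty y (h2 ▸ Finset.mem_inter.2 ⟨hy, h⟩)

/-- Two connected sets joined by one contact have a connected union. -/
theorem CutConn.union_of_edge {P Q : Finset J} {R : J → J → Prop} (hP : CutConn P R)
    (hQ : CutConn Q R) {i j : J} (hi : i ∈ P) (hj : j ∈ Q) (h : R i j ∨ R j i) :
    CutConn (P ∪ Q) R := by
  have h1 : CutConn (insert j P) R := by
    refine ⟨⟨j, Finset.mem_insert_self j P⟩, fun A hA hne hneA => ?_⟩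
    by_cases hjA : j ∈ A
    · by_cases hAP : (A ∩ P).Nonempty
      · by_cases hAP' : A ∩ P = P
        · exfalso
          refine hneA (Finset.Subset.antisymm hA (Finset.insert_subset hjA ?_))
          rw [← hAP']; exact Finset.inter_subset_left
        · obtain ⟨a, ha, b, hb, hbA, hR⟩ := hP.2 (A ∩ P) Finset.inter_subset_right hAP hAP'
          rw [Finset.mem_inter] at ha
          exact ⟨a, ha.1, b, Finset.mem_insert_of_mem hb,
            fun h' => hbA (Finset.mem_inter.2 ⟨h', hb⟩), hR⟩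
      · refine ⟨j, hjA, i, Finset.mem_insert_of_mem hi, fun h' => hAP ⟨i,
          Finset.mem_inter.2 ⟨h', hi⟩⟩, h.symm⟩
    · by_cases hAP : A = P
      · subst hAP
        exact ⟨i, hi, j, Finset.mem_insert_self j A, hjA, h⟩
      · have hAP' : A ⊆ P := fun x hx => (Finset.mem_insert.1 (hA hx)).resolve_left
          fun h' => hjA (h' ▸ hx)
        obtain ⟨a, ha, b, hb, hbA, hR⟩ := hP.2 A hAP' hne hAP
        exact ⟨a, ha, b, Finset.mem_insert_of_mem hb, hbA, hR⟩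
  have h2 := h1.union hQ ⟨j, Finset.mem_inter.2 ⟨Finset.mem_insert_self j P, hj⟩⟩
  have h3 : insert j P ∪ Q = P ∪ Q := by
    ext x
    simp only [Finset.mem_union, Finset.mem_insert]
    constructor
    · rintro ((rfl | h) | h)
      · exact Or.inr hj
      · exact Or.inl h
      · exact Or.inr h
    · rintro (h | h)
      · exact Or.inl (Or.inr h)
      · exact Or.inr h
  rw [h3] at h2
  exact h2

/-- `e` is an edge between two different elements of `P` which is not inside `P'`. -/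
def outE (E : Finset (J × J)) (P' : Finset J) : Finset (J × J) :=
  E.filter fun e => ¬ (e.1 ∈ P' ∧ e.2 ∈ P')

/-- **Counting**: if the edges `E` connect `P`, then at least `|P \ P'|` of them are not inside the
nonempty part `P'`. -/
theorem card_le_outE {P : Finset J} {E : Finset (J × J)}
    (hE : CutConn P fun i j => (i, j) ∈ E) : ∀ (n : ℕ) (P' : Finset J), P' ⊆ P → P'.Nonempty →
      (P \ P').card = n → n ≤ (outE E P').card := by
  intro n
  induction n with
  | zero => intro P' _ _ _; exact Nat.zero_le _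
  | succ n ih =>
    intro P' hP' hne hcard
    have hneP : P' ≠ P := by
      rintro rfl
      simp at hcard
    obtain ⟨i, hi, j, hj, hjP', h⟩ := hE.2 P' hP' hne hneP
    have h1 : insert j P' ⊆ P := Finset.insert_subset hj hP'
    have h2 : (P \ insert j P').card = n := by
      have h3 : P \ insert j P' = (P \ P').erase j := by
        ext x
        simp only [Finset.mem_sdiff, Finset.mem_insert, Finset.mem_erase, not_or]
        tauto
      rw [h3, Finset.card_erase_of_mem (Finset.mem_sdiff.2 ⟨hj, hjP'⟩), hcard]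
      rfl
    have h4 := ih (insert j P') h1 ⟨j, Finset.mem_insert_self j P'⟩ h2
    obtain ⟨e, heE, heP', hein⟩ : ∃ e ∈ E, ¬ (e.1 ∈ P' ∧ e.2 ∈ P') ∧
        (e.1 ∈ insert j P' ∧ e.2 ∈ insert j P') := by
      rcases h with h | h
      · exact ⟨(i, j), h, fun h' => hjP' h'.2, Finset.mem_insert_of_mem hi,
          Finset.mem_insert_self j P'⟩
      · exact ⟨(j, i), h, fun h' => hjP' h'.1, Finset.mem_insert_self j P',
          Finset.mem_insert_of_mem hi⟩
    have h5 : outE E (insert j P') ⊂ outE E P' := by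
      rw [Finset.ssubset_iff_of_subset]
      · refine ⟨e, Finset.mem_filter.2 ⟨heE, heP'⟩, fun h' => (Finset.mem_filter.1 h').2 hein⟩
      · intro e' he'
        rw [outE, Finset.mem_filter] at he' ⊢
        exact ⟨he'.1, fun h' => he'.2 ⟨Finset.mem_insert_of_mem h'.1,
          Finset.mem_insert_of_mem h'.2⟩⟩
    exact Nat.succ_le_of_lt (h4.trans_lt (Finset.card_lt_card h5))

/-- A connected set has at most one more vertex than proper edges. -/
theorem card_le_of_cutConn {P : Finset J} {E : Finset (J × J)}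
    (hE : CutConn P fun i j => (i, j) ∈ E) : P.card ≤ E.card + 1 := by
  obtain ⟨x, hx⟩ := hE.1
  have h1 := card_le_outE hE _ {x} (Finset.singleton_subset_iff.2 hx)
    (Finset.singleton_nonempty x) rfl
  rw [Finset.card_sdiff_of_subset (Finset.singleton_subset_iff.2 hx), Finset.card_singleton] at h1
  have h2 : (outE E {x}).card ≤ E.card := Finset.card_le_card (Finset.filter_subset _ _)
  omega

/-! ## Tree-like timed contacts -/

/-- Tree-like timed contacts: `|P| - 1` edges, one window of half-length `ℓ` for each edge,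
windows separated by `ς`. -/
def TLg (P : Finset J) (c : J → J → ℝ → Prop) (ℓ ς : ℝ) : Prop :=
  ∃ (E : Finset (J × J)) (σ : J × J → ℝ), E.card + 1 = P.card ∧
    (∀ e ∈ E, e.1 ∈ P ∧ e.2 ∈ P ∧ e.1 ≠ e.2) ∧
    (∀ e ∈ E, ∀ e' ∈ E, e ≠ e' → ς < |σ e - σ e'|) ∧
    (∀ i ∈ P, ∀ j ∈ P, i ≠ j → ∀ t, c i j t →
      ∃ e ∈ E, (e = (i, j) ∨ e = (j, i)) ∧ |t - σ e| ≤ ℓ)

variable {P : Finset J} {c : J → J → ℝ → Prop} {ℓ ς : ℝ}

omit [DecidableEq J] in
theorem TLg.mono (h : TLg P c ℓ ς) {c' : J → J → ℝ → Prop}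
    (hc : ∀ i ∈ P, ∀ j ∈ P, i ≠ j → ∀ t, c' i j t → c i j t) : TLg P c' ℓ ς := by
  obtain ⟨E, σ, h1, h2, h3, h4⟩ := h
  exact ⟨E, σ, h1, h2, h3, fun i hi j hj hij t ht => h4 i hi j hj hij t (hc i hi j hj hij t ht)⟩

omit [DecidableEq J] in
theorem TLg.symm_c (h : TLg P c ℓ ς) : TLg P (fun i j t => c i j t ∨ c j i t) ℓ ς := by
  obtain ⟨E, σ, h1, h2, h3, h4⟩ := h
  refine ⟨E, σ, h1, h2, h3, fun i hi j hj hij t ht => ?_⟩
  rcases ht with ht | ht
  · exact h4 i hi j hj hij t ht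
  · obtain ⟨e, he, he', h⟩ := h4 j hj i hi hij.symm t ht
    exact ⟨e, he, he'.symm, h⟩

/-- Edge windows: which edge of the tree an unordered pair is. -/
theorem TLg.two_windows (h : TLg P c ℓ ς) {i j k l : J} {t t' : ℝ}
    (hi : i ∈ P) (hj : j ∈ P) (hij : i ≠ j) (hk : k ∈ P) (hl : l ∈ P) (hkl : k ≠ l)
    (h1 : c i j t) (h2 : c k l t') (htt : |t - t'| ≤ ς - 2 * ℓ) :
    (i = k ∧ j = l) ∨ (i = l ∧ j = k) := by
  obtain ⟨E, σ, hE, hE2, hE3, hE4⟩ := h
  obtain ⟨e, he, he', h3⟩ := hE4 i hi j hj hij t h1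
  obtain ⟨f, hf, hf', h4⟩ := hE4 k hk l hl hkl t' h2
  have hef : e = f := by
    by_contra hne
    have h5 := hE3 e he f hf hne
    have h6 : |σ e - σ f| ≤ |σ e - t| + |t - t'| + |t' - σ f| := by
      have h7 := abs_sub_le (σ e) t (σ f)
      have h8 := abs_sub_le t t' (σ f)
      linarith
    rw [abs_sub_comm (σ e) t] at h6
    linarith
  subst hef
  rcases he' with rfl | rfl <;> rcases hf' with h7 | h7 <;> · rw [Prod.mk.injEq] at h7; tauto

/-- Two contacts of the same pair are within `2 ℓ`, if the pair is contained in `P`. -/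
theorem TLg.two_times (h : TLg P c ℓ ς) {i j : J} {t t' : ℝ}
    (hi : i ∈ P) (hj : j ∈ P) (hij : i ≠ j)
    (hconn : CutConn P fun i j => ∃ t, c i j t) (h1 : c i j t) (h2 : c i j t') :
    |t - t'| ≤ 2 * ℓ := by
  obtain ⟨E, σ, hE, hE2, hE3, hE4⟩ := h
  obtain ⟨e, he, he', h3⟩ := hE4 i hi j hj hij t h1
  obtain ⟨f, hf, hf', h4⟩ := hE4 i hi j hj hij t' h2
  have hef : e = f := by
    -- otherwise both `(i,j)` and `(j,i)` are edges: too many
    by_contra hne
    have hE' : CutConn P fun a b => (a, b) ∈ E.erase f := by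
      refine hconn.mono fun a ha b hb hab hc => ?_
      obtain ⟨t, ht⟩ := hc
      obtain ⟨g, hg, hg', _⟩ := hE4 a ha b hb hab t ht
      by_cases hgf : g = f
      · subst hgf
        -- replace `f` by `e`
        have : ((a, b) = e ∨ (b, a) = e) := by
          rcases he' with rfl | rfl <;> rcases hf' with rfl | rfl <;>
            rcases hg' with h | h <;> simp_all
        rcases this with h | h
        · exact Or.inl (h ▸ Finset.mem_erase.2 ⟨hne, he⟩)
        · exact Or.inr (h ▸ Finset.mem_erase.2 ⟨hne, he⟩)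
      · rcases hg' with rfl | rfl
        · exact Or.inl (Finset.mem_erase.2 ⟨hgf, hg⟩)
        · exact Or.inr (Finset.mem_erase.2 ⟨hgf, hg⟩)
    have h5 := card_le_of_cutConn hE'
    rw [Finset.card_erase_of_mem hf] at h5
    have h6 : 0 < E.card := Finset.card_pos.2 ⟨f, hf⟩
    omega
  subst hef
  have h6 : |t - t'| ≤ |t - σ e| + |t' - σ e| := by
    rw [abs_sub_comm t' (σ e)]
    exact abs_sub_le _ _ _
  linarith

/-- Edges of `E` realised by a relation `F`. -/
def realE (E : Finset (J × J)) (F : J → J → Prop) [DecidableRel F] : Finset (J × J) :=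
  E.filter fun e => F e.1 e.2 ∨ F e.2 e.1

open scoped Classical in
/-- **(G3)** If a family `F` of contacts connects the tree-like set `P`, every contact is in `F`. -/
theorem TLg.mem_of_cutConn (h : TLg P c ℓ ς) {F : J → J → Prop} (hF : CutConn P F)
    (hFc : ∀ i ∈ P, ∀ j ∈ P, i ≠ j → F i j → ∃ t, c i j t ∨ c j i t)
    {j k : J} (hj : j ∈ P) (hk : k ∈ P) (hjk : j ≠ k) {t : ℝ} (hc : c j k t) :
    F j k ∨ F k j := by
  obtain ⟨E, σ, hE, hE2, hE3, hE4⟩ := h.symm_c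
  have h1 : CutConn P fun a b => (a, b) ∈ realE E F := by
    refine hF.mono fun a ha b hb hab hab' => ?_
    obtain ⟨t, ht⟩ := hFc a ha b hb hab hab'
    obtain ⟨g, hg, hg', _⟩ := hE4 a ha b hb hab t ht
    rcases hg' with rfl | rfl
    · exact Or.inl (Finset.mem_filter.2 ⟨hg, Or.inl hab'⟩)
    · exact Or.inr (Finset.mem_filter.2 ⟨hg, Or.inr hab'⟩)
  have h2 := card_le_of_cutConn h1
  have h3 : realE E F = E := by
    refine Finset.eq_of_subset_of_card_le (Finset.filter_subset _ _) ?_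
    omega
  obtain ⟨e, he, he', _⟩ := hE4 j hj k hk hjk t (Or.inl hc)
  rw [← h3] at he
  have h4 := (Finset.mem_filter.1 he).2
  rcases he' with rfl | rfl
  · exact h4
  · exact h4.symm

open scoped Classical in
/-- **(G6)** Two connected parts `P₁`, `P₂` of a tree-like connected set with disjoint edge sets have
at most one common vertex. -/
theorem TLg.card_inter_le_one (h : TLg P c ℓ ς) (hconn : CutConn P fun i j => ∃ t, c i j t)
    {P₁ P₂ : Finset J} (hP₁ : P₁ ⊆ P) (hP₂ : P₂ ⊆ P) {F₁ F₂ : J → J → Prop}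
    (h₁ : CutConn P₁ F₁) (h₂ : CutConn P₂ F₂)
    (hF₁ : ∀ i ∈ P₁, ∀ j ∈ P₁, i ≠ j → F₁ i j → ∃ t, c i j t ∨ c j i t)
    (hF₂ : ∀ i ∈ P₂, ∀ j ∈ P₂, i ≠ j → F₂ i j → ∃ t, c i j t ∨ c j i t)
    (hdis : ∀ i ∈ P₁ ∩ P₂, ∀ j ∈ P₁ ∩ P₂, i ≠ j → (F₁ i j ∨ F₁ j i) → ¬ (F₂ i j ∨ F₂ j i)) :
    (P₁ ∩ P₂).card ≤ 1 := by
  by_cases hint : (P₁ ∩ P₂).Nonempty
  swap
  · rw [Finset.not_nonempty_iff_eq_empty.1 hint]; simp
  obtain ⟨E, σ, hE, hE2, hE3, hE4⟩ := h.symm_c
  set E₁ := E.filter fun e => (e.1 ∈ P₁ ∧ e.2 ∈ P₁) ∧ (F₁ e.1 e.2 ∨ F₁ e.2 e.1) with hE₁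
  set E₂ := E.filter fun e => (e.1 ∈ P₂ ∧ e.2 ∈ P₂) ∧ (F₂ e.1 e.2 ∨ F₂ e.2 e.1) with hE₂
  set E₃ := outE E (P₁ ∪ P₂) with hE₃
  have c₁ : P₁.card ≤ E₁.card + 1 := by
    refine card_le_of_cutConn (h₁.mono fun a ha b hb hab hF => ?_)
    obtain ⟨t, ht⟩ := hF₁ a ha b hb hab hF
    obtain ⟨g, hg, hg', _⟩ := hE4 a (hP₁ ha) b (hP₁ hb) hab t ht
    rcases hg' with rfl | rfl
    · exact Or.inl (Finset.mem_filter.2 ⟨hg, ⟨ha, hb⟩, Or.inl hF⟩)
    · exact Or.inr (Finset.mem_filter.2 ⟨hg, ⟨hb, ha⟩, Or.inr hF⟩)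
  have c₂ : P₂.card ≤ E₂.card + 1 := by
    refine card_le_of_cutConn (h₂.mono fun a ha b hb hab hF => ?_)
    obtain ⟨t, ht⟩ := hF₂ a ha b hb hab hF
    obtain ⟨g, hg, hg', _⟩ := hE4 a (hP₂ ha) b (hP₂ hb) hab t ht
    rcases hg' with rfl | rfl
    · exact Or.inl (Finset.mem_filter.2 ⟨hg, ⟨ha, hb⟩, Or.inl hF⟩)
    · exact Or.inr (Finset.mem_filter.2 ⟨hg, ⟨hb, ha⟩, Or.inr hF⟩)
  have c₃ : (P \ (P₁ ∪ P₂)).card ≤ E₃.card := by
    refine card_le_outE (P := P) (hconn.mono fun a ha b hb hab hF => ?_) _ (P₁ ∪ P₂)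
      (Finset.union_subset hP₁ hP₂) (h₁.1.mono Finset.subset_union_left) rfl
    obtain ⟨t, ht⟩ := hF
    obtain ⟨g, hg, hg', _⟩ := hE4 a ha b hb hab t (Or.inl ht)
    rcases hg' with rfl | rfl
    · exact Or.inl hg
    · exact Or.inr hg
  have d12 : Disjoint E₁ E₂ := by
    rw [Finset.disjoint_left]
    intro e he1 he2
    have h1 := (Finset.mem_filter.1 he1)
    have h2 := (Finset.mem_filter.1 he2)
    exact hdis e.1 (Finset.mem_inter.2 ⟨h1.2.1.1, h2.2.1.1⟩) e.2
      (Finset.mem_inter.2 ⟨h1.2.1.2, h2.2.1.2⟩) (hE2 e h1.1).2.2 h1.2.2 h2.2.2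
  have d3 : Disjoint (E₁ ∪ E₂) E₃ := by
    rw [Finset.disjoint_left]
    intro e he1 he2
    have h2 := (Finset.mem_filter.1 he2).2
    rcases Finset.mem_union.1 he1 with h1 | h1
    · have h3 := (Finset.mem_filter.1 h1).2.1
      exact h2 ⟨Finset.mem_union_left _ h3.1, Finset.mem_union_left _ h3.2⟩
    · have h3 := (Finset.mem_filter.1 h1).2.1
      exact h2 ⟨Finset.mem_union_right _ h3.1, Finset.mem_union_right _ h3.2⟩
  have hsub : E₁ ∪ E₂ ∪ E₃ ⊆ E := Finset.union_subset (Finset.union_subset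
    (Finset.filter_subset _ _) (Finset.filter_subset _ _)) (Finset.filter_subset _ _)
  have hcard := Finset.card_le_card hsub
  rw [Finset.card_union_of_disjoint d3, Finset.card_union_of_disjoint d12] at hcard
  have h5 : (P \ (P₁ ∪ P₂)).card = P.card - (P₁ ∪ P₂).card :=
    Finset.card_sdiff_of_subset (Finset.union_subset hP₁ hP₂)
  have h6 : (P₁ ∪ P₂).card ≤ P.card := Finset.card_le_card (Finset.union_subset hP₁ hP₂)
  have h7 := Finset.card_union_add_card_inter P₁ P₂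
  omega

/-- **(G4)** In a tree-like connected set, a connected part `S`, and a connected set `Q` outside `S`
which is in contact with two different members of `S`: impossible. -/
theorem TLg.not_outer_path (h : TLg P c ℓ ς) (hconn : CutConn P fun i j => ∃ t, c i j t)
    {S Q : Finset J} (hS : S ⊆ P) (hQ : Q ⊆ P) (hSQ : Disjoint S Q)
    (hSc : CutConn S fun i j => ∃ t, c i j t) (hQc : CutConn Q fun i j => ∃ t, c i j t)
    {u v x y : J} (hu : u ∈ S) (hv : v ∈ S) (huv : u ≠ v) (hx : x ∈ Q) (hy : y ∈ Q)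
    (hux : ∃ t, c u x t ∨ c x u t) (hvy : ∃ t, c v y t ∨ c y v t) : False := by
  have hd := Finset.disjoint_left.1 hSQ
  have hsym : ∀ {a b : J}, (∃ t, c a b t ∨ c b a t) → (∃ t, c a b t) ∨ ∃ t, c b a t := by
    rintro a b ⟨t, ht | ht⟩
    · exact Or.inl ⟨t, ht⟩
    · exact Or.inr ⟨t, ht⟩
  -- `Q ∪ {u, v}` is connected by contacts with an end in `Q`
  set F₂ : J → J → Prop := fun i j => (∃ t, c i j t) ∧ (i ∈ Q ∨ j ∈ Q) with hF₂
  have hQ2 : CutConn Q F₂ := hQc.mono fun a ha b _ _ hF => Or.inl ⟨hF, Or.inl ha⟩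
  have h1 : CutConn ({u} ∪ Q) F₂ := by
    refine (cutConn_singleton u F₂).union_of_edge hQ2 (Finset.mem_singleton_self u) hx ?_
    rcases hsym hux with h' | h'
    · exact Or.inl ⟨h', Or.inr hx⟩
    · exact Or.inr ⟨h', Or.inl hx⟩
  have h2 : CutConn ({v} ∪ ({u} ∪ Q)) F₂ := by
    refine (cutConn_singleton v F₂).union_of_edge h1 (Finset.mem_singleton_self v)
      (Finset.mem_union_right _ hy) ?_
    rcases hsym hvy with h' | h'
    · exact Or.inl ⟨h', Or.inr hy⟩
    · exact Or.inr ⟨h', Or.inl hy⟩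
  have h3 := h.card_inter_le_one hconn (P₁ := S) (P₂ := {v} ∪ ({u} ∪ Q)) hS ?_ hSc h2
    (fun i _ j _ _ hF => by obtain ⟨t, ht⟩ := hF; exact ⟨t, Or.inl ht⟩)
    (fun i _ j _ _ hF => by obtain ⟨t, ht⟩ := hF.1; exact ⟨t, Or.inl ht⟩) ?_
  · have h4 : ({u, v} : Finset J) ⊆ S ∩ ({v} ∪ ({u} ∪ Q)) := by
      intro z hz
      rw [Finset.mem_insert, Finset.mem_singleton] at hz
      rcases hz with rfl | rfl
      · exact Finset.mem_inter.2 ⟨hu, by simp⟩
      · exact Finset.mem_inter.2 ⟨hv, by simp⟩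
    have h5 := Finset.card_le_card h4
    rw [Finset.card_pair huv] at h5
    omega
  · intro z hz
    simp only [Finset.mem_union, Finset.mem_singleton] at hz
    rcases hz with rfl | rfl | hz
    · exact hS hv
    · exact hS hu
    · exact hQ hz
  · intro i hi j hj hij _ hF
    have hiS := (Finset.mem_inter.1 hi).1
    have hjS := (Finset.mem_inter.1 hj).1
    rcases hF with hF | hF
    · rcases hF.2 with h' | h'
      · exact hd hiS h'
      · exact hd hjS h'
    · rcases hF.2 with h' | h'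
      · exact hd hjS h'
      · exact hd hiS h'

open scoped Classical in
/-- Restriction of a tree-like structure to a connected part. -/
theorem TLg.sub (h : TLg P c ℓ ς) (hconn : CutConn P fun i j => ∃ t, c i j t)
    {S : Finset J} (hS : S ⊆ P) (hSc : CutConn S fun i j => ∃ t, c i j t) : TLg S c ℓ ς := by
  obtain ⟨E, σ, hE, hE2, hE3, hE4⟩ := h
  set E₁ := E.filter fun e => e.1 ∈ S ∧ e.2 ∈ S with hE₁
  have c₁ : S.card ≤ E₁.card + 1 := by
    refine card_le_of_cutConn (hSc.mono fun a ha b hb hab hF => ?_)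
    obtain ⟨t, ht⟩ := hF
    obtain ⟨g, hg, hg', _⟩ := hE4 a (hS ha) b (hS hb) hab t ht
    rcases hg' with rfl | rfl
    · exact Or.inl (Finset.mem_filter.2 ⟨hg, ha, hb⟩)
    · exact Or.inr (Finset.mem_filter.2 ⟨hg, hb, ha⟩)
  have c₃ : (P \ S).card ≤ (outE E S).card := by
    refine card_le_outE (P := P) (hconn.mono fun a ha b hb hab hF => ?_) _ S hS hSc.1 rfl
    obtain ⟨t, ht⟩ := hF
    obtain ⟨g, hg, hg', _⟩ := hE4 a ha b hb hab t ht
    rcases hg' with rfl | rfl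
    · exact Or.inl hg
    · exact Or.inr hg
  have h4 : E₁.card + (outE E S).card = E.card := by
    rw [hE₁, outE]
    exact Finset.card_filter_add_card_filter_not (s := E) fun e => e.1 ∈ S ∧ e.2 ∈ S
  have h5 : (P \ S).card = P.card - S.card := Finset.card_sdiff_of_subset hS
  have h6 : S.card ≤ P.card := Finset.card_le_card hS
  have h7 : 0 < S.card := Finset.card_pos.2 hSc.1
  refine ⟨E₁, σ, by omega, fun e he => ?_, fun e he e' he' => ?_, fun i hi j hj hij t ht => ?_⟩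
  · have := Finset.mem_filter.1 he
    exact ⟨this.2.1, this.2.2, (hE2 e this.1).2.2⟩
  · exact hE3 e (Finset.mem_filter.1 he).1 e' (Finset.mem_filter.1 he').1
  · obtain ⟨e, he, he', h⟩ := hE4 i (hS hi) j (hS hj) hij t ht
    refine ⟨e, Finset.mem_filter.2 ⟨he, ?_⟩, he', h⟩
    rcases he' with rfl | rfl
    · exact ⟨hi, hj⟩
    · exact ⟨hj, hi⟩

/-! ## Cuts, acyclicity, separation of times -/

/-- **Cut form of acyclicity**: every related pair is the only related pair across some cut. -/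
def CutAcyclic (P : Finset J) (R : J → J → Prop) : Prop :=
  ∀ j ∈ P, ∀ k ∈ P, j ≠ k → R j k → ∃ Q ⊆ P, j ∈ Q ∧ k ∉ Q ∧
    ∀ x ∈ Q, ∀ y ∈ P, y ∉ Q → (R x y ∨ R y x) → x = j ∧ y = k

/-- **Cut form**: a contact of a tree-like connected set is the only contact across some cut. -/
theorem TLg.cut (h : TLg P c ℓ ς) (hconn : CutConn P fun i j => ∃ t, c i j t) :
    CutAcyclic P fun i j => ∃ t, c i j t := by
  intro j hj k hk hjk hc
  obtain ⟨t, hc⟩ := hc
  obtain ⟨E, σ, hE, hE2, hE3, hE4⟩ := h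
  obtain ⟨e, he, he', _⟩ := hE4 j hj k hk hjk t hc
  -- the other edges do not connect `P`
  have h1 : ¬ CutConn P fun a b => (a, b) ∈ E.erase e := by
    intro h1
    have h2 := card_le_of_cutConn h1
    rw [Finset.card_erase_of_mem he] at h2
    have h3 : 0 < E.card := Finset.card_pos.2 ⟨e, he⟩
    omega
  unfold CutConn at h1
  push Not at h1
  obtain ⟨Q, hQ, hne, hneP, hno⟩ := h1 hconn.1
  -- all contacts across `Q` are along `e`
  have h2 : ∀ x ∈ Q, ∀ y ∈ P, y ∉ Q → ((∃ t, c x y t) ∨ ∃ t, c y x t) →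
      (e = (x, y) ∨ e = (y, x)) := by
    intro x hx y hy hyQ hxy
    have hxy' : x ≠ y := fun h => hyQ (h ▸ hx)
    obtain ⟨g, hg, hg'⟩ : ∃ g ∈ E, (g = (x, y) ∨ g = (y, x)) := by
      rcases hxy with ⟨t, ht⟩ | ⟨t, ht⟩
      · obtain ⟨g, hg, hg', _⟩ := hE4 x (hQ hx) y hy hxy' t ht
        exact ⟨g, hg, hg'⟩
      · obtain ⟨g, hg, hg', _⟩ := hE4 y hy x (hQ hx) hxy'.symm t ht
        exact ⟨g, hg, hg'.symm⟩
    have h3 := hno x hx y hy hyQ
    have hge : g = e := by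
      by_contra hne
      rcases hg' with rfl | rfl
      · exact h3.1 (Finset.mem_erase.2 ⟨hne, hg⟩)
      · exact h3.2 (Finset.mem_erase.2 ⟨hne, hg⟩)
    rw [← hge]
    exact hg'
  -- the cut separates `j` and `k`
  obtain ⟨x, hx, y, hy, hyQ, hxy⟩ := hconn.2 Q hQ hne hneP
  have h3 := h2 x hx y hy hyQ hxy
  have h4 : (x = j ∧ y = k) ∨ (x = k ∧ y = j) := by
    rcases he' with rfl | rfl <;> rcases h3 with h3 | h3 <;>
      · rw [Prod.mk.injEq] at h3; obtain ⟨rfl, rfl⟩ := h3; simp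
  rcases h4 with ⟨rfl, rfl⟩ | ⟨rfl, rfl⟩
  · refine ⟨Q, hQ, hx, hyQ, fun a ha b hb hbQ hab => ?_⟩
    have h5 := h2 a ha b hb hbQ hab
    rcases he' with rfl | rfl <;> rcases h5 with h5 | h5 <;>
      · rw [Prod.mk.injEq] at h5
        obtain ⟨h6, h7⟩ := h5
        first
          | exact ⟨h6.symm, h7.symm⟩
          | exact ⟨h7.symm, h6.symm⟩
          | (exfalso; subst h6; subst h7; first | exact hbQ hx | exact hyQ ha | exact hyQ hx)
  · refine ⟨P \ Q, Finset.sdiff_subset, Finset.mem_sdiff.2 ⟨hy, hyQ⟩,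
      fun h => (Finset.mem_sdiff.1 h).2 hx, fun a ha b hb hbQ hab => ?_⟩
    have haQ := (Finset.mem_sdiff.1 ha).2
    have haP := (Finset.mem_sdiff.1 ha).1
    have hbQ' : b ∈ Q := by
      by_contra hb'
      exact hbQ (Finset.mem_sdiff.2 ⟨hb, hb'⟩)
    have h5 := h2 b hbQ' a haP haQ hab.symm
    rcases he' with rfl | rfl <;> rcases h5 with h5 | h5 <;>
      · rw [Prod.mk.injEq] at h5
        obtain ⟨h6, h7⟩ := h5
        first
          | exact ⟨h6.symm, h7.symm⟩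
          | exact ⟨h7.symm, h6.symm⟩
          | (exfalso; subst h6; subst h7; first | exact haQ hx | exact hyQ hbQ' | exact hyQ hx)

/-- The contact graph. -/
def cgraph (P : Finset J) (R : J → J → Prop) : SimpleGraph J where
  Adj i j := i ≠ j ∧ i ∈ P ∧ j ∈ P ∧ (R i j ∨ R j i)
  symm := ⟨fun _ _ h => ⟨h.1.symm, h.2.2.1, h.2.1, h.2.2.2.symm⟩⟩
  loopless := ⟨fun _ h => h.1 rfl⟩

theorem cgraph_adj {P : Finset J} {R : J → J → Prop} {i j : J} :
    (cgraph P R).Adj i j ↔ i ≠ j ∧ i ∈ P ∧ j ∈ P ∧ (R i j ∨ R j i) := Iff.rfl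

/-- The cut form implies that the contact graph is acyclic. -/
theorem CutAcyclic.isAcyclic {P : Finset J} {R : J → J → Prop} (h : CutAcyclic P R) :
    (cgraph P R).IsAcyclic := by
  rw [SimpleGraph.isAcyclic_iff_forall_adj_isBridge]
  have key : ∀ ⦃v w : J⦄, v ≠ w → v ∈ P → w ∈ P → R v w → (cgraph P R).IsBridge s(v, w) := by
    intro v w hvw hv hw hR
    rw [SimpleGraph.isBridge_iff]
    rintro ⟨p⟩
    obtain ⟨Q, hQ, hvQ, hwQ, hcut⟩ := h v hv w hw hvw hR
    obtain ⟨d, hd, hd1, hd2⟩ := p.exists_boundary_dart (Q : Set J) hvQ hwQ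
    have hadj := d.adj
    rw [SimpleGraph.deleteEdges_adj] at hadj
    obtain ⟨hadj1, hadj2⟩ := hadj
    rw [cgraph_adj] at hadj1
    obtain ⟨h1, h2⟩ := hcut d.fst hd1 d.snd hadj1.2.2.1 hd2 hadj1.2.2.2
    refine hadj2 ?_
    rw [h1, h2]
    exact Set.mem_singleton _
  intro v w hadj
  rcases hadj.2.2.2 with h1 | h1
  · exact key hadj.1 hadj.2.1 hadj.2.2.1 h1
  · rw [Sym2.eq_swap]
    exact key hadj.1.symm hadj.2.2.1 hadj.2.1 h1

/-- An acyclic contact graph has the cut form. -/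
theorem cutAcyclic_of_isAcyclic {P : Finset J} {R : J → J → Prop}
    (h : (cgraph P R).IsAcyclic) : CutAcyclic P R := by
  classical
  intro j hj k hk hjk hR
  rw [SimpleGraph.isAcyclic_iff_forall_adj_isBridge] at h
  have h1 := h (v := j) (w := k) ⟨hjk, hj, hk, Or.inl hR⟩
  rw [SimpleGraph.isBridge_iff] at h1
  set G := (cgraph P R).deleteEdges {s(j, k)} with hG
  refine ⟨P.filter fun x => G.Reachable j x, Finset.filter_subset _ _,
    Finset.mem_filter.2 ⟨hj, SimpleGraph.Reachable.refl j⟩,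
    fun h' => h1 (Finset.mem_filter.1 h').2, fun x hx y hy hyQ hxy => ?_⟩
  rw [Finset.mem_filter] at hx
  have hne : x ≠ y := fun h' => hyQ (Finset.mem_filter.2 ⟨hy, h' ▸ hx.2⟩)
  by_contra hno
  have hadj : G.Adj x y := by
    rw [hG, SimpleGraph.deleteEdges_adj]
    refine ⟨⟨hne, hx.1, hy, hxy⟩, fun h' => ?_⟩
    rw [Set.mem_singleton_iff, Sym2.eq_iff] at h'
    rcases h' with h' | h'
    · exact hno h'
    · exact h1 (h'.1 ▸ hx.2)
  exact hyQ (Finset.mem_filter.2 ⟨hy, hx.2.trans hadj.reachable⟩)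

section cut

variable {R : J → J → Prop}

/-- **(G3)**, cut form: if related pairs `F` connect `P`, every related pair is in `F`. -/
theorem CutAcyclic.mem_of_cutConn (h : CutAcyclic P R) {F : J → J → Prop} (hF : CutConn P F)
    (hFR : ∀ i ∈ P, ∀ j ∈ P, i ≠ j → F i j → R i j ∨ R j i)
    {j k : J} (hj : j ∈ P) (hk : k ∈ P) (hjk : j ≠ k) (hR : R j k) : F j k ∨ F k j := by
  obtain ⟨Q, hQ, hjQ, hkQ, hcut⟩ := h j hj k hk hjk hR
  obtain ⟨x, hx, y, hy, hyQ, hxy⟩ := hF.2 Q hQ ⟨j, hjQ⟩ fun h' => hkQ (h' ▸ hk)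
  have hne : x ≠ y := fun h' => hyQ (h' ▸ hx)
  have h1 : R x y ∨ R y x := by
    rcases hxy with h' | h'
    · exact hFR x (hQ hx) y hy hne h'
    · exact (hFR y hy x (hQ hx) hne.symm h').symm
  obtain ⟨rfl, rfl⟩ := hcut x hx y hy hyQ h1
  exact hxy

/-- A connected set which does not contain both ends of the pair lies on one side of the cut. -/
theorem subset_or_disjoint_of_cut {Q S : Finset J} {j k : J} (hS : S ⊆ P) (hSc : CutConn S R)
    (hcut : ∀ x ∈ Q, ∀ y ∈ P, y ∉ Q → (R x y ∨ R y x) → x = j ∧ y = k)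
    (hjk : ¬ (j ∈ S ∧ k ∈ S)) : S ⊆ Q ∨ Disjoint S Q := by
  by_cases h1 : (S ∩ Q).Nonempty
  · by_cases h2 : S ∩ Q = S
    · left; rw [← h2]; exact Finset.inter_subset_right
    · exfalso
      obtain ⟨x, hx, y, hy, hyQ, hxy⟩ := hSc.2 (S ∩ Q) Finset.inter_subset_left h1 h2
      rw [Finset.mem_inter] at hx
      obtain ⟨rfl, rfl⟩ := hcut x hx.2 y (hS hy)
        (fun h' => hyQ (Finset.mem_inter.2 ⟨hy, h'⟩)) hxy
      exact hjk ⟨hx.1, hy⟩
  · right
    rw [Finset.disjoint_iff_inter_eq_empty, ← Finset.not_nonempty_iff_eq_empty]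
    exact h1

/-- **(G4)**, cut form. -/
theorem CutAcyclic.not_outer_path (h : CutAcyclic P R) {S Q : Finset J} (hS : S ⊆ P) (hQ : Q ⊆ P)
    (hSQ : Disjoint S Q) (hSc : CutConn S R) (hQc : CutConn Q R)
    {u v x y : J} (hu : u ∈ S) (hv : v ∈ S) (huv : u ≠ v) (hx : x ∈ Q) (hy : y ∈ Q)
    (hux : R u x ∨ R x u) (hvy : R v y ∨ R y v) : False := by
  have hd := Finset.disjoint_left.1 hSQ
  have hsym : ∃ A : Finset J, u ∈ A ∧ x ∉ A ∧
      ∀ a ∈ A, ∀ b ∈ P, b ∉ A → (R a b ∨ R b a) → a = u ∧ b = x := by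
    have hux' : u ≠ x := fun h' => hd hu (h' ▸ hx)
    rcases hux with h' | h'
    · obtain ⟨A, hA, h1, h2, h3⟩ := h u (hS hu) x (hQ hx) hux' h'
      exact ⟨A, h1, h2, h3⟩
    · obtain ⟨A, hA, h1, h2, h3⟩ := h x (hQ hx) u (hS hu) hux'.symm h'
      refine ⟨P \ A, Finset.mem_sdiff.2 ⟨hS hu, h2⟩, fun h' => (Finset.mem_sdiff.1 h').2 h1,
        fun a ha b hb hbA hab => ?_⟩
      have hbA' : b ∈ A := by
        by_contra hb'
        exact hbA (Finset.mem_sdiff.2 ⟨hb, hb'⟩)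
      exact (h3 b hbA' a (Finset.mem_sdiff.1 ha).1 (Finset.mem_sdiff.1 ha).2 hab.symm).symm
  obtain ⟨A, huA, hxA, hcut⟩ := hsym
  have hSA : S ⊆ A := by
    rcases subset_or_disjoint_of_cut hS hSc hcut (fun h' => hd h'.2 hx) with h' | h'
    · exact h'
    · exact absurd huA (Finset.disjoint_left.1 h' hu)
  have hQA : Disjoint Q A := by
    rcases subset_or_disjoint_of_cut hQ hQc hcut (fun h' => hd hu h'.1) with h' | h'
    · exact absurd (h' hx) hxA
    · exact h'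
  have h1 := hcut v (hSA hv) y (hQ hy) (Finset.disjoint_left.1 hQA hy) hvy
  exact huv h1.1.symm

theorem reachable_of_cutConn {S : Finset J} {F : J → J → Prop} (hS : CutConn S F) {u v : J}
    (hu : u ∈ S) (hv : v ∈ S) : (cgraph S F).Reachable u v := by
  classical
  by_contra hno
  set Q := S.filter fun x => (cgraph S F).Reachable u x with hQ
  obtain ⟨x, hx, y, hy, hyQ, hxy⟩ := hS.2 Q (Finset.filter_subset _ _)
    ⟨u, Finset.mem_filter.2 ⟨hu, SimpleGraph.Reachable.refl u⟩⟩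
    (fun h' => hno (by
      have : v ∈ Q := h'.symm ▸ hv
      exact (Finset.mem_filter.1 this).2))
  rw [hQ, Finset.mem_filter] at hx
  have hne : x ≠ y := by
    rintro rfl
    exact hyQ (Finset.mem_filter.2 hx)
  have hadj : (cgraph S F).Adj x y := ⟨hne, hx.1, hy, hxy⟩
  exact hyQ (Finset.mem_filter.2 ⟨hy, hx.2.trans hadj.reachable⟩)

/-- **(G6)**, cut form: two connected parts with disjoint edge sets have at most one common
vertex. -/
theorem CutAcyclic.inter_subsingleton (h : CutAcyclic P R) {P₁ P₂ : Finset J} (hP₁ : P₁ ⊆ P)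
    (hP₂ : P₂ ⊆ P) {F₁ F₂ : J → J → Prop} (h₁ : CutConn P₁ F₁) (h₂ : CutConn P₂ F₂)
    (hF₁ : ∀ i ∈ P₁, ∀ j ∈ P₁, i ≠ j → F₁ i j → R i j ∨ R j i)
    (hF₂ : ∀ i ∈ P₂, ∀ j ∈ P₂, i ≠ j → F₂ i j → R i j ∨ R j i)
    (hdis : ∀ i ∈ P₁, i ∈ P₂ → ∀ j ∈ P₁, j ∈ P₂ → i ≠ j → (F₁ i j ∨ F₁ j i) →
      ¬ (F₂ i j ∨ F₂ j i))
    {u v : J} (hu₁ : u ∈ P₁) (hu₂ : u ∈ P₂) (hv₁ : v ∈ P₁) (hv₂ : v ∈ P₂) : u = v := by
  by_contra huv
  have hle₁ : cgraph P₁ F₁ ≤ cgraph P R := by
    intro a b hab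
    refine ⟨hab.1, hP₁ hab.2.1, hP₁ hab.2.2.1, ?_⟩
    rcases hab.2.2.2 with h' | h'
    · exact hF₁ a hab.2.1 b hab.2.2.1 hab.1 h'
    · exact (hF₁ b hab.2.2.1 a hab.2.1 hab.1.symm h').symm
  have hle₂ : cgraph P₂ F₂ ≤ cgraph P R := by
    intro a b hab
    refine ⟨hab.1, hP₂ hab.2.1, hP₂ hab.2.2.1, ?_⟩
    rcases hab.2.2.2 with h' | h'
    · exact hF₂ a hab.2.1 b hab.2.2.1 hab.1 h'
    · exact (hF₂ b hab.2.2.1 a hab.2.1 hab.1.symm h').symm
  obtain ⟨p, hp⟩ := (reachable_of_cutConn h₁ hu₁ hv₁).exists_isPath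
  obtain ⟨q, hq⟩ := (reachable_of_cutConn h₂ hu₂ hv₂).exists_isPath
  have hpq := h.isAcyclic.path_unique ⟨p.mapLe hle₁, hp.mapLe hle₁⟩ ⟨q.mapLe hle₂, hq.mapLe hle₂⟩
  have hpq' : p.mapLe hle₁ = q.mapLe hle₂ := congrArg Subtype.val hpq
  have hedges : p.edges = q.edges := by
    rw [← p.edges_mapLe_eq_edges hle₁, ← q.edges_mapLe_eq_edges hle₂, hpq']
  cases p with
  | nil => exact huv rfl
  | @cons _ w _ hadj p' =>
    have hmem : s(u, w) ∈ q.edges := by
      rw [← hedges]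
      simp
    have hadj2 := q.adj_of_mem_edges hmem
    exact hdis u hadj.2.1 hadj2.2.1 w hadj.2.2.1 hadj2.2.2.1 hadj.1 hadj.2.2.2 hadj2.2.2.2

end cut

/-- Tree-like contacts: times of a pair are separated from the times of the other pairs. -/
theorem TLg.sep (h : TLg P c ℓ ς) (hconn : CutConn P fun i j => ∃ t, c i j t) (hℓς : 2 * ℓ ≤ ς)
    {i j k l : J} {t t' t'' : ℝ} (hi : i ∈ P) (hj : j ∈ P) (hij : i ≠ j) (hk : k ∈ P)
    (hl : l ∈ P) (hkl : k ≠ l) (h1 : c i j t) (h2 : c i j t') (h3 : c k l t'') (ht : t ≤ t'')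
    (ht' : t'' ≤ t') : (i = k ∧ j = l) ∨ (i = l ∧ j = k) := by
  obtain ⟨E, σ, hE, hE2, hE3, hE4⟩ := h
  obtain ⟨e, he, he', h4⟩ := hE4 i hi j hj hij t h1
  obtain ⟨e1, he1, he1', h4'⟩ := hE4 i hi j hj hij t' h2
  obtain ⟨f, hf, hf', h5⟩ := hE4 k hk l hl hkl t'' h3
  -- all three windows coincide
  have hlℓ : 0 ≤ ℓ := (abs_nonneg _).trans h4
  have hee1 : e = e1 := by
    by_contra hne
    -- both orientations would be edges
    have hE' : CutConn P fun a b => (a, b) ∈ E.erase e1 := by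
      refine hconn.mono fun a ha b hb hab hc => ?_
      obtain ⟨t, ht⟩ := hc
      obtain ⟨g, hg, hg', _⟩ := hE4 a ha b hb hab t ht
      by_cases hgf : g = e1
      · subst hgf
        have : ((a, b) = e ∨ (b, a) = e) := by
          rcases he' with rfl | rfl <;> rcases he1' with rfl | rfl <;>
            rcases hg' with h | h <;> simp_all
        rcases this with h | h
        · exact Or.inl (h ▸ Finset.mem_erase.2 ⟨hne, he⟩)
        · exact Or.inr (h ▸ Finset.mem_erase.2 ⟨hne, he⟩)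
      · rcases hg' with rfl | rfl
        · exact Or.inl (Finset.mem_erase.2 ⟨hgf, hg⟩)
        · exact Or.inr (Finset.mem_erase.2 ⟨hgf, hg⟩)
    have h5 := card_le_of_cutConn hE'
    rw [Finset.card_erase_of_mem he1] at h5
    have h6 : 0 < E.card := Finset.card_pos.2 ⟨e1, he1⟩
    omega
  subst hee1
  have hef : e = f := by
    by_contra hne
    have h6 := hE3 e he f hf hne
    have h7 : |σ e - σ f| ≤ 2 * ℓ := by
      rw [abs_le] at h4 h4' h5 ⊢
      constructor <;> linarith [h4.1, h4.2, h4'.1, h4'.2, h5.1, h5.2]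
    linarith
  subst hef
  rcases he' with rfl | rfl <;> rcases hf' with h7 | h7 <;> · rw [Prod.mk.injEq] at h7; tauto

end Crest.Agent.R122.LNg410
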