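import Crest.Agent.R122.VLInstB_442
import Crest.Agent.R122.VLSub_973
import Crest.Agent.R122.LNvs_410
import Crest.Agent.R122.CtB_879
import Crest.Agent.R122.LN1Defs_304

/-!
# Row 122, H11 (LN1), LEMMA T, part 1 (helper255): tools on local worlds

* `free_of_far` : a particle at distance at least `ε` from all alive particles is free.
* `far_of_no_ctB` : no contact on `[0, t)` gives distance at least `ε` there.
* `iso_sub` : sub-families of a local world without contacts across follow their own world.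
* `vct_of_st` : contacts of sub-worlds are virtual contacts.
-/

set_option autoImplicit false
set_option linter.unusedSectionVars false

open MeasureTheory Set Filter Topology
open scoped NNReal ENNReal
open Crest.AnalysisR.Kinetic
open Crest.Agent.R122.Flow671 Crest.Agent.R122.Loc45 Crest.Agent.R122.Ins45
open Crest.Agent.R122.VL581 Crest.Agent.R122.VL581.VSys Crest.Agent.R122.VLInst442
open Crest.Agent.R122.Inf879 Crest.Agent.R122.LNg410 Crest.Agent.R122.VLMeas973

noncomputable section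

namespace Crest.Agent.R122.LemT255

section tools

variable {Φ : Space3 → ℝ} {ε : ℝ} {ι κ : Type*} [Fintype ι] [Fintype κ]

/-! ### Free motion -/

/-- A particle which stays at distance at least `ε` from all alive particles is free. -/
theorem free_of_far (hΦ : AdmissiblePotential Φ) (hε : 0 < ε) {b : ι → ℝ} {a T : ℝ}
    {X : ℝ → ι → PhasePoint} (hX : LWorld Φ ε b a T X) {s t : ℝ} (hs : a ≤ s) (hst : s ≤ t)
    (ht : t ≤ T) {i : ι}
    (hfar : ∀ u ∈ Ico s t, b i ≤ u → ∀ j, j ≠ i → b j ≤ u → ε ≤ dist (X u i).1 (X u j).1) :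
    X t i = fl (t - s) (X s i) := by
  classical
  have hcI : ContinuousOn (fun u => X u i) (Icc s t) :=
    (hX.cont_apply i).mono (Icc_subset_Icc hs ht)
  have hd : ∀ u ∈ Ico s t, HasDerivWithinAt (fun u => X u i) ((X u i).2, 0) (Ici u) u := by
    intro u hu
    have h1 := (hasDerivWithinAt_pi.1 (hX.der u ⟨hs.trans hu.1, hu.2.trans_le ht⟩)) i
    have h2 : bf Φ ε b u (X u) i = ((X u i).2, 0) := by
      unfold bf
      by_cases hi : b i ≤ u
      · rw [if_pos hi]
        have hz : ∑ j, (if b j ≤ u then gradient Φ ((1 / ε) • ((X u i).1 - (X u j).1)) else 0)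
            = 0 := by
          refine Finset.sum_eq_zero fun j _ => ?_
          split_ifs with hj
          · by_cases hji : j = i
            · subst hji
              rw [sub_self, smul_zero]
              exact grad_origin hΦ
            · exact grad_far hΦ hε (hfar u hu hi j hji hj)
          · rfl
        rw [hz, smul_zero]
      · rw [if_neg hi]
    rwa [h2] at h1
  have hv : ∀ u ∈ Icc s t, (X u i).2 = (X s i).2 :=
    constant_of_has_deriv_right_zero hcI.snd fun u hu => (hd u hu).snd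
  have hx : ∀ u ∈ Icc s t, (X u i).1 - (u - s) • (X s i).2 = (X s i).1 - (s - s) • (X s i).2 := by
    refine constant_of_has_deriv_right_zero (f := fun u => (X u i).1 - (u - s) • (X s i).2)
      (hcI.fst.sub (by fun_prop)) fun u hu => ?_
    have h1 : HasDerivWithinAt (fun u => (X u i).1) (X u i).2 (Ici u) u := (hd u hu).fst
    have h2 : HasDerivWithinAt (fun u : ℝ => (u - s) • (X s i).2) ((1 : ℝ) • (X s i).2) (Ici u) u :=
      (((hasDerivAt_id u).sub_const s).smul_const _).hasDerivWithinAt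
    have h3 := h1.sub h2
    rwa [one_smul, hv u ⟨hu.1, hu.2.le⟩, sub_self] at h3
  refine Prod.ext ?_ (hv t ⟨hst, le_rfl⟩)
  have := hx t ⟨hst, le_rfl⟩
  rw [sub_self, zero_smul, sub_zero] at this
  rw [sub_eq_iff_eq_add.1 this]
  rfl

/-- Positions are continuous, distances too. -/
theorem dist_cont {b : ι → ℝ} {a T : ℝ} {X : ℝ → ι → PhasePoint} (hX : LWorld Φ ε b a T X)
    (i j : ι) : ContinuousOn (fun s => dist (X s i).1 (X s j).1) (Icc a T) :=
  continuous_dist.comp_continuousOn ((hX.cont_apply i).fst.prodMk (hX.cont_apply j).fst)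

/-- A non strict bound extends to the left end point. -/
theorem le_of_right {f : ℝ → ℝ} {a T s t c : ℝ} (hf : ContinuousOn f (Icc a T)) (hs : a ≤ s)
    (hst : s < t) (ht : t ≤ T) (h : ∀ u, s < u → u < t → c ≤ f u) : c ≤ f s := by
  have h1 : ContinuousWithinAt f (Ioo s t) s :=
    (hf s ⟨hs, hst.le.trans ht⟩).mono fun u hu => ⟨hs.trans hu.1.le, hu.2.le.trans ht⟩
  have : (𝓝[Ioo s t] s).NeBot := by
    rw [← mem_closure_iff_nhdsWithin_neBot, closure_Ioo hst.ne]
    exact ⟨le_rfl, hst.le⟩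
  exact ge_of_tendsto h1 (eventually_nhdsWithin_of_forall fun u hu => h u hu.1 hu.2)

/-- No contact on `[a, t)` gives distance at least `ε` there. -/
theorem far_of_no_ctB {b : ι → ℝ} {a T : ℝ} {X : ℝ → ι → PhasePoint} (hX : LWorld Φ ε b a T X)
    {i j : ι} {t : ℝ} (ht : t ≤ T) (h : ∀ s ∈ Ico a t, ¬ CtB b X ε s i j) {s : ℝ}
    (hs : s ∈ Ico a t) (hi : b i ≤ s) (hj : b j ≤ s) : ε ≤ dist (X s i).1 (X s j).1 := by
  refine le_of_right (dist_cont hX i j) hs.1 hs.2 ht fun u hu hut => ?_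
  by_contra hcon
  exact h u ⟨hs.1.trans hu.le, hut⟩ ⟨hi.trans hu.le, hj.trans hu.le, Or.inr (Or.inl (hi.trans_lt hu)),
    (not_le.1 hcon).le⟩

/-- **Isolation**: members of `C ⊆ A` without contact with the rest of the world `A` follow the world
`C`. -/
theorem iso_sub (hΦ : AdmissiblePotential Φ) (hε : 0 < ε) {J : Type*} {A C : Finset J}
    (hCA : C ⊆ A) {b : J → ℝ} {T : ℝ} {X Y : ℝ → J → PhasePoint}
    (hX : LWorld Φ ε (fun i : A => b i) 0 T fun s (i : A) => X s i)
    (hY : LWorld Φ ε (fun i : C => b i) 0 T fun s (i : C) => Y s i)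
    (h0 : ∀ i ∈ C, X 0 i = Y 0 i) {t : ℝ} (ht : t ≤ T)
    (hno : ∀ s ∈ Ico 0 t, ∀ i ∈ C, ∀ j ∈ A, j ∉ C → ¬ CtB b X ε s i j) :
    ∀ s ∈ Icc 0 t, ∀ i ∈ C, X s i = Y s i := by
  intro s hs i hi
  let e : C ↪ A := ⟨fun j => ⟨j, hCA j.2⟩, fun j k h =>
    Subtype.ext (congrArg (fun x : A => (x : J)) h)⟩
  have h1 : LWorld Φ ε (fun i : C => b i) 0 t fun s (i : C) => X s i := by
    refine (hX.mono le_rfl ht).restrict hΦ hε e fun u hu k hk j hj hbj => ?_
    refine far_of_no_ctB hX (i := e k) (j := j) ht (fun u' hu' hc => ?_) hu hk hbj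
    refine hno u' hu' k k.2 j j.2 (fun hjC => hj ⟨j, hjC⟩ (Subtype.ext rfl)) ?_
    exact ⟨hc.1, hc.2.1, hc.2.2.1.imp (fun h => congrArg Subtype.val h) id, hc.2.2.2⟩
  have h2 := LWorld.unique hΦ hε h1 (hY.mono le_rfl ht) (by
    funext j
    exact h0 j j.2) hs
  exact congrFun h2 ⟨i, hi⟩

end tools

/-! ### Contacts of sub-worlds of a virtual system -/

section vs

variable {J κ : Type} [Fintype J] {M : VSys J κ} {C₀ ℓ ς : ℝ} {G : Finset J}
  {Z : J → PhasePoint}

theorem fl_fl (s t : ℝ) (z : PhasePoint) : fl s (fl t z) = fl (s + t) z := by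
  unfold fl
  refine Prod.ext ?_ rfl
  simp only
  rw [add_smul]
  abel

/-- A contact inside a sub-world is a virtual contact. -/
theorem vct_of_st [Nonempty κ] (hε : 0 < M.ε) (hC₀ : 1 ≤ C₀) {A B : Finset J} (hA : A ⊆ G)
    (hB : B ⊆ G) {i j : J} (hi : i ∈ A) (hj : j ∈ B) (hoi : M.o ≠ some i) (hoj : M.o ≠ some j)
    {t : ℝ} (ht : t ≤ M.T) (hokA : M.ok A M.T Z) (hokB : M.ok B M.T Z)
    (hd : dist (M.st A t Z i).1 (M.st B t Z j).1 ≤ M.ε) : M.VCt C₀ G i j t Z := by
  obtain ⟨k⟩ := (inferInstance : Nonempty κ)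
  refine ⟨A, hA, B, hB, k, k, hi, hj, ok_anti ht hokA, ok_anti ht hokB, fun h => absurd h hoi,
    fun h => absurd h hoj, ?_⟩
  unfold VSys.pos
  rw [if_neg hoi, if_neg hoj]
  nlinarith

end vs

end Crest.Agent.R122.LemT255

end
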