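import Crest.Agent.R122.LemT1_255

/-!
# Row 122, H11 (LN1), LEMMA T, part 2 (helper255): the key lemma

One part `S` (structure labels), one derived world on `C` (gas labels and lines: the line of `x ∈ S`
has the label `x`, it is born at the exit time `bD x` on the path of `x` in the isolated world `S`).
If `C ∪ S` is tree-like and connected by contacts of `S` and of the derived world `C`, then the
derived world `C` and the world `C ∪ S` agree.
-/

set_option autoImplicit false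
set_option linter.unusedSectionVars false

open MeasureTheory Set Filter Topology
open scoped NNReal ENNReal
open Crest.AnalysisR.Kinetic
open Crest.Agent.R122.Flow671 Crest.Agent.R122.Loc45 Crest.Agent.R122.Ins45
open Crest.Agent.R122.VL581 Crest.Agent.R122.VL581.VSys Crest.Agent.R122.VLInst442
open Crest.Agent.R122.Inf879 Crest.Agent.R122.LNg410 Crest.Agent.R122.VLMeas973

noncomputable section

namespace Crest.Agent.R122.LemT255

open scoped Classical

variable {J κ : Type} [Fintype J]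

/-- Data of one derived world: part `S`, labels `C`, births `bD`, paths `X`. -/
structure One (M : VSys J κ) (Z : J → PhasePoint) (S C : Finset J) (bD : J → ℝ)
    (X : ℝ → J → PhasePoint) : Prop where
  adm : AdmissiblePotential M.Φ
  eps : 0 < M.ε
  T0 : 0 ≤ M.T
  obs : ∀ i ∈ C ∪ S, M.o ≠ some i
  world : LWorld M.Φ M.ε (fun i : C => bD i) 0 M.T (fun s (i : C) => X s i)
  gas : ∀ i ∈ C, i ∉ S → bD i = M.bb i ∧ X 0 i = Z i
  line : ∀ i ∈ C, i ∈ S → M.bb i ≤ bD i ∧ X 0 i = fl (-(bD i)) (M.st S (bD i) Z i)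
  exit : ∀ i ∈ C, i ∈ S → ∀ t, bD i < t → t ≤ M.T → ∀ k ∈ S, k ≠ i → M.bb k ≤ t →
    M.ε < dist (M.st S t Z i).1 (M.st S t Z k).1
  okS : M.ok S M.T Z

/-- The particle `j` follows the derived world at time `s`. -/
def DG (S C : Finset J) (bD : J → ℝ) (s : ℝ) (j : J) : Prop := j ∈ C ∧ (j ∈ S → bD j ≤ s)

/-- The reference motion. -/
def Rf (M : VSys J κ) (Z : J → PhasePoint) (S C : Finset J) (bD : J → ℝ)
    (X : ℝ → J → PhasePoint) (s : ℝ) (j : J) : PhasePoint :=
  if DG S C bD s j then X s j else if j ∈ S then M.st S s Z j else fl s (Z j)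

/-- A violation: two particles following different worlds come closer than `ε`. -/
def Viol (M : VSys J κ) (Z : J → PhasePoint) (S C : Finset J) (bD : J → ℝ)
    (X : ℝ → J → PhasePoint) (s : ℝ) (j k : J) : Prop :=
  j ∈ C ∪ S ∧ k ∈ C ∪ S ∧ DG S C bD s j ∧ ¬ DG S C bD s k ∧ M.bb j ≤ s ∧ M.bb k ≤ s ∧
    dist (Rf M Z S C bD X s j).1 (Rf M Z S C bD X s k).1 < M.ε

namespace One

variable {M : VSys J κ} {Z : J → PhasePoint} {S C : Finset J} {bD : J → ℝ}
  {X : ℝ → J → PhasePoint}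

theorem DG.mono {s t : ℝ} (hst : s ≤ t) {j : J} (h : DG S C bD s j) : DG S C bD t j :=
  ⟨h.1, fun hj => (h.2 hj).trans hst⟩

theorem rf_dg {s : ℝ} {j : J} (h : DG S C bD s j) : Rf M Z S C bD X s j = X s j := by
  unfold Rf; rw [if_pos h]

theorem rf_S {s : ℝ} {j : J} (h : ¬ DG S C bD s j) (hj : j ∈ S) :
    Rf M Z S C bD X s j = M.st S s Z j := by
  unfold Rf; rw [if_neg h, if_pos hj]

theorem mem_S {s : ℝ} {j : J} (hj : j ∈ C ∪ S) (h : ¬ DG S C bD s j) : j ∈ S := by
  rcases Finset.mem_union.1 hj with h1 | h1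
  · by_contra h2
    exact h ⟨h1, fun h3 => absurd h3 h2⟩
  · exact h1

variable (h : One M Z S C bD X)
include h

theorem bD_nonneg {j : J} (hj : j ∈ C) : 0 ≤ bD j := by
  by_cases hS : j ∈ S
  · exact (bb_nonneg M j).trans (h.line j hj hS).1
  · rw [(h.gas j hj hS).1]
    exact bb_nonneg M j

theorem bb_le {j : J} (hj : j ∈ C) : M.bb j ≤ bD j := by
  by_cases hS : j ∈ S
  · exact (h.line j hj hS).1
  · rw [(h.gas j hj hS).1]

theorem bD_le {j : J} {s : ℝ} (hj : DG S C bD s j) (hb : M.bb j ≤ s) : bD j ≤ s := by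
  by_cases hS : j ∈ S
  · exact hj.2 hS
  · rw [(h.gas j hj.1 hS).1]
    exact hb

theorem obsC {j : J} (hj : j ∈ C) : M.o ≠ some j := h.obs j (Finset.mem_union_left _ hj)

theorem obsS {j : J} (hj : j ∈ S) : M.o ≠ some j := h.obs j (Finset.mem_union_right _ hj)

/-- The world `S`. -/
theorem worldS : LWorld M.Φ M.ε (ba M S M.T) 0 M.T (fun s => M.st S s Z) :=
  st_lworld h.adm h.eps h.okS 0

/-- Before the birth a line is free. -/
theorem line_before {j : J} (hj : j ∈ C) {s : ℝ} (h0 : 0 ≤ s) (hs : s ≤ bD j) (hsT : s ≤ M.T) :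
    X s j = fl s (X 0 j) := by
  have h1 := h.world.free_of_unborn (i := ⟨j, hj⟩) le_rfl h0 hsT hs
  rw [sub_zero] at h1
  exact h1

/-- At its birth a line is on the path of the isolated structure. -/
theorem at_birth {j : J} (hj : j ∈ C) (hS : j ∈ S) (hT : bD j ≤ M.T) :
    X (bD j) j = M.st S (bD j) Z j := by
  rw [h.line_before hj (h.bD_nonneg hj) le_rfl hT, (h.line j hj hS).2, fl_fl, add_neg_cancel,
    fl_zero]

/-- After the exit time the structure stays at distance at least `ε`. -/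
theorem exit_le {i : J} (hi : i ∈ C) (hS : i ∈ S) {t : ℝ} (h1 : bD i ≤ t) (h2 : t < M.T) {k : J}
    (hk : k ∈ S) (hki : k ≠ i) (hbk : M.bb k ≤ t) :
    M.ε ≤ dist (M.st S t Z i).1 (M.st S t Z k).1 := by
  refine le_of_right (dist_cont h.worldS i k) ((h.bD_nonneg hi).trans h1) h2 le_rfl
    fun u hu huT => ?_
  exact (h.exit i hi hS u (h1.trans_lt hu) huT.le k hk hki (hbk.trans hu.le)).le

/-- After the exit time the path of the isolated structure is free. -/
theorem free_S {i : J} (hi : i ∈ C) (hS : i ∈ S) {t : ℝ} (h1 : bD i ≤ t) (h2 : t ≤ M.T) :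
    M.st S t Z i = fl (t - bD i) (M.st S (bD i) Z i) := by
  refine free_of_far h.adm h.eps h.worldS (h.bD_nonneg hi) h1 h2 fun u hu _ j hji hbj => ?_
  by_cases hj : j ∈ S
  · rw [ba_of_mem M hj (h.obsS hj)] at hbj
    exact h.exit_le hi hS hu.1 (hu.2.trans_le h2) hj hji hbj
  · rw [ba_of_not_mem M (fun h' => hj h'.1)] at hbj
    exact absurd (hu.2.trans_le h2) (not_lt.2 ((le_max_left _ _).trans hbj))

/-! ### The reference motion is a world as long as there is no violation -/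

theorem rf_zero {j : J} (hj : j ∈ C ∪ S) : Rf M Z S C bD X 0 j = Z j := by
  by_cases hd : DG S C bD 0 j
  · rw [rf_dg hd]
    by_cases hS : j ∈ S
    · have h1 : bD j = 0 := le_antisymm (hd.2 hS) (h.bD_nonneg hd.1)
      rw [(h.line j hd.1 hS).2, h1, neg_zero, fl_zero, st_nonpos M le_rfl, fl_zero]
    · exact (h.gas j hd.1 hS).2
  · rw [rf_S hd (mem_S hj hd), st_nonpos M le_rfl, fl_zero]

theorem rf_cont (j : J) : ContinuousOn (fun s => Rf M Z S C bD X s j) (Icc 0 M.T) := by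
  have hX : j ∈ C → ContinuousOn (fun s => X s j) (Icc 0 M.T) := fun hj =>
    h.world.cont_apply ⟨j, hj⟩
  have hSt : ContinuousOn (fun s => M.st S s Z j) (Icc 0 M.T) := h.worldS.cont_apply j
  by_cases hC : j ∈ C
  · by_cases hS : j ∈ S
    · rcases lt_or_ge M.T (bD j) with hb | hb
      · refine hSt.congr fun s hs => rf_S (fun hd => ?_) hS
        exact absurd (hd.2 hS) (not_le.2 (hs.2.trans_lt hb))
      · rw [← Icc_union_Icc_eq_Icc (h.bD_nonneg hC) hb]
        refine ContinuousOn.union_of_isClosed ?_ ?_ isClosed_Icc isClosed_Icc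
        · refine (hSt.mono (Icc_subset_Icc le_rfl hb)).congr fun s hs => ?_
          rcases hs.2.lt_or_eq with h1 | h1
          · exact rf_S (fun hd => absurd (hd.2 hS) (not_le.2 h1)) hS
          · rw [rf_dg ⟨hC, fun _ => h1.ge⟩, h1]
            exact h.at_birth hC hS hb
        · exact ((hX hC).mono (Icc_subset_Icc (h.bD_nonneg hC) le_rfl)).congr fun s hs =>
            rf_dg ⟨hC, fun _ => hs.1⟩
    · exact (hX hC).congr fun s _ => rf_dg ⟨hC, fun h' => absurd h' hS⟩
  · by_cases hS : j ∈ S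
    · exact hSt.congr fun s _ => rf_S (fun hd => hC hd.1) hS
    · refine (continuous_fl (Z j)).continuousOn.congr fun s _ => ?_
      unfold Rf
      rw [if_neg fun hd => hC hd.1, if_neg hS]

/-- The reference motion is a local world until the first violation. -/
theorem rf_world {t : ℝ} (ht : t ≤ M.T) (hno : ∀ s ∈ Ico 0 t, ∀ j k, ¬ Viol M Z S C bD X s j k) :
    LWorld M.Φ M.ε (ba M (C ∪ S) M.T) 0 t (Rf M Z S C bD X) where
  cont := continuousOn_pi.2 fun j => (h.rf_cont j).mono (Icc_subset_Icc le_rfl ht)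
  der s hs := by
    have hsT : s < M.T := hs.2.trans_le ht
    rw [hasDerivWithinAt_pi]
    intro j
    by_cases hj : j ∈ C ∪ S
    swap
    · -- outside
      have hb : s < ba M (C ∪ S) M.T j := by
        rw [ba_of_not_mem M (fun h' => hj h'.1)]
        exact hsT.trans_le (le_max_left _ _)
      rw [bf_of_unborn M.Φ M.ε _ hb]
      have h1 : ∀ u, Rf M Z S C bD X u j = fl u (Z j) := by
        intro u
        unfold Rf
        rw [if_neg fun hd => hj (Finset.mem_union_left _ hd.1),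
          if_neg fun h' => hj (Finset.mem_union_right _ h')]
      have h2 : (fun u => Rf M Z S C bD X u j) = fun u => fl u (Z j) := funext h1
      rw [h2, h1 s]
      exact (hasDerivAt_fl (Z j) s).hasDerivWithinAt
    have hbj : ba M (C ∪ S) M.T j = M.bb j := ba_of_mem M hj (h.obs j hj)
    by_cases hd : DG S C bD s j
    · -- follows the derived world
      have hC : j ∈ C := hd.1
      have h1 := (hasDerivWithinAt_pi.1 (h.world.der s ⟨hs.1, hsT⟩)) ⟨j, hC⟩
      have h2 : bf M.Φ M.ε (ba M (C ∪ S) M.T) s (Rf M Z S C bD X s) j =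
          bf M.Φ M.ε (fun i : C => bD i) s (fun i : C => X s i) ⟨j, hC⟩ := by
        unfold bf
        rw [rf_dg hd, hbj]
        by_cases hb : M.bb j ≤ s
        · rw [if_pos hb, if_pos (show bD ((⟨j, hC⟩ : C) : J) ≤ s from h.bD_le hd hb)]
          refine Prod.ext rfl ?_
          simp only
          congr 1
          rw [Finset.sum_coe_sort C
            fun k => (if bD k ≤ s then gradient M.Φ ((1 / M.ε) • ((X s j).1 - (X s k).1)) else 0),
            ← Finset.sum_subset (Finset.subset_univ C)]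
          · refine Finset.sum_congr rfl fun k hk => ?_
            rw [ba_of_mem M (Finset.mem_union_left _ hk) (h.obsC hk)]
            by_cases hbk : bD k ≤ s
            · rw [if_pos hbk, if_pos ((h.bb_le hk).trans hbk), rf_dg ⟨hk, fun _ => hbk⟩]
            · rw [if_neg hbk]
              by_cases hbk' : M.bb k ≤ s
              · rw [if_pos hbk']
                -- a line of `C` which is not yet born in the derived world
                have hkS : k ∈ S := by
                  by_contra hkS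
                  rw [(h.gas k hk hkS).1] at hbk
                  exact hbk hbk'
                have hkd : ¬ DG S C bD s k := fun h' => hbk (h'.2 hkS)
                refine grad_far h.adm h.eps ?_
                by_contra hcon
                refine hno s hs j k ⟨hj, Finset.mem_union_left _ hk, hd, hkd, hb, hbk', ?_⟩
                rw [rf_dg hd]
                exact not_le.1 hcon
              · rw [if_neg hbk']
          · intro k _ hk
            by_cases hkS : k ∈ S
            · rw [ba_of_mem M (Finset.mem_union_right _ hkS) (h.obsS hkS)]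
              by_cases hbk' : M.bb k ≤ s
              · rw [if_pos hbk']
                have hkd : ¬ DG S C bD s k := fun h' => hk h'.1
                refine grad_far h.adm h.eps ?_
                by_contra hcon
                refine hno s hs j k ⟨hj, Finset.mem_union_right _ hkS, hd, hkd, hb, hbk', ?_⟩
                rw [rf_dg hd]
                exact not_le.1 hcon
              · rw [if_neg hbk']
            · rw [ba_of_not_mem M (fun h' => ?_), if_neg (not_le.2 (hsT.trans_le (le_max_left _ _)))]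
              rcases Finset.mem_union.1 h'.1 with h3 | h3
              · exact hk h3
              · exact hkS h3
        · rw [if_neg hb, if_neg (show ¬ bD ((⟨j, hC⟩ : C) : J) ≤ s from
            fun h' => hb ((h.bb_le hC).trans h'))]
      rw [h2]
      refine h1.congr (fun u hu => ?_) (rf_dg hd)
      exact rf_dg (DG.mono hu hd)
    · -- follows the structure
      have hS : j ∈ S := mem_S hj hd
      have h1 := (hasDerivWithinAt_pi.1 (h.worldS.der s ⟨hs.1, hsT⟩)) j
      have h2 : bf M.Φ M.ε (ba M (C ∪ S) M.T) s (Rf M Z S C bD X s) j =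
          bf M.Φ M.ε (ba M S M.T) s (M.st S s Z) j := by
        unfold bf
        rw [rf_S hd hS, hbj, ba_of_mem M hS (h.obsS hS)]
        by_cases hb : M.bb j ≤ s
        · rw [if_pos hb, if_pos hb]
          refine Prod.ext rfl ?_
          simp only
          congr 1
          refine Finset.sum_congr rfl fun k _ => ?_
          by_cases hkS : k ∈ S
          · rw [ba_of_mem M (Finset.mem_union_right _ hkS) (h.obsS hkS),
              ba_of_mem M hkS (h.obsS hkS)]
            by_cases hbk : M.bb k ≤ s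
            · rw [if_pos hbk, if_pos hbk]
              by_cases hkd : DG S C bD s k
              · -- `k` has left the structure
                have hkj : k ≠ j := fun h' => hd (h' ▸ hkd)
                have h3 : M.ε ≤ dist (M.st S s Z j).1 (M.st S s Z k).1 := by
                  rw [dist_comm]
                  exact h.exit_le hkd.1 hkS (hkd.2 hkS) hsT hS hkj.symm hb
                have h4 : M.ε ≤ dist (M.st S s Z j).1 (Rf M Z S C bD X s k).1 := by
                  by_contra hcon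
                  refine hno s hs k j ⟨Finset.mem_union_right _ hkS, hj, hkd, hd, hbk, hb, ?_⟩
                  rw [rf_S hd hS, dist_comm]
                  exact not_le.1 hcon
                rw [grad_far h.adm h.eps h3, grad_far h.adm h.eps h4]
              · rw [rf_S hkd hkS]
            · rw [if_neg hbk, if_neg hbk]
          · rw [ba_of_not_mem M (fun h' : k ∈ S ∧ M.o ≠ some k => hkS h'.1),
              if_neg (not_le.2 (hsT.trans_le (le_max_left _ _)) : ¬ max M.T 0 ≤ s)]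
            by_cases hkC : k ∈ C
            · rw [ba_of_mem M (Finset.mem_union_left _ hkC) (h.obsC hkC)]
              by_cases hbk : M.bb k ≤ s
              · rw [if_pos hbk]
                have hkd : DG S C bD s k := ⟨hkC, fun h' => absurd h' hkS⟩
                refine grad_far h.adm h.eps ?_
                by_contra hcon
                refine hno s hs k j ⟨Finset.mem_union_left _ hkC, hj, hkd, hd, hbk, hb, ?_⟩
                rw [rf_S hd hS, dist_comm]
                exact not_le.1 hcon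
              · rw [if_neg hbk]
            · rw [ba_of_not_mem M (fun h' => ?_),
                if_neg (not_le.2 (hsT.trans_le (le_max_left _ _)) : ¬ max M.T 0 ≤ s)]
              rcases Finset.mem_union.1 h'.1 with h3 | h3
              · exact hkC h3
              · exact hkS h3
        · rw [if_neg hb, if_neg hb]
      rw [h2]
      refine h1.congr_of_eventuallyEq ?_ (rf_S hd hS)
      by_cases hC : j ∈ C
      · have h3 : s < bD j := by
          by_contra h'
          exact hd ⟨hC, fun _ => not_lt.1 h'⟩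
        have h4 : ∀ᶠ u in 𝓝[Ici s] s, u < bD j := mem_nhdsWithin_of_mem_nhds (Iio_mem_nhds h3)
        exact h4.mono fun u hu => rf_S (fun h' => absurd (h'.2 hS) (not_le.2 hu)) hS
      · exact Eventually.of_forall fun u => rf_S (fun h' => hC h'.1) hS
  dom s hs := by
    have hsT : s < M.T := hs.2.trans_le ht
    rcases h.world.dom s ⟨hs.1, hsT⟩ with hc | h1
    · exact Or.inl hc
    rcases h.worldS.dom s ⟨hs.1, hsT⟩ with hc | h2
    · exact Or.inl hc
    refine Or.inr fun j k hjk hbj hbk => ?_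
    have hmem : ∀ i, ba M (C ∪ S) M.T i ≤ s → i ∈ C ∪ S := by
      intro i hi
      by_contra h'
      rw [ba_of_not_mem M (fun h3 => h' h3.1)] at hi
      exact absurd hsT (not_lt.2 ((le_max_left _ _).trans hi))
    have hj := hmem j hbj
    have hk := hmem k hbk
    rw [ba_of_mem M hj (h.obs j hj)] at hbj
    rw [ba_of_mem M hk (h.obs k hk)] at hbk
    by_cases hdj : DG S C bD s j
    · by_cases hdk : DG S C bD s k
      · rw [rf_dg hdj, rf_dg hdk]
        exact h1 ⟨j, hdj.1⟩ ⟨k, hdk.1⟩ (fun h' => hjk (congrArg Subtype.val h'))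
          (h.bD_le hdj hbj) (h.bD_le hdk hbk)
      · refine ne_of_le_dist h.eps ?_
        by_contra hcon
        exact hno s hs j k ⟨hj, hk, hdj, hdk, hbj, hbk, not_le.1 hcon⟩
    · by_cases hdk : DG S C bD s k
      · refine (ne_of_le_dist h.eps ?_).symm
        by_contra hcon
        exact hno s hs k j ⟨hk, hj, hdk, hdj, hbk, hbj, not_le.1 hcon⟩
      · have hjS := mem_S hj hdj
        have hkS := mem_S hk hdk
        rw [rf_S hdj hjS, rf_S hdk hkS]
        refine h2 j k hjk ?_ ?_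
        · rw [ba_of_mem M hjS (h.obsS hjS)]; exact hbj
        · rw [ba_of_mem M hkS (h.obsS hkS)]; exact hbk

/-- Until the first violation the world `C ∪ S` is the reference motion. -/
theorem st_eq_rf {t : ℝ} (ht : t ≤ M.T)
    (hno : ∀ s ∈ Ico 0 t, ∀ j k, ¬ Viol M Z S C bD X s j k) :
    ∀ s ∈ Icc 0 t, ∀ i ∈ C ∪ S, M.st (C ∪ S) s Z i = Rf M Z S C bD X s i := by
  intro s hs i hi
  refine st_eq_of_lworld h.adm h.eps (h.rf_world ht hno) (A := C ∪ S) (Z := Z) (f := id)
    (fun i _ _ j _ _ h' => h') (fun i hi ho s _ => ?_) (fun i hi _ => h.rf_zero hi)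
    (fun s hs i hi ho hb k hk hbk => ?_) s hs i hi (h.obs i hi)
  · rw [id, ba_of_mem M hi ho]
  · exfalso
    have hk' : k ∉ C ∪ S := fun h' => hk k h' (h.obs k h') rfl
    rw [ba_of_not_mem M (fun h3 => hk' h3.1)] at hbk
    exact absurd (hs.2.trans_le ht) (not_lt.2 ((le_max_left _ _).trans hbk))

/-! ### No violation in a tree-like set -/

omit h in
theorem viol_frequently (hne : ¬ ∀ s ∈ Ico 0 M.T, ∀ j k, ¬ Viol M Z S C bD X s j k) :
    ∃ t ∈ Ico 0 M.T, (∀ s ∈ Ico 0 t, ∀ j k, ¬ Viol M Z S C bD X s j k) ∧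
      ∃ j k, ∃ᶠ s in 𝓝[Ici t] t, s < M.T ∧ Viol M Z S C bD X s j k := by
  set V : Set ℝ := {s | s ∈ Ico 0 M.T ∧ ∃ j k, Viol M Z S C bD X s j k} with hV
  have hVne : V.Nonempty := by
    by_contra hcon
    refine hne fun s hs j k hv => hcon ⟨s, hs, j, k, hv⟩
  have hbdd : BddBelow V := ⟨0, fun s hs => hs.1.1⟩
  set t := sInf V with ht
  have ht0 : 0 ≤ t := le_csInf hVne fun s hs => hs.1.1
  obtain ⟨s₁, hs₁⟩ := hVne
  have htT : t < M.T := (csInf_le hbdd hs₁).trans_lt hs₁.1.2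
  refine ⟨t, ⟨ht0, htT⟩, fun s hs j k hv => ?_, ?_⟩
  · exact absurd (csInf_le hbdd (show s ∈ V from ⟨⟨hs.1, hs.2.trans htT⟩, j, k, hv⟩))
      (not_le.2 hs.2)
  · by_contra hcon
    push Not at hcon
    have h1 : ∀ᶠ s in 𝓝[Ici t] t, ∀ j k, ¬ (s < M.T ∧ Viol M Z S C bD X s j k) := by
      rw [eventually_all]
      intro j
      rw [eventually_all]
      exact fun k => (hcon j k).mono fun x hx h' => hx h'.1 h'.2
    obtain ⟨δ, hδ, h2⟩ := Metric.mem_nhdsWithin_iff.1 h1
    have h3 : t + δ ≤ t := by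
      refine le_csInf ⟨s₁, hs₁⟩ fun s hs => ?_
      by_contra hlt
      push Not at hlt
      have h4 : t ≤ s := csInf_le hbdd hs
      obtain ⟨⟨_, h5⟩, j, k, hv⟩ := hs
      refine h2 ⟨?_, h4⟩ j k ⟨h5, hv⟩
      rw [Metric.mem_ball, Real.dist_eq, abs_lt]
      constructor <;> linarith
    linarith

end One

/-- Contact in the isolated structure. -/
def SC (M : VSys J κ) (Z : J → PhasePoint) (S : Finset J) (r : ℝ) (i j : J) : Prop :=
  i ∈ S ∧ j ∈ S ∧ M.bb i ≤ r ∧ M.bb j ≤ r ∧ dist (M.st S r Z i).1 (M.st S r Z j).1 ≤ M.ε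

theorem SC.symm {M : VSys J κ} {Z : J → PhasePoint} {S : Finset J} {r : ℝ} {i j : J}
    (h : SC M Z S r i j) : SC M Z S r j i :=
  ⟨h.2.1, h.1, h.2.2.2.1, h.2.2.1, by rw [dist_comm]; exact h.2.2.2.2⟩

namespace One

variable {M : VSys J κ} {Z : J → PhasePoint} {S C : Finset J} {bD : J → ℝ}
  {X : ℝ → J → PhasePoint}

theorem SC.vct [Nonempty κ] (h : One M Z S C bD X) {C₀ : ℝ} (hC₀ : 1 ≤ C₀) {G : Finset J}
    (hG : S ⊆ G) {r : ℝ} (hr : r ≤ M.T) {i j : J} (hc : SC M Z S r i j) :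
    M.VCt C₀ G i j r Z :=
  vct_of_st h.eps hC₀ hG hG hc.1 hc.2.1 (h.obsS hc.1) (h.obsS hc.2.1) hr h.okS h.okS
    hc.2.2.2.2

/-- **No violation in a connected tree-like set.** -/
theorem no_viol [Nonempty κ] (h : One M Z S C bD X)
    (hlast : ∀ i ∈ C, i ∈ S → bD i = M.bb i ∨ ∃ k, k ≠ i ∧ SC M Z S (bD i) i k)
    {C₀ ℓ ς : ℝ} (hC₀ : 1 ≤ C₀) (hℓ : 2 * ℓ ≤ ς) (hTL : LN304.TL M C₀ ℓ ς (C ∪ S) Z)
    {F : J → J → Prop} (hF : CutConn (C ∪ S) F)
    (hFc : ∀ i ∈ C ∪ S, ∀ j ∈ C ∪ S, i ≠ j → F i j → (∃ r ∈ Icc 0 M.T, SC M Z S r i j) ∨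
      (i ∈ C ∧ j ∈ C ∧ ∃ r ∈ Icc 0 M.T, bD i ≤ r ∧ bD j ≤ r ∧ M.VCt C₀ (C ∪ S) i j r Z)) :
    ∀ s ∈ Ico 0 M.T, ∀ j k, ¬ Viol M Z S C bD X s j k := by
  have hTLg := hTL.2
  have hokG : M.ok (C ∪ S) M.T Z := hTL.1 _ le_rfl
  have hSG : S ⊆ C ∪ S := Finset.subset_union_right
  have hCG : C ⊆ C ∪ S := Finset.subset_union_left
  -- connectedness by virtual contacts
  have hF' : ∀ i ∈ C ∪ S, ∀ j ∈ C ∪ S, i ≠ j → F i j →
      ∃ t, vc M C₀ (C ∪ S) Z i j t ∨ vc M C₀ (C ∪ S) Z j i t := by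
    intro i hi j hj hij hf
    rcases hFc i hi j hj hij hf with ⟨r, hr, hc⟩ | ⟨_, _, r, hr, _, _, hc⟩
    · exact ⟨r, Or.inl ⟨hr, SC.vct h hC₀ hSG hr.2 hc⟩⟩
    · exact ⟨r, Or.inl ⟨hr, hc⟩⟩
  have hconn : CutConn (C ∪ S) fun i j => ∃ t, vc M C₀ (C ∪ S) Z i j t := by
    refine hF.mono fun i hi j hj hij hf => ?_
    obtain ⟨t, ht | ht⟩ := hF' i hi j hj hij hf
    · exact Or.inl ⟨t, ht⟩
    · exact Or.inr ⟨t, ht⟩
  by_contra hne
  obtain ⟨t, ht, hno, j, k, hfreq⟩ := viol_frequently hne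
  have htT : t ≤ M.T := ht.2.le
  have hst := h.st_eq_rf htT hno
  -- facts at one violation time
  obtain ⟨s₀, ⟨hs₀T, hv₀⟩, hs₀⟩ := (hfreq.and_eventually self_mem_nhdsWithin).exists
  have hjG : j ∈ C ∪ S := hv₀.1
  have hkG : k ∈ C ∪ S := hv₀.2.1
  have hjC : j ∈ C := hv₀.2.2.1.1
  have hkS : k ∈ S := mem_S hkG hv₀.2.2.2.1
  have hjk : j ≠ k := fun h' => hv₀.2.2.2.1 (h' ▸ hv₀.2.2.1)
  -- passing to the limit
  have hlim : ∀ c : ℝ, (∀ s, Viol M Z S C bD X s j k → c ≤ s) → c ≤ t := by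
    intro c hc
    by_contra hcon
    push Not at hcon
    have h1 : ∀ᶠ s in 𝓝[Ici t] t, s < c := mem_nhdsWithin_of_mem_nhds (Iio_mem_nhds hcon)
    obtain ⟨s, ⟨_, hv⟩, hs⟩ := (hfreq.and_eventually h1).exists
    exact absurd (hc s hv) (not_le.2 hs)
  have hbj : M.bb j ≤ t := hlim _ fun s hv => hv.2.2.2.2.1
  have hbk : M.bb k ≤ t := hlim _ fun s hv => hv.2.2.2.2.2.1
  have hdj : DG S C bD t j := ⟨hjC, fun hjS => hlim _ fun s hv => hv.2.2.1.2 hjS⟩
  have hDj : bD j ≤ t := h.bD_le hdj hbj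
  have hkD : k ∈ C → t < bD k := by
    intro hkC
    by_contra hcon
    exact hv₀.2.2.2.1 ⟨hkC, fun _ => (not_lt.1 hcon).trans hs₀⟩
  have hdk : ¬ DG S C bD t k := fun h' => absurd (h'.2 hkS) (not_le.2 (hkD h'.1))
  -- distance at time `t`
  have hdist : dist (X t j).1 (M.st S t Z k).1 ≤ M.ε := by
    by_contra hcon
    push Not at hcon
    have h1 : ContinuousOn (fun s => dist (X s j).1 (M.st S s Z k).1) (Icc 0 M.T) :=
      continuous_dist.comp_continuousOn
        ((h.world.cont_apply ⟨j, hjC⟩).fst.prodMk (h.worldS.cont_apply k).fst)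
    have h2 : ContinuousWithinAt (fun s => dist (X s j).1 (M.st S s Z k).1) (Icc 0 M.T) t :=
      h1 t ⟨ht.1, htT⟩
    have h3 : ∀ᶠ s in 𝓝[Icc 0 M.T] t, M.ε < dist (X s j).1 (M.st S s Z k).1 :=
      h2.eventually (lt_mem_nhds hcon)
    have h4 : 𝓝[Ici t ∩ Iic M.T] t ≤ 𝓝[Icc 0 M.T] t :=
      nhdsWithin_mono _ fun s hs => ⟨ht.1.trans hs.1, hs.2⟩
    have h5 : ∀ᶠ s in 𝓝[Ici t] t, s ≤ M.T → M.ε < dist (X s j).1 (M.st S s Z k).1 := by
      have h6 := h4 h3
      rw [nhdsWithin_inter'] at h6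
      exact Filter.mem_inf_principal.1 h6
    obtain ⟨s, ⟨⟨hsT, hv⟩, h6⟩⟩ := (hfreq.and_eventually h5).exists
    have h7 := hv.2.2.2.2.2.2
    rw [rf_dg hv.2.2.1, rf_S hv.2.2.2.1 hkS] at h7
    exact absurd (h6 hsT.le) (not_lt.2 h7.le)
  -- it is a virtual contact
  have hstG : ∀ s ∈ Icc 0 t, ∀ i ∈ C ∪ S, M.st (C ∪ S) s Z i = Rf M Z S C bD X s i := hst
  have htt : t ∈ Icc 0 t := ⟨ht.1, le_rfl⟩
  have hcjk : vc M C₀ (C ∪ S) Z j k t := by
    refine ⟨⟨ht.1, htT⟩, vct_of_st h.eps hC₀ le_rfl le_rfl hjG hkG (h.obs j hjG) (h.obs k hkG)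
      htT hokG hokG ?_⟩
    rw [hstG t htt j hjG, hstG t htt k hkG, rf_dg hdj, rf_S hdk hkS]
    exact hdist
  -- symmetric separation
  have hsep : ∀ {i l : J} {r r' : ℝ}, i ∈ C ∪ S → l ∈ C ∪ S → i ≠ l → r ≤ r' →
      vc M C₀ (C ∪ S) Z i l r' → r' ≤ t → vc M C₀ (C ∪ S) Z j k r →
      (j = i ∧ k = l) ∨ (j = l ∧ k = i) := fun hi hl hil hr h1 h2 h3 =>
    hTLg.sep hconn hℓ hjG hkG hjk hi hl hil h3 hcjk h1 hr h2
  have hfam := hTLg.mem_of_cutConn hF hF' hjG hkG hjk hcjk
  have hfam' : (∃ r ∈ Icc 0 M.T, SC M Z S r j k) ∨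
      (j ∈ C ∧ k ∈ C ∧ ∃ r ∈ Icc 0 M.T, bD j ≤ r ∧ bD k ≤ r ∧ M.VCt C₀ (C ∪ S) j k r Z) := by
    rcases hfam with hf | hf
    · exact hFc j hjG k hkG hjk hf
    · rcases hFc k hkG j hjG hjk.symm hf with ⟨r, hr, hc⟩ | ⟨h1, h2, r, hr, h3, h4, h5⟩
      · exact Or.inl ⟨r, hr, hc.symm⟩
      · exact Or.inr ⟨h2, h1, r, hr, h4, h3, vct_symm h5⟩
  rcases hfam' with ⟨r, hr, hc⟩ | ⟨_, hkC, r, hr, h3, h4, h5⟩
  · -- the pair has a contact in the structure
    have hjS : j ∈ S := hc.1
    have hrj : r ≤ bD j := by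
      by_contra hcon
      exact absurd hc.2.2.2.2 (not_le.2 (h.exit j hjC hjS r (not_le.1 hcon) hr.2 k hkS hjk.symm
        hc.2.2.2.1))
    have hcr : vc M C₀ (C ∪ S) Z j k r := ⟨hr, SC.vct h hC₀ hSG hr.2 hc⟩
    -- the exit time of `j` is the end of a contact
    have hDT : bD j < M.T := hDj.trans_lt ht.2
    have hlj : ∃ l, l ≠ j ∧ SC M Z S (bD j) j l := by
      rcases hlast j hjC hjS with h1 | h1
      · exfalso
        have h2 : r = M.bb j := le_antisymm (h1 ▸ hrj) hc.2.2.1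
        have h6 := h.okS j hjS (h.obsS hjS) (h1 ▸ hDT) k hkS (h.obsS hkS) hjk.symm
          (h2 ▸ hc.2.2.2.1)
        rw [← h2] at h6
        exact absurd hc.2.2.2.2 (not_le.2 h6)
      · exact h1
    -- nobody of the derived world touches the line `j` on `[bD j, t]`
    have hclean : ∀ s ∈ Icc (bD j) t, ∀ z ∈ C, z ≠ j → bD z ≤ s →
        M.ε < dist (X s j).1 (X s z).1 := by
      intro s hs z hzC hzj hbz
      by_contra hcon
      push Not at hcon
      have hs0 : 0 ≤ s := (h.bD_nonneg hjC).trans hs.1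
      have hzG : z ∈ C ∪ S := hCG hzC
      have hc1 : vc M C₀ (C ∪ S) Z j z s := by
        refine ⟨⟨hs0, hs.2.trans htT⟩, vct_of_st h.eps hC₀ le_rfl le_rfl hjG hzG (h.obs j hjG)
          (h.obs z hzG) (hs.2.trans htT) hokG hokG ?_⟩
        rw [hstG s ⟨hs0, hs.2⟩ j hjG, hstG s ⟨hs0, hs.2⟩ z hzG, rf_dg ⟨hjC, fun _ => hs.1⟩,
          rf_dg ⟨hzC, fun _ => hbz⟩]
        exact hcon
      rcases hsep hjG hzG hzj.symm (hrj.trans hs.1) hc1 hs.2 hcr with ⟨_, h6⟩ | ⟨_, h6⟩
      · rw [← h6] at hbz hzC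
        exact absurd (hbz.trans hs.2) (not_le.2 (hkD hzC))
      · exact hjk h6.symm
    -- and also a little later
    have hlater : ∀ᶠ s in 𝓝[Ici t] t, s ≤ M.T → ∀ z ∈ C, z ≠ j → bD z ≤ s →
        M.ε < dist (X s j).1 (X s z).1 := by
      have h6 : ∀ᶠ s in 𝓝[Ici t] t, ∀ z : J, s ≤ M.T → z ∈ C → z ≠ j → bD z ≤ s →
          M.ε < dist (X s j).1 (X s z).1 := by
        rw [eventually_all]
        intro z
        by_cases hzC : z ∈ C
        swap
        · exact Eventually.of_forall fun s _ h' => absurd h' hzC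
        by_cases hzj : z = j
        · exact Eventually.of_forall fun s _ _ h' => absurd hzj h'
        rcases le_or_gt (bD z) t with hbz | hbz
        · have h7 := hclean t ⟨hDj, le_rfl⟩ z hzC hzj hbz
          have h8 : ContinuousWithinAt (fun s => dist (X s j).1 (X s z).1) (Icc 0 M.T) t :=
            (continuous_dist.comp_continuousOn ((h.world.cont_apply ⟨j, hjC⟩).fst.prodMk
              (h.world.cont_apply ⟨z, hzC⟩).fst)) t ⟨ht.1, htT⟩
          have h9 : ∀ᶠ s in 𝓝[Icc 0 M.T] t, M.ε < dist (X s j).1 (X s z).1 :=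
            h8.eventually (lt_mem_nhds h7)
          have h10 : 𝓝[Ici t ∩ Iic M.T] t ≤ 𝓝[Icc 0 M.T] t :=
            nhdsWithin_mono _ fun s hs => ⟨ht.1.trans hs.1, hs.2⟩
          have h11 := h10 h9
          rw [nhdsWithin_inter'] at h11
          have h12 := Filter.mem_inf_principal.1 h11
          filter_upwards [h12] with s hs h13 _ _ _
          exact hs h13
        · have h7 : ∀ᶠ s in 𝓝[Ici t] t, s < bD z :=
            mem_nhdsWithin_of_mem_nhds (Iio_mem_nhds hbz)
          filter_upwards [h7] with s hs _ _ _ h8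
          exact absurd h8 (not_le.2 hs)
      filter_upwards [h6] with s hs h7 z h8 h9 h10
      exact hs z h7 h8 h9 h10
    obtain ⟨δ, hδ, hball⟩ := Metric.mem_nhdsWithin_iff.1 hlater
    have hnear : ∀ᶠ s in 𝓝[Ici t] t, s < t + δ :=
      mem_nhdsWithin_of_mem_nhds (Iio_mem_nhds (by linarith))
    obtain ⟨s, ⟨⟨hsT, hv⟩, hsδ, hts⟩⟩ :=
      (hfreq.and_eventually (hnear.and self_mem_nhdsWithin)).exists
    have hts : t ≤ s := hts
    -- `j` is free on `[bD j, s]` in the derived world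
    have hfree : X s j = fl (s - bD j) (X (bD j) j) := by
      refine free_of_far h.adm h.eps h.world (i := ⟨j, hjC⟩) (h.bD_nonneg hjC) (hDj.trans hts)
        hsT.le fun u hu _ z hz hbz => ?_
      have hzj : (z : J) ≠ j := fun h' => hz (Subtype.ext h')
      rcases le_or_gt u t with h6 | h6
      · exact (hclean u ⟨hu.1, h6⟩ z z.2 hzj hbz).le
      · refine (hball ⟨?_, h6.le⟩ (hu.2.le.trans hsT.le) z z.2 hzj hbz).le
        rw [Metric.mem_ball, Real.dist_eq, abs_lt]
        constructor <;> linarith [hu.2]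
    have h6 : X s j = M.st S s Z j := by
      rw [hfree, h.at_birth hjC hjS hDT.le, ← h.free_S hjC hjS (hDj.trans hts) hsT.le]
    have h7 := hv.2.2.2.2.2.2
    rw [rf_dg hv.2.2.1, rf_S hv.2.2.2.1 hkS, h6] at h7
    exact absurd h7 (not_lt.2 (h.exit_le hjC hjS (hDj.trans hts) hsT hkS hjk.symm
      hv.2.2.2.2.2.1))
  · -- the pair has a contact in the derived world, later
    have hDk : t < bD k := hkD hkC
    rcases hlast k hkC hkS with h6 | ⟨l, hlk, hcl⟩
    · exact absurd (h6 ▸ hDk) (not_lt.2 hbk)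
    have hDkT : bD k ≤ M.T := h4.trans hr.2
    have hcl' : vc M C₀ (C ∪ S) Z k l (bD k) :=
      ⟨⟨h.bD_nonneg hkC, hDkT⟩, SC.vct h hC₀ hSG hDkT hcl⟩
    have hcr : vc M C₀ (C ∪ S) Z j k r := ⟨hr, h5⟩
    have h7 := hTLg.sep hconn hℓ hjG hkG hjk hkG (hSG hcl.2.1) hlk.symm hcjk hcr hcl' hDk.le h4
    have hjl : j = l := by
      rcases h7 with ⟨h8, _⟩ | ⟨h8, _⟩
      · exact absurd h8 hjk
      · exact h8
    subst hjl
    have hjS : j ∈ S := hcl.2.1
    exact absurd hcl.symm.2.2.2.2 (not_le.2 (h.exit j hjC hjS (bD k) (hDj.trans_lt hDk) hDkT k hkS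
      hjk.symm hcl.2.2.1))

/-- **Key lemma.** -/
theorem key [Nonempty κ] (h : One M Z S C bD X)
    (hlast : ∀ i ∈ C, i ∈ S → bD i = M.bb i ∨ ∃ k, k ≠ i ∧ SC M Z S (bD i) i k)
    {C₀ ℓ ς : ℝ} (hC₀ : 1 ≤ C₀) (hℓ : 2 * ℓ ≤ ς) (hTL : LN304.TL M C₀ ℓ ς (C ∪ S) Z)
    {F : J → J → Prop} (hF : CutConn (C ∪ S) F)
    (hFc : ∀ i ∈ C ∪ S, ∀ j ∈ C ∪ S, i ≠ j → F i j → (∃ r ∈ Icc 0 M.T, SC M Z S r i j) ∨
      (i ∈ C ∧ j ∈ C ∧ ∃ r ∈ Icc 0 M.T, bD i ≤ r ∧ bD j ≤ r ∧ M.VCt C₀ (C ∪ S) i j r Z)) :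
    (∀ s ∈ Icc 0 M.T, ∀ i ∈ C, bD i ≤ s → M.st (C ∪ S) s Z i = X s i) ∧
    (∀ s ∈ Icc 0 M.T, ∀ i ∈ S, (i ∈ C → s < bD i) → M.st (C ∪ S) s Z i = M.st S s Z i) := by
  have hst := h.st_eq_rf le_rfl (h.no_viol hlast hC₀ hℓ hTL hF hFc)
  refine ⟨fun s hs i hi hb => ?_, fun s hs i hi hb => ?_⟩
  · rw [hst s hs i (Finset.mem_union_left _ hi), rf_dg ⟨hi, fun _ => hb⟩]
  · rw [hst s hs i (Finset.mem_union_right _ hi), rf_S (fun h' => ?_) hi]
    exact absurd (h'.2 hi) (not_le.2 (hb h'.1))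

end One

end Crest.Agent.R122.LemT255

end
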