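import Crest.Agent.R122.LemT2_255
import Crest.Agent.R122.LNvs2_410

/-!
# Row 122, H11 (LN1), LEMMA T, part 3 (helper255): the derived system

The derived system on the labels of `P` (gas labels and lines; the line of `x` has the label `x` and
is born at its exit time `bD x`), paths `XD A` of all sub-worlds `A ⊆ P`; the parts of the structure
are the members of `Λ`.

* `comp` (T2) : every particle of a sub-world follows a really connected sub-world.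
* `real` (T1) : a really connected sub-world `B` is the sub-world `hat B` of the master system.
-/

set_option autoImplicit false
set_option linter.unusedSectionVars false

open MeasureTheory Set Filter Topology
open scoped NNReal ENNReal
open Crest.AnalysisR.Kinetic
open Crest.Agent.R122.Flow671 Crest.Agent.R122.Loc45 Crest.Agent.R122.Ins45
open Crest.Agent.R122.VL581 Crest.Agent.R122.VL581.VSys Crest.Agent.R122.VLInst442
open Crest.Agent.R122.Inf879 Crest.Agent.R122.LNg410 Crest.Agent.R122.VLMeas973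

noncomputable section

namespace Crest.Agent.R122.LemT255

open scoped Classical

variable {J κ : Type} [Fintype J]

/-- `i` belongs to no part. -/
def Gas (Λ : Finset (Finset J)) (i : J) : Prop := ∀ π ∈ Λ, i ∉ π

/-- The master set of a derived set: the parts of its lines are added. -/
def hat (Λ : Finset (Finset J)) (B : Finset J) : Finset J :=
  B ∪ (Λ.filter fun π => ∃ i ∈ B, i ∈ π).biUnion id

/-- The derived system. -/
structure Der (M : VSys J κ) (Z : J → PhasePoint) (Λ : Finset (Finset J)) (bD : J → ℝ)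
    (XD : Finset J → ℝ → J → PhasePoint) (P : Finset J) : Prop where
  adm : AdmissiblePotential M.Φ
  eps : 0 < M.ε
  T0 : 0 ≤ M.T
  disj : ∀ π ∈ Λ, ∀ π' ∈ Λ, ∀ i ∈ π, i ∈ π' → π = π'
  obs : ∀ i ∈ hat Λ P, M.o ≠ some i
  okS : ∀ π ∈ Λ, M.ok π M.T Z
  okg : ∀ A ⊆ P, (∀ i ∈ A, Gas Λ i) → M.ok A M.T Z
  conn : ∀ π ∈ Λ, CutConn π fun i j => ∃ r ∈ Icc 0 M.T, SC M Z π r i j
  world : ∀ A ⊆ P, LWorld M.Φ M.ε (fun i : A => bD i) 0 M.T (fun s (i : A) => XD A s i)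
  closed : ∀ A ⊆ P, ∀ i ∈ A, ∀ j ∈ A, i ≠ j →
    IsClosed {s | s ∈ Icc 0 M.T ∧ CtB bD (XD A) M.ε s i j}
  gas : ∀ A ⊆ P, ∀ i ∈ A, Gas Λ i → bD i = M.bb i ∧ XD A 0 i = Z i
  line : ∀ A ⊆ P, ∀ i ∈ A, ∀ π ∈ Λ, i ∈ π →
    M.bb i ≤ bD i ∧ XD A 0 i = fl (-(bD i)) (M.st π (bD i) Z i)
  exit : ∀ i ∈ P, ∀ π ∈ Λ, i ∈ π → ∀ t, bD i < t → t ≤ M.T → ∀ k ∈ π, k ≠ i → M.bb k ≤ t →
    M.ε < dist (M.st π t Z i).1 (M.st π t Z k).1
  last : ∀ i ∈ P, ∀ π ∈ Λ, i ∈ π → bD i = M.bb i ∨ ∃ k, k ≠ i ∧ SC M Z π (bD i) i k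

theorem subset_hat (Λ : Finset (Finset J)) (B : Finset J) : B ⊆ hat Λ B :=
  Finset.subset_union_left

theorem part_subset_hat {Λ : Finset (Finset J)} {B π : Finset J} (hπ : π ∈ Λ) {i : J} (hi : i ∈ B)
    (hiπ : i ∈ π) : π ⊆ hat Λ B := fun x hx =>
  Finset.mem_union_right _ (Finset.mem_biUnion.2 ⟨π, Finset.mem_filter.2 ⟨hπ, i, hi, hiπ⟩, hx⟩)

theorem mem_hat {Λ : Finset (Finset J)} {B : Finset J} {x : J} :
    x ∈ hat Λ B ↔ x ∈ B ∨ ∃ π ∈ Λ, (∃ i ∈ B, i ∈ π) ∧ x ∈ π := by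
  unfold hat
  rw [Finset.mem_union, Finset.mem_biUnion]
  simp only [Finset.mem_filter, id]
  constructor
  · rintro (h | ⟨π, ⟨h1, h2⟩, h3⟩)
    · exact Or.inl h
    · exact Or.inr ⟨π, h1, h2, h3⟩
  · rintro (h | ⟨π, h1, h2, h3⟩)
    · exact Or.inl h
    · exact Or.inr ⟨π, ⟨h1, h2⟩, h3⟩

theorem hat_mono {Λ : Finset (Finset J)} {A B : Finset J} (h : A ⊆ B) : hat Λ A ⊆ hat Λ B := by
  intro x hx
  rw [mem_hat] at hx ⊢
  rcases hx with hx | ⟨π, h1, ⟨i, h2, h3⟩, h4⟩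
  · exact Or.inl (h hx)
  · exact Or.inr ⟨π, h1, ⟨i, h h2, h3⟩, h4⟩

theorem hat_gas {Λ : Finset (Finset J)} {B : Finset J} (h : ∀ i ∈ B, Gas Λ i) : hat Λ B = B := by
  apply Finset.Subset.antisymm _ (subset_hat Λ B)
  intro x hx
  rw [mem_hat] at hx
  rcases hx with hx | ⟨π, h1, ⟨i, h2, h3⟩, _⟩
  · exact hx
  · exact absurd h3 (h i h2 π h1)

theorem hat_one {Λ : Finset (Finset J)} {B π : Finset J} (hπ : π ∈ Λ) (hB : ∃ i ∈ B, i ∈ π)
    (h1 : ∀ π' ∈ Λ, (∃ i ∈ B, i ∈ π') → π' = π) : hat Λ B = B ∪ π := by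
  ext x
  rw [mem_hat, Finset.mem_union]
  constructor
  · rintro (h | ⟨π', h2, h3, h4⟩)
    · exact Or.inl h
    · rw [h1 π' h2 h3] at h4
      exact Or.inr h4
  · rintro (h | h)
    · exact Or.inl h
    · exact Or.inr ⟨π, hπ, hB, h⟩

theorem hat_sub_uni {Λ : Finset (Finset J)} {B : Finset J} :
    hat Λ B ⊆ B ∪ LN304.uni Λ := by
  intro x hx
  rw [mem_hat] at hx
  rcases hx with hx | ⟨π, h1, _, h4⟩
  · exact Finset.mem_union_left _ hx
  · exact Finset.mem_union_right _ (Finset.mem_filter.2 ⟨Finset.mem_univ _, π, h1, h4⟩)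

theorem not_gas {Λ : Finset (Finset J)} {i : J} (h : ¬ Gas Λ i) : ∃ π ∈ Λ, i ∈ π := by
  unfold Gas at h
  push Not at h
  exact h

/-- Own contacts of the derived world `B`. -/
def OC (M : VSys J κ) (bD : J → ℝ) (XD : Finset J → ℝ → J → PhasePoint) (B : Finset J) (t : ℝ)
    (i j : J) : Prop :=
  ∃ s, 0 ≤ s ∧ s ≤ t ∧ CtB bD (XD B) M.ε s i j

theorem OC.symm {M : VSys J κ} {bD : J → ℝ} {XD : Finset J → ℝ → J → PhasePoint} {B : Finset J}
    {t : ℝ} {i j : J} (h : OC M bD XD B t i j) : OC M bD XD B t j i := by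
  obtain ⟨s, h0, h1, h2⟩ := h
  exact ⟨s, h0, h1, h2.symm⟩

namespace Der

variable {M : VSys J κ} {Z : J → PhasePoint} {Λ : Finset (Finset J)} {bD : J → ℝ}
  {XD : Finset J → ℝ → J → PhasePoint} {P : Finset J}

theorem mono (h : Der M Z Λ bD XD P) {Q : Finset J} (hQ : Q ⊆ P) : Der M Z Λ bD XD Q where
  adm := h.adm
  eps := h.eps
  T0 := h.T0
  disj := h.disj
  obs i hi := h.obs i (hat_mono hQ hi)
  okS := h.okS
  okg A hA := h.okg A (hA.trans hQ)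
  conn := h.conn
  world A hA := h.world A (hA.trans hQ)
  closed A hA := h.closed A (hA.trans hQ)
  gas A hA := h.gas A (hA.trans hQ)
  line A hA := h.line A (hA.trans hQ)
  exit i hi := h.exit i (hQ hi)
  last i hi := h.last i (hQ hi)

variable (h : Der M Z Λ bD XD P)
include h

theorem init {A B : Finset J} (hA : A ⊆ P) (hB : B ⊆ P) {i : J} (hiA : i ∈ A) (hiB : i ∈ B) :
    XD A 0 i = XD B 0 i := by
  by_cases hg : Gas Λ i
  · rw [(h.gas A hA i hiA hg).2, (h.gas B hB i hiB hg).2]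
  · obtain ⟨π, hπ, hi⟩ := not_gas hg
    rw [(h.line A hA i hiA π hπ hi).2, (h.line B hB i hiB π hπ hi).2]

/-- Isolated members follow their own world. -/
theorem iso {A C : Finset J} (hA : A ⊆ P) (hCA : C ⊆ A) {t : ℝ} (ht : t ≤ M.T)
    (hno : ∀ s ∈ Ico 0 t, ∀ i ∈ C, ∀ j ∈ A, j ∉ C → ¬ CtB bD (XD A) M.ε s i j) :
    ∀ s ∈ Icc 0 t, ∀ i ∈ C, XD A s i = XD C s i :=
  iso_sub h.adm h.eps hCA (h.world A hA) (h.world C (hCA.trans hA))
    (fun i hi => h.init hA (hCA.trans hA) (hCA hi) hi) ht hno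

/-- **(T2)** Every particle of a sub-world follows a really connected sub-world. -/
theorem comp {A : Finset J} (hA : A ⊆ P) {x : J} (hx : x ∈ A) :
    ∃ C ⊆ A, x ∈ C ∧ CutConn C (OC M bD XD C M.T) ∧
      ∀ s ∈ Icc 0 M.T, ∀ i ∈ C, XD A s i = XD C s i := by
  set 𝒞 : Finset (Finset J) := A.powerset.filter fun C => x ∈ C ∧
    ∀ i ∈ C, ∀ j ∈ A, j ∉ C → ¬ OC M bD XD A M.T i j with h𝒞
  have hne : 𝒞.Nonempty := ⟨A, Finset.mem_filter.2 ⟨Finset.mem_powerset.2 le_rfl, hx,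
    fun i _ j hj hj' => absurd hj hj'⟩⟩
  obtain ⟨C, hC, hmin⟩ := 𝒞.exists_min_image Finset.card hne
  obtain ⟨hCA, hxC, hcl⟩ := Finset.mem_filter.1 hC
  rw [Finset.mem_powerset] at hCA
  have hiso : ∀ s ∈ Icc 0 M.T, ∀ i ∈ C, XD A s i = XD C s i :=
    h.iso hA hCA le_rfl fun s hs i hi j hj hjC hc => hcl i hi j hj hjC ⟨s, hs.1, hs.2.le, hc⟩
  refine ⟨C, hCA, hxC, ⟨⟨x, hxC⟩, fun Q hQ hQn hQC => ?_⟩, hiso⟩
  by_contra hcon
  push Not at hcon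
  -- `Q` and `C \ Q` are not in contact in the world `A`
  have hno : ∀ i ∈ Q, ∀ j ∈ C, j ∉ Q → ¬ OC M bD XD A M.T i j := by
    rintro i hi j hj hjQ ⟨s, h0, h1, h2⟩
    refine (hcon i hi j hj hjQ).1 ⟨s, h0, h1, ?_⟩
    refine ⟨h2.1, h2.2.1, h2.2.2.1, ?_⟩
    rw [← hiso s ⟨h0, h1⟩ i (hQ hi), ← hiso s ⟨h0, h1⟩ j hj]
    exact h2.2.2.2
  have hlt : ∀ Q' : Finset J, Q' ⊆ C → Q' ≠ C → Q'.card < C.card := fun Q' h1 h2 =>
    Finset.card_lt_card (Finset.ssubset_iff_subset_ne.2 ⟨h1, h2⟩)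
  by_cases hxQ : x ∈ Q
  · have h1 : Q ∈ 𝒞 := by
      refine Finset.mem_filter.2 ⟨Finset.mem_powerset.2 (hQ.trans hCA), hxQ,
        fun i hi j hj hjQ => ?_⟩
      by_cases hjC : j ∈ C
      · exact hno i hi j hjC hjQ
      · exact hcl i (hQ hi) j hj hjC
    exact absurd (hmin Q h1) (not_le.2 (hlt Q hQ hQC))
  · have h1 : C \ Q ∈ 𝒞 := by
      refine Finset.mem_filter.2 ⟨Finset.mem_powerset.2 (Finset.sdiff_subset.trans hCA),
        Finset.mem_sdiff.2 ⟨hxC, hxQ⟩, fun i hi j hj hjQ => ?_⟩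
      rw [Finset.mem_sdiff] at hi
      by_cases hjC : j ∈ C
      · have hjQ' : j ∈ Q := by
          by_contra h'
          exact hjQ (Finset.mem_sdiff.2 ⟨hjC, h'⟩)
        exact fun hc => hno j hjQ' i hi.1 hi.2 hc.symm
      · exact hcl i hi.1 j hj hjC
    obtain ⟨y, hy⟩ := hQn
    refine absurd (hmin _ h1) (not_le.2 (hlt _ Finset.sdiff_subset fun h' => ?_))
    have : y ∈ C \ Q := h'.symm ▸ hQ hy
    exact (Finset.mem_sdiff.1 this).2 hy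

/-- The last connecting time of a really connected set. -/
theorem last_time {B : Finset J} (hB : B ⊆ P) (hc : CutConn B (OC M bD XD B M.T)) :
    ∃ t ∈ Icc 0 M.T, CutConn B (OC M bD XD B t) ∧
      ((∃ x, B = {x}) ∨ ∃ Q ⊆ B, Q.Nonempty ∧ Q ≠ B ∧
        ∀ s ∈ Ico 0 t, ∀ i ∈ Q, ∀ j ∈ B, j ∉ Q → ¬ CtB bD (XD B) M.ε s i j) := by
  by_cases hone : ∃ x, B = {x}
  · obtain ⟨x, rfl⟩ := hone
    exact ⟨0, ⟨le_rfl, h.T0⟩, cutConn_singleton x _, Or.inl ⟨x, rfl⟩⟩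
  set 𝒬 : Finset (Finset J) := B.powerset.filter fun Q => Q.Nonempty ∧ Q ≠ B with h𝒬
  -- contact times across a cut
  set TQ : Finset J → Set ℝ := fun Q => {s | s ∈ Icc 0 M.T ∧ ∃ i ∈ Q, ∃ j ∈ B, j ∉ Q ∧
    CtB bD (XD B) M.ε s i j} with hTQ
  have hclosed : ∀ Q ⊆ B, IsClosed (TQ Q) := by
    intro Q hQ
    have h1 : TQ Q = ⋃ p ∈ (Q ×ˢ (B \ Q) : Finset (J × J)),
        {s | s ∈ Icc 0 M.T ∧ CtB bD (XD B) M.ε s p.1 p.2} := by
      ext s
      simp only [hTQ, mem_ofPred_eq, mem_iUnion, Finset.mem_product, Finset.mem_sdiff, exists_prop,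
        Prod.exists]
      constructor
      · rintro ⟨h1, i, hi, j, hj, hjQ, hc⟩
        exact ⟨i, j, ⟨hi, hj, hjQ⟩, h1, hc⟩
      · rintro ⟨i, j, ⟨hi, hj, hjQ⟩, h1, hc⟩
        exact ⟨h1, i, hi, j, hj, hjQ, hc⟩
    rw [h1]
    refine isClosed_biUnion_finset fun p hp => ?_
    rw [Finset.mem_product, Finset.mem_sdiff] at hp
    exact h.closed B hB p.1 (hQ hp.1) p.2 hp.2.1 fun h' => hp.2.2 (h' ▸ hp.1)
  have hmem : ∀ Q ∈ 𝒬, sInf (TQ Q) ∈ TQ Q := by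
    intro Q hQ
    obtain ⟨h1, h2, h3⟩ := Finset.mem_filter.1 hQ
    rw [Finset.mem_powerset] at h1
    obtain ⟨i, hi, j, hj, hjQ, hc'⟩ := hc.2 Q h1 h2 h3
    have hne : (TQ Q).Nonempty := by
      rcases hc' with ⟨s, h4, h5, h6⟩ | ⟨s, h4, h5, h6⟩
      · exact ⟨s, ⟨h4, h5⟩, i, hi, j, hj, hjQ, h6⟩
      · exact ⟨s, ⟨h4, h5⟩, i, hi, j, hj, hjQ, h6.symm⟩
    exact (hclosed Q h1).csInf_mem hne ⟨0, fun s hs => hs.1.1⟩
  have hne : 𝒬.Nonempty := by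
    obtain ⟨x, hx⟩ := hc.1
    refine ⟨{x}, Finset.mem_filter.2 ⟨Finset.mem_powerset.2 (Finset.singleton_subset_iff.2 hx),
      Finset.singleton_nonempty x, fun h' => hone ⟨x, h'.symm⟩⟩⟩
  obtain ⟨Q₁, hQ₁, hmax⟩ := 𝒬.exists_max_image (fun Q => sInf (TQ Q)) hne
  obtain ⟨h1, h2, h3⟩ := Finset.mem_filter.1 hQ₁
  rw [Finset.mem_powerset] at h1
  refine ⟨sInf (TQ Q₁), (hmem Q₁ hQ₁).1, ⟨hc.1, fun Q hQ hQn hQB => ?_⟩, Or.inr
    ⟨Q₁, h1, h2, h3, fun s hs i hi j hj hjQ hct => ?_⟩⟩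
  · have hQ' : Q ∈ 𝒬 := Finset.mem_filter.2 ⟨Finset.mem_powerset.2 hQ, hQn, hQB⟩
    obtain ⟨⟨h4, _⟩, i, hi, j, hj, hjQ, h6⟩ := hmem Q hQ'
    exact ⟨i, hi, j, hj, hjQ, Or.inl ⟨_, h4, hmax Q hQ', h6⟩⟩
  · have hsT : s ≤ M.T := hs.2.le.trans (hmem Q₁ hQ₁).1.2
    have hbdd : BddBelow (TQ Q₁) := ⟨0, fun s hs => hs.1.1⟩
    exact absurd (csInf_le hbdd (show s ∈ TQ Q₁ from ⟨⟨hs.1, hsT⟩, i, hi, j, hj, hjQ, hct⟩))
      (not_le.2 hs.2)

omit h in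
/-- Connectedness of the master set of a connected derived set. -/
theorem cut_hat (h : Der M Z Λ bD XD P) {B : Finset J} {R : J → J → Prop} (hR : CutConn B R) :
    CutConn (hat Λ B) fun i j => (∃ π ∈ Λ, (∃ k ∈ B, k ∈ π) ∧ ∃ r ∈ Icc 0 M.T, SC M Z π r i j) ∨
      (i ∈ B ∧ j ∈ B ∧ R i j) := by
  refine ⟨hR.1.mono (subset_hat Λ B), fun Q hQ hQn hQB => ?_⟩
  by_contra hcon
  push Not at hcon
  -- every part is inside or outside
  have hpart : ∀ π ∈ Λ, (∃ k ∈ B, k ∈ π) → (∃ x ∈ Q, x ∈ π) → π ⊆ Q := by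
    rintro π hπ hk ⟨x, hxQ, hxπ⟩
    by_contra hsub
    have h1 : Q ∩ π ≠ π := fun h' => hsub (h' ▸ Finset.inter_subset_left)
    obtain ⟨i, hi, j, hj, hjQ, h2⟩ := (h.conn π hπ).2 (Q ∩ π) Finset.inter_subset_right
      ⟨x, Finset.mem_inter.2 ⟨hxQ, hxπ⟩⟩ h1
    have hjQ' : j ∉ Q := fun h' => hjQ (Finset.mem_inter.2 ⟨h', hj⟩)
    obtain ⟨k, hkB, hkπ⟩ := hk
    have hjh : j ∈ hat Λ B := part_subset_hat hπ hkB hkπ hj
    have h3 := (hcon i (Finset.mem_inter.1 hi).1 j hjh hjQ')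
    rcases h2 with h2 | h2
    · exact h3.1.1 π hπ ⟨k, hkB, hkπ⟩ h2.choose h2.choose_spec.1 h2.choose_spec.2
    · exact h3.2.1 π hπ ⟨k, hkB, hkπ⟩ h2.choose h2.choose_spec.1 h2.choose_spec.2
  have h1 : (Q ∩ B).Nonempty := by
    obtain ⟨y, hy⟩ := hQn
    rcases mem_hat.1 (hQ hy) with hyB | ⟨π, hπ, ⟨i, hiB, hiπ⟩, hyπ⟩
    · exact ⟨y, Finset.mem_inter.2 ⟨hy, hyB⟩⟩
    · exact ⟨i, Finset.mem_inter.2 ⟨hpart π hπ ⟨i, hiB, hiπ⟩ ⟨y, hy, hyπ⟩ hiπ, hiB⟩⟩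
  have h2 : Q ∩ B ≠ B := by
    intro h'
    refine hQB (Finset.Subset.antisymm hQ fun y hy => ?_)
    have hBQ : B ⊆ Q := h' ▸ Finset.inter_subset_left
    rcases mem_hat.1 hy with hyB | ⟨π, hπ, ⟨i, hiB, hiπ⟩, hyπ⟩
    · exact hBQ hyB
    · exact hpart π hπ ⟨i, hiB, hiπ⟩ ⟨i, hBQ hiB, hiπ⟩ hyπ
  obtain ⟨i, hi, j, hj, hjQ, h3⟩ := hR.2 (Q ∩ B) Finset.inter_subset_right h1 h2
  have hjQ' : j ∉ Q := fun h' => hjQ (Finset.mem_inter.2 ⟨h', hj⟩)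
  have h4 := hcon i (Finset.mem_inter.1 hi).1 j (subset_hat Λ B hj) hjQ'
  rcases h3 with h3 | h3
  · exact h4.1.2 (Finset.mem_inter.1 hi).2 hj h3
  · exact h4.2.2 hj (Finset.mem_inter.1 hi).2 h3

/-- The derived world `B` is the master world `hat B`. -/
def Good (M : VSys J κ) (Z : J → PhasePoint) (Λ : Finset (Finset J)) (bD : J → ℝ)
    (XD : Finset J → ℝ → J → PhasePoint) (c : ℝ) (B : Finset J) : Prop :=
  M.ok (hat Λ B) M.T Z ∧ M.Conn c (hat Λ B) Z ∧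
    (∀ s ∈ Icc 0 M.T, ∀ i ∈ B, bD i ≤ s → M.st (hat Λ B) s Z i = XD B s i) ∧
    (∀ s ∈ Icc 0 M.T, ∀ π ∈ Λ, (∃ k ∈ B, k ∈ π) → ∀ i ∈ π, (i ∈ B → s < bD i) →
      M.st (hat Λ B) s Z i = M.st π s Z i)

theorem obs_hat {B : Finset J} (hB : B ⊆ P) {i : J} (hi : i ∈ hat Λ B) : M.o ≠ some i :=
  h.obs i (hat_mono hB hi)

/-- Data for the key lemma. -/
theorem one {B : Finset J} (hB : B ⊆ P) {π : Finset J} (hπ : π ∈ Λ) (hk : ∃ k ∈ B, k ∈ π)
    (h1 : ∀ π' ∈ Λ, (∃ i ∈ B, i ∈ π') → π' = π) : One M Z π B bD (XD B) where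
  adm := h.adm
  eps := h.eps
  T0 := h.T0
  obs i hi := h.obs_hat hB (by rw [hat_one hπ hk h1]; exact hi)
  world := h.world B hB
  gas i hi hiπ := h.gas B hB i hi fun π' hπ' hi' => hiπ (h1 π' hπ' ⟨i, hi, hi'⟩ ▸ hi')
  line i hi hiπ := h.line B hB i hi π hπ hiπ
  exit i hi hiπ := h.exit i (hB hi) π hπ hiπ
  okS := h.okS π hπ

/-- Gas-only sub-worlds. -/
theorem good_gas {c : ℝ} {B : Finset J} (hB : B ⊆ P) (hg : ∀ i ∈ B, Gas Λ i)
    (hc : M.Conn c (hat Λ B) Z) : Good M Z Λ bD XD c B := by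
  have hhat := hat_gas hg
  have h1 : One M Z ∅ B bD (XD B) := by
    refine ⟨h.adm, h.eps, h.T0, fun i hi => ?_, h.world B hB, fun i hi _ => h.gas B hB i hi (hg i hi),
      fun i _ h' => absurd h' (Finset.notMem_empty i),
      fun i _ h' => absurd h' (Finset.notMem_empty i), fun i h' => absurd h' (Finset.notMem_empty i)⟩
    rw [Finset.union_empty] at hi
    exact h.obs_hat hB (subset_hat Λ B hi)
  have h2 := h1.st_eq_rf (Z := Z) le_rfl fun s _ j k hv => by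
    have h3 := hv.2.1
    rw [Finset.union_empty] at h3
    exact hv.2.2.2.1 ⟨h3, fun h' => absurd h' (Finset.notMem_empty k)⟩
  rw [Finset.union_empty] at h2
  refine ⟨by rw [hhat]; exact h.okg B hB hg, hc, fun s hs i hi _ => ?_, fun s _ π hπ hk => ?_⟩
  · rw [hhat, h2 s hs i hi, One.rf_dg ⟨hi, fun h' => absurd h' (Finset.notMem_empty i)⟩]
  · obtain ⟨k, hk, hkπ⟩ := hk
    exact absurd hkπ (hg k hk π hπ)

section main

variable {c ℓ ς : ℝ} {N : ℕ}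

/-- Contacts of particles following good sub-worlds are virtual contacts. -/
theorem vct_good [Nonempty κ] (hc : 1 ≤ c) {A B G : Finset J} (hAP : A ⊆ P) (hBP : B ⊆ P)
    (hA : Good M Z Λ bD XD c A) (hB : Good M Z Λ bD XD c B) (hAG : hat Λ A ⊆ G)
    (hBG : hat Λ B ⊆ G) {i j : J} (hi : i ∈ A) (hj : j ∈ B) {s : ℝ} (hs : s ∈ Icc 0 M.T)
    (hbi : bD i ≤ s) (hbj : bD j ≤ s) (hd : dist (XD A s i).1 (XD B s j).1 ≤ M.ε) :
    M.VCt c G i j s Z := by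
  refine vct_of_st h.eps hc hAG hBG (subset_hat Λ A hi) (subset_hat Λ B hj)
    (h.obs_hat hAP (subset_hat Λ A hi)) (h.obs_hat hBP (subset_hat Λ B hj)) hs.2 hA.1 hB.1 ?_
  rw [hA.2.2.1 s hs i hi hbi, hB.2.2.1 s hs j hj hbj]
  exact hd

/-- **(T1)** A really connected sub-world of the derived system is a sub-world of the master
system. -/
theorem real [Nonempty κ] (hc : 1 ≤ c) (hℓ : 2 * ℓ ≤ ς) (hN : (P ∪ LN304.uni Λ).card ≤ N)
    (hNB : LN304.NoBad M c ℓ ς Z Λ N) (hNT : LN304.NoTwo M c Z Λ N) {B : Finset J} (hB : B ⊆ P)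
    (hcc : CutConn B (OC M bD XD B M.T)) : Good M Z Λ bD XD c B := by
  induction hn : B.card using Nat.strong_induction_on generalizing B with
  | _ n ih =>
    obtain ⟨t, ht, hct, hcut⟩ := h.last_time hB hcc
    -- contacts before `t` are virtual contacts
    have hvc : ∀ i ∈ B, ∀ j ∈ B, i ≠ j → OC M bD XD B t i j →
        ∃ r ∈ Icc 0 M.T, bD i ≤ r ∧ bD j ≤ r ∧ M.VCt c (hat Λ B) i j r Z := by
      intro i hi j hj hij hoc
      rcases hcut with ⟨x, rfl⟩ | ⟨Q, hQ, hQn, hQB, hno⟩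
      · rw [Finset.mem_singleton] at hi hj
        exact absurd (hi.trans hj.symm) hij
      · -- every particle follows a good sub-world until `t`
        have hgood : ∀ x ∈ B, ∃ C ⊆ B, x ∈ C ∧ Good M Z Λ bD XD c C ∧
            ∀ s ∈ Icc 0 t, XD B s x = XD C s x := by
          intro x hx
          -- the side of the cut
          obtain ⟨D, hD, hDB, hxD, hnoD⟩ : ∃ D ⊆ B, D.card < B.card ∧ x ∈ D ∧
              ∀ s ∈ Ico 0 t, ∀ i ∈ D, ∀ j ∈ B, j ∉ D → ¬ CtB bD (XD B) M.ε s i j := by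
            by_cases hxQ : x ∈ Q
            · exact ⟨Q, hQ, Finset.card_lt_card (Finset.ssubset_iff_subset_ne.2 ⟨hQ, hQB⟩), hxQ,
                hno⟩
            · refine ⟨B \ Q, Finset.sdiff_subset, Finset.card_lt_card
                (Finset.ssubset_iff_subset_ne.2 ⟨Finset.sdiff_subset, fun h' => ?_⟩),
                Finset.mem_sdiff.2 ⟨hx, hxQ⟩, fun s hs i hi j hj hjQ hct => ?_⟩
              · obtain ⟨y, hy⟩ := hQn
                have : y ∈ B \ Q := h'.symm ▸ hQ hy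
                exact (Finset.mem_sdiff.1 this).2 hy
              · rw [Finset.mem_sdiff] at hi
                have hjQ' : j ∈ Q := by
                  by_contra h'
                  exact hjQ (Finset.mem_sdiff.2 ⟨hj, h'⟩)
                exact hno s hs j hjQ' i hi.1 hi.2 hct.symm
          have h1 := h.iso hB hD ht.2 hnoD
          obtain ⟨C, hCD, hxC, hCc, h2⟩ := h.comp (hD.trans hB) hxD
          have hCB : C ⊆ B := hCD.trans hD
          refine ⟨C, hCB, hxC, ih C.card ?_ (hCB.trans hB) hCc rfl, fun s hs => ?_⟩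
          · rw [← hn]
            exact (Finset.card_le_card hCD).trans_lt hDB
          · rw [h1 s hs x hxD, h2 s ⟨hs.1, hs.2.trans ht.2⟩ x hxC]
        obtain ⟨s, h0, hst, hct'⟩ := hoc
        obtain ⟨C, hCB, hiC, hCg, hCe⟩ := hgood i hi
        obtain ⟨D, hDB, hjD, hDg, hDe⟩ := hgood j hj
        have hsT : s ∈ Icc 0 M.T := ⟨h0, hst.trans ht.2⟩
        refine ⟨s, hsT, hct'.1, hct'.2.1, h.vct_good hc (hCB.trans hB) (hDB.trans hB) hCg hDg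
          (hat_mono hCB) (hat_mono hDB) hiC hjD hsT hct'.1 hct'.2.1 ?_⟩
        rw [← hCe s ⟨h0, hst⟩, ← hDe s ⟨h0, hst⟩]
        exact hct'.2.2.2
    -- connectedness of the master set
    have hF := h.cut_hat hct
    have hsubP : ∀ π ∈ Λ, (∃ k ∈ B, k ∈ π) → π ⊆ hat Λ B := fun π hπ ⟨k, hk, hkπ⟩ =>
      part_subset_hat hπ hk hkπ
    have hSCv : ∀ π ∈ Λ, (∃ k ∈ B, k ∈ π) → ∀ r ∈ Icc 0 M.T, ∀ i j, SC M Z π r i j →
        M.VCt c (hat Λ B) i j r Z := by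
      intro π hπ hk r hr i j hsc
      refine vct_of_st h.eps hc (hsubP π hπ hk) (hsubP π hπ hk) hsc.1 hsc.2.1
        (h.obs_hat hB (hsubP π hπ hk hsc.1)) (h.obs_hat hB (hsubP π hπ hk hsc.2.1)) hr.2
        (h.okS π hπ) (h.okS π hπ) hsc.2.2.2.2
    have hconn : M.Conn c (hat Λ B) Z := by
      refine conn_of_cut hF fun i _ j _ hij hf => ?_
      rcases hf with ⟨π, hπ, hk, r, hr, hsc⟩ | ⟨hiB, hjB, hoc⟩
      · exact ⟨r, hr, hSCv π hπ hk r hr i j hsc⟩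
      · obtain ⟨r, hr, _, _, hv⟩ := hvc i hiB j hjB hij hoc
        exact ⟨r, hr, hv⟩
    by_cases hg : ∀ i ∈ B, Gas Λ i
    · exact h.good_gas hB hg hconn
    push Not at hg
    obtain ⟨i₀, hi₀, hi₀g⟩ := hg
    obtain ⟨π, hπ, hi₀π⟩ := not_gas hi₀g
    have hk : ∃ k ∈ B, k ∈ π := ⟨i₀, hi₀, hi₀π⟩
    have hcard : (hat Λ B ∪ LN304.uni Λ).card ≤ N := by
      refine (Finset.card_le_card ?_).trans hN
      refine Finset.union_subset (hat_sub_uni.trans ?_) Finset.subset_union_right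
      exact Finset.union_subset_union_left hB
    have h1 : ∀ π' ∈ Λ, (∃ i ∈ B, i ∈ π') → π' = π := by
      rintro π' hπ' ⟨i, hi, hiπ'⟩
      exact (hNT _ hconn hcard π hπ π' hπ' (hsubP π hπ hk) ⟨i, hiπ', subset_hat Λ B hi⟩).symm
    have hTL := hNB _ hconn ⟨π, hπ, hsubP π hπ hk⟩ hcard
    have hhat := hat_one hπ hk h1
    rw [hhat] at hTL hF hvc
    obtain ⟨h2, h3⟩ := (h.one hB hπ hk h1).key (fun i hi hiπ => h.last i (hB hi) π hπ hiπ) hc hℓ hTL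
      hF (fun i hi j hj hij hf => by
        rcases hf with ⟨π', hπ', hk', r, hr, hsc⟩ | ⟨hiB, hjB, hoc⟩
        · rw [h1 π' hπ' hk'] at hsc
          exact Or.inl ⟨r, hr, hsc⟩
        · exact Or.inr ⟨hiB, hjB, hvc i hiB j hjB hij hoc⟩)
    refine ⟨by rw [hhat]; exact hTL.1 _ le_rfl, hconn, fun s hs i hi hb => ?_,
      fun s hs π' hπ' hk' i hi hb => ?_⟩
    · rw [hhat]
      exact h2 s hs i hi hb
    · rw [h1 π' hπ' hk'] at hi ⊢
      rw [hhat]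
      exact h3 s hs i hi hb

end main

end Der

end Crest.Agent.R122.LemT255

end
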