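import Crest.Agent.R122.LemT3_255

/-!
# Row 122, H11 (LN1), LEMMA T, part 4 (helper255): connected groups of the derived system

`VD Q s i j` : virtual contact of the derived system through sub-worlds of `Q`.

* `vc_of_vd` (T3) : it is a virtual contact of the master system through sub-worlds of `hat Q`.
* `conn_hat` (T4) : a connected group `Q` has a connected master set.
* `one_line` (T5) : it contains exactly one line of its part; `tlg_vd`: it is tree-like.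
* `ret` (T6) : no return to the tubes of the part.
-/

set_option autoImplicit false
set_option linter.unusedSectionVars false

open MeasureTheory Set Filter Topology
open scoped NNReal ENNReal
open Crest.AnalysisR.Kinetic
open Crest.Agent.R122.Flow671 Crest.Agent.R122.Loc45 Crest.Agent.R122.Ins45
open Crest.Agent.R122.VL581 Crest.Agent.R122.VL581.VSys Crest.Agent.R122.VLInst442
open Crest.Agent.R122.Inf879 Crest.Agent.R122.LNg410 Crest.Agent.R122.VLMeas973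

noncomputable section

namespace Crest.Agent.R122.LemT255

open scoped Classical

variable {J κ : Type} [Fintype J]

/-- Virtual contact of the derived system through sub-worlds of `Q`. -/
def VD (M : VSys J κ) (bD : J → ℝ) (XD : Finset J → ℝ → J → PhasePoint) (Q : Finset J) (s : ℝ)
    (i j : J) : Prop :=
  ∃ A ⊆ Q, ∃ B ⊆ Q, i ∈ A ∧ j ∈ B ∧ bD i ≤ s ∧ bD j ≤ s ∧ (bD i < s ∨ bD j < s) ∧
    dist (XD A s i).1 (XD B s j).1 ≤ M.ε

theorem VD.symm {M : VSys J κ} {bD : J → ℝ} {XD : Finset J → ℝ → J → PhasePoint} {Q : Finset J}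
    {s : ℝ} {i j : J} (h : VD M bD XD Q s i j) : VD M bD XD Q s j i := by
  obtain ⟨A, hA, B, hB, hi, hj, h1, h2, h3, h4⟩ := h
  exact ⟨B, hB, A, hA, hj, hi, h2, h1, h3.symm, by rw [dist_comm]; exact h4⟩

/-- Connected group of the derived system. -/
def ConnD (M : VSys J κ) (bD : J → ℝ) (XD : Finset J → ℝ → J → PhasePoint) (Q : Finset J) : Prop :=
  CutConn Q fun i j => ∃ s ∈ Icc 0 M.T, VD M bD XD Q s i j

namespace Der

variable {M : VSys J κ} {Z : J → PhasePoint} {Λ : Finset (Finset J)} {bD : J → ℝ}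
  {XD : Finset J → ℝ → J → PhasePoint} {P : Finset J} {c ℓ ς : ℝ} {N : ℕ}

/-- All hypotheses of Lemma T. -/
structure Hyp (M : VSys J κ) (c ℓ ς : ℝ) (Z : J → PhasePoint) (Λ : Finset (Finset J)) (bD : J → ℝ)
    (XD : Finset J → ℝ → J → PhasePoint) (P : Finset J) (N : ℕ) : Prop where
  der : Der M Z Λ bD XD P
  c1 : 1 ≤ c
  ls : 2 * ℓ ≤ ς
  card : (P ∪ LN304.uni Λ).card ≤ N
  nb : LN304.NoBad M c ℓ ς Z Λ N
  nt : LN304.NoTwo M c Z Λ N

theorem Hyp.mono (h : Hyp M c ℓ ς Z Λ bD XD P N) {Q : Finset J} (hQ : Q ⊆ P) :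
    Hyp M c ℓ ς Z Λ bD XD Q N :=
  ⟨h.der.mono hQ, h.c1, h.ls,
    (Finset.card_le_card (Finset.union_subset_union_left hQ)).trans h.card, h.nb, h.nt⟩

variable [Nonempty κ] (h : Hyp M c ℓ ς Z Λ bD XD P N)
include h

/-- Every particle of a derived sub-world follows a sub-world of the master system. -/
theorem follow {A : Finset J} (hA : A ⊆ P) {x : J} (hx : x ∈ A) :
    ∃ C ⊆ A, x ∈ C ∧ CutConn C (OC M bD XD C M.T) ∧ Good M Z Λ bD XD c C ∧
      ∀ s ∈ Icc 0 M.T, XD A s x = XD C s x := by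
  obtain ⟨C, hCA, hxC, hCc, h1⟩ := h.der.comp hA hx
  exact ⟨C, hCA, hxC, hCc, h.der.real h.c1 h.ls h.card h.nb h.nt (hCA.trans hA) hCc,
    fun s hs => h1 s hs x hxC⟩

/-- The same, stated for the state only. -/
theorem state {A : Finset J} (hA : A ⊆ P) {x : J} (hx : x ∈ A) :
    ∃ C ⊆ A, x ∈ C ∧ M.ok (hat Λ C) M.T Z ∧ M.Conn c (hat Λ C) Z ∧
      ∀ s ∈ Icc 0 M.T, bD x ≤ s → XD A s x = M.st (hat Λ C) s Z x := by
  obtain ⟨C, hCA, hxC, _, hg, h1⟩ := follow h hA hx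
  exact ⟨C, hCA, hxC, hg.1, hg.2.1, fun s hs hb => by rw [h1 s hs, hg.2.2.1 s hs x hxC hb]⟩

/-- **(T3)** -/
theorem vc_of_vd {Q : Finset J} (hQ : Q ⊆ P) {s : ℝ} (hs : s ∈ Icc 0 M.T) {i j : J}
    (hc : VD M bD XD Q s i j) : vc M c (hat Λ Q) Z i j s := by
  obtain ⟨A, hA, B, hB, hi, hj, h1, h2, _, h4⟩ := hc
  obtain ⟨C, hCA, hiC, _, hCg, h5⟩ := follow h (hA.trans hQ) hi
  obtain ⟨D, hDB, hjD, _, hDg, h6⟩ := follow h (hB.trans hQ) hj
  refine ⟨hs, h.der.vct_good h.c1 (hCA.trans (hA.trans hQ)) (hDB.trans (hB.trans hQ)) hCg hDg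
    (hat_mono (hCA.trans hA)) (hat_mono (hDB.trans hB)) hiC hjD hs h1 h2 ?_⟩
  rw [← h5 s hs, ← h6 s hs]
  exact h4

/-- Contacts of a part are virtual contacts. -/
theorem vc_of_sc {G π : Finset J} (hπ : π ∈ Λ) (hG : π ⊆ G) (hobs : ∀ i ∈ π, M.o ≠ some i) {r : ℝ}
    (hr : r ∈ Icc 0 M.T) {i j : J} (hsc : SC M Z π r i j) : vc M c G Z i j r :=
  ⟨hr, vct_of_st h.der.eps h.c1 hG hG hsc.1 hsc.2.1 (hobs i hsc.1) (hobs j hsc.2.1) hr.2
    (h.der.okS π hπ) (h.der.okS π hπ) hsc.2.2.2.2⟩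

/-- **(T4)** -/
theorem conn_hat {Q : Finset J} (hQ : Q ⊆ P) (hc : ConnD M bD XD Q) : M.Conn c (hat Λ Q) Z := by
  refine conn_of_cut (h.der.cut_hat hc) fun i _ j _ hij hf => ?_
  rcases hf with ⟨π, hπ, ⟨k, hk, hkπ⟩, r, hr, hsc⟩ | ⟨_, _, s, hs, hvd⟩
  · refine ⟨r, (vc_of_sc h hπ (part_subset_hat hπ hk hkπ) (fun i hi => ?_) hr hsc)⟩
    exact h.der.obs_hat hQ (part_subset_hat hπ hk hkπ hi)
  · exact ⟨s, vc_of_vd h hQ hs hvd⟩

/-- A connected group with a line belongs to one part and is tree-like. -/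
theorem single {Q : Finset J} (hQ : Q ⊆ P) (hc : ConnD M bD XD Q) {π : Finset J} (hπ : π ∈ Λ)
    {a : J} (ha : a ∈ Q) (haπ : a ∈ π) :
    LN304.TL M c ℓ ς (hat Λ Q) Z ∧ hat Λ Q = Q ∪ π ∧
      ∀ π' ∈ Λ, (∃ i ∈ Q, i ∈ π') → π' = π := by
  have hconn := conn_hat h hQ hc
  have hsub : π ⊆ hat Λ Q := part_subset_hat hπ ha haπ
  have hcard : (hat Λ Q ∪ LN304.uni Λ).card ≤ N := by
    refine (Finset.card_le_card ?_).trans h.card
    refine Finset.union_subset (hat_sub_uni.trans ?_) Finset.subset_union_right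
    exact Finset.union_subset_union_left hQ
  have h1 : ∀ π' ∈ Λ, (∃ i ∈ Q, i ∈ π') → π' = π := by
    rintro π' hπ' ⟨i, hi, hiπ'⟩
    exact (h.nt _ hconn hcard π hπ π' hπ' hsub ⟨i, hiπ', subset_hat Λ Q hi⟩).symm
  exact ⟨h.nb _ hconn ⟨π, hπ, hsub⟩ hcard, hat_one hπ ⟨a, ha, haπ⟩ h1, h1⟩

/-- Connectedness by virtual contacts. -/
theorem cut_vc {Q : Finset J} (hQ : Q ⊆ P) (hc : ConnD M bD XD Q) :
    CutConn (hat Λ Q) fun i j => ∃ t, vc M c (hat Λ Q) Z i j t :=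
  conn_iff.1 (conn_hat h hQ hc)

/-- Separation of times, in the form used below. -/
theorem sepD {Q : Finset J} (hQ : Q ⊆ P) (hc : ConnD M bD XD Q) {π : Finset J} (hπ : π ∈ Λ)
    {a : J} (ha : a ∈ Q) (haπ : a ∈ π) {i j k l : J} {t t' t'' : ℝ} (hi : i ∈ hat Λ Q)
    (hj : j ∈ hat Λ Q) (hij : i ≠ j) (hk : k ∈ hat Λ Q) (hl : l ∈ hat Λ Q) (hkl : k ≠ l)
    (h1 : vc M c (hat Λ Q) Z i j t) (h2 : vc M c (hat Λ Q) Z i j t')
    (h3 : vc M c (hat Λ Q) Z k l t'') (ht : t ≤ t'') (ht' : t'' ≤ t') :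
    (i = k ∧ j = l) ∨ (i = l ∧ j = k) :=
  (single h hQ hc hπ ha haπ).1.2.sep (cut_vc h hQ hc) h.ls hi hj hij hk hl hkl h1 h2 h3 ht ht'

/-- The contacts in the part are before the exit. -/
theorem sc_le_exit {π : Finset J} (hπ : π ∈ Λ) {a b : J} (haP : a ∈ P) (hab : a ≠ b) {r : ℝ}
    (hr : r ≤ M.T) (hsc : SC M Z π r a b) : r ≤ bD a := by
  by_contra hcon
  exact absurd hsc.2.2.2.2 (not_le.2 (h.der.exit a haP π hπ hsc.1 r (not_le.1 hcon) hr b hsc.2.1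
    hab.symm hsc.2.2.2.1))

/-- **Free after the exit**: in the window of the edge `{a, b}` of the part, the line `a` is free in
its really connected derived world, if `b` is not there or leaves at the same time. -/
theorem free_exit {Q : Finset J} (hQ : Q ⊆ P) (hc : ConnD M bD XD Q) {π : Finset J} (hπ : π ∈ Λ)
    {C : Finset J} (hCQ : C ⊆ Q) (hCc : CutConn C (OC M bD XD C M.T)) {a b : J} (ha : a ∈ C)
    (haπ : a ∈ π) (hbπ : b ∈ π) (hab : a ≠ b) {r s : ℝ} (hra : r ≤ bD a)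
    (hs : bD a ≤ s) (hsT : s ≤ M.T) (hr : vc M c (hat Λ Q) Z a b r)
    (hs' : vc M c (hat Λ Q) Z a b s) (hb : b ∈ C → bD b = bD a) :
    XD C s a = M.st π s Z a := by
  have hD := h.der
  have hCP : C ⊆ P := hCQ.trans hQ
  have haQ := hCQ ha
  have hπQ : π ⊆ hat Λ Q := part_subset_hat hπ haQ haπ
  have ha0 : 0 ≤ bD a := (bb_nonneg M a).trans (hD.line C hCP a ha π hπ haπ).1
  have hsep : ∀ {k l : J} {u : ℝ}, k ∈ hat Λ Q → l ∈ hat Λ Q → k ≠ l →
      vc M c (hat Λ Q) Z k l u → bD a ≤ u → u ≤ s → (a = k ∧ b = l) ∨ (a = l ∧ b = k) :=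
    fun hk hl hkl hv hu hu' => sepD h hQ hc hπ haQ haπ (hπQ haπ) (hπQ hbπ) hab hk hl hkl hr hs' hv
      (hra.trans hu) hu'
  have hvcC : ∀ {x z : J} {u : ℝ}, x ∈ C → z ∈ C → x ≠ z → 0 ≤ u → u ≤ M.T →
      CtB bD (XD C) M.ε u x z → vc M c (hat Λ Q) Z x z u := by
    intro x z u hx hz hxz h0 hu hct
    refine vc_of_vd h hQ ⟨h0, hu⟩ ⟨C, hCQ, C, hCQ, hx, hz, hct.1, hct.2.1, ?_, hct.2.2.2⟩
    exact hct.2.2.1.resolve_left hxz
  have hworld := (hD.world C hCP)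
  -- no contact of `a` on `[bD a, s]`
  have hno : ∀ u ∈ Icc (bD a) s, ∀ z ∈ C, z ≠ a → ¬ CtB bD (XD C) M.ε u a z := by
    by_contra hcon
    push Not at hcon
    set K : Set ℝ := {u | u ∈ Icc (bD a) s ∧ ∃ z ∈ C, z ≠ a ∧ CtB bD (XD C) M.ε u a z} with hK
    have hKne : K.Nonempty := by
      obtain ⟨u, hu, z, hz, hza, hct⟩ := hcon
      exact ⟨u, hu, z, hz, hza, hct⟩
    have hKcl : IsClosed K := by
      have h1 : K = Icc (bD a) s ∩ ⋃ z ∈ C.erase a,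
          {u | u ∈ Icc 0 M.T ∧ CtB bD (XD C) M.ε u a z} := by
        ext u
        simp only [hK, mem_ofPred_eq, mem_inter_iff, mem_iUnion, Finset.mem_erase, exists_prop]
        constructor
        · rintro ⟨h1, z, hz, hza, hct⟩
          exact ⟨h1, z, ⟨hza, hz⟩, ⟨ha0.trans h1.1, h1.2.trans hsT⟩, hct⟩
        · rintro ⟨h1, z, ⟨hza, hz⟩, _, hct⟩
          exact ⟨h1, z, hz, hza, hct⟩
      rw [h1]
      refine isClosed_Icc.inter (isClosed_biUnion_finset fun z hz => ?_)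
      rw [Finset.mem_erase] at hz
      exact hD.closed C hCP a ha z hz.2 hz.1.symm
    have hKb : BddBelow K := ⟨bD a, fun u hu => hu.1.1⟩
    obtain ⟨huI, z, hz, hza, hct⟩ := hKcl.csInf_mem hKne hKb
    set u := sInf K with hu
    have hu0 : 0 ≤ u := ha0.trans huI.1
    have huT : u ≤ M.T := huI.2.trans hsT
    have hzb : z = b := by
      rcases hsep (subset_hat Λ Q haQ) (subset_hat Λ Q (hCQ hz)) hza.symm
        (hvcC ha hz hza.symm hu0 huT hct) huI.1 huI.2 with ⟨_, h1⟩ | ⟨h1, _⟩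
      · exact h1.symm
      · exact absurd h1.symm hza
    subst hzb
    have hbe := hb hz
    have hlt : bD a < u := by
      rcases hct.2.2.1 with h1 | h1 | h1
      · exact absurd h1.symm hza
      · exact h1
      · rwa [hbe] at h1
    -- before `u` neither `a` nor `z` has a contact
    have hbefore : ∀ u' ∈ Ico (bD a) u, ∀ y ∈ C, y ≠ a → ¬ CtB bD (XD C) M.ε u' a y := by
      intro u' hu' y hy hya hct'
      exact absurd (csInf_le hKb (show u' ∈ K from ⟨⟨hu'.1, hu'.2.le.trans huI.2⟩, y, hy, hya, hct'⟩))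
        (not_le.2 hu'.2)
    have hbefore' : ∀ u' ∈ Ico (bD a) u, ∀ y ∈ C, y ≠ z → ¬ CtB bD (XD C) M.ε u' z y := by
      intro u' hu' y hy hyz hct'
      have h0 : 0 ≤ u' := ha0.trans hu'.1
      rcases hsep (subset_hat Λ Q (hCQ hz)) (subset_hat Λ Q (hCQ hy)) hyz.symm
        (hvcC hz hy hyz.symm h0 (hu'.2.le.trans huT) hct') hu'.1 (hu'.2.le.trans huI.2) with
        ⟨h1, _⟩ | ⟨h1, _⟩
      · exact hza h1.symm
      · rw [← h1] at hct'
        exact hbefore u' hu' z hz hza hct'.symm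
    have hfree : ∀ x ∈ C, x ∈ π → bD x = bD a →
        (∀ u' ∈ Ico (bD a) u, ∀ y ∈ C, y ≠ x → ¬ CtB bD (XD C) M.ε u' x y) →
        XD C u x = M.st π u Z x := by
      intro x hx hxπ hbx hnox
      have hone : One M Z π C bD (XD C) := hD.one hCP hπ ⟨a, ha, haπ⟩ (fun π' hπ' ⟨i, hi, hi'⟩ =>
        (single h hQ hc hπ haQ haπ).2.2 π' hπ' ⟨i, hCQ hi, hi'⟩)
      have h1 : XD C u x = fl (u - bD x) (XD C (bD x) x) := by
        rw [hbx]
        refine free_of_far hD.adm hD.eps hworld (i := ⟨x, hx⟩) ha0 huI.1 huT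
          fun u' hu' hbu y hyx hby => ?_
        refine far_of_no_ctB (hworld.mono ha0 le_rfl) (i := ⟨x, hx⟩) (j := y) (t := u) huT
          (fun v hv hcv => ?_) hu' hbu hby
        refine hnox v hv y y.2 (fun h' => hyx (Subtype.ext h')) ?_
        exact ⟨hcv.1, hcv.2.1, hcv.2.2.1.imp (fun h => congrArg Subtype.val h) id, hcv.2.2.2⟩
      rw [h1, hone.at_birth hx hxπ (by rw [hbx]; exact hlt.le.trans huT),
        ← hone.free_S hx hxπ (by rw [hbx]; exact huI.1) huT]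
    have h1 := hct.2.2.2
    rw [hfree a ha haπ rfl hbefore, hfree z hz hbπ hbe hbefore'] at h1
    exact absurd h1 (not_le.2 (hD.exit a (hCP ha) π hπ haπ u hlt huT z hbπ hza
      ((hD.line C hCP z hz π hπ hbπ).1.trans (hbe.le.trans hlt.le))))
  have hone : One M Z π C bD (XD C) := hD.one hCP hπ ⟨a, ha, haπ⟩ (fun π' hπ' ⟨i, hi, hi'⟩ =>
    (single h hQ hc hπ haQ haπ).2.2 π' hπ' ⟨i, hCQ hi, hi'⟩)
  have h1 : XD C s a = fl (s - bD a) (XD C (bD a) a) := by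
    refine free_of_far hD.adm hD.eps hworld (i := ⟨a, ha⟩) ha0 hs hsT
      fun u' hu' hbu y hyx hby => ?_
    refine far_of_no_ctB (hworld.mono ha0 le_rfl) (i := ⟨a, ha⟩) (j := y) (t := s) hsT
      (fun v hv hcv => ?_) hu' hbu hby
    refine hno v ⟨hv.1, hv.2.le⟩ y y.2 (fun h' => hyx (Subtype.ext h')) ?_
    exact ⟨hcv.1, hcv.2.1, hcv.2.2.1.imp (fun h => congrArg Subtype.val h) id, hcv.2.2.2⟩
  rw [h1, hone.at_birth ha haπ (hs.trans hsT), ← hone.free_S ha haπ hs hsT]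

/-- No pair of lines of a connected group has contacts in the part and in the derived system. -/
theorem no_double {Q : Finset J} (hQ : Q ⊆ P) (hc : ConnD M bD XD Q) {π : Finset J} (hπ : π ∈ Λ)
    {a b : J} (ha : a ∈ Q) (hb : b ∈ Q) (hab : a ≠ b) {r s : ℝ} (hr : r ∈ Icc 0 M.T)
    (hsc : SC M Z π r a b) (hs : s ∈ Icc 0 M.T) (hvd : VD M bD XD Q s a b) : False := by
  have hD := h.der
  have haπ : a ∈ π := hsc.1
  have hbπ : b ∈ π := hsc.2.1
  have hπQ : π ⊆ hat Λ Q := part_subset_hat hπ ha haπ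
  have hobs : ∀ i ∈ π, M.o ≠ some i := fun i hi => hD.obs_hat hQ (hπQ hi)
  have hra := sc_le_exit h hπ (hQ ha) hab hr.2 hsc
  have hrb := sc_le_exit h hπ (hQ hb) hab.symm hr.2 hsc.symm
  have hvr := vc_of_sc h hπ hπQ hobs hr hsc
  have hvs := vc_of_vd h hQ hs hvd
  have hbas : bD a ≤ s := by obtain ⟨_, _, _, _, _, _, h1, _⟩ := hvd; exact h1
  have hbbs : bD b ≤ s := by obtain ⟨_, _, _, _, _, _, _, h1, _⟩ := hvd; exact h1
  have hstr : bD a < s ∨ bD b < s := by obtain ⟨_, _, _, _, _, _, _, _, h1, _⟩ := hvd; exact h1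
  -- the last contact of each of them is with the other one
  have hlast : ∀ x ∈ Q, ∀ y ∈ Q, x ≠ y → x ∈ π → y ∈ π → SC M Z π r x y → r ≤ bD x → r ≤ bD y →
      bD x ≤ s → vc M c (hat Λ Q) Z x y r → vc M c (hat Λ Q) Z x y s → bD x ≤ bD y := by
    intro x hx y hy hxy hxπ hyπ hscx hrx hry hxs hvr hvs
    rcases hD.last x (hQ hx) π hπ hxπ with h1 | ⟨k, hkx, hk⟩
    · have h2 : r = M.bb x := le_antisymm (h1 ▸ hrx) hscx.2.2.1
      rw [h1, ← h2]
      exact hry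
    · have hxT : bD x ≤ M.T := hxs.trans hs.2
      have h0 : 0 ≤ bD x := hr.1.trans hrx
      have h2 := sepD h hQ hc hπ hx hxπ (hπQ hxπ) (hπQ hyπ) hxy (hπQ hxπ) (hπQ hk.2.1) hkx.symm hvr
        hvs (vc_of_sc h hπ hπQ hobs ⟨h0, hxT⟩ hk) hrx hxs
      have h3 : y = k := by
        rcases h2 with ⟨_, h2⟩ | ⟨h2, _⟩
        · exact h2
        · exact absurd h2.symm hkx
      subst h3
      exact sc_le_exit h hπ (hQ hy) hkx hxT hk.symm
  have hab1 := hlast a ha b hb hab haπ hbπ hsc hra hrb hbas hvr hvs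
  have hab2 := hlast b hb a ha hab.symm hbπ haπ hsc.symm hrb hra hbbs (vc_symm hvr) (vc_symm hvs)
  have heq : bD b = bD a := le_antisymm hab2 hab1
  have hlt : bD a < s := by
    rcases hstr with h1 | h1
    · exact h1
    · rwa [heq] at h1
  obtain ⟨A, hA, B, hB, hiA, hjB, _, _, _, hd⟩ := hvd
  obtain ⟨C, hCA, haC, hCc, _, h5⟩ := follow h (hA.trans hQ) hiA
  obtain ⟨D, hDB, hbD, hDc, _, h6⟩ := follow h (hB.trans hQ) hjB
  have e1 := free_exit h hQ hc hπ (hCA.trans hA) hCc haC haπ hbπ hab hra hbas hs.2 hvr hvs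
    fun _ => heq
  have e2 := free_exit h hQ hc hπ (hDB.trans hB) hDc hbD hbπ haπ hab.symm hrb hbbs hs.2
    (vc_symm hvr) (vc_symm hvs) fun _ => heq.symm
  rw [h5 s hs, h6 s hs, e1, e2] at hd
  exact absurd hd (not_le.2 (hD.exit a (hQ ha) π hπ haπ s hlt hs.2 b hbπ hab.symm
    (hsc.2.2.2.1.trans (hrb.trans hbbs))))

/-- **(T5)** A connected group contains at most one line of its part. -/
theorem one_line {Q : Finset J} (hQ : Q ⊆ P) (hc : ConnD M bD XD Q) {π : Finset J} (hπ : π ∈ Λ)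
    {a b : J} (ha : a ∈ Q) (haπ : a ∈ π) (hb : b ∈ Q) (hbπ : b ∈ π) : a = b := by
  have hD := h.der
  obtain ⟨hTL, hhat, _⟩ := single h hQ hc hπ ha haπ
  have hπQ : π ⊆ hat Λ Q := part_subset_hat hπ ha haπ
  have hobs : ∀ i ∈ π, M.o ≠ some i := fun i hi => hD.obs_hat hQ (hπQ hi)
  have h1 := hTL.2.card_inter_le_one (cut_vc h hQ hc) hπQ (subset_hat Λ Q)
    (F₁ := fun i j => ∃ r ∈ Icc 0 M.T, SC M Z π r i j)
    (F₂ := fun i j => ∃ s ∈ Icc 0 M.T, VD M bD XD Q s i j) (hD.conn π hπ) hc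
    (fun i _ j _ _ ⟨r, hr, hsc⟩ => ⟨r, Or.inl (vc_of_sc h hπ hπQ hobs hr hsc)⟩)
    (fun i _ j _ _ ⟨s, hs, hvd⟩ => ⟨s, Or.inl (vc_of_vd h hQ hs hvd)⟩)
    (fun i hi j hj hij h1 h2 => by
      rw [Finset.mem_inter] at hi hj
      have h3 : ∃ r ∈ Icc 0 M.T, SC M Z π r i j := by
        rcases h1 with h1 | ⟨r, hr, h1⟩
        · exact h1
        · exact ⟨r, hr, h1.symm⟩
      have h4 : ∃ s ∈ Icc 0 M.T, VD M bD XD Q s i j := by
        rcases h2 with h2 | ⟨s, hs, h2⟩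
        · exact h2
        · exact ⟨s, hs, h2.symm⟩
      obtain ⟨r, hr, h3⟩ := h3
      obtain ⟨s, hs, h4⟩ := h4
      exact no_double h hQ hc hπ hi.2 hj.2 hij hr h3 hs h4)
  rw [Finset.card_le_one] at h1
  exact h1 a (Finset.mem_inter.2 ⟨haπ, ha⟩) b (Finset.mem_inter.2 ⟨hbπ, hb⟩)

/-- (T5) A connected group with a line is tree-like in the derived system. -/
theorem tlg_vd {Q : Finset J} (hQ : Q ⊆ P) (hc : ConnD M bD XD Q) {π : Finset J} (hπ : π ∈ Λ)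
    {a : J} (ha : a ∈ Q) (haπ : a ∈ π) :
    TLg Q (fun i j s => s ∈ Icc 0 M.T ∧ VD M bD XD Q s i j) ℓ ς := by
  obtain ⟨hTL, _, _⟩ := single h hQ hc hπ ha haπ
  have h1 : CutConn Q fun i j => ∃ t, vc M c (hat Λ Q) Z i j t :=
    hc.mono fun i _ j _ _ ⟨s, hs, hvd⟩ => Or.inl ⟨s, vc_of_vd h hQ hs hvd⟩
  exact (hTL.2.sub (cut_vc h hQ hc) (subset_hat Λ Q) h1).mono
    fun i _ j _ _ t ht => vc_of_vd h hQ ht.1 ht.2

/-- (T5) No contact of the line at its exit time. -/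
theorem no_birth_contact {Q : Finset J} (hQ : Q ⊆ P) (hc : ConnD M bD XD Q) {π : Finset J}
    (hπ : π ∈ Λ) {a z : J} (ha : a ∈ Q) (haπ : a ∈ π) (hz : z ∈ Q) (hza : z ≠ a) {s : ℝ}
    (hs : s ∈ Icc 0 M.T) (hvd : VD M bD XD Q s a z) : bD a < s ∨ bD a = M.bb a := by
  have hbas : bD a ≤ s := by obtain ⟨_, _, _, _, _, _, h1, _⟩ := hvd; exact h1
  rcases hbas.lt_or_eq with h1 | h1
  · exact Or.inl h1
  rcases h.der.last a (hQ ha) π hπ haπ with h2 | ⟨k, hka, hk⟩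
  · exact Or.inr h2
  exfalso
  have hπQ : π ⊆ hat Λ Q := part_subset_hat hπ ha haπ
  have hobs : ∀ i ∈ π, M.o ≠ some i := fun i hi => h.der.obs_hat hQ (hπQ hi)
  rw [h1] at hk
  have hvs := vc_of_vd h hQ hs hvd
  have h3 := sepD h hQ hc hπ ha haπ (hπQ haπ) (subset_hat Λ Q hz) hza.symm (hπQ haπ)
    (hπQ hk.2.1) hka.symm hvs hvs (vc_of_sc h hπ hπQ hobs hs hk) le_rfl le_rfl
  have h4 : z = k := by
    rcases h3 with ⟨_, h3⟩ | ⟨h3, _⟩
    · exact h3
    · exact absurd h3.symm hka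
  subst h4
  exact hza (one_line h hQ hc hπ ha haπ hz hk.2.1).symm

end Der

end Crest.Agent.R122.LemT255

end
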