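import Crest.Agent.R122.Decomp1_285
import Crest.Agent.R122.Weight2_984

/-!
# INEQUALITY 1 (row 122, board H2): pointwise inequality with the weights

`pointwise1`: for one configuration (fresh cluster opened, base world `Z = w₁`), the weighted touch
functional of the line `l` in the world `w = Z + E + c` is bounded by the weighted touch functionals
of its successors in the world `Z`, of the exits of the cluster in `Z`, resp. of pairs of lines,
up to touches before `t*` and the mass of linked test lines.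
-/

set_option autoImplicit false

open MeasureTheory Set
open scoped ENNReal
open Crest.Agent.R122.Decomp285 Crest.Agent.R122.Weight984

namespace Crest.Agent.R122.Line285

variable {Ob : Type*} [DecidableEq Ob]

/-- (S2) for a test line with touch times `τ G` in the worlds `Z + G`, `G ⊆ F`. -/
def UnlT (θ : Finset Ob → Ob → ℝ) (τ : Finset Ob → ℝ) (F : Finset Ob) : Prop :=
  ∀ G ⊆ F, ∀ a ∈ F, a ∉ G → τ G ≤ θ G a → τ (insert a G) ≤ τ G

theorem UnlT.mono {θ : Finset Ob → Ob → ℝ} {τ : Finset Ob → ℝ} {F F' : Finset Ob}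
    (h : UnlT θ τ F) (hF : F' ⊆ F) : UnlT θ τ F' :=
  fun G hG a ha haG => h G (hG.trans hF) a (hF ha) haG

/-- A test line which touches `Z + A₀` not later than the first touch of the family touches
`Z + A₀ + G` not later. -/
theorem UnlT.touch {θ : Finset Ob → Ob → ℝ} {τ : Finset Ob → ℝ} {F A₀ : Finset Ob}
    (hU : Unl θ F) (h : UnlT θ τ F) (hA : A₀ ⊆ F) {s : ℝ} (hs : ∀ a ∈ F, a ∉ A₀ → s ≤ θ A₀ a)
    (hτ : τ A₀ ≤ s) : ∀ G : Finset Ob, G ⊆ F → τ (G ∪ A₀) ≤ τ A₀ := by
  intro G
  induction G using Finset.induction_on with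
  | empty => intro _; rw [Finset.empty_union]
  | insert a G haG ih =>
    intro hG
    have hGF : G ⊆ F := (Finset.subset_insert a G).trans hG
    have haF : a ∈ F := hG (Finset.mem_insert_self a G)
    by_cases haA : a ∈ A₀
    · rw [Finset.insert_union, Finset.insert_eq_of_mem (Finset.mem_union_right _ haA)]
      exact ih hGF
    · rw [Finset.insert_union]
      have h1 := ih hGF
      refine le_trans (h (G ∪ A₀) (Finset.union_subset hGF hA) a haF ?_ ?_) h1
      · rw [Finset.mem_union, not_or]; exact ⟨haG, haA⟩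
      · exact (h1.trans hτ).trans (hU.le_touch hA hs G hGF a haF haA haG)

variable {Λ : Type*} [MeasurableSpace Λ]

/-- Weighted touch at time `θ` in the window `(tw, te]`, left-limit weight. -/
noncomputable def tW (L tw te : ℝ) (ν : Measure Λ) (τ : Λ → ℝ) (θ : ℝ) : ℝ≥0∞ :=
  open scoped Classical in if tw < θ ∧ θ ≤ te then W L (XRm ν τ θ) else 0

/-- Weighted touch of a pair (times `θ₁ ≤ θ₂`, worlds `Z` and `Z + d`). -/
noncomputable def tP (L tw te : ℝ) (ν : Measure Λ) (τ τ' : Λ → ℝ) (θ₁ θ₂ : ℝ) : ℝ≥0∞ :=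
  open scoped Classical in
  if tw < θ₁ ∧ θ₁ ≤ θ₂ ∧ θ₂ ≤ te then min (W L (XR ν τ θ₁)) (W L (XRm ν τ' θ₂)) else 0

/-- Indicator of a touch before `tw`. -/
noncomputable def tB (tw θ : ℝ) : ℝ≥0∞ := open scoped Classical in if θ ≤ tw then 1 else 0

theorem tW_le_one {L tw te : ℝ} (hL : 0 ≤ L) (ν : Measure Λ) (τ : Λ → ℝ) (θ : ℝ) :
    tW L tw te ν τ θ ≤ 1 := by
  unfold tW
  split_ifs
  · exact W_le_one hL _
  · exact zero_le_one

theorem tP_le_one {L tw te : ℝ} (hL : 0 ≤ L) (ν : Measure Λ) (τ τ' : Λ → ℝ) (θ₁ θ₂ : ℝ) :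
    tP L tw te ν τ τ' θ₁ θ₂ ≤ 1 := by
  unfold tP
  split_ifs
  · exact (min_le_left _ _).trans (W_le_one hL _)
  · exact zero_le_one

/-- **INEQUALITY 1, pointwise.** -/
theorem pointwise1 {θ : Finset Ob → Ob → ℝ} {E : Finset Ob} {c l' c' : Ob}
    (hc : c ∉ E) (hl' : l' ∉ E) (hc' : c' ∉ E) (hlc : l' ≠ c')
    {F : Finset Ob} (hF : F = insert c (insert l' (insert c' E))) (hU1 : Unl θ (insert c E))
    (hU2 : Unl θ (insert l' (insert c' E)))
    {θl : ℝ} (hOne : min (θ E c) (min (θ E l') (θ (insert l' E) c')) ≤ θl)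
    {L tw te : ℝ} (hL : 0 < L) (ν : Measure Λ) (τ : Λ → Finset Ob → ℝ) (N : Set Λ)
    (hN : ∀ x, x ∉ N → UnlT θ (τ x) (insert c E)) (big : Prop) [Decidable big] :
    tW L tw te ν (fun x => τ x (insert c E)) θl ≤
      (∑ k ∈ {c, l', c'}, (tW L tw te ν (fun x => τ x ∅) (θ ∅ k) + tB tw (θ ∅ k))) +
      (if big then ∑ d ∈ E, tW L tw te ν (fun x => τ x ∅) (θ ∅ d) else
        ∑ d ∈ E, ∑ e ∈ F.erase d,
          tP L tw te ν (fun x => τ x ∅) (fun x => τ x {d}) (θ ∅ d) (θ {d} e)) +
      ∑ d ∈ E, tB tw (θ ∅ d) + ENNReal.ofReal L * ν N := by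
  classical
  by_cases hcase : tw < θl ∧ θl ≤ te
  swap
  · have h0 : tW L tw te ν (fun x => τ x (insert c E)) θl = 0 := by
      unfold tW; rw [if_neg hcase]
    rw [h0]; exact zero_le
  have h0 : tW L tw te ν (fun x => τ x (insert c E)) θl =
      W L (XRm ν (fun x => τ x (insert c E)) θl) := by unfold tW; rw [if_pos hcase]
  rw [h0]
  have hcF : c ∈ F := by rw [hF]; simp
  have hEF : E ⊆ F := by
    rw [hF]
    exact fun x hx => Finset.mem_insert_of_mem (Finset.mem_insert_of_mem
      (Finset.mem_insert_of_mem hx))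
  have hcE : insert c E ⊆ F := Finset.insert_subset hcF hEF
  have hU' : Unl θ (insert c E) := hU1
  rcases decomp1 hc hl' hc' hlc hF hU1 hU2 hOne with ⟨k, hk, hkmin, hkl⟩ | ⟨d, hdE, hdmin, hdl, e, heF,
    hed, hemin, hde, hel⟩
  · -- NS
    have hcons : Cons1 (fun x => τ x ∅) (fun x => τ x (insert c E)) (θ ∅ k) N := by
      refine ⟨fun x hx hle => ?_⟩
      have h1 := UnlT.touch hU' (hN x hx) (Finset.empty_subset _) (s := θ ∅ k)
        (fun a ha _ => hkmin a (hcE ha)) hle (insert c E) subset_rfl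
      rwa [Finset.union_empty] at h1
    have h1 : W L (XRm ν (fun x => τ x (insert c E)) θl) ≤
        W L (XRm ν (fun x => τ x ∅) (θ ∅ k)) + ENNReal.ofReal L * ν N :=
      (W_anti hL.le (XRm_mono hkl)).trans (hcons.W_XRm_le hL le_rfl)
    have hkmem : k ∈ ({c, l', c'} : Finset Ob) := by
      simp only [Finset.mem_insert, Finset.mem_singleton]; exact hk
    have h2 : W L (XRm ν (fun x => τ x ∅) (θ ∅ k)) ≤
        tW L tw te ν (fun x => τ x ∅) (θ ∅ k) + tB tw (θ ∅ k) := by
      by_cases htw : tw < θ ∅ k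
      · have : tW L tw te ν (fun x => τ x ∅) (θ ∅ k) = W L (XRm ν (fun x => τ x ∅) (θ ∅ k)) := by
          unfold tW; rw [if_pos ⟨htw, hkl.trans hcase.2⟩]
        rw [this]; exact le_self_add
      · have : tB tw (θ ∅ k) = 1 := by unfold tB; rw [if_pos (not_lt.1 htw)]
        rw [this]
        exact (W_le_one hL.le _).trans le_add_self
    have h3 := h2.trans (Finset.single_le_sum
      (f := fun k => tW L tw te ν (fun x => τ x ∅) (θ ∅ k) + tB tw (θ ∅ k))
      (fun _ _ => zero_le) hkmem)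
    refine h1.trans (add_le_add ?_ le_rfl)
    exact h3.trans ((le_self_add.trans le_self_add))
  · -- SP
    by_cases htw : tw < θ ∅ d
    swap
    · have h1 : (1 : ℝ≥0∞) ≤ ∑ d ∈ E, tB tw (θ ∅ d) := by
        have h2 : tB tw (θ ∅ d) = 1 := by unfold tB; rw [if_pos (not_lt.1 htw)]
        rw [← h2]
        exact Finset.single_le_sum (f := fun d => tB tw (θ ∅ d)) (fun _ _ => zero_le) hdE
      refine ((W_le_one hL.le _).trans h1).trans ?_
      exact le_add_self.trans le_self_add
    have hcons1 : Cons1 (fun x => τ x ∅) (fun x => τ x (insert c E)) (θ ∅ d) N := by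
      refine ⟨fun x hx hle => ?_⟩
      have h1 := UnlT.touch hU' (hN x hx) (Finset.empty_subset _) (s := θ ∅ d)
        (fun a ha _ => hdmin a (hcE ha)) hle (insert c E) subset_rfl
      rwa [Finset.union_empty] at h1
    by_cases hbig : big
    · have h1 : W L (XRm ν (fun x => τ x (insert c E)) θl) ≤
          W L (XRm ν (fun x => τ x ∅) (θ ∅ d)) + ENNReal.ofReal L * ν N :=
        (W_anti hL.le (XRm_mono hdl.le)).trans (hcons1.W_XRm_le hL le_rfl)
      have h2 : W L (XRm ν (fun x => τ x ∅) (θ ∅ d)) =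
          tW L tw te ν (fun x => τ x ∅) (θ ∅ d) := by
        unfold tW; rw [if_pos ⟨htw, hdl.le.trans hcase.2⟩]
      have h3 : tW L tw te ν (fun x => τ x ∅) (θ ∅ d) ≤
          ∑ d ∈ E, tW L tw te ν (fun x => τ x ∅) (θ ∅ d) :=
        Finset.single_le_sum (f := fun d => tW L tw te ν (fun x => τ x ∅) (θ ∅ d))
          (fun _ _ => zero_le) hdE
      rw [if_pos hbig]
      refine h1.trans (add_le_add ?_ le_rfl)
      rw [h2]
      exact h3.trans (le_add_self.trans le_self_add)
    · rw [if_neg hbig]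
      have hdF : d ∈ F := hEF hdE
      have hdsub : ({d} : Finset Ob) ⊆ insert c E :=
        Finset.singleton_subset_iff.2 (Finset.mem_insert_of_mem hdE)
      have hcons2 : Cons1 (fun x => τ x {d}) (fun x => τ x (insert c E)) (θ {d} e) N := by
        refine ⟨fun x hx hle => ?_⟩
        have h1 := UnlT.touch hU' (hN x hx) hdsub (s := θ {d} e)
          (fun a ha had => hemin a (hcE ha) fun h => had (Finset.mem_singleton.2 h)) hle
          (insert c E) subset_rfl
        rwa [Finset.union_eq_left.2 hdsub] at h1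
      have h1 : W L (XRm ν (fun x => τ x (insert c E)) θl) ≤
          W L (XR ν (fun x => τ x ∅) (θ ∅ d)) + ENNReal.ofReal L * ν N :=
        (W_anti hL.le (XR_le_XRm hdl)).trans (hcons1.W_XR_le hL le_rfl)
      have h2 : W L (XRm ν (fun x => τ x (insert c E)) θl) ≤
          W L (XRm ν (fun x => τ x {d}) (θ {d} e)) + ENNReal.ofReal L * ν N :=
        (W_anti hL.le (XRm_mono hel)).trans (hcons2.W_XRm_le hL le_rfl)
      have h3 : W L (XRm ν (fun x => τ x (insert c E)) θl) ≤
          tP L tw te ν (fun x => τ x ∅) (fun x => τ x {d}) (θ ∅ d) (θ {d} e) +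
            ENNReal.ofReal L * ν N := by
        have h4 : tP L tw te ν (fun x => τ x ∅) (fun x => τ x {d}) (θ ∅ d) (θ {d} e) =
            min (W L (XR ν (fun x => τ x ∅) (θ ∅ d)))
              (W L (XRm ν (fun x => τ x {d}) (θ {d} e))) := by
          unfold tP; rw [if_pos ⟨htw, hde, hel.trans hcase.2⟩]
        rw [h4]
        rcases le_total (W L (XR ν (fun x => τ x ∅) (θ ∅ d)))
          (W L (XRm ν (fun x => τ x {d}) (θ {d} e))) with h5 | h5
        · rw [min_eq_left h5]; exact h1
        · rw [min_eq_right h5]; exact h2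
      have h5 : tP L tw te ν (fun x => τ x ∅) (fun x => τ x {d}) (θ ∅ d) (θ {d} e) ≤
          ∑ d ∈ E, ∑ e ∈ F.erase d,
            tP L tw te ν (fun x => τ x ∅) (fun x => τ x {d}) (θ ∅ d) (θ {d} e) := by
        refine le_trans ?_ (Finset.single_le_sum (f := fun d => ∑ e ∈ F.erase d,
            tP L tw te ν (fun x => τ x ∅) (fun x => τ x {d}) (θ ∅ d) (θ {d} e))
          (fun _ _ => zero_le) hdE)
        exact Finset.single_le_sum (f := fun e =>
            tP L tw te ν (fun x => τ x ∅) (fun x => τ x {d}) (θ ∅ d) (θ {d} e))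
          (fun _ _ => zero_le) (Finset.mem_erase.2 ⟨hed, heF⟩)
      refine h3.trans (add_le_add ?_ le_rfl)
      exact h5.trans (le_add_self.trans le_self_add)

end Crest.Agent.R122.Line285
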