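import Crest.Agent.R122.Line1_285
import Crest.Agent.R122.MWAlg_255
import Crest.Agent.R122.EquivE_416

/-!
# INEQUALITY 1 (row 122, board H2): pointwise inequality for the worlds of `EDefs_602`

* `thX Z ls x A` : touch time of the line `x` in the world `Z + {ls a : a ∈ A}`;
  `thF Z ls A b` : the same for the line `ls b` of the family.
* `Nbad` : test lines linked to the structure.
* `pointwise_MW` : the weighted touch functional of `l` in the real world `VW` is bounded by the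
  successors in the base world `Z`.
-/

set_option autoImplicit false
set_option linter.unusedSectionVars false

open MeasureTheory Set
open scoped ENNReal
open Crest.AnalysisR.Kinetic
open Crest.Agent.R122.Decomp285 Crest.Agent.R122.Weight984 Crest.Agent.R122.EDefs602

namespace Crest.Agent.R122.Line285

noncomputable section

open scoped Classical

variable {ι ι' κ : Type} [Fintype ι] [Fintype ι'] [Fintype κ]

/-- Touch time of the line `x` in the world `Z + {ls a : a ∈ A}`. -/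
def thX (Φ : Space3 → ℝ) (ε : ℝ) (K : ℕ) (T : ℝ) (Z : MW ι) (ls : κ → ML) (x : ML)
    (A : Finset κ) : ℝ := (Z.add (MWAlg255.sub ls A)).thetaL Φ ε K T x

/-- Touch time of the line `ls b` in the world `Z + {ls a : a ∈ A}`. -/
def thF (Φ : Space3 → ℝ) (ε : ℝ) (K : ℕ) (T : ℝ) (Z : MW ι) (ls : κ → ML) (A : Finset κ)
    (b : κ) : ℝ := thX Φ ε K T Z ls (ls b) A

theorem thX_empty {Φ : Space3 → ℝ} {ε : ℝ} (hΦ : AdmissiblePotential Φ) (hε : 0 < ε) (K : ℕ)
    (T : ℝ) (Z : MW ι) (ls : κ → ML) (x : ML) :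
    thX Φ ε K T Z ls x ∅ = Z.thetaL Φ ε K T x := by
  unfold thX
  rw [MWAlg255.add_empty_comap Z (MWAlg255.sub ls ∅)]
  exact EquivE416.thetaL_comap hΦ hε K T Z x (Equiv.sumEmpty ι (∅ : Finset κ))

theorem thX_singleton {Φ : Space3 → ℝ} {ε : ℝ} (hΦ : AdmissiblePotential Φ) (hε : 0 < ε) (K : ℕ)
    (T : ℝ) (Z : MW ι) (ls : κ → ML) (x : ML) (d : κ) :
    thX Φ ε K T Z ls x {d} = (Z.ins (ls d)).thetaL Φ ε K T x := by
  have h1 : Z.ins (ls d) = (Z.add (MWAlg255.sub ls {d})).comap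
      (Equiv.sumCongr (Equiv.refl ι)
        ((Equiv.ofUnique Unit ({d} : Finset κ) : Unit ≃ ({d} : Finset κ)))) := by
    rw [← EquivE416.add_comap]
    rfl
  rw [h1]
  exact (EquivE416.thetaL_comap hΦ hε K T _ x _).symm

/-- Test lines linked to the structure: the touch time in the real world `VW` is not the touch time
in the world with the lines `S`, or (S2) fails. -/
def Nbad (Φ : Space3 → ℝ) (ε : ℝ) (K : ℕ) (T : ℝ) (Z : MW ι) (VW : MW ι') (ls : κ → ML)
    (S : Finset κ) : Set ML :=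
  {x | ¬ (VW.thetaL Φ ε K T x = thX Φ ε K T Z ls x S ∧
    UnlT (thF Φ ε K T Z ls) (thX Φ ε K T Z ls x) S)}

theorem touchW_eq_tW (Φ : Space3 → ℝ) (ε : ℝ) (K : ℕ) (P : EPar) (Z : MW ι) (l : ML) :
    Z.touchW Φ ε K P l = tW P.L P.tw P.te (lineM P.γ P.ρ K P.te) (Z.thetaL Φ ε K P.te)
      (Z.thetaL Φ ε K P.te l) := by
  unfold MW.touchW tW
  by_cases h : P.tw < Z.thetaL Φ ε K P.te l ∧ Z.thetaL Φ ε K P.te l ≤ P.te
  · rw [if_pos h, if_pos h]; rfl
  · rw [if_neg h, if_neg h]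

theorem touchP_eq_tP (Φ : Space3 → ℝ) (ε : ℝ) (K : ℕ) (P : EPar) (Z : MW ι) (d e : ML) :
    Z.touchP Φ ε K P d e = tP P.L P.tw P.te (lineM P.γ P.ρ K P.te) (Z.thetaL Φ ε K P.te)
      ((Z.ins d).thetaL Φ ε K P.te) (Z.thetaL Φ ε K P.te d) ((Z.ins d).thetaL Φ ε K P.te e) := by
  unfold MW.touchP tP
  by_cases h : P.tw < Z.thetaL Φ ε K P.te d ∧ Z.thetaL Φ ε K P.te d ≤
      (Z.ins d).thetaL Φ ε K P.te e ∧ (Z.ins d).thetaL Φ ε K P.te e ≤ P.te
  · rw [if_pos h, if_pos h]; rfl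
  · rw [if_neg h, if_neg h]

/-- **INEQUALITY 1, pointwise, for marked worlds.** `Z` = base world, `VW` = real world, `ls` = the
lines: exits `E`, root `c`, outgoing lines `l'`, `c'`. -/
theorem pointwise_MW {Φ : Space3 → ℝ} {ε : ℝ} (hΦ : AdmissiblePotential Φ) (hε : 0 < ε) {K : ℕ}
    {P : EPar} (hL : 0 < P.L) (Z : MW ι) (VW : MW ι') (ls : κ → ML) {E : Finset κ}
    {c l' c' : κ} (hc : c ∉ E) (hl' : l' ∉ E) (hc' : c' ∉ E) (hlc : l' ≠ c')
    {F : Finset κ} (hF : F = insert c (insert l' (insert c' E)))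
    (hU1 : Unl (thF Φ ε K P.te Z ls) (insert c E))
    (hU2 : Unl (thF Φ ε K P.te Z ls) (insert l' (insert c' E))) {l : ML}
    (hOne : min (thF Φ ε K P.te Z ls E c) (min (thF Φ ε K P.te Z ls E l')
      (thF Φ ε K P.te Z ls (insert l' E) c')) ≤ VW.thetaL Φ ε K P.te l)
    (big : Prop) [Decidable big] :
    VW.touchW Φ ε K P l ≤
      (∑ k ∈ {c, l', c'}, (Z.touchW Φ ε K P (ls k) + tB P.tw (Z.thetaL Φ ε K P.te (ls k)))) +
      (if big then ∑ d ∈ E, Z.touchW Φ ε K P (ls d) else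
        ∑ d ∈ E, ∑ e ∈ F.erase d, Z.touchP Φ ε K P (ls d) (ls e)) +
      ∑ d ∈ E, tB P.tw (Z.thetaL Φ ε K P.te (ls d)) +
      ENNReal.ofReal P.L * lineM P.γ P.ρ K P.te (Nbad Φ ε K P.te Z VW ls (insert c E)) := by
  set S : Finset κ := insert c E with hS
  set τ : ML → Finset κ → ℝ := fun x A =>
    if A = S then VW.thetaL Φ ε K P.te x else thX Φ ε K P.te Z ls x A with hτ
  have h0 : (∅ : Finset κ) ≠ S := by
    intro h
    have : c ∈ (∅ : Finset κ) := by rw [h, hS]; exact Finset.mem_insert_self c E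
    exact absurd this (Finset.notMem_empty c)
  have h1 : ∀ d ∈ E, ({d} : Finset κ) ≠ S := by
    intro d hd h
    have : c ∈ ({d} : Finset κ) := by rw [h, hS]; exact Finset.mem_insert_self c E
    rw [Finset.mem_singleton] at this
    exact hc (this ▸ hd)
  have hτ0 : (fun x => τ x ∅) = Z.thetaL Φ ε K P.te := by
    funext x
    simp only [hτ]
    rw [if_neg h0, thX_empty hΦ hε]
  have hτ1 : ∀ d ∈ E, (fun x => τ x {d}) = (Z.ins (ls d)).thetaL Φ ε K P.te := by
    intro d hd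
    funext x
    simp only [hτ]
    rw [if_neg (h1 d hd), thX_singleton hΦ hε]
  have hτS : (fun x => τ x S) = VW.thetaL Φ ε K P.te := by
    funext x
    simp only [hτ]
    rw [if_pos trivial]
  have hN : ∀ x, x ∉ Nbad Φ ε K P.te Z VW ls S →
      UnlT (thF Φ ε K P.te Z ls) (τ x) S := by
    intro x hx G hG a ha haG hle
    have hx' : VW.thetaL Φ ε K P.te x = thX Φ ε K P.te Z ls x S ∧
      UnlT (thF Φ ε K P.te Z ls) (thX Φ ε K P.te Z ls x) S := not_not.1 hx
    have hGS : G ≠ S := fun h => haG (h ▸ ha)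
    have e1 : τ x G = thX Φ ε K P.te Z ls x G := by simp only [hτ]; rw [if_neg hGS]
    have e2 : τ x (insert a G) = thX Φ ε K P.te Z ls x (insert a G) := by
      simp only [hτ]
      by_cases h : insert a G = S
      · rw [if_pos h, hx'.1, h]
      · rw [if_neg h]
    rw [e1] at hle ⊢
    rw [e2]
    exact hx'.2 G hG a ha haG hle
  have hmain := pointwise1 (θ := thF Φ ε K P.te Z ls) hc hl' hc' hlc hF hU1 hU2 hOne hL
    (tw := P.tw) (te := P.te) (lineM P.γ P.ρ K P.te) τ (Nbad Φ ε K P.te Z VW ls S) hN big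
  rw [hτ0, hτS, ← touchW_eq_tW] at hmain
  refine hmain.trans (le_of_eq ?_)
  have hk : ∀ k, thF Φ ε K P.te Z ls ∅ k = Z.thetaL Φ ε K P.te (ls k) := fun k =>
    thX_empty hΦ hε K P.te Z ls (ls k)
  congr 1
  congr 1
  · congr 1
    · refine Finset.sum_congr rfl fun k _ => ?_
      rw [hk, ← touchW_eq_tW]
    · by_cases hb : big
      · rw [if_pos hb, if_pos hb]
        refine Finset.sum_congr rfl fun d _ => ?_
        rw [hk, ← touchW_eq_tW]
      · rw [if_neg hb, if_neg hb]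
        refine Finset.sum_congr rfl fun d hd => Finset.sum_congr rfl fun e _ => ?_
        rw [hτ1 d hd, hk, touchP_eq_tP]
        unfold thF
        rw [thX_singleton hΦ hε]
  · refine Finset.sum_congr rfl fun d _ => ?_
    rw [hk]

end

end Crest.Agent.R122.Line285
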