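import Crest.Agent.R122.Line2_285

/-!
# INEQUALITY 1 (row 122, board H2): the case list without the pairs `(c, l')`, `(c, c')`

The undeflected root line `c` never coexists with the outgoing lines `l'`, `c'`; they may be linked.
`decomp1'`, `pointwise1'`, `pointwise_MW'` : as in `Decomp1_285`, `Line1_285`, `Line2_285`, but the
superposition facts are only assumed for the two families `E ∪ {c}` and `E ∪ {l', c'}`.
-/

set_option autoImplicit false
set_option linter.unusedSectionVars false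

open MeasureTheory Set
open scoped ENNReal
open Crest.AnalysisR.Kinetic
open Crest.Agent.R122.Decomp285 Crest.Agent.R122.Weight984 Crest.Agent.R122.EDefs602
open Crest.Agent.R122.Line285

namespace Crest.Agent.R122.Line984

section order

variable {Ob : Type*} [DecidableEq Ob] {T : Type*} [LinearOrder T]

/-- **Case list of INEQUALITY 1** with the facts for the families `E ∪ {c}` and `E ∪ {l', c'}`
only. -/
theorem decomp1' {θ : Finset Ob → Ob → T} {E : Finset Ob} {c l' c' : Ob}
    (hc : c ∉ E) (hl' : l' ∉ E) (hc' : c' ∉ E) (hlc : l' ≠ c')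
    {F : Finset Ob} (hF : F = insert c (insert l' (insert c' E)))
    (hU1 : Unl θ (insert c E)) (hU2 : Unl θ (insert l' (insert c' E)))
    {θl : T} (hOne : min (θ E c) (min (θ E l') (θ (insert l' E) c')) ≤ θl) :
    (∃ k, (k = c ∨ k = l' ∨ k = c') ∧ (∀ a ∈ F, θ ∅ k ≤ θ ∅ a) ∧ θ ∅ k ≤ θl) ∨
    (∃ d ∈ E, (∀ a ∈ F, θ ∅ d ≤ θ ∅ a) ∧ θ ∅ d < θl ∧
      ∃ e ∈ F, e ≠ d ∧ (∀ a ∈ F, a ≠ d → θ {d} e ≤ θ {d} a) ∧
        θ ∅ d ≤ θ {d} e ∧ θ {d} e ≤ θl) := by
  have hcF : c ∈ F := by rw [hF]; simp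
  have hcF1 : c ∈ insert c E := Finset.mem_insert_self _ _
  have hl'F2 : l' ∈ insert l' (insert c' E) := Finset.mem_insert_self _ _
  have hc'F2 : c' ∈ insert l' (insert c' E) :=
    Finset.mem_insert_of_mem (Finset.mem_insert_self _ _)
  have hF1F : insert c E ⊆ F := by
    rw [hF]
    refine Finset.insert_subset_insert c fun x hx => ?_
    exact Finset.mem_insert_of_mem (Finset.mem_insert_of_mem hx)
  have hF2F : insert l' (insert c' E) ⊆ F := by
    rw [hF]; exact Finset.subset_insert _ _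
  have hEF1 : E ⊆ insert c E := Finset.subset_insert _ _
  have hEF2 : E ⊆ insert l' (insert c' E) :=
    (Finset.subset_insert _ _).trans (Finset.subset_insert _ _)
  have hEF : E ⊆ F := hEF1.trans hF1F
  obtain ⟨k, hkF, hk⟩ := exists_first (θ ∅) F ⟨c, hcF⟩
  -- the first touch is not later than `θl`
  have key : ∀ (A₀ : Finset Ob), A₀ ⊆ E → ∀ s, (∀ a ∈ F, a ∉ A₀ → s ≤ θ A₀ a) → s ≤ θl ∧
      (θl ≤ s → ∃ k, (k = c ∨ k = l' ∨ k = c') ∧ θ A₀ k ≤ s) := by
    intro A₀ hA₀ s hs
    have hA1 := hA₀.trans hEF1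
    have hA2 := hA₀.trans hEF2
    have hs1 : ∀ a ∈ insert c E, a ∉ A₀ → s ≤ θ A₀ a := fun a ha => hs a (hF1F ha)
    have hs2 : ∀ a ∈ insert l' (insert c' E), a ∉ A₀ → s ≤ θ A₀ a := fun a ha => hs a (hF2F ha)
    have e1 : E ∪ A₀ = E := Finset.union_eq_left.2 hA₀
    have e2 : (insert l' E) ∪ A₀ = insert l' E := by
      rw [Finset.insert_union, e1]
    have g1 := hU1.le_touch hA1 hs1 E hEF1 c hcF1 (fun h => hc (hA₀ h)) hc
    have g2 := hU2.le_touch hA2 hs2 E hEF2 l' hl'F2 (fun h => hl' (hA₀ h)) hl'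
    have hsub : insert l' E ⊆ insert l' (insert c' E) :=
      Finset.insert_subset_insert l' (Finset.subset_insert _ _)
    have hc'n : c' ∉ insert l' E := by
      rw [Finset.mem_insert, not_or]; exact ⟨Ne.symm hlc, hc'⟩
    have g3 := hU2.le_touch hA2 hs2 (insert l' E) hsub c' hc'F2 (fun h => hc' (hA₀ h)) hc'n
    rw [e1] at g1 g2
    rw [e2] at g3
    refine ⟨(le_min g1 (le_min g2 g3)).trans hOne, fun hle => ?_⟩
    have h4 := hOne.trans hle
    rcases min_le_iff.1 h4 with h5 | h5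
    · refine ⟨c, Or.inl rfl, ?_⟩
      refine hU1.touch_of_touch hA1 hs1 E hEF1 c hcF1 (fun h => hc (hA₀ h)) hc ?_
      rwa [e1]
    · rcases min_le_iff.1 h5 with h6 | h6
      · refine ⟨l', Or.inr (Or.inl rfl), ?_⟩
        refine hU2.touch_of_touch hA2 hs2 E hEF2 l' hl'F2 (fun h => hl' (hA₀ h)) hl' ?_
        rwa [e1]
      · refine ⟨c', Or.inr (Or.inr rfl), ?_⟩
        refine hU2.touch_of_touch hA2 hs2 (insert l' E) hsub c' hc'F2
          (fun h => hc' (hA₀ h)) hc'n ?_
        rwa [e2]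
  have hk1 := key ∅ (Finset.empty_subset _) (θ ∅ k) (fun a ha _ => hk a ha)
  by_cases hsucc : ∃ k', (k' = c ∨ k' = l' ∨ k' = c') ∧ θ ∅ k' ≤ θ ∅ k
  · obtain ⟨k', hk', hle⟩ := hsucc
    exact Or.inl ⟨k', hk', fun a ha => hle.trans (hk a ha), hle.trans hk1.1⟩
  · right
    have hkE : k ∈ E := by
      have h := hkF
      rw [hF, Finset.mem_insert, Finset.mem_insert, Finset.mem_insert] at h
      rcases h with h | h | h | h
      · exact absurd ⟨c, Or.inl rfl, (congrArg (θ ∅) h).ge⟩ hsucc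
      · exact absurd ⟨l', Or.inr (Or.inl rfl), (congrArg (θ ∅) h).ge⟩ hsucc
      · exact absurd ⟨c', Or.inr (Or.inr rfl), (congrArg (θ ∅) h).ge⟩ hsucc
      · exact h
    have hlt : θ ∅ k < θl := by
      by_contra hcon
      exact hsucc (hk1.2 (not_lt.1 hcon))
    refine ⟨k, hkE, hk, hlt, ?_⟩
    -- the first line touching `Z + k`
    have hck : c ≠ k := fun h => hc (h ▸ hkE)
    obtain ⟨e, heF, he⟩ := exists_first (θ {k}) (F.erase k)
      ⟨c, Finset.mem_erase.2 ⟨hck, hcF⟩⟩
    rw [Finset.mem_erase] at heF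
    have he' : ∀ a ∈ F, a ≠ k → θ {k} e ≤ θ {k} a := fun a ha hak =>
      he a (Finset.mem_erase.2 ⟨hak, ha⟩)
    refine ⟨e, heF.2, heF.1, he', ?_, ?_⟩
    · have heF12 : e ∈ insert c E ∨ e ∈ insert l' (insert c' E) := by
        have h := heF.2
        rw [hF, Finset.mem_insert] at h
        rcases h with h | h
        · exact Or.inl (Finset.mem_insert.2 (Or.inl h))
        · exact Or.inr h
      rcases heF12 with h | h
      · have h1 := (hU1 ∅ (Finset.empty_subset _) k (hEF1 hkE) e h (Finset.notMem_empty _)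
          (Finset.notMem_empty _) (Ne.symm heF.1)).s1 (θ ∅ k) le_rfl (hk e heF.2)
        simpa using h1
      · have h1 := (hU2 ∅ (Finset.empty_subset _) k (hEF2 hkE) e h (Finset.notMem_empty _)
          (Finset.notMem_empty _) (Ne.symm heF.1)).s1 (θ ∅ k) le_rfl (hk e heF.2)
        simpa using h1
    · refine (key {k} (Finset.singleton_subset_iff.2 hkE) (θ {k} e) fun a ha hak => ?_).1
      exact he' a ha (fun h => hak (Finset.mem_singleton.2 h))

end order

section pointwise

variable {Ob : Type*} [DecidableEq Ob] {Λ : Type*} [MeasurableSpace Λ]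

/-- **INEQUALITY 1, pointwise**, facts for the families `E ∪ {c}` and `E ∪ {l', c'}` only. -/
theorem pointwise1' {θ : Finset Ob → Ob → ℝ} {E : Finset Ob} {c l' c' : Ob}
    (hc : c ∉ E) (hl' : l' ∉ E) (hc' : c' ∉ E) (hlc : l' ≠ c')
    {F : Finset Ob} (hF : F = insert c (insert l' (insert c' E)))
    (hU1 : Unl θ (insert c E)) (hU2 : Unl θ (insert l' (insert c' E)))
    {θl : ℝ} (hOne : min (θ E c) (min (θ E l') (θ (insert l' E) c')) ≤ θl)
    {L tw te : ℝ} (hL : 0 < L) (ν : Measure Λ) (τ : Λ → Finset Ob → ℝ) (N : Set Λ)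
    (hN : ∀ x, x ∉ N → UnlT θ (τ x) (insert c E)) (big : Prop) [Decidable big] :
    tW L tw te ν (fun x => τ x (insert c E)) θl ≤
      (∑ k ∈ {c, l', c'}, (tW L tw te ν (fun x => τ x ∅) (θ ∅ k) + tB tw (θ ∅ k))) +
      (if big then ∑ d ∈ E, tW L tw te ν (fun x => τ x ∅) (θ ∅ d) else
        ∑ d ∈ E, ∑ e ∈ F.erase d,
          tP L tw te ν (fun x => τ x ∅) (fun x => τ x {d}) (θ ∅ d) (θ {d} e)) +
      ∑ d ∈ E, tB tw (θ ∅ d) + ENNReal.ofReal L * ν N := by
  classical
  by_cases hcase : tw < θl ∧ θl ≤ te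
  swap
  · have h0 : tW L tw te ν (fun x => τ x (insert c E)) θl = 0 := by
      unfold tW; rw [if_neg hcase]
    rw [h0]; exact zero_le
  have h0 : tW L tw te ν (fun x => τ x (insert c E)) θl =
      W L (XRm ν (fun x => τ x (insert c E)) θl) := by unfold tW; rw [if_pos hcase]
  rw [h0]
  have hcF : c ∈ F := by rw [hF]; simp
  have hEF : E ⊆ F := by
    rw [hF]
    exact fun x hx => Finset.mem_insert_of_mem (Finset.mem_insert_of_mem
      (Finset.mem_insert_of_mem hx))
  have hcE : insert c E ⊆ F := Finset.insert_subset hcF hEF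
  rcases decomp1' hc hl' hc' hlc hF hU1 hU2 hOne with ⟨k, hk, hkmin, hkl⟩ | ⟨d, hdE, hdmin, hdl,
    e, heF, hed, hemin, hde, hel⟩
  · -- NS
    have hcons : Cons1 (fun x => τ x ∅) (fun x => τ x (insert c E)) (θ ∅ k) N := by
      refine ⟨fun x hx hle => ?_⟩
      have h1 := UnlT.touch hU1 (hN x hx) (Finset.empty_subset _) (s := θ ∅ k)
        (fun a ha _ => hkmin a (hcE ha)) hle (insert c E) subset_rfl
      rwa [Finset.union_empty] at h1
    have h1 : W L (XRm ν (fun x => τ x (insert c E)) θl) ≤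
        W L (XRm ν (fun x => τ x ∅) (θ ∅ k)) + ENNReal.ofReal L * ν N :=
      (W_anti hL.le (XRm_mono hkl)).trans (hcons.W_XRm_le hL le_rfl)
    have hkmem : k ∈ ({c, l', c'} : Finset Ob) := by
      simp only [Finset.mem_insert, Finset.mem_singleton]; exact hk
    have h2 : W L (XRm ν (fun x => τ x ∅) (θ ∅ k)) ≤
        tW L tw te ν (fun x => τ x ∅) (θ ∅ k) + tB tw (θ ∅ k) := by
      by_cases htw : tw < θ ∅ k
      · have : tW L tw te ν (fun x => τ x ∅) (θ ∅ k) = W L (XRm ν (fun x => τ x ∅) (θ ∅ k)) := by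
          unfold tW; rw [if_pos ⟨htw, hkl.trans hcase.2⟩]
        rw [this]; exact le_self_add
      · have : tB tw (θ ∅ k) = 1 := by unfold tB; rw [if_pos (not_lt.1 htw)]
        rw [this]
        exact (W_le_one hL.le _).trans le_add_self
    have h3 := h2.trans (Finset.single_le_sum
      (f := fun k => tW L tw te ν (fun x => τ x ∅) (θ ∅ k) + tB tw (θ ∅ k))
      (fun _ _ => zero_le) hkmem)
    refine h1.trans (add_le_add ?_ le_rfl)
    exact h3.trans ((le_self_add.trans le_self_add))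
  · -- SP
    by_cases htw : tw < θ ∅ d
    swap
    · have h1 : (1 : ℝ≥0∞) ≤ ∑ d ∈ E, tB tw (θ ∅ d) := by
        have h2 : tB tw (θ ∅ d) = 1 := by unfold tB; rw [if_pos (not_lt.1 htw)]
        rw [← h2]
        exact Finset.single_le_sum (f := fun d => tB tw (θ ∅ d)) (fun _ _ => zero_le) hdE
      refine ((W_le_one hL.le _).trans h1).trans ?_
      exact le_add_self.trans le_self_add
    have hcons1 : Cons1 (fun x => τ x ∅) (fun x => τ x (insert c E)) (θ ∅ d) N := by
      refine ⟨fun x hx hle => ?_⟩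
      have h1 := UnlT.touch hU1 (hN x hx) (Finset.empty_subset _) (s := θ ∅ d)
        (fun a ha _ => hdmin a (hcE ha)) hle (insert c E) subset_rfl
      rwa [Finset.union_empty] at h1
    by_cases hbig : big
    · have h1 : W L (XRm ν (fun x => τ x (insert c E)) θl) ≤
          W L (XRm ν (fun x => τ x ∅) (θ ∅ d)) + ENNReal.ofReal L * ν N :=
        (W_anti hL.le (XRm_mono hdl.le)).trans (hcons1.W_XRm_le hL le_rfl)
      have h2 : W L (XRm ν (fun x => τ x ∅) (θ ∅ d)) =
          tW L tw te ν (fun x => τ x ∅) (θ ∅ d) := by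
        unfold tW; rw [if_pos ⟨htw, hdl.le.trans hcase.2⟩]
      have h3 : tW L tw te ν (fun x => τ x ∅) (θ ∅ d) ≤
          ∑ d ∈ E, tW L tw te ν (fun x => τ x ∅) (θ ∅ d) :=
        Finset.single_le_sum (f := fun d => tW L tw te ν (fun x => τ x ∅) (θ ∅ d))
          (fun _ _ => zero_le) hdE
      rw [if_pos hbig]
      refine h1.trans (add_le_add ?_ le_rfl)
      rw [h2]
      exact h3.trans (le_add_self.trans le_self_add)
    · rw [if_neg hbig]
      have hdsub : ({d} : Finset Ob) ⊆ insert c E :=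
        Finset.singleton_subset_iff.2 (Finset.mem_insert_of_mem hdE)
      have hcons2 : Cons1 (fun x => τ x {d}) (fun x => τ x (insert c E)) (θ {d} e) N := by
        refine ⟨fun x hx hle => ?_⟩
        have h1 := UnlT.touch hU1 (hN x hx) hdsub (s := θ {d} e)
          (fun a ha had => hemin a (hcE ha) fun h => had (Finset.mem_singleton.2 h)) hle
          (insert c E) subset_rfl
        rwa [Finset.union_eq_left.2 hdsub] at h1
      have h1 : W L (XRm ν (fun x => τ x (insert c E)) θl) ≤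
          W L (XR ν (fun x => τ x ∅) (θ ∅ d)) + ENNReal.ofReal L * ν N :=
        (W_anti hL.le (XR_le_XRm hdl)).trans (hcons1.W_XR_le hL le_rfl)
      have h2 : W L (XRm ν (fun x => τ x (insert c E)) θl) ≤
          W L (XRm ν (fun x => τ x {d}) (θ {d} e)) + ENNReal.ofReal L * ν N :=
        (W_anti hL.le (XRm_mono hel)).trans (hcons2.W_XRm_le hL le_rfl)
      have h3 : W L (XRm ν (fun x => τ x (insert c E)) θl) ≤
          tP L tw te ν (fun x => τ x ∅) (fun x => τ x {d}) (θ ∅ d) (θ {d} e) +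
            ENNReal.ofReal L * ν N := by
        have h4 : tP L tw te ν (fun x => τ x ∅) (fun x => τ x {d}) (θ ∅ d) (θ {d} e) =
            min (W L (XR ν (fun x => τ x ∅) (θ ∅ d)))
              (W L (XRm ν (fun x => τ x {d}) (θ {d} e))) := by
          unfold tP; rw [if_pos ⟨htw, hde, hel.trans hcase.2⟩]
        rw [h4]
        rcases le_total (W L (XR ν (fun x => τ x ∅) (θ ∅ d)))
          (W L (XRm ν (fun x => τ x {d}) (θ {d} e))) with h5 | h5
        · rw [min_eq_left h5]; exact h1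
        · rw [min_eq_right h5]; exact h2
      have h5 : tP L tw te ν (fun x => τ x ∅) (fun x => τ x {d}) (θ ∅ d) (θ {d} e) ≤
          ∑ d ∈ E, ∑ e ∈ F.erase d,
            tP L tw te ν (fun x => τ x ∅) (fun x => τ x {d}) (θ ∅ d) (θ {d} e) := by
        refine le_trans ?_ (Finset.single_le_sum (f := fun d => ∑ e ∈ F.erase d,
            tP L tw te ν (fun x => τ x ∅) (fun x => τ x {d}) (θ ∅ d) (θ {d} e))
          (fun _ _ => zero_le) hdE)
        exact Finset.single_le_sum (f := fun e =>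
            tP L tw te ν (fun x => τ x ∅) (fun x => τ x {d}) (θ ∅ d) (θ {d} e))
          (fun _ _ => zero_le) (Finset.mem_erase.2 ⟨hed, heF⟩)
      refine h3.trans (add_le_add ?_ le_rfl)
      exact h5.trans (le_add_self.trans le_self_add)

end pointwise

noncomputable section

open scoped Classical

variable {ι ι' κ : Type} [Fintype ι] [Fintype ι'] [Fintype κ]

/-- **INEQUALITY 1, pointwise, for marked worlds**, facts for the families `E ∪ {c}` and
`E ∪ {l', c'}` only. -/
theorem pointwise_MW' {Φ : Space3 → ℝ} {ε : ℝ} (hΦ : AdmissiblePotential Φ) (hε : 0 < ε) {K : ℕ}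
    {P : EPar} (hL : 0 < P.L) (Z : MW ι) (VW : MW ι') (ls : κ → ML) {E : Finset κ}
    {c l' c' : κ} (hc : c ∉ E) (hl' : l' ∉ E) (hc' : c' ∉ E) (hlc : l' ≠ c')
    {F : Finset κ} (hF : F = insert c (insert l' (insert c' E)))
    (hU1 : Unl (thF Φ ε K P.te Z ls) (insert c E))
    (hU2 : Unl (thF Φ ε K P.te Z ls) (insert l' (insert c' E))) {l : ML}
    (hOne : min (thF Φ ε K P.te Z ls E c) (min (thF Φ ε K P.te Z ls E l')
      (thF Φ ε K P.te Z ls (insert l' E) c')) ≤ VW.thetaL Φ ε K P.te l)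
    (big : Prop) [Decidable big] :
    VW.touchW Φ ε K P l ≤
      (∑ k ∈ {c, l', c'}, (Z.touchW Φ ε K P (ls k) + tB P.tw (Z.thetaL Φ ε K P.te (ls k)))) +
      (if big then ∑ d ∈ E, Z.touchW Φ ε K P (ls d) else
        ∑ d ∈ E, ∑ e ∈ F.erase d, Z.touchP Φ ε K P (ls d) (ls e)) +
      ∑ d ∈ E, tB P.tw (Z.thetaL Φ ε K P.te (ls d)) +
      ENNReal.ofReal P.L * lineM P.γ P.ρ K P.te (Nbad Φ ε K P.te Z VW ls (insert c E)) := by
  set S : Finset κ := insert c E with hS
  set τ : ML → Finset κ → ℝ := fun x A =>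
    if A = S then VW.thetaL Φ ε K P.te x else thX Φ ε K P.te Z ls x A with hτ
  have h0 : (∅ : Finset κ) ≠ S := by
    intro h
    have : c ∈ (∅ : Finset κ) := by rw [h, hS]; exact Finset.mem_insert_self c E
    exact absurd this (Finset.notMem_empty c)
  have h1 : ∀ d ∈ E, ({d} : Finset κ) ≠ S := by
    intro d hd h
    have : c ∈ ({d} : Finset κ) := by rw [h, hS]; exact Finset.mem_insert_self c E
    rw [Finset.mem_singleton] at this
    exact hc (this ▸ hd)
  have hτ0 : (fun x => τ x ∅) = Z.thetaL Φ ε K P.te := by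
    funext x
    simp only [hτ]
    rw [if_neg h0, thX_empty hΦ hε]
  have hτ1 : ∀ d ∈ E, (fun x => τ x {d}) = (Z.ins (ls d)).thetaL Φ ε K P.te := by
    intro d hd
    funext x
    simp only [hτ]
    rw [if_neg (h1 d hd), thX_singleton hΦ hε]
  have hτS : (fun x => τ x S) = VW.thetaL Φ ε K P.te := by
    funext x
    simp only [hτ]
    rw [if_pos trivial]
  have hN : ∀ x, x ∉ Nbad Φ ε K P.te Z VW ls S →
      UnlT (thF Φ ε K P.te Z ls) (τ x) S := by
    intro x hx G hG a ha haG hle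
    have hx' : VW.thetaL Φ ε K P.te x = thX Φ ε K P.te Z ls x S ∧
      UnlT (thF Φ ε K P.te Z ls) (thX Φ ε K P.te Z ls x) S := not_not.1 hx
    have hGS : G ≠ S := fun h => haG (h ▸ ha)
    have e1 : τ x G = thX Φ ε K P.te Z ls x G := by simp only [hτ]; rw [if_neg hGS]
    have e2 : τ x (insert a G) = thX Φ ε K P.te Z ls x (insert a G) := by
      simp only [hτ]
      by_cases h : insert a G = S
      · rw [if_pos h, hx'.1, h]
      · rw [if_neg h]
    rw [e1] at hle ⊢
    rw [e2]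
    exact hx'.2 G hG a ha haG hle
  have hmain := pointwise1' (θ := thF Φ ε K P.te Z ls) hc hl' hc' hlc hF hU1 hU2 hOne hL
    (tw := P.tw) (te := P.te) (lineM P.γ P.ρ K P.te) τ (Nbad Φ ε K P.te Z VW ls S) hN big
  rw [hτ0, hτS, ← touchW_eq_tW] at hmain
  refine hmain.trans (le_of_eq ?_)
  have hk : ∀ k, thF Φ ε K P.te Z ls ∅ k = Z.thetaL Φ ε K P.te (ls k) := fun k =>
    thX_empty hΦ hε K P.te Z ls (ls k)
  congr 1
  congr 1
  · congr 1
    · refine Finset.sum_congr rfl fun k _ => ?_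
      rw [hk, ← touchW_eq_tW]
    · by_cases hb : big
      · rw [if_pos hb, if_pos hb]
        refine Finset.sum_congr rfl fun d _ => ?_
        rw [hk, ← touchW_eq_tW]
      · rw [if_neg hb, if_neg hb]
        refine Finset.sum_congr rfl fun d hd => Finset.sum_congr rfl fun e _ => ?_
        rw [hτ1 d hd, hk, touchP_eq_tP]
        unfold thF
        rw [thX_singleton hΦ hε]
  · refine Finset.sum_congr rfl fun d _ => ?_
    rw [hk]

end

end Crest.Agent.R122.Line984
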