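import Mathlib
import Crest.Prelude.Def_KineticLimit
import Crest.Agent.R122.Births_45

/-!
# Rebirth of worlds with births (row 122, block A9, helper304)

Contact relation with STRICT births: `CtS b X ε s j k`: both particles were born strictly before
`s` and are at distance at most `ε` at time `s`.

`BWorld.rebirth`: a world with births `b`, and new birth times `e ≥ b` such that the particles
already reborn never interact with the particles which are not yet reborn.  Then the family which
follows the old world after the new births, and the straight line backwards before, is a world with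
births `e`.
-/

set_option autoImplicit false

open MeasureTheory Set Filter Topology
open Crest.AnalysisR.Kinetic
open Crest.Agent.R122.Flow671 Crest.Agent.R122.Loc45

namespace Crest.Agent.R122.Link304

open Crest.Agent.R122.Ins45

variable {Φ : Space3 → ℝ} {ε : ℝ} {ι : Type*}

/-- Contact with strict births. -/
def CtS (b : ι → ℝ) (X : ℝ → ι → PhasePoint) (ε s : ℝ) (j k : ι) : Prop :=
  b j < s ∧ b k < s ∧ dist (X s j).1 (X s k).1 ≤ ε

theorem CtS.symm {b : ι → ℝ} {X : ℝ → ι → PhasePoint} {s : ℝ} {j k : ι} (h : CtS b X ε s j k) :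
    CtS b X ε s k j := ⟨h.2.1, h.1, by rw [dist_comm]; exact h.2.2⟩

open scoped Classical in
/-- The reborn family: the old path after the new birth, the straight line before. -/
noncomputable def reb (X : ℝ → ι → PhasePoint) (e : ι → ℝ) (t : ℝ) (i : ι) : PhasePoint :=
  if e i ≤ t then X t i else
    ((X (e i) i).1 + (t - e i) • (X (e i) i).2, (X (e i) i).2)

theorem reb_of_le {X : ℝ → ι → PhasePoint} {e : ι → ℝ} {t : ℝ} {i : ι} (h : e i ≤ t) :
    reb X e t i = X t i := by
  unfold reb; rw [if_pos h]

theorem reb_of_lt {X : ℝ → ι → PhasePoint} {e : ι → ℝ} {t : ℝ} {i : ι} (h : t < e i) :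
    reb X e t i = ((X (e i) i).1 + (t - e i) • (X (e i) i).2, (X (e i) i).2) := by
  unfold reb; rw [if_neg (not_le.2 h)]

theorem reb_at {X : ℝ → ι → PhasePoint} {e : ι → ℝ} {i : ι} :
    reb X e (e i) i = X (e i) i := reb_of_le le_rfl

/-- Also at the birth time itself the straight line formula holds. -/
theorem reb_of_le' {X : ℝ → ι → PhasePoint} {e : ι → ℝ} {t : ℝ} {i : ι} (h : t ≤ e i) :
    reb X e t i = ((X (e i) i).1 + (t - e i) • (X (e i) i).2, (X (e i) i).2) := by
  rcases h.lt_or_eq with h | h
  · exact reb_of_lt h
  · subst h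
    rw [reb_at, sub_self, zero_smul, add_zero]

variable [Fintype ι]

/-- **Rebirth.** -/
theorem rebirth (hΦ : AdmissiblePotential Φ) (hε : 0 < ε) {b : ι → ℝ} {t₀ : ℝ}
    {X : ℝ → ι → PhasePoint} (hX : BWorld Φ ε b t₀ X) {e : ι → ℝ} (hbe : ∀ i, b i ≤ e i)
    (hsep : ∀ t, t₀ ≤ t → ∀ i j, e i ≤ t → b j ≤ t → t < e j →
      ε ≤ dist (X t i).1 (X t j).1) :
    BWorld Φ ε e t₀ (reb X e) where
  cont := by
    refine continuousOn_pi.2 fun i => ?_
    rcases lt_or_ge (e i) t₀ with h | h
    · refine (hX.cont_apply i).congr fun t ht => ?_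
      exact reb_of_le (h.le.trans ht)
    · -- two pieces
      have h1 : Ici t₀ = Icc t₀ (e i) ∪ Ici (e i) := by
        ext t
        simp only [mem_Ici, mem_union, mem_Icc]
        constructor
        · intro h2
          rcases le_total t (e i) with h3 | h3
          · exact Or.inl ⟨h2, h3⟩
          · exact Or.inr h3
        · rintro (h2 | h2)
          · exact h2.1
          · exact h.trans h2
      rw [h1]
      refine ContinuousOn.union_of_isClosed ?_ ?_ isClosed_Icc isClosed_Ici
      · have h2 : ContinuousOn (fun t => (((X (e i) i).1 + (t - e i) • (X (e i) i).2,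
            (X (e i) i).2) : PhasePoint)) (Icc t₀ (e i)) := by fun_prop
        exact h2.congr fun t ht => reb_of_le' ht.2
      · refine ((hX.cont_apply i).mono (Ici_subset_Ici.2 h)).congr fun t ht => ?_
        exact reb_of_le ht
  der t ht := by
    classical
    rw [hasDerivWithinAt_pi]
    intro i
    by_cases hi : e i ≤ t
    · have h1 := (hasDerivWithinAt_pi.1 (hX.der t ht)) i
      have hfield : bf Φ ε e t (reb X e t) i = bf Φ ε b t (X t) i := by
        unfold bf
        rw [reb_of_le hi, if_pos hi, if_pos ((hbe i).trans hi)]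
        refine Prod.ext rfl ?_
        simp only
        congr 1
        refine Finset.sum_congr rfl fun j _ => ?_
        by_cases hj : e j ≤ t
        · rw [if_pos hj, if_pos ((hbe j).trans hj), reb_of_le hj]
        · rw [if_neg hj]
          by_cases hbj : b j ≤ t
          · rw [if_pos hbj]
            symm
            exact grad_far hΦ hε (hsep t ht i j hi hbj (not_le.1 hj))
          · rw [if_neg hbj]
      rw [hfield]
      refine h1.congr (fun s hs => reb_of_le (hi.trans hs)) (reb_of_le hi)
    · push Not at hi
      rw [bf_of_unborn Φ ε _ hi]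
      rw [reb_of_lt hi]
      have h2 : HasDerivAt (fun s => (((X (e i) i).1 + (s - e i) • (X (e i) i).2,
          (X (e i) i).2) : PhasePoint)) ((X (e i) i).2, 0) t := by
        refine HasDerivAt.prodMk ?_ (hasDerivAt_const _ _)
        have h3 : HasDerivAt (fun s : ℝ => (s - e i) • (X (e i) i).2) ((1 : ℝ) • (X (e i) i).2) t :=
          ((hasDerivAt_id t).sub_const (e i)).smul_const _
        rw [one_smul] at h3
        exact h3.const_add _
      refine (h2.hasDerivWithinAt (s := Ici t)).congr_of_eventuallyEq ?_ (reb_of_lt hi)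
      have h3 : ∀ᶠ s in 𝓝[Ici t] t, s < e i := mem_nhdsWithin_of_mem_nhds (Iio_mem_nhds hi)
      exact h3.mono fun s hs => reb_of_lt hs
  dom t ht := by
    rcases hX.dom t ht with h | h
    · exact Or.inl h
    · refine Or.inr fun i j hij hi hj => ?_
      rw [reb_of_le hi, reb_of_le hj]
      exact h i j hij ((hbe i).trans hi) ((hbe j).trans hj)

end Crest.Agent.R122.Link304
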