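import Mathlib
import Crest.Agent.R122.Causal_291

/-!
# Rebirth, relational part (row 122, block A9, helper304)

`C s j k`: contact in the old world.  `e j`: new birth time of `j` (the old birth time for the
particles which are not reborn).  `Rb C e s j k`: contact in the reborn world.  The protected region
`{(j, s) | s ≤ e j}` is contact closed (`hprot`).

* `past_rb_iff`: the past of a reborn particle in the old world, from the past in the reborn world
  and the old pasts of the lines at their births;
* `size_rb`: marked sizes.
-/

set_option autoImplicit false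

open Set
open Crest.Agent.R122.Causal291

namespace Crest.Agent.R122.Link304

variable {ι : Type*}

/-- Contact relation of the reborn world. -/
def Rb (C : ℝ → ι → ι → Prop) (e : ι → ℝ) (s : ℝ) (j k : ι) : Prop :=
  C s j k ∧ e j < s ∧ e k < s

/-- The protected region is contact closed. -/
def ProtClosed (C : ℝ → ι → ι → Prop) (e : ι → ℝ) (t : ℝ) : Prop :=
  ∀ s j k, 0 ≤ s → s ≤ t → C s j k → e j < s → e k < s

section past

variable {C : ℝ → ι → ι → Prop} {e : ι → ℝ} {t : ℝ} {i : ι}

theorem Rb.contact {s : ℝ} {j k : ι} (h : Rb C e s j k) : C s j k := h.1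

theorem past_of_rb {s : ℝ} {k : ι} (h : Past (Rb C e) t i s k) : Past C t i s k :=
  h.mono_rel fun _ _ _ h => h.1

/-- In the reborn world an active particle is active at its birth (if the time is smaller). -/
theorem past_rb_birth (hi : e i < t) {s : ℝ} {j : ι} (h : Past (Rb C e) t i s j) (hs : s ≤ e j) :
    Past (Rb C e) t i (e j) j := by
  rcases h.cases' with rfl | ⟨s', l, h1, h2, h3, h4⟩
  · exact .root hi.le
  · exact (Past.contact h3 h4).mono h4.2.2.le

theorem past_rb_iff (hi : e i < t) (hprot : ProtClosed C e t) {s : ℝ} (hs : 0 ≤ s) {k : ι} :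
    Past C t i s k ↔ Past (Rb C e) t i s k ∨
      ∃ j, Past (Rb C e) t i (e j) j ∧ Past C (e j) j s k := by
  constructor
  · intro h
    induction h with
    | root h => exact Or.inl (.root h)
    | @step s s' j k h hc hss ih =>
      rcases ih (hs.trans hss) with h1 | ⟨j₀, h1, h2⟩
      · rcases lt_or_ge (e j) s' with h3 | h3
        · have h4 := hprot s' j k (hs.trans hss) h.le hc h3
          exact Or.inl (.step h1 ⟨hc, h3, h4⟩ hss)
        · exact Or.inr ⟨j, past_rb_birth hi h1 h3, .step (.root h3) hc hss⟩
      · exact Or.inr ⟨j₀, h1, .step h2 hc hss⟩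
  · rintro (h | ⟨j, h1, h2⟩)
    · exact past_of_rb h
    · exact (past_of_rb h1).trans h2

/-- The unprotected particles of the past are the same. -/
theorem past_rb_of_not_mem (hi : e i < t) (hprot : ProtClosed C e t) {S : Set ι}
    (hS : ∀ s j k, 0 ≤ s → s ≤ t → j ∉ S → C s j k → e j < s)
    (hsym : ∀ s j k, C s j k → C s k j) {s : ℝ} (hs : 0 ≤ s)
    {k : ι} (hk : k ∉ S) : Past C t i s k ↔ Past (Rb C e) t i s k := by
  rw [past_rb_iff hi hprot hs]
  constructor
  · rintro (h | ⟨j, h1, h2⟩)
    · exact h
    · rcases h2.cases' with rfl | ⟨s', l, h3, h4, h5, h6⟩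
      · exact h1.mono h2.le
      · -- `k` is in contact at the protected time `s' ≤ e j`
        exfalso
        have h0 : 0 ≤ s' := hs.trans h3
        have hst : s' ≤ t := h4.trans h1.le
        have h7 : e k < s' := hS s' k l h0 hst hk (hsym _ _ _ h6)
        -- then everything along the chain from `k` to `j` is unprotected: contradiction at `j`
        have h8 : e l < s' := hprot s' k l h0 hst (hsym _ _ _ h6) h7
        have key : ∀ {r : ℝ} {l : ι}, Past C (e j) j r l → 0 ≤ r → e l < r → False := by
          intro r l h
          induction h with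
          | @root r hr =>
            intro _ h9
            exact absurd hr (not_le.2 h9)
          | @step r r' p q hpq hc hrr ihp =>
            intro h10 h9
            have h11 : e q < r' := h9.trans_le hrr
            exact ihp (h10.trans hrr)
              (hprot r' q p (h10.trans hrr) (hpq.le.trans h1.le) (hsym _ _ _ hc) h11)
        exact key h5 h0 h8
  · exact Or.inl

/-- The old past of a line at its birth consists of protected particles. -/
theorem past_prot (hprot : ProtClosed C e t) (hsym : ∀ s j k, C s j k → C s k j) {j : ι}
    (hj : e j ≤ t) {s : ℝ} (hs : 0 ≤ s) {k : ι} (h : Past C (e j) j s k) : s ≤ e k := by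
  by_contra hlt
  push Not at hlt
  have key : ∀ {r : ℝ} {l : ι}, Past C (e j) j r l → 0 ≤ r → e l < r → False := by
    intro r l h
    induction h with
    | @root r hr =>
      intro _ h9
      exact absurd hr (not_le.2 h9)
    | @step r r' p q hpq hc hrr ihp =>
      intro h10 h9
      exact ihp (h10.trans hrr) (hprot r' q p (h10.trans hrr) (hpq.le.trans hj) (hsym _ _ _ hc)
        (h9.trans_le hrr))
  exact key h hs hlt

end past

/-! ### Marked sizes -/

section size

variable [Fintype ι]

open scoped Classical in
/-- Marked size of the past. -/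
noncomputable def msize (C : ℝ → ι → ι → Prop) (m : ι → ℕ) (t : ℝ) (i : ι) : ℕ :=
  ∑ k, if Past C t i 0 k then m k else 0

theorem msize_mono_set {C C' : ℝ → ι → ι → Prop} {m : ι → ℕ} {t t' : ℝ} {i i' : ι}
    (h : ∀ k, Past C t i 0 k → Past C' t' i' 0 k) : msize C m t i ≤ msize C' m t' i' := by
  classical
  refine Finset.sum_le_sum fun k _ => ?_
  by_cases hk : Past C t i 0 k
  · rw [if_pos hk, if_pos (h k hk)]
  · rw [if_neg hk]; exact Nat.zero_le _

theorem msize_congr_set {C C' : ℝ → ι → ι → Prop} {m : ι → ℕ} {t t' : ℝ} {i i' : ι}
    (h : ∀ k, Past C t i 0 k ↔ Past C' t' i' 0 k) : msize C m t i = msize C' m t' i' :=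
  le_antisymm (msize_mono_set fun k => (h k).1) (msize_mono_set fun k => (h k).2)

theorem msize_mono_time {C : ℝ → ι → ι → Prop} {m : ι → ℕ} {s t : ℝ} {i j : ι}
    (h : Past C t i s j) : msize C m s j ≤ msize C m t i :=
  msize_mono_set fun _ hk => h.trans hk

theorem mark_le_msize {C : ℝ → ι → ι → Prop} {m : ι → ℕ} {t : ℝ} {i k : ι} (h : Past C t i 0 k) :
    m k ≤ msize C m t i := by
  classical
  unfold msize
  have := Finset.single_le_sum (f := fun k => if Past C t i 0 k then m k else 0)
    (fun _ _ => Nat.zero_le _) (Finset.mem_univ k)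
  simpa [h] using this

theorem card_le_msize {C : ℝ → ι → ι → Prop} {m : ι → ℕ} {t : ℝ} {i : ι} (hm : ∀ k, 1 ≤ m k) :
    (BC C t i).ncard ≤ msize C m t i := by
  classical
  have h1 : (BC C t i).ncard = ∑ k, if Past C t i 0 k then 1 else 0 := by
    rw [Finset.sum_boole, Set.ncard_eq_toFinset_card']
    simp [BC]
  rw [h1]
  refine Finset.sum_le_sum fun k _ => ?_
  by_cases hk : Past C t i 0 k
  · rw [if_pos hk, if_pos hk]; exact hm k
  · rw [if_neg hk, if_neg hk]

open scoped Classical in
/-- Marks of the reborn world. -/
noncomputable def rmark (C : ℝ → ι → ι → Prop) (e : ι → ℝ) (S : Set ι) (m : ι → ℕ) (j : ι) : ℕ :=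
  if j ∈ S then msize C m (e j) j else m j

variable {C : ℝ → ι → ι → Prop} {e : ι → ℝ} {t : ℝ} {i : ι} {m : ι → ℕ} {S : Set ι}

/-- **Sizes in the reborn world.** If the past in the reborn world contains at most one line, then
the marked size is the same as in the old world. -/
theorem msize_rb (hi : e i < t) (hprot : ProtClosed C e t)
    (hS : ∀ s j k, 0 ≤ s → s ≤ t → j ∉ S → C s j k → e j < s)
    (hsym : ∀ s j k, C s j k → C s k j)
    (heS : ∀ j ∈ S, 0 ≤ e j)
    (hone : ∀ j ∈ S, ∀ k ∈ S, Past (Rb C e) t i 0 j → Past (Rb C e) t i 0 k → j = k) :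
    msize (Rb C e) (rmark C e S m) t i = msize C m t i := by
  classical
  -- old past of a line consists of elements of `S`
  have hinS : ∀ j ∈ S, e j ≤ t → ∀ k, Past C (e j) j 0 k → k ∈ S := by
    intro j hj hjt k hk
    by_contra hkS
    rcases hk.cases' with rfl | ⟨s', l, h3, h4, h5, h6⟩
    · exact hkS hj
    · have h7 : e k < s' := hS s' k l h3 (h4.trans hjt) hkS (hsym _ _ _ h6)
      have h8 := past_prot hprot hsym hjt h3 (Past.contact h5 h6)
      exact absurd h8 (not_le.2 h7)
  have hjle : ∀ j, Past (Rb C e) t i 0 j → 0 ≤ e j → e j ≤ t := fun j hj h0 =>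
    (past_rb_birth hi hj h0).le
  by_cases hex : ∃ j ∈ S, Past (Rb C e) t i 0 j
  · obtain ⟨j, hj, hjp⟩ := hex
    have hjt : e j ≤ t := hjle j hjp (heS j hj)
    have hjb : Past (Rb C e) t i (e j) j := past_rb_birth hi hjp (heS j hj)
    unfold msize
    -- split both sums over S and its complement
    have hL : ∀ k, (if Past (Rb C e) t i 0 k then rmark C e S m k else 0)
        = (if k = j then msize C m (e j) j else 0) + (if k ∉ S ∧ Past C t i 0 k then m k else 0) := by
      intro k
      by_cases hkS : k ∈ S
      · rw [if_neg (fun h : k ∉ S ∧ _ => h.1 hkS), add_zero]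
        by_cases hkj : k = j
        · subst hkj
          rw [if_pos hjp, if_pos rfl]
          unfold rmark
          rw [if_pos hkS]
        · rw [if_neg hkj, if_neg fun h => hkj (hone k hkS j hj h hjp)]
      · have hkj : k ≠ j := fun h => hkS (h ▸ hj)
        rw [if_neg hkj, zero_add]
        by_cases hkp : Past (Rb C e) t i 0 k
        · rw [if_pos hkp, if_pos ⟨hkS, past_of_rb hkp⟩]
          unfold rmark
          rw [if_neg hkS]
        · rw [if_neg hkp, if_neg fun h => hkp ((past_rb_of_not_mem hi hprot hS hsym le_rfl hkS).1 h.2)]
    have hR : ∀ k, (if Past C t i 0 k then m k else 0)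
        = (if Past C (e j) j 0 k then m k else 0) + (if k ∉ S ∧ Past C t i 0 k then m k else 0) := by
      intro k
      by_cases hkS : k ∈ S
      · rw [if_neg (fun h : k ∉ S ∧ _ => h.1 hkS), add_zero]
        by_cases hkp : Past C (e j) j 0 k
        · rw [if_pos hkp, if_pos ((past_of_rb hjb).trans hkp)]
        · rw [if_neg hkp, if_neg]
          intro h
          rcases (past_rb_iff hi hprot le_rfl).1 h with h1 | ⟨j', h1, h2⟩
          · have := hone k hkS j hj h1 hjp
            subst this
            exact hkp (.root (heS k hkS))
          · have h0 : 0 ≤ e j' := h2.le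
            have hj'S : j' ∈ S := by
              by_contra hj'S
              rcases h2.cases' with rfl | ⟨s', l, h3, h4, h5, h6⟩
              · exact hj'S hkS
              · -- `j'` not in `S`: its contacts are after `e j'`
                have hj't : e j' ≤ t := h1.le
                have key : ∀ {r : ℝ} {l : ι}, Past C (e j') j' r l → 0 ≤ r → l = j' := by
                  intro r l h
                  induction h with
                  | root h => intro _; rfl
                  | @step r r' p q hpq hc hrr ihp =>
                    intro h10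
                    have h11 := ihp (h10.trans hrr)
                    subst h11
                    have h12 := hS r' p q (h10.trans hrr) (hpq.le.trans hj't) hj'S hc
                    exact absurd hpq.le (not_le.2 h12)
                have h13 := key h5 h3
                subst h13
                have h14 := hS s' l k h3 (h4.trans hj't) hj'S h6
                exact absurd h4 (not_le.2 h14)
            have := hone j' hj'S j hj (h1.mono h0) hjp
            subst this
            exact hkp h2
      · have : ¬ Past C (e j) j 0 k := fun h => hkS (hinS j hj hjt k h)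
        rw [if_neg this, zero_add]
        by_cases hkp : Past C t i 0 k
        · rw [if_pos hkp, if_pos ⟨hkS, hkp⟩]
        · rw [if_neg hkp, if_neg fun h => hkp h.2]
    rw [Finset.sum_congr rfl fun k _ => hL k, Finset.sum_congr rfl fun k _ => hR k,
      Finset.sum_add_distrib, Finset.sum_add_distrib]
    congr 1
    rw [Finset.sum_ite_eq' Finset.univ j]
    simp [msize]
  · push Not at hex
    unfold msize
    refine Finset.sum_congr rfl fun k _ => ?_
    by_cases hkS : k ∈ S
    · rw [if_neg (hex k hkS), if_neg]
      intro h
      rcases (past_rb_iff hi hprot le_rfl).1 h with h1 | ⟨j', h1, h2⟩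
      · exact hex k hkS h1
      · have h0 : 0 ≤ e j' := h2.le
        have hj't : e j' ≤ t := h1.le
        by_cases hj'S : j' ∈ S
        · exact hex j' hj'S (h1.mono h0)
        · have key : ∀ {r : ℝ} {l : ι}, Past C (e j') j' r l → 0 ≤ r → l = j' := by
            intro r l h
            induction h with
            | root h => intro _; rfl
            | @step r r' p q hpq hc hrr ihp =>
              intro h10
              have h11 := ihp (h10.trans hrr)
              subst h11
              have h12 := hS r' p q (h10.trans hrr) (hpq.le.trans hj't) hj'S hc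
              exact absurd hpq.le (not_le.2 h12)
          have := key h2 le_rfl
          subst this
          exact hj'S hkS
    · have h1 := past_rb_of_not_mem (C := C) (e := e) hi hprot hS hsym le_rfl hkS
      unfold rmark
      rw [if_neg hkS]
      by_cases hk : Past (Rb C e) t i 0 k
      · rw [if_pos hk, if_pos (h1.2 hk)]
      · rw [if_neg hk, if_neg fun h => hk (h1.1 h)]

end size

end Crest.Agent.R122.Link304
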