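import Crest.Agent.R122.Link6Pt_796
import Crest.Agent.R122.EncNull_741
import Crest.Agent.R122.GateOS2c_495
import Crest.Agent.R122.GateOSc_434

/-!
# Row 122, LINK6 (helper796): the pieces as gateway functionals and measurable functionals

* `evEnc_le` : the encounter piece is at most helper741's `encM`.
* `F6 R` : the gateway functional (bad event 1, bad event 2 of radius `R`, bad test lines).
* `bd6_le_F6` : `bd6 ≤ F6 R + encM R` on `Gd6`, every `R` with `ε R ≤ σ ε`.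
* `Slots6` : the literal null facts asked from the gateway, for one shape; `Slots6.fNull`.
-/

set_option autoImplicit false
set_option linter.unusedSectionVars false

open MeasureTheory Set Filter Topology
open scoped Classical ENNReal
open Crest.AnalysisR.Kinetic
open Crest.Agent.R122.GC311 Crest.Agent.R122.EDefs602
open Crest.Agent.R122.Kin796 Crest.Agent.R122.Kin796.CTree Crest.Agent.R122.Tree674
open Crest.Agent.R122.TreeLines335
open Crest.Agent.R122.Gate424 Crest.Agent.R122.Gate973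
open Crest.Agent.R122.Boost969 (LSt)
open Crest.Agent.R122.Pair292 (Lab)
open Crest.Agent.R122.PairD292 Crest.Agent.R122.Pt6811 Crest.Agent.R122.Third741
open Crest.Agent.R122.PairRep581 Crest.Agent.R122.GateOS2495

noncomputable section

namespace Crest.Agent.R122.Link6796

variable {Φ : Space3 → ℝ} {f₀ : PhasePoint → ℝ} {ε R T' te : ℝ} {K : ℕ} {Q : EPar} {σ : ℝ → ℝ}
  {P : CTree} {z : PhasePoint × Par P} {m : ℕ} {w : Config m} {θ : Lab × LSt} {d e : ML}

/-- The event of the encounter. -/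
theorem EncP.encM6 {P : CTree} {z : PhasePoint × Par P} {w : Config m} {d e : ML}
    (h : EncP Φ ε R te P z w d e) : EncM6 Φ ε R P z w d e :=
  ⟨h.pass, h.tau, h.disp, h.gas, h.mem, h.memd, h.nobd⟩

/-- **The encounter piece.** -/
theorem evEnc_le (hΦ : AdmissiblePotential Φ) (hε : 0 < ε) (hR : 0 ≤ R) :
    ind6 (evEnc Φ Q T' R K ε) P z m w θ ≤ encM Φ R K Q.te ε P z m w θ := by
  unfold ind6
  split_ifs with h
  · obtain ⟨hg, hL, hE⟩ := h
    have hPK : P.leaves ≤ K := (Nat.le_add_left _ _).trans hg.small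
    exact one_le_encM hΦ hε hR hg.real.exw hg.real.ct hg.real.okL hPK fun h1 => hE (EncP.encM6 h1)
  · exact bot_le

/-- **The gateway functional.** -/
def F6 (Φ : Space3 → ℝ) (Q : EPar) (T' R : ℝ) (K : ℕ) (ε : ℝ) : SF2 := fun P z m w θ =>
  ind6 (evHyp Φ Q T' K ε) P z m w θ + ind6 (evNear Φ Q T' R K ε) P z m w θ +
    fLk6 Φ Q T' K ε P z m w θ

/-- **The error term of inequality 3**, every radius `R` with `ε R ≤ σ ε`. -/
theorem bd6_le_F6 (hΦ : AdmissiblePotential Φ) (hε : 0 < ε) (hR : 0 ≤ R) (hs : ε * R ≤ σ ε)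
    (hg : Gd6 Φ ε K Q T' P z w θ) :
    bd6 Φ Q σ K ε P z m w θ ≤ F6 Φ Q T' R K ε P z m w θ + encM Φ R K Q.te ε P z m w θ := by
  refine (bd6_le hR hs hg).trans ?_
  have h1 := evEnc_le (Q := Q) (T' := T') (K := K) (P := P) (z := z) (m := m) (w := w) (θ := θ)
    hΦ hε hR
  unfold F6
  calc ind6 (evHyp Φ Q T' K ε) P z m w θ + ind6 (evNear Φ Q T' R K ε) P z m w θ +
        ind6 (evEnc Φ Q T' R K ε) P z m w θ + fLk6 Φ Q T' K ε P z m w θ
      ≤ ind6 (evHyp Φ Q T' K ε) P z m w θ + ind6 (evNear Φ Q T' R K ε) P z m w θ +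
        encM Φ R K Q.te ε P z m w θ + fLk6 Φ Q T' K ε P z m w θ := by gcongr
    _ = _ := by ring

/-- The support of the gateway functional. -/
theorem F6_eq_zero (hg : ¬ Gd6 Φ ε K Q T' P z w θ) : F6 Φ Q T' R K ε P z m w θ = 0 := by
  unfold F6 ind6 fLk6
  rw [if_neg fun h => hg h.1, if_neg fun h => hg h.1, if_neg fun h => hg h.1]
  simp

/-- **The literal null facts asked from the gateway**, for one tree and one shape. -/
structure Slots6 (Φ : Space3 → ℝ) (f₀ : PhasePoint → ℝ) (Q : EPar) (T' : ℝ) (K : ℕ) (P : CTree)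
    (S : Shp) : Prop where
  /-- (S1) links and worlds -/
  hyp : GNull f₀ (osP Φ f₀ Q.te T' K P S)
    (fun ε _ n q w => evHyp Φ Q T' K ε P q.1 n w (S.th ε q.2))
  /-- (S2) near the root line, every fixed radius -/
  near : ∀ R : ℝ, 0 ≤ R → GNull f₀ (osP Φ f₀ Q.te T' K P S)
    (fun ε _ n q w => evNear Φ Q T' R K ε P q.1 n w (S.th ε q.2))
  /-- (S4) the test lines -/
  lk : FNull f₀ (osP Φ f₀ Q.te T' K P S)
    (fun ε _ n q w => fLk6 Φ Q T' K ε P q.1 n w (S.th ε q.2))

theorem Slots6.fNull {S : Shp} (hf : Measurable f₀) (h : Slots6 Φ f₀ Q T' K P S) (hR : 0 ≤ R) :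
    FNull f₀ (osP Φ f₀ Q.te T' K P S) (pullS Φ Q.te T' K (F6 Φ Q T' R K) P S) := by
  have h1 := GateOS434.FNull.add hf (GateOS434.FNull.add hf (FNull.ofE h.hyp)
    (FNull.ofE (h.near R hR))) h.lk
  refine h1.mono ⟨1, one_pos, fun ε _ _ _ n q w _ => ?_⟩
  show (if Valid Φ ε P T' q.1.1.2 q.1.2 ∧ q ∈ ctOkS Φ ε K Q.te P S then
    F6 Φ Q T' R K ε P q.1 n w (S.th ε q.2) else 0) ≤ F6 Φ Q T' R K ε P q.1 n w (S.th ε q.2)
  by_cases hc : Valid Φ ε P T' q.1.1.2 q.1.2 ∧ q ∈ ctOkS Φ ε K Q.te P S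
  · rw [if_pos hc]
  · rw [if_neg hc]
    exact bot_le

end Crest.Agent.R122.Link6796

end
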