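import Crest.Agent.R122.Link6G_796
import Crest.Agent.R122.BirthSlot_664

/-!
# Row 122, LINK6 (helper796), final form

`link6F` : `NullFacts` of a countable family of pair laws and one measurable `bd ≥ bd6` on `Gd6`, from
`Slots6G` for every tree and shape (helper664's `bw6`, helper741's `encM`, slack `slk`).
-/

set_option autoImplicit false
set_option linter.unusedSectionVars false

open MeasureTheory Set Filter Topology
open scoped Classical ENNReal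
open Crest.AnalysisR.Kinetic
open Crest.Agent.R122.GC311 Crest.Agent.R122.EDefs602
open Crest.Agent.R122.Kin796 Crest.Agent.R122.Kin796.CTree Crest.Agent.R122.Tree674
open Crest.Agent.R122.Gate424 Crest.Agent.R122.Gate973
open Crest.Agent.R122.Boost969 (LSt)
open Crest.Agent.R122.Pair292 (Lab PPar PX)
open Crest.Agent.R122.PairD292 Crest.Agent.R122.Pt6811 Crest.Agent.R122.Third741
open Crest.Agent.R122.PairRep581 Crest.Agent.R122.GateOS2495
open Crest.Agent.R122.BirthOut664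

noncomputable section

namespace Crest.Agent.R122.Link6796

variable {Φ : Space3 → ℝ} {f₀ : PhasePoint → ℝ}

/-- **LINK6, final form.** -/
theorem link6F (hΦ : AdmissiblePotential Φ) {A : Space3 → ℝ≥0∞} {C b g0 : ℝ}
    (hF₀ : FOk f₀ A C b) {Q : EPar} (hQ : QOk Q g0) {PP : ℕ → PPar} (hP : PPOk Q PP) {T' : ℝ}
    {J : Type} [Countable J] {ι : J → ℕ → Type} [∀ j K, Fintype (ι j K)]
    {ν Ξ : J → ℕ → ℝ → Measure (Lab × LSt)} {S : ∀ j K, ι j K → Shp}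
    (hR : ∀ j K, Rep (ν j K) (S j K)) (hB : ∀ j K s, StandardBorelSpace (S j K s).Θ)
    (hν : ∀ j K ε, 0 < ε → SFinite (ν j K ε)) {c : J → ℝ≥0∞} (hc : ∀ j, c j ≠ ∞)
    {ε₁ : J → ℝ} (hε₁ : ∀ j, 0 < ε₁ j)
    (hPX : ∀ j K ε, 0 < ε → ε < ε₁ j → PX (PP K) (Ξ j K ε) (ν j K ε) (c j))
    (hS : ∀ j K P s, P.leaves ≤ K → Slots6G Φ f₀ Q T' K P (S j K s))
    (hok : ∀ j K ε, 0 < ε → OkAE Φ ε K (ν j K ε))
    (hbad : ∀ j, Null fun K ε => BAD Φ f₀ ε K Q (ν j K ε)) :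
    ∃ bd : ℕ → ℝ → SF2,
      (∀ (K : ℕ) (ε : ℝ), 0 < ε → ∀ (P : CTree) (z : PhasePoint × Par P) (m : ℕ)
        (w : Config m) (θ : Lab × LSt), (eL θ).2 + P.leaves ≤ K → Real6 Φ ε K Q.te T' P z w θ →
        GIV566.unhit Φ ε (OneC285.ptube Φ ε P z) Q.tw w →
        bd6 Φ Q slk K ε P z m w θ ≤ bd K ε P z m w θ) ∧
      ∀ j, NullFacts Φ f₀ Q T' bd (ν j) := by
  obtain ⟨δ, hδ, hle⟩ := bw6_OS2_le hΦ hF₀ hQ hP T'
  obtain ⟨bd, h1, h2⟩ := link6G hΦ hF₀ hQ hP hR hB hν hc hε₁ hPX (bw := bw6 Φ)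
    (fun K ε _ => measSF2_bw6 hΦ K ε)
    (fun K ε hε P z m w θ _ _ hL hPK hb => (bw6_eq_one hε hL hPK hb).ge) hδ
    (fun K ε hε Ξ ν c _ hx => hle K ε hε Ξ ν c hx) hS (σ := slk) sqrt_slot hok hbad
  exact ⟨bd, fun K ε hε P z m w θ hK hR6 hu => h1 K ε hε P z m w θ ⟨hK, hR6, hu⟩, h2⟩

end Crest.Agent.R122.Link6796

end
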