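import Crest.Agent.R122.GateOS2_495
import Crest.Agent.R122.ThirdNu2_741
import Crest.Agent.R122.ThirdD_741
import Crest.Agent.R122.LinkSel_984

/-!
# Null facts of inequality 3: calculus and selection of the majorant (row 122, board H4 / H11)

* `Gd6` : the contact structures of the pair on which the majorant is asked for.
* `OS2Le ν E c` : for small `ε` the functional `E ε` has on `Gd6` a measurable majorant `M` with
  `OS2 (ν ε) (uG * M) ≤ c`. `OS2Null`, `EvNull` (events), `RNull` (functionals of a radius `R`).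
* Slots : `OS2Null.of_measV`, `of_px` (bounds uniform over the pair laws of the class), `of_pull` and
  `of_pull_E` (gateway, over `osP`), `of_ae`, `of_ae_w` (almost sure facts).
* Pieces : `os2Null_third`, `os2Null_mem`, `rNull_long`, `evNull_dfree`.
* `exists_bd`, `link6_of` : selection of one functional `bd` for a countable family of pair laws,
  output `StmtPt6` and the literal `NullFacts`.
-/

set_option autoImplicit false
set_option linter.unusedSectionVars false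

open MeasureTheory Set Filter Topology
open scoped ENNReal Classical
open Crest.AnalysisR.Kinetic
open Crest.Agent.R122.Kin796 Crest.Agent.R122.Kin796.CTree Crest.Agent.R122.Tree674
open Crest.Agent.R122.GC311 Crest.Agent.R122.EDefs602
open Crest.Agent.R122.Boost969 (LSt posAt)
open Crest.Agent.R122.Pair292 (Lab PPar PX sig)
open Crest.Agent.R122.OneC285 (cfT rt cT cB cD cX lpos uI ptube)
open Crest.Agent.R122.GSCalc495 Crest.Agent.R122.OS2Calc495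
open Crest.Agent.R122.PairD292 Crest.Agent.R122.PairRep581
open Crest.Agent.R122.Gate424 Crest.Agent.R122.Gate973
open Crest.Agent.R122.Third741 Crest.Agent.R122.ThirdV796

noncomputable section

namespace Crest.Agent.R122.Link6Sel285

variable {Φ : Space3 → ℝ} {f₀ : PhasePoint → ℝ} {K : ℕ} {Q : EPar} {T' : ℝ}

/-- The contact structures on which the majorant is asked for. -/
structure Gd6 (Φ : Space3 → ℝ) (ε : ℝ) (K : ℕ) (Q : EPar) (T' : ℝ) (P : CTree)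
    (z : PhasePoint × Par P) {m : ℕ} (w : Config m) (θ : Lab × LSt) : Prop where
  small : (eL θ).2 + P.leaves ≤ K
  real : Real6 Φ ε K Q.te T' P z w θ
  unhit : GIV566.unhit Φ ε (ptube Φ ε P z) Q.tw w

theorem Gd6.leaves {ε : ℝ} {P : CTree} {z : PhasePoint × Par P} {m : ℕ} {w : Config m}
    {θ : Lab × LSt} (h : Gd6 Φ ε K Q T' P z w θ) : P.leaves ≤ K :=
  (Nat.le_add_left _ _).trans h.small

/-- The ghost indicator is `1` on `Gd6`. -/
theorem Gd6.uG_eq {ε : ℝ} {P : CTree} {z : PhasePoint × Par P} {m : ℕ} {w : Config m}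
    {θ : Lab × LSt} (h : Gd6 Φ ε K Q T' P z w θ) : OkL K θ ∧ P.leaves ≤ K :=
  ⟨h.real.okL, h.leaves⟩

/-- For small `ε` the functional has on `Gd6` a measurable majorant with structure integral
`≤ c`. -/
def OS2Le (Φ : Space3 → ℝ) (f₀ : PhasePoint → ℝ) (K : ℕ) (Q : EPar) (T' : ℝ)
    (ν : ℝ → Measure (Lab × LSt)) (E : ℝ → SF2) (c : ℝ≥0∞) : Prop :=
  ∃ ε₀ : ℝ, 0 < ε₀ ∧ ∀ ε : ℝ, 0 < ε → ε < ε₀ → ∃ M : SF2, MeasSF2 M ∧
    (∀ (P : CTree) (z : PhasePoint × Par P) (m : ℕ) (w : Config m) (θ : Lab × LSt),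
      Gd6 Φ ε K Q T' P z w θ → E ε P z m w θ ≤ M P z m w θ) ∧
    OS2 Φ f₀ ε Q.te T' (ν ε) (fun P z m w θ => uG Φ ε Q.tw K P z w θ * M P z m w θ) ≤ c

/-- Null functional. -/
def OS2Null (Φ : Space3 → ℝ) (f₀ : PhasePoint → ℝ) (K : ℕ) (Q : EPar) (T' : ℝ)
    (ν : ℝ → Measure (Lab × LSt)) (E : ℝ → SF2) : Prop :=
  ∀ δ : ℝ, 0 < δ → OS2Le Φ f₀ K Q T' ν E (ENNReal.ofReal δ)

/-- Events of a contact structure of the pair. -/
abbrev EF2 : Type :=
  (P : CTree) → PhasePoint × Par P → (m : ℕ) → Config m → Lab × LSt → Prop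

/-- Null event. -/
def EvNull (Φ : Space3 → ℝ) (f₀ : PhasePoint → ℝ) (K : ℕ) (Q : EPar) (T' : ℝ)
    (ν : ℝ → Measure (Lab × LSt)) (N : ℝ → EF2) : Prop :=
  OS2Null Φ f₀ K Q T' ν fun ε P z m w θ => if N ε P z m w θ then 1 else 0

/-- Functional of a radius `R` which is small for large `R`. -/
def RNull (Φ : Space3 → ℝ) (f₀ : PhasePoint → ℝ) (K : ℕ) (Q : EPar) (T' : ℝ)
    (ν : ℝ → Measure (Lab × LSt)) (E : ℝ → ℝ → SF2) : Prop :=
  ∀ δ : ℝ, 0 < δ → ∃ R₀ : ℝ, ∀ R ≥ R₀, OS2Le Φ f₀ K Q T' ν (E R) (ENNReal.ofReal δ)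

/-- The laws are s-finite for small `ε`. -/
def LSF (ν : ℝ → Measure (Lab × LSt)) : Prop :=
  ∃ ε₁ : ℝ, 0 < ε₁ ∧ ∀ ε : ℝ, 0 < ε → ε < ε₁ → SFinite (ν ε)

/-- The laws are in the class with a constant `c < ∞`, for small `ε`. -/
def LawIn (PP : PPar) (ν : ℝ → Measure (Lab × LSt)) : Prop :=
  ∃ c : ℝ≥0∞, c ≠ ∞ ∧ ∃ ε₁ : ℝ, 0 < ε₁ ∧ ∀ ε : ℝ, 0 < ε → ε < ε₁ →
    ∃ Ξ : Measure (Lab × LSt), PX PP Ξ (ν ε) c

theorem LawIn.sf {PP : PPar} {ν : ℝ → Measure (Lab × LSt)} (h : LawIn PP ν) : LSF ν := by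
  obtain ⟨c, -, ε₁, h1, h2⟩ := h
  refine ⟨ε₁, h1, fun ε hε hlt => ?_⟩
  obtain ⟨Ξ, hΞ⟩ := h2 ε hε hlt
  exact hΞ.sfν

variable {ν : ℝ → Measure (Lab × LSt)} {E E' : ℝ → SF2} {c c' : ℝ≥0∞}

/-! ## Calculus -/

theorem OS2Le.mono (h : OS2Le Φ f₀ K Q T' ν E c) (hc : c ≤ c')
    (hE : ∃ ε₁ : ℝ, 0 < ε₁ ∧ ∀ ε : ℝ, 0 < ε → ε < ε₁ → ∀ (P : CTree) (z : PhasePoint × Par P)
      (m : ℕ) (w : Config m) (θ : Lab × LSt), Gd6 Φ ε K Q T' P z w θ →
      E' ε P z m w θ ≤ E ε P z m w θ) : OS2Le Φ f₀ K Q T' ν E' c' := by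
  obtain ⟨ε₀, h0, h⟩ := h
  obtain ⟨ε₁, h1, h2⟩ := hE
  refine ⟨min ε₀ ε₁, lt_min h0 h1, fun ε hε hlt => ?_⟩
  obtain ⟨M, hM, hle, hO⟩ := h ε hε (hlt.trans_le (min_le_left _ _))
  exact ⟨M, hM, fun P z m w θ hg => (h2 ε hε (hlt.trans_le (min_le_right _ _)) P z m w θ hg).trans
    (hle P z m w θ hg), hO.trans hc⟩

theorem OS2Null.mono (h : OS2Null Φ f₀ K Q T' ν E)
    (hE : ∃ ε₁ : ℝ, 0 < ε₁ ∧ ∀ ε : ℝ, 0 < ε → ε < ε₁ → ∀ (P : CTree) (z : PhasePoint × Par P)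
      (m : ℕ) (w : Config m) (θ : Lab × LSt), Gd6 Φ ε K Q T' P z w θ →
      E' ε P z m w θ ≤ E ε P z m w θ) : OS2Null Φ f₀ K Q T' ν E' :=
  fun δ hδ => (h δ hδ).mono le_rfl hE

theorem OS2Null.congr (h : OS2Null Φ f₀ K Q T' ν E)
    (hE : ∀ (ε : ℝ), 0 < ε → ∀ (P : CTree) (z : PhasePoint × Par P)
      (m : ℕ) (w : Config m) (θ : Lab × LSt), Gd6 Φ ε K Q T' P z w θ →
      E' ε P z m w θ ≤ E ε P z m w θ) : OS2Null Φ f₀ K Q T' ν E' :=
  h.mono ⟨1, one_pos, fun ε hε _ => hE ε hε⟩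

theorem OS2Null.zero : OS2Null Φ f₀ K Q T' ν fun _ _ _ _ _ _ => 0 := by
  intro δ _
  refine ⟨1, one_pos, fun ε _ _ => ⟨fun _ _ _ _ _ => 0, fun _ _ => measurable_const,
    fun _ _ _ _ _ _ => le_rfl, ?_⟩⟩
  simp only [mul_zero]
  exact (OS2_zero (Φ := Φ) (f₀ := f₀) (ε := ε) (te := Q.te) (T' := T') (ν := ν ε)).le.trans bot_le

theorem OS2Le.add (hΦ : AdmissiblePotential Φ) (hf : Measurable f₀) (hν : LSF ν)
    (h : OS2Le Φ f₀ K Q T' ν E c) (h' : OS2Le Φ f₀ K Q T' ν E' c') :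
    OS2Le Φ f₀ K Q T' ν (fun ε P z m w θ => E ε P z m w θ + E' ε P z m w θ) (c + c') := by
  obtain ⟨ε₀, h0, h⟩ := h
  obtain ⟨ε₁, h1, h'⟩ := h'
  obtain ⟨ε₂, h2, hs⟩ := hν
  refine ⟨min (min ε₀ ε₁) ε₂, lt_min (lt_min h0 h1) h2, fun ε hε hlt => ?_⟩
  obtain ⟨M, hM, hle, hO⟩ :=
    h ε hε (hlt.trans_le ((min_le_left _ _).trans (min_le_left _ _)))
  obtain ⟨M', hM', hle', hO'⟩ :=
    h' ε hε (hlt.trans_le ((min_le_left _ _).trans (min_le_right _ _)))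
  have := hs ε hε (hlt.trans_le (min_le_right _ _))
  refine ⟨fun P z m w θ => M P z m w θ + M' P z m w θ, fun P m => (hM P m).add (hM' P m),
    fun P z m w θ hg => add_le_add (hle P z m w θ hg) (hle' P z m w θ hg), ?_⟩
  simp only [mul_add]
  rw [OS2_add hΦ hf ((measV_uG hΦ hε Q.tw K).mul (MeasSF2.measV hΦ hM))]
  exact add_le_add hO hO'

theorem OS2Null.add (hΦ : AdmissiblePotential Φ) (hf : Measurable f₀) (hν : LSF ν)
    (h : OS2Null Φ f₀ K Q T' ν E) (h' : OS2Null Φ f₀ K Q T' ν E') :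
    OS2Null Φ f₀ K Q T' ν (fun ε P z m w θ => E ε P z m w θ + E' ε P z m w θ) := by
  intro δ hδ
  have h1 := (h (δ / 2) (by positivity)).add hΦ hf hν (h' (δ / 2) (by positivity))
  rwa [← ENNReal.ofReal_add (by positivity) (by positivity), add_halves] at h1

theorem OS2Null.sum (hΦ : AdmissiblePotential Φ) (hf : Measurable f₀) (hν : LSF ν) {β : Type*}
    (s : Finset β) {F : β → ℝ → SF2} (h : ∀ a ∈ s, OS2Null Φ f₀ K Q T' ν (F a)) :
    OS2Null Φ f₀ K Q T' ν (fun ε P z m w θ => ∑ a ∈ s, F a ε P z m w θ) := by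
  induction s using Finset.induction_on with
  | empty =>
    simp only [Finset.sum_empty]
    exact OS2Null.zero
  | insert a s ha ih =>
    simp only [Finset.sum_insert ha]
    exact (h a (Finset.mem_insert_self a s)).add hΦ hf hν
      (ih fun b hb => h b (Finset.mem_insert_of_mem hb))

theorem OS2Null.const_mul (h : OS2Null Φ f₀ K Q T' ν E) {C : ℝ≥0∞} (hC : C ≠ ∞) :
    OS2Null Φ f₀ K Q T' ν (fun ε P z m w θ => C * E ε P z m w θ) := by
  intro δ hδ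
  obtain ⟨δ', hδ', hmul⟩ := EDefs602.exists_mul_le hC hδ
  obtain ⟨ε₀, h0, h1⟩ := h δ' hδ'
  refine ⟨ε₀, h0, fun ε hε hlt => ?_⟩
  obtain ⟨M, hM, hle, hO⟩ := h1 ε hε hlt
  refine ⟨fun P z m w θ => C * M P z m w θ, fun P m => (hM P m).const_mul C,
    fun P z m w θ hg => mul_le_mul_right (hle P z m w θ hg) _, ?_⟩
  have e1 : (fun (P : CTree) (z : PhasePoint × Par P) (m : ℕ) (w : Config m) (θ : Lab × LSt) =>
      uG Φ ε Q.tw K P z w θ * (C * M P z m w θ)) =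
      fun P z m w θ => C * (uG Φ ε Q.tw K P z w θ * M P z m w θ) := by
    funext P z m w θ
    ring
  rw [e1, OS2_const_mul hC]
  exact hmul _ hO

/-! ### Events -/

theorem EvNull.mono {N N' : ℝ → EF2} (h : EvNull Φ f₀ K Q T' ν N)
    (hN : ∃ ε₁ : ℝ, 0 < ε₁ ∧ ∀ ε : ℝ, 0 < ε → ε < ε₁ → ∀ (P : CTree) (z : PhasePoint × Par P)
      (m : ℕ) (w : Config m) (θ : Lab × LSt), Gd6 Φ ε K Q T' P z w θ →
      N' ε P z m w θ → N ε P z m w θ) : EvNull Φ f₀ K Q T' ν N' := by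
  obtain ⟨ε₁, h1, h2⟩ := hN
  refine OS2Null.mono h ⟨ε₁, h1, fun ε hε hlt P z m w θ hg => ?_⟩
  by_cases hn : N' ε P z m w θ
  · rw [if_pos (h2 ε hε hlt P z m w θ hg hn)]
    split_ifs
    exact le_rfl
  · rw [if_neg hn]
    exact bot_le

theorem EvNull.congr {N N' : ℝ → EF2} (h : EvNull Φ f₀ K Q T' ν N)
    (hN : ∀ ε : ℝ, 0 < ε → ∀ (P : CTree) (z : PhasePoint × Par P)
      (m : ℕ) (w : Config m) (θ : Lab × LSt), Gd6 Φ ε K Q T' P z w θ →
      N' ε P z m w θ → N ε P z m w θ) : EvNull Φ f₀ K Q T' ν N' :=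
  h.mono ⟨1, one_pos, fun ε hε _ => hN ε hε⟩

theorem EvNull.or (hΦ : AdmissiblePotential Φ) (hf : Measurable f₀) (hν : LSF ν)
    {N N' : ℝ → EF2} (h : EvNull Φ f₀ K Q T' ν N) (h' : EvNull Φ f₀ K Q T' ν N') :
    EvNull Φ f₀ K Q T' ν fun ε P z m w θ => N ε P z m w θ ∨ N' ε P z m w θ := by
  refine (OS2Null.add hΦ hf hν h h').congr fun ε _ P z m w θ _ => ?_
  by_cases h1 : N ε P z m w θ
  · rw [if_pos (Or.inl h1), if_pos h1]
    exact le_self_add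
  by_cases h2 : N' ε P z m w θ
  · rw [if_pos (Or.inr h2), if_pos h2]
    exact le_add_self
  · rw [if_neg (not_or.2 ⟨h1, h2⟩)]
    exact bot_le

theorem EvNull.exists_fin (hΦ : AdmissiblePotential Φ) (hf : Measurable f₀) (hν : LSF ν)
    {β : Type*} (s : Finset β) {N : β → ℝ → EF2} (h : ∀ a ∈ s, EvNull Φ f₀ K Q T' ν (N a)) :
    EvNull Φ f₀ K Q T' ν fun ε P z m w θ => ∃ a ∈ s, N a ε P z m w θ := by
  refine (OS2Null.sum hΦ hf hν s h).congr fun ε _ P z m w θ _ => ?_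
  by_cases h1 : ∃ a ∈ s, N a ε P z m w θ
  · obtain ⟨a, ha, h2⟩ := h1
    rw [if_pos ⟨a, ha, h2⟩]
    refine le_trans ?_ (Finset.single_le_sum (f := fun a => if N a ε P z m w θ then (1 : ℝ≥0∞)
      else 0) (fun _ _ => bot_le) ha)
    simp only [if_pos h2]
    exact le_rfl
  · rw [if_neg h1]
    exact bot_le

theorem EvNull.exists_fintype (hΦ : AdmissiblePotential Φ) (hf : Measurable f₀) (hν : LSF ν)
    {β : Type*} [Fintype β] {N : β → ℝ → EF2} (h : ∀ a, EvNull Φ f₀ K Q T' ν (N a)) :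
    EvNull Φ f₀ K Q T' ν fun ε P z m w θ => ∃ a, N a ε P z m w θ :=
  (EvNull.exists_fin hΦ hf hν Finset.univ fun a _ => h a).congr
    fun _ _ _ _ _ _ _ _ ⟨a, ha⟩ => ⟨a, Finset.mem_univ a, ha⟩

/-- A bounded functional which vanishes outside of a null event. -/
theorem EvNull.of_support {N : ℝ → EF2} (h : EvNull Φ f₀ K Q T' ν N) {C : ℝ≥0∞} (hC : C ≠ ∞)
    (hE : ∀ ε : ℝ, 0 < ε → ∀ (P : CTree) (z : PhasePoint × Par P) (m : ℕ) (w : Config m)
      (θ : Lab × LSt), Gd6 Φ ε K Q T' P z w θ → E ε P z m w θ ≤ C)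
    (hN : ∀ ε : ℝ, 0 < ε → ∀ (P : CTree) (z : PhasePoint × Par P) (m : ℕ) (w : Config m)
      (θ : Lab × LSt), Gd6 Φ ε K Q T' P z w θ → ¬ N ε P z m w θ → E ε P z m w θ = 0) :
    OS2Null Φ f₀ K Q T' ν E := by
  refine (OS2Null.const_mul h hC).congr fun ε hε P z m w θ hg => ?_
  by_cases h1 : N ε P z m w θ
  · simp only [if_pos h1, mul_one]
    exact hE ε hε P z m w θ hg
  · rw [hN ε hε P z m w θ hg h1]
    exact bot_le

/-! ### Functionals of a radius -/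

theorem RNull.of_null {F : ℝ → ℝ → SF2} {R₁ : ℝ}
    (h : ∀ R ≥ R₁, OS2Null Φ f₀ K Q T' ν (F R)) : RNull Φ f₀ K Q T' ν F :=
  fun δ hδ => ⟨R₁, fun R hR => h R hR δ hδ⟩

theorem RNull.of_const (h : OS2Null Φ f₀ K Q T' ν E) : RNull Φ f₀ K Q T' ν fun _ => E :=
  RNull.of_null (R₁ := 0) fun _ _ => h

theorem RNull.mono {F F' : ℝ → ℝ → SF2} (h : RNull Φ f₀ K Q T' ν F)
    (hF : ∃ R₁ : ℝ, ∀ R ≥ R₁, ∃ ε₁ : ℝ, 0 < ε₁ ∧ ∀ ε : ℝ, 0 < ε → ε < ε₁ →
      ∀ (P : CTree) (z : PhasePoint × Par P) (m : ℕ) (w : Config m) (θ : Lab × LSt),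
      Gd6 Φ ε K Q T' P z w θ → F' R ε P z m w θ ≤ F R ε P z m w θ) :
    RNull Φ f₀ K Q T' ν F' := by
  obtain ⟨R₁, h1⟩ := hF
  intro δ hδ
  obtain ⟨R₀, h0⟩ := h δ hδ
  exact ⟨max R₀ R₁, fun R hR => (h0 R ((le_max_left _ _).trans hR)).mono le_rfl
    (h1 R ((le_max_right _ _).trans hR))⟩

theorem RNull.add (hΦ : AdmissiblePotential Φ) (hf : Measurable f₀) (hν : LSF ν)
    {F F' : ℝ → ℝ → SF2} (h : RNull Φ f₀ K Q T' ν F) (h' : RNull Φ f₀ K Q T' ν F') :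
    RNull Φ f₀ K Q T' ν fun R ε P z m w θ => F R ε P z m w θ + F' R ε P z m w θ := by
  intro δ hδ
  obtain ⟨R₀, h0⟩ := h (δ / 2) (by positivity)
  obtain ⟨R₁, h1⟩ := h' (δ / 2) (by positivity)
  refine ⟨max R₀ R₁, fun R hR => ?_⟩
  have h2 := (h0 R ((le_max_left _ _).trans hR)).add hΦ hf hν
    (h1 R ((le_max_right _ _).trans hR))
  rwa [← ENNReal.ofReal_add (by positivity) (by positivity), add_halves] at h2

/-- The infimum over the radii is null. -/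
theorem RNull.iInf {F : ℝ → ℝ → SF2} (h : RNull Φ f₀ K Q T' ν F) (R₁ : ℝ) :
    OS2Null Φ f₀ K Q T' ν fun ε P z m w θ => ⨅ R : ℝ, ⨅ _ : R₁ ≤ R, F R ε P z m w θ := by
  intro δ hδ
  obtain ⟨R₀, h0⟩ := h δ hδ
  refine (h0 (max R₀ R₁) (le_max_left _ _)).mono le_rfl ⟨1, one_pos, fun ε _ _ P z m w θ _ => ?_⟩
  exact iInf₂_le (max R₀ R₁) (le_max_right _ _)

/-! ## Selection of one majorant for a countable family of laws -/

/-- **Selection.** -/
theorem exists_bd {J : Type} [Countable J] {ν : J → ℕ → ℝ → Measure (Lab × LSt)}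
    {E : ℕ → ℝ → SF2} (h : ∀ j K, OS2Null Φ f₀ K Q T' (ν j K) (E K)) :
    ∃ bd : ℕ → ℝ → SF2, (∀ K ε, MeasSF2 (bd K ε)) ∧
      (∀ (K : ℕ) (ε : ℝ) (P : CTree) (z : PhasePoint × Par P) (m : ℕ) (w : Config m)
        (θ : Lab × LSt), Gd6 Φ ε K Q T' P z w θ → E K ε P z m w θ ≤ bd K ε P z m w θ) ∧
      ∀ j, Null fun K ε => OS2 Φ f₀ ε Q.te T' (ν j K ε) fun P z m w θ =>
        uG Φ ε Q.tw K P z w θ * bd K ε P z m w θ := by
  set S : J → ℕ → ℝ → Set ℝ≥0∞ := fun j K ε => {x | ∃ M : SF2, MeasSF2 M ∧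
    (∀ (P : CTree) (z : PhasePoint × Par P) (m : ℕ) (w : Config m) (θ : Lab × LSt),
      Gd6 Φ ε K Q T' P z w θ → E K ε P z m w θ ≤ M P z m w θ) ∧
    OS2 Φ f₀ ε Q.te T' (ν j K ε) (fun P z m w θ =>
      uG Φ ε Q.tw K P z w θ * M P z m w θ) = x} with hS
  have hex : ∀ (j : J) (K : ℕ) (ε : ℝ), ∃ M : SF2, MeasSF2 M ∧
      (∀ (P : CTree) (z : PhasePoint × Par P) (m : ℕ) (w : Config m) (θ : Lab × LSt),
        Gd6 Φ ε K Q T' P z w θ → E K ε P z m w θ ≤ M P z m w θ) ∧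
      (0 < ε → sInf (S j K ε) < ∞ → OS2 Φ f₀ ε Q.te T' (ν j K ε) (fun P z m w θ =>
        uG Φ ε Q.tw K P z w θ * M P z m w θ) ≤ sInf (S j K ε) + ENNReal.ofReal ε) := by
    intro j K ε
    by_cases hlt : 0 < ε ∧ sInf (S j K ε) < ∞
    · have h1 : sInf (S j K ε) < sInf (S j K ε) + ENNReal.ofReal ε :=
        ENNReal.lt_add_right hlt.2.ne (by simpa using hlt.1)
      obtain ⟨x, ⟨M, hM, hle, hx⟩, hx2⟩ := sInf_lt_iff.1 h1
      exact ⟨M, hM, hle, fun _ _ => by rw [hx]; exact hx2.le⟩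
    · exact ⟨fun _ _ _ _ _ => ∞, fun _ _ => measurable_const, fun _ _ _ _ _ _ => le_top,
        fun h1 h2 => absurd ⟨h1, h2⟩ hlt⟩
  choose M hM hle hO using hex
  refine ⟨fun K ε P z m w θ => ⨅ j, M j K ε P z m w θ, fun K ε P m => ?_,
    fun K ε P z m w θ hg => le_iInf fun j => hle j K ε P z m w θ hg, fun j K δ hδ => ?_⟩
  · exact Measurable.iInf fun j => hM j K ε P m
  · obtain ⟨ε₀, h0, h1⟩ := h j K (δ / 2) (by positivity)
    refine ⟨min ε₀ (δ / 2), lt_min h0 (by positivity), fun ε hε hlt => ?_⟩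
    obtain ⟨M', hM', hle', hO'⟩ := h1 ε hε (hlt.trans_le (min_le_left _ _))
    have hmem : OS2 Φ f₀ ε Q.te T' (ν j K ε) (fun P z m w θ =>
        uG Φ ε Q.tw K P z w θ * M' P z m w θ) ∈ S j K ε := ⟨M', hM', hle', rfl⟩
    have hinf : sInf (S j K ε) ≤ ENNReal.ofReal (δ / 2) := (sInf_le hmem).trans hO'
    calc OS2 Φ f₀ ε Q.te T' (ν j K ε) (fun P z m w θ =>
          uG Φ ε Q.tw K P z w θ * ⨅ j, M j K ε P z m w θ)
        ≤ OS2 Φ f₀ ε Q.te T' (ν j K ε) (fun P z m w θ =>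
          uG Φ ε Q.tw K P z w θ * M j K ε P z m w θ) :=
          OS2_mono fun P z m w θ => mul_le_mul_right (iInf_le _ j) _
      _ ≤ sInf (S j K ε) + ENNReal.ofReal ε := hO j K ε hε (hinf.trans_lt ENNReal.ofReal_lt_top)
      _ ≤ ENNReal.ofReal (δ / 2) + ENNReal.ofReal (δ / 2) :=
          add_le_add hinf (ENNReal.ofReal_le_ofReal (hlt.trans_le (min_le_right _ _)).le)
      _ = ENNReal.ofReal δ := by
          rw [← ENNReal.ofReal_add (by positivity) (by positivity), add_halves]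

/-- The pointwise inequality for a larger functional. -/
theorem stmtPt6_mono {r : ℝ} {tO tY bd bd' : ℕ → ℝ → SF2} (h : StmtPt6 Φ Q T' r tO tY bd)
    (hle : ∀ (K : ℕ) (ε : ℝ) (P : CTree) (z : PhasePoint × Par P) (m : ℕ) (w : Config m)
      (θ : Lab × LSt), Gd6 Φ ε K Q T' P z w θ → bd K ε P z m w θ ≤ bd' K ε P z m w θ) :
    StmtPt6 Φ Q T' r tO tY bd' := by
  intro K ε hε P z m w θ h1 h2 h3
  obtain ⟨ho, hy⟩ := h K ε hε P z m w θ h1 h2 h3
  have hb := hle K ε P z m w θ ⟨h1, h2, h3⟩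
  exact ⟨fun hr => (ho hr).trans (by gcongr), fun hr => (hy hr).trans (by gcongr)⟩

/-- The pointwise inequality with the infimum over the radii. -/
theorem stmtPt6_iInf {r R₁ : ℝ} {tO tY : ℕ → ℝ → SF2} {F : ℝ → ℕ → ℝ → SF2}
    (h : ∀ R ≥ R₁, StmtPt6 Φ Q T' r tO tY (F R)) :
    StmtPt6 Φ Q T' r tO tY fun K ε P z m w θ => ⨅ R : ℝ, ⨅ _ : R₁ ≤ R, F R K ε P z m w θ := by
  intro K ε hε P z m w θ h1 h2 h3
  have key : ∀ a b : ℝ≥0∞, (∀ R ≥ R₁, a ≤ b + F R K ε P z m w θ) →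
      a ≤ b + ⨅ R : ℝ, ⨅ _ : R₁ ≤ R, F R K ε P z m w θ := by
    intro a b hab
    rcases eq_or_ne b ∞ with hb | hb
    · rw [hb, top_add]
      exact le_top
    · rw [← tsub_le_iff_left]
      exact le_iInf₂ fun R hR => tsub_le_iff_left.2 (hab R hR)
  exact ⟨fun hr => key _ _ fun R hR => (h R hR K ε hε P z m w θ h1 h2 h3).1 hr,
    fun hr => key _ _ fun R hR => (h R hR K ε hε P z m w θ h1 h2 h3).2 hr⟩

/-- **The null facts of inequality 3 for a countable family of pair laws**, from the pointwise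
inequality with an error `F R` depending on a radius `R`, and its nullness. -/
theorem link6_of {J : Type} [Countable J] {ν : J → ℕ → ℝ → Measure (Lab × LSt)} {r R₁ : ℝ}
    {tO tY : ℕ → ℝ → SF2} {F : ℝ → ℕ → ℝ → SF2}
    (hpt : ∀ R ≥ R₁, StmtPt6 Φ Q T' r tO tY (F R))
    (hnull : ∀ j K, RNull Φ f₀ K Q T' (ν j K) fun R ε => F R K ε)
    (hok : ∀ j K ε, 0 < ε → OkAE Φ ε K (ν j K ε))
    (hbad : ∀ j, Null fun K ε => BAD Φ f₀ ε K Q (ν j K ε)) :
    ∃ bd : ℕ → ℝ → SF2, StmtPt6 Φ Q T' r tO tY bd ∧ ∀ j, NullFacts Φ f₀ Q T' bd (ν j) := by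
  obtain ⟨bd, h1, h2, h3⟩ := exists_bd (J := J) (ν := ν) (Φ := Φ) (f₀ := f₀) (Q := Q) (T' := T')
    (E := fun K ε P z m w θ => ⨅ R : ℝ, ⨅ _ : R₁ ≤ R, F R K ε P z m w θ)
    fun j K => (hnull j K).iInf R₁
  exact ⟨bd, stmtPt6_mono (stmtPt6_iInf hpt) h2, fun j => ⟨hok j, hbad j, h1, h3 j⟩⟩

/-! ## Slots -/

/-- A family of functionals, measurable on valid trees, with null structure integral. -/
theorem OS2Null.of_measV (hM : ∀ ε : ℝ, 0 < ε → MeasV Φ ε T' (E ε))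
    (h : ∀ δ : ℝ, 0 < δ → ∃ ε₀ : ℝ, 0 < ε₀ ∧ ∀ ε : ℝ, 0 < ε → ε < ε₀ →
      OS2 Φ f₀ ε Q.te T' (ν ε) (fun P z m w θ => uG Φ ε Q.tw K P z w θ * E ε P z m w θ) ≤
        ENNReal.ofReal δ) : OS2Null Φ f₀ K Q T' ν E := by
  intro δ hδ
  obtain ⟨ε₀, h0, h1⟩ := h δ hδ
  refine ⟨ε₀, h0, fun ε hε hlt => ⟨cut Φ ε T' (E ε), (hM ε hε).cut, fun P z m w θ hg => ?_, ?_⟩⟩
  · unfold cut
    rw [if_pos hg.real.valid]
  · refine le_trans (OS2_mono_on fun P z m w θ hz _ _ => ?_) (h1 ε hε hlt)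
    unfold cut
    rw [if_pos hz]

theorem OS2Null.of_meas (hΦ : AdmissiblePotential Φ) (hM : ∀ ε : ℝ, 0 < ε → MeasSF2 (E ε))
    (h : ∀ δ : ℝ, 0 < δ → ∃ ε₀ : ℝ, 0 < ε₀ ∧ ∀ ε : ℝ, 0 < ε → ε < ε₀ →
      OS2 Φ f₀ ε Q.te T' (ν ε) (fun P z m w θ => uG Φ ε Q.tw K P z w θ * E ε P z m w θ) ≤
        ENNReal.ofReal δ) : OS2Null Φ f₀ K Q T' ν E :=
  OS2Null.of_measV (fun ε hε => MeasSF2.measV hΦ (hM ε hε)) h

/-- The bound `OS2 ≤ c * δ`, uniform over the pair laws of the class. -/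
def PXLe (Φ : Space3 → ℝ) (f₀ : PhasePoint → ℝ) (ε : ℝ) (Q : EPar) (T' : ℝ) (PP : PPar)
    (H₀ : SF2) (δ : ℝ≥0∞) : Prop :=
  ∀ (Ξ μ : Measure (Lab × LSt)) (c : ℝ≥0∞), c ≠ ∞ → PX PP Ξ μ c → ∀ H : SF2,
    (∀ P z m w θ, (z, θ.2) ∈ OneC423.ctSet Φ ε Q.te P → H P z m w θ ≤ H₀ P z m w θ) →
    OS2 Φ f₀ ε Q.te T' μ H ≤ c * δ

theorem uG_mul_le {ε tw : ℝ} {P : CTree} {z : PhasePoint × Par P} {m : ℕ} {w : Config m}
    {θ : Lab × LSt} (x : ℝ≥0∞) : uG Φ ε tw K P z w θ * x ≤ x :=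
  (mul_le_mul_left uG_le_one x).trans (one_mul x).le

/-- **Bounds uniform over the class.** -/
theorem OS2Null.of_px {PP : PPar} (hL : LawIn PP ν)
    (hM : ∀ ε : ℝ, 0 < ε → MeasV Φ ε T' (E ε)) {δ : ℝ → ℝ≥0∞} (hδ : Tendsto δ (𝓝[>] 0) (𝓝 0))
    (h : ∀ ε : ℝ, 0 < ε → PXLe Φ f₀ ε Q T' PP (E ε) (δ ε)) : OS2Null Φ f₀ K Q T' ν E := by
  obtain ⟨c, hc, ε₁, h1, h2⟩ := hL
  refine OS2Null.of_measV hM fun δ' hδ' => ?_
  have h3 := ENNReal.Tendsto.const_mul hδ (Or.inr hc : (0 : ℝ≥0∞) ≠ 0 ∨ c ≠ ∞)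
  rw [mul_zero] at h3
  have h4 := (ENNReal.tendsto_nhds_zero.1 h3) (ENNReal.ofReal δ') (ENNReal.ofReal_pos.2 hδ')
  obtain ⟨ε₂, h5, h6⟩ := mem_nhdsGT_iff_exists_Ioo_subset.1 h4
  refine ⟨min ε₁ ε₂, lt_min h1 h5, fun ε hε hlt => ?_⟩
  obtain ⟨Ξ, hΞ⟩ := h2 ε hε (hlt.trans_le (min_le_left _ _))
  exact (h ε hε Ξ (ν ε) c hc hΞ _ fun P z m w θ _ => uG_mul_le _).trans
    (h6 ⟨hε, hlt.trans_le (min_le_right _ _)⟩)

/-- Bounds uniform over the class, for a functional of a radius. -/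
theorem RNull.of_px {PP : PPar} (hL : LawIn PP ν) {F : ℝ → ℝ → SF2} {R₁ : ℝ}
    (hM : ∀ R ≥ R₁, ∀ ε : ℝ, 0 < ε → MeasV Φ ε T' (F R ε)) {δ : ℝ → ℝ≥0∞}
    (hδ : Tendsto δ atTop (𝓝 0))
    (h : ∀ R ≥ R₁, ∀ ε : ℝ, 0 < ε → PXLe Φ f₀ ε Q T' PP (F R ε) (δ R)) :
    RNull Φ f₀ K Q T' ν F := by
  obtain ⟨c, hc, ε₁, h1, h2⟩ := hL
  intro δ' hδ'
  have h3 := ENNReal.Tendsto.const_mul hδ (Or.inr hc : (0 : ℝ≥0∞) ≠ 0 ∨ c ≠ ∞)
  rw [mul_zero] at h3
  have h4 := (ENNReal.tendsto_nhds_zero.1 h3) (ENNReal.ofReal δ') (ENNReal.ofReal_pos.2 hδ')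
  obtain ⟨R₂, h5⟩ := eventually_atTop.1 h4
  refine ⟨max R₁ R₂, fun R hR => ⟨ε₁, h1, fun ε hε hlt => ?_⟩⟩
  have hR1 : R ≥ R₁ := (le_max_left _ _).trans hR
  obtain ⟨Ξ, hΞ⟩ := h2 ε hε hlt
  refine ⟨cut Φ ε T' (F R ε), (hM R hR1 ε hε).cut, fun P z m w θ hg => ?_, ?_⟩
  · unfold cut
    rw [if_pos hg.real.valid]
  · refine le_trans (h R hR1 ε hε Ξ (ν ε) c hc hΞ _ fun P z m w θ _ => ?_)
      (h5 R ((le_max_right _ _).trans hR))
    refine (uG_mul_le _).trans ?_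
    unfold cut
    split_ifs
    · exact le_rfl
    · exact bot_le

/-- Bounds uniform over the class, for a functional of a radius, with a part null in `ε`. -/
theorem RNull.of_px₂ {PP : PPar} (hL : LawIn PP ν) {F : ℝ → ℝ → SF2} {R₁ : ℝ}
    (hM : ∀ R ≥ R₁, ∀ ε : ℝ, 0 < ε → MeasV Φ ε T' (F R ε)) {δ : ℝ → ℝ≥0∞} {δ₂ : ℝ → ℝ → ℝ≥0∞}
    (hδ : Tendsto δ atTop (𝓝 0)) (hδ₂ : ∀ R ≥ R₁, Tendsto (δ₂ R) (𝓝[>] 0) (𝓝 0))
    (h : ∀ R ≥ R₁, ∀ ε : ℝ, 0 < ε → PXLe Φ f₀ ε Q T' PP (F R ε) (δ R + δ₂ R ε)) :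
    RNull Φ f₀ K Q T' ν F := by
  obtain ⟨c, hc, ε₁, h1, h2⟩ := hL
  intro δ' hδ'
  have hδ2 : 0 < ENNReal.ofReal (δ' / 2) := ENNReal.ofReal_pos.2 (by positivity)
  have h3 := ENNReal.Tendsto.const_mul hδ (Or.inr hc : (0 : ℝ≥0∞) ≠ 0 ∨ c ≠ ∞)
  rw [mul_zero] at h3
  obtain ⟨R₂, h5⟩ := eventually_atTop.1 ((ENNReal.tendsto_nhds_zero.1 h3) _ hδ2)
  refine ⟨max R₁ R₂, fun R hR => ?_⟩
  have hR1 : R ≥ R₁ := (le_max_left _ _).trans hR
  have h3' := ENNReal.Tendsto.const_mul (hδ₂ R hR1) (Or.inr hc : (0 : ℝ≥0∞) ≠ 0 ∨ c ≠ ∞)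
  rw [mul_zero] at h3'
  obtain ⟨ε₂, h6, h7⟩ := mem_nhdsGT_iff_exists_Ioo_subset.1
    ((ENNReal.tendsto_nhds_zero.1 h3') _ hδ2)
  refine ⟨min ε₁ ε₂, lt_min h1 h6, fun ε hε hlt => ?_⟩
  obtain ⟨Ξ, hΞ⟩ := h2 ε hε (hlt.trans_le (min_le_left _ _))
  refine ⟨cut Φ ε T' (F R ε), (hM R hR1 ε hε).cut, fun P z m w θ hg => ?_, ?_⟩
  · unfold cut
    rw [if_pos hg.real.valid]
  · refine le_trans (h R hR1 ε hε Ξ (ν ε) c hc hΞ _ fun P z m w θ _ => ?_) ?_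
    · refine (uG_mul_le _).trans ?_
      unfold cut
      split_ifs
      · exact le_rfl
      · exact bot_le
    · rw [mul_add]
      calc c * δ R + c * δ₂ R ε ≤ ENNReal.ofReal (δ' / 2) + ENNReal.ofReal (δ' / 2) :=
            add_le_add (h5 R ((le_max_right _ _).trans hR))
              (h7 ⟨hε, hlt.trans_le (min_le_right _ _)⟩)
        _ = ENNReal.ofReal δ' := by
            rw [← ENNReal.ofReal_add (by positivity) (by positivity), add_halves]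

/-! ### From the gateway -/

open Crest.Agent.R122.GateOS2495 in
/-- **From the gateway**: functionals whose pull-backs to the shapes are null. -/
theorem OS2Null.of_pull (hΦ : AdmissiblePotential Φ) (hf : Measurable f₀) {ι : Type} [Fintype ι]
    {S : ι → Shp} (hR : Rep ν S) (hB : ∀ s, StandardBorelSpace (S s).Θ)
    (hF : ∀ (P : CTree) (s : ι), P.leaves ≤ K → FNull f₀ (osP Φ f₀ Q.te T' K P (S s))
      (pullS Φ Q.te T' K E P (S s))) : OS2Null Φ f₀ K Q T' ν E := by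
  obtain ⟨bd, h1, h2, -, h4⟩ := exists_bd2 (te := Q.te) (T' := T') hΦ hf (J := fun _ => ι)
    (Sh := fun _ s => S s) (fun _ s => hB s) (fun _ s ε => hR.sf s ε)
    (fun _ s ε hε => hR.mth s ε hε)
    (F := fun K' => if K' = K then E else fun _ _ _ _ _ _ => 0) (fun K' P s hP => by
      by_cases hK : K' = K
      · subst hK
        simp only [if_true]
        exact hF P s hP
      · simp only [if_neg hK]
        intro δ _
        refine ⟨1, one_pos, fun ε _ _ _ => ⟨fun _ _ => 0, fun _ => measurable_const,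
          fun n q w _ => ?_, ?_⟩⟩
        · dsimp only [pullS]
          split_ifs <;> exact le_rfl
        · simp [gcE_zero])
  have h5 := null_of_pull (te := Q.te) (T' := T') (tw := Q.tw) hΦ hf (ι := fun _ => ι)
    (ν := fun _ => ν) (S := fun _ => S) (fun _ => hR) (bd := bd) fun K P s hP => h4 K P s hP
  intro δ hδ
  obtain ⟨ε₀, h0, h6⟩ := h5 K δ hδ
  refine ⟨ε₀, h0, fun ε hε hlt => ⟨bd K ε, h1 K ε, fun P z m w θ hg => ?_, h6 ε hε hlt⟩⟩
  have h7 := h2 K ε hε P hg.leaves z m w θ hg.real.exw hg.real.valid ⟨hg.real.ct, hg.real.okL⟩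
  simpa using h7

/-- **From the gateway**: events whose pull-backs to the shapes are null. -/
theorem EvNull.of_pull (hΦ : AdmissiblePotential Φ) (hf : Measurable f₀) {ι : Type} [Fintype ι]
    {S : ι → Shp} (hR : Rep ν S) (hB : ∀ s, StandardBorelSpace (S s).Θ) {N : ℝ → EF2}
    (hN : ∀ (P : CTree) (s : ι), P.leaves ≤ K → GNull f₀ (osP Φ f₀ Q.te T' K P (S s))
      (fun ε _ n q w => Valid Φ ε P T' q.1.1.2 q.1.2 ∧ q ∈ ctOkS Φ ε K Q.te P (S s) ∧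
        N ε P q.1 n w ((S s).th ε q.2))) : EvNull Φ f₀ K Q T' ν N := by
  refine OS2Null.of_pull hΦ hf hR hB fun P s hP => ?_
  refine (FNull.ofE (hN P s hP)).mono ⟨1, one_pos, fun ε _ _ _ n q w _ => ?_⟩
  dsimp only [GateOS2495.pullS]
  split_ifs with ha hb hc hc <;> first
    | exact le_rfl
    | exact bot_le
    | exact absurd ⟨ha.1, ha.2, hb⟩ hc

/-! ### Almost sure facts -/

/-- **Almost sure facts** of `(z, w, θ)`, for small `ε`. -/
theorem EvNull.of_ae' {N : ℝ → EF2} {ε₁ : ℝ} (h1 : 0 < ε₁)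
    (hs : ∀ ε : ℝ, 0 < ε → ε < ε₁ → SFinite (ν ε))
    (h : ∀ ε : ℝ, 0 < ε → ε < ε₁ → ∀ (P : CTree) (m : ℕ), P.leaves ≤ K →
      ∀ᵐ q : (PhasePoint × Par P) × (Config m × (Lab × LSt))
      ∂((volume : Measure (PhasePoint × Par P)).prod ((volume : Measure (Config m)).prod (ν ε))),
      OkL K q.2.2 → q.2.1 ∈ PairExcluded ε m → Valid Φ ε P T' q.1.1.2 q.1.2 →
      (q.1, q.2.2.2) ∈ OneC423.ctSet Φ ε Q.te P → ¬ N ε P q.1 m q.2.1 q.2.2) :
    EvNull Φ f₀ K Q T' ν N := by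
  intro δ _
  refine ⟨ε₁, h1, fun ε hε hlt => ?_⟩
  have hsf := hs ε hε hlt
  set μ : (P : CTree) → (m : ℕ) → Measure ((PhasePoint × Par P) × (Config m × (Lab × LSt))) :=
    fun P m => (volume : Measure (PhasePoint × Par P)).prod ((volume : Measure (Config m)).prod
      (ν ε)) with hμ
  set A : (P : CTree) → (m : ℕ) → Set ((PhasePoint × Par P) × (Config m × (Lab × LSt))) :=
    fun P m => {q | P.leaves ≤ K ∧ OkL K q.2.2 ∧ q.2.1 ∈ PairExcluded ε m ∧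
      Valid Φ ε P T' q.1.1.2 q.1.2 ∧ (q.1, q.2.2.2) ∈ OneC423.ctSet Φ ε Q.te P ∧
      N ε P q.1 m q.2.1 q.2.2} with hA
  set B : (P : CTree) → (m : ℕ) → Set ((PhasePoint × Par P) × (Config m × (Lab × LSt))) :=
    fun P m => toMeasurable (μ P m) (A P m) with hB
  have hB0 : ∀ P m, μ P m (B P m) = 0 := by
    intro P m
    rw [hB]
    simp only
    rw [measure_toMeasurable, measure_eq_zero_iff_ae_notMem]
    by_cases hP : P.leaves ≤ K
    · filter_upwards [h ε hε hlt P m hP] with q hq hqA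
      exact hq hqA.2.1 hqA.2.2.1 hqA.2.2.2.1 hqA.2.2.2.2.1 hqA.2.2.2.2.2
    · exact Eventually.of_forall fun q hqA => hP hqA.1
  refine ⟨fun P z m w θ => (B P m).indicator 1 (z, (w, θ)), ?_, ?_, ?_⟩
  · intro P m
    exact measurable_one.indicator (measurableSet_toMeasurable _ _)
  · intro P z m w θ hg
    show (if N ε P z m w θ then (1 : ℝ≥0∞) else 0) ≤ (B P m).indicator 1 (z, (w, θ))
    by_cases hN : N ε P z m w θ
    · rw [if_pos hN, indicator_of_mem (subset_toMeasurable _ _ (show (z, (w, θ)) ∈ A P m from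
        ⟨hg.leaves, hg.real.okL, hg.real.exw, hg.real.valid, hg.real.ct, hN⟩))]
      rfl
    · rw [if_neg hN]
      exact bot_le
  · refine le_trans (OS2_mono fun P z m w θ => uG_mul_le _) (le_trans (le_of_eq ?_) bot_le)
    unfold OS2
    have h2 : ∀ P : CTree, ∫⁻ z : PhasePoint × Par P,
        {z : PhasePoint × Par P | Valid Φ ε P T' z.1.2 z.2}.indicator
          (fun z => wt Φ P z.1.2 z.2 * (ToTree335.pf Φ f₀ ε P z *
            gcE f₀ ε (fun m w => ∫⁻ θ, {θ : Lab × LSt | (z, θ.2) ∈ OneC423.ctSet Φ ε Q.te P}.indicator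
              (fun θ => (B P m).indicator 1 (z, (w, θ))) θ ∂(ν ε)))) z = 0 := by
      intro P
      have h3 : ∀ m, ∀ᵐ z : PhasePoint × Par P, ∀ᵐ w : Config m, ∀ᵐ θ ∂(ν ε),
          (z, (w, θ)) ∉ B P m := by
        intro m
        have h4 : ∀ᵐ q ∂(μ P m), q ∉ B P m := by
          rw [← measure_eq_zero_iff_ae_notMem]
          exact hB0 P m
        filter_upwards [Measure.ae_ae_of_ae_prod h4] with z hz
        exact Measure.ae_ae_of_ae_prod hz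
      refine (lintegral_congr_ae ?_).trans lintegral_zero
      filter_upwards [ae_all_iff.2 h3] with z hz
      have h6 : gcE f₀ ε (fun m w => ∫⁻ θ,
          {θ : Lab × LSt | (z, θ.2) ∈ OneC423.ctSet Φ ε Q.te P}.indicator
            (fun θ => (B P m).indicator 1 (z, (w, θ))) θ ∂(ν ε)) = 0 := by
        unfold gcE
        have h7 : ∀ m, ∫⁻ w : Config m, gcWeight f₀ ε m w * ∫⁻ θ,
            {θ : Lab × LSt | (z, θ.2) ∈ OneC423.ctSet Φ ε Q.te P}.indicator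
              (fun θ => (B P m).indicator 1 (z, (w, θ))) θ ∂(ν ε) = 0 := by
          intro m
          refine (lintegral_congr_ae ?_).trans lintegral_zero
          filter_upwards [hz m] with w hw
          have h8 : ∫⁻ θ, {θ : Lab × LSt | (z, θ.2) ∈ OneC423.ctSet Φ ε Q.te P}.indicator
              (fun θ => (B P m).indicator (fun _ => (1 : ℝ≥0∞)) (z, (w, θ))) θ ∂(ν ε) = 0 := by
            refine (lintegral_congr_ae ?_).trans lintegral_zero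
            filter_upwards [hw] with θ hθ
            by_cases hc : θ ∈ {θ : Lab × LSt | (z, θ.2) ∈ OneC423.ctSet Φ ε Q.te P}
            · rw [indicator_of_mem hc, indicator_of_notMem hθ]
            · rw [indicator_of_notMem hc]
          exact mul_eq_zero_of_right _ h8
        simp only [h7, mul_zero, tsum_zero]
      by_cases hv : z ∈ {z : PhasePoint × Par P | Valid Φ ε P T' z.1.2 z.2}
      · rw [indicator_of_mem hv, h6, mul_zero, mul_zero]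
      · rw [indicator_of_notMem hv]
    simp only [h2, tsum_zero, mul_zero]
    rfl

/-- **Almost sure facts** of `(z, w, θ)`. -/
theorem EvNull.of_ae (hν : LSF ν) {N : ℝ → EF2}
    (h : ∀ ε : ℝ, 0 < ε → ∀ (P : CTree) (m : ℕ), P.leaves ≤ K →
      ∀ᵐ q : (PhasePoint × Par P) × (Config m × (Lab × LSt))
      ∂((volume : Measure (PhasePoint × Par P)).prod ((volume : Measure (Config m)).prod (ν ε))),
      OkL K q.2.2 → q.2.1 ∈ PairExcluded ε m → Valid Φ ε P T' q.1.1.2 q.1.2 →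
      (q.1, q.2.2.2) ∈ OneC423.ctSet Φ ε Q.te P → ¬ N ε P q.1 m q.2.1 q.2.2) :
    EvNull Φ f₀ K Q T' ν N := by
  obtain ⟨ε₁, h1, hs⟩ := hν
  exact EvNull.of_ae' h1 hs fun ε hε _ => h ε hε

/-- Almost sure facts of `(w, θ)`. -/
theorem EvNull.of_ae_w (hν : LSF ν) {N : ℝ → EF2}
    {N₀ : ℝ → (m : ℕ) → Config m → Lab × LSt → Prop}
    (h : ∀ ε : ℝ, 0 < ε → ∀ m : ℕ, ∀ᵐ q : Config m × (Lab × LSt)
      ∂((volume : Measure (Config m)).prod (ν ε)),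
      q.1 ∈ PairExcluded ε m → OkL K q.2 → ¬ N₀ ε m q.1 q.2)
    (hN : ∀ ε : ℝ, 0 < ε → ∀ (P : CTree) (z : PhasePoint × Par P) (m : ℕ) (w : Config m)
      (θ : Lab × LSt), Gd6 Φ ε K Q T' P z w θ → N ε P z m w θ → N₀ ε m w θ) :
    EvNull Φ f₀ K Q T' ν N := by
  obtain ⟨ε₁, h1, hs⟩ := hν
  refine EvNull.mono (N := fun ε _ _ m w θ => N₀ ε m w θ) ?_
    ⟨1, one_pos, fun ε hε _ P z m w θ hg h' => hN ε hε P z m w θ hg h'⟩
  refine EvNull.of_ae' h1 hs fun ε hε hlt P m _ => ?_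
  have := hs ε hε hlt
  have h4 := Measure.quasiMeasurePreserving_snd (μ := (volume : Measure (PhasePoint × Par P)))
    (ν := (volume : Measure (Config m)).prod (ν ε))
  filter_upwards [h4.ae (h ε hε m)] with q hq h5 h6 _ _
  exact hq h6 h5

/-! ## Pieces -/

/-- Existence of a time in a compact interval: measurability. -/
theorem measurableSet_exists_Icc {Ω : Type*} [MeasurableSpace Ω] {g : Ω → ℝ → ℝ}
    (hc : ∀ ω, Continuous (g ω)) (hm : ∀ t, Measurable fun ω => g ω t) {r : Ω → ℝ}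
    (hr : Measurable r) (a : ℝ) : MeasurableSet {ω | ∃ τ ∈ Icc (-a) a, g ω τ ≤ r ω} := by
  by_cases ha : 0 ≤ a
  swap
  · have h1 : {ω | ∃ τ ∈ Icc (-a) a, g ω τ ≤ r ω} = ∅ := by
      ext ω
      simp only [mem_ofPred_eq, mem_empty_iff_false, iff_false, not_exists, not_and]
      intro τ hτ
      have := hτ.1.trans hτ.2
      exact absurd (by linarith) ha
    rw [h1]
    exact MeasurableSet.empty
  have hne : Nonempty (Icc (-a) a) := ⟨⟨0, by constructor <;> linarith⟩⟩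
  set d : ℕ → Icc (-a) a := TopologicalSpace.denseSeq (Icc (-a) a) with hd
  have h1 : {ω | ∃ τ ∈ Icc (-a) a, g ω τ ≤ r ω} =
      ⋂ n : ℕ, ⋃ k : ℕ, {ω | g ω (d k) < r ω + 1 / ((n : ℝ) + 1)} := by
    ext ω
    simp only [mem_ofPred_eq, mem_iInter, mem_iUnion]
    constructor
    · rintro ⟨τ, hτ, hg⟩ n
      have hn : (0 : ℝ) < 1 / ((n : ℝ) + 1) := by positivity
      have ho : IsOpen {σ : Icc (-a) a | g ω σ < r ω + 1 / ((n : ℝ) + 1)} :=
        isOpen_lt ((hc ω).comp continuous_subtype_val) continuous_const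
      obtain ⟨k, hk⟩ := (TopologicalSpace.denseRange_denseSeq (Icc (-a) a)).exists_mem_open ho
        ⟨⟨τ, hτ⟩, by show g ω τ < _; linarith⟩
      exact ⟨k, hk⟩
    · intro h
      obtain ⟨τ, hτ, hmin⟩ := isCompact_Icc.exists_isMinOn (f := g ω)
        (s := Icc (-a) a) ⟨0, by constructor <;> linarith⟩ (hc ω).continuousOn
      refine ⟨τ, hτ, le_of_forall_pos_lt_add fun e he => ?_⟩
      obtain ⟨n, hn⟩ := exists_nat_one_div_lt he
      obtain ⟨k, hk⟩ := h n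
      have h2 : g ω τ ≤ g ω (d k) := hmin (d k).2
      linarith
  rw [h1]
  exact MeasurableSet.iInter fun n => MeasurableSet.iUnion fun k =>
    measurableSet_lt (hm _) (hr.add_const _)

theorem measurable_lpos_dL {Ω : Type*} [MeasurableSpace Ω] {θ : Ω → Lab × LSt}
    (hθ : Measurable θ) {t : Ω → ℝ} (ht : Measurable t) :
    Measurable fun ω => lpos (dL (θ ω)) (t ω) := by
  simp only [lpos_eq_posAt]
  exact Boost969.measurable_posAt.comp (ht.prodMk hθ.fst.fst.fst)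

theorem continuous_lpos (l : ML) : Continuous (lpos l) := by
  unfold lpos
  fun_prop

/-- The event that the free first line is near the encounter is measurable. -/
theorem measurableSet_dfree (ε a : ℝ) (P : CTree) (m : ℕ) :
    MeasurableSet {q : (PhasePoint × Par P) × (Config m × (Lab × LSt)) |
      DFree ε a q.1 q.2.2} := by
  set g : (PhasePoint × Par P) × (Config m × (Lab × LSt)) → ℝ → ℝ := fun q τ =>
    dist (lpos (dL q.2.2) (cT ε q.1 (eL q.2.2) + τ))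
      (q.1.1.1 + (cT ε q.1 (eL q.2.2) + τ) • q.1.1.2) with hg
  have hcT : Measurable fun q : (PhasePoint × Par P) × (Config m × (Lab × LSt)) =>
      cT ε q.1 (eL q.2.2) := (measurable_cT2 ε P).comp
    (f := fun q : (PhasePoint × Par P) × (Config m × (Lab × LSt)) => (q.1, q.2.2)) measurable_q
  have h1 : {q : (PhasePoint × Par P) × (Config m × (Lab × LSt)) | DFree ε a q.1 q.2.2} =
      {q | ∃ τ ∈ Icc (-a) a, g q τ ≤ a * (1 + ‖q.2.2.2.2.2‖ + ‖q.1.1.2‖)} := by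
    ext q
    simp only [mem_ofPred_eq, DFree, hg]
    constructor
    · rintro ⟨t, ht, hd⟩
      refine ⟨t - cT ε q.1 (eL q.2.2), abs_le.1 ht, ?_⟩
      rw [add_sub_cancel]
      exact hd
    · rintro ⟨τ, hτ, hd⟩
      refine ⟨cT ε q.1 (eL q.2.2) + τ, ?_, hd⟩
      rw [add_sub_cancel_left]
      exact abs_le.2 hτ
  rw [h1]
  refine measurableSet_exists_Icc (fun q => ?_) (fun t => ?_) ?_ a
  · have h2 : Continuous fun τ : ℝ => cT ε q.1 (eL q.2.2) + τ := continuous_const.add continuous_id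
    exact ((continuous_lpos _).comp h2).dist (continuous_const.add (h2.smul continuous_const))
  · exact (measurable_lpos_dL measurable_snd.snd (hcT.add_const t)).dist
      (measurable_fst.fst.fst.add ((hcT.add_const t).smul measurable_fst.fst.snd))
  · have h3 : Measurable fun q : (PhasePoint × Par P) × (Config m × (Lab × LSt)) =>
        q.2.2.2.2.2 := measurable_snd.snd.snd.snd.snd
    exact ((h3.norm.const_add 1).add measurable_fst.fst.snd.norm).const_mul a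

/-- Measurability of an event with the guards `OkL`, `|P| ≤ K`. -/
theorem measSF2_ite {N : EF2} (hN : ∀ (P : CTree) (m : ℕ), MeasurableSet
      {q : (PhasePoint × Par P) × (Config m × (Lab × LSt)) | N P q.1 m q.2.1 q.2.2}) :
    MeasSF2 fun P z m w θ => if OkL K θ ∧ P.leaves ≤ K ∧ N P z m w θ then 1 else 0 := by
  intro P m
  refine Measurable.ite ?_ measurable_const measurable_const
  exact (((measurableSet_okL K).preimage measurable_snd.snd).inter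
    ((MeasurableSet.const _).inter (hN P m)))

section pieces

variable {A : Space3 → ℝ≥0∞} {C b g0 : ℝ} {PP : ℕ → PPar} {Cv : ℝ≥0∞}

theorem activity_mul_cube {ε : ℝ} (hε : 0 < ε) :
    activity ε * ENNReal.ofReal ε ^ 3 = ENNReal.ofReal ε := by
  have h2 := Mom974.activity_mul_sq hε
  calc activity ε * ENNReal.ofReal ε ^ 3 =
      (activity ε * ENNReal.ofReal ε ^ 2) * ENNReal.ofReal ε := by ring
    _ = ENNReal.ofReal ε := by rw [h2, one_mul]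

theorem tendsto_ofReal_zero : Tendsto (fun ε : ℝ => ENNReal.ofReal ε) (𝓝[>] 0) (𝓝 0) := by
  have h1 := (ENNReal.continuous_ofReal.tendsto (0 : ℝ)).mono_left
    (nhdsWithin_le_nhds (s := Ioi (0 : ℝ)))
  rwa [ENNReal.ofReal_zero] at h1

/-- Unaltered gas particles near the encounter. -/
theorem os2Null_third (hΦ : AdmissiblePotential Φ) (hF : FOk f₀ A C b) (hQ : QOk Q g0)
    (hP : PPOk Q PP) (hV : Vel4 Q PP Cv) (hL : LawIn (PP K) ν) {a : ℝ} (ha : 0 < a) :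
    OS2Null Φ f₀ K Q T' ν fun ε => sf2Of ε K (thirdG Φ ε (a * ε)) := by
  obtain ⟨D, hD, hle⟩ := third_OS2_le hΦ hF hQ hP hV K T'
  refine OS2Null.of_px hL
    (fun ε hε => MeasSF2.measV hΦ (measSF2_sf2Of ε K (measCF_thirdG hΦ hε (a * ε))))
    (δ := fun ε => D * ENNReal.ofReal a ^ 3 * ENNReal.ofReal ε) ?_
    fun ε hε Ξ μ c hc hX H hH => ?_
  · have h1 := ENNReal.Tendsto.const_mul (a := D * ENNReal.ofReal a ^ 3) tendsto_ofReal_zero
      (Or.inr (ENNReal.mul_ne_top hD (ENNReal.pow_ne_top ENNReal.ofReal_ne_top)))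
    rwa [mul_zero] at h1
  · refine (hle ε hε (a * ε) (by positivity) Ξ μ c hc hX H hH).trans (le_of_eq ?_)
    rw [ENNReal.ofReal_mul ha.le, mul_pow]
    calc c * (D * (activity ε * (ENNReal.ofReal a ^ 3 * ENNReal.ofReal ε ^ 3)))
        = c * (D * ENNReal.ofReal a ^ 3 * (activity ε * ENNReal.ofReal ε ^ 3)) := by ring
      _ = _ := by rw [activity_mul_cube hε]

/-- Members of the tree near the encounter. -/
theorem os2Null_mem (hΦ : AdmissiblePotential Φ) (hF : FOk f₀ A C b) (hQ : QOk Q g0)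
    (hP : PPOk Q PP) (hV : Vel4 Q PP Cv) (hL : LawIn (PP K) ν) {a : ℝ → ℝ}
    (ha : Tendsto a (𝓝[>] 0) (𝓝 0)) (ha0 : ∀ ε, 0 < ε → 0 ≤ a ε) :
    OS2Null Φ f₀ K Q T' ν fun ε => sf2Of ε K (memG Φ Q.te (a ε) ε) := by
  obtain ⟨δ, hδ, hle⟩ := mem_OS2_le hΦ hF hQ hP hV T' ha ha0
  exact OS2Null.of_px hL
    (fun ε _ => MeasSF2.measV hΦ (measSF2_sf2Of ε K (measCF_memG hΦ Q.te (a ε) ε)))
    (hδ K) fun ε hε Ξ μ c hc hX H hH => hle K ε hε Ξ μ c hc hX H hH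

/-- Long encounters. -/
theorem rNull_long (hΦ : AdmissiblePotential Φ) (hF : FOk f₀ A C b) (hQ : QOk Q g0)
    (hP : PPOk Q PP) (hV : Vel4 Q PP Cv) (hL : LawIn (PP K) ν) :
    RNull Φ f₀ K Q T' ν fun R ε => sf2Of ε K (longG Φ R) := by
  obtain ⟨D, hD, hle⟩ := long_OS2_le hΦ hF hQ hP hV K T'
  refine RNull.of_px (R₁ := 0) hL
    (fun R _ ε _ => MeasSF2.measV hΦ (measSF2_sf2Of ε K (measCF_longG hΦ R)))
    (δ := fun R => D * lamR Φ (b / 2) R) ?_ fun R _ ε hε Ξ μ c hc hX H hH =>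
      hle ε hε R Ξ μ c hc hX H hH
  have h1 := ENNReal.Tendsto.const_mul (a := D) (tendsto_lamR hΦ (half_pos hF.b_pos)) (Or.inr hD)
  rwa [mul_zero] at h1

/-- The free first line near the encounter. -/
theorem evNull_dfree (hΦ : AdmissiblePotential Φ) (hF : FOk f₀ A C b) (hQ : QOk Q g0)
    (hP : PPOk Q PP) (hV : Vel4 Q PP Cv) (hL : LawIn (PP K) ν) {a : ℝ → ℝ}
    (ha : Tendsto a (𝓝[>] 0) (𝓝 0)) (ha0 : ∀ ε, 0 < ε → 0 ≤ a ε) :
    EvNull Φ f₀ K Q T' ν fun ε _ z _ _ θ => DFree ε (a ε) z θ := by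
  obtain ⟨δ, hδ, hle⟩ := dfree_OS2_le hΦ hF hQ hP hV T' ha ha0
  have h1 : OS2Null Φ f₀ K Q T' ν fun ε P z _ _ θ =>
      if OkL K θ ∧ P.leaves ≤ K ∧ DFree ε (a ε) z θ then 1 else 0 :=
    OS2Null.of_px hL (fun ε _ => MeasSF2.measV hΦ (measSF2_ite
      (N := fun _ z _ _ θ => DFree ε (a ε) z θ) fun P m => measurableSet_dfree ε (a ε) P m))
      (hδ K) fun ε hε Ξ μ c hc hX H hH => hle K ε hε Ξ μ c hc hX H hH
  refine h1.congr fun ε _ P z m w θ hg => ?_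
  by_cases h : DFree ε (a ε) z θ
  · rw [if_pos h, if_pos ⟨hg.real.okL, hg.leaves, h⟩]
  · rw [if_neg h]
    exact bot_le

/-- **Events with bounds uniform over the class.** -/
theorem EvNull.of_px {PP : PPar} (hΦ : AdmissiblePotential Φ) (hL : LawIn PP ν) {N : ℝ → EF2}
    (hM : ∀ ε : ℝ, 0 < ε → ∀ (P : CTree) (m : ℕ), MeasurableSet
      {q : (PhasePoint × Par P) × (Config m × (Lab × LSt)) | N ε P q.1 m q.2.1 q.2.2})
    {δ : ℝ → ℝ≥0∞} (hδ : Tendsto δ (𝓝[>] 0) (𝓝 0))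
    (h : ∀ ε : ℝ, 0 < ε → PXLe Φ f₀ ε Q T' PP (fun P z m w θ =>
      if OkL K θ ∧ P.leaves ≤ K ∧ N ε P z m w θ then 1 else 0) (δ ε)) :
    EvNull Φ f₀ K Q T' ν N := by
  have h1 : OS2Null Φ f₀ K Q T' ν fun ε P z m w θ =>
      if OkL K θ ∧ P.leaves ≤ K ∧ N ε P z m w θ then 1 else 0 :=
    OS2Null.of_px hL (fun ε hε => MeasSF2.measV hΦ (measSF2_ite (N := N ε) (hM ε hε))) hδ h
  refine h1.congr fun ε _ P z m w θ hg => ?_
  by_cases h : N ε P z m w θ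
  · rw [if_pos h, if_pos ⟨hg.real.okL, hg.leaves, h⟩]
  · rw [if_neg h]
    exact bot_le

end pieces

end Crest.Agent.R122.Link6Sel285

end
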