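import Crest.Agent.R122.LinkD2_331

/-!
# Row 122, LN3-D (helper331), part 3: extraction of traces, several exits

Second version of `CC`, `Inv`, `trace_of_cc`, `cc_of_ec`, `trace_of_ec`: the contacts inside the
part `S` of the root `a` are allowed at all times at which they are possible (`hPS`: after a contact
with the outside a member of `S` has no contact inside `S`), the labels outside `g` (the gas) are
never followed, and the pasts of a not influenced gas particle in the two worlds are compared only if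
they consist of gas particles.
-/

set_option autoImplicit false

open Set

namespace Crest.Agent.R122.LinkD331

open Crest.Agent.R122.Causal291

variable {J : Type} {T : ℝ} {C : Bool → ℝ → J → J → Prop} {E : ℝ → J → J → Prop}

/-! ### Clean chains -/

/-- Clean chains: from the state "particle `q` followed in the world `b` after the time `t`",
`g` = set of forbidden contact partners (the ghost partner), `m` links. -/
inductive CC2 (T : ℝ) (C : Bool → ℝ → J → J → Prop) (E : ℝ → J → J → Prop) (K : ℕ)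
    (gas : Set J) : Bool → J → ℝ → Set J → ℕ → Prop
  | nil {b : Bool} {q : J} {t : ℝ} {g : Set J} : CC2 T C E K gas b q t g 0
  | sw {b : Bool} {q q' : J} {t t' : ℝ} {g : Set J} {m : ℕ} (ht : t < t') (htT : t' ≤ T)
      (hne : q ≠ q') (hc : C b t' q q') (hf : ∀ s < t', ¬ C b s q q') (hP : HistE (C b) E t' q)
      (hK : (BC (C b) t' q ∩ gas).ncard ≤ K) (hg : ∀ x ∈ g, ∀ s ≤ t', ¬ C b s q x)
      (h : CC2 T C E K gas b q' t' ∅ m) : CC2 T C E K gas b q t g (m + 1)
  | gh {b : Bool} {q q' : J} {t t' : ℝ} {g : Set J} {m : ℕ} (ht : t < t') (htT : t' ≤ T)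
      (hne : q ≠ q') (hc : C b t' q q') (hf : ∀ s < t', ¬ C b s q q') (hP : HistE (C b) E t' q)
      (hK : (BC (C b) t' q ∩ gas).ncard ≤ K) (hg : ∀ x ∈ g, ∀ s ≤ t', ¬ C b s q x)
      (hun : ∀ s < t', BC (C b) s q' ⊆ gas → BC (C (!b)) s q' = BC (C b) s q')
      (hP' : HistE (C (!b)) E t' q')
      (hno : ¬ C (!b) t' q' q)
      (h : CC2 T C E K gas (!b) q' t' {q} m) : CC2 T C E K gas b q t g (m + 1)

/-- Invariant of the extraction. -/
structure Inv2 (T : ℝ) (C : Bool → ℝ → J → J → Prop) (E : ℝ → J → J → Prop)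
    (b : Bool) (q : J) (t : ℝ) (g D U : Set J) (H : SimpleGraph J) : Prop where
  t0 : 0 ≤ t
  bc : BC (C b) t q = D
  sub : D ⊆ U
  le : H ≤ grA E
  supp : ∀ x y, H.Adj x y → x ∈ U
  conn : ∀ x ∈ U, H.Reachable q x
  adj : ∀ x, H.Adj q x → x ∈ D ∨ x ∈ g ∨ ∀ s, t < s → s ≤ T → HistE (C b) E s q → ¬ C b s q x

theorem Inv2.mem {b : Bool} {q : J} {t : ℝ} {g D U : Set J} {H : SimpleGraph J}
    (h : Inv2 T C E b q t g D U H) : q ∈ D := by
  rw [← h.bc]; exact root_mem_BC h.t0

/-- **Extraction of a trace from a clean chain.** -/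
theorem trace_of_cc2 [Finite J] (hT : Tree T C E) {K : ℕ} {Ok : Set J → J → Set J → J → ℝ → Prop}
    {U₀ gas : Set J}
    (hOk : ∀ b q e r, r ≤ T → q ≠ e → C b r q e → HistE (C b) E r q → (BC (C b) r q ∩ gas).ncard ≤ K →
      Disjoint (pre (C b) r e) U₀ →
      Ok (pre (C b) r e) e (pre (C b) r q) q r ∧ pre (C b) r e ⊆ gas) :
    ∀ (m' m : ℕ) (b : Bool) (q : J) (t : ℝ) (g D U : Set J) (H : SimpleGraph J),
      CC2 T C E K gas b q t g m → m' ≤ m → Inv2 T C E b q t g D U H → U₀ ⊆ U →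
      Trace Ok D q t U m' := by
  intro m'
  induction m' with
  | zero => intro m b q t g D U H _ _ _ _; exact .nil
  | succ m' ih =>
    intro m b q t g D U H hcc hm hI hU₀
    -- the next target
    have htar : ∃ (q' : J) (t' : ℝ), t < t' ∧ t' ≤ T ∧ q ≠ q' ∧ C b t' q q' ∧
        (∀ s < t', ¬ C b s q q') ∧ HistE (C b) E t' q ∧ (BC (C b) t' q ∩ gas).ncard ≤ K ∧
        (∀ x ∈ g, ∀ s ≤ t', ¬ C b s q x) ∧ (∀ r, r < t' → CC2 T C E K gas b q r g m) ∧
        ((∃ m₁, m = m₁ + 1 ∧ CC2 T C E K gas b q' t' ∅ m₁) ∨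
          (∃ m₁, m = m₁ + 1 ∧
            (∀ s < t', BC (C b) s q' ⊆ gas → BC (C (!b)) s q' = BC (C b) s q') ∧
            HistE (C (!b)) E t' q' ∧ ¬ C (!b) t' q' q ∧ CC2 T C E K gas (!b) q' t' {q} m₁)) := by
      cases hcc with
      | nil => omega
      | @sw _ _ q' _ t' _ m₁ ht htT hne hc hf hP hK hg h =>
        exact ⟨q', t', ht, htT, hne, hc, hf, hP, hK, hg,
          fun r hr => .sw hr htT hne hc hf hP hK hg h, Or.inl ⟨m₁, rfl, h⟩⟩
      | @gh _ _ q' _ t' _ m₁ ht htT hne hc hf hP hK hg hun hP' hno h =>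
        exact ⟨q', t', ht, htT, hne, hc, hf, hP, hK, hg,
          fun r hr => .gh hr htT hne hc hf hP hK hg hun hP' hno h,
          Or.inr ⟨m₁, rfl, hun, hP', hno, h⟩⟩
    obtain ⟨q', t', ht, htT, hne, hc, hf, hP, hK, hg, hmono, hnext⟩ := htar
    have hqU : q ∈ U := hI.sub hI.mem
    by_cases hj : ∃ s, t < s ∧ s < t' ∧ BC (C b) s q ≠ BC (C b) t q
    · -- a jump before the target: stay
      obtain ⟨r, h1, h2, h3, h4⟩ := exists_jump (hT.closed b) hI.t0 htT hj
      have hpre : pre (C b) r q = D := (pre_eq_of_const h1 h4).trans hI.bc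
      have hrT : r ≤ T := h2.le.trans htT
      have hPr : HistE (C b) E r q := hP.mono h2.le
      have hr0 : 0 < r := hI.t0.trans_lt h1
      obtain ⟨e, he1, he2, he3⟩ := hT.exists_new hr0 hrT hPr
        (by rw [hpre, ← hI.bc]; exact h3)
      have hadj : ¬ H.Adj q e := by
        intro h
        rcases hI.adj e h with h5 | h5 | h5
        · exact he3 (by rw [hpre]; exact h5)
        · exact hg e h5 r h2.le he2
        · exact h5 r h1 hrT hPr he2
      obtain ⟨hdis, H', g1, g2, g3, g4, g5, g6⟩ :=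
        hT.step_facts hrT hPr (Ne.symm he1) he2 he3 hI.le hI.supp hI.conn hadj hqU
      have hKr : (BC (C b) r q ∩ gas).ncard ≤ K :=
        (ncard_le_ncard (inter_subset_inter_left _ (bc_mono_time q h2.le)) (toFinite _)).trans hK
      have hok := (hOk b q e r hrT (Ne.symm he1) he2 hPr hKr (hdis.mono_right hU₀)).1
      rw [hpre] at hok
      refine .stay h1.le hok hdis (ih m b q r g _ _ H' (hmono r h2) (by omega) ?_
        (hU₀.trans subset_union_left))
      refine ⟨hr0.le, ?_, union_subset_union_left _ hI.sub, g1, g2, g3, ?_⟩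
      · rw [hT.bc_eq_union hrT hPr (Ne.symm he1) he2, hpre]
      · intro x hx
        rcases g5 x hx with h5 | h5
        · rcases hI.adj x h5 with h6 | h6 | h6
          · exact Or.inl (Or.inl h6)
          · exact Or.inr (Or.inl h6)
          · exact Or.inr (Or.inr fun s hs hs' => h6 s (h1.trans hs) hs')
        · rw [h5]; exact Or.inl (Or.inr (self_mem_pre hr0 e))
    · -- no jump: the target
      push Not at hj
      have h4 : ∀ s, t ≤ s → s < t' → BC (C b) s q = BC (C b) t q := by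
        intro s hs1 hs2
        rcases hs1.lt_or_eq with h5 | h5
        · exact hj s h5 hs2
        · rw [h5]
      have hpre : pre (C b) t' q = D := (pre_eq_of_const ht h4).trans hI.bc
      have hr0 : 0 < t' := hI.t0.trans_lt ht
      have he3 : q' ∉ pre (C b) t' q := by
        rintro ⟨s, hs, hs'⟩
        obtain ⟨s', hs1, hs2⟩ := hT.contact_before htT hP hne hc hs hs'
        exact hf s' (hs1.trans_lt hs) hs2
      have hadj : ¬ H.Adj q q' := by
        intro h
        rcases hI.adj q' h with h5 | h5 | h5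
        · exact he3 (by rw [hpre]; exact h5)
        · exact hg q' h5 t' le_rfl hc
        · exact h5 t' ht htT hP hc
      obtain ⟨hdis, H', g1, g2, g3, g4, g5, g6⟩ :=
        hT.step_facts htT hP hne hc he3 hI.le hI.supp hI.conn hadj hqU
      obtain ⟨hok, hgas⟩ := hOk b q q' t' htT hne hc hP hK (hdis.mono_right hU₀)
      rw [hpre] at hok
      have hconn' : ∀ x ∈ U ∪ pre (C b) t' q', H'.Reachable q' x := fun x hx =>
        (SimpleGraph.Adj.reachable g4).symm.trans (g3 x hx)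
      rcases hnext with ⟨m₁, rfl, h⟩ | ⟨m₁, rfl, hun, hP', hno, h⟩
      · refine .switch ht.le hok hdis (ih m₁ b q' t' ∅ _ _ H' h (by omega) ?_
          (hU₀.trans subset_union_left))
        refine ⟨hr0.le, ?_, union_subset_union_left _ hI.sub, g1, g2, hconn', ?_⟩
        · rw [← hpre, ← hT.bc_eq_union htT hP hne hc]
          exact Subset.antisymm (bc_contact hc) (bc_contact (hT.symmC _ _ _ _ hc))
        · intro x hx
          rcases g6 x hx with h5 | h5
          · exact Or.inl (Or.inr h5)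
          · rw [h5]; exact Or.inl (Or.inl hI.mem)
      · refine .ghost ht.le hok hdis (ih m₁ (!b) q' t' {q} _ _ H' h (by omega) ?_
          (hU₀.trans subset_union_left))
        refine ⟨hr0.le, ?_, subset_union_right, g1, g2, hconn', ?_⟩
        · rw [hT.bc_eq_pre htT hP hne hc hP' hno]
          apply Subset.antisymm
          · rintro k ⟨s, hs, hk⟩
            have : k ∈ BC (C (!b)) s q' := hk
            rw [hun s hs ((bc_subset_pre hs q').trans hgas)] at this
            exact ⟨s, hs, this⟩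
          · rintro k ⟨s, hs, hk⟩
            have : k ∈ BC (C b) s q' := hk
            rw [← hun s hs ((bc_subset_pre hs q').trans hgas)] at this
            exact ⟨s, hs, this⟩
        · intro x hx
          rcases g6 x hx with h5 | h5
          · exact Or.inl h5
          · exact Or.inr (Or.inl h5)

/-- Continuation of a chain from the particle `k` followed in the world `b`; the next contact takes
place not before `t''`; `N` contains `k` and the later particles of the chain. -/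
def Cont2 (T : ℝ) (C : Bool → ℝ → J → J → Prop) (E : ℝ → J → J → Prop) (K : ℕ) (gas : Set J)
    (b : Bool) (k : J) (m : ℕ) (t'' : ℝ) (N : Set J) : Prop :=
  ∀ (t : ℝ) (g : Set J), t < t'' → (∀ x ∈ g, x ∉ N ∧ ∀ s < t'', s ≤ T → ¬ C b s k x) →
    CC2 T C E K gas b k t g m

variable {F : ℝ → J → Prop} {a : J} {gas : Set J}

/-- The head of an entry chain of gas particles is influenced. -/
theorem EC.fut2 (hmono : ∀ r r' k, F r k → r ≤ r' → F r' k) (h0 : F 0 a)
    (hcon : ∀ b r j k, C b r j k → F r j → (j = a ∨ j ∈ gas) → k ∈ gas → F r k) {L : List J}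
    {s : ℝ} (h : EC C F a L s) (hg : ∀ x ∈ L, x ≠ a → x ∈ gas)
    {k : J} {tl : List J} (hL : L = k :: tl) : F s k := by
  induction h generalizing k tl with
  | root =>
    rw [List.cons.injEq] at hL
    rw [← hL.1]; exact h0
  | @cons l k' ps s s' b h hs hk hc hn ih =>
    rw [List.cons.injEq] at hL
    rw [← hL.1]
    have hka : k' ≠ a := fun h' => hk (h' ▸ h.mem)
    refine hcon b s' l k' hc (hmono _ _ _ (ih (fun x hx => hg x (List.mem_cons_of_mem _ hx)) rfl) hs)
      ?_ (hg k' List.mem_cons_self hka)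
    by_cases hl : l = a
    · exact Or.inl hl
    · exact Or.inr (hg l (List.mem_cons_of_mem _ List.mem_cons_self) hl)

/-- **Clean chains from entry chains.** -/
theorem cc_of_ec2 (hT : Tree T C E) [Finite J] {K : ℕ} {t₀ : ℝ}
    (hmono : ∀ r r' k, F r k → r ≤ r' → F r' k) (h0 : F 0 a)
    (hcon : ∀ b r j k, C b r j k → F r j → (j = a ∨ j ∈ gas) → k ∈ gas → F r k)
    (hun : ∀ b r k, 0 ≤ r → r ≤ T → k ∈ gas → ¬ F r k → BC (C b) r k ⊆ gas →
      BC (C (!b)) r k = BC (C b) r k)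
    (ha : ∀ b s k, s ≤ T → C b s a k → k ∈ gas → b = true ∧ t₀ < s) {L : List J} {s : ℝ}
    (h : EC C F a L s) (hg : ∀ x ∈ L, x ≠ a → x ∈ gas) (hsT : s ≤ T)
    (hH : ∀ x ∈ L, x ≠ a → ∀ b, HistE (C b) E T x)
    (hK : ∀ x ∈ L, x ≠ a → ∀ b, (BC (C b) T x ∩ gas).ncard ≤ K) :
    ∀ (k : J) (tl : List J), L = k :: tl → ∀ (b : Bool) (m : ℕ) (t'' : ℝ) (N : Set J),
      s < t'' → (k = a → b = true ∧ t₀ < t'') → k ∈ N → (∀ x ∈ tl, x ∉ N) →
      Cont2 T C E K gas b k m t'' N → CC2 T C E K gas true a t₀ ∅ (m + tl.length) := by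
  induction h with
  | root =>
    intro k tl hL b m t'' N hst hb _ _ hcont
    rw [List.cons.injEq] at hL
    obtain ⟨rfl, rfl⟩ := hL
    obtain ⟨rfl, ht₀⟩ := hb rfl
    have h1 := hcont t₀ ∅ ht₀ (fun x hx => absurd hx (notMem_empty x))
    rwa [List.length_nil, add_zero]
  | @cons l k₀ ps s s' b₀ h hs hk hc hn ih =>
    intro k tl hL b m t'' N hst _ hkN htl hcont
    rw [List.cons.injEq] at hL
    obtain ⟨rfl, rfl⟩ := hL
    have hlk : l ≠ k₀ := fun h => hk (h ▸ List.mem_cons_self)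
    have hka : k₀ ≠ a := fun h' => hk (h' ▸ h.mem)
    have hgk : k₀ ∈ gas := hg k₀ List.mem_cons_self hka
    have hgL : ∀ x ∈ l :: ps, x ≠ a → x ∈ gas := fun x hx => hg x (List.mem_cons_of_mem _ hx)
    have hgl : l = a ∨ l ∈ gas := by
      by_cases hl : l = a
      · exact Or.inl hl
      · exact Or.inr (hgL l List.mem_cons_self hl)
    have hlN : l ∉ N := htl l List.mem_cons_self
    have hHk : ∀ b, HistE (C b) E T k₀ := hH k₀ List.mem_cons_self hka
    -- contacts of `l` and `k₀` are virtual contacts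
    have hE : ∀ b r, r ≤ T → C b r l k₀ → E r l k₀ := fun b r hr hc =>
      hT.symmE _ _ _ (hHk b r k₀ l (.root hr) (hT.symmC _ _ _ _ hc) (Ne.symm hlk))
    have hHl : ∀ b r, r ≤ T → C b r l k₀ → HistE (C b) E r l := fun b r hr hc =>
      ((hHk b).mono hr).contact (hT.symmC _ _ _ _ hc)
    have hKl : ∀ b r, r ≤ T → C b r l k₀ → (BC (C b) r l ∩ gas).ncard ≤ K := fun b r hr hc =>
      (ncard_le_ncard (inter_subset_inter_left _
        ((bc_contact (hT.symmC _ _ _ _ hc)).trans (bc_mono_time k₀ hr)))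
        (toFinite _)).trans (hK k₀ List.mem_cons_self hka b)
    have hEs' : E s' l k₀ := hE b₀ s' hsT hc
    -- windows
    have hwin : ∀ b r, r ≤ T → C b r l k₀ → s < r := by
      intro b r hr hcr
      by_contra hle
      push Not at hle
      have hr0 : 0 < r := hT.pos b r l k₀ hcr hlk
      cases h with
      | root => exact absurd hle (not_le.2 hr0)
      | @cons l' _ ps' s₁ _ b₁ h' hs₁ hk' hc' hn' =>
        have hl'l : l' ≠ l := fun h => hk' (h ▸ List.mem_cons_self)
        have hla : l ≠ a := fun h'' => hk' (h'' ▸ h'.mem)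
        have hHl' := hH l (List.mem_cons_of_mem _ List.mem_cons_self) hla b₁
        have hE' : E s l' l := hT.symmE _ _ _
          (hHl' s l l' (.root (hs.trans hsT)) (hT.symmC _ _ _ _ hc') (Ne.symm hl'l))
        have h4 := hT.sep l k₀ l' l r s' s hlk hl'l hr0.le hsT hle hs (hE b r hr hcr) hEs' hE'
        rcases Sym2.eq_iff.1 h4 with ⟨_, h5⟩ | ⟨_, h5⟩
        · exact hlk h5.symm
        · exact hk (h5 ▸ List.mem_cons_of_mem _ List.mem_cons_self)
    have hFl : F s l := h.fut2 hmono h0 hcon hgL rfl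
    have hbefore : ∀ b, ∀ r < s', ¬ C b r l k₀ := by
      intro b r hr hcr
      have h1 := hwin b r (hr.le.trans hsT) hcr
      exact hn r hr (hcon b r l k₀ hcr (hmono _ _ _ hFl h1.le) hgl hgk)
    have hss' : s < s' := hwin b₀ s' hsT hc
    have hla : ∀ b r, r ≤ T → C b r l k₀ → l = a → b = true ∧ t₀ < r := fun b r hr hc' hl =>
      ha b r k₀ hr (hl ▸ hc') hgk
    have hnd := (List.nodup_cons.1 (List.nodup_cons.1 (EC.nodup (.cons h hs hk hc hn))).2).1
    have hlen : m + (l :: ps).length = (m + 1) + ps.length := by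
      rw [List.length_cons]; omega
    rw [hlen]
    have hN' : ∀ x ∈ ps, x ∉ insert l N := by
      intro x hx hxN
      rcases hxN with rfl | hxN
      · exact hnd hx
      · exact htl x (List.mem_cons_of_mem _ hx) hxN
    have hHL : ∀ x ∈ l :: ps, x ≠ a → ∀ b, HistE (C b) E T x := fun x hx =>
      hH x (List.mem_cons_of_mem _ hx)
    have hKL : ∀ x ∈ l :: ps, x ≠ a → ∀ b, (BC (C b) T x ∩ gas).ncard ≤ K := fun x hx =>
      hK x (List.mem_cons_of_mem _ hx)
    -- no contact with forbidden particles up to the contact with `k₀`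
    have hforb : ∀ (b : Bool) (r₁ : ℝ) (g : Set J), r₁ ≤ T → C b r₁ l k₀ →
        (∀ x ∈ g, x ∉ insert l N ∧ ∀ s < r₁, s ≤ T → ¬ C b s l x) →
        ∀ x ∈ g, ∀ s ≤ r₁, ¬ C b s l x := by
      intro b r₁ g hr₁ hc₁ hg x hx s₁ hs₁ hcx
      obtain ⟨hxN, hx'⟩ := hg x hx
      rcases hs₁.lt_or_eq with h1 | h1
      · exact hx' s₁ h1 (h1.le.trans hr₁) hcx
      · rw [h1] at hcx
        have hlx : l ≠ x := fun h => hxN (h ▸ mem_insert l N)
        have hr0 : 0 < r₁ := hT.pos b r₁ l k₀ hc₁ hlk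
        have h2 : E r₁ l x := hHl b r₁ hr₁ hc₁ r₁ l x (.root le_rfl) hcx hlx
        have h3 := hT.same hr0.le hr₁ hlx hlk h2 (hE b r₁ hr₁ hc₁)
        rcases Sym2.eq_iff.1 h3 with ⟨_, h5⟩ | ⟨h5, _⟩
        · exact hxN (mem_insert_of_mem l (h5 ▸ hkN))
        · exact hlk h5
    by_cases hA : ∃ r < t'', r ≤ T ∧ C b r l k₀
    · -- the next particle is followed in the same world
      obtain ⟨r, hr1, hr2, hr3⟩ := hA
      obtain ⟨r₁, h1, h2, h3⟩ := hT.exists_first hlk hr2 hr3
      have hr₁T : r₁ ≤ T := h1.trans hr2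
      refine ih hgL (hs.trans hsT) hHL hKL l ps rfl b (m + 1) r₁ (insert l N) (hwin b r₁ hr₁T h2)
        (hla b r₁ hr₁T h2) (mem_insert l N) hN' fun t g ht hg => ?_
      exact .sw ht hr₁T hlk h2 h3 (hHl b r₁ hr₁T h2) (hKl b r₁ hr₁T h2)
        (hforb b r₁ g hr₁T h2 hg)
        (hcont r₁ ∅ (h1.trans_lt hr1) fun x hx => absurd hx (notMem_empty x))
    · push Not at hA
      have hb : b = !b₀ := by
        cases b <;> cases b₀ <;> first | rfl | exact absurd hc (hA s' hst hsT)
      refine ih hgL (hs.trans hsT) hHL hKL l ps rfl b₀ (m + 1) s' (insert l N) hss'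
        (hla b₀ s' hsT hc) (mem_insert l N) hN' fun t g ht hg => ?_
      refine .gh ht hsT hlk hc (hbefore b₀) (hHl b₀ s' hsT hc) (hKl b₀ s' hsT hc)
        (hforb b₀ s' g hsT hc hg) ?_ ((hHk _).mono hsT) ?_ ?_
      · intro r hr hsub
        rcases lt_or_ge r 0 with h1 | h1
        · have h2 : ∀ b, BC (C b) r k₀ = ∅ := by
            intro b
            ext x
            simp only [mem_BC, mem_empty_iff_false, iff_false]
            exact fun hx => absurd hx.le (not_le.2 h1)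
          rw [h2, h2]
        · exact hun b₀ r k₀ h1 (hr.le.trans hsT) hgk (hn r hr) hsub
      · intro hc'
        exact hA s' hst hsT (hb ▸ hT.symmC _ _ _ _ hc')
      · have h5 := hcont s' {l} hst (by
          intro x hx
          rw [mem_singleton_iff] at hx
          subst hx
          exact ⟨hlN, fun r hr hrT hcr => hA r hr hrT (hT.symmC _ _ _ _ hcr)⟩)
        rw [hb] at h5
        exact h5

/-- An entry chain with `m` links gives a clean chain with `m` links. -/
theorem cc_of_ec2' (hT : Tree T C E) [Finite J] {K : ℕ} {t₀ : ℝ}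
    (hmono : ∀ r r' k, F r k → r ≤ r' → F r' k) (h0 : F 0 a)
    (hcon : ∀ b r j k, C b r j k → F r j → (j = a ∨ j ∈ gas) → k ∈ gas → F r k)
    (hun : ∀ b r k, 0 ≤ r → r ≤ T → k ∈ gas → ¬ F r k → BC (C b) r k ⊆ gas →
      BC (C (!b)) r k = BC (C b) r k)
    (ha : ∀ b s k, s ≤ T → C b s a k → k ∈ gas → b = true ∧ t₀ < s) {L : List J} {s : ℝ}
    (h : EC C F a L s) (hg : ∀ x ∈ L, x ≠ a → x ∈ gas) (hsT : s ≤ T)
    (hH : ∀ x ∈ L, x ≠ a → ∀ b, HistE (C b) E T x)
    (hK : ∀ x ∈ L, x ≠ a → ∀ b, (BC (C b) T x ∩ gas).ncard ≤ K) {m : ℕ} (hm : L.length = m + 1) :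
    CC2 T C E K gas true a t₀ ∅ m := by
  cases L with
  | nil => simp at hm
  | cons k tl =>
    have hnd := h.nodup
    have h1 := cc_of_ec2 hT hmono h0 hcon hun ha h hg hsT hH hK k tl rfl true 0 (max s t₀ + 1) {k}
      (by linarith [le_max_left s t₀]) (fun _ => ⟨rfl, by linarith [le_max_right s t₀]⟩)
      (mem_singleton k)
      (fun x hx hxk => (List.nodup_cons.1 hnd).1 (by rw [mem_singleton_iff] at hxk; rwa [← hxk]))
      (fun t g _ _ => .nil)
    have h2 : 0 + tl.length = m := by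
      rw [List.length_cons] at hm; omega
    rwa [h2] at h1

/-- The first link of an entry chain. -/
theorem EC.first_link {L : List J} {s : ℝ} (h : EC C F a L s) {m : ℕ} (hm : L.length = m + 2) :
    ∃ k ∈ L, k ≠ a ∧ ∃ b, ∃ r ≤ s, C b r a k := by
  induction h generalizing m with
  | root => simp at hm
  | @cons l k' ps s s' b h hs hk hc hn ih =>
    have hka : k' ≠ a := fun h' => hk (h' ▸ h.mem)
    cases ps with
    | nil =>
      have hla : l = a := by
        have := h.mem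
        rw [List.mem_singleton] at this
        exact this.symm
      exact ⟨k', List.mem_cons_self, hka, b, s', le_rfl, hla ▸ hc⟩
    | cons l' ps' =>
      obtain ⟨k₁, h1, h2, b₁, r, hr, h3⟩ := ih (m := m - 1) (by
        simp only [List.length_cons] at hm ⊢
        omega)
      exact ⟨k₁, List.mem_cons_of_mem _ h1, h2, b₁, r, hr.trans hs, h3⟩

/-- **Traces from entry chains, several exits** (abstract form): `S` is the part of the root `a`. -/
theorem trace_of_ec2 (hT : Tree T C E) [Finite J] {K : ℕ} {S : Set J}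
    {Ok : Set J → J → Set J → J → ℝ → Prop}
    (hOk : ∀ b q e r, r ≤ T → q ≠ e → C b r q e → HistE (C b) E r q → (BC (C b) r q ∩ gas).ncard ≤ K →
      Disjoint (pre (C b) r e) S →
      Ok (pre (C b) r e) e (pre (C b) r q) q r ∧ pre (C b) r e ⊆ gas)
    (hmono : ∀ r r' k, F r k → r ≤ r' → F r' k) (h0 : F 0 a)
    (hcon : ∀ b r j k, C b r j k → F r j → (j = a ∨ j ∈ gas) → k ∈ gas → F r k)
    (hun : ∀ b r k, 0 ≤ r → r ≤ T → k ∈ gas → ¬ F r k → BC (C b) r k ⊆ gas →
      BC (C (!b)) r k = BC (C b) r k)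
    (hfalse : ∀ s k, s ≤ T → C false s a k → k ∉ gas)
    (hgS : ∀ k ∈ gas, k ∉ S)
    (haS : a ∈ S) (hconn : ∀ x ∈ S, (grOn E S).Reachable a x)
    (hPS : ∀ p d g s s', p ∈ S → d ∈ S → p ≠ d → g ∉ S → 0 ≤ s' → s' ≤ s → s ≤ T →
      C true s p d → C true s' d g → E s p d → E s' d g → False)
    {L : List J} {s : ℝ} (h : EC C F a L s) (hg : ∀ x ∈ L, x ≠ a → x ∈ gas) (hsT : s ≤ T)
    (hH : ∀ x ∈ L, x ≠ a → ∀ b, HistE (C b) E T x)
    (hK : ∀ x ∈ L, x ≠ a → ∀ b, (BC (C b) T x ∩ gas).ncard ≤ K) {m : ℕ} (hm : L.length = m + 1) :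
    ∃ D t₀, a ∈ D ∧ D ⊆ S ∧ Trace Ok D a t₀ S m := by
  classical
  have := Fintype.ofFinite J
  rcases Nat.eq_zero_or_pos m with hm0 | hm0
  · subst hm0
    exact ⟨{a}, 0, mem_singleton a, singleton_subset_iff.2 haS, .nil⟩
  -- the first contact with the outside
  obtain ⟨k₁, hk₁L, hk₁a, b₁, r₁, hr₁, hc₁⟩ := h.first_link (m := m - 1) (by omega)
  have hk₁g : k₁ ∈ gas := hg k₁ hk₁L hk₁a
  have hr₁T : r₁ ≤ T := hr₁.trans hsT
  have hb₁ : b₁ = true := by
    cases b₁ with
    | true => rfl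
    | false => exact absurd hk₁g (hfalse r₁ k₁ hr₁T hc₁)
  subst hb₁
  have hHa : HistE (C true) E r₁ a :=
    ((hH k₁ hk₁L hk₁a true).mono hr₁T).contact (hT.symmC _ _ _ _ hc₁)
  set B : Set ℝ := ⋃ k ∈ {k : J | k ∉ S}, {r | r ∈ Icc 0 T ∧ C true r a k} with hB
  have hBcl : IsClosed B := by
    refine Set.Finite.isClosed_biUnion (Set.toFinite _) fun k hk => ?_
    exact hT.closed true a k fun h' => hk (h' ▸ haS)
  have hBsub : B ⊆ Icc 0 T := by
    intro r hr
    simp only [hB, mem_iUnion] at hr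
    obtain ⟨_, _, h', _⟩ := hr
    exact h'
  have hr₁0 : 0 < r₁ := hT.pos true r₁ a k₁ hc₁ (Ne.symm hk₁a)
  have hBne : B.Nonempty := by
    refine ⟨r₁, ?_⟩
    simp only [hB, mem_iUnion]
    exact ⟨k₁, hgS k₁ hk₁g, ⟨hr₁0.le, hr₁T⟩, hc₁⟩
  obtain ⟨t₁, ht₁, hmin⟩ := (isCompact_Icc.of_isClosed_subset hBcl hBsub).exists_isLeast hBne
  have ht₁' := ht₁
  simp only [hB, mem_iUnion] at ht₁'
  obtain ⟨g₁, hg₁S, ht₁T, hcg₁⟩ := ht₁'
  have hag₁ : a ≠ g₁ := fun h' => hg₁S (h' ▸ haS)
  have ht₁0 : 0 < t₁ := hT.pos true t₁ a g₁ hcg₁ hag₁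
  have ht₁r : t₁ ≤ r₁ := by
    refine hmin ?_
    simp only [hB, mem_iUnion]
    exact ⟨k₁, hgS k₁ hk₁g, ⟨hr₁0.le, hr₁T⟩, hc₁⟩
  have hmin' : ∀ r k, r ≤ T → C true r a k → k ∉ S → t₁ ≤ r := by
    intro r k hr hc hk
    have hak : a ≠ k := fun h' => hk (h' ▸ haS)
    have h0r : 0 < r := hT.pos true r a k hc hak
    refine hmin ?_
    simp only [hB, mem_iUnion]
    exact ⟨k, hk, ⟨h0r.le, hr⟩, hc⟩
  have hHt : HistE (C true) E t₁ a := hHa.mono ht₁r
  obtain ⟨t₀, ht₀0, ht₀1, ht₀⟩ := exists_left (C := C true) ht₁0 a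
  -- the past of `a` before `t₁` is in the part
  have hD : pre (C true) t₁ a ⊆ S := by
    have key : ∀ t' < t₁, ∀ (s : ℝ) (j : J), Past (C true) t' a s j → 0 ≤ s →
        j ∈ S ∧ (j = a ∨ ∃ p ∈ S, p ≠ j ∧ ∃ s'', s ≤ s'' ∧ s'' ≤ t' ∧ C true s'' p j ∧
          E s'' p j) := by
      intro t' ht' s j hj
      induction hj with
      | root _ => exact fun _ => ⟨haS, Or.inl rfl⟩
      | @step s s' j k hp hc hss ih =>
        intro hs0
        obtain ⟨h1, h2⟩ := ih (hs0.trans hss)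
        by_cases hjk : j = k
        · subst hjk
          refine ⟨h1, h2.imp id ?_⟩
          rintro ⟨p, hp1, hp2, s'', hs1, hs2, hs3⟩
          exact ⟨p, hp1, hp2, s'', hss.trans hs1, hs2, hs3⟩
        have hE' : E s' j k := (hHt.mono ht'.le) s' j k hp hc hjk
        have hs'T : s' ≤ T := (hp.le.trans ht'.le).trans ht₁T.2
        by_cases hk : k ∈ S
        · exact ⟨hk, Or.inr ⟨j, h1, hjk, s', hss, hp.le, hc, hE'⟩⟩
        · exfalso
          rcases h2 with h2 | ⟨p, hp1, hp2, s'', hs1, hs2, hs3, hs4⟩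
          · subst h2
            exact absurd (hmin' s' k hs'T hc hk) (not_le.2 (hp.le.trans_lt ht'))
          · exact hPS p j k s'' s' hp1 h1 hp2 hk (hs0.trans hss) hs1
              ((hs2.trans ht'.le).trans ht₁T.2) hs3 hc hs4 hE'
    rintro k ⟨t', ht', hk⟩
    exact (key t' ht' 0 k hk le_rfl).1
  have hEg₁ : E t₁ a g₁ := hHt t₁ a g₁ (.root le_rfl) hcg₁ hag₁
  have ha : ∀ b s k, s ≤ T → C b s a k → k ∈ gas → b = true ∧ t₀ < s := by
    intro b s k hs hc hk
    cases b with
    | false => exact absurd hk (hfalse s k hs hc)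
    | true => exact ⟨rfl, ht₀1.trans_le (hmin' s k hs hc (hgS k hk))⟩
  have h1 := cc_of_ec2' (t₀ := t₀) hT hmono h0 hcon hun ha h hg hsT hH hK hm
  refine ⟨pre (C true) t₁ a, t₀, self_mem_pre ht₁0 a, hD, ?_⟩
  refine trace_of_cc2 hT hOk m m true a t₀ ∅ (pre (C true) t₁ a) S (grOn E S) h1 le_rfl ?_
    subset_rfl
  refine ⟨ht₀0, ht₀ t₀ le_rfl ht₀1, hD, grOn_le E S, fun x y hxy => hxy.2.1, hconn, fun x hx => ?_⟩
  by_cases hxD : x ∈ pre (C true) t₁ a
  · exact Or.inl hxD
  refine Or.inr (Or.inr fun s hs hsT hHs hc => ?_)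
  rcases lt_or_ge s t₁ with h2 | h2
  · exact hxD (bc_subset_pre h2 a (Past.contact (.root le_rfl) hc |>.mono (ht₀0.trans hs.le)))
  · have hxa : x ≠ a := Ne.symm hx.1
    refine hPS x a g₁ s t₁ hx.2.2.1 haS hxa hg₁S ht₁0.le h2 hsT (hT.symmC _ _ _ _ hc) hcg₁ ?_ hEg₁
    exact hT.symmE _ _ _ (hHs s a x (.root le_rfl) hc hx.1)

end Crest.Agent.R122.LinkD331
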