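import Crest.Agent.R122.LNOSdet_515
import Crest.Agent.R122.LinkAsm_984

/-!
# `LinkE4` is excluded by the deterministic output `RAO` (row 122, instance (OS)), helper302

* `OSSide` : side conditions on the constants; `osIn_of` : helper515's `OSIn` on helper984's `Gd4`.
* `not_linkA`, `not_linkB`, `not_nearL` : the three link events of a contact structure (helper984)
  are excluded by helper515's `RAO`.
* `not_linkE4_of_rao` : `RAO` excludes `LinkE4` on `Gd4`.
-/

set_option autoImplicit false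
set_option linter.unusedSectionVars false

open MeasureTheory Set Filter Topology
open scoped ENNReal
open Crest.AnalysisR.Kinetic
open Crest.Agent.R122.Kin796 Crest.Agent.R122.Kin796.CTree Crest.Agent.R122.Tree674
open Crest.Agent.R122.GC311 Crest.Agent.R122.EDefs602 Crest.Agent.R122.OneC285
open Crest.Agent.R122.OSCalc495 Crest.Agent.R122.GSCalc495
open Crest.Agent.R122.Scat818 Crest.Agent.R122.OCout796
open Crest.Agent.R122.Ins45 hiding relLs
open Crest.Agent.R122.TreeLines335 Crest.Agent.R122.Line285 Crest.Agent.R122.Inf879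
open Crest.Agent.R122.MWFam255 (PairNL CF)
open Crest.Agent.R122.UnlC263 (Ad E4Pairs relLs)
open Crest.Agent.R122.LinkAsm984 Crest.Agent.R122.LNOS515

noncomputable section

open scoped Classical

namespace Crest.Agent.R122.LinkE302

variable {Φ : Space3 → ℝ} {ε R T te c ℓ ς : ℝ} {K N : ℕ} {Q : EPar} {T' : ℝ} {P : CTree}
  {z : PhasePoint × Par P} {m : ℕ} {w : Config m} {l : ML}

/-! ## The set of families -/

theorem f2_eq : F2 P = insert (Sum.inr false) (insert (Sum.inr true) (exS P)) := rfl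

/-- Two coexisting lines are tree lines or lines of the second family. -/
theorem ad_cases {x y : Idx P ⊕ Bool} (h : Ad P x y) :
    (∃ i j : Idx P, i ≠ j ∧ x = Sum.inl i ∧ y = Sum.inl j) ∨ (x ∈ F2 P ∧ y ∈ F2 P) := by
  rcases x with i | b <;> rcases y with j | b'
  · exact Or.inl ⟨i, j, fun h' => h.ne (congrArg _ h'), rfl, rfl⟩
  · refine Or.inr ⟨mem_F2.2 (Or.inr (Or.inr ⟨i, ?_, rfl⟩)), ?_⟩
    · rintro rfl
      exact h.left ⟨rfl, b', rfl⟩
    · cases b'
      · exact mem_F2.2 (Or.inl rfl)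
      · exact mem_F2.2 (Or.inr (Or.inl rfl))
  · refine Or.inr ⟨?_, mem_F2.2 (Or.inr (Or.inr ⟨j, ?_, rfl⟩))⟩
    · cases b
      · exact mem_F2.2 (Or.inl rfl)
      · exact mem_F2.2 (Or.inr (Or.inl rfl))
    · rintro rfl
      exact h.right ⟨rfl, b, rfl⟩
  · refine Or.inr ⟨?_, ?_⟩
    · cases b
      · exact mem_F2.2 (Or.inl rfl)
      · exact mem_F2.2 (Or.inr (Or.inl rfl))
    · cases b'
      · exact mem_F2.2 (Or.inl rfl)
      · exact mem_F2.2 (Or.inr (Or.inl rfl))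

/-! ## The three link events -/

section Det

variable (h : RAO Φ T te c ℓ ς ε K N z w l) (hi : OSIn Φ ε T P z l) (hΦ : AdmissiblePotential Φ)
  (hε : 0 < ε) (hc : 1 ≤ c) (hℓς : 2 * ℓ ≤ ς) (hte : te ≤ T)
include h hi hΦ hε hc hℓς hte

theorem not_linkA (hlT : cT ε z l + 2 * ℓ < T) (hok : OkE4 Φ ε P z w l) :
    ¬ LinkA Φ ε K te P z w l := by
  rintro ⟨x, y, hxy, hn⟩
  rcases ad_cases hxy with ⟨i, j, hij, rfl, rfl⟩ | ⟨hx, hy⟩
  · exact hn (h.o1 hi hΦ hε hc hℓς hte hok.okR i j hij)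
  · refine hn ?_
    rw [UnlC263.relLs_eq_oneLs hx, UnlC263.relLs_eq_oneLs hy]
    exact (h.e4Hyp hi hΦ hε hc hℓς hte hlT hok.ok2).nl ⟨x, hx⟩ ⟨y, hy⟩
      fun h' => hxy.ne (congrArg Subtype.val h')

theorem not_linkB (hlT : cT ε z l + 2 * ℓ < T) (hok : OkE4 Φ ε P z w l) :
    ¬ LinkB Φ ε K te P z w l := by
  rintro ⟨d, hd, x, y, hxy, hxd, hyd, hn⟩
  rcases ad_cases hxy with ⟨i, j, hij, rfl, rfl⟩ | ⟨hx, hy⟩
  · exact hn (h.o2 hi hΦ hε hc hℓς hte hok.okR hd
      ⟨i, fun h' => hxd (congrArg _ h')⟩ ⟨j, fun h' => hyd (congrArg _ h')⟩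
      fun h' => hij (congrArg Subtype.val h'))
  · refine hn ?_
    have hds : (Sum.inl d : Idx P ⊕ Bool) ∈ exS P := mem_exS.2 hd
    have h1 := (h.e4Hyp hi hΦ hε hc hℓς hte hlT hok.ok2).nld (Sum.inl d) hds
    rw [oneLs_exit hd] at h1
    rw [UnlC263.relLs_eq_oneLs hx, UnlC263.relLs_eq_oneLs hy]
    have key : ∀ {x : Idx P ⊕ Bool}, x ∈ F2 P → x ≠ Sum.inl d → x ∈ (F2 P).erase (Sum.inl d) :=
      fun hx hxd => Finset.mem_erase_of_ne_of_mem hxd hx
    refine h1 ⟨x, ?_⟩ ⟨y, ?_⟩ fun h' => hxy.ne (congrArg Subtype.val h')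
    · convert key hx hxd
    · convert key hy hyd

theorem not_nearL (hR : R + 2 ≤ c) (hor : cT ε z l + ε * R ≤ te)
    (hok : MW.OkFam Φ ε (MW.cfg w) (lineML Φ ε P z)) : ¬ NearL Φ ε R K te P z w l := by
  rintro ⟨t, ht, ht', j, hj, htj, hn⟩
  have h1 := h.near hi hΦ hε hc hℓς hte hok hj (r := (R + 2) * ε) (by nlinarith)
  have hroot := hi.st_root (n := m) (w := w) hΦ hε ((hi.rel_lt hε _).le.trans ht)
    (ht'.trans (hor.trans hte))
  rcases hn with ⟨k, hk, hd⟩ | ⟨⟨r, k, hrt, hk⟩, hd⟩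
  · have h2 := (h1.influenced ⟨hi.pos.le.trans ht, ht'.trans hor⟩ htj.le hk).1
    rw [hroot] at h2
    exact absurd h2 (not_lt.2 hd)
  · have h2 := h1.altered ⟨hi.pos.le.trans ht, ht'.trans hor⟩ htj.le (s := r)
      (hrt.trans htj) hrt.le hk
    rw [hroot] at h2
    exact absurd h2 (not_lt.2 hd)

/-- **`RAO` excludes the link events of a contact structure.** -/
theorem not_linkE4 (hlT : cT ε z l + 2 * ℓ < T) (hR : R + 2 ≤ c) :
    ¬ LinkE4 Φ ε R K te P z w l := by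
  intro hL
  rcases hL.link with h1 | h1 | h1
  · exact not_linkA h hi hΦ hε hc hℓς hte hlT hL.ok h1
  · exact not_linkB h hi hΦ hε hc hℓς hte hlT hL.ok h1
  · exact not_nearL h hi hΦ hε hc hℓς hte hR hL.enc.hor hL.ok.okR h1

end Det

/-! ## The structure on `Gd4` -/

/-- Helper515's `OSIn` on helper984's guard. -/
theorem osIn_of (hg : Gd4 Φ ε K Q T' P z w l) (hen : EncOk Φ ε R Q.te P z l) (hT : Q.te ≤ T)
    (hTT : T ≤ T') (hlt : cT ε z l < T) : OSIn Φ ε T P z l where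
  valid := LNTree410.valid_mono hT (OneC423.valid_of_mem_ctSet hg.real.ct)
  sep := LNTree410.sep_anti hTT hg.real.sep
  ct := ⟨hg.real.ct.1, hg.real.ct.2.1, hg.real.ct.2.2.1, hg.real.ct.2.2.2.1.trans hT,
    hg.real.ct.2.2.2.2⟩
  birth := hg.real.birth
  cd := hen.pass.ok
  lt_T := hlt

end Crest.Agent.R122.LinkE302

end
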