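import Crest.Agent.R122.GateOS_973
import Crest.Agent.R122.GateOSd_434
import Crest.Agent.R122.LinkSel_984
import Crest.Agent.R122.XShape_692
import Crest.Agent.R122.LNOS_515

/-!
# The closed gateway of the one-contact structures (row 122, H1, helper410)

* `fLe_of_osLe`, `gNull_of_osNull` : a null functional of helper984 (`OSNull`) is null over every `osM P`
  on the guard `Gd4`.
* `osNull_of_salt` : **`OSNull` of an event** from the alternatives of helper692 (`SAlt`: run, bad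
  partition, bad hit of the tree and the line) and any event with `OSNull`.
-/

set_option autoImplicit false
set_option linter.unusedSectionVars false

open MeasureTheory Set Filter Topology
open scoped ENNReal Classical
open Crest.AnalysisR.Kinetic
open Crest.Agent.R122.Kin796 Crest.Agent.R122.Kin796.CTree Crest.Agent.R122.Tree674
open Crest.Agent.R122.GC311 Crest.Agent.R122.EDefs602 Crest.Agent.R122.OneC285
open Crest.Agent.R122.Gate424 Crest.Agent.R122.Gate973 Crest.Agent.R122.OSMeas984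
open Crest.Agent.R122.LinkAsm984 Crest.Agent.R122.GateOS434

noncomputable section

namespace Crest.Agent.R122.OSGate410

variable {Φ : Space3 → ℝ} {f₀ : PhasePoint → ℝ} {K : ℕ} {Q : EPar} {T' : ℝ}

/-- Births of the structure. -/
theorem osB_eq (P : CTree) (θ : (PhasePoint × Par P) × ML) :
    osB P θ = LNOS515.bO P θ.2 := rfl

/-- States at time `0` of the structure. -/
theorem osZ_eq {ε : ℝ} {P : CTree} {θ : (PhasePoint × Par P) × ML} (h : Adm Φ P θ.1.1.2 θ.1.2) :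
    osZ Φ ε P θ = LNOS515.zO Φ ε θ.1 θ.2 := by
  unfold osZ LNOS515.zO
  rw [linesM_of_adm ε h]

/-! ### `OSNull` events are null over `osM` -/

/-- A functional which is small in the sense of helper984 is small over every `osM P`. -/
theorem fLe_of_osLe (hΦ : AdmissiblePotential Φ) (hf : Measurable f₀) (hγ : Measurable Q.γ)
    {F : ℝ → SF} {c : ℝ≥0∞} (h : OSLe Φ f₀ K Q T' F c) (P : CTree) :
    FLe f₀ (fun ε (_ : Unit) => osM Φ f₀ ε K Q T' (volume.restrict (Ioc 0 Q.te)) P)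
      (fun ε _ m θ w => if Gd4 Φ ε K Q T' P θ.1 w θ.2 then F ε P θ.1 m w θ.2 else 0) c := by
  obtain ⟨ε₀, h0, h⟩ := h
  refine ⟨ε₀, h0, fun ε hε hlt _ => ?_⟩
  obtain ⟨M, hM, hle, hO⟩ := h ε hε hlt
  refine ⟨fun m p => M P p.1.1 m p.2 p.1.2, fun m => ?_, fun m θ w _ => ?_, ?_⟩
  · exact (hM P m).comp (measurable_fst.fst.prodMk (measurable_snd.prodMk measurable_fst.snd))
  · show (if Gd4 Φ ε K Q T' P θ.1 w θ.2 then F ε P θ.1 m w θ.2 else 0) ≤ M P θ.1 m w θ.2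
    by_cases hg : Gd4 Φ ε K Q T' P θ.1 w θ.2
    · rw [if_pos hg]
      exact hle P θ.1 m w θ.2 hg
    · rw [if_neg hg]
      exact bot_le
  · exact (lintegral_le_OS hΦ hf hγ ε K hM P).trans hO

theorem fNull_of_osNull (hΦ : AdmissiblePotential Φ) (hf : Measurable f₀) (hγ : Measurable Q.γ)
    {F : ℝ → SF} (h : OSNull Φ f₀ K Q T' F) (P : CTree) :
    FNull f₀ (fun ε (_ : Unit) => osM Φ f₀ ε K Q T' (volume.restrict (Ioc 0 Q.te)) P)
      (fun ε _ m θ w => if Gd4 Φ ε K Q T' P θ.1 w θ.2 then F ε P θ.1 m w θ.2 else 0) := by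
  intro c hc
  have hc1 : 0 < min c 1 := lt_min hc one_pos
  have hct : min c 1 ≠ ∞ := ne_top_of_le_ne_top ENNReal.one_ne_top (min_le_right _ _)
  have h1 := h (min c 1).toReal (ENNReal.toReal_pos hc1.ne' hct)
  rw [ENNReal.ofReal_toReal hct] at h1
  exact (fLe_of_osLe hΦ hf hγ h1 P).mono (min_le_left _ _)
    ⟨1, one_pos, fun _ _ _ _ _ _ _ _ => le_rfl⟩

/-- Events of the one-contact structures. -/
abbrev OEv : Type := (ε : ℝ) → (P : CTree) → PhasePoint × Par P → (m : ℕ) → Config m → ML → Prop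

/-- The event on the guard. -/
def onG (Φ : Space3 → ℝ) (K : ℕ) (Q : EPar) (T' : ℝ) (N : OEv) : OEv := fun ε P z _ w l =>
  Gd4 Φ ε K Q T' P z w l ∧ N ε P z _ w l

/-- Union of events. -/
def orE (N N' : OEv) : OEv := fun ε P z _ w l => N ε P z _ w l ∨ N' ε P z _ w l

/-- The event is null. -/
def ONull (Φ : Space3 → ℝ) (f₀ : PhasePoint → ℝ) (K : ℕ) (Q : EPar) (T' : ℝ) (N : OEv) : Prop :=
  OSNull Φ f₀ K Q T' fun ε P z m w l => if N ε P z m w l then 1 else 0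

/-- **An event with `OSNull` is null over every `osM P`**, on the guard. -/
theorem gNull_of_osNull (hΦ : AdmissiblePotential Φ) (hf : Measurable f₀) (hγ : Measurable Q.γ)
    {N : OEv} (h : ONull Φ f₀ K Q T' N) (P : CTree) :
    GNull f₀ (fun ε (_ : Unit) => osM Φ f₀ ε K Q T' (volume.restrict (Ioc 0 Q.te)) P)
      (fun ε _ m θ w => onG Φ K Q T' N ε P θ.1 m w θ.2) := by
  intro δ hδ
  refine GLe.ofF ((fNull_of_osNull hΦ hf hγ h P).mono
    ⟨1, one_pos, fun ε _ _ _ m θ w _ => ?_⟩ δ hδ)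
  show (if onG Φ K Q T' N ε P θ.1 m w θ.2 then (1 : ℝ≥0∞) else 0) ≤
    if Gd4 Φ ε K Q T' P θ.1 w θ.2 then (if N ε P θ.1 m w θ.2 then 1 else 0) else 0
  by_cases hg : Gd4 Φ ε K Q T' P θ.1 w θ.2
  · by_cases hN : N ε P θ.1 m w θ.2
    · rw [if_pos ⟨hg, hN⟩, if_pos hg, if_pos hN]
    · rw [if_neg fun h' => hN h'.2]
      exact bot_le
  · rw [if_neg fun h' => hg h'.1]
    exact bot_le

/-! ### Calculus of `OSNull` for events -/

section ev

variable {N N' : OEv}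

/-- Monotonicity. -/
theorem ONull.mono (h : ONull Φ f₀ K Q T' N)
    (hN : ∃ ε₁ : ℝ, 0 < ε₁ ∧ ∀ ε : ℝ, 0 < ε → ε < ε₁ → ∀ (P : CTree) (z : PhasePoint × Par P)
      (m : ℕ) (w : Config m) (l : ML), Gd4 Φ ε K Q T' P z w l → N' ε P z m w l →
        N ε P z m w l) : ONull Φ f₀ K Q T' N' := by
  obtain ⟨ε₁, h1, hN⟩ := hN
  refine OSNull.mono h ⟨ε₁, h1, fun ε hε hlt P z m w l hg => ?_⟩
  show (if N' ε P z m w l then (1 : ℝ≥0∞) else 0) ≤ if N ε P z m w l then 1 else 0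
  by_cases h' : N' ε P z m w l
  · rw [if_pos h', if_pos (hN ε hε hlt P z m w l hg h')]
  · rw [if_neg h']
    exact bot_le

/-- Union. -/
theorem ONull.or (hΦ : AdmissiblePotential Φ) (hf : Measurable f₀) (hγ : Measurable Q.γ)
    (h : ONull Φ f₀ K Q T' N) (h' : ONull Φ f₀ K Q T' N') : ONull Φ f₀ K Q T' (orE N N') := by
  refine (OSNull.add hΦ hf hγ h h').congr fun ε _ P z m w l _ => ?_
  show (if orE N N' ε P z m w l then (1 : ℝ≥0∞) else 0) ≤
    (if N ε P z m w l then 1 else 0) + if N' ε P z m w l then 1 else 0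
  by_cases h1 : N ε P z m w l
  · rw [if_pos (show orE N N' ε P z m w l from Or.inl h1), if_pos h1]
    exact le_self_add
  · by_cases h2 : N' ε P z m w l
    · rw [if_pos (show orE N N' ε P z m w l from Or.inr h2), if_pos h2]
      exact le_add_self
    · rw [if_neg (show ¬ orE N N' ε P z m w l from not_or.2 ⟨h1, h2⟩)]
      exact bot_le

/-- From the gateway. -/
theorem ONull.of_gNull (hΦ : AdmissiblePotential Φ) (hf : Measurable f₀) (hγ : Measurable Q.γ)
    (h : ∀ P : CTree, P.leaves ≤ K →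
      GNull f₀ (fun ε (_ : Unit) => osM Φ f₀ ε K Q T' (volume.restrict (Ioc 0 Q.te)) P)
        (fun ε _ n θ w => onG Φ K Q T' N ε P θ.1 n w θ.2)) : ONull Φ f₀ K Q T' N := by
  have h2 : ONull Φ f₀ K Q T' (onG Φ K Q T' N) :=
    osNull_of_gNull hΦ hf hγ K T' (N := onG Φ K Q T' N) h
  exact h2.mono ⟨1, one_pos, fun ε _ _ P z m w l hg hE => ⟨hg, hE⟩⟩

end ev

/-! ### The gateway -/

variable {b g0 : ℝ}

/-- **The closed gateway of the one-contact structures.** For every `L` the event implies (on the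
guard, for small `ε`) helper692's alternatives of the structure (tree and line) with runs of length
`L`, or an event with `OSNull`. -/
theorem osNull_of_salt (hΦ : AdmissiblePotential Φ) (hb : 0 < b) (hf : Measurable f₀)
    (H : HasSummableGaussianBound b (fun x v => f₀ (x, v)))
    (h1 : ∫⁻ z, ENNReal.ofReal (f₀ z) ≤ 1) (hg0 : 0 < g0) (hγ : Measurable Q.γ)
    (hg : ∀ τ ∈ Ioc (0 : ℝ) Q.te, g0 ≤ Q.γ τ) (hρ : Q.ρ ≠ ∞) (K K₂ : ℕ) (T' : ℝ)
    {t T T₁ : ℝ} (hT : 0 < T) (ht : t ≤ T) (hT₁ : 0 ≤ T₁)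
    {E : OEv} {Ht : ℕ → OEv}
    (hdet : ∀ P : CTree, P.leaves ≤ K → ∀ L : ℕ, ∃ (N : ℕ) (C : ℝ), ∀ R > 0, ∀ ς > 0,
      ∃ ε₁ : ℝ, 0 < ε₁ ∧ ∀ ε : ℝ, 0 < ε → ε < ε₁ → ∀ (z : PhasePoint × Par P) (m : ℕ)
        (w : Config m) (l : ML), Gd4 Φ ε K Q T' P z w l → E ε P z m w l →
          X692.SAlt Φ T T₁ t C R ς ε K₂ L N
            ((Finset.univ : Finset (Idx P)).disjSum (∅ : Finset Unit)) (LNOS515.bO P l)
            (LNOS515.zO Φ ε z l) w ∨ Ht L ε P z m w l)
    (hHt : ∀ L, ONull Φ f₀ K Q T' (Ht L)) : ONull Φ f₀ K Q T' E := by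
  refine ONull.of_gNull hΦ hf hγ fun P hP => ?_
  choose N C hdet using hdet P hP
  refine gNull_os (Φ := Φ) (T := T) (t := t) hΦ hb hf H h1 hg0 hγ hg hρ K K₂ P T' hT ht
    (E := fun ε m θ w => onG Φ K Q T' E ε P θ.1 m w θ.2)
    (Ht := fun L ε m θ w => BH167.BadHitGas (BH167.bpos Φ T₁ T) Φ T (C L) 1 ε (N L) (N L) 1
      (Finset.univ.disjSum ∅) (osB P θ) (osZ Φ ε P θ) w ∨
      onG Φ K Q T' (Ht L) ε P θ.1 m w θ.2) (fun L => ?_) fun L => ?_
  · refine ⟨N L, C L, fun R hR ς hς => ?_⟩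
    obtain ⟨ε₁, h0, h⟩ := hdet L R hR ς hς
    refine ⟨ε₁, h0, fun ε hε hlt m θ w _ hE => ?_⟩
    have hz : osZ Φ ε P θ = LNOS515.zO Φ ε θ.1 θ.2 := osZ_eq hE.1.real.valid.1
    rw [hz, osB_eq]
    rcases h ε hε hlt θ.1 m w θ.2 hE.1 hE.2 with (h2 | h2 | h2) | h2
    · exact Or.inl h2
    · exact Or.inr (Or.inl h2)
    · exact Or.inr (Or.inr (Or.inl h2))
    · exact Or.inr (Or.inr (Or.inr ⟨hE.1, h2⟩))
  · exact GNull.or hf
      (gNull_osHit (Φ := Φ) (T := T) (T₁ := T₁) hΦ hb hf H h1 hg0 hγ hg hρ K P T' hT.le T hT₁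
        (C L) 1 (N L) (N L))
      (gNull_of_osNull hΦ hf hγ (hHt L) P)

end Crest.Agent.R122.OSGate410

end
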