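import Crest.Agent.R122.LinkE4_302
import Crest.Agent.R122.LNOSra_515
import Crest.Agent.R122.OSGate_410
import Crest.Agent.R122.BWNull_302
import Crest.Agent.R122.OSTN_434

/-!
# The link events of a contact structure are null (row 122, StmtLink4, slot `hlk`), helper302

* `bt_null` : helper515's birth event `BT` of the tree is null.
* `linkE4_det` : off helper692's `SAlt` and `BT` there is no link event.
* `osNull_linkE4` : **`LinkE4` is null**, horizon `te < T'`.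
-/

set_option autoImplicit false
set_option linter.unusedSectionVars false

open MeasureTheory Set Filter Topology
open scoped ENNReal
open Crest.AnalysisR.Kinetic
open Crest.Agent.R122.Kin796 Crest.Agent.R122.Kin796.CTree Crest.Agent.R122.Tree674
open Crest.Agent.R122.GC311 Crest.Agent.R122.EDefs602 Crest.Agent.R122.OneC285
open Crest.Agent.R122.Third741 Crest.Agent.R122.OSCalc495 Crest.Agent.R122.GSCalc495
open Crest.Agent.R122.Scat818 Crest.Agent.R122.OCout796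
open Crest.Agent.R122.TreeLines335 Crest.Agent.R122.Line285 Crest.Agent.R122.Inf879
open Crest.Agent.R122.LinkAsm984 Crest.Agent.R122.Ins45 Crest.Agent.R122.LNOS515
open Crest.Agent.R122.OSGate410

noncomputable section

open scoped Classical

namespace Crest.Agent.R122.LinkE302

variable {Φ : Space3 → ℝ} {f₀ : PhasePoint → ℝ} {ε R te c ρ ς : ℝ} {K N : ℕ} {Q : EPar} {T' : ℝ}
  {P : CTree} {z : PhasePoint × Par P} {m : ℕ} {w : Config m} {l : ML}

/-- The birth event of the tree is null. -/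
theorem bt_null {A : Space3 → ℝ≥0∞} {C b g0 : ℝ} (h : AsmH Φ f₀ Q A C b g0) (K : ℕ) (T' : ℝ) :
    ONull Φ f₀ K Q T' fun ε _ z _ w _ => BT Φ ε Q.te z w := by
  have h1 : RtG302.TNull Φ f₀ T' K fun ε P z m w => BT Φ ε Q.te (P := P) z w :=
    TreeGate2302.tNull_mono (BW302.tNull_birthT h.hΦ h.hF.b_pos h.hF.meas h.H h.hF.mass 1 T' K)
      fun _ _ _ _ _ ⟨i, hi⟩ => ⟨i, hi.2⟩
  refine (GateOS434.osNull_of_tNull h.hΦ h.hF.meas K h.hQ.γ_meas h.hQ.ρ_ne h.hQ.g0_pos
    h.hQ.γ_ge h1).congr fun ε _ P z m w l _ => ?_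
  split_ifs
  · exact le_rfl
  · exact bot_le

/-- **Deterministic statement.** -/
theorem linkE4_det (hΦ : AdmissiblePotential Φ) (hε : 0 < ε) (hR : 0 ≤ R)
    (hρς : 2 * (ρ * ε) ≤ ς) (hρT : Q.te + 2 * (ρ * ε) < T') (hρ : 0 < ρ) {T₁ : ℝ} (hT₁ : T' < T₁)
    {L : ℕ} (hN : P.leaves + 1 + 2 * K * (L + 2) ≤ N)
    (hg : Gd4 Φ ε K Q T' P z w l) (hE : LinkE4 Φ ε R K Q.te P z w l) :
    X692.SAlt Φ T' T₁ T' (R + 2) ρ ς ε K L (N + N + (N + N))
      ((Finset.univ : Finset (Idx P)).disjSum (∅ : Finset Unit)) (bO P l) (zO Φ ε z l) w ∨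
      BT Φ ε Q.te z w := by
  by_contra hcon
  push Not at hcon
  obtain ⟨hS, hB⟩ := hcon
  have hρε : 0 < ρ * ε := mul_pos hρ hε
  have hte : Q.te ≤ T' := by linarith
  have hcT : cT ε z l ≤ Q.te := hg.real.ct.2.2.2.1
  have hlT : cT ε z l + 2 * (ρ * ε) < T' := by linarith
  have hi : OSIn Φ ε T' P z l := osIn_of hg hE.enc hte le_rfl (by linarith)
  have hc : (1 : ℝ) ≤ R + 2 := by linarith
  have h1 : RAO Φ T' Q.te (R + 2) (ρ * ε) ς ε K N z w l :=
    rao_of_salt_bt hΦ hε hc hρς hi hg.real.exw hte hlT hE.ok.okR hE.ok.ok2 hT₁ hN hS hB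
  exact not_linkE4 h1 hi hΦ hε hc hρς hte hlT le_rfl hE

/-- **The link events of a contact structure are null** (slot `hlk` of helper984's
`stmtLink4_of_parts`). -/
theorem osNull_linkE4 {A : Space3 → ℝ≥0∞} {C b g0 : ℝ} (h : AsmH Φ f₀ Q A C b g0)
    (hT : Q.te < T') (K : ℕ) {R : ℝ} (hR : 0 ≤ R) :
    OSNull Φ f₀ K Q T' fun ε P z _ w l => if LinkE4 Φ ε R K Q.te P z w l then 1 else 0 := by
  have hT0 : 0 < T' := h.te.trans_lt hT
  have key : ONull Φ f₀ K Q T' fun ε P z _ w l => LinkE4 Φ ε R K Q.te P z w l := by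
    refine osNull_of_salt (T := T') (t := T') (T₁ := T' + 1) (K₂ := K)
      (Ht := fun _ ε _ z _ w _ => BT Φ ε Q.te z w) h.hΦ h.hF.b_pos h.hF.meas h.H h.hF.mass
      h.hQ.g0_pos h.hQ.γ_meas h.hQ.γ_ge h.hQ.ρ_ne K T' hT0 le_rfl (by linarith)
      (fun P _ L => ?_) fun _ => bt_null h K T'
    set N : ℕ := P.leaves + 1 + 2 * K * (L + 2) with hN
    refine ⟨N + N + (N + N), R + 2, fun ρ hρ ς hς => ⟨min (ς / (2 * ρ)) ((T' - Q.te) / (2 * ρ)),
      lt_min (by positivity) (div_pos (by linarith) (by positivity)),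
      fun ε hε hlt z m w l hg hE => ?_⟩⟩
    have h2 : (0 : ℝ) < 2 * ρ := by positivity
    have h3 : ε * (2 * ρ) < ς := (lt_div_iff₀ h2).1 (hlt.trans_le (min_le_left _ _))
    have h4 : ε * (2 * ρ) < T' - Q.te := (lt_div_iff₀ h2).1 (hlt.trans_le (min_le_right _ _))
    exact linkE4_det h.hΦ hε hR (by nlinarith) (by nlinarith) hρ (by linarith) hN.ge hg hE
  refine OSNull.congr key fun ε _ P z m w l _ => ?_
  show (if LinkE4 Φ ε R K Q.te P z w l then (1 : ℝ≥0∞) else 0) ≤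
    if LinkE4 Φ ε R K Q.te P z w l then 1 else 0
  split_ifs
  · exact le_rfl
  · exact bot_le

end Crest.Agent.R122.LinkE302

end
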