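import Crest.Agent.R122.PairBad_515
import Crest.Agent.R122.MeasPair_522
import Crest.Agent.R122.TransLine_151
import Crest.Agent.R122.Simul2_984

/-!
# The bad first contacts of a pair law (row 122, inequality 3), helper515

`bad_le` : `BAD ≤ birth contacts + links of the pair in the gas`, for every s-finite pair law.
`bad_null` : `NullFacts.bad` from the two null facts.
-/

set_option autoImplicit false
set_option linter.unusedSectionVars false

open MeasureTheory Set Filter Topology
open scoped ENNReal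
open Crest.AnalysisR.Kinetic
open Crest.Agent.R122.GC311
open Crest.Agent.R122.Flow671 Crest.Agent.R122.Ins45
open Crest.Agent.R122.Inf879 Crest.Agent.R122.EDefs602
open Crest.Agent.R122.MeasE416 Crest.Agent.R122.MeasPair522
open Crest.Agent.R122.PairD292
open Crest.Agent.R122.OneC285 (lpos)
open Crest.Agent.R122.Boost969 (LSt)
open Crest.Agent.R122.Pair292 (Lab)

namespace Crest.Agent.R122.PairBad515

noncomputable section

open scoped Classical

variable {Φ : Space3 → ℝ} {f₀ : PhasePoint → ℝ} {ε : ℝ} {K : ℕ} {Q : EPar}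

/-- Contact at the birth of the second line. -/
def BirthE (Φ : Space3 → ℝ) (ε : ℝ) (K : ℕ) (T : ℝ) {n : ℕ} (w : Config n) (θ : Lab × LSt) : Prop :=
  OkL K θ ∧ OkW Φ ε w θ ∧ (eL θ).1.1 ≤ T ∧ Birth Φ ε w θ

/-- Link between the two lines of the pair in the gas, with the touch of the first line in the window
(which localises the pair: the pair laws are translation invariant). -/
def LinkE (Φ : Space3 → ℝ) (ε : ℝ) (K : ℕ) (Q : EPar) {n : ℕ} (w : Config n) (θ : Lab × LSt) :
    Prop :=
  OkL K θ ∧ OkW Φ ε w θ ∧ T1 Φ ε K Q w θ ∧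
    ¬ MW.NoLink Φ ε K Q.te (MW.cfg w) (MW.line (dL θ)) (MW.line (eL θ))

theorem measurableSet_birth (hΦ : AdmissiblePotential Φ) (hε : 0 < ε) (n : ℕ) :
    MeasurableSet {q : Config n × (Lab × LSt) | Birth Φ ε q.1 q.2} := by
  have he : Measurable fun q : Config n × (Lab × LSt) => eL q.2 :=
    measurable_eL.comp measurable_snd
  have hfl : Measurable fun q : Config n × (Lab × LSt) => flow Φ ε (eL q.2).1.1 q.1 :=
    (measurable_flow_joint hΦ hε).comp (he.fst.fst.prodMk measurable_fst)
  have h1 : {q : Config n × (Lab × LSt) | Birth Φ ε q.1 q.2} =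
      ⋃ i : Fin n, {q : Config n × (Lab × LSt) |
        dist (eL q.2).1.2.1 (flow Φ ε (eL q.2).1.1 q.1 i).1 ≤ ε} := by
    ext q
    simp only [Birth, mem_ofPred_eq, mem_iUnion]
  rw [h1]
  refine MeasurableSet.iUnion fun i => measurableSet_le (Measurable.dist he.fst.snd.fst ?_)
    measurable_const
  exact ((measurable_pi_apply i).comp hfl).fst

theorem measurableSet_birthE (hΦ : AdmissiblePotential Φ) (hε : 0 < ε) (T : ℝ) (n : ℕ) :
    MeasurableSet {q : Config n × (Lab × LSt) | BirthE Φ ε K T q.1 q.2} :=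
  (measurableSet_okL K measurable_snd).inter ((measurableSet_okW hΦ hε measurable_fst
    measurable_snd).inter ((measurableSet_le (measurable_eL.comp measurable_snd).fst.fst
      measurable_const).inter (measurableSet_birth hΦ hε n)))

/-- The world `w + e` is good almost surely. -/
theorem ae_ok_e (hΦ : AdmissiblePotential Φ) (hε : 0 < ε) (ν : Measure (Lab × LSt)) [SFinite ν]
    (n : ℕ) : ∀ᵐ q : Config n × (Lab × LSt) ∂((volume : Measure (Config n)).prod ν),
      q.1 ∈ PairExcluded ε n → OkL K q.2 → ((MW.cfg q.1).ins (eL q.2)).Ok Φ ε := by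
  have hm : MeasurableSet {q : Config n × (Lab × LSt) | q.1 ∈ PairExcluded ε n → OkL K q.2 →
      ((MW.cfg q.1).ins (eL q.2)).Ok Φ ε} := by
    have h1 : MeasurableSet {q : Config n × (Lab × LSt) | ((MW.cfg q.1).ins (eL q.2)).Ok Φ ε} :=
      measurableSet_ok hΦ hε ((MeasW.cfg measurable_fst).ins (measurable_eL.comp measurable_snd))
    have h2 : MeasurableSet {q : Config n × (Lab × LSt) | q.1 ∈ PairExcluded ε n} :=
      measurable_fst (measurableSet_pairExcluded ε n)
    have h3 : MeasurableSet {q : Config n × (Lab × LSt) | OkL K q.2} :=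
      measurableSet_okL K measurable_snd
    have h4 : {q : Config n × (Lab × LSt) | q.1 ∈ PairExcluded ε n → OkL K q.2 →
      ((MW.cfg q.1).ins (eL q.2)).Ok Φ ε} = {q : Config n × (Lab × LSt) | q.1 ∈ PairExcluded ε n}ᶜ ∪
        ({q : Config n × (Lab × LSt) | OkL K q.2}ᶜ ∪
          {q : Config n × (Lab × LSt) | ((MW.cfg q.1).ins (eL q.2)).Ok Φ ε}) := by
      ext q
      simp only [mem_ofPred_eq, mem_union, mem_compl_iff]
      tauto
    rw [h4]
    exact h2.compl.union (h3.compl.union h1)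
  have hswap : ∀ᵐ q : (Lab × LSt) × Config n ∂(ν.prod (volume : Measure (Config n))),
      q.2 ∈ PairExcluded ε n → OkL K q.1 → ((MW.cfg q.2).ins (eL q.1)).Ok Φ ε := by
    refine Measure.ae_prod_iff_ae_ae ?_ |>.2 (Eventually.of_forall fun θ => ?_)
    · exact measurable_swap hm
    · by_cases hL : OkL K θ
      · filter_upwards [TransOk151.ae_ok_line (l := eL θ) hΦ hε hL.e0 n] with w h hw _
        exact h hw
      · exact Eventually.of_forall fun w _ h => absurd h hL
  have h5 := Measure.prod_swap (μ := ν) (ν := (volume : Measure (Config n)))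
  rw [← h5]
  exact (ae_map_iff measurable_swap.aemeasurable hm).2 hswap

/-- **The bad first contacts of a pair law are births and links.** -/
theorem bad_le (hΦ : AdmissiblePotential Φ) (hf : Measurable f₀) (hε : 0 < ε)
    (ν : Measure (Lab × LSt)) [SFinite ν] :
    BAD Φ f₀ ε K Q ν ≤
      gcE f₀ ε (fun _ w => ∫⁻ θ, (if BirthE Φ ε K Q.te w θ then 1 else 0) ∂ν) +
      gcE f₀ ε (fun _ w => ∫⁻ θ, (if LinkE Φ ε K Q w θ then 1 else 0) ∂ν) := by
  have hm : ∀ n, Measurable fun q : Config n × (Lab × LSt) =>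
      if BirthE Φ ε K Q.te q.1 q.2 then (1 : ℝ≥0∞) else 0 := fun n =>
    Measurable.ite (measurableSet_birthE hΦ hε Q.te n) measurable_const measurable_const
  rw [← gcE_add hf ε (fun n => (hm n).lintegral_prod_right')]
  refine Simul984.gcE_mono_ae f₀ ε fun n => ?_
  filter_upwards [Measure.ae_ae_of_ae_prod (ae_ok_e (K := K) hΦ hε ν n)] with w hw hwP
  have hmw : Measurable fun θ : Lab × LSt =>
      if BirthE Φ ε K Q.te w θ then (1 : ℝ≥0∞) else 0 := (hm n).comp measurable_prodMk_left
  rw [← lintegral_add_left (μ := ν) hmw]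
  refine lintegral_mono_ae ?_
  filter_upwards [hw] with θ hθ
  by_cases hb : OkL K θ ∧ OkW Φ ε w θ ∧ T1 Φ ε K Q w θ ∧ BMeet2 Φ ε K Q.te w θ ∧
      tC Φ ε Q.te w θ + slk ε < (MW.cfg w).thetaL Φ ε K Q.te (dL θ)
  · rw [if_pos hb]
    obtain ⟨hL, hW, hT, hB, ht'⟩ := hb
    have ht : tC Φ ε Q.te w θ < (MW.cfg w).thetaL Φ ε K Q.te (dL θ) :=
      lt_of_le_of_lt (le_add_of_nonneg_right (Real.sqrt_nonneg ε)) ht'
    rcases bad_cases hΦ hε hwP (TransOk151.ok_cfg hΦ hε hwP) hL hW (hθ hwP hL) hB ht with h | h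
    · have h1 : BirthE Φ ε K Q.te w θ := by
        refine ⟨hL, hW, ?_, h⟩
        obtain ⟨x, hx⟩ := mT2_attained hΦ hε hW.1 hW.2 hL.e0.le (T := Q.te) hB.1
        exact hx.2.1.trans hB.1
      simp only [if_pos h1]
      exact le_self_add
    · have h1 : LinkE Φ ε K Q w θ := ⟨hL, hW, hT, h⟩
      simp only [if_pos h1]
      exact le_add_self
  · rw [if_neg hb]
    exact zero_le

/-- **`NullFacts.bad`** from the birth and the link facts. -/
theorem bad_null (hΦ : AdmissiblePotential Φ) (hf : Measurable f₀)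
    {ν : ℕ → ℝ → Measure (Lab × LSt)} (hν : ∀ K ε, SFinite (ν K ε))
    (hB : Null fun K ε => gcE f₀ ε fun _ w =>
      ∫⁻ θ, (if BirthE Φ ε K Q.te w θ then 1 else 0) ∂(ν K ε))
    (hL : Null fun K ε => gcE f₀ ε fun _ w =>
      ∫⁻ θ, (if LinkE Φ ε K Q w θ then 1 else 0) ∂(ν K ε)) :
    Null fun K ε => BAD Φ f₀ ε K Q (ν K ε) := by
  intro K δ hδ
  obtain ⟨ε₁, h1, hB⟩ := hB K (δ / 2) (by linarith)
  obtain ⟨ε₂, h2, hL⟩ := hL K (δ / 2) (by linarith)
  refine ⟨min ε₁ ε₂, lt_min h1 h2, fun ε hε hlt => ?_⟩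
  have := hν K ε
  refine (bad_le hΦ hf hε (ν K ε)).trans ?_
  refine (add_le_add (hB ε hε (hlt.trans_le (min_le_left _ _)))
    (hL ε hε (hlt.trans_le (min_le_right _ _)))).trans ?_
  rw [← ENNReal.ofReal_add (by linarith) (by linarith), add_halves]

end

end Crest.Agent.R122.PairBad515
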