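import Crest.Agent.R122.LevGate_581
import Crest.Agent.R122.PairBadAsm_515
import Crest.Agent.R122.TouchFlux2_494

/-!
# Row 122, inequality 3, null facts of the pair laws (helper581): the link events over all levels

* `ItDet` : the deterministic input for an event over the law of the `j`-th continuation of a shape.
* `gNull_of_itDet` : the gateway.
* `linkE_null` : `LinkE` is null for `bindN (ν K ε) (K3 ..) j`, every `j`, from the deterministic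
  input over the shapes of `ν`.
-/

set_option autoImplicit false
set_option linter.unusedSectionVars false

open MeasureTheory Set Filter Topology
open scoped Classical ENNReal
open Crest.AnalysisR.Kinetic

noncomputable section

namespace Crest.Agent.R122.PairRep581

open Crest.Agent.R122.GC311 Crest.Agent.R122.Kin796 Crest.Agent.R122.Kin796.CTree
open Crest.Agent.R122.Tree674 Crest.Agent.R122.EDefs602
open Crest.Agent.R122.Gate424 Crest.Agent.R122.Gate973 Crest.Agent.R122.LN2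
open Crest.Agent.R122.BH167
open Crest.Agent.R122.TouchFlux494 (Near)
open Crest.Agent.R122.Boost969 (LSt)
open Crest.Agent.R122.Pair292 (Lab shP shL shM bindN)
open Crest.Agent.R122.PairD292
open Crest.Agent.R122.StrN998 (Th Ka itS)
open Crest.Agent.R122.PairBad515 (LinkE)

/-- **Deterministic input** for an event over the law of the `j`-th continuation of a shape, given
up to the null events `Ht` and the bad families `B`: a run (horizon `u`, marks `≤ K'`, length `L`)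
from the structure, a bad partition of gas particles and the structure of some level `k ≤ j`, a bad
hit. -/
def ItDet (f₀ : PhasePoint → ℝ) (S : Shp) (Φ : Space3 → ℝ) (b₀ te : ℝ) (q : ℕ → ℝ≥0∞) (T : ℝ)
    (j : ℕ) (u t₁ : ℝ) (K' : ℕ)
    (E : ℝ → (n : ℕ) → (itS S Φ b₀ te q j).Θ → Config n → Prop) : Prop :=
  ∀ L : ℕ, ∃ (B : ℝ → ℝ → ℝ → Unit → (n : ℕ) → (itS S Φ b₀ te q j).Θ → Config n → Prop)
    (Ht : ℝ → Unit → (n : ℕ) → (itS S Φ b₀ te q j).Θ → Config n → Prop)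
    (N : ℕ) (C C' R₁ T₁ : ℝ) (N' K₁ : ℕ) (A : Finset (itS S Φ b₀ te q j).κ), 0 ≤ T₁ ∧
    BadF f₀ (itS S Φ b₀ te q j).mI B ∧ GNull f₀ (itS S Φ b₀ te q j).mI Ht ∧
    ∀ R > 0, ∀ ς > 0, ∃ ε₁ : ℝ, 0 < ε₁ ∧ ∀ ε : ℝ, 0 < ε → ε < ε₁ → ∀ i n x (w : Config n),
      w ∈ PairExcluded ε n → E ε n x w →
      RunS Φ ε u K' L ((itS S Φ b₀ te q j).b ε x) ((itS S Φ b₀ te q j).z ε x) w ∨
      (BadLv S Φ b₀ te q T C R ς ε N w j x ∨ B R ς ε i n x w) ∨
      BadHitGasN (bpos Φ T₁ t₁) Φ T C' R₁ ε N' K₁ 1 A ((itS S Φ b₀ te q j).b ε x)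
        ((itS S Φ b₀ te q j).z ε x) w ∨ Ht ε i n x w

/-- Constants and hypotheses of the gateway over structure laws. -/
structure ItCtx (Φ : Space3 → ℝ) (f₀ : PhasePoint → ℝ) (γ β β' b₀ T : ℝ) (ρ : Space3 → ℝ≥0∞)
    (q : ℕ → ℝ≥0∞) : Prop where
  adm : AdmissiblePotential Φ
  cn : VLMeas973.ClassNull Φ T
  mf : Measurable f₀
  mass : ∫⁻ z, ENNReal.ofReal (f₀ z) ≤ 1
  env : ∃ C₀, Env f₀ γ ρ C₀
  γ0 : 0 < γ
  γb : γ ≤ b₀
  β'0 : 0 < β'
  ββ : β' < β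
  βb : β ≤ b₀
  hq : ∑' m, q m ≠ ∞
  T0 : 0 ≤ T

variable {Φ : Space3 → ℝ} {f₀ : PhasePoint → ℝ} {γ β β' b₀ T te te' : ℝ} {ρ : Space3 → ℝ≥0∞}
  {q : ℕ → ℝ≥0∞} {S : Shp}

/-- **The gateway**, packaged. -/
theorem gNull_of_itDet (H : ItCtx Φ f₀ γ β β' b₀ T ρ q) (h : ShpOk γ β ρ S) (hte : te' ≤ T)
    {R₂ : ℝ} (j : ℕ) {u t₁ : ℝ} {K' : ℕ}
    {E : ℝ → (n : ℕ) → (itS S Φ b₀ te q j).Θ → Config n → Prop}
    (hnear : ∀ ε n x (w : Config n), 0 < ε → w ∈ PairExcluded ε n → E ε n x w →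
      Near Φ ε R₂ te' w (dL ((itS S Φ b₀ te q j).th ε x)).1)
    (hdet : ItDet f₀ S Φ b₀ te q T j u t₁ K' E) :
    GNull f₀ (itS S Φ b₀ te q j).mI (fun ε _ => E ε) := by
  obtain ⟨C₀, he⟩ := H.env
  exact gNull_itS_of_det h he.meas H.adm H.cn H.mf H.mass he H.γ0 H.γb H.β'0 H.ββ H.βb H.hq H.T0
    hte j (fun ε _ n x w hε hw hE => hnear ε n x w hε hw hE) hdet

/-- **The link events over the law of the `j`-th continuation of a shape.** -/
theorem linkE_gNull (H : ItCtx Φ f₀ γ β β' b₀ T ρ q) (h : ShpOk γ β ρ S) {Q : EPar} {K : ℕ}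
    (hte0 : 0 ≤ Q.te) (hte : Q.te ≤ T) (j : ℕ) {u t₁ : ℝ} {K' : ℕ}
    (hdet : ItDet f₀ S Φ b₀ Q.te q T j u t₁ K'
      (fun ε _ x w => LinkE Φ ε K Q w ((itS S Φ b₀ Q.te q j).th ε x))) :
    GNull f₀ (itS S Φ b₀ Q.te q j).mI (fun ε _ _ x w =>
      LinkE Φ ε K Q w ((itS S Φ b₀ Q.te q j).th ε x)) :=
  gNull_of_itDet H h hte (R₂ := 1) j (fun _ _ _ _ hε hw hE =>
    TouchFlux494.near_of_T1 H.adm hε hte0 hw hE.1 hE.2.1 hE.2.2.1) hdet

/-- **The link events of all levels are null.** -/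
theorem linkE_null {ι : ℕ → Type} [∀ K, Fintype (ι K)] {ν : ℕ → ℝ → Measure (Lab × LSt)}
    {S : ∀ K, ι K → Shp} {Q : EPar} {q : ℕ → ℕ → ℝ≥0∞}
    (H : ∀ K, ItCtx Φ f₀ γ β β' b₀ T ρ (q K)) (hR : ∀ K, Rep (ν K) (S K))
    (hS : ∀ K s, ShpOk γ β ρ (S K s)) (hte0 : 0 ≤ Q.te) (hte : Q.te ≤ T) (j : ℕ) {u t₁ : ℝ}
    {K' : ℕ → ℕ}
    (hdet : ∀ K s, ItDet f₀ (S K s) Φ b₀ Q.te (q K) T j u t₁ (K' K)
      (fun ε _ x w => LinkE Φ ε K Q w ((itS (S K s) Φ b₀ Q.te (q K) j).th ε x))) :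
    Null fun K ε => gcE f₀ ε fun _ w =>
      ∫⁻ θ, (if LinkE Φ ε K Q w θ then 1 else 0) ∂(bindN (ν K ε) (K3 Φ ε b₀ Q.te (q K)) j) := by
  have hmf := (H 0).mf
  refine null_of_rep_E hmf (ι := ι)
    (ν := fun K ε => bindN (ν K ε) (K3 Φ ε b₀ Q.te (q K)) j)
    (S := fun K s => itS (S K s) Φ b₀ Q.te (q K) j)
    (fun K => StrN998.rep_itS_D (γ := fun _ => γ) (β := fun _ => β) (hR K) (hS K) (H K).adm
      (fun m => ENNReal.ne_top_of_tsum_ne_top (H K).hq m) j)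
    (E := fun K ε _ w θ => LinkE Φ ε K Q w θ) fun K s => ?_
  exact linkE_gNull (H K) (hS K s) hte0 hte j (hdet K s)

end Crest.Agent.R122.PairRep581

end
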