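import Crest.Agent.R122.LNS3_674
import Crest.Agent.R122.LNSE1_726
import Crest.Agent.R122.BHMainN_167

/-!
# Row 122, inequality 3 (helper726): the two lines of a pair structure are unlinked over the gas

* `noLink_pair` : off the bad events of the gateway the lines `d`, `e` of a pair structure (helper491)
  are unlinked in `cfg w`, `e` possibly reborn.
* `alt_of_link` : the alternatives, for a pair structure on the labels of the structure alone.
-/

set_option autoImplicit false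
set_option linter.unusedSectionVars false

open MeasureTheory Set Filter Topology
open scoped NNReal ENNReal
open Crest.AnalysisR.Kinetic
open Crest.Agent.R122.Flow671 hiding rel
open Crest.Agent.R122.Loc45 Crest.Agent.R122.Ins45 Crest.Agent.R122.EDefs602
open Crest.Agent.R122.VL581 Crest.Agent.R122.VL581.VSys
open Crest.Agent.R122.LN304 Crest.Agent.R122.LNg410 Crest.Agent.R122.LNEv968
open Crest.Agent.R122.PWGlue491 Crest.Agent.R122.PWInst442 Crest.Agent.R122.LNPart424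
open Crest.Agent.R122.MWFam255 Crest.Agent.R122.LNEv818 Crest.Agent.R122.StrG491
open Crest.Agent.R122.LNS674 Crest.Agent.R122.LNS968 Crest.Agent.R122.LNBridge968
open Crest.Agent.R122.LNEmb410
open scoped Classical

noncomputable section

namespace Crest.Agent.R122.LNSE726

variable {σ : Type} [Fintype σ] {n : ℕ} {Φ : Space3 → ℝ} {T te ε c ρ ς : ℝ} {b : σ → ℝ}
  {V : σ → PhasePoint} {w : Config n} {x y : σ} {d e : ML} {K m N₁ : ℕ} {T' Te T₁ : ℝ}

/-- **The lines of a pair structure are unlinked over the gas** off the bad events. -/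
theorem noLink_pair (hΦ : AdmissiblePotential Φ) (hε : 0 < ε) (hT0 : 0 ≤ T) (hte : te ≤ T)
    (hc : 1 ≤ c) (hρ : 2 * (ρ * ε) ≤ ς) (hT : T ≤ T') (hTe : T' ≤ Te) (hT₁ : Te < T₁)
    (hN₁ : (Fintype.card σ + 2 * K * (m + 2)) + (Fintype.card σ + 2 * K * (m + 2)) ≤ N₁)
    {cl : Fin n ⊕ σ → Finset (Fin n ⊕ σ)} {R : ℝ → Fin n ⊕ σ → Fin n ⊕ σ → Prop}
    {β : Fin n ⊕ σ → ℝ}
    (h : Pair (gsys Φ T ε n b) c (Sum.elim w V) R (pS n σ) cl β (Sum.inr x) (Sum.inr y) d.1 e.1)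
    (hw : w ∈ PairExcluded ε n)
    (hok : (MW.cfg w).Ok Φ ε) (hd : ((MW.cfg w).ins d).Ok Φ ε) (he : ((MW.cfg w).ins e).Ok Φ ε)
    (hN : e.1.1 = β (Sum.inr y) ∨
      (0 < e.1.1 ∧ ∀ i : Fin n, ε < dist (flow Φ ε e.1.1 w i).1 e.1.2.1))
    (hB : ¬ LN2.BadGas Φ T' c ρ ς ε N₁ 1 Finset.univ b V w)
    (hBH : ¬ BH167.BadHitGasN (BH167.bpos Φ T₁ Te) Φ T' c 1 ε N₁ N₁ 1 Finset.univ b V w)
    (hR : ¬ Gate424.RunS Φ ε T K m b V w) :
    MW.NoLink Φ ε K te (MW.cfg w) (MW.line d) (MW.line e) := by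
  have h1 := (one_of_pair hw h).pairNL (te := te) (exits_pair hΦ hε h hok hd he hN) hΦ hε hT0 hte hc
    hρ hT hTe hT₁ (A₀ := Finset.univ) ⟨x, Finset.mem_univ x⟩ hN₁ hB (fun h' => hBH h'.toN) hR
  exact h1 false true (by simp)

/-- **The alternatives of a link**, for a pair structure on the labels of the structure alone. -/
theorem alt_of_link (hΦ : AdmissiblePotential Φ) (hε : 0 < ε) (hT0 : 0 ≤ T) (hte : te ≤ T)
    (hc : 1 ≤ c) (hρ : 2 * (ρ * ε) ≤ ς) (hT : T ≤ T') (hTe : T' ≤ Te) (hT₁ : Te < T₁)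
    (hN₁ : (Fintype.card σ + 2 * K * (m + 2)) + (Fintype.card σ + 2 * K * (m + 2)) ≤ N₁)
    {cl : σ → Finset σ} {R : ℝ → σ → σ → Prop} {β : σ → ℝ}
    (h : Pair (VLMeas973.vsys Φ T ε b) c V R Finset.univ cl β x y d.1 e.1)
    (hw : w ∈ PairExcluded ε n)
    (hok : (MW.cfg w).Ok Φ ε) (hd : ((MW.cfg w).ins d).Ok Φ ε) (he : ((MW.cfg w).ins e).Ok Φ ε)
    (hN : e.1.1 = β y ∨ (0 < e.1.1 ∧ ∀ i : Fin n, ε < dist (flow Φ ε e.1.1 w i).1 e.1.2.1))
    (hlk : ¬ MW.NoLink Φ ε K te (MW.cfg w) (MW.line d) (MW.line e)) :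
    Gate424.RunS Φ ε T K m b V w ∨ LN2.BadGas Φ T' c ρ ς ε N₁ 1 Finset.univ b V w ∨
      BH167.BadHitGasN (BH167.bpos Φ T₁ Te) Φ T' c 1 ε N₁ N₁ 1 Finset.univ b V w := by
  by_contra hcon
  push Not at hcon
  exact hlk (noLink_pair hΦ hε hT0 hte hc hρ hT hTe hT₁ hN₁ (pair_up hΦ hε h) hw hok hd he hN
    hcon.2.1 hcon.2.2 hcon.1)

end Crest.Agent.R122.LNSE726

end
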