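import Crest.Agent.R122.OSCap_434
import Crest.Agent.R122.LinkAsm_984

/-!
# The capped gateway for a tree and an independent line (row 122): 692's alternatives, 984's slot

* `gNull_hitT'`, `gNull_hitL'` : bad hits of the tree / of the line, horizon `T₁` of the positions.
* `fNull_tl_of_alt` : one tree; `tsn_of_alt` : **the closed gateway** with 692's alternatives
  `SAlt`, `XAlt`, `JAlt` (structure labels `Idx P`).
* `osNull_of_tsn` : tree functionals as functionals of contact structures.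
* `osNull_of_alt` : the slot `hX` of helper984's `stmtLink4_of_parts` from the alternatives.
-/

set_option autoImplicit false
set_option linter.unusedSectionVars false

open MeasureTheory Set Filter Topology
open scoped ENNReal Classical
open Crest.AnalysisR.Kinetic
open Crest.Agent.R122.Kin796 Crest.Agent.R122.Kin796.CTree Crest.Agent.R122.Tree674
open Crest.Agent.R122.GC311 Crest.Agent.R122.EDefs602 Crest.Agent.R122.OneC285
open Crest.Agent.R122.LinkM547 Crest.Agent.R122.LN2 Crest.Agent.R122.InEq2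
open Crest.Agent.R122.Gate424 Crest.Agent.R122.Gate973 Crest.Agent.R122.OSMeas984
open Crest.Agent.R122.OneC423 Crest.Agent.R122.LinkAsm984 Crest.Agent.R122.GateOS434
open Crest.Agent.R122.X692 Crest.Agent.R122.TL311

noncomputable section

namespace Crest.Agent.R122.GateOS434

variable {Φ : Space3 → ℝ} {f₀ : PhasePoint → ℝ} {β T te g : ℝ} {γ : ℝ → ℝ} {ρ : ℝ≥0∞}

/-- Bad hits of the tree. -/
theorem gNull_hitT' (h : Ctx Φ f₀ β T te g γ ρ) (P : CTree) {T₁ : ℝ} (hT₁ : 0 ≤ T₁) (tb C R : ℝ)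
    (N N' : ℕ) : GNull f₀ (mT Φ f₀ T P) (fun ε _ _ z w =>
      BH167.BadHitGas (BH167.bpos Φ T₁ tb) Φ T C R ε N N' 1 Finset.univ
        (fun _ : Idx P => 0) (zT Φ ε P z) w) := by
  obtain ⟨r, C₀, he, heg⟩ := h.exists_env
  exact BH167.gNull_badPos (I := Unit) (m := mT Φ f₀ T P) h.adm h.T_nonneg tb hT₁ h.hf h.mass
    heg h.g_pos C R N N' (s := 1) (Fintype.card_pos_iff.2 ⟨root P⟩) Finset.univ
    (c := ENNReal.ofReal (Fintype.card (Idx P) + 1 / (2 * β - g)) * C₀ ^ Fintype.card (Idx P))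
    (ENNReal.mul_ne_top ENNReal.ofReal_ne_top (ENNReal.pow_ne_top he.fin))
    (Measure.dirac fun _ : Idx P => (0 : ℝ)) (b := fun _ _ _ _ => 0) (z := fun ε _ z => zT Φ ε P z)
    (sf_mT P) (fun ε _ hε => h.dom_T he hε P)

/-- Bad hits of the line. -/
theorem gNull_hitL' (h : Ctx Φ f₀ β T te g γ ρ) (Km : ℕ) {T₁ : ℝ} (hT₁ : 0 ≤ T₁) (tb C R : ℝ)
    (N N' : ℕ) : GNull f₀ (nL γ ρ Km te) (fun ε _ _ x w =>
      BH167.BadHitGasN (BH167.bpos Φ T₁ tb) Φ T C R ε N N' 1 (∅ : Finset Unit)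
        (fun _ => x.1.1) (fun _ => back x.1) w) := by
  obtain ⟨r, C₀, he, heg⟩ := h.exists_env
  exact BH167.gNull_badPosN (I := Unit) (m := nL γ ρ Km te) h.adm h.T_nonneg tb hT₁ h.hf h.mass
    heg h.g_pos C R N N' (s := 1) le_rfl ∅ (c := ∑' n : ℕ, markW ρ Km n)
    (sum_markW_ne_top h.mark Km) (lineΛ te) (b := fun _ _ x _ => x.1.1)
    (z := fun _ _ x _ => back x.1) sf_nL (fun ε _ _ => h.dom_L r Km ε)

/-- Runs at a horizon `t ≤ T` from the groups of the tree. -/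
theorem gLe_runT' (h : Ctx Φ f₀ β T te g γ ρ) (P : CTree) (K₂ : ℕ) {t : ℝ} (ht : t ≤ T)
    {δ : ℝ≥0∞} (hδ : 0 < δ) : ∃ L₀ : ℕ, ∀ L, L₀ ≤ L →
    GLe f₀ (mT Φ f₀ T P) (fun ε _ _ z w => RunS Φ ε t K₂ L (fun _ => 0) (zT Φ ε P z) w) δ := by
  obtain ⟨C₀, hC₀, hb⟩ := h.exists_bound
  obtain ⟨M, hM, hmom⟩ := h.exists_moment P
  exact gLe_runS (I := Unit) (m := mT Φ f₀ T P) h.adm (β := g / 2) (half_pos h.g_pos)
    h.T_nonneg hC₀ K₂ h.hf hb h.mass (t := fun _ => t) (fun _ => ht)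
    (b := fun _ _ _ _ => 0) (z := fun ε _ z => zT Φ ε P z) (fun _ _ _ => measurable_const)
    (fun ε _ _ => measurable_linesM h.adm ε P) hM hmom hδ

/-- Runs at a horizon `t ≤ T` from the line. -/
theorem gLe_runL' (h : Ctx Φ f₀ β T te g γ ρ) (Km K₂ : ℕ) {t : ℝ} (ht : t ≤ T) {δ : ℝ≥0∞}
    (hδ : 0 < δ) : ∃ L₀ : ℕ, ∀ L, L₀ ≤ L →
    GLe f₀ (nL γ ρ Km te) (fun ε _ _ x w => Run Φ ε t K₂ L (MW.line x) () w) δ := by
  have h1 : 2 * (g / 2) ≤ 2 * β := by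
    have := h.g_pos
    have := h.g_le
    linarith
  obtain ⟨env, A, hA, hE⟩ := exists_envB h1 h.gauss
  exact gLe_runX (I := Unit) h.adm (half_pos h.g_pos) (half_lt_self h.g_pos) h.te_le h.T_nonneg hA
    K₂ h.hf h.mass hE h.meas h.rate h.mark Km (t := fun _ => t) (fun _ => ht) hδ

/-- **The capped gateway for a tree and an independent line**, one tree. -/
theorem fNull_tl_of_alt (h : Ctx Φ f₀ β T te g γ ρ) (hT : 0 < T) (P : CTree) (Km K₂ : ℕ)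
    {t T₁ : ℝ} (ht : t ≤ T) (hT₁ : 0 ≤ T₁)
    {E : ℝ → (n : ℕ) → PhasePoint × Par P → ML → Config n → Prop}
    {HS : ℕ → ℝ → (n : ℕ) → PhasePoint × Par P → Config n → Prop}
    {HX : ℕ → ℝ → (n : ℕ) → ML → Config n → Prop}
    {HJ : ℕ → ℝ → (n : ℕ) → (PhasePoint × Par P) × ML → Config n → Prop}
    (hdet : ∀ L : ℕ, ∃ (N : ℕ) (C : ℝ), ∀ R > 0, ∀ ς > 0, ∃ ε₁ : ℝ, 0 < ε₁ ∧ ∀ ε : ℝ, 0 < ε →
      ε < ε₁ → ∀ n z x (w : Config n), w ∈ PairExcluded ε n → E ε n z x w →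
        (SAlt Φ T T₁ t C R ς ε K₂ L N Finset.univ (fun _ => 0) (zT Φ ε P z) w ∨
          HS L ε n z w) ∨
        (XAlt Φ T T₁ t C R ς ε K₂ L N x w ∨ HX L ε n x w) ∨
        (JAlt Φ T C R ς ε N Finset.univ (fun _ => 0) (zT Φ ε P z) x w ∨ HJ L ε n (z, x) w))
    (hHS : ∀ L, GNull (I := Unit) f₀ (mT Φ f₀ T P) (fun ε _ n z w => HS L ε n z w))
    (hHX : ∀ L, GNull (I := Unit) f₀ (nL γ ρ Km te) (fun ε _ n x w => HX L ε n x w))
    (hHJ : ∀ L, GNull (I := Unit) f₀ (fun ε i => (mT Φ f₀ T P ε i).prod (nL γ ρ Km te ε i))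
      (fun ε _ n p w => HJ L ε n p w)) :
    FNull f₀ (mT Φ f₀ T P) (fun ε _ n z w => min 1 (lineM γ ρ Km te {x | E ε n z x w})) := by
  obtain ⟨M, hM, hmass⟩ := h.exists_mass P
  have hCN := classNull h.adm hT
  refine fNull_cap_of_det (I := Unit) (m := mT Φ f₀ T P) (ν := nL γ ρ Km te)
    (E := fun ε _ n z x w => E ε n z x w)
    (RS := fun L ε _ _ z w => RunS Φ ε t K₂ L (fun _ => 0) (zT Φ ε P z) w)
    (HS := fun L ε _ n z w => HS L ε n z w)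
    (RX := fun L ε _ _ x w => Run Φ ε t K₂ L (MW.line x) () w)
    (HX := fun L ε _ n x w => HX L ε n x w) (HJ := fun L ε _ n p w => HJ L ε n p w) h.hf (sf_mT P)
    sf_nL hM hmass (fun L => ?_) (fun δ hδ => gLe_runT' h P K₂ ht hδ)
    (fun δ hδ => gLe_runL' h Km K₂ ht hδ) hHS hHX hHJ
  obtain ⟨N, C, hd⟩ := hdet L
  refine ⟨_, _, _, (h.badF_T hCN P C N).or h.hf (BadF.of_gNull (gNull_hitT' h P hT₁ T C 1 N N)),
    (h.badF_L hCN Km C N).or h.hf (BadF.of_gNull (gNull_hitL' h Km hT₁ T C 1 N N)),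
    h.badF_J hCN P Km C N, fun R hR ς hς => ?_⟩
  obtain ⟨ε₁, h0, hd⟩ := hd R hR ς hς
  refine ⟨ε₁, h0, fun ε hε hlt _ n z x w hw hE => ?_⟩
  rcases hd ε hε hlt n z x w hw hE with (h' | h') | (h' | h') | (h' | h')
  · rcases h' with h' | h' | h'
    · exact Or.inl (Or.inl h')
    · exact Or.inl (Or.inr (Or.inl (Or.inl h')))
    · exact Or.inl (Or.inr (Or.inl (Or.inr h')))
  · exact Or.inl (Or.inr (Or.inr h'))
  · rcases h' with h' | h' | h'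
    · exact Or.inr (Or.inl (Or.inl h'))
    · exact Or.inr (Or.inl (Or.inr (Or.inl (Or.inl h'))))
    · exact Or.inr (Or.inl (Or.inr (Or.inl (Or.inr h'))))
  · exact Or.inr (Or.inl (Or.inr (Or.inr h')))
  · unfold JAlt at h'
    rw [← Finset.disjSum_empty] at h'
    exact Or.inr (Or.inr (Or.inl h'))
  · exact Or.inr (Or.inr (Or.inr h'))

/-- **The closed gateway for trees and an independent line**, 692's alternatives. The law of the
trees has horizon `T`, the events have horizon `t ≤ T`. -/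
theorem tsn_of_alt (h : Ctx Φ f₀ β T te g γ ρ) (hT : 0 < T) (K Km K₂ : ℕ)
    {t T₁ : ℝ} (ht : t ≤ T) (hT₁ : 0 ≤ T₁)
    {lk : ℝ → (P : CTree) → PhasePoint × Par P → (m : ℕ) → Config m → Set ML}
    {HS : ℕ → ℝ → (P : CTree) → PhasePoint × Par P → (m : ℕ) → Config m → Prop}
    {HX : ℕ → ℝ → (m : ℕ) → ML → Config m → Prop}
    {HJ : ℕ → ℝ → (P : CTree) → PhasePoint × Par P → (m : ℕ) → Config m → ML → Prop}
    (hdet : ∀ P : CTree, P.leaves ≤ K → ∀ L : ℕ, ∃ (N : ℕ) (C : ℝ), ∀ R > 0, ∀ ς > 0,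
      ∃ ε₁ : ℝ, 0 < ε₁ ∧ ∀ ε : ℝ, 0 < ε → ε < ε₁ → ∀ (z : PhasePoint × Par P) (m : ℕ)
        (w : Config m) (x : ML), w ∈ PairExcluded ε m → Valid Φ ε P T z.1.2 z.2 →
        Sep Φ ε P T z.1 z.2 → InEq2T.PerpT Φ ε P z w → x ∈ lk ε P z m w →
        (SAlt Φ T T₁ t C R ς ε K₂ L N Finset.univ (fun _ => 0) (linesM Φ ε P z.1 z.2) w ∨
          HS L ε P z m w) ∨
        (XAlt Φ T T₁ t C R ς ε K₂ L N x w ∨ HX L ε m x w) ∨
        (JAlt Φ T C R ς ε N Finset.univ (fun _ => 0) (linesM Φ ε P z.1 z.2) x w ∨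
          HJ L ε P z m w x))
    (hHS : ∀ L, ∀ P : CTree, P.leaves ≤ K → GNull (I := Unit) f₀ (mT Φ f₀ T P)
      (fun ε _ n z w => Valid Φ ε P T z.1.2 z.2 ∧ Sep Φ ε P T z.1 z.2 ∧
        InEq2T.PerpT Φ ε P z w ∧ HS L ε P z n w))
    (hHX : ∀ L, GNull (I := Unit) f₀ (nL γ ρ Km te) (fun ε _ n x w => HX L ε n x w))
    (hHJ : ∀ L, ∀ P : CTree, P.leaves ≤ K → GNull (I := Unit) f₀
      (fun ε i => (mT Φ f₀ T P ε i).prod (nL γ ρ Km te ε i))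
      (fun ε _ n p w => Valid Φ ε P T p.1.1.2 p.1.2 ∧ Sep Φ ε P T p.1.1 p.1.2 ∧
        InEq2T.PerpT Φ ε P p.1 w ∧ HJ L ε P p.1 n w p.2)) :
    TSN Φ f₀ T K (fun ε P z m w => if Valid Φ ε P T z.1.2 z.2 ∧ Sep Φ ε P T z.1 z.2 ∧
      InEq2T.PerpT Φ ε P z w then min 1 (lineM γ ρ Km te (lk ε P z m w)) else 0) := by
  refine tsn_of_fNull h.adm h.hf fun P hP => ?_
  have h1 := fNull_tl_of_alt h hT P Km K₂ ht hT₁
    (E := fun ε n z x w => Valid Φ ε P T z.1.2 z.2 ∧ Sep Φ ε P T z.1 z.2 ∧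
      InEq2T.PerpT Φ ε P z w ∧ x ∈ lk ε P z n w)
    (HS := fun L ε n z w => Valid Φ ε P T z.1.2 z.2 ∧ Sep Φ ε P T z.1 z.2 ∧
      InEq2T.PerpT Φ ε P z w ∧ HS L ε P z n w)
    (HX := fun L ε n x w => HX L ε n x w)
    (HJ := fun L ε n p w => Valid Φ ε P T p.1.1.2 p.1.2 ∧ Sep Φ ε P T p.1.1 p.1.2 ∧
      InEq2T.PerpT Φ ε P p.1 w ∧ HJ L ε P p.1 n w p.2)
    (fun L => ?_) (fun L => hHS L P hP) hHX (fun L => hHJ L P hP)
  · refine h1.mono ⟨1, one_pos, fun ε _ _ i n z w _ => ?_⟩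
    show (if Valid Φ ε P T z.1.2 z.2 ∧ Sep Φ ε P T z.1 z.2 ∧ InEq2T.PerpT Φ ε P z w then
      min 1 (lineM γ ρ Km te (lk ε P z n w)) else 0) ≤ _
    split_ifs with hc
    · refine min_le_min le_rfl (measure_mono fun x hx => ?_)
      exact ⟨hc.1, hc.2.1, hc.2.2, hx⟩
    · exact bot_le
  · obtain ⟨N, C, hd⟩ := hdet P hP L
    refine ⟨N, C, fun R hR ς hς => ?_⟩
    obtain ⟨ε₁, h0, hd⟩ := hd R hR ς hς
    refine ⟨ε₁, h0, fun ε hε hlt n z x w hw hE => ?_⟩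
    rcases hd ε hε hlt z n w x hw hE.1 hE.2.1 hE.2.2.1 hE.2.2.2 with (h' | h') | h' | (h' | h')
    · exact Or.inl (Or.inl h')
    · exact Or.inl (Or.inr ⟨hE.1, hE.2.1, hE.2.2.1, h'⟩)
    · exact Or.inr (Or.inl h')
    · exact Or.inr (Or.inr (Or.inl h'))
    · exact Or.inr (Or.inr (Or.inr ⟨hE.1, hE.2.1, hE.2.2.1, h'⟩))

/-! ### Functionals of contact structures -/

section os

variable {Q : EPar} {T' : ℝ} {K : ℕ}

/-- Leaves and gas are mutually excluded. -/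
theorem perpT_of_real4 {ε : ℝ} {P : CTree} {z : PhasePoint × Par P} {m : ℕ} {w : Config m}
    {l : ML} {te T' : ℝ} (h : Real4 Φ ε K te T' P z w l) : InEq2T.PerpT Φ ε P z w := by
  intro x i
  have h1 := h.perp (Relabel674.eP P x) i
  rw [linesM_of_adm ε h.valid.1]
  have h2 : cfT Φ ε P z (Relabel674.eP P x) = lines Φ ε P z.1 z.2 x := by
    unfold cfT Relabel674.confOf
    rw [Equiv.symm_apply_apply]
  rwa [h2] at h1

/-- **Null tree functionals are null for contact structures.** -/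
theorem osNull_of_tsn (hΦ : AdmissiblePotential Φ) (hf : Measurable f₀)
    (hγm : Measurable Q.γ) (hρ : Q.ρ ≠ ∞) {g : ℝ} (hg0 : 0 < g)
    (hg : ∀ τ ∈ Ioc 0 Q.te, g ≤ Q.γ τ)
    {F : ℝ → (P : CTree) → PhasePoint × Par P → (m : ℕ) → Config m → ℝ≥0∞}
    (h : TSN Φ f₀ T' K F) : OSNull Φ f₀ K Q T' (fun ε P z m w _ => F ε P z m w) := by
  intro δ hδ
  obtain ⟨δ', hδ', hmul⟩ := exists_mul_le (c := cOS Q K g * 2)
    (ENNReal.mul_ne_top (cOS_ne_top hρ hg0) (by norm_num)) hδ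
  obtain ⟨ε₀, h0, h1⟩ := h (ENNReal.ofReal δ') (ENNReal.ofReal_pos.2 hδ')
  have h2 := osLe_of_TS (Φ := Φ) (f₀ := f₀) (Q := Q) (T' := T') hΦ hf K hγm hρ hg
    (c := ENNReal.ofReal δ') (F := F)
    ⟨ε₀, h0, fun ε hε hlt => by
      obtain ⟨G, hG, hGF, hGi⟩ := h1 ε hε hlt
      exact ⟨G, hG, fun P z m w hP _ _ hw => hGF P z m w hP hw, hGi⟩⟩
  refine h2.mono ?_ ⟨1, one_pos, fun _ _ _ _ _ _ _ _ _ => le_rfl⟩
  rw [← mul_assoc]
  exact hmul _ le_rfl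

/-- The guard of the tree functionals holds on `Gd4`. -/
theorem osNull_of_tsn_guard (hΦ : AdmissiblePotential Φ) (hf : Measurable f₀)
    (hγm : Measurable Q.γ) (hρ : Q.ρ ≠ ∞) {g : ℝ} (hg0 : 0 < g)
    (hg : ∀ τ ∈ Ioc 0 Q.te, g ≤ Q.γ τ)
    {F : ℝ → (P : CTree) → PhasePoint × Par P → (m : ℕ) → Config m → ℝ≥0∞}
    (h : TSN Φ f₀ T' K (fun ε P z m w => if Valid Φ ε P T' z.1.2 z.2 ∧
      Sep Φ ε P T' z.1 z.2 ∧ InEq2T.PerpT Φ ε P z w then F ε P z m w else 0)) :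
    OSNull Φ f₀ K Q T' (fun ε P z m w _ => F ε P z m w) := by
  refine (osNull_of_tsn hΦ hf hγm hρ hg0 hg h).congr fun ε _ P z m w l hG => ?_
  show F ε P z m w ≤ if Valid Φ ε P T' z.1.2 z.2 ∧ Sep Φ ε P T' z.1 z.2 ∧
    InEq2T.PerpT Φ ε P z w then F ε P z m w else 0
  rw [if_pos ⟨hG.real.valid, hG.real.sep, perpT_of_real4 hG.real⟩]

end os

end Crest.Agent.R122.GateOS434

end
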