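import Crest.Agent.R122.LinkFin_984
import Crest.Agent.R122.LinkE4b_302
import Crest.Agent.R122.LnNClose_291
import Crest.Agent.R122.XSlot_434
import Crest.Agent.R122.BirthT_255

/-!
# `StmtLink4` (row 122, board H1): closure

* `slotLk` : the link events (helper302).
* `XdDet` : the deterministic theorem for `XbadD` (helper692); `tsn_xbadD`, `slotX`.
* `slots4`, `link4In` : `Slots4` and `Link4In` from `KData`.
-/

set_option autoImplicit false
set_option linter.unusedSectionVars false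

open MeasureTheory Set Filter Topology
open scoped ENNReal
open Crest.AnalysisR.Kinetic
open Crest.Agent.R122.Kin796 Crest.Agent.R122.Kin796.CTree Crest.Agent.R122.Tree674
open Crest.Agent.R122.GC311 Crest.Agent.R122.EDefs602 Crest.Agent.R122.OneC285
open Crest.Agent.R122.Third741 Crest.Agent.R122.Master566 Crest.Agent.R122.Top602
open Crest.Agent.R122.Ineq1815 Crest.Agent.R122.InEq2 Crest.Agent.R122.TL311
open Crest.Agent.R122.Gate424 Crest.Agent.R122.Gate973 Crest.Agent.R122.X692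
open Crest.Agent.R122.TreeLines335

noncomputable section

open scoped Classical

namespace Crest.Agent.R122.LinkAsm984

variable {Φ : Space3 → ℝ} {f₀ : PhasePoint → ℝ} {f : ℝ → PhasePoint → ℝ} {β T : ℝ}
  {K : ℕ} {Q : EPar} {T' g0 : ℝ}

/-- **The slot of the link events.** -/
theorem slotLk (hD : KData Φ β T f₀ f) (hQ : QOk Q g0) (hte : 0 ≤ Q.te) (hlt : Q.te < T') (K : ℕ)
    {R : ℝ} (hR : 0 ≤ R) :
    OSNull Φ f₀ K Q T' fun ε P z _ w l => if LinkE4 Φ ε R K Q.te P z w l then 1 else 0 := by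
  obtain ⟨A, C, hF⟩ := exists_fOk hD
  exact LinkE302.osNull_linkE4 ⟨hD.adm, hF, hQ, hD.gaussian, hte⟩ hlt K hR

/-- Input: the deterministic theorem for `XbadD`. -/
def XdDet (Φ : Space3 → ℝ) : Prop :=
  ∀ T : ℝ, 0 < T → ∀ K L : ℕ, ∃ N : ℕ,
    ∀ R ς ε te : ℝ, 0 ≤ R → 0 < ε → 2 * (R * ε) ≤ ς → te ≤ T →
      ∀ (P : CTree) (z : PhasePoint × Par P) (n : ℕ) (w : Config n) (x : ML),
        P.leaves ≤ K → Valid Φ ε P T z.1.2 z.2 → Sep Φ ε P T z.1 z.2 → w ∈ PairExcluded ε n →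
        InEq2T.PerpT Φ ε P z w → 0 ≤ x.1.1 → OkX Φ ε P z w x →
        x ∈ XbadD Φ ε K te P z w →
        SAlt Φ T (T + 1) T 1 R ς ε K L N Finset.univ (fun _ => 0)
            (Tree674.lines Φ ε P z.1 z.2) w ∨
          LNOS515.BT Φ ε te z w ∨
          XAlt Φ T (T + 1) T 1 R ς ε K L N x w ∨
          JAlt Φ T 1 R ς ε N Finset.univ (fun _ => 0) (Tree674.lines Φ ε P z.1 z.2) x w

/-- The exceptional test lines, base worlds `w + d`. -/
theorem tsn_xbadD (hD : KData Φ β T f₀ f) (hd : XdDet Φ) {te g : ℝ} {γ : ℝ → ℝ} {ρ : ℝ≥0∞}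
    (h : Ctx Φ f₀ β T' te g γ ρ) (hT : 0 < T') (K : ℕ) :
    TSN Φ f₀ T' K (fun ε P z _ w => if Valid Φ ε P T' z.1.2 z.2 ∧ Sep Φ ε P T' z.1 z.2 ∧
      InEq2T.PerpT Φ ε P z w then
        min 1 (EDefs602.lineM γ ρ K te (XbadD Φ ε K te P z w)) else 0) := by
  refine GateOS434.tsn_of_alt h hT K K K (t := T') (T₁ := T' + 1) le_rfl (by linarith)
    (lk := fun ε P z _ w => XbadD Φ ε K te P z w)
    (HS := fun _ ε _ z _ w => LNOS515.BT Φ ε te z w) (HX := fun _ _ _ _ _ => False)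
    (HJ := fun _ ε P z _ w x => NOkX Φ T' te ε P (z, x) w)
    (fun P hP L => ?_) (fun _ P hP => ?_)
    (fun _ => fun δ _ => (GLe.zero f₀ _).mono bot_le ⟨1, one_pos, fun _ _ _ _ _ _ _ _ h => h⟩)
    (fun _ P _ => ?_)
  · obtain ⟨N, hN⟩ := hd T' hT K L
    refine ⟨N, 1, fun R hR ς hς => ⟨ς / (2 * R), by positivity, fun ε hε hlt z m w x hw hV hS hPe
      hx => ?_⟩⟩
    have hV' : Valid Φ ε P T' z.1.2 z.2 := hV
    have h2 : 2 * (R * ε) ≤ ς := by
      have h3 := (lt_div_iff₀ (by positivity : 0 < 2 * R)).1 hlt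
      linarith
    by_cases hNo : NOkX Φ T' te ε P (z, x) w
    · exact Or.inr (Or.inr (Or.inr hNo))
    have h3 : x.1.1 ∈ Ioc 0 te ∧ OkX Φ ε P z w x := by
      by_contra hcon
      refine hNo ⟨hV, hS, hPe, ?_⟩
      by_cases h4 : x.1.1 ∈ Ioc 0 te
      · by_cases h5 : MW.OkFam Φ ε (MW.cfg w) (E6Hyp879.withD (lineML Φ ε P z) x)
        · exact Or.inr (Or.inr fun h6 => hcon ⟨h4, h5, h6⟩)
        · exact Or.inr (Or.inl h5)
      · exact Or.inl h4
    have hl : Tree674.linesM Φ ε P z.1 z.2 = Tree674.lines Φ ε P z.1 z.2 :=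
      linesM_of_adm ε hV'.1
    rw [hl]
    rcases hN R ς ε te hR.le hε h2 h.te_le P z m w x hP hV hS hw hPe h3.1.1.le h3.2 hx with
      h4 | h4 | h4 | h4
    · exact Or.inl (Or.inl h4)
    · exact Or.inl (Or.inr h4)
    · exact Or.inr (Or.inl (Or.inl h4))
    · exact Or.inr (Or.inr (Or.inl h4))
  · refine (BirthT255.gNull_bt h.adm h.hf (by linarith [hD.beta_pos] : 0 < 2 * β) hD.gaussian
      h.mass 1 P T').mono' ?_
    rintro ε - n z w ⟨hV, -, -, i, hi⟩
    exact ⟨hV, i, hi.2⟩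
  · refine (gNull_okX h.hf (LnN291.okXae h.adm hT.le te) P).mono' ?_
    rintro ε - n q w ⟨-, -, -, hN⟩
    exact hN

/-- **The slot of the exceptional test lines.** -/
theorem slotX_of (hD : KData Φ β T f₀ f) (hd : XdDet Φ) (hQ : QOk Q g0) (hte : 0 ≤ Q.te)
    (hlt : Q.te < T') (K : ℕ) :
    OSNull Φ f₀ K Q T' fun ε P z _ w _ =>
      min 1 (EDefs602.lineM Q.γ Q.ρ K Q.te (Xbad4 Φ ε K Q.te P z w)) := by
  have hT : 0 < T' := hte.trans_lt hlt
  have h := ctx_of hD hQ hte hlt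
  have hβ : 0 < 2 * β := by linarith [hD.beta_pos]
  have h1 := TL311.tsn_lkX (K := K) h (LnN291.okXae hD.adm hT.le Q.te)
    (LnN291.tlDet hD.adm hT hlt.le)
    (LNRoot291.tNull_goodT hD.adm hβ hD.contDiff.continuous hD.gaussian h.mass hT hlt.le
      (LNTree399.ratR hD.adm K K))
  refine slotX_of_tsn hD.adm h.hf hQ ((TSN.add h.adm h.hf h1 (tsn_xbadD hD hd h hT K)).mono
    ⟨1, one_pos, fun ε _ _ P z m w _ _ => ?_⟩)
  split_ifs with hc
  · refine (min_le_min le_rfl (measure_union_le _ _)).trans ?_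
    exact NbadR263.min_one_add_le _ _
  · exact bot_le

/-- **`Slots4`**, from the deterministic theorem for `XbadD`. -/
theorem slots4_of_xd (hD : KData Φ β T f₀ f) (hd : XdDet Φ) : Slots4 Φ f₀ :=
  slots4_of hD (fun _ _ _ K _ hQ hte hlt hR => slotLk hD hQ hte hlt K hR)
    fun _ _ _ K hQ hte hlt => slotX_of hD hd hQ hte hlt K

/-- **`StmtLink4` in the windows**, from the deterministic theorem for `XbadD`. -/
theorem link4In_of_xd (hD : KData Φ β T f₀ f) (hd : XdDet Φ) : Link4In Φ f₀ f T :=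
  link4In_of hD (slots4_of_xd hD hd)

end Crest.Agent.R122.LinkAsm984

end
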