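import Crest.Agent.R122.UnwJ_410
import Crest.Agent.R122.FluxI_263

/-!
# Measure of the marked lines which meet the gas, second moments (row 122, item H16, part 2)

* `hitL w T` : lines born in `(0, T]` which come within `ε` of a particle of the gas `w` before `T`;
* `lineM_hit_le` : its measure is at most `cX * Yf w`, `Yf w = ε² totE w`;
* `gcE_Y_le`, `gcE_Y_sq_le` : first and second moment of `Yf`;
* `ui_tail` : uniform integrability.
-/

set_option autoImplicit false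
set_option linter.unusedSectionVars false

open MeasureTheory Set Filter Topology
open scoped ENNReal
open Crest.AnalysisR.Kinetic
open Crest.Agent.R122.Flow671 Crest.Agent.R122.Loc45 Crest.Agent.R122.Causal291
open Crest.Agent.R122.Inf879 Crest.Agent.R122.GC311 Crest.Agent.R122.Master566
open Crest.Agent.R122.Energy410 Crest.Agent.R122.EDefs602 Crest.Agent.R122.EW370

namespace Crest.Agent.R122.Unw410

noncomputable section

variable {Φ : Space3 → ℝ} {f₀ : PhasePoint → ℝ} {ε : ℝ} {K : ℕ}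

/-! ## The set of lines meeting the gas -/

theorem isClosed_exists_Icc {Ω : Type*} [TopologicalSpace Ω] {F : Set (Ω × ℝ)} (hF : IsClosed F)
    (a b : ℝ) : IsClosed {ω | ∃ s ∈ Icc a b, (ω, s) ∈ F} := by
  have h1 : IsClosed {p : Ω × Icc a b | (p.1, (p.2 : ℝ)) ∈ F} :=
    hF.preimage (continuous_fst.prodMk (continuous_subtype_val.comp continuous_snd))
  have h2 := isClosedMap_fst_of_compactSpace _ h1
  have h3 : {ω | ∃ s ∈ Icc a b, (ω, s) ∈ F} =
      Prod.fst '' {p : Ω × Icc a b | (p.1, (p.2 : ℝ)) ∈ F} := by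
    ext ω
    simp only [mem_ofPred_eq, mem_image, Prod.exists, Subtype.exists]
    constructor
    · rintro ⟨s, hs, h⟩
      exact ⟨ω, s, hs, h, rfl⟩
    · rintro ⟨ω', s, hs, h, rfl⟩
      exact ⟨s, hs, h⟩
  rw [h3]
  exact h2

/-- Lines which come within `ε` of a particle of the gas between their birth and `T`. -/
def hitS (Φ : Space3 → ℝ) (ε : ℝ) {n : ℕ} (w : Config n) (T : ℝ) : Set (ℝ × PhasePoint) :=
  {l | ∃ s ∈ Icc (0 : ℝ) T, l.1 ≤ s ∧ ∃ i, dist (l.2.1 + (s - l.1) • l.2.2) (flow Φ ε s w i).1 ≤ ε}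

theorem isClosed_hitS (hΦ : AdmissiblePotential Φ) (hε : 0 < ε) {n : ℕ} (w : Config n) (T : ℝ) :
    IsClosed (hitS Φ ε w T) := by
  have hcont : Continuous fun s => flow Φ ε s w := flow_continuous_time hΦ hε w
  have h1 : IsClosed {p : (ℝ × PhasePoint) × ℝ | p.1.1 ≤ p.2 ∧
      ∃ i, dist (p.1.2.1 + (p.2 - p.1.1) • p.1.2.2) (flow Φ ε p.2 w i).1 ≤ ε} := by
    have h2 : {p : (ℝ × PhasePoint) × ℝ | p.1.1 ≤ p.2 ∧
        ∃ i, dist (p.1.2.1 + (p.2 - p.1.1) • p.1.2.2) (flow Φ ε p.2 w i).1 ≤ ε} =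
        {p | p.1.1 ≤ p.2} ∩ ⋃ i, {p | dist (p.1.2.1 + (p.2 - p.1.1) • p.1.2.2)
          (flow Φ ε p.2 w i).1 ≤ ε} := by
      ext p
      simp only [mem_ofPred_eq, mem_inter_iff, mem_iUnion]
    rw [h2]
    refine (isClosed_le (by fun_prop) (by fun_prop)).inter (isClosed_iUnion_of_finite fun i => ?_)
    refine isClosed_le (Continuous.dist (by fun_prop) ?_) continuous_const
    exact (((continuous_apply i).comp hcont).comp continuous_snd).fst
  exact isClosed_exists_Icc h1 0 T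

/-- The marked version. -/
def hitL (Φ : Space3 → ℝ) (ε : ℝ) {n : ℕ} (w : Config n) (T : ℝ) : Set ML :=
  {l | l.1 ∈ hitS Φ ε w T}

theorem measurableSet_hitL (hΦ : AdmissiblePotential Φ) (hε : 0 < ε) {n : ℕ} (w : Config n)
    (T : ℝ) : MeasurableSet (hitL Φ ε w T) :=
  measurable_fst (isClosed_hitS hΦ hε w T).measurableSet

theorem volume_hitS_le (hΦ : AdmissiblePotential Φ) (hε : 0 < ε) (hε1 : ε ≤ 1) {n : ℕ}
    {w : Config n} (hw : w ∈ PairExcluded ε n) {T τ : ℝ} (hτ : 0 < τ) (hτT : τ ≤ T) (γ : ℝ) :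
    ∫⁻ v : Space3, Kin796.wG γ v * volume {y : Space3 | (τ, (y, v)) ∈ hitS Φ ε w T} ≤
      8 * ENNReal.ofReal ε ^ 2 * Sweep815.c3 *
        (∫⁻ v : Space3, Kin796.wG γ v * (1 + ENNReal.ofReal ‖v‖)) *
        (ENNReal.ofReal (1 + T) * ENNReal.ofReal (totE Φ w)) := by
  have hZ : w ∈ Dom Φ (Fin n) := Dom_of_far hε (far_of_mem hw)
  have hB := stabB_nonneg Φ
  have h1 := FluxI263.flux_flow hΦ hε hZ (s0 := τ) (a := τ) (b := T) hε hτT
    (S := fun _ => Finset.univ) (fun _ _ _ _ _ => Finset.Subset.refl _) (Kin796.meas_wG γ)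
  have h2 : ∀ v : Space3, {y : Space3 | (τ, (y, v)) ∈ hitS Φ ε w T} ⊆
      {x : Space3 | ∃ s ∈ Icc τ T, ∃ i ∈ (Finset.univ : Finset (Fin n)),
        dist (x + (s - τ) • v) (flow Φ ε s w i).1 ≤ ε} := by
    rintro v y ⟨s, hs, hτs, i, hi⟩
    exact ⟨s, ⟨hτs, hs.2⟩, i, Finset.mem_univ i, hi⟩
  have h3 : ∀ u ∈ Icc τ T, ∑ i : Fin n, (1 + ENNReal.ofReal ‖(flow Φ ε u w i).2‖) ≤
      ENNReal.ofReal (totE Φ w) := by
    intro u hu
    have h4 := total_speed_le hΦ hε (far_of_mem hw) (hτ.le.trans hu.1)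
    calc ∑ i : Fin n, (1 + ENNReal.ofReal ‖(flow Φ ε u w i).2‖)
        = ∑ i : Fin n, ENNReal.ofReal (1 + ‖(flow Φ ε u w i).2‖) := by
          refine Finset.sum_congr rfl fun i _ => ?_
          rw [ENNReal.ofReal_add zero_le_one (norm_nonneg _), ENNReal.ofReal_one]
      _ = ENNReal.ofReal (∑ i : Fin n, (1 + ‖(flow Φ ε u w i).2‖)) := by
          rw [ENNReal.ofReal_sum_of_nonneg fun i _ => by positivity]
      _ ≤ _ := ENNReal.ofReal_le_ofReal h4
  have h5 : ENNReal.ofReal ε * ((Finset.univ : Finset (Fin n)).card : ℝ≥0∞) ≤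
      ENNReal.ofReal (totE Φ w) := by
    have h6 : (n : ℝ) ≤ totE Φ w := by
      unfold totE
      calc (n : ℝ) = ∑ _i : Fin n, (1 : ℝ) := by simp
        _ ≤ _ := Finset.sum_le_sum fun i _ => by nlinarith [sq_nonneg ‖(w i).2‖]
    rw [Finset.card_univ, Fintype.card_fin, ← ENNReal.ofReal_natCast, ← ENNReal.ofReal_mul hε.le]
    refine ENNReal.ofReal_le_ofReal ?_
    have : ε * (n : ℝ) ≤ 1 * (n : ℝ) := mul_le_mul_of_nonneg_right hε1 (Nat.cast_nonneg n)
    linarith
  have hT : 0 ≤ T := hτ.le.trans hτT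
  calc ∫⁻ v : Space3, Kin796.wG γ v * volume {y : Space3 | (τ, (y, v)) ∈ hitS Φ ε w T}
      ≤ ∫⁻ v : Space3, Kin796.wG γ v * volume {x : Space3 | ∃ s ∈ Icc τ T,
          ∃ i ∈ (Finset.univ : Finset (Fin n)), dist (x + (s - τ) • v) (flow Φ ε s w i).1 ≤ ε} :=
        lintegral_mono fun v => mul_le_mul_right (measure_mono (h2 v)) _
    _ ≤ _ := h1
    _ ≤ _ := by
        refine mul_le_mul_right ?_ _
        calc ENNReal.ofReal ε * ((Finset.univ : Finset (Fin n)).card : ℝ≥0∞) +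
              ∫⁻ u in Icc τ T, ∑ i : Fin n, (1 + ENNReal.ofReal ‖(flow Φ ε u w i).2‖)
            ≤ ENNReal.ofReal (totE Φ w) + ∫⁻ _ in Icc τ T, ENNReal.ofReal (totE Φ w) := by
              refine add_le_add h5 (lintegral_mono_ae ?_)
              filter_upwards [ae_restrict_mem measurableSet_Icc] with u hu using h3 u hu
          _ = (1 + ENNReal.ofReal (T - τ)) * ENNReal.ofReal (totE Φ w) := by
              rw [setLIntegral_const, Real.volume_Icc, add_mul, one_mul, mul_comm (ENNReal.ofReal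
                (totE Φ w))]
          _ ≤ _ := by
              gcongr
              rw [ENNReal.ofReal_add zero_le_one hT, ENNReal.ofReal_one]
              gcongr
              linarith

/-- The Gaussian constant. -/
def gI (γ : ℝ) : ℝ≥0∞ := ∫⁻ v : Space3, Kin796.wG γ v * (1 + ENNReal.ofReal ‖v‖)

theorem gI_anti {γ γ' : ℝ} (h : γ ≤ γ') : gI γ' ≤ gI γ :=
  lintegral_mono fun v => mul_le_mul_left (Kin796.wG_anti h v) _

theorem gI_lt_top {γ : ℝ} (hγ : 0 < γ) : gI γ < ∞ := by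
  have h1 : ∀ v : Space3, Kin796.wG γ v * (1 + ENNReal.ofReal ‖v‖) ≤
      ENNReal.ofReal (1 + 1 / γ) * ENNReal.ofReal (Real.exp (-(γ / 2 * ‖v‖ ^ 2))) := by
    intro v
    unfold Kin796.wG
    rw [← ENNReal.ofReal_one, ← ENNReal.ofReal_add zero_le_one (norm_nonneg _),
      ← ENNReal.ofReal_mul (by positivity), ← ENNReal.ofReal_mul (by positivity)]
    refine ENNReal.ofReal_le_ofReal ?_
    have h2 : Real.exp (-(γ * ‖v‖ ^ 2)) =
        Real.exp (-(γ / 2 * ‖v‖ ^ 2)) * Real.exp (-(γ / 2 * ‖v‖ ^ 2)) := by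
      rw [← Real.exp_add]; ring_nf
    have h3 : Real.exp (-(γ / 2 * ‖v‖ ^ 2)) * (1 + ‖v‖) ≤ 1 + 1 / γ := by
      have h4 : 1 + γ / 2 * ‖v‖ ^ 2 ≤ Real.exp (γ / 2 * ‖v‖ ^ 2) := by
        have := Real.add_one_le_exp (γ / 2 * ‖v‖ ^ 2)
        linarith
      have h5 : (1 + ‖v‖) ≤ (1 + 1 / γ) * Real.exp (γ / 2 * ‖v‖ ^ 2) := by
        have h6 : (1 + ‖v‖) ≤ (1 + 1 / γ) * (1 + γ / 2 * ‖v‖ ^ 2) := by
          have h7 : (1 + 1 / γ) * (1 + γ / 2 * ‖v‖ ^ 2) =
              1 + 1 / γ + γ / 2 * ‖v‖ ^ 2 + ‖v‖ ^ 2 / 2 := by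
            field_simp
            ring
          rw [h7]
          have h8 : 0 < 1 / γ := by positivity
          have h9 : ‖v‖ ≤ 1 / γ + γ / 2 * ‖v‖ ^ 2 + ‖v‖ ^ 2 / 2 := by
            have h10 : 0 ≤ (1 / γ + γ * ‖v‖ ^ 2 / 2 - ‖v‖) := by
              have h11 : 0 ≤ γ / 2 * (‖v‖ - 1 / γ) ^ 2 := by positivity
              have h12 : γ / 2 * (‖v‖ - 1 / γ) ^ 2 = γ * ‖v‖ ^ 2 / 2 - ‖v‖ + 1 / (2 * γ) := by
                field_simp
                ring
              have h13 : 1 / (2 * γ) ≤ 1 / γ := by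
                rw [div_le_div_iff₀ (by positivity) hγ]
                linarith
              linarith
            nlinarith [sq_nonneg ‖v‖]
          linarith
        exact h6.trans (mul_le_mul_of_nonneg_left h4 (by positivity))
      rw [Real.exp_neg]
      rw [inv_mul_le_iff₀ (Real.exp_pos _)]
      linarith
    rw [h2]
    calc Real.exp (-(γ / 2 * ‖v‖ ^ 2)) * Real.exp (-(γ / 2 * ‖v‖ ^ 2)) * (1 + ‖v‖)
        = Real.exp (-(γ / 2 * ‖v‖ ^ 2)) * (1 + ‖v‖) * Real.exp (-(γ / 2 * ‖v‖ ^ 2)) := by ring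
      _ ≤ _ := mul_le_mul_of_nonneg_right h3 (Real.exp_pos _).le
  refine (lintegral_mono h1).trans_lt ?_
  rw [lintegral_const_mul _ (by fun_prop)]
  exact ENNReal.mul_lt_top ENNReal.ofReal_lt_top (lintegral_gaussian_lt_top (by positivity))

/-- Total mass of the marks. -/
def rhoS (ρ : ℝ≥0∞) : ℝ≥0∞ := ∑' n : ℕ, ρ ^ n

theorem rhoS_lt_top {ρ : ℝ≥0∞} (h : ρ < 1) : rhoS ρ < ∞ := by
  unfold rhoS
  rw [ENNReal.tsum_geometric]
  exact ENNReal.inv_lt_top.2 (tsub_pos_of_lt h)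

/-- The constant of the measure of the lines meeting the gas. -/
def cX (γ₀ : ℝ) (ρ : ℝ≥0∞) (T : ℝ) : ℝ≥0∞ :=
  ENNReal.ofReal T * rhoS ρ * (8 * Sweep815.c3 * gI γ₀ * ENNReal.ofReal (1 + T))

theorem cX_lt_top {γ₀ : ℝ} (hγ : 0 < γ₀) {ρ : ℝ≥0∞} (hρ : ρ < 1) (T : ℝ) : cX γ₀ ρ T < ∞ := by
  unfold cX Sweep815.c3
  refine ENNReal.mul_lt_top (ENNReal.mul_lt_top ENNReal.ofReal_lt_top (rhoS_lt_top hρ))
    (ENNReal.mul_lt_top (ENNReal.mul_lt_top (ENNReal.mul_lt_top (by norm_num)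
      ENNReal.ofReal_lt_top) (gI_lt_top hγ)) ENNReal.ofReal_lt_top)

/-- `ε² totE`. -/
def Yf (Φ : Space3 → ℝ) (ε : ℝ) {n : ℕ} (w : Config n) : ℝ≥0∞ :=
  ENNReal.ofReal ε ^ 2 * ENNReal.ofReal (totE Φ w)

/-- **Measure of the lines which meet the gas.** -/
theorem lineM_hit_le (hΦ : AdmissiblePotential Φ) (hε : 0 < ε) (hε1 : ε ≤ 1) {n : ℕ}
    {w : Config n} (hw : w ∈ PairExcluded ε n) {T γ₀ : ℝ} {γ : ℝ → ℝ} (hγm : Measurable γ)
    (hγ : ∀ τ ∈ Ioc 0 T, γ₀ ≤ γ τ) (ρ : ℝ≥0∞) :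
    lineM γ ρ K T (hitL Φ ε w T) ≤ cX γ₀ ρ T * Yf Φ ε w := by
  have hm := isClosed_hitS hΦ hε w T
  have hDm : Measurable fun l : ℝ × PhasePoint => Kin796.wG (γ l.1) l.2.2 := by
    unfold Kin796.wG
    have h1 : Measurable fun l : ℝ × PhasePoint => γ l.1 := hγm.comp measurable_fst
    have h2 : Measurable fun l : ℝ × PhasePoint => ‖l.2.2‖ ^ 2 :=
      ((measurable_snd.snd).norm).pow_const 2
    exact (h1.mul h2).neg.exp.ennreal_ofReal
  have hfm : Measurable fun l : ℝ × PhasePoint => (hitS Φ ε w T).indicator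
      (fun l => Kin796.wG (γ l.1) l.2.2) l := hDm.indicator hm.measurableSet
  -- the integral over unmarked lines
  have hS : ∫⁻ l, (hitS Φ ε w T).indicator (fun l => Kin796.wG (γ l.1) l.2.2) l
      ∂((volume.restrict (Ioc (0 : ℝ) T)).prod (volume : Measure PhasePoint)) ≤
      ENNReal.ofReal T * (8 * Sweep815.c3 * gI γ₀ * ENNReal.ofReal (1 + T)) * Yf Φ ε w := by
    rw [lintegral_prod _ hfm.aemeasurable]
    calc ∫⁻ τ in Ioc (0 : ℝ) T, ∫⁻ z : PhasePoint,
          (hitS Φ ε w T).indicator (fun l => Kin796.wG (γ l.1) l.2.2) (τ, z)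
        ≤ ∫⁻ _ in Ioc (0 : ℝ) T,
          (8 * Sweep815.c3 * gI γ₀ * ENNReal.ofReal (1 + T)) * Yf Φ ε w := by
          refine lintegral_mono_ae ?_
          filter_upwards [ae_restrict_mem measurableSet_Ioc] with τ hτ
          have h1 : ∫⁻ z : PhasePoint,
              (hitS Φ ε w T).indicator (fun l => Kin796.wG (γ l.1) l.2.2) (τ, z) =
              ∫⁻ v : Space3, Kin796.wG (γ τ) v *
                volume {y : Space3 | (τ, (y, v)) ∈ hitS Φ ε w T} := by
            have h2 : Measurable fun z : PhasePoint =>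
                (hitS Φ ε w T).indicator (fun l => Kin796.wG (γ l.1) l.2.2) (τ, z) :=
              hfm.comp measurable_prodMk_left
            change ∫⁻ z : Space3 × Space3, _ ∂((volume : Measure Space3).prod
              (volume : Measure Space3)) = _
            rw [lintegral_prod_symm _ h2.aemeasurable]
            refine lintegral_congr fun v => ?_
            have h3 : ∀ y : Space3, (hitS Φ ε w T).indicator (fun l => Kin796.wG (γ l.1) l.2.2)
                (τ, (y, v)) = {y : Space3 | (τ, (y, v)) ∈ hitS Φ ε w T}.indicator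
                  (fun _ => Kin796.wG (γ τ) v) y := by
              intro y
              by_cases hy : (τ, (y, v)) ∈ hitS Φ ε w T
              · rw [indicator_of_mem hy, indicator_of_mem (show y ∈ {y : Space3 |
                  (τ, (y, v)) ∈ hitS Φ ε w T} from hy)]
              · rw [indicator_of_notMem hy, indicator_of_notMem (show y ∉ {y : Space3 |
                  (τ, (y, v)) ∈ hitS Φ ε w T} from hy)]
            rw [lintegral_congr h3, lintegral_indicator_const]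
            have : Continuous fun y : Space3 => ((τ, (y, v)) : ℝ × PhasePoint) := by fun_prop
            exact (hm.preimage this).measurableSet
          rw [h1]
          refine (volume_hitS_le hΦ hε hε1 hw hτ.1 hτ.2 (γ τ)).trans ?_
          have h4 : (∫⁻ v : Space3, Kin796.wG (γ τ) v * (1 + ENNReal.ofReal ‖v‖)) ≤ gI γ₀ :=
            gI_anti (hγ τ hτ)
          calc 8 * ENNReal.ofReal ε ^ 2 * Sweep815.c3 *
                (∫⁻ v : Space3, Kin796.wG (γ τ) v * (1 + ENNReal.ofReal ‖v‖)) *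
                (ENNReal.ofReal (1 + T) * ENNReal.ofReal (totE Φ w))
              ≤ 8 * ENNReal.ofReal ε ^ 2 * Sweep815.c3 * gI γ₀ *
                (ENNReal.ofReal (1 + T) * ENNReal.ofReal (totE Φ w)) := by gcongr
            _ = _ := by unfold Yf; ring
      _ = _ := by
          rw [setLIntegral_const, Real.volume_Ioc, sub_zero]
          ring
  -- the marks
  unfold lineM
  rw [withDensity_apply _ (measurableSet_hitL hΦ hε w T), ← lintegral_indicator
    (measurableSet_hitL hΦ hε w T)]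
  have h1 : ∀ l : ML, (hitL Φ ε w T).indicator (lineD γ ρ K) l =
      (hitS Φ ε w T).indicator (fun l => Kin796.wG (γ l.1) l.2.2) l.1 * markW ρ K l.2 := by
    intro l
    by_cases hl : l.1 ∈ hitS Φ ε w T
    · rw [indicator_of_mem (show l ∈ hitL Φ ε w T from hl), indicator_of_mem hl]
      rfl
    · rw [indicator_of_notMem (show l ∉ hitL Φ ε w T from hl), indicator_of_notMem hl, zero_mul]
  rw [lintegral_congr h1]
  unfold lineV
  rw [lintegral_prod_mul hfm.aemeasurable (measurable_of_countable _).aemeasurable,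
    lintegral_count]
  have h2 : ∑' n : ℕ, markW ρ K n ≤ rhoS ρ := by
    refine ENNReal.tsum_le_tsum fun n => ?_
    unfold markW
    split_ifs
    · exact le_rfl
    · exact zero_le
  calc _ ≤ (ENNReal.ofReal T * (8 * Sweep815.c3 * gI γ₀ * ENNReal.ofReal (1 + T)) * Yf Φ ε w) *
        rhoS ρ := mul_le_mul' hS h2
    _ = _ := by unfold cX; ring

end

end Crest.Agent.R122.Unw410
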