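import Crest.Agent.R122.LinkM7_547
import Crest.Agent.R122.UnwX_410

/-!
# Row 122, H11 (LINK mass): gateway (helper547), joint measurability of the runs

* `measurable_RM_param` : `(x, w) ↦ RM Φ ε T K L (Z x) q w` for a measurable family of groups.
* `RSet` : the measurable set `{1 ≤ RM}`, which contains the runs.
-/

set_option autoImplicit false
set_option maxHeartbeats 400000

open MeasureTheory Set Filter Topology
open Crest.AnalysisR.Kinetic
open Crest.Agent.R122.Flow671 Crest.Agent.R122.Vol365 Crest.Agent.R122.EDefs602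
open Crest.Agent.R122.Loc45 Crest.Agent.R122.Ins45
open Crest.Agent.R122.GC311
open scoped ENNReal Classical

noncomputable section

namespace Crest.Agent.R122.LinkM547

variable {Φ : Space3 → ℝ} {ε : ℝ}

/-- A measurable family of marked worlds. -/
structure MeasMW {δ : Type*} [MeasurableSpace δ] {G : Type} (Z : δ → MW G) : Prop where
  b : ∀ i, Measurable fun x => (Z x).b i
  z : Measurable fun x => (Z x).z

theorem MeasMW.comp {δ δ' : Type*} [MeasurableSpace δ] [MeasurableSpace δ'] {G : Type}
    {Z : δ → MW G} (h : MeasMW Z) {f : δ' → δ} (hf : Measurable f) : MeasMW fun x => Z (f x) :=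
  ⟨fun i => (h.b i).comp hf, h.z.comp hf⟩

theorem MeasMW.add_cfg {δ : Type*} [MeasurableSpace δ] {G : Type} [Fintype G] {Z : δ → MW G}
    (h : MeasMW Z) {k : ℕ} {V : δ → Config k} (hV : Measurable V) :
    MeasMW fun x => (Z x).add (MW.cfg (V x)) where
  b i := by
    rcases i with i | i
    · exact h.b i
    · exact measurable_const
  z := measurable_elim h.z hV

theorem measMW_cfg {δ : Type*} [MeasurableSpace δ] {k : ℕ} {V : δ → Config k} (hV : Measurable V) :
    MeasMW fun x => MW.cfg (V x) := ⟨fun _ => measurable_const, hV⟩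

theorem measMW_line : MeasMW fun l : ML => MW.line l where
  b _ := measurable_fst.fst
  z := by
    refine measurable_pi_iff.2 fun _ => ?_
    change Measurable fun l : ML => back l.1
    unfold back
    fun_prop

theorem measMW_const {δ : Type*} [MeasurableSpace δ] {G : Type} (Z : MW G) :
    MeasMW fun _ : δ => Z := ⟨fun _ => measurable_const, measurable_const⟩

theorem MeasMW.path (hΦ : AdmissiblePotential Φ) (hε : 0 < ε) {δ : Type*} [MeasurableSpace δ]
    {G : Type} [Fintype G] {Z : δ → MW G} (h : MeasMW Z) (r : ℝ) (q : G) :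
    Measurable fun x => ((Z x).path Φ ε r q).1 := by
  have h1 := measurable_evo (ι := G) hΦ hε (δ := δ) (b := fun x => (Z x).b) (s := fun _ => (0 : ℝ))
    (t := fun _ => r) (Z := fun x => (Z x).z) h.b measurable_const measurable_const h.z
  exact (((measurable_pi_apply q).comp h1)).fst

theorem MeasMW.kin {δ : Type*} [MeasurableSpace δ] {G : Type} [Fintype G] {Z : δ → MW G}
    (h : MeasMW Z) : Measurable fun x => Loc45.kin (Z x).z := by
  unfold Loc45.kin
  refine measurable_const.mul (Finset.measurable_sum _ fun i _ => ?_)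
  exact (((measurable_pi_apply i).comp h.z).snd.norm).pow_const 2

theorem measurableSet_ch_param (hΦ : AdmissiblePotential Φ) (hε : 0 < ε) (T ρ : ℝ) :
    ∀ (l : List (Step × ℝ)) (G : Type) [Fintype G] (q : G) {δ : Type} [MeasurableSpace δ]
      (Z : δ → MW G), MeasMW Z →
      MeasurableSet {p : δ × Config (tot l) | Ch Φ ε T ρ l G (Z p.1) q p.2} := by
  intro l
  induction l with
  | nil =>
    intro G _ q δ _ Z _
    have : {p : δ × Config (tot []) | Ch Φ ε T ρ [] G (Z p.1) q p.2} = univ := by
      ext p; simp [Ch]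
    rw [this]; exact MeasurableSet.univ
  | cons a l ih =>
    intro G _ q δ _ Z hZ
    obtain ⟨s, r⟩ := a
    have h1 : Measurable fun p : δ × Config (tot ((s, r) :: l)) =>
        hd (k := s.k) (m := tot l) p.2 := measurable_hd.comp measurable_snd
    have h2 : Measurable fun p : δ × Config (tot ((s, r) :: l)) =>
        tl (k := s.k) (m := tot l) p.2 := measurable_tl.comp measurable_snd
    have hZ' : MeasMW fun p : δ × Config (tot ((s, r) :: l)) => Z p.1 := hZ.comp measurable_fst
    have hA : MeasurableSet {p : δ × Config (tot ((s, r) :: l)) |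
        AllConn (NContact Φ ε 0 T (hd (k := s.k) (m := tot l) p.2))} :=
      h1 (measurableSet_allConn hΦ hε T s.k)
    have hB : MeasurableSet {p : δ × Config (tot ((s, r) :: l)) |
        dist (flow Φ ε r (hd (k := s.k) (m := tot l) p.2) s.e).1
          ((Z p.1).path Φ ε r q).1 ≤ ρ} := by
      refine measurableSet_le (Measurable.dist ?_ ?_) measurable_const
      · exact (((measurable_pi_apply s.e).comp ((measurable_flow (ι := Fin s.k) hΦ hε r).comp h1))).fst
      · exact hZ'.path hΦ hε r q
    have hC : MeasurableSet {p : δ × Config (tot ((s, r) :: l)) |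
        (match s.kd with
          | .stay => Ch Φ ε T ρ l (G ⊕ Fin s.k)
              ((Z p.1).add (MW.cfg (hd (k := s.k) (m := tot l) p.2)))
              (Sum.inl q) (tl (k := s.k) (m := tot l) p.2)
          | .switch => Ch Φ ε T ρ l (G ⊕ Fin s.k)
              ((Z p.1).add (MW.cfg (hd (k := s.k) (m := tot l) p.2)))
              (Sum.inr s.e) (tl (k := s.k) (m := tot l) p.2)
          | .ghost => Ch Φ ε T ρ l (Fin s.k) (MW.cfg (hd (k := s.k) (m := tot l) p.2)) s.e
              (tl (k := s.k) (m := tot l) p.2))} := by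
      have hS : Measurable fun p : δ × Config (tot ((s, r) :: l)) =>
          ((p : δ × Config (tot ((s, r) :: l))), tl (k := s.k) (m := tot l) p.2) :=
        measurable_id.prodMk h2
      rcases hk : s.kd with _ | _ | _
      · simp only
        exact hS (ih (G ⊕ Fin s.k) (Sum.inl q) (fun p : δ × Config (tot ((s, r) :: l)) =>
          (Z p.1).add (MW.cfg (hd (k := s.k) (m := tot l) p.2))) (hZ'.add_cfg h1))
      · simp only
        exact hS (ih (G ⊕ Fin s.k) (Sum.inr s.e) (fun p : δ × Config (tot ((s, r) :: l)) =>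
          (Z p.1).add (MW.cfg (hd (k := s.k) (m := tot l) p.2))) (hZ'.add_cfg h1))
      · simp only
        exact hS (ih (Fin s.k) s.e (fun p : δ × Config (tot ((s, r) :: l)) =>
          MW.cfg (hd (k := s.k) (m := tot l) p.2)) (measMW_cfg h1))
    exact hA.inter (hB.inter hC)

theorem measurable_GI_param (hΦ : AdmissiblePotential Φ) (hε : 0 < ε) (T : ℝ) {G : Type} [Fintype G]
    {δ : Type} [MeasurableSpace δ] {Z : δ → MW G} (hZ : MeasMW Z) (q : G) (N : ℕ)
    (l : List (Step × ℝ)) :
    Measurable fun p : δ × Config (tot l) => GI Φ ε T G (Z p.1) q N l p.2 := by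
  unfold GI
  refine Measurable.ite ((measurableSet_ch_param hΦ hε T (3 * ε) l G q Z hZ).inter ?_)
    measurable_const measurable_const
  exact measurableSet_le measurable_const
    ((hZ.kin.comp measurable_fst).add (measurable_kin.comp measurable_snd))

theorem measurable_RM_param (hΦ : AdmissiblePotential Φ) (hε : 0 < ε) (T : ℝ) (K L : ℕ) {G : Type}
    [Fintype G] {δ : Type} [MeasurableSpace δ] {Z : δ → MW G} (hZ : MeasMW Z) (q : G) (n : ℕ) :
    Measurable fun p : δ × Config n => RM Φ ε T K L (Z p.1) q p.2 := by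
  unfold RM
  refine Measurable.tsum fun N => Finset.measurable_sum _ fun σ _ =>
    Finset.measurable_sum _ fun st _ => Finset.measurable_sum _ fun ι _ => ?_
  have h := measurable_GI_param (Φ := Φ) (ε := ε) hΦ hε T hZ q N
    (gl (ε / MN (stabB Φ) (Fintype.card G) L K N) σ st)
  have h2 : Measurable fun p : δ × Config n => (p.1, fun i => p.2 (ι i)) :=
    measurable_fst.prodMk (measurable_pi_iff.2 fun i => (measurable_pi_apply (ι i)).comp
      measurable_snd)
  exact h.comp h2

/-- Measurable set which contains the runs. -/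
def RSet (Φ : Space3 → ℝ) (ε T : ℝ) (K L : ℕ) {G : Type} [Fintype G] {δ : Type}
    (Z : δ → MW G) (q : G) (n : ℕ) : Set (δ × Config n) :=
  {p | 1 ≤ RM Φ ε T K L (Z p.1) q p.2}

theorem measurableSet_RSet (hΦ : AdmissiblePotential Φ) (hε : 0 < ε) (T : ℝ) (K L : ℕ) {G : Type}
    [Fintype G] {δ : Type} [MeasurableSpace δ] {Z : δ → MW G} (hZ : MeasMW Z) (q : G) (n : ℕ) :
    MeasurableSet (RSet Φ ε T K L Z q n) :=
  measurableSet_le measurable_const (measurable_RM_param hΦ hε T K L hZ q n)

theorem mem_RSet (hΦ : AdmissiblePotential Φ) (hε : 0 < ε) {T : ℝ} {K L : ℕ} {G : Type}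
    [Fintype G] {δ : Type} {Z : δ → MW G} {q : G} {n : ℕ} {w : Config n}
    (hw : w ∈ PairExcluded ε n) {x : δ} (h : Run Φ ε T K L (Z x) q w) :
    (x, w) ∈ RSet Φ ε T K L Z q n := by
  have := run_le_RM hΦ hε T K L (Z x) q hw
  rw [if_pos h] at this
  exact this

theorem ind_RSet_le {T : ℝ} {K L : ℕ} {G : Type} [Fintype G] {δ : Type} {Z : δ → MW G} {q : G}
    {n : ℕ} (x : δ) (w : Config n) :
    (if (x, w) ∈ RSet Φ ε T K L Z q n then (1 : ℝ≥0∞) else 0) ≤ RM Φ ε T K L (Z x) q w := by
  by_cases h : (x, w) ∈ RSet Φ ε T K L Z q n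
  · rw [if_pos h]; exact h
  · rw [if_neg h]; exact bot_le

end Crest.Agent.R122.LinkM547

end
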