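import Crest.Agent.R122.LinkG2_547

/-!
# Row 122, H11 (LINK mass): gateway (helper547), runs from exit lines of trees

* `wexp` : exponential velocity weight of a tree; `pf_mul_wexp`.
* `tree_run` : long runs from an exit line of a tree, integrated over the tree.
* `ui` : uniform integrability with the weight `Y1`.
-/

set_option autoImplicit false
set_option maxHeartbeats 400000

open MeasureTheory Set Filter Topology
open Crest.AnalysisR.Kinetic
open Crest.Agent.R122.Flow671 Crest.Agent.R122.Vol365 Crest.Agent.R122.EDefs602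
open Crest.Agent.R122.Loc45 Crest.Agent.R122.Ins45
open Crest.Agent.R122.GC311 Crest.Agent.R122.Kin796 Crest.Agent.R122.Kin796.CTree
open Crest.Agent.R122.Tree674 Crest.Agent.R122.TreeLines335
open scoped ENNReal Classical

noncomputable section

namespace Crest.Agent.R122.LinkM547

variable {Φ : Space3 → ℝ} {ε : ℝ} {f₀ : PhasePoint → ℝ}

/-- Exponential velocity weight of a tree. -/
def wexp (Φ : Space3 → ℝ) (ε a : ℝ) (P : CTree) (z : PhasePoint × Par P) : ℝ≥0∞ :=
  ∏ i, ENNReal.ofReal (Real.exp (a * ‖(lines Φ ε P z.1 z.2 i).2‖ ^ 2))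

theorem pf_mul_wexp (a t : ℝ) (P : CTree) (z : PhasePoint × Par P) :
    Ret424.pf Φ f₀ ε P t z * wexp Φ ε a P z = Ret424.pf Φ (fW f₀ a) ε P t z := by
  by_cases h : Valid Φ ε P t z.1.2 z.2
  · rw [Ret424.pf_of_valid h, Ret424.pf_of_valid h]
    unfold wexp fW
    rw [mul_assoc, ← Finset.prod_mul_distrib]
    congr 1
    refine Finset.prod_congr rfl fun i _ => ?_
    rw [ENNReal.ofReal_mul' (Real.exp_pos _).le]
  · rw [Ret424.pf_of_not_valid h, Ret424.pf_of_not_valid h, zero_mul]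

theorem one_le_wexp {a : ℝ} (ha : 0 ≤ a) (P : CTree) (z : PhasePoint × Par P) :
    1 ≤ wexp Φ ε a P z := by
  unfold wexp
  refine Finset.one_le_prod' fun i _ => ?_
  rw [ENNReal.one_le_ofReal]
  exact Real.one_le_exp (by positivity)

/-- Total mass with an exponential weight, uniform in `ε` and `t`. -/
theorem tree_mass (hΦ : AdmissiblePotential Φ) (hf : Measurable f₀) {b a : ℝ} (hab : a < b)
    (H : HasSummableGaussianBound b (fun x v => f₀ (x, v))) (P : CTree) (T : ℝ) :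
    ∃ M : ℝ≥0∞, M ≠ ∞ ∧ ∀ ε t : ℝ, 0 ≤ ε → t ≤ T →
      ∫⁻ z, Ret424.pf Φ f₀ ε P t z * wexp Φ ε a P z ≤ M := by
  obtain ⟨M, hM, h⟩ := Ret424.exists_mass hΦ (measurable_fW hf a) (γ := b - a) (by linarith)
    (fW_bound H a) P T
  refine ⟨M, hM, fun ε t hε ht => ?_⟩
  simp only [pf_mul_wexp]
  exact h ε t hε ht

/-- **Long runs from an exit line of a tree.** -/
theorem tree_run (hΦ : AdmissiblePotential Φ) (hf : Measurable f₀)
    (h1 : ∫⁻ z, ENNReal.ofReal (f₀ z) ≤ 1) {b a : ℝ} (hab : a < b) (ha : 0 ≤ a)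
    (H : HasSummableGaussianBound b (fun x v => f₀ (x, v))) {T : ℝ} (hT : 0 ≤ T) (K : ℕ)
    (P : CTree) {x : Idx P} (hx : x ≠ root P) :
    ∃ η : ℕ → ℝ≥0∞, Tendsto η atTop (𝓝 0) ∧ ∀ L : ℕ, 1 ≤ L → ∃ ε₀ : ℝ, 0 < ε₀ ∧
      ∀ ε : ℝ, 0 < ε → ε < ε₀ → ∀ t ≤ T,
        ∫⁻ z, Ret424.pf Φ f₀ ε P t z * (wexp Φ ε a P z *
          gcE f₀ ε (fun _ w => RM Φ ε T K L (MW.line (lineML Φ ε P z x)) () w)) ≤ η L := by
  set b' : ℝ := (b - a) / 2 with hb'
  have hb'0 : 0 < b' := by rw [hb']; linarith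
  have hb'b : b' < b - a := by rw [hb']; linarith
  obtain ⟨C, hC, hex⟩ := Ret424.exists_exit hΦ (measurable_fW hf a) (fW_bound H a) hb'0 hb'b P T
  obtain ⟨env, A, hA, hE⟩ := exists_envB (β := b' / 2) (b := b) (by linarith) H
  obtain ⟨η, hη, hηt, hrun⟩ := RM_tail_line hΦ (β := b' / 2) (γ₀ := b') (by linarith) (by linarith)
    T A hT hA K hf h1 hE (γ := fun _ => b') measurable_const (fun _ _ => le_rfl)
    (ρm := 1) ENNReal.one_ne_top (TreeLines335.mk P x)
  refine ⟨fun L => C * η L, ?_, fun L hL => ?_⟩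
  · have := ENNReal.Tendsto.const_mul (a := C) hη (Or.inr hC)
    rwa [mul_zero] at this
  obtain ⟨ε₀, hε₀, hr⟩ := hrun L hL
  refine ⟨ε₀, hε₀, fun ε hε hε' t ht => ?_⟩
  set F : ML → ℝ≥0∞ := fun l => gcE f₀ ε (fun _ w => RM Φ ε T K L (MW.line l) () w) with hF
  have hFm : Measurable F := ToTree335.measurable_gcE_par hf
    (F := fun (l : ML) n (w : Config n) => RM Φ ε T K L (MW.line l) () w)
    fun n => measurable_RM_param hΦ hε T K L measMW_line () n
  calc ∫⁻ z, Ret424.pf Φ f₀ ε P t z * (wexp Φ ε a P z * F (lineML Φ ε P z x))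
      = ∫⁻ z, Ret424.pf Φ (fW f₀ a) ε P t z * F (lineML Φ ε P z x) := by
        refine lintegral_congr fun z => ?_
        rw [← mul_assoc, pf_mul_wexp]
    _ ≤ C * ∫⁻ τ in Ioc 0 t, ∫⁻ z : PhasePoint,
          ENNReal.ofReal (Real.exp (-b' * ‖z.2‖ ^ 2)) * F ((τ, z), TreeLines335.mk P x) :=
        hex ε t hε ht x hx F hFm
    _ ≤ C * ∫⁻ τ in Ioc 0 T, ∫⁻ z : PhasePoint,
          ENNReal.ofReal (Real.exp (-b' * ‖z.2‖ ^ 2)) * F ((τ, z), TreeLines335.mk P x) :=
        mul_le_mul_right (lintegral_mono_set (Ioc_subset_Ioc_right ht)) _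
    _ ≤ C * ((1 ^ TreeLines335.mk P x)⁻¹ *
          ∫⁻ l, F l ∂lineM (fun _ => b') 1 (TreeLines335.mk P x) T) :=
        mul_le_mul_right (Ret424.line_le measurable_const one_ne_zero ENNReal.one_ne_top
          (fun _ _ => le_rfl) (one_le_mk P x) le_rfl hFm) _
    _ ≤ C * η L := by
        rw [one_pow, inv_one, one_mul]
        exact mul_le_mul_right (hr ε hε hε') _

/-! ## Uniform integrability -/

theorem le_add_sq_div {x : ℝ≥0∞} {M : ℝ} (hM : 0 < M) :
    x ≤ ENNReal.ofReal M + x ^ 2 / ENNReal.ofReal M := by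
  rcases le_or_gt x (ENNReal.ofReal M) with h | h
  · exact h.trans le_self_add
  · refine le_trans ?_ le_add_self
    rw [ENNReal.le_div_iff_mul_le (Or.inl (by simpa using hM)) (Or.inl ENNReal.ofReal_ne_top), sq]
    exact mul_le_mul_right h.le _

/-- **Uniform integrability** of `Y1` on events of small probability. -/
theorem ui (hf : Measurable f₀) {G : (n : ℕ) → Config n → ℝ≥0∞} (hG : ∀ n, Measurable (G n))
    (hG1 : ∀ n w, G n w ≤ 1) {M : ℝ} (hM : 0 < M) :
    gcE f₀ ε (fun n w => G n w * Unw410.Y1 ε w) ≤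
      ENNReal.ofReal M * gcE f₀ ε G + (ENNReal.ofReal M)⁻¹ * Unw410.sqY f₀ ε := by
  have hMt : (ENNReal.ofReal M)⁻¹ ≠ ∞ := ENNReal.inv_ne_top.2 (by simpa using hM)
  calc gcE f₀ ε (fun n w => G n w * Unw410.Y1 ε w)
      ≤ gcE f₀ ε (fun n w => ENNReal.ofReal M * G n w +
          (ENNReal.ofReal M)⁻¹ * Unw410.Y1 ε w ^ 2) := by
        refine gcE_mono f₀ ε fun n w _ => ?_
        calc G n w * Unw410.Y1 ε w
            ≤ G n w * (ENNReal.ofReal M + Unw410.Y1 ε w ^ 2 / ENNReal.ofReal M) :=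
              mul_le_mul_right (le_add_sq_div hM) _
          _ = ENNReal.ofReal M * G n w + G n w * (Unw410.Y1 ε w ^ 2 / ENNReal.ofReal M) := by
              ring
          _ ≤ ENNReal.ofReal M * G n w + 1 * (Unw410.Y1 ε w ^ 2 / ENNReal.ofReal M) := by
              gcongr
              exact hG1 n w
          _ = _ := by rw [one_mul, ENNReal.div_eq_inv_mul]
    _ = _ := by
        rw [gcE_add hf ε fun n => (hG n).const_mul _, gcE_const_mul f₀ ε ENNReal.ofReal_ne_top,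
          gcE_const_mul f₀ ε hMt]
        rfl

end Crest.Agent.R122.LinkM547

end
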