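import Crest.Agent.R122.LinkGas_473
import Crest.Agent.R122.EDefs_602

/-!
# Row 122, LN2: Mecke bounds in volume form

* `Maj f₀ γ φ C`: `f₀ (x, v) ≤ φ x * exp (-γ |v|²)`, `φ ≤ C`, `∫ φ ≤ C`; `exists_maj` from the
  summable Gaussian bound.
* `gcWeight_le_maj` : `gcWeight V ≤ C^k φ (x_j) ∏ exp (-γ |v_i|²)` on `Config (k + 1)`, any `j`.
* `cluster_sum_le` : Mecke for a cluster `V` (`k ≤ K` particles) and a further sub-configuration of
  the rest of the gas (`≤ N` particles), integrated over an external structure `s`.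
-/

set_option autoImplicit false
open MeasureTheory
open scoped Classical ENNReal
open Crest.AnalysisR.Kinetic
noncomputable section

namespace Crest.Agent.R122.LinkGas473

open Crest.Agent.R122.GC311 Crest.Agent.R122.Kin796

/-! ## A product majorant of the one-particle density -/

/-- `f₀ (x, v) ≤ φ x * exp (-γ |v|²)`, with `φ ≤ C` and `∫ φ ≤ C`. -/
structure Maj (f₀ : PhasePoint → ℝ) (γ : ℝ) (φ : Space3 → ℝ≥0∞) (C : ℝ≥0∞) : Prop where
  meas : Measurable φ
  int_le : ∫⁻ x, φ x ≤ C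
  sup_le : ∀ x, φ x ≤ C
  le : ∀ z : PhasePoint, ENNReal.ofReal (f₀ z) ≤ φ z.1 * wG γ z.2

theorem exists_maj {γ : ℝ} {f₀ : PhasePoint → ℝ}
    (hb : HasSummableGaussianBound γ (fun x v => f₀ (x, v))) :
    ∃ (φ : Space3 → ℝ≥0∞) (C : ℝ≥0∞), C ≠ ∞ ∧ Maj f₀ γ φ C := by
  obtain ⟨M, hM, hb⟩ := hb
  have hnn : ∀ k, 0 ≤ M k := by
    intro k
    refine le_trans ?_ (hb k (latticePoint k) 0 (by simp))
    positivity
  set φ : Space3 → ℝ≥0∞ := fun x => ∑' k : Fin 3 → ℤ,
    (Metric.closedBall (latticePoint k) 1).indicator (fun _ => ENNReal.ofReal (M k)) x with hφ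
  have hS : ∑' k, ENNReal.ofReal (M k) ≠ ∞ := by
    rw [← ENNReal.ofReal_tsum_of_nonneg hnn hM]
    exact ENNReal.ofReal_ne_top
  set v₁ : ℝ≥0∞ := volume (Metric.closedBall (0 : Space3) 1) with hv₁
  have hv₁t : v₁ ≠ ∞ := measure_closedBall_lt_top.ne
  have hmeas : Measurable φ :=
    Measurable.tsum fun k => measurable_const.indicator Metric.isClosed_closedBall.measurableSet
  refine ⟨φ, (∑' k, ENNReal.ofReal (M k)) * (1 + v₁),
    ENNReal.mul_ne_top hS (ENNReal.add_ne_top.2 ⟨ENNReal.one_ne_top, hv₁t⟩), hmeas, ?_, ?_, ?_⟩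
  · calc ∫⁻ x, φ x = ∑' k : Fin 3 → ℤ, ∫⁻ x,
          (Metric.closedBall (latticePoint k) 1).indicator (fun _ => ENNReal.ofReal (M k)) x := by
          refine lintegral_tsum fun k => ?_
          exact (measurable_const.indicator Metric.isClosed_closedBall.measurableSet).aemeasurable
      _ = ∑' k : Fin 3 → ℤ, ENNReal.ofReal (M k) * v₁ := by
          refine tsum_congr fun k => ?_
          rw [lintegral_indicator Metric.isClosed_closedBall.measurableSet, lintegral_const,
            Measure.restrict_apply_univ, hv₁, Measure.addHaar_closedBall_center]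
      _ = (∑' k : Fin 3 → ℤ, ENNReal.ofReal (M k)) * v₁ := ENNReal.tsum_mul_right
      _ ≤ _ := by gcongr; exact le_add_self
  · intro x
    calc φ x ≤ ∑' k, ENNReal.ofReal (M k) :=
          ENNReal.tsum_le_tsum fun k => Set.indicator_le_self _ _ _
      _ = (∑' k, ENNReal.ofReal (M k)) * 1 := (mul_one _).symm
      _ ≤ _ := by gcongr; exact le_self_add
  · rintro ⟨x, v⟩
    obtain ⟨k, hk⟩ := exists_lattice_near x
    have h1 := hb k x v hk
    have h2 : f₀ (x, v) ≤ M k * Real.exp (-(γ * ‖v‖ ^ 2)) := by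
      rw [Real.exp_neg, ← div_eq_mul_inv, le_div_iff₀ (Real.exp_pos _)]
      calc f₀ (x, v) * Real.exp (γ * ‖v‖ ^ 2) ≤ Real.exp (γ * ‖v‖ ^ 2) * ‖f₀ (x, v)‖ := by
            rw [mul_comm]
            exact mul_le_mul_of_nonneg_left (le_abs_self _) (Real.exp_pos _).le
        _ ≤ M k := h1
    have h3 : ENNReal.ofReal (M k) ≤ φ x := by
      have h4 : (Metric.closedBall (latticePoint k) 1).indicator
          (fun _ => ENNReal.ofReal (M k)) x = ENNReal.ofReal (M k) :=
        Set.indicator_of_mem (Metric.mem_closedBall.2 hk) _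
      rw [← h4]
      exact ENNReal.le_tsum k
    calc ENNReal.ofReal (f₀ (x, v)) ≤ ENNReal.ofReal (M k * Real.exp (-(γ * ‖v‖ ^ 2))) :=
          ENNReal.ofReal_le_ofReal h2
      _ = ENNReal.ofReal (M k) * wG γ v := by
          rw [ENNReal.ofReal_mul (hnn k)]; rfl
      _ ≤ φ x * wG γ v := by gcongr

variable {f₀ : PhasePoint → ℝ} {γ : ℝ} {φ : Space3 → ℝ≥0∞} {C : ℝ≥0∞}

theorem measurable_wG' : Measurable (fun v : Space3 => wG γ v) := by
  unfold wG
  exact (Real.measurable_exp.comp ((measurable_const.mul (measurable_norm.pow_const 2)).neg)).ennreal_ofReal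

/-- Product bound of the weight of a configuration with at least one particle. -/
theorem gcWeight_le_maj (hm : Maj f₀ γ φ C) (ε : ℝ) {k : ℕ} (j : Fin (k + 1))
    (V : Config (k + 1)) :
    gcWeight f₀ ε (k + 1) V ≤ C ^ k * (φ (V j).1 * ∏ i, wG γ (V i).2) *
      (if V ∈ PairExcluded ε (k + 1) then 1 else 0) := by
  unfold gcWeight
  by_cases hV : V ∈ PairExcluded ε (k + 1)
  · rw [Set.indicator_of_mem hV, if_pos hV, mul_one]
    calc ∏ i, ENNReal.ofReal (f₀ (V i)) ≤ ∏ i, (φ (V i).1 * wG γ (V i).2) :=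
          Finset.prod_le_prod' fun i _ => hm.le (V i)
      _ = (∏ i, φ (V i).1) * ∏ i, wG γ (V i).2 := Finset.prod_mul_distrib
      _ ≤ (φ (V j).1 * C ^ k) * ∏ i, wG γ (V i).2 := by
          gcongr
          rw [← Finset.mul_prod_erase Finset.univ (fun i => φ (V i).1) (Finset.mem_univ j)]
          gcongr
          calc ∏ i ∈ Finset.univ.erase j, φ (V i).1 ≤ ∏ _i ∈ Finset.univ.erase j, C :=
                Finset.prod_le_prod' fun i _ => hm.sup_le _
            _ = C ^ k := by
                rw [Finset.prod_const, Finset.card_erase_of_mem (Finset.mem_univ j),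
                  Finset.card_univ, Fintype.card_fin, Nat.add_sub_cancel]
      _ = C ^ k * (φ (V j).1 * ∏ i, wG γ (V i).2) := by ring
  · rw [Set.indicator_of_notMem hV]
    exact bot_le

/-! ## Mecke for a cluster and a further sub-configuration -/

variable {𝒮 : Type*} [MeasurableSpace 𝒮]

theorem measurable_append_sub {k k' n : ℕ} (V : Config k) (ι : Fin k' ↪ Fin n) :
    Measurable (fun p : Config n × 𝒮 =>
      ((Fin.append V (fun i => p.1 (ι i)) : Config (k + k')), p.2)) :=
  ((measurable_append_right V).comp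
    (measurable_pi_iff.2 fun i => (measurable_pi_apply (ι i)).comp measurable_fst)).prodMk
    measurable_snd

/-- One pair of sizes: `∫ dV gcW(V) E_w[1[V ⟂ w] ∫ dσ ∑_ι G (V ⧺ w ∘ ι, s)] ≤
a^{k'} ∫ dZ gcW(Z) ∫ dσ G (Z, s)`. -/
theorem cluster_sum_le_one (hf : Measurable f₀) (h1 : ∫⁻ z, ENNReal.ofReal (f₀ z) ≤ 1) (ε : ℝ)
    (σ : Measure 𝒮) [SFinite σ] {k k' : ℕ} (G : Config (k + k') × 𝒮 → ℝ≥0∞) (hG : Measurable G) :
    ∫⁻ V : Config k, gcWeight f₀ ε k V * gcE f₀ ε (fun n w => perpInd ε V w *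
      ∑ ι : Fin k' ↪ Fin n, ∫⁻ s, G (Fin.append V (fun i => w (ι i)), s) ∂σ) ≤
      activity ε ^ k' * ∫⁻ Z : Config (k + k'), gcWeight f₀ ε (k + k') Z * ∫⁻ s, G (Z, s) ∂σ := by
  have hmI : Measurable (fun Z : Config (k + k') => ∫⁻ s, G (Z, s) ∂σ) :=
    hG.lintegral_prod_right'
  have hperp : ∀ {n : ℕ} (V : Config k) (w : Config n) (ι : Fin k' ↪ Fin n),
      perpInd ε V w ≤ perpInd ε V (fun i => w (ι i)) := by
    intro n V w ι
    unfold perpInd
    by_cases h : Perp ε V w
    · rw [if_pos h, if_pos (show Perp ε V (fun i => w (ι i)) from fun i j => h i (ι j))]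
    · rw [if_neg h]; exact bot_le
  have step : ∀ V : Config k, gcE f₀ ε (fun n w => perpInd ε V w *
      ∑ ι : Fin k' ↪ Fin n, ∫⁻ s, G (Fin.append V (fun i => w (ι i)), s) ∂σ) ≤
      activity ε ^ k' * ∫⁻ V' : Config k', gcWeight f₀ ε k' V' *
        (perpInd ε V V' * ∫⁻ s, G (Fin.append V V', s) ∂σ) := by
    intro V
    refine le_trans (gcE_mono f₀ ε fun n w _ => ?_)
      (gcE_sum_emb_le hf h1 ε (fun V' => perpInd ε V V' * ∫⁻ s, G (Fin.append V V', s) ∂σ)
        ((measurable_perpInd_right ε k' V).mul (hmI.comp (measurable_append_right V))))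
    rw [Finset.mul_sum]
    refine Finset.sum_le_sum fun ι _ => ?_
    gcongr
    exact hperp V w ι
  calc ∫⁻ V : Config k, gcWeight f₀ ε k V * gcE f₀ ε (fun n w => perpInd ε V w *
        ∑ ι : Fin k' ↪ Fin n, ∫⁻ s, G (Fin.append V (fun i => w (ι i)), s) ∂σ)
      ≤ ∫⁻ V : Config k, gcWeight f₀ ε k V * (activity ε ^ k' *
        ∫⁻ V' : Config k', gcWeight f₀ ε k' V' *
          (perpInd ε V V' * ∫⁻ s, G (Fin.append V V', s) ∂σ)) :=
        lintegral_mono fun V => mul_le_mul_right (step V) _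
    _ = activity ε ^ k' * ∫⁻ V : Config k, gcWeight f₀ ε k V *
        ∫⁻ V' : Config k', gcWeight f₀ ε k' V' *
          (perpInd ε V V' * ∫⁻ s, G (Fin.append V V', s) ∂σ) := by
        rw [← lintegral_const_mul' _ _ (ENNReal.pow_ne_top (activity_ne_top ε))]
        refine lintegral_congr fun V => ?_
        ring
    _ = activity ε ^ k' * ∫⁻ Z : Config (k + k'), gcWeight f₀ ε (k + k') Z *
          ∫⁻ s, G (Z, s) ∂σ := by
        congr 1
        rw [lintegral_append (fun Z : Config (k + k') => gcWeight f₀ ε (k + k') Z *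
          ∫⁻ s, G (Z, s) ∂σ) ((measurable_gcWeight hf ε (k + k')).mul hmI)]
        refine lintegral_congr fun V => ?_
        rw [← lintegral_const_mul]
        · refine lintegral_congr fun V' => ?_
          rw [gcWeight_append]
          ring
        · exact (measurable_gcWeight hf ε k').mul
            ((measurable_perpInd_right ε k' V).mul (hmI.comp (measurable_append_right V)))

end Crest.Agent.R122.LinkGas473
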