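import Crest.Agent.R122.GCBounds_311

/-!
# Row 122, LN2: Mecke for sub-configurations with an external structure

* `gcE_sub_sum_le` : `E ∫ dσ(s) ∑_{k ≤ N} ∑_{ι : Fin k ↪ Fin n} G_k (w ∘ ι, s)
  ≤ ∑_{k ≤ N} a^k ∫ dV gcWeight(V) ∫ dσ(s) G_k (V, s)`.
* `gcE_sub_exists_le` : the same for the indicator that some sub-configuration with at most `N`
  particles is in a bad set `E k ⊆ Config k × 𝒮`, with a weight `φ (s)`.
* `gcE_sub_finset_le` : bad sets given by a predicate on a finite subset of the gas.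
-/

set_option autoImplicit false
open MeasureTheory
open scoped Classical ENNReal
open Crest.AnalysisR.Kinetic
noncomputable section

namespace Crest.Agent.R122.LinkGas473

open Crest.Agent.R122.GC311

variable {f₀ : PhasePoint → ℝ} {𝒮 : Type*} [MeasurableSpace 𝒮]

theorem measurable_sub {k n : ℕ} (ι : Fin k ↪ Fin n) :
    Measurable (fun p : Config n × 𝒮 => ((fun i => p.1 (ι i) : Config k), p.2)) :=
  (measurable_pi_iff.2 fun i => (measurable_pi_apply (ι i)).comp measurable_fst).prodMk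
    measurable_snd

/-- Mecke bound for sums over sub-configurations, integrated over an external structure. -/
theorem gcE_sub_sum_le (hf : Measurable f₀) (h1 : ∫⁻ z, ENNReal.ofReal (f₀ z) ≤ 1) (ε : ℝ)
    (σ : Measure 𝒮) [SFinite σ] (I : Finset ℕ) (G : (k : ℕ) → Config k × 𝒮 → ℝ≥0∞)
    (hG : ∀ k ∈ I, Measurable (G k)) :
    gcE f₀ ε (fun n w => ∫⁻ s, ∑ k ∈ I, ∑ ι : Fin k ↪ Fin n, G k (fun i => w (ι i), s) ∂σ) ≤
      ∑ k ∈ I, activity ε ^ k *
        ∫⁻ V : Config k, gcWeight f₀ ε k V * ∫⁻ s, G k (V, s) ∂σ := by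
  have hmG : ∀ k ∈ I, ∀ (n : ℕ) (ι : Fin k ↪ Fin n),
      Measurable (fun p : Config n × 𝒮 => G k (fun i => p.1 (ι i), p.2)) :=
    fun k hk n ι => (hG k hk).comp (measurable_sub ι)
  have hsec : ∀ k ∈ I, ∀ (n : ℕ) (ι : Fin k ↪ Fin n) (w : Config n),
      Measurable (fun s : 𝒮 => G k (fun i => w (ι i), s)) :=
    fun k hk n ι w => (hmG k hk n ι).comp (measurable_const.prodMk measurable_id)
  have e1 : gcE f₀ ε (fun n w => ∫⁻ s, ∑ k ∈ I, ∑ ι : Fin k ↪ Fin n,
      G k (fun i => w (ι i), s) ∂σ) =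
      gcE f₀ ε (fun n w => ∑ k ∈ I, ∑ ι : Fin k ↪ Fin n, ∫⁻ s, G k (fun i => w (ι i), s) ∂σ) := by
    refine gcE_congr f₀ ε fun n w _ => ?_
    rw [lintegral_finset_sum' _ fun k hk =>
      (Finset.measurable_sum _ fun ι _ => hsec k hk n ι w).aemeasurable]
    refine Finset.sum_congr rfl fun k hk => ?_
    rw [lintegral_finset_sum' _ fun ι _ => (hsec k hk n ι w).aemeasurable]
  have hmI : ∀ k ∈ I, Measurable (fun V : Config k => ∫⁻ s, G k (V, s) ∂σ) :=
    fun k hk => (hG k hk).lintegral_prod_right'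
  rw [e1, gcE_finset_sum hf ε I]
  · exact Finset.sum_le_sum fun k hk =>
      gcE_sum_emb_le hf h1 ε (fun V => ∫⁻ s, G k (V, s) ∂σ) (hmI k hk)
  · intro k hk n
    refine Finset.measurable_sum _ fun ι _ => ?_
    exact (hmI k hk).comp (measurable_pi_iff.2 fun i => measurable_pi_apply (ι i))

/-- Some sub-configuration with at most `N` particles is bad: indicator form. -/
theorem gcE_sub_exists_le (hf : Measurable f₀) (h1 : ∫⁻ z, ENNReal.ofReal (f₀ z) ≤ 1) (ε : ℝ)
    (σ : Measure 𝒮) [SFinite σ] (N : ℕ) (E : (k : ℕ) → Set (Config k × 𝒮))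
    (hE : ∀ k ≤ N, MeasurableSet (E k)) (φ : 𝒮 → ℝ≥0∞) (hφ : Measurable φ) :
    gcE f₀ ε (fun n w => ∫⁻ s, φ s * (if ∃ k ≤ N, ∃ ι : Fin k ↪ Fin n,
        ((fun i => w (ι i) : Config k), s) ∈ E k then 1 else 0) ∂σ) ≤
      ∑ k ∈ Finset.range (N + 1), activity ε ^ k *
        ∫⁻ V : Config k, gcWeight f₀ ε k V *
          ∫⁻ s, φ s * (if (V, s) ∈ E k then 1 else 0) ∂σ := by
  have hm : ∀ k ∈ Finset.range (N + 1), Measurable
      (fun p : Config k × 𝒮 => φ p.2 * (if p ∈ E k then (1 : ℝ≥0∞) else 0)) := fun k hk =>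
    (hφ.comp measurable_snd).mul
      (Measurable.ite (hE k (Nat.lt_succ_iff.1 (Finset.mem_range.1 hk))) measurable_const
        measurable_const)
  refine le_trans (gcE_mono f₀ ε fun n w _ => ?_)
    (gcE_sub_sum_le hf h1 ε σ (Finset.range (N + 1))
      (fun k p => φ p.2 * (if p ∈ E k then (1 : ℝ≥0∞) else 0)) hm)
  refine lintegral_mono fun s => ?_
  dsimp only
  by_cases h : ∃ k ≤ N, ∃ ι : Fin k ↪ Fin n, ((fun i => w (ι i) : Config k), s) ∈ E k
  · obtain ⟨k, hk, ι, hι⟩ := h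
    rw [if_pos ⟨k, hk, ι, hι⟩, mul_one]
    calc φ s = φ s * (if ((fun i => w (ι i) : Config k), s) ∈ E k then (1 : ℝ≥0∞) else 0) := by
          rw [if_pos hι, mul_one]
      _ ≤ ∑ ι : Fin k ↪ Fin n,
            φ s * (if ((fun i => w (ι i) : Config k), s) ∈ E k then (1 : ℝ≥0∞) else 0) :=
          Finset.single_le_sum (f := fun ι : Fin k ↪ Fin n =>
            φ s * (if ((fun i => w (ι i) : Config k), s) ∈ E k then (1 : ℝ≥0∞) else 0))
            (fun _ _ => bot_le) (Finset.mem_univ ι)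
      _ ≤ _ := Finset.single_le_sum (f := fun k => ∑ ι : Fin k ↪ Fin n,
            φ s * (if ((fun i => w (ι i) : Config k), s) ∈ E k then (1 : ℝ≥0∞) else 0))
            (fun _ _ => bot_le) (Finset.mem_range.2 (Nat.lt_succ_iff.2 hk))
  · rw [if_neg h, mul_zero]
    exact bot_le

/-- Bad finite subsets of the gas: every finite set is the range of an embedding. -/
theorem exists_emb_of_finset {n : ℕ} (A : Finset (Fin n)) :
    ∃ ι : Fin A.card ↪ Fin n, Finset.univ.map ι = A := by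
  refine ⟨(A.orderEmbOfFin rfl).toEmbedding, ?_⟩
  rw [Finset.map_eq_image]
  exact Finset.coe_injective (by simp)

end Crest.Agent.R122.LinkGas473
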