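import Crest.Agent.R122.LinkSel_984

/-!
# Assembly of `StmtLink4` (row 122, board H1): contacts near the end of the window

* `horS R` : the contact time is in `(te - R ε, te]`; `osNull_hor`.
-/

set_option autoImplicit false
set_option linter.unusedSectionVars false

open MeasureTheory Set Filter Topology
open scoped ENNReal Classical
open Crest.AnalysisR.Kinetic
open Crest.Agent.R122.Kin796 Crest.Agent.R122.Kin796.CTree Crest.Agent.R122.Tree674
open Crest.Agent.R122.GC311 Crest.Agent.R122.EDefs602 Crest.Agent.R122.OneC285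
open Crest.Agent.R122.Long984 Crest.Agent.R122.Third741 Crest.Agent.R122.ThirdV796
open Crest.Agent.R122.OSCalc495 Crest.Agent.R122.GSCalc495

noncomputable section

namespace Crest.Agent.R122.LinkAsm984

variable {Φ : Space3 → ℝ} {f₀ : PhasePoint → ℝ} {K : ℕ} {Q : EPar} {T' : ℝ}

/-- A functional of the contact data without flux has null structure integral. -/
theorem osNull_of_flux0 (hΦ : AdmissiblePotential Φ) {g0 : ℝ} (hQ : QOk Q g0) (K : ℕ) (T' : ℝ)
    {g : CF} (hg : MeasCF g) (h0 : ∀ (P : CTree) (z : PhasePoint × Par P) (m : ℕ) (w : Config m),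
      fluxG Q.te g0 g P z m w = 0) : OSNull Φ f₀ K Q T' fun ε => sfOf ε K g := by
  refine OSNull.of_meas (fun ε _ => measSF_sfOf ε K hg) fun δ _ => ?_
  refine ⟨1, one_pos, fun ε hε _ => ?_⟩
  have hfin : IsFiniteMeasure (volume.restrict (Ioc (0 : ℝ) Q.te)) :=
    ⟨by rw [Measure.restrict_apply_univ]; exact measure_Ioc_lt_top⟩
  refine (Third741.OS_le hΦ hε hQ.ρ_ne hQ.γ_meas hQ.γ_ge (ae_restrict_mem measurableSet_Ioc)
    hg (H := sfOf ε K g) fun _ _ _ _ _ => le_rfl).trans ?_
  have h1 : ∑ P ∈ GIVStep383.trees K, ∫⁻ z : PhasePoint × Par P,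
      {z : PhasePoint × Par P | Valid Φ ε P T' z.1.2 z.2}.indicator
        (fun z => wt Φ P z.1.2 z.2 * (ToTree335.pf Φ f₀ ε P z *
          gcE f₀ ε (fun m w => fluxG Q.te g0 g P z m w))) z = 0 := by
    refine Finset.sum_eq_zero fun P _ => ?_
    have h1 : (fun z : PhasePoint × Par P => {z : PhasePoint × Par P |
        Valid Φ ε P T' z.1.2 z.2}.indicator (fun z => wt Φ P z.1.2 z.2 *
          (ToTree335.pf Φ f₀ ε P z * gcE f₀ ε (fun m w => fluxG Q.te g0 g P z m w))) z) =
        fun _ => 0 := by
      funext z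
      have h2 : gcE f₀ ε (fun m w => fluxG Q.te g0 g P z m w) = 0 := by
        simp only [h0]
        exact gcE_zero f₀ ε
      by_cases hz : z ∈ {z : PhasePoint × Par P | Valid Φ ε P T' z.1.2 z.2}
      · rw [indicator_of_mem hz, h2, mul_zero, mul_zero]
      · rw [indicator_of_notMem hz]
    rw [h1, lintegral_zero]
  rw [h1, mul_zero]
  exact zero_le

/-- The contact is at the end of the window. -/
def endG (te : ℝ) : CF := fun _P _z _m _w s _v _b => if s = te then 1 else 0

theorem measCF_endG (te : ℝ) : MeasCF (endG te) := by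
  intro P m
  have h1 : Measurable fun q : ((PhasePoint × Par P) × Config m) × (ℝ × (Space3 × Space3)) =>
      q.2.1 := measurable_fst.comp measurable_snd
  exact Measurable.ite (h1 (measurableSet_singleton te)) measurable_const measurable_const

theorem fluxG_end (te g0 : ℝ) (P : CTree) (z : PhasePoint × Par P) (m : ℕ) (w : Config m) :
    fluxG te g0 (endG te) P z m w = 0 := by
  unfold fluxG
  refine (lintegral_congr_ae ?_).trans lintegral_zero
  have h1 : ∀ᵐ s ∂(volume.restrict (Ioc (0 : ℝ) te)), s ≠ te :=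
    ae_restrict_of_ae (Measure.ae_ne volume te)
  filter_upwards [h1] with s hs
  have h2 : ∀ v b : Space3, endG te P z m w s v b = 0 := fun v b => by
    unfold endG
    rw [if_neg hs]
  simp only [h2, lintegral_zero, mul_zero]

/-- The contact is shortly before the end of the window. -/
def horV (te R : ℝ) : VF := fun ε _P _q s _v _b => if te - R * ε < s ∧ s < te then 1 else 0

theorem measVF_horV (te R : ℝ) : MeasVF (horV te R) := by
  intro ε _ P
  have h1 : Measurable fun x : (Space3 × Par P) × (ℝ × (Space3 × Space3)) => x.2.1 :=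
    measurable_fst.comp measurable_snd
  exact Measurable.ite ((measurableSet_lt measurable_const h1).inter
    (measurableSet_lt h1 measurable_const)) measurable_const measurable_const

/-- Contact time in `(te - R ε, te]`. -/
def horS (te R : ℝ) (K : ℕ) (ε : ℝ) : SF := fun P z _m _w l =>
  if P.leaves ≤ K ∧ te - R * ε < cT ε z l ∧ cT ε z l ≤ te then 1 else 0

theorem osNull_hor (hΦ : AdmissiblePotential Φ) (hf : Measurable f₀) {A : Space3 → ℝ≥0∞}
    {C b g0 : ℝ} (hF : FOk f₀ A C b) (hQ : QOk Q g0) (K : ℕ) (T' R : ℝ) :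
    OSNull Φ f₀ K Q T' fun ε => horS Q.te R K ε := by
  have hfin : IsFiniteMeasure (volume.restrict (Ioc (0 : ℝ) Q.te)) :=
    ⟨by rw [Measure.restrict_apply_univ]; exact measure_Ioc_lt_top⟩
  have h1 : OSNull Φ f₀ K Q T' fun ε => sfOf ε K (endG Q.te) :=
    osNull_of_flux0 hΦ hQ K T' (measCF_endG Q.te) fun P z m w => fluxG_end Q.te g0 P z m w
  have h2 : OSNull Φ f₀ K Q T' fun ε => sfOf ε K (cfOf (horV Q.te R) ε) := by
    have ht := OS_tendsto hΦ hF hQ K T' (κ := volume.restrict (Ioc (0 : ℝ) Q.te))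
      (ae_restrict_mem measurableSet_Ioc) (measVF_horV Q.te R) (fun ε P q s v b => ?_)
      (fun P => Eventually.of_forall fun q s hs v b => ?_)
      (H := fun ε => sfOf ε K (cfOf (horV Q.te R) ε)) (fun ε _ P z m w l => le_rfl)
    · refine OSNull.of_meas (fun ε hε => measSF_sfOf ε K (measCF_cfOf (measVF_horV Q.te R) hε))
        fun δ hδ => ?_
      have h := ht.eventually (gt_mem_nhds (show (0 : ℝ≥0∞) < ENNReal.ofReal δ by simpa using hδ))
      obtain ⟨u, hu, hsub⟩ := mem_nhdsGT_iff_exists_Ioo_subset.1 h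
      exact ⟨u, hu, fun ε h0 h2 => (hsub ⟨h0, h2⟩).le⟩
    · unfold horV
      split_ifs
      · exact le_rfl
      · exact bot_le
    · refine tendsto_const_nhds.congr' ?_
      by_cases hs2 : s < Q.te
      · have h3 : Tendsto (fun ε : ℝ => Q.te - R * ε) (𝓝[>] 0) (𝓝 Q.te) := by
          have h4 : Tendsto (fun ε : ℝ => Q.te - R * ε) (𝓝 0) (𝓝 (Q.te - R * 0)) :=
            tendsto_const_nhds.sub (tendsto_id.const_mul R)
          rw [mul_zero, sub_zero] at h4
          exact h4.mono_left nhdsWithin_le_nhds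
        filter_upwards [h3.eventually (lt_mem_nhds hs2)] with ε hε
        unfold horV
        rw [if_neg]
        rintro ⟨h5, -⟩
        exact absurd h5 (not_lt.2 hε.le)
      · filter_upwards with ε
        unfold horV
        rw [if_neg]
        rintro ⟨-, h5⟩
        exact hs2 h5
  refine (h1.add hΦ hf hQ.γ_meas h2).congr fun ε hε P z m w l hg => ?_
  show horS Q.te R K ε P z m w l ≤ sfOf ε K (endG Q.te) P z m w l +
    sfOf ε K (cfOf (horV Q.te R) ε) P z m w l
  unfold horS
  split_ifs with h
  · obtain ⟨hP, h3, h4⟩ := h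
    rcases eq_or_lt_of_le h4 with h5 | h5
    · refine le_trans ?_ (le_self_add)
      unfold sfOf endG
      rw [if_pos hP, if_pos h5]
    · refine le_trans ?_ (le_add_self)
      unfold sfOf cfOf horV
      rw [if_pos hP, if_pos ⟨h3, h5⟩]
  · exact bot_le

end Crest.Agent.R122.LinkAsm984

end
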