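import Crest.Agent.R122.VolRoot_365
import Crest.Agent.R122.BirthsEvo_45
import Crest.Agent.R122.GCBounds_311

/-!
# Row 122, H11 (LINK mass), part 1 (helper547): cost of one fresh cluster

`step_bound`: the Gaussian-weighted volume of connected `k`-clusters whose member `e` is, at the
time `r`, within `ρ` of a given point, is at most `C ε^(2(k-1)) ρ³`, and this even with the factor
`exp (2 β kin)`.
-/

set_option autoImplicit false
set_option maxHeartbeats 400000

open MeasureTheory Set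
open Crest.AnalysisR.Kinetic
open Crest.Agent.R122.Flow671 Crest.Agent.R122.Loc45 Crest.Agent.R122.Causal291
open Crest.Agent.R122.Vol365 Crest.Agent.R122.GC311
open scoped ENNReal Classical

noncomputable section

namespace Crest.Agent.R122.LinkM547

/-- one power of the activity per cluster -/
theorem activity_pow_mul {ε : ℝ} (hε : 0 < ε) {k : ℕ} (hk : 1 ≤ k) :
    activity ε ^ k * ENNReal.ofReal ε ^ (2 * (k - 1)) = activity ε := by
  obtain ⟨m, rfl⟩ := Nat.exists_eq_add_of_le' hk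
  have h2 : m + 1 - 1 = m := by omega
  rw [h2]
  unfold activity
  rw [pow_mul, ← ENNReal.ofReal_pow hε.le, pow_succ, mul_assoc, mul_comm (ENNReal.ofReal (ε ^ 2)⁻¹),
    ← mul_assoc, ← mul_pow, ← ENNReal.ofReal_mul (by positivity)]
  rw [inv_mul_cancel₀ (by positivity)]
  simp

theorem gcWeight_exp_le {f₀ : PhasePoint → ℝ} {C₀ β : ℝ} (hC₀ : 0 ≤ C₀)
    (hf : ∀ z : PhasePoint, f₀ z ≤ C₀ * Real.exp (-(2 * β * ‖z.2‖ ^ 2))) (ε : ℝ) (k : ℕ)
    (V : Config k) :
    gcWeight f₀ ε k V * ENNReal.ofReal (Real.exp (2 * β * kin V)) ≤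
      gcWeight (fun z => C₀ * Real.exp (-(β * ‖z.2‖ ^ 2))) ε k V := by
  unfold gcWeight
  by_cases hV : V ∈ PairExcluded ε k
  · rw [indicator_of_mem hV, indicator_of_mem hV]
    have h1 : ENNReal.ofReal (Real.exp (2 * β * kin V)) =
        ∏ i : Fin k, ENNReal.ofReal (Real.exp (β * ‖(V i).2‖ ^ 2)) := by
      rw [← ENNReal.ofReal_prod_of_nonneg (fun i _ => (Real.exp_pos _).le), ← Real.exp_sum]
      congr 2
      unfold kin
      rw [← Finset.mul_sum]
      ring
    rw [h1, ← Finset.prod_mul_distrib]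
    refine Finset.prod_le_prod' fun i _ => ?_
    rw [← ENNReal.ofReal_mul' (Real.exp_pos _).le]
    refine ENNReal.ofReal_le_ofReal ?_
    calc f₀ (V i) * Real.exp (β * ‖(V i).2‖ ^ 2)
        ≤ C₀ * Real.exp (-(2 * β * ‖(V i).2‖ ^ 2)) * Real.exp (β * ‖(V i).2‖ ^ 2) :=
          mul_le_mul_of_nonneg_right (hf _) (Real.exp_pos _).le
      _ = C₀ * Real.exp (-(β * ‖(V i).2‖ ^ 2)) := by
          rw [mul_assoc, ← Real.exp_add]
          congr 2
          ring
  · rw [indicator_of_notMem hV, zero_mul]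
    exact bot_le

theorem lintegral_gw_ball {β : ℝ} (hβ : 0 < β) : ∃ C : ℝ≥0∞, C ≠ ∞ ∧ ∀ (a : Space3) (ρ : ℝ), 0 ≤ ρ →
    ∫⁻ y : PhasePoint, gw β y * (if dist y.1 a ≤ ρ then 1 else 0) ≤ C * ENNReal.ofReal ρ ^ 3 := by
  refine ⟨ENNReal.ofReal (4 / 3 * Real.pi) *
    ∫⁻ v : Space3, ENNReal.ofReal (Real.exp (-(β * ‖v‖ ^ 2))),
    ENNReal.mul_ne_top ENNReal.ofReal_ne_top (lintegral_gaussian_lt_top hβ).ne, ?_⟩
  intro a ρ hρ
  have hm : Measurable (fun y : PhasePoint => gw β y * (if dist y.1 a ≤ ρ then (1 : ℝ≥0∞) else 0)) := by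
    refine (measurable_gw β).mul (Measurable.ite ?_ measurable_const measurable_const)
    exact measurableSet_le (measurable_fst.dist measurable_const) measurable_const
  have e1 : ∫⁻ y : PhasePoint, gw β y * (if dist y.1 a ≤ ρ then (1 : ℝ≥0∞) else 0) =
      ∫⁻ x : Space3, ∫⁻ v : Space3, ENNReal.ofReal (Real.exp (-(β * ‖v‖ ^ 2))) *
        (if dist x a ≤ ρ then 1 else 0) := by
    change ∫⁻ z, _ ∂((volume : Measure Space3).prod (volume : Measure Space3)) = _
    exact lintegral_prod _ hm.aemeasurable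
  rw [e1]
  have e2 : ∀ x : Space3, ∫⁻ v : Space3, ENNReal.ofReal (Real.exp (-(β * ‖v‖ ^ 2))) *
        (if dist x a ≤ ρ then (1 : ℝ≥0∞) else 0) =
      (Metric.closedBall a ρ).indicator (fun _ => ∫⁻ v : Space3,
        ENNReal.ofReal (Real.exp (-(β * ‖v‖ ^ 2)))) x := by
    intro x
    by_cases hx : dist x a ≤ ρ
    · rw [indicator_of_mem (Metric.mem_closedBall.2 hx)]
      simp [hx]
    · rw [indicator_of_notMem (fun h => hx (Metric.mem_closedBall.1 h))]
      simp [hx]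
  simp_rw [e2]
  rw [lintegral_indicator_const Metric.isClosed_closedBall.measurableSet]
  have hv : volume (Metric.closedBall a ρ) = ENNReal.ofReal (4 / 3 * Real.pi) * ENNReal.ofReal ρ ^ 3 := by
    rw [EuclideanSpace.volume_closedBall_fin_three a ρ, mul_comm]
    congr 2
    ring
  rw [hv]
  exact le_of_eq (by ring)

/-- **Cost of one fresh connected cluster.** -/
theorem step_bound {Φ : Space3 → ℝ} (hΦ : AdmissiblePotential Φ) {β : ℝ} (hβ : 0 < β)
    (T C₀ : ℝ) (hC₀ : 0 ≤ C₀) (K : ℕ) : ∃ C : ℝ≥0∞, C ≠ ∞ ∧ ∀ f₀ : PhasePoint → ℝ,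
      (∀ z : PhasePoint, f₀ z ≤ C₀ * Real.exp (-(2 * β * ‖z.2‖ ^ 2))) →
      ∀ ε : ℝ, 0 < ε → ε ≤ 1 → ∀ k ≤ K, ∀ (e : Fin k) (r : ℝ), 0 ≤ r → r ≤ T →
      ∀ (a : Space3) (ρ : ℝ), 0 ≤ ρ →
      ∫⁻ V : Config k, gcWeight f₀ ε k V * ENNReal.ofReal (Real.exp (2 * β * kin V)) *
          (if AllConn (NContact Φ ε 0 T V) ∧ dist (flow Φ ε r V e).1 a ≤ ρ then 1 else 0) ≤
        C * ENNReal.ofReal ε ^ (2 * (k - 1)) * ENNReal.ofReal ρ ^ 3 := by
  obtain ⟨G, hG, hball⟩ := lintegral_gw_ball (β := β / 2) (by positivity)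
  have hk : ∀ k : ℕ, ∃ C : ℝ≥0∞, C ≠ ∞ ∧ ∀ f₀ : PhasePoint → ℝ,
      (∀ z : PhasePoint, f₀ z ≤ C₀ * Real.exp (-(2 * (β / 2) * ‖z.2‖ ^ 2))) →
      ∀ ε : ℝ, 0 < ε → ε ≤ 1 → ∀ (ι : Type) [Fintype ι],
      Fintype.card ι = k → ∀ (i : ι) (a b τ : ℝ), a ≤ τ → τ ≤ b → b - a ≤ T →
      ∀ F : PhasePoint → ℝ≥0∞, Measurable F →
      ∫⁻ z in {z : ι → PhasePoint | Excl ε z ∧ AllConn (NContact Φ ε a b z)},
          (∏ j, ENNReal.ofReal (f₀ (z j))) * F (flow Φ ε τ z i) ≤
        C * ENNReal.ofReal ε ^ (2 * (k - 1)) * ∫⁻ y, gw (β / 2) y * F y := fun k =>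
    exists_root_bound hΦ (β := β / 2) (by positivity) T C₀ hC₀ k
  choose C hC h using hk
  refine ⟨(∑ k ∈ Finset.range (K + 1), C k) * G, ENNReal.mul_ne_top
    (ENNReal.sum_ne_top.2 fun k _ => hC k) hG, ?_⟩
  intro f₀ hf ε hε hε1 k hkK e r hr0 hrT a ρ hρ
  set g : PhasePoint → ℝ := fun z => C₀ * Real.exp (-(β * ‖z.2‖ ^ 2)) with hg
  have hg' : ∀ z : PhasePoint, g z ≤ C₀ * Real.exp (-(2 * (β / 2) * ‖z.2‖ ^ 2)) := by
    intro z
    rw [hg]
    apply le_of_eq
    simp only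
    congr 3
    ring
  set F : PhasePoint → ℝ≥0∞ := fun y => if dist y.1 a ≤ ρ then 1 else 0 with hF
  have hFm : Measurable F := Measurable.ite
    (measurableSet_le (measurable_fst.dist measurable_const) measurable_const)
    measurable_const measurable_const
  have h1 := h k g hg' ε hε hε1 (Fin k) (Fintype.card_fin k) e 0 T r hr0 hrT (by linarith) F hFm
  have hCk : C k ≤ ∑ k ∈ Finset.range (K + 1), C k :=
    Finset.single_le_sum (f := C) (fun _ _ => bot_le) (Finset.mem_range.2 (by omega))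
  calc ∫⁻ V : Config k, gcWeight f₀ ε k V * ENNReal.ofReal (Real.exp (2 * β * kin V)) *
          (if AllConn (NContact Φ ε 0 T V) ∧ dist (flow Φ ε r V e).1 a ≤ ρ then 1 else 0)
      ≤ ∫⁻ V : Config k, {z : Config k | Excl ε z ∧ AllConn (NContact Φ ε 0 T z)}.indicator
          (fun z => (∏ j, ENNReal.ofReal (g (z j))) * F (flow Φ ε r z e)) V := by
        refine lintegral_mono fun V => ?_
        by_cases hc : AllConn (NContact Φ ε 0 T V) ∧ dist (flow Φ ε r V e).1 a ≤ ρ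
        · simp only
          rw [if_pos hc, mul_one]
          refine (gcWeight_exp_le hC₀ hf ε k V).trans ?_
          unfold gcWeight
          by_cases hV : V ∈ PairExcluded ε k
          · rw [indicator_of_mem hV, indicator_of_mem (show V ∈ {z : Config k | Excl ε z ∧
              AllConn (NContact Φ ε 0 T z)} from ⟨hV, hc.1⟩)]
            have : F (flow Φ ε r V e) = 1 := by
              simp only [hF]
              rw [if_pos hc.2]
            rw [this, mul_one]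
          · rw [indicator_of_notMem hV]
            exact bot_le
        · simp only
          rw [if_neg hc, mul_zero]
          exact bot_le
    _ ≤ ∫⁻ V in {z : Config k | Excl ε z ∧ AllConn (NContact Φ ε 0 T z)},
          (∏ j, ENNReal.ofReal (g (V j))) * F (flow Φ ε r V e) := lintegral_indicator_le _ _
    _ ≤ C k * ENNReal.ofReal ε ^ (2 * (k - 1)) * ∫⁻ y, gw (β / 2) y * F y := h1
    _ ≤ (∑ k ∈ Finset.range (K + 1), C k) * ENNReal.ofReal ε ^ (2 * (k - 1)) *
          (G * ENNReal.ofReal ρ ^ 3) := by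
        gcongr
        exact hball a ρ hρ
    _ = _ := by ring

end Crest.Agent.R122.LinkM547

end
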