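import Crest.Agent.R122.LinkM1_547
import Crest.Agent.R122.LinkDefs_547

/-!
# Row 122, H11 (LINK mass), part 2 (helper547): measurability and volume of runs
-/

set_option autoImplicit false
set_option maxHeartbeats 400000

open MeasureTheory Set
open Crest.AnalysisR.Kinetic
open Crest.Agent.R122.Flow671 Crest.Agent.R122.Loc45 Crest.Agent.R122.Causal291
open Crest.Agent.R122.Vol365 Crest.Agent.R122.GC311 Crest.Agent.R122.EDefs602
open Crest.Agent.R122.Ins45
open scoped ENNReal Classical

noncomputable section

namespace Crest.Agent.R122.LinkM547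

variable {Φ : Space3 → ℝ} {ε : ℝ}

theorem measurableSet_allConn (hΦ : AdmissiblePotential Φ) (hε : 0 < ε) (T : ℝ) (k : ℕ) :
    MeasurableSet {V : Config k | AllConn (NContact Φ ε 0 T V)} := by
  have h := Bodies.measurableSet_rel (X := Config k) (D := univ) MeasurableSet.univ
    (fun V : Config k => NContact Φ ε 0 T V) (fun i j => by
      have h1 := measurableSet_exists_Icc (Ω := Config k) (α := fun _ => (0 : ℝ)) (β := fun _ => T)
        measurable_const measurable_const (g := fun V s => dist (flow Φ ε s V i).1 (flow Φ ε s V j).1)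
        (fun V => by
          have hc := flow_continuous_time hΦ hε V
          exact (((continuous_apply i).comp hc).fst).dist (((continuous_apply j).comp hc).fst))
        (fun s => by
          have hm := measurable_flow (ι := Fin k) hΦ hε s
          exact (((measurable_pi_apply i).comp hm).fst).dist (((measurable_pi_apply j).comp hm).fst)) ε
      simpa [NContact] using h1) AllConn
  simpa using h

theorem measurable_hd {k m : ℕ} : Measurable (hd : Config (k + m) → Config k) :=
  measurable_pi_iff.2 fun _ => measurable_pi_apply _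

theorem measurable_tl {k m : ℕ} : Measurable (tl : Config (k + m) → Config m) :=
  measurable_pi_iff.2 fun _ => measurable_pi_apply _

@[simp] theorem hd_append {k m : ℕ} (V : Config k) (w : Config m) : hd (Fin.append V w) = V := by
  funext i; simp [hd]

@[simp] theorem tl_append {k m : ℕ} (V : Config k) (w : Config m) : tl (Fin.append V w) = w := by
  funext i; simp [tl]

theorem kin_append {k m : ℕ} (V : Config k) (w : Config m) :
    kin (Fin.append V w : Config (k + m)) = kin V + kin w := by
  unfold kin
  rw [Fin.sum_univ_add]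
  simp
  ring

theorem measurable_elim {G H : Type} [Fintype G] [Fintype H] {δ : Type*} [MeasurableSpace δ]
    {f : δ → G → PhasePoint} {g : δ → H → PhasePoint} (hf : Measurable f) (hg : Measurable g) :
    Measurable fun x => (Sum.elim (f x) (g x) : G ⊕ H → PhasePoint) := by
  refine measurable_pi_iff.2 fun i => ?_
  rcases i with i | i
  · exact (measurable_pi_apply i).comp hf
  · exact (measurable_pi_apply i).comp hg

theorem measurable_path_z (hΦ : AdmissiblePotential Φ) (hε : 0 < ε) {G : Type} [Fintype G]
    (b : G → ℝ) (m : G → ℕ) (r : ℝ) (q : G) {δ : Type*} [MeasurableSpace δ]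
    {f : δ → G → PhasePoint} (hf : Measurable f) :
    Measurable fun x => ((⟨b, f x, m⟩ : MW G).path Φ ε r q).1 := by
  have h := measurable_evo (ι := G) hΦ hε (δ := δ) (b := fun _ => b) (s := fun _ => (0 : ℝ))
    (t := fun _ => r) (Z := f) (fun _ => measurable_const) measurable_const measurable_const hf
  exact (((measurable_pi_apply q).comp h)).fst

theorem measurableSet_ch (hΦ : AdmissiblePotential Φ) (hε : 0 < ε) (T ρ : ℝ) :
    ∀ (l : List (Step × ℝ)) (G : Type) [Fintype G] (b : G → ℝ) (m : G → ℕ) (q : G),
      MeasurableSet {p : (G → PhasePoint) × Config (tot l) | Ch Φ ε T ρ l G ⟨b, p.1, m⟩ q p.2} := by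
  intro l
  induction l with
  | nil =>
    intro G _ b m q
    have : {p : (G → PhasePoint) × Config (tot []) | Ch Φ ε T ρ [] G ⟨b, p.1, m⟩ q p.2} = univ := by
      ext p; simp [Ch]
    rw [this]; exact MeasurableSet.univ
  | cons a l ih =>
    intro G _ b m q
    obtain ⟨s, r⟩ := a
    have h1 : Measurable fun p : (G → PhasePoint) × Config (tot ((s, r) :: l)) =>
        hd (k := s.k) (m := tot l) p.2 := measurable_hd.comp measurable_snd
    have h2 : Measurable fun p : (G → PhasePoint) × Config (tot ((s, r) :: l)) =>
        tl (k := s.k) (m := tot l) p.2 := measurable_tl.comp measurable_snd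
    have hA : MeasurableSet {p : (G → PhasePoint) × Config (tot ((s, r) :: l)) |
        AllConn (NContact Φ ε 0 T (hd (k := s.k) (m := tot l) p.2))} :=
      h1 (measurableSet_allConn hΦ hε T s.k)
    have hB : MeasurableSet {p : (G → PhasePoint) × Config (tot ((s, r) :: l)) |
        dist (flow Φ ε r (hd (k := s.k) (m := tot l) p.2) s.e).1
          ((⟨b, p.1, m⟩ : MW G).path Φ ε r q).1 ≤ ρ} := by
      refine measurableSet_le (Measurable.dist ?_ ?_) measurable_const
      · exact (((measurable_pi_apply s.e).comp ((measurable_flow (ι := Fin s.k) hΦ hε r).comp h1))).fst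
      · exact measurable_path_z hΦ hε b m r q measurable_fst
    have hC : MeasurableSet {p : (G → PhasePoint) × Config (tot ((s, r) :: l)) |
        (match s.kd with
          | .stay => Ch Φ ε T ρ l (G ⊕ Fin s.k)
              ((⟨b, p.1, m⟩ : MW G).add (MW.cfg (hd (k := s.k) (m := tot l) p.2)))
              (Sum.inl q) (tl (k := s.k) (m := tot l) p.2)
          | .switch => Ch Φ ε T ρ l (G ⊕ Fin s.k)
              ((⟨b, p.1, m⟩ : MW G).add (MW.cfg (hd (k := s.k) (m := tot l) p.2)))
              (Sum.inr s.e) (tl (k := s.k) (m := tot l) p.2)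
          | .ghost => Ch Φ ε T ρ l (Fin s.k) (MW.cfg (hd (k := s.k) (m := tot l) p.2)) s.e
              (tl (k := s.k) (m := tot l) p.2))} := by
      have hS : Measurable fun p : (G → PhasePoint) × Config (tot ((s, r) :: l)) =>
          ((Sum.elim p.1 (hd (k := s.k) (m := tot l) p.2) : G ⊕ Fin s.k → PhasePoint),
            tl (k := s.k) (m := tot l) p.2) := (measurable_elim measurable_fst h1).prodMk h2
      rcases hk : s.kd with _ | _ | _
      · simp only
        exact hS (ih (G ⊕ Fin s.k) (Sum.elim b fun _ => 0) (Sum.elim m fun _ => 1) (Sum.inl q))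
      · simp only
        exact hS (ih (G ⊕ Fin s.k) (Sum.elim b fun _ => 0) (Sum.elim m fun _ => 1) (Sum.inr s.e))
      · simp only
        exact (h1.prodMk h2) (ih (Fin s.k) (fun _ => 0) (fun _ => 1) s.e)
    have : {p : (G → PhasePoint) × Config (tot ((s, r) :: l)) |
        Ch Φ ε T ρ ((s, r) :: l) G ⟨b, p.1, m⟩ q p.2} = _ := rfl
    exact hA.inter (hB.inter hC)

theorem measurableSet_ch_right (hΦ : AdmissiblePotential Φ) (hε : 0 < ε) (T ρ : ℝ)
    (l : List (Step × ℝ)) (G : Type) [Fintype G] (Z : MW G) (q : G) :
    MeasurableSet {V : Config (tot l) | Ch Φ ε T ρ l G Z q V} :=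
  (measurable_prodMk_left (x := Z.z)) (measurableSet_ch hΦ hε T ρ l G Z.b Z.m q)

theorem measurable_kin {k : ℕ} : Measurable (kin : Config k → ℝ) := by
  unfold kin
  refine measurable_const.mul (Finset.measurable_sum _ fun i _ => ?_)
  exact ((measurable_pi_apply i).snd.norm).pow_const 2

theorem measurable_wch (hΦ : AdmissiblePotential Φ) (hε : 0 < ε) (T ρ κ : ℝ)
    (l : List (Step × ℝ)) (G : Type) [Fintype G] (Z : MW G) (q : G) :
    Measurable fun V : Config (tot l) => ENNReal.ofReal (Real.exp (κ * kin V)) *
      (if Ch Φ ε T ρ l G Z q V then (1 : ℝ≥0∞) else 0) :=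
  ((Real.measurable_exp.comp (measurable_kin.const_mul κ)).ennreal_ofReal).mul
    (Measurable.ite (measurableSet_ch_right hΦ hε T ρ l G Z q) measurable_const measurable_const)

/-- **Volume of runs with prescribed steps and times.** -/
theorem lintegral_ch_le (hΦ : AdmissiblePotential Φ) {f₀ : PhasePoint → ℝ} (hf : Measurable f₀)
    (hε : 0 < ε) {T ρ κ : ℝ} {K : ℕ} {C : ℝ≥0∞}
    (hC : ∀ k ≤ K, ∀ (e : Fin k) (r : ℝ), 0 ≤ r → r ≤ T → ∀ a : Space3,
      ∫⁻ V : Config k, gcWeight f₀ ε k V * ENNReal.ofReal (Real.exp (κ * kin V)) *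
          (if AllConn (NContact Φ ε 0 T V) ∧ dist (flow Φ ε r V e).1 a ≤ ρ then 1 else 0) ≤
        C * ENNReal.ofReal ε ^ (2 * (k - 1)) * ENNReal.ofReal ρ ^ 3) :
    ∀ (l : List (Step × ℝ)), (∀ p ∈ l, p.1.k ≤ K) → (∀ p ∈ l, p.2 ∈ Icc (0 : ℝ) T) →
      ∀ (G : Type) [Fintype G] (Z : MW G) (q : G),
      ∫⁻ V : Config (tot l), gcWeight f₀ ε (tot l) V * (ENNReal.ofReal (Real.exp (κ * kin V)) *
          (if Ch Φ ε T ρ l G Z q V then (1 : ℝ≥0∞) else 0)) ≤
        (l.map fun p => C * ENNReal.ofReal ε ^ (2 * (p.1.k - 1)) * ENNReal.ofReal ρ ^ 3).prod := by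
  intro l
  induction l with
  | nil =>
    intro _ _ G _ Z q
    have h0 : ∀ V : Config (tot []), gcWeight f₀ ε (tot []) V *
        (ENNReal.ofReal (Real.exp (κ * kin V)) *
          (if Ch Φ ε T ρ [] G Z q V then (1 : ℝ≥0∞) else 0)) ≤ 1 := by
      intro V
      have hk : kin V = 0 := by
        unfold kin
        have : (Finset.univ : Finset (Fin (tot []))) = ∅ := Finset.univ_eq_empty (α := Fin 0)
        rw [this]; simp
      have hw : gcWeight f₀ ε (tot []) V ≤ 1 := by
        unfold gcWeight
        refine (indicator_le_self _ _ _).trans ?_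
        have : (Finset.univ : Finset (Fin (tot []))) = ∅ := Finset.univ_eq_empty (α := Fin 0)
        rw [this]; simp
      rw [hk]
      simp only [mul_zero, Real.exp_zero, ENNReal.ofReal_one, one_mul]
      calc _ ≤ (1 : ℝ≥0∞) * 1 := mul_le_mul' hw (by split_ifs <;> simp)
        _ = 1 := one_mul 1
    refine (lintegral_mono h0).trans ?_
    have hv : (volume : Measure (Config (tot []))) univ = 1 := by
      change (volume : Measure (Config 0)) univ = 1
      have h1 : (volume : Measure (Config 0)) = Measure.pi fun _ : Fin 0 =>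
        (volume : Measure PhasePoint) := rfl
      rw [h1]
      exact (Measure.pi_univ _).trans (by simp)
    rw [lintegral_const, hv]
    simp
  | cons a l ih =>
    intro hk ht G _ Z q
    obtain ⟨s, r⟩ := a
    have hks : s.k ≤ K := hk (s, r) (List.mem_cons_self ..)
    have hts : r ∈ Icc (0 : ℝ) T := ht (s, r) (List.mem_cons_self ..)
    have ih' := ih (fun p hp => hk p (List.mem_cons_of_mem _ hp))
      (fun p hp => ht p (List.mem_cons_of_mem _ hp))
    set P : ℝ≥0∞ := (l.map fun p => C * ENNReal.ofReal ε ^ (2 * (p.1.k - 1)) *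
      ENNReal.ofReal ρ ^ 3).prod with hP
    have e1 := lintegral_append_gc hf ε (k := s.k) (m := tot l)
      (fun V => ENNReal.ofReal (Real.exp (κ * kin V)) *
        (if Ch Φ ε T ρ ((s, r) :: l) G Z q V then (1 : ℝ≥0∞) else 0))
      (measurable_wch hΦ hε T ρ κ ((s, r) :: l) G Z q)
    change ∫⁻ V : Config (s.k + tot l), gcWeight f₀ ε (s.k + tot l) V *
      (ENNReal.ofReal (Real.exp (κ * kin V)) *
        (if Ch Φ ε T ρ ((s, r) :: l) G Z q V then (1 : ℝ≥0∞) else 0)) ≤ _
    rw [e1, List.map_cons, List.prod_cons]
    change _ ≤ C * ENNReal.ofReal ε ^ (2 * (s.k - 1)) * ENNReal.ofReal ρ ^ 3 * P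
    have key : ∀ V : Config s.k, gcWeight f₀ ε s.k V *
        ∫⁻ w : Config (tot l), gcWeight f₀ ε (tot l) w * (perpInd ε V w *
          (ENNReal.ofReal (Real.exp (κ * kin (Fin.append V w : Config (s.k + tot l)))) *
            (if Ch Φ ε T ρ ((s, r) :: l) G Z q (Fin.append V w) then (1 : ℝ≥0∞) else 0))) ≤
        (gcWeight f₀ ε s.k V * ENNReal.ofReal (Real.exp (κ * kin V)) *
          (if AllConn (NContact Φ ε 0 T V) ∧ dist (flow Φ ε r V s.e).1 (Z.path Φ ε r q).1 ≤ ρ
            then 1 else 0)) * P := by
      intro V
      by_cases hc : AllConn (NContact Φ ε 0 T V) ∧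
          dist (flow Φ ε r V s.e).1 (Z.path Φ ε r q).1 ≤ ρ
      · rw [if_pos hc, mul_one, mul_assoc]
        refine mul_le_mul_right ?_ _
        -- the next group
        have hnext : ∃ (G' : Type) (_ : Fintype G') (Z' : MW G') (q' : G'),
            ∀ w : Config (tot l), Ch Φ ε T ρ ((s, r) :: l) G Z q (Fin.append V w) →
              Ch Φ ε T ρ l G' Z' q' w := by
          rcases hkd : s.kd with _ | _ | _
          · refine ⟨G ⊕ Fin s.k, inferInstance, Z.add (MW.cfg V), Sum.inl q, fun w hw => ?_⟩
            have := hw.2.2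
            simp only [hkd, hd_append, tl_append] at this
            exact this
          · refine ⟨G ⊕ Fin s.k, inferInstance, Z.add (MW.cfg V), Sum.inr s.e, fun w hw => ?_⟩
            have := hw.2.2
            simp only [hkd, hd_append, tl_append] at this
            exact this
          · refine ⟨Fin s.k, inferInstance, MW.cfg V, s.e, fun w hw => ?_⟩
            have := hw.2.2
            simp only [hkd, hd_append, tl_append] at this
            exact this
        obtain ⟨G', hG', Z', q', hnext⟩ := hnext
        calc ∫⁻ w : Config (tot l), gcWeight f₀ ε (tot l) w * (perpInd ε V w *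
              (ENNReal.ofReal (Real.exp (κ * kin (Fin.append V w : Config (s.k + tot l)))) *
                (if Ch Φ ε T ρ ((s, r) :: l) G Z q (Fin.append V w) then (1 : ℝ≥0∞) else 0)))
            ≤ ∫⁻ w : Config (tot l), ENNReal.ofReal (Real.exp (κ * kin V)) *
                (gcWeight f₀ ε (tot l) w * (ENNReal.ofReal (Real.exp (κ * kin w)) *
                (if Ch Φ ε T ρ l G' Z' q' w then (1 : ℝ≥0∞) else 0))) := by
              refine lintegral_mono fun w => ?_
              have e2 : ENNReal.ofReal (Real.exp (κ * kin (Fin.append V w : Config (s.k + tot l)))) =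
                  ENNReal.ofReal (Real.exp (κ * kin V)) * ENNReal.ofReal (Real.exp (κ * kin w)) := by
                rw [kin_append, mul_add, Real.exp_add, ENNReal.ofReal_mul (Real.exp_pos _).le]
              simp only
              rw [e2]
              have e3 : (if Ch Φ ε T ρ ((s, r) :: l) G Z q (Fin.append V w) then (1 : ℝ≥0∞) else 0) ≤
                  (if Ch Φ ε T ρ l G' Z' q' w then (1 : ℝ≥0∞) else 0) := by
                split_ifs with h1 h2
                · exact le_rfl
                · exact absurd (hnext w h1) h2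
                · exact bot_le
                · exact bot_le
              have e4 : perpInd ε V w ≤ 1 := by
                unfold perpInd; split_ifs <;> simp
              calc gcWeight f₀ ε (tot l) w * (perpInd ε V w *
                    (ENNReal.ofReal (Real.exp (κ * kin V)) * ENNReal.ofReal (Real.exp (κ * kin w)) *
                      (if Ch Φ ε T ρ ((s, r) :: l) G Z q (Fin.append V w) then (1 : ℝ≥0∞) else 0)))
                  ≤ gcWeight f₀ ε (tot l) w * (1 *
                    (ENNReal.ofReal (Real.exp (κ * kin V)) * ENNReal.ofReal (Real.exp (κ * kin w)) *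
                      (if Ch Φ ε T ρ l G' Z' q' w then (1 : ℝ≥0∞) else 0))) := by gcongr
                _ = _ := by ring
          _ = ENNReal.ofReal (Real.exp (κ * kin V)) * ∫⁻ w : Config (tot l),
                (gcWeight f₀ ε (tot l) w * (ENNReal.ofReal (Real.exp (κ * kin w)) *
                (if Ch Φ ε T ρ l G' Z' q' w then (1 : ℝ≥0∞) else 0))) :=
              lintegral_const_mul' _ _ ENNReal.ofReal_ne_top
          _ ≤ ENNReal.ofReal (Real.exp (κ * kin V)) * P := by
              gcongr
              exact ih' G' Z' q'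
      · have hno : ∀ w : Config (tot l), ¬ Ch Φ ε T ρ ((s, r) :: l) G Z q (Fin.append V w) := by
          intro w hw
          apply hc
          have h1 := hw.1
          have h2 := hw.2.1
          simp only [hd_append] at h1 h2
          exact ⟨h1, h2⟩
        have : ∫⁻ w : Config (tot l), gcWeight f₀ ε (tot l) w * (perpInd ε V w *
          (ENNReal.ofReal (Real.exp (κ * kin (Fin.append V w : Config (s.k + tot l)))) *
            (if Ch Φ ε T ρ ((s, r) :: l) G Z q (Fin.append V w) then (1 : ℝ≥0∞) else 0))) = 0 := by
          simp [hno]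
        rw [this, mul_zero]
        exact bot_le
    refine (lintegral_mono key).trans ?_
    by_cases hPtop : P = ∞
    · -- degenerate case
      by_cases hI : ∫⁻ V : Config s.k, gcWeight f₀ ε s.k V * ENNReal.ofReal (Real.exp (κ * kin V)) *
          (if AllConn (NContact Φ ε 0 T V) ∧ dist (flow Φ ε r V s.e).1 (Z.path Φ ε r q).1 ≤ ρ
            then 1 else 0) = 0
      · have hm : Measurable fun V : Config s.k => gcWeight f₀ ε s.k V *
          ENNReal.ofReal (Real.exp (κ * kin V)) *
          (if AllConn (NContact Φ ε 0 T V) ∧ dist (flow Φ ε r V s.e).1 (Z.path Φ ε r q).1 ≤ ρ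
            then (1 : ℝ≥0∞) else 0) := by
          refine ((measurable_gcWeight hf ε s.k).mul
            ((Real.measurable_exp.comp (measurable_kin.const_mul κ)).ennreal_ofReal)).mul ?_
          refine Measurable.ite ((measurableSet_allConn hΦ hε T s.k).inter ?_) measurable_const
            measurable_const
          exact measurableSet_le (((((measurable_pi_apply s.e).comp
            (measurable_flow (ι := Fin s.k) hΦ hε r))).fst).dist measurable_const) measurable_const
        rw [lintegral_eq_zero_iff hm] at hI
        have : ∫⁻ V : Config s.k, gcWeight f₀ ε s.k V * ENNReal.ofReal (Real.exp (κ * kin V)) *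
          (if AllConn (NContact Φ ε 0 T V) ∧ dist (flow Φ ε r V s.e).1 (Z.path Φ ε r q).1 ≤ ρ
            then (1 : ℝ≥0∞) else 0) * P = 0 := by
          have h2 : (fun V : Config s.k => gcWeight f₀ ε s.k V *
            ENNReal.ofReal (Real.exp (κ * kin V)) *
            (if AllConn (NContact Φ ε 0 T V) ∧ dist (flow Φ ε r V s.e).1 (Z.path Φ ε r q).1 ≤ ρ
            then (1 : ℝ≥0∞) else 0) * P) =ᵐ[volume] 0 := by
            filter_upwards [hI] with V hV
            rw [hV]; simp
          rw [lintegral_congr_ae h2]; simp
        rw [this]; exact bot_le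
      · have h3 := hC s.k hks s.e r hts.1 hts.2 (Z.path Φ ε r q).1
        have h4 : C * ENNReal.ofReal ε ^ (2 * (s.k - 1)) * ENNReal.ofReal ρ ^ 3 ≠ 0 := by
          intro h0
          rw [h0] at h3
          exact hI (le_antisymm h3 bot_le)
        rw [hPtop, ENNReal.mul_top h4]
        exact le_top
    · rw [lintegral_mul_const' _ _ hPtop]
      gcongr
      exact hC s.k hks s.e r hts.1 hts.2 (Z.path Φ ε r q).1

end Crest.Agent.R122.LinkM547

end
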