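import Crest.Agent.R122.LinkM3_547

/-!
# Row 122, H11 (LINK mass), part 4 (helper547): counting the grid runs
-/

set_option autoImplicit false
set_option maxHeartbeats 400000

open MeasureTheory Set
open Crest.AnalysisR.Kinetic
open Crest.Agent.R122.Flow671 Crest.Agent.R122.Loc45 Crest.Agent.R122.Causal291
open Crest.Agent.R122.Vol365 Crest.Agent.R122.GC311 Crest.Agent.R122.EDefs602
open Crest.Agent.R122.Ins45
open scoped ENNReal Classical Nat

noncomputable section

namespace Crest.Agent.R122.LinkM547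

variable {Φ : Space3 → ℝ} {ε : ℝ}

instance : Fintype Kind := ⟨{.stay, .switch, .ghost}, fun x => by cases x <;> simp⟩

/-- steps with clusters of size in `[1, K]` -/
abbrev StepK (K : ℕ) := Kind × (Σ k : Fin K, Fin (k.1 + 1))

/-- the underlying step -/
def toStep {K : ℕ} (s : StepK K) : Step := ⟨s.1, s.2.1.1 + 1, s.2.2⟩

theorem exists_toStep {K : ℕ} (s : Step) (h1 : 1 ≤ s.k) (h2 : s.k ≤ K) :
    ∃ s' : StepK K, toStep s' = s := by
  obtain ⟨kd, k, e⟩ := s
  obtain ⟨m, rfl⟩ := Nat.exists_eq_add_of_le' h1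
  exact ⟨(kd, ⟨⟨m, by simpa using h2⟩, e⟩), rfl⟩

/-- grid runs -/
def gl {K L m : ℕ} (δ : ℝ) (σ : Sym (Fin m) L) (st : List.Vector (StepK K) L) : List (Step × ℝ) :=
  List.zipWith (fun s a => (toStep s, δ * ((a.1 : ℕ) : ℝ))) st.1 (σ.1.sort (· ≤ ·))

theorem length_gl {K L m : ℕ} (δ : ℝ) (σ : Sym (Fin m) L) (st : List.Vector (StepK K) L) :
    (gl δ σ st).length = L := by
  unfold gl
  rw [List.length_zipWith, Multiset.length_sort, st.2, σ.2, min_self]

theorem mem_gl {K L m : ℕ} {δ : ℝ} {σ : Sym (Fin m) L} {st : List.Vector (StepK K) L}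
    {p : Step × ℝ} (h : p ∈ gl δ σ st) :
    1 ≤ p.1.k ∧ p.1.k ≤ K ∧ ∃ a : Fin m, p.2 = δ * ((a.1 : ℕ) : ℝ) := by
  unfold gl at h
  rw [List.mem_iff_getElem] at h
  obtain ⟨i, hi, rfl⟩ := h
  rw [List.getElem_zipWith]
  refine ⟨?_, ?_, _, rfl⟩
  · simp [toStep]
  · simp only [toStep]
    have := (st.1[i]'(by
      have := hi
      rw [List.length_zipWith] at this
      exact lt_of_lt_of_le this (min_le_left _ _))).2.1.2
    omega

theorem exists_gl {K L : ℕ} {T δ : ℝ} (hδ : 0 < δ) (l : List (Step × ℝ)) (hl : l.length = L)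
    (hk : ∀ p ∈ l, 1 ≤ p.1.k ∧ p.1.k ≤ K) (ht : ∀ p ∈ l, p.2 ∈ Icc (0 : ℝ) T)
    (hs : l.Pairwise (fun p p' => p.2 ≤ p'.2)) :
    ∃ (σ : Sym (Fin (⌊T / δ⌋₊ + 1)) L) (st : List.Vector (StepK K) L),
      gl δ σ st = l.map (rd δ) := by
  set m : ℕ := ⌊T / δ⌋₊ + 1 with hm
  set g : Step × ℝ → Fin m := fun p => ⟨min ⌊p.2 / δ⌋₊ ⌊T / δ⌋₊, by
    have : min ⌊p.2 / δ⌋₊ ⌊T / δ⌋₊ ≤ ⌊T / δ⌋₊ := min_le_right _ _
    omega⟩ with hg
  have hsg : (l.map g).Pairwise (· ≤ ·) := by
    rw [List.pairwise_map]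
    refine hs.imp fun {p p'} h => ?_
    rw [hg]
    simp only [Fin.mk_le_mk]
    refine min_le_min_right _ (Nat.floor_le_floor ?_)
    gcongr
  have hgv : ∀ p ∈ l, (((g p).1 : ℕ) : ℝ) = (⌊p.2 / δ⌋₊ : ℝ) := by
    intro p hp
    rw [hg]
    simp only
    rw [min_eq_left]
    refine Nat.floor_le_floor ?_
    have := (ht p hp).2
    gcongr
  have hst : ∀ l' : List (Step × ℝ), (∀ p ∈ l', 1 ≤ p.1.k ∧ p.1.k ≤ K) →
      (∀ p ∈ l', (((g p).1 : ℕ) : ℝ) = (⌊p.2 / δ⌋₊ : ℝ)) →
      ∃ ls : List (StepK K), ls.length = l'.length ∧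
        List.zipWith (fun s (a : Fin m) => (toStep s, δ * ((a.1 : ℕ) : ℝ))) ls (l'.map g) =
          l'.map (rd δ) := by
    intro l'
    induction l' with
    | nil => intro _ _; exact ⟨[], rfl, rfl⟩
    | cons p l' ih =>
      intro h1 h2
      obtain ⟨ls, e1, e2⟩ := ih (fun q hq => h1 q (List.mem_cons_of_mem _ hq))
        (fun q hq => h2 q (List.mem_cons_of_mem _ hq))
      obtain ⟨s', hs'⟩ := exists_toStep p.1 (h1 p (List.mem_cons_self ..)).1
        (h1 p (List.mem_cons_self ..)).2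
      refine ⟨s' :: ls, by simp [e1], ?_⟩
      rw [List.map_cons, List.map_cons, List.zipWith_cons_cons, e2, hs',
        h2 p (List.mem_cons_self ..)]
      rfl
  obtain ⟨ls, e1, e2⟩ := hst l hk hgv
  refine ⟨⟨(l.map g : Multiset (Fin m)), by simp [hl]⟩, ⟨ls, by rw [e1, hl]⟩, ?_⟩
  unfold gl
  simp only
  rw [Multiset.coe_sort, List.mergeSort_eq_self _ hsg]
  exact e2

theorem activity_tot {C : ℝ≥0∞} (hε : 0 < ε) :
    ∀ l : List (Step × ℝ), (∀ p ∈ l, 1 ≤ p.1.k) →
      activity ε ^ (tot l) * (l.map fun p => C * ENNReal.ofReal ε ^ (2 * (p.1.k - 1)) *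
        ENNReal.ofReal (3 * ε) ^ 3).prod = (27 * C * ENNReal.ofReal ε) ^ l.length := by
  have ha : activity ε * ENNReal.ofReal (3 * ε) ^ 3 = 27 * ENNReal.ofReal ε := by
    unfold activity
    rw [← ENNReal.ofReal_pow (by positivity), ← ENNReal.ofReal_mul (by positivity)]
    have : (ε ^ 2)⁻¹ * (3 * ε) ^ 3 = 27 * ε := by field_simp; ring
    rw [this, ENNReal.ofReal_mul (by norm_num)]
    congr 1
    exact ENNReal.ofReal_ofNat 27
  intro l
  induction l with
  | nil => intro _; simp [tot]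
  | cons p l ih =>
    intro h
    have h1 := ih fun q hq => h q (List.mem_cons_of_mem _ hq)
    have h2 := activity_pow_mul hε (h p (List.mem_cons_self ..))
    rw [List.map_cons, List.prod_cons, List.length_cons, pow_succ (27 * C * ENNReal.ofReal ε), ← h1]
    change activity ε ^ (p.1.k + tot l) * _ = _
    rw [pow_add]
    calc activity ε ^ p.1.k * activity ε ^ tot l *
          (C * ENNReal.ofReal ε ^ (2 * (p.1.k - 1)) * ENNReal.ofReal (3 * ε) ^ 3 *
            (l.map fun p => C * ENNReal.ofReal ε ^ (2 * (p.1.k - 1)) *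
              ENNReal.ofReal (3 * ε) ^ 3).prod)
        = (activity ε ^ p.1.k * ENNReal.ofReal ε ^ (2 * (p.1.k - 1))) * C *
          ENNReal.ofReal (3 * ε) ^ 3 * (activity ε ^ tot l *
            (l.map fun p => C * ENNReal.ofReal ε ^ (2 * (p.1.k - 1)) *
              ENNReal.ofReal (3 * ε) ^ 3).prod) := by ring
      _ = (activity ε * ENNReal.ofReal (3 * ε) ^ 3) * C * (activity ε ^ tot l *
            (l.map fun p => C * ENNReal.ofReal ε ^ (2 * (p.1.k - 1)) *
              ENNReal.ofReal (3 * ε) ^ 3).prod) := by rw [h2]; ring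
      _ = _ := by rw [ha]; ring

/-- velocity scale at the energy level `N` -/
def MN (B cG : ℝ) (L K N : ℕ) : ℝ := max 1 (Real.sqrt (2 * ((N : ℝ) + B * (cG + L * K))))

theorem one_le_MN (B cG : ℝ) (L K N : ℕ) : 1 ≤ MN B cG L K N := le_max_left _ _

/-- number of grid points -/
def mN (T ε B cG : ℝ) (L K N : ℕ) : ℕ := ⌊T / (ε / MN B cG L K N)⌋₊ + 1

/-- indicator of a grid run at the energy level `N` -/
def GI (Φ : Space3 → ℝ) (ε T : ℝ) (G : Type) [Fintype G] (Z : MW G) (q : G) (N : ℕ)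
    (l : List (Step × ℝ)) (V : Config (tot l)) : ℝ≥0∞ :=
  if Ch Φ ε T (3 * ε) l G Z q V ∧ (N : ℝ) - 1 ≤ kin Z.z + kin V then 1 else 0

theorem measurable_GI (hΦ : AdmissiblePotential Φ) (hε : 0 < ε) (T : ℝ) (G : Type) [Fintype G]
    (Z : MW G) (q : G) (N : ℕ) (l : List (Step × ℝ)) : Measurable (GI Φ ε T G Z q N l) := by
  unfold GI
  refine Measurable.ite ((measurableSet_ch_right hΦ hε T (3 * ε) l G Z q).inter ?_)
    measurable_const measurable_const
  exact measurableSet_le measurable_const (measurable_const.add measurable_kin)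

/-- **Union bound over the grid runs.** -/
theorem run_le_sum (hΦ : AdmissiblePotential Φ) (hε : 0 < ε) (T : ℝ) (K L : ℕ) {G : Type}
    [Fintype G] (Z : MW G) (q : G) {n : ℕ} {w : Config n} (hw : w ∈ PairExcluded ε n) :
    (if Run Φ ε T K L Z q w then (1 : ℝ≥0∞) else 0) ≤
      ∑' N : ℕ, ∑ σ : Sym (Fin (mN T ε (stabB Φ) (Fintype.card G) L K N)) L,
        ∑ st : List.Vector (StepK K) L,
          ∑ ι : Fin (tot (gl (ε / MN (stabB Φ) (Fintype.card G) L K N) σ st)) ↪ Fin n,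
            GI Φ ε T G Z q N (gl (ε / MN (stabB Φ) (Fintype.card G) L K N) σ st)
              (fun i => w (ι i)) := by
  by_cases hR : Run Φ ε T K L Z q w
  swap
  · rw [if_neg hR]; exact bot_le
  rw [if_pos hR]
  obtain ⟨l, hlen, hk, ht, hs, ι, hc, hL⟩ := hR
  set E : ℝ := kin Z.z + kin (fun i => w (ι i)) with hE
  have hE0 : 0 ≤ E := add_nonneg (kin_nonneg _) (kin_nonneg _)
  set N : ℕ := ⌈E⌉₊ with hN
  have hEN : E ≤ N := Nat.le_ceil E
  have hNE : (N : ℝ) - 1 ≤ E := by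
    have := Nat.ceil_lt_add_one hE0
    linarith
  set M : ℝ := MN (stabB Φ) (Fintype.card G) L K N with hM
  have hM1 : 1 ≤ M := one_le_MN _ _ _ _ _
  have hM0 : 0 < M := lt_of_lt_of_le one_pos hM1
  have hδ : 0 < ε / M := div_pos hε hM0
  have htot : ∀ l : List (Step × ℝ), (∀ p ∈ l, 1 ≤ p.1.k ∧ p.1.k ≤ K) → tot l ≤ l.length * K := by
    intro l
    induction l with
    | nil => intro _; simp [tot]
    | cons p l ih =>
      intro h
      have h1 := ih fun q hq => h q (List.mem_cons_of_mem _ hq)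
      have h2 := (h p (List.mem_cons_self ..)).2
      change p.1.k + tot l ≤ (l.length + 1) * K
      nlinarith
  have htl : (tot l : ℝ) ≤ (L : ℝ) * K := by
    have := htot l hk
    rw [hlen] at this
    exact_mod_cast this
  have hB := stabB_nonneg Φ
  have hrun : Real.sqrt (2 * (kin Z.z + kin (fun i => w (ι i)) +
      stabB Φ * (Fintype.card G + L * K))) ≤ M := by
    refine (Real.sqrt_le_sqrt ?_).trans (le_max_right _ _)
    rw [← hE]
    linarith
  have hV : (fun i => w (ι i)) ∈ PairExcluded ε (tot l) := fun i j hij =>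
    hw _ _ fun h => hij (ι.injective h)
  have hMV : Real.sqrt (2 * (kin (fun i => w (ι i)) + stabB Φ * tot l)) ≤ M := by
    refine (Real.sqrt_le_sqrt ?_).trans (le_max_right _ _)
    have h1 := kin_nonneg Z.z
    have h2 : stabB Φ * tot l ≤ stabB Φ * (Fintype.card G + L * K) := by
      refine mul_le_mul_of_nonneg_left ?_ hB
      have : (0 : ℝ) ≤ Fintype.card G := by positivity
      linarith
    have h3 : kin (fun i => w (ι i)) ≤ N := by
      have : kin (fun i => w (ι i)) ≤ E := by rw [hE]; linarith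
      linarith
    linarith
  have hmono : ∀ (l : List (Step × ℝ)) (M M' : ℝ), M ≤ M' → ∀ (G : Type) [Fintype G] (Z : MW G)
      (q : G) (V : Config (tot l)), ChLip Φ ε T M l G Z q V → ChLip Φ ε T M' l G Z q V := by
    intro l
    induction l with
    | nil => intro _ _ _ _ _ _ _ _ _; exact trivial
    | cons a l ih =>
      intro M M' h G _ Z q V hL
      obtain ⟨s, r⟩ := a
      obtain ⟨l1, l2⟩ := hL
      refine ⟨fun t ht t' ht' => (l1 t ht t' ht').trans
        (mul_le_mul_of_nonneg_right h (abs_nonneg _)), ?_⟩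
      rcases hk : s.kd with _ | _ | _
      · simp only [hk] at l2 ⊢
        exact ih M M' h _ _ _ _ l2
      · simp only [hk] at l2 ⊢
        exact ih M M' h _ _ _ _ l2
      · simp only [hk] at l2 ⊢
        exact ih M M' h _ _ _ _ l2
  have hL' := hmono l _ M hrun G Z q _ hL
  have hMδ : M * (ε / M) ≤ ε := le_of_eq (by field_simp)
  have hround := ch_round hΦ hε hδ hMδ l ht G Z q _ hV hMV hc hL'
  obtain ⟨σ, st, hgl⟩ := exists_gl (K := K) (T := T) hδ l hlen hk ht hs
  have hex : ∃ ι' : Fin (tot (gl (ε / M) σ st)) ↪ Fin n,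
      GI Φ ε T G Z q N (gl (ε / M) σ st) (fun i => w (ι' i)) = 1 := by
    rw [hgl]
    refine ⟨(finCongr (tot_map_rd (ε / M) l)).toEmbedding.trans ι, ?_⟩
    have hkin : kin (fun i => w (((finCongr (tot_map_rd (ε / M) l)).toEmbedding.trans ι) i)) =
        kin (fun i => w (ι i)) :=
      kin_equiv (finCongr (tot_map_rd (ε / M) l)) (fun i => w (ι i))
    unfold GI
    rw [if_pos]
    refine ⟨hround, ?_⟩
    rw [hkin]
    exact hNE
  obtain ⟨ι', hι'⟩ := hex
  refine le_trans ?_ (ENNReal.le_tsum N)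
  refine le_trans ?_ (Finset.single_le_sum (fun _ _ => bot_le) (Finset.mem_univ σ))
  refine le_trans ?_ (Finset.single_le_sum (fun _ _ => bot_le) (Finset.mem_univ st))
  refine le_trans ?_ (Finset.single_le_sum (fun _ _ => bot_le) (Finset.mem_univ ι'))
  exact hι'.ge

/-- The majorant of the indicator of the runs (sum over the grid runs). -/
def RM (Φ : Space3 → ℝ) (ε T : ℝ) (K L : ℕ) {G : Type} [Fintype G] (Z : MW G) (q : G) {n : ℕ}
    (w : Config n) : ℝ≥0∞ :=
  ∑' N : ℕ, ∑ σ : Sym (Fin (mN T ε (stabB Φ) (Fintype.card G) L K N)) L,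
    ∑ st : List.Vector (StepK K) L,
      ∑ ι : Fin (tot (gl (ε / MN (stabB Φ) (Fintype.card G) L K N) σ st)) ↪ Fin n,
        GI Φ ε T G Z q N (gl (ε / MN (stabB Φ) (Fintype.card G) L K N) σ st)
          (fun i => w (ι i))

theorem run_le_RM (hΦ : AdmissiblePotential Φ) (hε : 0 < ε) (T : ℝ) (K L : ℕ) {G : Type}
    [Fintype G] (Z : MW G) (q : G) {n : ℕ} {w : Config n} (hw : w ∈ PairExcluded ε n) :
    (if Run Φ ε T K L Z q w then (1 : ℝ≥0∞) else 0) ≤ RM Φ ε T K L Z q w :=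
  run_le_sum hΦ hε T K L Z q hw

end Crest.Agent.R122.LinkM547

end
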