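import Crest.Agent.R122.LinkM4_547

/-!
# Row 122, H11 (LINK mass), part 5 (helper547): tail of the runs

`run_tail`: the gas-level probability of a run of length `L` from a group `Z` is at most
`η L * exp (2 β kin Z)` for `ε < ε₀(L)`, with `η L → 0`.
-/

set_option autoImplicit false
set_option maxHeartbeats 400000

open MeasureTheory Set Filter
open Crest.AnalysisR.Kinetic
open Crest.Agent.R122.Flow671 Crest.Agent.R122.Loc45 Crest.Agent.R122.Causal291
open Crest.Agent.R122.Vol365 Crest.Agent.R122.GC311 Crest.Agent.R122.EDefs602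
open Crest.Agent.R122.Ins45
open scoped ENNReal Classical Nat Topology

noncomputable section

namespace Crest.Agent.R122.LinkM547

variable {Φ : Space3 → ℝ} {ε : ℝ}

theorem sqrt_pow' {x : ℝ} (hx : 0 ≤ x) (n : ℕ) : Real.sqrt (x ^ n) = Real.sqrt x ^ n := by
  rw [Real.sqrt_eq_iff_mul_self_eq (pow_nonneg hx n) (pow_nonneg (Real.sqrt_nonneg x) n),
    ← mul_pow, Real.mul_self_sqrt hx]

theorem MN_pow_le {β B cG : ℝ} (hβ : 0 < β) (hB : 0 ≤ B) (K0 K L N : ℕ)
    (hG : cG ≤ K0) :
    MN B cG L K N ^ L ≤ Real.sqrt ((2 + 2 * B * (K0 + K)) / (2 * β)) ^ L * Real.sqrt (L ! : ℝ) *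
      Real.exp (β * (N + L + 1)) := by
  set D : ℝ := 2 + 2 * B * (K0 + K) with hD
  have hD0 : 0 < D := by positivity
  have hx : (0 : ℝ) ≤ (N : ℝ) + L + 1 := by positivity
  have h1 : MN B cG L K N ≤ Real.sqrt (D * (N + L + 1)) := by
    unfold MN
    refine max_le ?_ (Real.sqrt_le_sqrt ?_)
    · rw [Real.one_le_sqrt]
      have : (1 : ℝ) ≤ (N : ℝ) + L + 1 := by
        have : (0 : ℝ) ≤ (N : ℝ) + L := by positivity
        linarith
      have hD2 : (2 : ℝ) ≤ D := by
        have : (0 : ℝ) ≤ 2 * B * (K0 + K) := by positivity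
        linarith
      nlinarith
    · have e1 : B * cG ≤ B * K0 := mul_le_mul_of_nonneg_left hG hB
      have e2 : (0 : ℝ) ≤ B * K0 * (N + L) := by positivity
      have e3 : (0 : ℝ) ≤ B * K * (N + 1) := by positivity
      have e4 : (0 : ℝ) ≤ (L : ℝ) + 1 := by positivity
      rw [hD]
      nlinarith
  have h2 : (D * (N + L + 1)) ^ L ≤ (D / (2 * β)) ^ L * ((L ! : ℝ) * Real.exp (2 * β * (N + L + 1))) := by
    have e1 : (2 * β * ((N : ℝ) + L + 1)) ^ L / (L ! : ℝ) ≤ Real.exp (2 * β * (N + L + 1)) :=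
      Real.pow_div_factorial_le_exp _ (by positivity) L
    have e2 : (0 : ℝ) < (L ! : ℝ) := by exact_mod_cast Nat.factorial_pos L
    rw [div_le_iff₀ e2] at e1
    have e3 : D * ((N : ℝ) + L + 1) = D / (2 * β) * (2 * β * (N + L + 1)) := by field_simp
    rw [e3, mul_pow]
    refine mul_le_mul_of_nonneg_left ?_ (by positivity)
    linarith
  calc MN B cG L K N ^ L ≤ Real.sqrt (D * (N + L + 1)) ^ L := by
        refine pow_le_pow_left₀ ?_ h1 L
        exact (zero_le_one.trans (one_le_MN _ _ _ _ _))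
    _ = Real.sqrt ((D * (N + L + 1)) ^ L) := (sqrt_pow' (by positivity) L).symm
    _ ≤ Real.sqrt ((D / (2 * β)) ^ L * ((L ! : ℝ) * Real.exp (2 * β * (N + L + 1)))) :=
        Real.sqrt_le_sqrt h2
    _ = _ := by
        rw [Real.sqrt_mul (by positivity), Real.sqrt_mul (by positivity),
          sqrt_pow' (by positivity), ← Real.exp_half]
        have : 2 * β * ((N : ℝ) + L + 1) / 2 = β * (N + L + 1) := by ring
        rw [this]
        ring

theorem card_sym_le {T ε B cG : ℝ} (hT : 0 ≤ T) (hε : 0 < ε) (L K N : ℕ)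
    (hεL : ε * (L + 1) ≤ 1) :
    (Fintype.card (Sym (Fin (mN T ε B cG L K N)) L) : ℝ) * ε ^ L ≤
      ((T + 1) * MN B cG L K N) ^ L / (L ! : ℝ) := by
  set M := MN B cG L K N with hM
  have hM1 : 1 ≤ M := one_le_MN _ _ _ _ _
  have hM0 : 0 < M := lt_of_lt_of_le one_pos hM1
  set m := mN T ε B cG L K N with hm
  have hmr : (m : ℝ) ≤ T * M / ε + 1 := by
    rw [hm]
    unfold mN
    push_cast
    have : T / (ε / M) = T * M / ε := by field_simp
    rw [← hM, this]
    have := Nat.floor_le (show 0 ≤ T * M / ε by positivity)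
    linarith
  have e0 : (0 : ℝ) < (L ! : ℝ) := by exact_mod_cast Nat.factorial_pos L
  have e1 : (Fintype.card (Sym (Fin m) L) : ℝ) ≤ ((m : ℝ) + L) ^ L / (L ! : ℝ) := by
    rw [Sym.card_sym_eq_multichoose, Fintype.card_fin, Nat.multichoose_eq]
    refine (Nat.choose_le_pow_div L (m + L - 1)).trans ?_
    refine div_le_div_of_nonneg_right ?_ e0.le
    have : ((m + L - 1 : ℕ) : ℝ) ≤ (m : ℝ) + L := by
      have : m + L - 1 ≤ m + L := Nat.sub_le _ _
      exact_mod_cast this
    exact_mod_cast pow_le_pow_left₀ (by positivity) this L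
  calc (Fintype.card (Sym (Fin m) L) : ℝ) * ε ^ L
      ≤ ((m : ℝ) + L) ^ L / (L ! : ℝ) * ε ^ L := mul_le_mul_of_nonneg_right e1 (by positivity)
    _ = (((m : ℝ) + L) * ε) ^ L / (L ! : ℝ) := by rw [mul_pow]; ring
    _ ≤ _ := by
        refine div_le_div_of_nonneg_right (pow_le_pow_left₀ (by positivity) ?_ L) e0.le
        calc ((m : ℝ) + L) * ε ≤ (T * M / ε + 1 + L) * ε := by
              refine mul_le_mul_of_nonneg_right (by linarith) hε.le
          _ = T * M + ε * (L + 1) := by field_simp; ring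
          _ ≤ T * M + 1 * M := by nlinarith
          _ = (T + 1) * M := by ring

/-- One grid run. -/
theorem gcE_GI_le (hΦ : AdmissiblePotential Φ) {f₀ : PhasePoint → ℝ} (hf : Measurable f₀)
    (h1 : ∫⁻ z, ENNReal.ofReal (f₀ z) ≤ 1) (hε : 0 < ε) {T β : ℝ} (hβ : 0 ≤ β) {K : ℕ} {C : ℝ≥0∞}
    (hC : ∀ k ≤ K, ∀ (e : Fin k) (r : ℝ), 0 ≤ r → r ≤ T → ∀ a : Space3,
      ∫⁻ V : Config k, gcWeight f₀ ε k V * ENNReal.ofReal (Real.exp (2 * β * kin V)) *
          (if AllConn (NContact Φ ε 0 T V) ∧ dist (flow Φ ε r V e).1 a ≤ 3 * ε then 1 else 0) ≤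
        C * ENNReal.ofReal ε ^ (2 * (k - 1)) * ENNReal.ofReal (3 * ε) ^ 3)
    (G : Type) [Fintype G] (Z : MW G) (q : G) (N : ℕ) (l : List (Step × ℝ))
    (hk : ∀ p ∈ l, 1 ≤ p.1.k ∧ p.1.k ≤ K) (ht : ∀ p ∈ l, p.2 ∈ Icc (0 : ℝ) T) :
    gcE f₀ ε (fun n w => ∑ ι : Fin (tot l) ↪ Fin n, GI Φ ε T G Z q N l (fun i => w (ι i))) ≤
      ENNReal.ofReal (Real.exp (2 * β * (kin Z.z - (N - 1)))) *
        (27 * C * ENNReal.ofReal ε) ^ l.length := by
  refine (gcE_sum_emb_le hf h1 ε (GI Φ ε T G Z q N l) (measurable_GI hΦ hε T G Z q N l)).trans ?_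
  have hle : ∀ V : Config (tot l), GI Φ ε T G Z q N l V ≤
      ENNReal.ofReal (Real.exp (2 * β * (kin Z.z - (N - 1)))) *
        (ENNReal.ofReal (Real.exp (2 * β * kin V)) *
          (if Ch Φ ε T (3 * ε) l G Z q V then (1 : ℝ≥0∞) else 0)) := by
    intro V
    unfold GI
    by_cases h : Ch Φ ε T (3 * ε) l G Z q V ∧ (N : ℝ) - 1 ≤ kin Z.z + kin V
    · rw [if_pos h, if_pos h.1, mul_one, ← ENNReal.ofReal_mul (Real.exp_pos _).le, ← Real.exp_add,
        ENNReal.one_le_ofReal, Real.one_le_exp_iff]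
      have := h.2
      have e : 2 * β * (kin Z.z - (N - 1)) + 2 * β * kin V =
        2 * β * (kin Z.z + kin V - (N - 1)) := by ring
      rw [e]
      refine mul_nonneg (by positivity) (by linarith)
    · rw [if_neg h]; exact bot_le
  calc activity ε ^ tot l * ∫⁻ V : Config (tot l), gcWeight f₀ ε (tot l) V * GI Φ ε T G Z q N l V
      ≤ activity ε ^ tot l * ∫⁻ V : Config (tot l),
          ENNReal.ofReal (Real.exp (2 * β * (kin Z.z - (N - 1)))) *
          (gcWeight f₀ ε (tot l) V * (ENNReal.ofReal (Real.exp (2 * β * kin V)) *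
          (if Ch Φ ε T (3 * ε) l G Z q V then (1 : ℝ≥0∞) else 0))) := by
        refine mul_le_mul_right (lintegral_mono fun V => ?_) _
        calc gcWeight f₀ ε (tot l) V * GI Φ ε T G Z q N l V
            ≤ gcWeight f₀ ε (tot l) V * (ENNReal.ofReal (Real.exp (2 * β * (kin Z.z - (N - 1)))) *
              (ENNReal.ofReal (Real.exp (2 * β * kin V)) *
              (if Ch Φ ε T (3 * ε) l G Z q V then (1 : ℝ≥0∞) else 0))) :=
              mul_le_mul_right (hle V) _
          _ = _ := by ring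
    _ = ENNReal.ofReal (Real.exp (2 * β * (kin Z.z - (N - 1)))) * (activity ε ^ tot l *
          ∫⁻ V : Config (tot l), gcWeight f₀ ε (tot l) V *
            (ENNReal.ofReal (Real.exp (2 * β * kin V)) *
            (if Ch Φ ε T (3 * ε) l G Z q V then (1 : ℝ≥0∞) else 0))) := by
        rw [lintegral_const_mul' _ _ ENNReal.ofReal_ne_top]
        ring
    _ ≤ ENNReal.ofReal (Real.exp (2 * β * (kin Z.z - (N - 1)))) * (activity ε ^ tot l *
          (l.map fun p => C * ENNReal.ofReal ε ^ (2 * (p.1.k - 1)) *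
            ENNReal.ofReal (3 * ε) ^ 3).prod) := by
        refine mul_le_mul_right (mul_le_mul_right ?_ _) _
        exact lintegral_ch_le hΦ hf hε hC l (fun p hp => (hk p hp).2) ht G Z q
    _ = _ := by rw [activity_tot hε l fun p hp => (hk p hp).1]

/-- **Tail of the runs**, majorant. -/
theorem RM_tail (hΦ : AdmissiblePotential Φ) {β : ℝ} (hβ : 0 < β) (T C₀ : ℝ) (hT : 0 ≤ T)
    (hC₀ : 0 ≤ C₀) (K K0 : ℕ) : ∃ η : ℕ → ℝ≥0∞, Tendsto η atTop (𝓝 0) ∧ (∀ L, η L ≠ ∞) ∧
      ∀ L : ℕ, ∃ ε₀ : ℝ, 0 < ε₀ ∧ ∀ ε : ℝ, 0 < ε → ε < ε₀ → ∀ f₀ : PhasePoint → ℝ, Measurable f₀ →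
        (∀ z : PhasePoint, f₀ z ≤ C₀ * Real.exp (-(2 * β * ‖z.2‖ ^ 2))) →
        (∫⁻ z, ENNReal.ofReal (f₀ z) ≤ 1) →
        ∀ (G : Type) [Fintype G], Fintype.card G ≤ K0 → ∀ (Z : MW G) (q : G),
          gcE f₀ ε (fun n w => RM Φ ε T K L Z q w) ≤
            η L * ENNReal.ofReal (Real.exp (2 * β * kin Z.z)) := by
  obtain ⟨C, hCtop, hC⟩ := step_bound hΦ hβ T C₀ hC₀ K
  set cK : ℕ := Fintype.card (StepK K) with hcK
  set c : ℝ := C.toReal with hc
  have hCc : C = ENNReal.ofReal c := (ENNReal.ofReal_toReal hCtop).symm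
  have hc0 : 0 ≤ c := ENNReal.toReal_nonneg
  have hB := stabB_nonneg Φ
  set D : ℝ := 2 + 2 * stabB Φ * (K0 + K) with hD
  set A : ℝ := cK * (27 * c) * (T + 1) * Real.sqrt (D / (2 * β)) * Real.exp β with hA
  have hA0 : 0 ≤ A := by positivity
  set S : ℝ := ∑' N : ℕ, Real.exp (3 * β) * Real.exp (-β * N) with hS
  have hsum : Summable fun N : ℕ => Real.exp (3 * β) * Real.exp (-β * N) := by
    refine Summable.mul_left _ ?_
    have : Summable fun n : ℕ => Real.exp (n * (-β)) := Real.summable_exp_nat_mul_iff.2 (by linarith)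
    refine this.congr fun n => ?_
    rw [mul_comm]
  refine ⟨fun L => ENNReal.ofReal (A ^ L / Real.sqrt (L ! : ℝ) * S), ?_,
    fun L => ENNReal.ofReal_ne_top, ?_⟩
  · -- the limit
    have h1 : Tendsto (fun L : ℕ => A ^ L / Real.sqrt (L ! : ℝ)) atTop (𝓝 0) := by
      have h2 := (FloorSemiring.tendsto_pow_div_factorial_atTop (A ^ 2)).sqrt
      rw [Real.sqrt_zero] at h2
      refine h2.congr fun L => ?_
      have : (0 : ℝ) ≤ (L ! : ℝ) := by positivity
      rw [Real.sqrt_div' _ this, ← pow_mul, mul_comm 2 L, pow_mul, Real.sqrt_sq (pow_nonneg hA0 L)]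
    have h3 := ENNReal.tendsto_ofReal (h1.mul_const S)
    rw [zero_mul, ENNReal.ofReal_zero] at h3
    exact h3
  · intro L
    refine ⟨1 / (L + 1), by positivity, ?_⟩
    intro ε hε hεL f₀ hf hfC h1 G _ hG Z q
    have hεL' : ε * (L + 1) ≤ 1 := by
      have : (0 : ℝ) < (L : ℝ) + 1 := by positivity
      have := (lt_div_iff₀ this).1 hεL
      linarith
    have hε1 : ε ≤ 1 := by
      have : (1 : ℝ) / (L + 1) ≤ 1 := by
        rw [div_le_one (by positivity)]
        have : (0 : ℝ) ≤ (L : ℝ) := by positivity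
        linarith
      linarith
    have hCf : ∀ k ≤ K, ∀ (e : Fin k) (r : ℝ), 0 ≤ r → r ≤ T → ∀ a : Space3,
        ∫⁻ V : Config k, gcWeight f₀ ε k V * ENNReal.ofReal (Real.exp (2 * β * kin V)) *
          (if AllConn (NContact Φ ε 0 T V) ∧ dist (flow Φ ε r V e).1 a ≤ 3 * ε then 1 else 0) ≤
        C * ENNReal.ofReal ε ^ (2 * (k - 1)) * ENNReal.ofReal (3 * ε) ^ 3 := by
      intro k hk e r h0 hT' a
      exact hC f₀ hfC ε hε hε1 k hk e r h0 hT' a (3 * ε) (by positivity)
    set B := stabB Φ with hBdef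
    have hmeas : ∀ (n N : ℕ) (σ : Sym (Fin (mN T ε B (Fintype.card G) L K N)) L)
        (st : List.Vector (StepK K) L), Measurable fun w : Config n =>
          ∑ ι : Fin (tot (gl (ε / MN B (Fintype.card G) L K N) σ st)) ↪ Fin n,
            GI Φ ε T G Z q N (gl (ε / MN B (Fintype.card G) L K N) σ st) (fun i => w (ι i)) := by
      intro n N σ st
      refine Finset.measurable_sum _ fun ι _ => ?_
      exact (measurable_GI hΦ hε T G Z q N _).comp
        (measurable_pi_iff.2 fun i => measurable_pi_apply (ι i))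
    calc gcE f₀ ε (fun n w => RM Φ ε T K L Z q w)
        = gcE f₀ ε (fun n w => ∑' N : ℕ, ∑ σ : Sym (Fin (mN T ε B (Fintype.card G) L K N)) L,
            ∑ st : List.Vector (StepK K) L,
              ∑ ι : Fin (tot (gl (ε / MN B (Fintype.card G) L K N) σ st)) ↪ Fin n,
                GI Φ ε T G Z q N (gl (ε / MN B (Fintype.card G) L K N) σ st)
                  (fun i => w (ι i))) := rfl
      _ = ∑' N : ℕ, ∑ σ : Sym (Fin (mN T ε B (Fintype.card G) L K N)) L,
            ∑ st : List.Vector (StepK K) L, gcE f₀ ε (fun n w =>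
              ∑ ι : Fin (tot (gl (ε / MN B (Fintype.card G) L K N) σ st)) ↪ Fin n,
                GI Φ ε T G Z q N (gl (ε / MN B (Fintype.card G) L K N) σ st)
                  (fun i => w (ι i))) := by
          rw [gcE_tsum hf ε (F := fun N n w =>
            ∑ σ : Sym (Fin (mN T ε B (Fintype.card G) L K N)) L,
            ∑ st : List.Vector (StepK K) L,
              ∑ ι : Fin (tot (gl (ε / MN B (Fintype.card G) L K N) σ st)) ↪ Fin n,
                GI Φ ε T G Z q N (gl (ε / MN B (Fintype.card G) L K N) σ st)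
                  (fun i => w (ι i)))
            (fun N n => Finset.measurable_sum _ fun σ _ => Finset.measurable_sum _ fun st _ =>
              hmeas n N σ st)]
          refine tsum_congr fun N => ?_
          rw [gcE_finset_sum hf ε Finset.univ (F := fun σ n w =>
            ∑ st : List.Vector (StepK K) L,
              ∑ ι : Fin (tot (gl (ε / MN B (Fintype.card G) L K N) σ st)) ↪ Fin n,
                GI Φ ε T G Z q N (gl (ε / MN B (Fintype.card G) L K N) σ st)
                  (fun i => w (ι i)))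
            (fun σ _ n => Finset.measurable_sum _ fun st _ => hmeas n N σ st)]
          refine Finset.sum_congr rfl fun σ _ => ?_
          rw [gcE_finset_sum hf ε Finset.univ (F := fun st n w =>
              ∑ ι : Fin (tot (gl (ε / MN B (Fintype.card G) L K N) σ st)) ↪ Fin n,
                GI Φ ε T G Z q N (gl (ε / MN B (Fintype.card G) L K N) σ st)
                  (fun i => w (ι i)))
            (fun st _ n => hmeas n N σ st)]
      _ ≤ ∑' N : ℕ, ∑ σ : Sym (Fin (mN T ε B (Fintype.card G) L K N)) L,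
            ∑ st : List.Vector (StepK K) L,
              ENNReal.ofReal (Real.exp (2 * β * (kin Z.z - (N - 1)))) *
                (27 * C * ENNReal.ofReal ε) ^ L := by
          refine ENNReal.tsum_le_tsum fun N => Finset.sum_le_sum fun σ _ =>
            Finset.sum_le_sum fun st _ => ?_
          have hM0 : 0 < MN B (Fintype.card G) L K N := lt_of_lt_of_le one_pos (one_le_MN _ _ _ _ _)
          have hδ : 0 < ε / MN B (Fintype.card G) L K N := div_pos hε hM0
          have h2 := gcE_GI_le hΦ hf h1 hε (T := T) hβ.le hCf G Z q N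
            (gl (ε / MN B (Fintype.card G) L K N) σ st)
            (fun p hp => ⟨(mem_gl hp).1, (mem_gl hp).2.1⟩)
            (fun p hp => by
              obtain ⟨-, -, a, ha⟩ := mem_gl hp
              rw [ha]
              refine ⟨by positivity, ?_⟩
              have h3 : (a.1 : ℕ) ≤ ⌊T / (ε / MN B (Fintype.card G) L K N)⌋₊ := by
                have := a.2
                unfold mN at this
                omega
              calc ε / MN B (Fintype.card G) L K N * ((a.1 : ℕ) : ℝ)
                  ≤ ε / MN B (Fintype.card G) L K N *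
                    (⌊T / (ε / MN B (Fintype.card G) L K N)⌋₊ : ℝ) := by
                    refine mul_le_mul_of_nonneg_left ?_ hδ.le
                    exact_mod_cast h3
                _ ≤ T := (rd_bounds hδ hT).2.1)
          rw [length_gl] at h2
          exact h2
      _ = ∑' N : ℕ, ENNReal.ofReal (Real.exp (2 * β * (kin Z.z - (N - 1))) *
            ((cK * (27 * c)) ^ L * ((Fintype.card (Sym (Fin (mN T ε B (Fintype.card G) L K N)) L) : ℝ) *
              ε ^ L))) := by
          refine tsum_congr fun N => ?_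
          rw [Finset.sum_const, Finset.sum_const, Finset.card_univ, Finset.card_univ, card_vector,
            nsmul_eq_mul, nsmul_eq_mul, hCc, ← hcK]
          have e27 : (27 : ℝ≥0∞) = ENNReal.ofReal 27 := (ENNReal.ofReal_ofNat 27).symm
          rw [e27, ← ENNReal.ofReal_mul (by norm_num), ← ENNReal.ofReal_mul (by positivity),
            ← ENNReal.ofReal_pow (by positivity), ← ENNReal.ofReal_mul (Real.exp_pos _).le,
            ← ENNReal.ofReal_natCast, ← ENNReal.ofReal_natCast,
            ← ENNReal.ofReal_mul (by positivity), ← ENNReal.ofReal_mul (by positivity)]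
          congr 1
          push_cast
          ring
      _ ≤ ∑' N : ℕ, ENNReal.ofReal ((A ^ L / Real.sqrt (L ! : ℝ) * Real.exp (2 * β * kin Z.z)) *
            (Real.exp (3 * β) * Real.exp (-β * N))) := by
          refine ENNReal.tsum_le_tsum fun N => ENNReal.ofReal_le_ofReal ?_
          have s1 := card_sym_le (B := B) (cG := Fintype.card G) hT hε L K N hεL'
          have s2 := MN_pow_le (cG := Fintype.card G) hβ hB K0 K L N (by exact_mod_cast hG)
          rw [← hD] at s2
          have e0 : (0 : ℝ) < (L ! : ℝ) := by exact_mod_cast Nat.factorial_pos L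
          have hsq : Real.sqrt (L ! : ℝ) * Real.sqrt (L ! : ℝ) = (L ! : ℝ) := Real.mul_self_sqrt e0.le
          have hsq0 : 0 < Real.sqrt (L ! : ℝ) := Real.sqrt_pos.2 e0
          have s3 : (Fintype.card (Sym (Fin (mN T ε B (Fintype.card G) L K N)) L) : ℝ) * ε ^ L ≤
              (T + 1) ^ L * (Real.sqrt (D / (2 * β)) ^ L *
                Real.exp (β * (N + L + 1))) / Real.sqrt (L ! : ℝ) := by
            refine s1.trans ?_
            have ee : ((T + 1) * MN B (Fintype.card G) L K N) ^ L / (L ! : ℝ) =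
                ((T + 1) ^ L * MN B (Fintype.card G) L K N ^ L) /
                  (Real.sqrt (L ! : ℝ) * Real.sqrt (L ! : ℝ)) := by rw [hsq, mul_pow]
            rw [ee, div_le_div_iff₀ (by positivity) hsq0]
            have : (T + 1) ^ L * MN B (Fintype.card G) L K N ^ L ≤ (T + 1) ^ L *
              (Real.sqrt (D / (2 * β)) ^ L * Real.sqrt (L ! : ℝ) * Real.exp (β * (N + L + 1))) :=
              mul_le_mul_of_nonneg_left s2 (by positivity)
            calc (T + 1) ^ L * MN B (Fintype.card G) L K N ^ L * Real.sqrt (L ! : ℝ)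
                ≤ (T + 1) ^ L * (Real.sqrt (D / (2 * β)) ^ L * Real.sqrt (L ! : ℝ) *
                  Real.exp (β * (N + L + 1))) * Real.sqrt (L ! : ℝ) :=
                  mul_le_mul_of_nonneg_right this hsq0.le
              _ = _ := by ring
          calc Real.exp (2 * β * (kin Z.z - (N - 1))) * ((cK * (27 * c)) ^ L *
                ((Fintype.card (Sym (Fin (mN T ε B (Fintype.card G) L K N)) L) : ℝ) * ε ^ L))
              ≤ Real.exp (2 * β * (kin Z.z - (N - 1))) * ((cK * (27 * c)) ^ L *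
                ((T + 1) ^ L * (Real.sqrt (D / (2 * β)) ^ L *
                Real.exp (β * (N + L + 1))) / Real.sqrt (L ! : ℝ))) := by
                refine mul_le_mul_of_nonneg_left (mul_le_mul_of_nonneg_left s3 (by positivity))
                  (Real.exp_pos _).le
            _ = _ := by
                have x1 : Real.exp (2 * β * (kin Z.z - (N - 1))) * Real.exp (β * (N + L + 1)) =
                    Real.exp β ^ L * Real.exp (2 * β * kin Z.z) *
                      (Real.exp (3 * β) * Real.exp (-β * N)) := by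
                  rw [← Real.exp_nat_mul, ← Real.exp_add, ← Real.exp_add, ← Real.exp_add,
                    ← Real.exp_add]
                  congr 1
                  ring
                calc Real.exp (2 * β * (kin Z.z - (N - 1))) * ((cK * (27 * c)) ^ L *
                    ((T + 1) ^ L * (Real.sqrt (D / (2 * β)) ^ L *
                    Real.exp (β * (N + L + 1))) / Real.sqrt (L ! : ℝ)))
                    = (cK * (27 * c)) ^ L * (T + 1) ^ L * Real.sqrt (D / (2 * β)) ^ L /
                      Real.sqrt (L ! : ℝ) * (Real.exp (2 * β * (kin Z.z - (N - 1))) *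
                        Real.exp (β * (N + L + 1))) := by ring
                  _ = _ := by rw [x1, hA]; simp only [mul_pow]; ring
      _ = ENNReal.ofReal (A ^ L / Real.sqrt (L ! : ℝ) * Real.exp (2 * β * kin Z.z) * S) := by
          rw [hS, ← ENNReal.ofReal_tsum_of_nonneg, tsum_mul_left]
          · intro N; positivity
          · exact hsum.mul_left _
      _ = _ := by
          rw [← ENNReal.ofReal_mul (by positivity)]
          congr 1
          ring

/-- **Tail of the runs.** -/
theorem run_tail (hΦ : AdmissiblePotential Φ) {β : ℝ} (hβ : 0 < β) (T C₀ : ℝ) (hT : 0 ≤ T)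
    (hC₀ : 0 ≤ C₀) (K K0 : ℕ) : ∃ η : ℕ → ℝ≥0∞, Tendsto η atTop (𝓝 0) ∧ (∀ L, η L ≠ ∞) ∧
      ∀ L : ℕ, ∃ ε₀ : ℝ, 0 < ε₀ ∧ ∀ ε : ℝ, 0 < ε → ε < ε₀ → ∀ f₀ : PhasePoint → ℝ, Measurable f₀ →
        (∀ z : PhasePoint, f₀ z ≤ C₀ * Real.exp (-(2 * β * ‖z.2‖ ^ 2))) →
        (∫⁻ z, ENNReal.ofReal (f₀ z) ≤ 1) →
        ∀ (G : Type) [Fintype G], Fintype.card G ≤ K0 → ∀ (Z : MW G) (q : G),
          gcE f₀ ε (fun n w => if Run Φ ε T K L Z q w then 1 else 0) ≤
            η L * ENNReal.ofReal (Real.exp (2 * β * kin Z.z)) := by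
  obtain ⟨η, h1, h2, h3⟩ := RM_tail hΦ hβ T C₀ hT hC₀ K K0
  refine ⟨η, h1, h2, fun L => ?_⟩
  obtain ⟨ε₀, h4, h5⟩ := h3 L
  refine ⟨ε₀, h4, fun ε hε hε' f₀ hf hfC hf1 G _ hG Z q => ?_⟩
  exact (gcE_mono f₀ ε fun n w hw => run_le_RM hΦ hε T K L Z q hw).trans
    (h5 ε hε hε' f₀ hf hfC hf1 G hG Z q)

end Crest.Agent.R122.LinkM547

end
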