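import Crest.Agent.R122.LinkM5_547

/-!
# Row 122, H11 (LINK mass), part 6 (helper547): tools for the versions integrated over a line

* `grid_sum` : the sum over the grid runs, in abstract form;
* `lintegral_ch_cons` : first step of a run separated from the rest;
* `conn_bound` : mass of the connected clusters with the exponential weight of the energy.
-/

set_option autoImplicit false
set_option maxHeartbeats 400000

open MeasureTheory Set Filter
open Crest.AnalysisR.Kinetic
open Crest.Agent.R122.Flow671 Crest.Agent.R122.Loc45 Crest.Agent.R122.Causal291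
open Crest.Agent.R122.Vol365 Crest.Agent.R122.GC311 Crest.Agent.R122.EDefs602
open Crest.Agent.R122.Ins45
open scoped ENNReal Classical Nat Topology

noncomputable section

namespace Crest.Agent.R122.LinkM547

variable {Φ : Space3 → ℝ} {ε : ℝ}

/-- **Sum over the grid runs.** -/
theorem grid_sum {B : ℝ} (hB : 0 ≤ B) {β : ℝ} (hβ : 0 < β) (T : ℝ) (hT : 0 ≤ T)
    (K K0 : ℕ) {C : ℝ≥0∞} (hCtop : C ≠ ∞) :
    ∃ η : ℕ → ℝ≥0∞, Tendsto η atTop (𝓝 0) ∧ (∀ L, η L ≠ ∞) ∧
      ∀ (L : ℕ) (ε : ℝ), 0 < ε → ε * (L + 1) ≤ 1 → ∀ cG : ℝ, cG ≤ K0 →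
        ∑' N : ℕ, ∑ _σ : Sym (Fin (mN T ε B cG L K N)) L, ∑ _st : List.Vector (StepK K) L,
          ENNReal.ofReal (Real.exp (-(2 * β * (N - 1)))) * (27 * C * ENNReal.ofReal ε) ^ L ≤
          η L := by
  set cK : ℕ := Fintype.card (StepK K) with hcK
  set c : ℝ := C.toReal with hc
  have hCc : C = ENNReal.ofReal c := (ENNReal.ofReal_toReal hCtop).symm
  have hc0 : 0 ≤ c := ENNReal.toReal_nonneg
  set D : ℝ := 2 + 2 * B * (K0 + K) with hD
  set A : ℝ := cK * (27 * c) * (T + 1) * Real.sqrt (D / (2 * β)) * Real.exp β with hA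
  have hA0 : 0 ≤ A := by positivity
  set S : ℝ := ∑' N : ℕ, Real.exp (3 * β) * Real.exp (-β * N) with hS
  have hsum : Summable fun N : ℕ => Real.exp (3 * β) * Real.exp (-β * N) := by
    refine Summable.mul_left _ ?_
    have : Summable fun n : ℕ => Real.exp (n * (-β)) := Real.summable_exp_nat_mul_iff.2 (by linarith)
    refine this.congr fun n => ?_
    rw [mul_comm]
  refine ⟨fun L => ENNReal.ofReal (A ^ L / Real.sqrt (L ! : ℝ) * S), ?_,
    fun L => ENNReal.ofReal_ne_top, ?_⟩
  · -- the limit
    have h1 : Tendsto (fun L : ℕ => A ^ L / Real.sqrt (L ! : ℝ)) atTop (𝓝 0) := by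
      have h2 := (FloorSemiring.tendsto_pow_div_factorial_atTop (A ^ 2)).sqrt
      rw [Real.sqrt_zero] at h2
      refine h2.congr fun L => ?_
      have : (0 : ℝ) ≤ (L ! : ℝ) := by positivity
      rw [Real.sqrt_div' _ this, ← pow_mul, mul_comm 2 L, pow_mul, Real.sqrt_sq (pow_nonneg hA0 L)]
    have h3 := ENNReal.tendsto_ofReal (h1.mul_const S)
    rw [zero_mul, ENNReal.ofReal_zero] at h3
    exact h3
  · intro L ε hε hεL' cG hG
    calc ∑' N : ℕ, ∑ _σ : Sym (Fin (mN T ε B cG L K N)) L, ∑ _st : List.Vector (StepK K) L,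
          ENNReal.ofReal (Real.exp (-(2 * β * (N - 1)))) * (27 * C * ENNReal.ofReal ε) ^ L
        = ∑' N : ℕ, ENNReal.ofReal (Real.exp (-(2 * β * (N - 1))) *
            ((cK * (27 * c)) ^ L * ((Fintype.card (Sym (Fin (mN T ε B cG L K N)) L) : ℝ) *
              ε ^ L))) := by
          refine tsum_congr fun N => ?_
          rw [Finset.sum_const, Finset.sum_const, Finset.card_univ, Finset.card_univ, card_vector,
            nsmul_eq_mul, nsmul_eq_mul, hCc, ← hcK]
          have e27 : (27 : ℝ≥0∞) = ENNReal.ofReal 27 := (ENNReal.ofReal_ofNat 27).symm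
          rw [e27, ← ENNReal.ofReal_mul (by norm_num), ← ENNReal.ofReal_mul (by positivity),
            ← ENNReal.ofReal_pow (by positivity), ← ENNReal.ofReal_mul (Real.exp_pos _).le,
            ← ENNReal.ofReal_natCast, ← ENNReal.ofReal_natCast,
            ← ENNReal.ofReal_mul (by positivity), ← ENNReal.ofReal_mul (by positivity)]
          congr 1
          push_cast
          ring
      _ ≤ ∑' N : ℕ, ENNReal.ofReal ((A ^ L / Real.sqrt (L ! : ℝ)) *
            (Real.exp (3 * β) * Real.exp (-β * N))) := by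
          refine ENNReal.tsum_le_tsum fun N => ENNReal.ofReal_le_ofReal ?_
          have s1 := card_sym_le (B := B) (cG := cG) hT hε L K N hεL'
          have s2 := MN_pow_le (cG := cG) hβ hB K0 K L N hG
          rw [← hD] at s2
          have e0 : (0 : ℝ) < (L ! : ℝ) := by exact_mod_cast Nat.factorial_pos L
          have hsq : Real.sqrt (L ! : ℝ) * Real.sqrt (L ! : ℝ) = (L ! : ℝ) := Real.mul_self_sqrt e0.le
          have hsq0 : 0 < Real.sqrt (L ! : ℝ) := Real.sqrt_pos.2 e0
          have s3 : (Fintype.card (Sym (Fin (mN T ε B cG L K N)) L) : ℝ) * ε ^ L ≤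
              (T + 1) ^ L * (Real.sqrt (D / (2 * β)) ^ L *
                Real.exp (β * (N + L + 1))) / Real.sqrt (L ! : ℝ) := by
            refine s1.trans ?_
            have ee : ((T + 1) * MN B cG L K N) ^ L / (L ! : ℝ) =
                ((T + 1) ^ L * MN B cG L K N ^ L) /
                  (Real.sqrt (L ! : ℝ) * Real.sqrt (L ! : ℝ)) := by rw [hsq, mul_pow]
            rw [ee, div_le_div_iff₀ (by positivity) hsq0]
            have : (T + 1) ^ L * MN B cG L K N ^ L ≤ (T + 1) ^ L *
              (Real.sqrt (D / (2 * β)) ^ L * Real.sqrt (L ! : ℝ) * Real.exp (β * (N + L + 1))) :=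
              mul_le_mul_of_nonneg_left s2 (by positivity)
            calc (T + 1) ^ L * MN B cG L K N ^ L * Real.sqrt (L ! : ℝ)
                ≤ (T + 1) ^ L * (Real.sqrt (D / (2 * β)) ^ L * Real.sqrt (L ! : ℝ) *
                  Real.exp (β * (N + L + 1))) * Real.sqrt (L ! : ℝ) :=
                  mul_le_mul_of_nonneg_right this hsq0.le
              _ = _ := by ring
          calc Real.exp (-(2 * β * (N - 1))) * ((cK * (27 * c)) ^ L *
                ((Fintype.card (Sym (Fin (mN T ε B cG L K N)) L) : ℝ) * ε ^ L))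
              ≤ Real.exp (-(2 * β * (N - 1))) * ((cK * (27 * c)) ^ L *
                ((T + 1) ^ L * (Real.sqrt (D / (2 * β)) ^ L *
                Real.exp (β * (N + L + 1))) / Real.sqrt (L ! : ℝ))) := by
                refine mul_le_mul_of_nonneg_left (mul_le_mul_of_nonneg_left s3 (by positivity))
                  (Real.exp_pos _).le
            _ = _ := by
                have x1 : Real.exp (-(2 * β * (N - 1))) * Real.exp (β * (N + L + 1)) =
                    Real.exp β ^ L * (Real.exp (3 * β) * Real.exp (-β * N)) := by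
                  rw [← Real.exp_nat_mul, ← Real.exp_add, ← Real.exp_add, ← Real.exp_add]
                  congr 1
                  ring
                calc Real.exp (-(2 * β * (N - 1))) * ((cK * (27 * c)) ^ L *
                    ((T + 1) ^ L * (Real.sqrt (D / (2 * β)) ^ L *
                    Real.exp (β * (N + L + 1))) / Real.sqrt (L ! : ℝ)))
                    = (cK * (27 * c)) ^ L * (T + 1) ^ L * Real.sqrt (D / (2 * β)) ^ L /
                      Real.sqrt (L ! : ℝ) * (Real.exp (-(2 * β * (N - 1))) *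
                        Real.exp (β * (N + L + 1))) := by ring
                  _ = _ := by rw [x1, hA]; simp only [mul_pow]; ring
      _ = ENNReal.ofReal (A ^ L / Real.sqrt (L ! : ℝ) * S) := by
          rw [hS, ← ENNReal.ofReal_tsum_of_nonneg, tsum_mul_left]
          · intro N; positivity
          · exact hsum.mul_left _

theorem list_prod_ne_top : ∀ l : List ℝ≥0∞, (∀ x ∈ l, x ≠ ∞) → l.prod ≠ ∞ := by
  intro l
  induction l with
  | nil => intro _; simp
  | cons a l ih =>
    intro h
    rw [List.prod_cons]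
    exact ENNReal.mul_ne_top (h a (List.mem_cons_self ..))
      (ih fun x hx => h x (List.mem_cons_of_mem _ hx))

/-- **First step separated.** -/
theorem lintegral_ch_cons (hΦ : AdmissiblePotential Φ) {f₀ : PhasePoint → ℝ} (hf : Measurable f₀)
    (hε : 0 < ε) {T ρ κ : ℝ} {K : ℕ} {C : ℝ≥0∞} (hCtop : C ≠ ∞)
    (hC : ∀ k ≤ K, ∀ (e : Fin k) (r : ℝ), 0 ≤ r → r ≤ T → ∀ a : Space3,
      ∫⁻ V : Config k, gcWeight f₀ ε k V * ENNReal.ofReal (Real.exp (κ * kin V)) *
          (if AllConn (NContact Φ ε 0 T V) ∧ dist (flow Φ ε r V e).1 a ≤ ρ then 1 else 0) ≤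
        C * ENNReal.ofReal ε ^ (2 * (k - 1)) * ENNReal.ofReal ρ ^ 3)
    (s : Step) (r : ℝ) (l : List (Step × ℝ)) (hk : ∀ p ∈ l, p.1.k ≤ K)
    (ht : ∀ p ∈ l, p.2 ∈ Icc (0 : ℝ) T) (G : Type) [Fintype G] (Z : MW G) (q : G) :
    ∫⁻ V : Config (tot ((s, r) :: l)), gcWeight f₀ ε (tot ((s, r) :: l)) V *
        (ENNReal.ofReal (Real.exp (κ * kin V)) *
          (if Ch Φ ε T ρ ((s, r) :: l) G Z q V then (1 : ℝ≥0∞) else 0)) ≤
      (∫⁻ V : Config s.k, gcWeight f₀ ε s.k V * ENNReal.ofReal (Real.exp (κ * kin V)) *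
          (if AllConn (NContact Φ ε 0 T V) ∧ dist (flow Φ ε r V s.e).1 (Z.path Φ ε r q).1 ≤ ρ
            then 1 else 0)) *
        (l.map fun p => C * ENNReal.ofReal ε ^ (2 * (p.1.k - 1)) * ENNReal.ofReal ρ ^ 3).prod := by
  have ih' := lintegral_ch_le hΦ hf hε hC l hk ht
  set P : ℝ≥0∞ := (l.map fun p => C * ENNReal.ofReal ε ^ (2 * (p.1.k - 1)) *
    ENNReal.ofReal ρ ^ 3).prod with hP
  have hPtop : P ≠ ∞ := by
    rw [hP]
    refine list_prod_ne_top _ ?_
    intro x hx
    rw [List.mem_map] at hx
    obtain ⟨p, -, rfl⟩ := hx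
    exact ENNReal.mul_ne_top (ENNReal.mul_ne_top hCtop (ENNReal.pow_ne_top ENNReal.ofReal_ne_top))
      (ENNReal.pow_ne_top ENNReal.ofReal_ne_top)
  have e1 := lintegral_append_gc hf ε (k := s.k) (m := tot l)
    (fun V => ENNReal.ofReal (Real.exp (κ * kin V)) *
      (if Ch Φ ε T ρ ((s, r) :: l) G Z q V then (1 : ℝ≥0∞) else 0))
    (measurable_wch hΦ hε T ρ κ ((s, r) :: l) G Z q)
  change ∫⁻ V : Config (s.k + tot l), gcWeight f₀ ε (s.k + tot l) V *
    (ENNReal.ofReal (Real.exp (κ * kin V)) *
      (if Ch Φ ε T ρ ((s, r) :: l) G Z q V then (1 : ℝ≥0∞) else 0)) ≤ _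
  rw [e1]
  have key : ∀ V : Config s.k, gcWeight f₀ ε s.k V *
      ∫⁻ w : Config (tot l), gcWeight f₀ ε (tot l) w * (perpInd ε V w *
        (ENNReal.ofReal (Real.exp (κ * kin (Fin.append V w : Config (s.k + tot l)))) *
          (if Ch Φ ε T ρ ((s, r) :: l) G Z q (Fin.append V w) then (1 : ℝ≥0∞) else 0))) ≤
      (gcWeight f₀ ε s.k V * ENNReal.ofReal (Real.exp (κ * kin V)) *
        (if AllConn (NContact Φ ε 0 T V) ∧ dist (flow Φ ε r V s.e).1 (Z.path Φ ε r q).1 ≤ ρ
          then 1 else 0)) * P := by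
    intro V
    by_cases hc : AllConn (NContact Φ ε 0 T V) ∧
        dist (flow Φ ε r V s.e).1 (Z.path Φ ε r q).1 ≤ ρ
    · rw [if_pos hc, mul_one, mul_assoc]
      refine mul_le_mul_right ?_ _
      have hnext : ∃ (G' : Type) (_ : Fintype G') (Z' : MW G') (q' : G'),
          ∀ w : Config (tot l), Ch Φ ε T ρ ((s, r) :: l) G Z q (Fin.append V w) →
            Ch Φ ε T ρ l G' Z' q' w := by
        rcases hkd : s.kd with _ | _ | _
        · refine ⟨G ⊕ Fin s.k, inferInstance, Z.add (MW.cfg V), Sum.inl q, fun w hw => ?_⟩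
          have := hw.2.2
          simp only [hkd, hd_append, tl_append] at this
          exact this
        · refine ⟨G ⊕ Fin s.k, inferInstance, Z.add (MW.cfg V), Sum.inr s.e, fun w hw => ?_⟩
          have := hw.2.2
          simp only [hkd, hd_append, tl_append] at this
          exact this
        · refine ⟨Fin s.k, inferInstance, MW.cfg V, s.e, fun w hw => ?_⟩
          have := hw.2.2
          simp only [hkd, hd_append, tl_append] at this
          exact this
      obtain ⟨G', hG', Z', q', hnext⟩ := hnext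
      calc ∫⁻ w : Config (tot l), gcWeight f₀ ε (tot l) w * (perpInd ε V w *
            (ENNReal.ofReal (Real.exp (κ * kin (Fin.append V w : Config (s.k + tot l)))) *
              (if Ch Φ ε T ρ ((s, r) :: l) G Z q (Fin.append V w) then (1 : ℝ≥0∞) else 0)))
          ≤ ∫⁻ w : Config (tot l), ENNReal.ofReal (Real.exp (κ * kin V)) *
              (gcWeight f₀ ε (tot l) w * (ENNReal.ofReal (Real.exp (κ * kin w)) *
              (if Ch Φ ε T ρ l G' Z' q' w then (1 : ℝ≥0∞) else 0))) := by
            refine lintegral_mono fun w => ?_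
            have e2 : ENNReal.ofReal (Real.exp (κ * kin (Fin.append V w : Config (s.k + tot l)))) =
                ENNReal.ofReal (Real.exp (κ * kin V)) * ENNReal.ofReal (Real.exp (κ * kin w)) := by
              rw [kin_append, mul_add, Real.exp_add, ENNReal.ofReal_mul (Real.exp_pos _).le]
            simp only
            rw [e2]
            have e3 : (if Ch Φ ε T ρ ((s, r) :: l) G Z q (Fin.append V w) then (1 : ℝ≥0∞) else 0) ≤
                (if Ch Φ ε T ρ l G' Z' q' w then (1 : ℝ≥0∞) else 0) := by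
              split_ifs with h1 h2
              · exact le_rfl
              · exact absurd (hnext w h1) h2
              · exact bot_le
              · exact bot_le
            have e4 : perpInd ε V w ≤ 1 := by
              unfold perpInd; split_ifs <;> simp
            calc gcWeight f₀ ε (tot l) w * (perpInd ε V w *
                  (ENNReal.ofReal (Real.exp (κ * kin V)) * ENNReal.ofReal (Real.exp (κ * kin w)) *
                    (if Ch Φ ε T ρ ((s, r) :: l) G Z q (Fin.append V w) then (1 : ℝ≥0∞) else 0)))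
                ≤ gcWeight f₀ ε (tot l) w * (1 *
                  (ENNReal.ofReal (Real.exp (κ * kin V)) * ENNReal.ofReal (Real.exp (κ * kin w)) *
                    (if Ch Φ ε T ρ l G' Z' q' w then (1 : ℝ≥0∞) else 0))) := by gcongr
              _ = _ := by ring
        _ = ENNReal.ofReal (Real.exp (κ * kin V)) * ∫⁻ w : Config (tot l),
              (gcWeight f₀ ε (tot l) w * (ENNReal.ofReal (Real.exp (κ * kin w)) *
              (if Ch Φ ε T ρ l G' Z' q' w then (1 : ℝ≥0∞) else 0))) :=
            lintegral_const_mul' _ _ ENNReal.ofReal_ne_top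
        _ ≤ ENNReal.ofReal (Real.exp (κ * kin V)) * P := by
            gcongr
            exact ih' G' Z' q'
    · have hno : ∀ w : Config (tot l), ¬ Ch Φ ε T ρ ((s, r) :: l) G Z q (Fin.append V w) := by
        intro w hw
        apply hc
        have h1 := hw.1
        have h2 := hw.2.1
        simp only [hd_append] at h1 h2
        exact ⟨h1, h2⟩
      have : ∫⁻ w : Config (tot l), gcWeight f₀ ε (tot l) w * (perpInd ε V w *
        (ENNReal.ofReal (Real.exp (κ * kin (Fin.append V w : Config (s.k + tot l)))) *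
          (if Ch Φ ε T ρ ((s, r) :: l) G Z q (Fin.append V w) then (1 : ℝ≥0∞) else 0))) = 0 := by
        simp [hno]
      rw [this, mul_zero]
      exact bot_le
  refine (lintegral_mono key).trans (le_of_eq ?_)
  exact lintegral_mul_const' _ _ hPtop

/-- Envelope of the initial density (consequence of `HasSummableGaussianBound`). -/
structure EnvB (β : ℝ) (f₀ : PhasePoint → ℝ) (env : Space3 → ℝ≥0∞) (A : ℝ) : Prop where
  meas : Measurable env
  int_ne : ∫⁻ x, env x ≠ ∞
  le : ∀ x, env x ≤ ENNReal.ofReal A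
  bound : ∀ z : PhasePoint, ENNReal.ofReal (f₀ z) ≤
    env z.1 * ENNReal.ofReal (Real.exp (-(2 * β * ‖z.2‖ ^ 2)))

/-- **Mass of the connected clusters** with the exponential weight of the energy. -/
theorem conn_bound (hΦ : AdmissiblePotential Φ) {β : ℝ} (hβ : 0 < β) (T A : ℝ) (hT : 0 ≤ T)
    (K : ℕ) : ∃ C : ℝ≥0∞, C ≠ ∞ ∧ ∀ (f₀ : PhasePoint → ℝ) (env : Space3 → ℝ≥0∞),
      EnvB β f₀ env A → ∀ ε : ℝ, 0 < ε → ε ≤ 1 → ∀ k, 1 ≤ k → k ≤ K →
      ∫⁻ V : Config k, gcWeight f₀ ε k V * ENNReal.ofReal (Real.exp (2 * β * kin V)) *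
          (if AllConn (NContact Φ ε 0 T V) then 1 else 0) ≤
        C * ENNReal.ofReal ε ^ (2 * (k - 1)) * ∫⁻ x, env x := by
  set a₀ : ℝ := max A 1 with ha₀
  have ha1 : 1 ≤ a₀ := le_max_right _ _
  have ha0 : 0 ≤ a₀ := zero_le_one.trans ha1
  have hk : ∀ k : ℕ, ∃ C : ℝ≥0∞, C ≠ ∞ ∧ ∀ f₀ : PhasePoint → ℝ,
      (∀ z : PhasePoint, f₀ z ≤ a₀ * Real.exp (-(2 * (β / 2) * ‖z.2‖ ^ 2))) →
      ∀ ε : ℝ, 0 < ε → ε ≤ 1 → ∀ (ι : Type) [Fintype ι],
      Fintype.card ι = k → ∀ (i : ι) (a b τ : ℝ), a ≤ τ → τ ≤ b → b - a ≤ T →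
      ∀ F : PhasePoint → ℝ≥0∞, Measurable F →
      ∫⁻ z in {z : ι → PhasePoint | Excl ε z ∧ AllConn (NContact Φ ε a b z)},
          (∏ j, ENNReal.ofReal (f₀ (z j))) * F (flow Φ ε τ z i) ≤
        C * ENNReal.ofReal ε ^ (2 * (k - 1)) * ∫⁻ y, gw (β / 2) y * F y := fun k =>
    exists_root_bound hΦ (β := β / 2) (by positivity) T a₀ ha0 k
  choose C hC h using hk
  set I : ℝ≥0∞ := ∫⁻ v : Space3, ENNReal.ofReal (Real.exp (-(β / 2 * ‖v‖ ^ 2))) with hI
  have hIne : I ≠ ∞ := (lintegral_gaussian_lt_top (γ := β / 2) (by positivity)).ne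
  refine ⟨(∑ k ∈ Finset.range (K + 1), C k) * I, ENNReal.mul_ne_top
    (ENNReal.sum_ne_top.2 fun k _ => hC k) hIne, ?_⟩
  intro f₀ env hE ε hε hε1 k hk1 hkK
  set g : PhasePoint → ℝ := fun z => a₀ * Real.exp (-(β * ‖z.2‖ ^ 2)) with hg
  have hg' : ∀ z : PhasePoint, g z ≤ a₀ * Real.exp (-(2 * (β / 2) * ‖z.2‖ ^ 2)) := by
    intro z
    rw [hg]
    apply le_of_eq
    simp only
    congr 3
    ring
  set i₀ : Fin k := ⟨0, hk1⟩ with hi₀
  have h1 := h k g hg' ε hε hε1 (Fin k) (Fintype.card_fin k) i₀ 0 T 0 le_rfl hT (by linarith)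
    (fun y => env y.1) (hE.meas.comp measurable_fst)
  have hCk : C k ≤ ∑ k ∈ Finset.range (K + 1), C k :=
    Finset.single_le_sum (f := C) (fun _ _ => bot_le) (Finset.mem_range.2 (by omega))
  have hprod : ∫⁻ y : PhasePoint, gw (β / 2) y * env y.1 = I * ∫⁻ x, env x := by
    change ∫⁻ y : Space3 × Space3, gw (β / 2) y * env y.1 = _
    rw [Measure.volume_eq_prod, lintegral_prod]
    · rw [mul_comm, ← lintegral_mul_const' _ _ hIne]
      refine lintegral_congr fun x => ?_
      rw [hI, ← lintegral_const_mul]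
      · refine lintegral_congr fun v => ?_
        unfold gw
        rw [mul_comm]
      · exact (Measurable.ennreal_ofReal (by fun_prop))
    · exact ((measurable_gw _).mul (hE.meas.comp measurable_fst)).aemeasurable
  calc ∫⁻ V : Config k, gcWeight f₀ ε k V * ENNReal.ofReal (Real.exp (2 * β * kin V)) *
          (if AllConn (NContact Φ ε 0 T V) then 1 else 0)
      ≤ ∫⁻ V : Config k, {z : Config k | Excl ε z ∧ AllConn (NContact Φ ε 0 T z)}.indicator
          (fun z => (∏ j, ENNReal.ofReal (g (z j))) * env (flow Φ ε 0 z i₀).1) V := by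
        refine lintegral_mono fun V => ?_
        by_cases hc : AllConn (NContact Φ ε 0 T V)
        · simp only
          rw [if_pos hc, mul_one]
          unfold gcWeight
          by_cases hV : V ∈ PairExcluded ε k
          · rw [indicator_of_mem hV, indicator_of_mem (show V ∈ {z : Config k | Excl ε z ∧
              AllConn (NContact Φ ε 0 T z)} from ⟨hV, hc⟩), flow_zero hΦ hε]
            have e1 : ENNReal.ofReal (Real.exp (2 * β * kin V)) =
                ∏ i : Fin k, ENNReal.ofReal (Real.exp (β * ‖(V i).2‖ ^ 2)) := by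
              rw [← ENNReal.ofReal_prod_of_nonneg (fun i _ => (Real.exp_pos _).le), ← Real.exp_sum]
              congr 2
              unfold kin
              rw [← Finset.mul_sum]
              ring
            rw [e1, ← Finset.prod_mul_distrib]
            have e2 : ∀ j : Fin k, ENNReal.ofReal (f₀ (V j)) *
                ENNReal.ofReal (Real.exp (β * ‖(V j).2‖ ^ 2)) ≤
                (if j = i₀ then env (V i₀).1 else 1) * ENNReal.ofReal (g (V j)) := by
              intro j
              have e3 : ENNReal.ofReal (Real.exp (-(2 * β * ‖(V j).2‖ ^ 2))) *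
                  ENNReal.ofReal (Real.exp (β * ‖(V j).2‖ ^ 2)) =
                  ENNReal.ofReal (Real.exp (-(β * ‖(V j).2‖ ^ 2))) := by
                rw [← ENNReal.ofReal_mul (Real.exp_pos _).le, ← Real.exp_add]
                congr 2
                ring
              by_cases hj : j = i₀
              · rw [if_pos hj, hj]
                calc ENNReal.ofReal (f₀ (V i₀)) * ENNReal.ofReal (Real.exp (β * ‖(V i₀).2‖ ^ 2))
                    ≤ env (V i₀).1 * ENNReal.ofReal (Real.exp (-(2 * β * ‖(V i₀).2‖ ^ 2))) *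
                      ENNReal.ofReal (Real.exp (β * ‖(V i₀).2‖ ^ 2)) :=
                      mul_le_mul_left (hE.bound (V i₀)) _
                  _ = env (V i₀).1 * ENNReal.ofReal (Real.exp (-(β * ‖(V i₀).2‖ ^ 2))) := by
                      rw [hj] at e3
                      rw [mul_assoc, e3]
                  _ ≤ env (V i₀).1 * ENNReal.ofReal (g (V i₀)) := by
                      refine mul_le_mul_right (ENNReal.ofReal_le_ofReal ?_) _
                      rw [hg]
                      simp only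
                      have := Real.exp_pos (-(β * ‖(V i₀).2‖ ^ 2))
                      nlinarith
              · rw [if_neg hj, one_mul]
                calc ENNReal.ofReal (f₀ (V j)) * ENNReal.ofReal (Real.exp (β * ‖(V j).2‖ ^ 2))
                    ≤ env (V j).1 * ENNReal.ofReal (Real.exp (-(2 * β * ‖(V j).2‖ ^ 2))) *
                      ENNReal.ofReal (Real.exp (β * ‖(V j).2‖ ^ 2)) :=
                      mul_le_mul_left (hE.bound (V j)) _
                  _ = env (V j).1 * ENNReal.ofReal (Real.exp (-(β * ‖(V j).2‖ ^ 2))) := by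
                      rw [mul_assoc, e3]
                  _ ≤ ENNReal.ofReal a₀ * ENNReal.ofReal (Real.exp (-(β * ‖(V j).2‖ ^ 2))) := by
                      refine mul_le_mul_left ((hE.le _).trans
                        (ENNReal.ofReal_le_ofReal (le_max_left _ _))) _
                  _ = ENNReal.ofReal (g (V j)) := by
                      rw [← ENNReal.ofReal_mul ha0]
            refine (Finset.prod_le_prod' fun j _ => e2 j).trans (le_of_eq ?_)
            rw [Finset.prod_mul_distrib, Finset.prod_ite_eq' Finset.univ i₀]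
            simp only [Finset.mem_univ, if_true]
            rw [mul_comm]
          · rw [indicator_of_notMem hV, zero_mul]
            exact bot_le
        · simp only
          rw [if_neg hc, mul_zero]
          exact bot_le
    _ ≤ ∫⁻ V in {z : Config k | Excl ε z ∧ AllConn (NContact Φ ε 0 T z)},
          (∏ j, ENNReal.ofReal (g (V j))) * env (flow Φ ε 0 V i₀).1 := lintegral_indicator_le _ _
    _ ≤ C k * ENNReal.ofReal ε ^ (2 * (k - 1)) * ∫⁻ y, gw (β / 2) y * env y.1 := h1
    _ ≤ (∑ k ∈ Finset.range (K + 1), C k) * ENNReal.ofReal ε ^ (2 * (k - 1)) *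
          (I * ∫⁻ x, env x) := by
        rw [hprod]
        gcongr
    _ = _ := by ring

end Crest.Agent.R122.LinkM547

end
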