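import Crest.Agent.R122.Line3G_984

/-!
# Selection of the majorant in `StmtLink4` (row 122, INEQUALITY 1)

* `DomErr` : a functional of structures dominates `err4` at fixed `K`, `ε`.
* `stmtLink4_of_sel` : it is enough to find, for every `K`, `δ` and for `ε` small, a measurable
  majorant (depending on `ε`, `δ`) with structure integral `≤ δ`.
-/

set_option autoImplicit false

open MeasureTheory Set Filter
open scoped ENNReal Classical Topology
open Crest.AnalysisR.Kinetic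
open Crest.Agent.R122.Kin796 Crest.Agent.R122.Kin796.CTree Crest.Agent.R122.Tree674
open Crest.Agent.R122.EDefs602 Crest.Agent.R122.OneC285

namespace Crest.Agent.R122.OneC285

variable {Φ : Space3 → ℝ} {f₀ : PhasePoint → ℝ} {Q : EPar} {T' : ℝ}

/-- `b` dominates `err4` on the real structures, fixed `K`, `ε`. -/
def DomErr (Φ : Space3 → ℝ) (Q : EPar) (T' : ℝ) (K : ℕ) (ε : ℝ) (b : SF) : Prop :=
  ∀ (P : CTree) (z : PhasePoint × Par P) (m : ℕ) (w : Config m)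
    (l : ML), l.2 + P.leaves ≤ K → Real4 Φ ε K Q.te T' P z w l →
    GIV566.unhit Φ ε (ptube Φ ε P z) Q.tw w → err4 Φ ε K Q P z w l ≤ b P z m w l

theorem err4_le_one {ε : ℝ} {K : ℕ} {P : CTree} {z : PhasePoint × Par P} {m : ℕ} {w : Config m}
    {l : ML} : err4 Φ ε K Q P z w l ≤ 1 := by
  unfold err4
  split_ifs
  · exact min_le_left _ _
  · exact min_le_left _ _
  · exact le_rfl

theorem domErr_one (K : ℕ) (ε : ℝ) : DomErr Φ Q T' K ε (fun _ _ _ _ _ => 1) :=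
  fun _ _ _ _ _ _ _ _ => err4_le_one

theorem DomErr.mono {K : ℕ} {ε : ℝ} {b b' : SF} (h : DomErr Φ Q T' K ε b)
    (hb : ∀ P z m w l, b P z m w l ≤ b' P z m w l) : DomErr Φ Q T' K ε b' :=
  fun P z m w l h1 h2 h3 => (h P z m w l h1 h2 h3).trans (hb P z m w l)

/-- **Selection.** -/
theorem stmtLink4_of_sel (h : ∀ (K : ℕ) (δ : ℝ), 0 < δ → ∃ ε₀ : ℝ, 0 < ε₀ ∧ ∀ ε : ℝ, 0 < ε →
    ε < ε₀ → ∃ b : SF, MeasSF b ∧ DomErr Φ Q T' K ε b ∧
      OS Φ f₀ ε K Q T' (volume.restrict (Ioc 0 Q.te)) b ≤ ENNReal.ofReal δ) :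
    StmtLink4 Φ f₀ Q T' := by
  -- infimum over the admissible majorants
  set I : ℕ → ℝ → ℝ≥0∞ := fun K ε => ⨅ (b : SF) (_ : MeasSF b ∧ DomErr Φ Q T' K ε b),
    OS Φ f₀ ε K Q T' (volume.restrict (Ioc 0 Q.te)) b with hI
  have hsel : ∀ (K : ℕ) (ε : ℝ), ∃ b : SF, MeasSF b ∧ DomErr Φ Q T' K ε b ∧ (0 < ε →
      OS Φ f₀ ε K Q T' (volume.restrict (Ioc 0 Q.te)) b ≤ I K ε + ENNReal.ofReal ε) := by
    intro K ε
    by_cases hε : 0 < ε
    swap
    · exact ⟨fun _ _ _ _ _ => 1, fun _ _ => measurable_const, domErr_one K ε,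
        fun h => absurd h hε⟩
    by_cases hit : I K ε = ∞
    · exact ⟨fun _ _ _ _ _ => 1, fun _ _ => measurable_const, domErr_one K ε, fun _ => by
        rw [hit, top_add]; exact le_top⟩
    · have hlt : I K ε < I K ε + ENNReal.ofReal ε :=
        ENNReal.lt_add_right hit (ENNReal.ofReal_pos.2 hε).ne'
      rw [hI] at hlt
      simp only [iInf_lt_iff] at hlt
      obtain ⟨b, ⟨hb1, hb2⟩, hb3⟩ := hlt
      exact ⟨b, hb1, hb2, fun _ => hb3.le⟩
  choose bd hbd1 hbd2 hbd3 using hsel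
  refine ⟨bd, hbd1, fun K ε _ => hbd2 K ε, fun K δ hδ => ?_⟩
  obtain ⟨ε₀, hε₀, h0⟩ := h K (δ / 2) (half_pos hδ)
  refine ⟨min ε₀ (δ / 2), lt_min hε₀ (half_pos hδ), fun ε hε hlt => ?_⟩
  obtain ⟨b, hb1, hb2, hb3⟩ := h0 ε hε (hlt.trans_le (min_le_left _ _))
  calc OS Φ f₀ ε K Q T' (volume.restrict (Ioc 0 Q.te)) (bd K ε)
      ≤ I K ε + ENNReal.ofReal ε := hbd3 K ε hε
    _ ≤ ENNReal.ofReal (δ / 2) + ENNReal.ofReal (δ / 2) := by
        refine add_le_add ?_ (ENNReal.ofReal_le_ofReal (hlt.trans_le (min_le_right _ _)).le)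
        exact (iInf₂_le b ⟨hb1, hb2⟩).trans hb3
    _ = ENNReal.ofReal δ := by
        rw [← ENNReal.ofReal_add (half_pos hδ).le (half_pos hδ).le, add_halves]

end Crest.Agent.R122.OneC285
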