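import Crest.Agent.R122.LinkVh_335
import Crest.Agent.R122.ColN_879

/-!
# A real tree and an independent line, base world with one exit (row 122, H1)

`Z` a base world, `A = treeW Φ ε P z` the initial particles of a tree, real in `Z + A`,
`F = lineML Φ ε P z` its lines, `δ` one of its leaves, `l` a line. The base world of the links is
`Z₁ = Z + F δ`; the particle of `F δ` belongs to the tree.

* `FamNL.comp`, `path_sub` : sub-families.
* `ψ`, `base_exchange` : one line of a family moved to the base world.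
* `nd_ins` : at most one line of the family in the past, or clean.
* `avoid_ins` : the visible particles of `Z + F + l` stay away from the hidden curves of the tree.
* `VC`, `VC.touched_iff` : `(Z + A).Touched l s ↔ (Z + F).Touched l s` (core of helper335's `VH`).
* `thetaL_le_ins` : **if `l` touches `Z + F δ` strictly before the other lines, then it touches
  `Z + A` not later.**
-/

set_option autoImplicit false
set_option linter.unusedSectionVars false

open MeasureTheory Set Filter Topology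
open scoped ENNReal
open Crest.AnalysisR.Kinetic
open Crest.Agent.R122.Flow671 hiding rel
open Crest.Agent.R122.Loc45 Crest.Agent.R122.Ins45
open Crest.Agent.R122.Causal291 (Past BC)
open Crest.Agent.R122.Inf879 Crest.Agent.R122.EDefs602 Crest.Agent.R122.MWAlg255
open Crest.Agent.R122.Lines255 Crest.Agent.R122.Hid879
open Crest.Agent.R122.Kin796 Crest.Agent.R122.Kin796.CTree Crest.Agent.R122.Tree674
open Crest.Agent.R122.PathFlow968 Crest.Agent.R122.TreeLines335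
open Crest.Agent.R122.MWFam255 Crest.Agent.R122.RealL811 Crest.Agent.R122.Decomp811
open Crest.Agent.R122.E6Hyp879 (withD)
open Crest.Agent.R122.RtG302 (near)
open Crest.Agent.R122.OneC285 (ptube)
open Crest.Agent.R122.LNEv383 (RetC)
open Crest.Agent.R122.LinkVh335

namespace Crest.Agent.R122.LinkVd879

noncomputable section

open scoped Classical

/-! ### Sub-families -/

section fam

variable {ι κ κ₀ : Type} [Fintype ι] [Fintype κ] [Fintype κ₀] {Φ : Space3 → ℝ} {ε T s u : ℝ} {K : ℕ}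
  {Z : MW ι} {ls : κ → ML}

theorem _root_.Crest.Agent.R122.MWFam255.FamNL.comp (h : FamNL Φ ε K T Z ls s)
    (hΦ : AdmissiblePotential Φ) (hε : 0 < ε) (g : κ₀ ↪ κ) :
    FamNL Φ ε K T Z (fun i => ls (g i)) s where
  ok := okFam_comp hΦ hε h.ok g
  s0 := h.s0
  sT := h.sT
  le k := h.le (g k)
  nl j k hjk := h.nl (g j) (g k) fun h' => hjk (g.injective h')

/-- A particle which has no colour outside the sub-family has the same state. -/
theorem path_sub (hΦ : AdmissiblePotential Φ) (hε : 0 < ε) (h : FamNL Φ ε K T Z ls s) (g : κ₀ ↪ κ)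
    (hu : u ∈ Icc 0 s) {y : ι ⊕ κ₀}
    (hy : ∀ j, j ∉ range g → ¬ Col Φ ε K Z ls j u (Sum.map id g y)) :
    (Z.add (MW.lines ls)).path Φ ε u (Sum.map id g y) =
      (Z.add (MW.lines fun i => ls (g i))).path Φ ε u y := by
  have h₀ := h.comp hΦ hε g
  rcases y with i | m
  · by_cases hc : ∃ j, Col Φ ε K Z ls j u (Sum.inl i)
    · obtain ⟨j, hj⟩ := hc
      have hjr : j ∈ range g := by
        by_contra hno
        exact hy j hno hj
      obtain ⟨k, rfl⟩ := hjr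
      rcases hj with hj | ⟨i', hi', hcf⟩
      · cases hj
      · rw [← Sum.inl_injective hi'] at hcf
        exact (h.path_inl hΦ hε hu hcf).trans (h₀.path_inl hΦ hε hu (k := k) hcf).symm
    · push Not at hc
      obtain ⟨i', hi', hp, -⟩ := path_no_col hΦ hε h hu hc
      have hc' : ∀ j, ¬ Col Φ ε K Z (fun i => ls (g i)) j u (Sum.inl i) := by
        intro j hj
        refine hc (g j) ?_
        rcases hj with hj | ⟨i', hi', hj⟩
        · cases hj
        · exact Or.inr ⟨i', congrArg Sum.inl (Sum.inl_injective hi'), hj⟩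
      obtain ⟨i'', hi'', hp', -⟩ := path_no_col hΦ hε h₀ hu hc'
      rw [← Sum.inl_injective hi'] at hp
      rw [← Sum.inl_injective hi''] at hp'
      exact hp.trans hp'.symm
  · exact (h.path_inr hΦ hε hu (g m)).trans (h₀.path_inr hΦ hε hu m).symm

/-! ### One line moved to the base world -/

/-- Labels: the line `δ` moved to the base world. -/
def ψ (ι : Type) {κ : Type} (δ : κ) : (ι ⊕ Unit) ⊕ {k : κ // k ≠ δ} ≃ ι ⊕ κ where
  toFun x := match x with
    | Sum.inl (Sum.inl i) => Sum.inl i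
    | Sum.inl (Sum.inr _) => Sum.inr δ
    | Sum.inr k => Sum.inr k.1
  invFun x := match x with
    | Sum.inl i => Sum.inl (Sum.inl i)
    | Sum.inr k => if h : k = δ then Sum.inl (Sum.inr ()) else Sum.inr ⟨k, h⟩
  left_inv := by
    rintro ((i | u) | ⟨k, hk⟩)
    · rfl
    · simp
    · simp [hk]
  right_inv := by
    rintro (i | k)
    · rfl
    · by_cases h : k = δ
      · simp [h]
      · simp [h]

theorem base_exchange (Z : MW ι) (H : κ → ML) (δ : κ) :
    (Z.ins (H δ)).add (MW.lines (exF H δ)) = (Z.add (MW.lines H)).comap (ψ ι δ) := by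
  unfold MW.ins MW.add MW.comap MW.line MW.lines exF
  congr 1 <;> · funext x; rcases x with (x | x) | x <;> rfl

/-- **At most one line in the past, or clean**, for a family which is not touched in the base world
with one of its lines. -/
theorem nd_ins (hΦ : AdmissiblePotential Φ) (hε : 0 < ε) {H : κ → ML} {δ : κ}
    (h : FamNL Φ ε K T (Z.ins (H δ)) (exF H δ) s) (hu : u ∈ Icc 0 s) {D : Set (ι ⊕ κ)}
    (hD : ∀ y ∈ D, ∃ k, y = Sum.inr k ∧ (k ≠ δ → u < (Z.ins (H δ)).thetaL Φ ε K T (H k)))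
    (x : ι ⊕ κ) :
    (BC ((Z.add (MW.lines H)).C Φ ε) u x ∩ D).Subsingleton ∨
      ¬ (Z.add (MW.lines H)).Inf Φ ε K u x := by
  set W := Z.add (MW.lines H) with hW
  have hex : (Z.ins (H δ)).add (MW.lines (exF H δ)) = W.comap (ψ ι δ) := base_exchange Z H δ
  have h1 := subs_or_clean hΦ hε h hu (D := (ψ ι δ) ⁻¹' D) (δ := Sum.inl (Sum.inr ())) (by
    rintro ((i | u') | ⟨k, hk⟩) hy hne
    · obtain ⟨k, hk, _⟩ := hD _ hy
      cases hk
    · exact absurd rfl hne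
    · obtain ⟨k', hk', hlt⟩ := hD _ hy
      have e : k = k' := Sum.inr_injective hk'
      subst e
      exact ⟨⟨k, hk⟩, rfl, hlt hk⟩) ((ψ ι δ).symm x)
  rw [hex] at h1
  have hpast : ∀ y, y ∈ BC (W.C Φ ε) u x ↔
      (ψ ι δ).symm y ∈ BC ((W.comap (ψ ι δ)).C Φ ε) u ((ψ ι δ).symm x) := by
    intro y
    have h2 : (ψ ι δ).symm y ∈ BC ((W.comap (ψ ι δ)).C Φ ε) u ((ψ ι δ).symm x) ↔
        (ψ ι δ) ((ψ ι δ).symm y) ∈ BC (W.C Φ ε) u ((ψ ι δ) ((ψ ι δ).symm x)) :=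
      (past_congr_rel (C_comap hΦ hε W (ψ ι δ))).trans
        (Causal291.past_equiv (W.C Φ ε) (ψ ι δ))
    rw [h2, (ψ ι δ).apply_symm_apply, (ψ ι δ).apply_symm_apply]
  refine h1.imp (fun h2 => ?_) fun h2 h3 => ?_
  · rintro y ⟨hy, hyD⟩ y' ⟨hy', hyD'⟩
    refine (ψ ι δ).symm.injective (h2 ⟨(hpast y).1 hy, ?_⟩ ⟨(hpast y').1 hy', ?_⟩)
    · change (ψ ι δ) ((ψ ι δ).symm y) ∈ D
      rwa [(ψ ι δ).apply_symm_apply]
    · change (ψ ι δ) ((ψ ι δ).symm y') ∈ D
      rwa [(ψ ι δ).apply_symm_apply]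
  · refine h2 ?_
    rw [Inf_comap hΦ hε, (ψ ι δ).apply_symm_apply]
    exact h3

end fam

/-! ### The core of the comparison -/

section core

variable {ι : Type} [Fintype ι] {Φ : Space3 → ℝ} {ε T T' s v : ℝ} {K : ℕ} {Z : MW ι} {l : ML}
  {P : CTree} {z : PhasePoint × Par P}

/-- Hypotheses of the comparison of the real tree and its lines, in presence of the line `l`. -/
structure VC (Φ : Space3 → ℝ) (ε T' s : ℝ) (K : ℕ) (Z : MW ι) (P : CTree)
    (z : PhasePoint × Par P) (l : ML) : Prop where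
  valid : Valid Φ ε P T' z.1.2 z.2
  sep : Sep Φ ε P T' z.1 z.2
  leaves : P.leaves ≤ K
  s0 : 0 ≤ s
  sT' : s ≤ T'
  b0 : ∀ x, 0 ≤ Z.b x
  bl : 0 ≤ l.1.1
  tree : TreeIn Φ ε (Z.add (RealL811.treeW Φ ε P z)) P z Sum.inr s
  okA : (Z.add (RealL811.treeW Φ ε P z)).Ok Φ ε
  okAl : (Z.add ((RealL811.treeW Φ ε P z).add (MW.line l))).Ok Φ ε
  okF : (Z.add (MW.lines (lineML Φ ε P z))).Ok Φ ε
  okFl : (Z.add (MW.lines (withD (lineML Φ ε P z) l))).Ok Φ ε
  /-- the tree and the base world are separated at time `0` -/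
  sep0 : ∀ (k : Idx P) (i : ι), Z.b i ≤ 0 →
    ε < dist ((Z.add (RealL811.treeW Φ ε P z)).path Φ ε 0 (Sum.inr k)).1
      ((Z.add (RealL811.treeW Φ ε P z)).path Φ ε 0 (Sum.inl i)).1
  /-- the visible particles of `Z + F + l` avoid the hidden curves -/
  avoid : ∀ u ∈ Icc 0 s, ∀ k : Idx P, u ≤ rel P z.2 k → ∀ y : ι ⊕ (Idx P ⊕ Unit),
    (Z.add (MW.lines (withD (lineML Φ ε P z) l))).b y ≤ u →
    (∀ m, y = Sum.inr (Sum.inl m) → rel P z.2 m < u) →
    ε < dist ((Z.add (RealL811.treeW Φ ε P z)).path Φ ε u (Sum.inr k)).1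
      ((Z.add (MW.lines (withD (lineML Φ ε P z) l))).path Φ ε u y).1
  nd₁ : ∀ x, (BC ((Z.add (MW.lines (lineML Φ ε P z))).C Φ ε) s x ∩
    range (Sum.inr : Idx P → ι ⊕ Idx P)).Subsingleton ∨
      ¬ (Z.add (MW.lines (lineML Φ ε P z))).Inf Φ ε K s x
  nd₂ : ∀ x, (BC ((Z.add (MW.lines (withD (lineML Φ ε P z) l))).C Φ ε) s x ∩
    DD ι (Idx P)).Subsingleton ∨
      ¬ (Z.add (MW.lines (withD (lineML Φ ε P z) l))).Inf Φ ε K s x

namespace VC

variable (h : VC Φ ε T' s K Z P z l) (hΦ : AdmissiblePotential Φ) (hε : 0 < ε)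

include h hΦ hε in
theorem rl₁ : RL Φ ε K (Z.add (RealL811.treeW Φ ε P z)) (Z.add (MW.lines (lineML Φ ε P z)))
    (range Sum.inr) s :=
  rl_add hΦ hε h.valid h.sep h.sT' h.s0 h.leaves h.tree h.okA h.okF h.b0

include h in
theorem rel0 (k : Idx P) (hε : 0 < ε) : 0 ≤ rel P z.2 k := rel_nonneg hε.le h.valid.2 k

include h in
theorem b_le (hε : 0 < ε) (y : ι ⊕ (Idx P ⊕ Unit)) :
    (Z.add ((RealL811.treeW Φ ε P z).add (MW.line l))).b y ≤
      (Z.add (MW.lines (withD (lineML Φ ε P z) l))).b y := by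
  rcases y with i | (m | t)
  · exact le_rfl
  · exact h.rel0 m hε
  · exact le_rfl

include h hΦ hε in
theorem hidHyp : HidHyp Φ ε s (Z.add (RealL811.treeW Φ ε P z)).b
    ((Z.add (RealL811.treeW Φ ε P z)).path Φ ε)
    (Z.add ((RealL811.treeW Φ ε P z).add (MW.line l))).b
    ((Z.add ((RealL811.treeW Φ ε P z).add (MW.line l))).path Φ ε)
    (Z.add (MW.lines (withD (lineML Φ ε P z) l))).b
    ((Z.add (MW.lines (withD (lineML Φ ε P z) l))).path Φ ε) (jj ι (Idx P)) (DD ι (Idx P)) where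
  hX := h.okA.bw
  hX' := h.okAl.bw
  hW := h.okFl.bw
  inj := jj_injective ι (Idx P)
  sub := by
    rintro _ ⟨k, rfl⟩
    exact ⟨Sum.inr k, rfl⟩
  birth a := by
    rcases a with a | a <;> rfl
  off y hy := by
    rcases y with i | (m | t)
    · rfl
    · exact absurd mem_DD hy
    · rfl
  le := h.b_le hε
  pos := by
    rintro _ ⟨k, rfl⟩
    exact h.rel0 k hε
  init a := by
    rw [MW.path_zero hΦ hε, MW.path_zero hΦ hε]
    rcases a with a | a <;> rfl
  init' y hy := by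
    rw [MW.path_zero hΦ hε, MW.path_zero hΦ hε]
    rcases y with i | (m | t)
    · rfl
    · exact absurd mem_DD hy
    · rfl
  match_ a ha hat := by
    rcases a with i | k
    · exact absurd ha inl_not_DD
    · have hat' : rel P z.2 k ≤ s := hat
      have h0 := h.rel0 k hε
      have h1 : (Z.add (MW.lines (withD (lineML Φ ε P z) l))).path Φ ε (lineML Φ ε P z k).1.1
          (Sum.inr (Sum.inl k)) = (lineML Φ ε P z k).1.2 :=
        path_birth hΦ hε h.okFl.bw rfl rfl h0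
      have h2 : (Z.add (MW.lines (lineML Φ ε P z))).path Φ ε (lineML Φ ε P z k).1.1
          (Sum.inr k) = (lineML Φ ε P z k).1.2 :=
        path_birth hΦ hε h.okF.bw rfl rfl h0
      have h3 := (h.rl₁ hΦ hε).agree hΦ hε h0 hat' (x := Sum.inr k) le_rfl
      exact h1.trans (h2.symm.trans h3)
  closed u hu a a' ha hua hb hd := by
    rcases a with i | k
    · exact absurd ha inl_not_DD
    have hua' : u ≤ rel P z.2 k := hua
    rcases hu.1.lt_or_eq with h0 | h0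
    · obtain ⟨m, rfl, hm2⟩ := h.tree.sealed k u a' hu.1 hu.2 hua'
        ⟨hu.1, hb, Or.inr (Or.inl h0), hd⟩
      exact ⟨mem_DD, hm2⟩
    · subst h0
      rcases a' with i | m
      · exact absurd hd (not_le.2 (h.sep0 k i hb))
      · exact ⟨mem_DD, h.rel0 m hε⟩
  avoid u hu a ha hua y hy hvis := by
    rcases a with i | k
    · exact absurd ha inl_not_DD
    refine h.avoid u hu k hua y hy fun m hm => ?_
    by_contra hlt
    subst hm
    exact hvis ⟨mem_DD, not_lt.1 hlt⟩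

include h hΦ hε in
/-- **The tree is real in `Z + A + l` up to `s`.** -/
theorem treeIn_add : TreeIn Φ ε (Z.add ((RealL811.treeW Φ ε P z).add (MW.line l))) P z
    (fun k => Sum.inr (Sum.inl k)) s := by
  have hag := (h.hidHyp hΦ hε).agree hΦ hε h.s0
  refine ⟨fun a b hab => Sum.inl_injective (Sum.inr_injective hab), fun _ => rfl, fun _ => rfl,
    fun k u h0 hu hk => ?_, fun k u y h0 hu hk hc => ?_⟩
  · have h1 := (hag u ⟨h0, hu⟩).1 (Sum.inr k) mem_DD hk
    exact h1.trans (h.tree.agree k u h0 hu hk)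
  · by_contra hno
    push Not at hno
    have hvis : ∀ m, y = Sum.inr (Sum.inl m) → rel P z.2 m < u := fun m hm => hno m hm.symm
    have hyb : (Z.add (MW.lines (withD (lineML Φ ε P z) l))).b y ≤ u := by
      rcases y with i | (m | t)
      · exact hc.2.1
      · exact (hvis m rfl).le
      · exact hc.2.1
    have h1 := h.avoid u ⟨h0, hu⟩ k hk y hyb hvis
    have h2 := (hag u ⟨h0, hu⟩).1 (Sum.inr k) mem_DD hk
    have h3 := (hag u ⟨h0, hu⟩).2 y fun _ => hyb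
    rw [← h2, ← h3] at h1
    exact absurd hc.2.2.2 (not_le.2 h1)

include h hΦ hε in
theorem rl₂ : RL Φ ε K (Z.add ((RealL811.treeW Φ ε P z).add (MW.line l)))
    (Z.add (MW.lines (withD (lineML Φ ε P z) l))) (DD ι (Idx P)) s :=
  (h.treeIn_add hΦ hε).rl hΦ hε h.valid h.sep h.sT' VH.lineOf₂ h.okAl h.okFl (by
    rintro (x | (x | x))
    · exact h.b0 x
    · exact le_rfl
    · exact h.bl) h.s0 h.leaves

include h hΦ hε in
theorem marks₁ : ∀ x ∈ range (Sum.inr : Idx P → ι ⊕ Idx P),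
    (Z.add (MW.lines (lineML Φ ε P z))).b x ≤ s →
    msize ((Z.add (RealL811.treeW Φ ε P z)).C Φ ε) (Z.add (RealL811.treeW Φ ε P z)).m
      ((Z.add (MW.lines (lineML Φ ε P z))).b x) x = (Z.add (MW.lines (lineML Φ ε P z))).m x :=
  marks_add hΦ hε h.valid h.sep h.sT' h.tree

include h hΦ hε in
theorem marks₂ : ∀ x ∈ DD ι (Idx P), (Z.add (MW.lines (withD (lineML Φ ε P z) l))).b x ≤ s →
    msize ((Z.add ((RealL811.treeW Φ ε P z).add (MW.line l))).C Φ ε)
      (Z.add ((RealL811.treeW Φ ε P z).add (MW.line l))).m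
      ((Z.add (MW.lines (withD (lineML Φ ε P z) l))).b x) x =
        (Z.add (MW.lines (withD (lineML Φ ε P z) l))).m x := by
  rintro _ ⟨k, rfl⟩ hb
  exact (h.treeIn_add hΦ hε).size_eq hΦ hε h.valid h.sep h.sT' hb

include h hΦ hε in
theorem inf₁ (x : ι ⊕ Idx P) : (Z.add (RealL811.treeW Φ ε P z)).Inf Φ ε K s x ↔
    (Z.add (MW.lines (lineML Φ ε P z))).Inf Φ ε K s x := by
  by_cases hx : (Z.add (MW.lines (lineML Φ ε P z))).Inf Φ ε K s x
  · exact (h.rl₁ hΦ hε).inf_iff hΦ hε (h.marks₁ hΦ hε) le_rfl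
      fun _ _ => (h.nd₁ x).resolve_right (not_not.2 hx)
  · exact ⟨fun h' => absurd ((h.rl₁ hΦ hε).inf hΦ hε le_rfl h') hx, fun h' => absurd h' hx⟩

include h hΦ hε in
theorem inf₂ (x : ι ⊕ (Idx P ⊕ Unit)) :
    (Z.add ((RealL811.treeW Φ ε P z).add (MW.line l))).Inf Φ ε K s x ↔
      (Z.add (MW.lines (withD (lineML Φ ε P z) l))).Inf Φ ε K s x := by
  by_cases hx : (Z.add (MW.lines (withD (lineML Φ ε P z) l))).Inf Φ ε K s x
  · exact (h.rl₂ hΦ hε).inf_iff hΦ hε (h.marks₂ hΦ hε) le_rfl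
      fun _ _ => (h.nd₂ x).resolve_right (not_not.2 hx)
  · exact ⟨fun h' => absurd ((h.rl₂ hΦ hε).inf hΦ hε le_rfl h') hx, fun h' => absurd h' hx⟩

include h hΦ hε in
/-- **Touches of the line `l`**: real tree and lines. -/
theorem touched_iff : (Z.add (RealL811.treeW Φ ε P z)).Touched Φ ε K (MW.line l) s ↔
    (Z.add (MW.lines (lineML Φ ε P z))).Touched Φ ε K (MW.line l) s := by
  rw [VH.touched_jj hΦ hε, VH.touched_jj hΦ hε, ← VH.lines_withD]
  exact touched_lines_iff hΦ hε (h.rl₁ hΦ hε) (h.rl₂ hΦ hε) (VH.compat hΦ hε Z P z l) le_rfl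
    (h.inf₁ hΦ hε) (h.inf₂ hΦ hε)

end VC

/-! ### Base world with one exit -/

/-- Embedding of the other lines of the tree. -/
def gEmb {κ : Type} (δ : κ) : {k : κ // k ≠ δ} ↪ {k : κ ⊕ Unit // k ≠ Sum.inl δ} :=
  ⟨fun k => ⟨Sum.inl k.1, fun h => k.2 (Sum.inl_injective h)⟩, fun _ _ hab =>
    Subtype.ext (Sum.inl_injective (congrArg (fun y : {k : κ ⊕ Unit // k ≠ Sum.inl δ} => y.1) hab))⟩

/-- The line `l` in the family of the other lines and `l`. -/
def lIdx {κ : Type} (δ : κ) : {k : κ ⊕ Unit // k ≠ Sum.inl δ} := ⟨Sum.inr (), fun h => by cases h⟩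

theorem not_range_gEmb {κ : Type} {δ : κ} {j : {k : κ ⊕ Unit // k ≠ Sum.inl δ}}
    (hj : j ∉ range (gEmb δ)) : j = lIdx δ := by
  obtain ⟨(k | u), hk⟩ := j
  · refine absurd ⟨⟨k, fun h => hk (congrArg Sum.inl h)⟩, rfl⟩ hj
  · rfl

theorem jj_ψ {κ : Type} (δ : κ) (y : (ι ⊕ Unit) ⊕ {k : κ // k ≠ δ}) :
    jj ι κ (ψ ι δ y) = ψ ι (Sum.inl δ : κ ⊕ Unit) (Sum.map id (gEmb δ) y) := by
  rcases y with (i | u) | k <;> rfl

/-- Hypotheses, base world with one exit. -/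
structure VD (Φ : Space3 → ℝ) (ε T T' s : ℝ) (K : ℕ) (Z : MW ι) (P : CTree)
    (z : PhasePoint × Par P) (l : ML) (δ : Idx P) : Prop where
  valid : Valid Φ ε P T' z.1.2 z.2
  sep : Sep Φ ε P T' z.1 z.2
  leaves : P.leaves ≤ K
  sT' : s ≤ T'
  b0 : ∀ x, 0 ≤ Z.b x
  bl : 0 ≤ l.1.1
  tree : TreeIn Φ ε (Z.add (RealL811.treeW Φ ε P z)) P z Sum.inr s
  okA : (Z.add (RealL811.treeW Φ ε P z)).Ok Φ ε
  okAl : (Z.add ((RealL811.treeW Φ ε P z).add (MW.line l))).Ok Φ ε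
  okF : (Z.add (MW.lines (lineML Φ ε P z))).Ok Φ ε
  okFl : (Z.add (MW.lines (withD (lineML Φ ε P z) l))).Ok Φ ε
  sep0 : ∀ (k : Idx P) (i : ι), Z.b i ≤ 0 →
    ε < dist ((Z.add (RealL811.treeW Φ ε P z)).path Φ ε 0 (Sum.inr k)).1
      ((Z.add (RealL811.treeW Φ ε P z)).path Φ ε 0 (Sum.inl i)).1
  fam : FamNL Φ ε K T (Z.ins (lineML Φ ε P z δ))
    (exF (withD (lineML Φ ε P z) l) (Sum.inl δ)) s
  strict : ∀ k, k ≠ δ → s < (Z.ins (lineML Φ ε P z δ)).thetaL Φ ε K T (lineML Φ ε P z k)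
  ret : ¬ RetC Φ ε ε K T (Z.ins (lineML Φ ε P z δ)) l (ptube Φ ε P z)

namespace VD

variable {δ : Idx P} (h : VD Φ ε T T' s K Z P z l δ) (hΦ : AdmissiblePotential Φ) (hε : 0 < ε)

include h hΦ hε in
theorem famF : FamNL Φ ε K T (Z.ins (lineML Φ ε P z δ)) (exF (lineML Φ ε P z) δ) s :=
  h.fam.comp hΦ hε (gEmb δ)

include h in
theorem rel0 (k : Idx P) (hε : 0 < ε) : 0 ≤ rel P z.2 k := rel_nonneg hε.le h.valid.2 k

include h hΦ hε in
theorem rl₁ : RL Φ ε K (Z.add (RealL811.treeW Φ ε P z)) (Z.add (MW.lines (lineML Φ ε P z)))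
    (range Sum.inr) s :=
  rl_add hΦ hε h.valid h.sep h.sT' h.fam.s0 h.leaves h.tree h.okA h.okF h.b0

include h hΦ hε in
theorem avoid₁ {u : ℝ} (hu : u ∈ Icc 0 s) {k : Idx P} (hk : u ≤ rel P z.2 k) {y : ι ⊕ Idx P}
    (hy : (Z.add (MW.lines (lineML Φ ε P z))).b y ≤ u)
    (hvis : ∀ m, y = Sum.inr m → rel P z.2 m < u) :
    ε < dist ((Z.add (RealL811.treeW Φ ε P z)).path Φ ε u (Sum.inr k)).1
      ((Z.add (MW.lines (lineML Φ ε P z))).path Φ ε u y).1 := by
  rw [(h.rl₁ hΦ hε).agree hΦ hε hu.1 hu.2 hy]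
  rcases hu.1.lt_or_eq with h0 | h0
  · by_contra hno
    have hb : (Z.add (RealL811.treeW Φ ε P z)).b y ≤ u := ((h.rl₁ hΦ hε).le y).trans hy
    obtain ⟨m, hm, hm2⟩ := h.tree.sealed k u y hu.1 hu.2 hk
      ⟨hu.1, hb, Or.inr (Or.inl h0), not_lt.1 hno⟩
    exact absurd (hvis m hm.symm) (not_lt.2 hm2)
  · subst h0
    rcases y with i | m
    · exact h.sep0 k i hy
    · exact absurd (hvis m rfl) (not_lt.2 (h.rel0 m hε))

include h hΦ hε in
theorem curve_eq {u : ℝ} (hu : u ∈ Icc 0 s) {k : Idx P} (hk : u ≤ rel P z.2 k) :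
    ((Z.add (RealL811.treeW Φ ε P z)).path Φ ε u (Sum.inr k)).1 = (ptube Φ ε P z).c k u := by
  rw [h.tree.agree k u hu.1 hu.2 hk]
  exact (Hid424.curve_eq_path (X := z.1.1) (v := z.1.2) hΦ hε h.valid h.sep
    ⟨hu.1, hu.2.trans h.sT'⟩ k).symm

include h hΦ hε in
/-- **The visible particles of `Z + F + l` avoid the hidden curves.** -/
theorem avoid {u : ℝ} (hu : u ∈ Icc 0 s) {k : Idx P} (hk : u ≤ rel P z.2 k)
    {y : ι ⊕ (Idx P ⊕ Unit)}
    (hy : (Z.add (MW.lines (withD (lineML Φ ε P z) l))).b y ≤ u)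
    (hvis : ∀ m, y = Sum.inr (Sum.inl m) → rel P z.2 m < u) :
    ε < dist ((Z.add (RealL811.treeW Φ ε P z)).path Φ ε u (Sum.inr k)).1
      ((Z.add (MW.lines (withD (lineML Φ ε P z) l))).path Φ ε u y).1 := by
  set F := lineML Φ ε P z with hF
  set H := withD F l with hH
  set Z₁ := Z.ins (F δ) with hZ₁
  have hex : Z₁.add (MW.lines (exF H (Sum.inl δ))) = (Z.add (MW.lines H)).comap
      (ψ ι (Sum.inl δ : Idx P ⊕ Unit)) := base_exchange Z H (Sum.inl δ)
  have hex' : Z₁.add (MW.lines (exF F δ)) = (Z.add (MW.lines F)).comap (ψ ι δ) :=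
    base_exchange Z F δ
  have hp₂ : ∀ y₁, (Z.add (MW.lines H)).path Φ ε u (ψ ι (Sum.inl δ : Idx P ⊕ Unit) y₁) =
      (Z₁.add (MW.lines (exF H (Sum.inl δ)))).path Φ ε u y₁ := fun y₁ => by
    rw [hex, path_comap hΦ hε]
  have hp₁ : ∀ y₁, (Z.add (MW.lines F)).path Φ ε u (ψ ι δ y₁) =
      (Z₁.add (MW.lines (exF F δ))).path Φ ε u y₁ := fun y₁ => by
    rw [hex', path_comap hΦ hε]
  -- a particle of the colour of `l`
  have hl : ∀ y₁, y = ψ ι (Sum.inl δ : Idx P ⊕ Unit) y₁ →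
      Col Φ ε K Z₁ (exF H (Sum.inl δ)) (lIdx δ) u y₁ →
      ε < dist ((Z.add (RealL811.treeW Φ ε P z)).path Φ ε u (Sum.inr k)).1
        ((Z.add (MW.lines H)).path Φ ε u y).1 := by
    rintro y₁ rfl hc
    rw [hp₂, hc.path hΦ hε h.fam hu]
    by_contra hno
    push Not at hno
    refine h.ret ⟨u, ⟨hu.1, hu.2.trans h.fam.sT⟩, hu.2.trans (h.fam.le (lIdx δ)), ?_⟩
    rw [h.curve_eq hΦ hε hu hk] at hno
    rcases hc with rfl | ⟨i, rfl, hi⟩
    · exact Or.inl ⟨hy, k, hk, hno⟩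
    · exact Or.inr ⟨i, hi, k, hk, hno⟩
  by_cases hyl : y = Sum.inr (Sum.inr ())
  · exact hl (Sum.inr (lIdx δ)) hyl (Or.inl rfl)
  obtain ⟨y', rfl⟩ : ∃ y' : ι ⊕ Idx P, y = jj ι (Idx P) y' := by
    rcases y with i | (m | t)
    · exact ⟨Sum.inl i, rfl⟩
    · exact ⟨Sum.inr m, rfl⟩
    · exact absurd rfl hyl
  obtain ⟨y₁, rfl⟩ := (ψ ι δ).surjective y'
  rw [jj_ψ] at hy hvis ⊢
  by_cases hc : Col Φ ε K Z₁ (exF H (Sum.inl δ)) (lIdx δ) u (Sum.map id (gEmb δ) y₁)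
  · have h1 := hl (Sum.map id (gEmb δ) y₁) (jj_ψ δ y₁) hc
    rw [jj_ψ] at h1
    exact h1
  · have h1 : (Z₁.add (MW.lines (exF H (Sum.inl δ)))).path Φ ε u (Sum.map id (gEmb δ) y₁) =
        (Z₁.add (MW.lines (exF F δ))).path Φ ε u y₁ :=
      path_sub hΦ hε h.fam (gEmb δ) hu fun j hj => by
        rw [not_range_gEmb hj]
        exact hc
    rw [hp₂, h1, ← hp₁]
    refine h.avoid₁ hΦ hε hu hk ?_ ?_
    · rw [← jj_ψ] at hy
      rcases hy' : ψ ι δ y₁ with i | m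
      · rw [hy'] at hy
        exact hy
      · rw [hy'] at hy
        exact hy
    · intro m hm
      refine hvis m ?_
      rw [← jj_ψ, hm]
      rfl

include h hΦ hε in
theorem vc : VC Φ ε T' s K Z P z l where
  valid := h.valid
  sep := h.sep
  leaves := h.leaves
  s0 := h.fam.s0
  sT' := h.sT'
  b0 := h.b0
  bl := h.bl
  tree := h.tree
  okA := h.okA
  okAl := h.okAl
  okF := h.okF
  okFl := h.okFl
  sep0 := h.sep0
  avoid u hu k hk y hy hvis := h.avoid hΦ hε hu hk hy hvis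
  nd₁ x := by
    refine nd_ins hΦ hε (h.famF hΦ hε) ⟨h.fam.s0, le_rfl⟩ ?_ x
    rintro _ ⟨k, rfl⟩
    exact ⟨k, rfl, h.strict k⟩
  nd₂ x := by
    refine nd_ins hΦ hε (H := withD (lineML Φ ε P z) l) (δ := Sum.inl δ) h.fam
      ⟨h.fam.s0, le_rfl⟩ ?_ x
    rintro _ ⟨k, rfl⟩
    exact ⟨Sum.inl k, rfl, fun hk => h.strict k fun h' => hk (congrArg Sum.inl h')⟩

end VD

/-- **A line which touches `Z + F δ` strictly before the other lines of the tree touches `Z + A` not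
later** (`A` real in `Z + A`). -/
theorem thetaL_le_ins (hΦ : AdmissiblePotential Φ) (hε : 0 < ε) {δ : Idx P}
    (hV : Valid Φ ε P T' z.1.2 z.2) (hS : Sep Φ ε P T' z.1 z.2) (hK : P.leaves ≤ K)
    (hvT' : v ≤ T') (hT : 0 ≤ T) (hb : ∀ x, 0 ≤ Z.b x) (hbl : 0 ≤ l.1.1)
    (ht : TreeIn Φ ε (Z.add (RealL811.treeW Φ ε P z)) P z Sum.inr v)
    (hokA : (Z.add (RealL811.treeW Φ ε P z)).Ok Φ ε)
    (hokAl : ((Z.add (RealL811.treeW Φ ε P z)).add (MW.line l)).Ok Φ ε)
    (hsep0 : ∀ (k : Idx P) (i : ι), Z.b i ≤ 0 →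
      ε < dist ((Z.add (RealL811.treeW Φ ε P z)).path Φ ε 0 (Sum.inr k)).1
        ((Z.add (RealL811.treeW Φ ε P z)).path Φ ε 0 (Sum.inl i)).1)
    (hok : MW.OkFam Φ ε Z (withD (lineML Φ ε P z) l))
    (hok₁ : MW.OkFam Φ ε (Z.ins (lineML Φ ε P z δ))
      (exF (withD (lineML Φ ε P z) l) (Sum.inl δ)))
    (hNL : PairNL Φ ε K T (Z.ins (lineML Φ ε P z δ))
      (exF (withD (lineML Φ ε P z) l) (Sum.inl δ)))
    (hret : ¬ RetC Φ ε ε K T (Z.ins (lineML Φ ε P z δ)) l (ptube Φ ε P z))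
    (hlv : (Z.ins (lineML Φ ε P z δ)).thetaL Φ ε K T l ≤ v)
    (hlT : (Z.ins (lineML Φ ε P z δ)).thetaL Φ ε K T l ≤ T)
    (hF : ∀ k, k ≠ δ → (Z.ins (lineML Φ ε P z δ)).thetaL Φ ε K T l <
      (Z.ins (lineML Φ ε P z δ)).thetaL Φ ε K T (lineML Φ ε P z k)) :
    (Z.add (RealL811.treeW Φ ε P z)).thetaL Φ ε K T l ≤
      (Z.ins (lineML Φ ε P z δ)).thetaL Φ ε K T l := by
  set F := lineML Φ ε P z with hFdef
  set Z₁ := Z.ins (F δ) with hZ₁
  set r := Z₁.thetaL Φ ε K T l with hr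
  have hr0 : 0 ≤ r := MW.theta_nonneg hT
  have hfam : FamNL Φ ε K T Z₁ (exF (withD F l) (Sum.inl δ)) r := famNL_of_pair hok₁ hNL hr0 hlT (by
    rintro ⟨(k | k), hk⟩
    · exact (hF k fun h' => hk (congrArg Sum.inl h')).le
    · exact le_rfl)
  have hokF : (Z.add (MW.lines F)).Ok Φ ε :=
    (okFam_comp hΦ hε hok (⟨Sum.inl, Sum.inl_injective⟩ : Idx P ↪ Idx P ⊕ Unit)).lines hΦ hε
  have h : VD Φ ε T T' r K Z P z l δ :=
    { valid := hV
      sep := hS
      leaves := hK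
      sT' := hlv.trans hvT'
      b0 := hb
      bl := hbl
      tree := ht.mono hlv
      okA := hokA
      okAl := (MW.ok_add_assoc hΦ hε).1 hokAl
      okF := hokF
      okFl := hok.lines hΦ hε
      sep0 := hsep0
      fam := hfam
      strict := hF
      ret := hret }
  have hfamF := h.famF hΦ hε
  have hZFl : ((Z.add (MW.lines F)).add (MW.line l)).Ok Φ ε := by
    rw [MW.ok_add_assoc hΦ hε, ← VH.lines_withD]
    exact hok.lines hΦ hε
  have h1 : r ≤ Z₁.theta Φ ε K T (MW.lines (exF F δ)) := hfamF.core hΦ hε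
  have h2 : Decomp811.W1E Φ ε K T Z₁ (MW.lines (exF F δ)) (MW.line l) :=
    w1E_lines_line hΦ hε hT hok₁ hNL (gEmb δ) (lIdx δ) fun i h' => by
      have := congrArg (fun y : {k : Idx P ⊕ Unit // k ≠ Sum.inl δ} => y.1) h'
      cases this
  have h3 : (Z₁.add (MW.lines (exF F δ))).theta Φ ε K T (MW.line l) = r := h2.eq h1
  have h3' : (Z.add (MW.lines F)).theta Φ ε K T (MW.line l) = r := by
    rw [← h3, base_exchange Z F δ]
    exact (theta_comap_left hΦ hε K T (Z.add (MW.lines F)) (MW.line l) (ψ ι δ)).symm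
  have h4 : (Z.add (MW.lines F)).Touched Φ ε K (MW.line l) r :=
    (MW.touched_iff hΦ hε hokF hZFl (T := T) ⟨hr0, hlT⟩).2 h3'.le
  exact MW.theta_le_of_touched ⟨hr0, hlT⟩ (((h.vc hΦ hε).touched_iff hΦ hε).2 h4)

end core

end

end Crest.Agent.R122.LinkVd879
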