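import Crest.Agent.R122.NbadS_263
import Crest.Agent.R122.GoodOf_263
import Crest.Agent.R122.LinkVd_879
import Crest.Agent.R122.InEq2TX_335
import Crest.Agent.R122.LinkSel_285

/-!
# The error of a real structure (row 122, H1), helper263

* `okFam_ins` : one line of a good family moved to the base world.
* `GoodXd` : the test line `x` is good for the base world `w + d`, `d` an exit.
* `Real4.not_mem_nbad4_of_good` : `x ∉ Nbad4` from helper335's `GoodX` and `GoodXd`.
* `lineM_nbad4_le`, `lineM_nbadE_le` : the measures of `Nbad4`, `NbadE`.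
* `err4_le` : **the error `err4` of INEQUALITY 1 on real structures.**
-/

set_option autoImplicit false
set_option linter.unusedSectionVars false

open MeasureTheory Set Filter Topology
open scoped ENNReal
open Crest.AnalysisR.Kinetic
open Crest.Agent.R122.Flow671 hiding rel
open Crest.Agent.R122.Loc45 Crest.Agent.R122.Ins45
open Crest.Agent.R122.Causal291 Crest.Agent.R122.Inf879 Crest.Agent.R122.EDefs602
open Crest.Agent.R122.Lines255 Crest.Agent.R122.MWAlg255
open Crest.Agent.R122.Kin796 Crest.Agent.R122.Kin796.CTree Crest.Agent.R122.Tree674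
open Crest.Agent.R122.PathFlow968 Crest.Agent.R122.TreeLines335 Crest.Agent.R122.Relabel674
open Crest.Agent.R122.GC311 Crest.Agent.R122.Line285 Crest.Agent.R122.OCout796
open Crest.Agent.R122.MWFam255 (FamNL PairNL okFam_comp)
open Crest.Agent.R122.E6Hyp879 (withD)
open Crest.Agent.R122.RealL811 (treeW)
open Crest.Agent.R122.LNEv383 (RetC)
open Crest.Agent.R122.InEq2T (GoodX lkX GoodT)
open Crest.Agent.R122.UnlC263 (Ad E4Pairs)
open Crest.Agent.R122.OneC285 (lpos cfT rt cT cD cX Real4 ptube oneLs exS Nbad4 NbadE Alt4 Good4 err4)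
open Crest.Agent.R122.R6Tree974 (gE comap1 toRL)
open Crest.Agent.R122.NbadX796

namespace Crest.Agent.R122.NbadR263

noncomputable section

open scoped Classical

/-! ### One line moved to the base world -/

/-- Labels. -/
def optE (ι β : Type) : (ι ⊕ Unit) ⊕ β ≃ ι ⊕ Option β where
  toFun := Sum.elim (Sum.elim Sum.inl fun _ => Sum.inr none) fun b => Sum.inr (some b)
  invFun := Sum.elim (fun i => Sum.inl (Sum.inl i)) fun o =>
    o.elim (Sum.inl (Sum.inr ())) fun b => Sum.inr b
  left_inv := by rintro ((i | u) | b) <;> rfl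
  right_inv := by rintro (i | (_ | b)) <;> rfl

theorem okFam_ins {ι κ : Type} [Fintype ι] [Fintype κ] {Φ : Space3 → ℝ} {ε : ℝ}
    (hΦ : AdmissiblePotential Φ) (hε : 0 < ε) {Z : MW ι} {H : κ → ML}
    (hok : MW.OkFam Φ ε Z H) (δ : κ) :
    MW.OkFam Φ ε (Z.ins (H δ)) (Decomp811.exF H δ) := by
  intro S
  set g : Option S ↪ κ :=
    { toFun := fun o => o.elim δ fun b => b.1.1
      inj' := by
        rintro (_ | a) (_ | b) hab
        · rfl
        · exact absurd hab.symm b.1.2
        · exact absurd hab a.1.2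
        · exact congrArg some (Subtype.ext (Subtype.ext hab)) } with hg
  have h1 := (okFam_comp hΦ hε hok g).lines hΦ hε
  have h2 : (Z.ins (H δ)).add (sub (Decomp811.exF H δ) S) =
      (Z.add (MW.lines fun i => H (g i))).comap (optE ι S) := by
    unfold MW.ins MW.add MW.comap MW.line sub MW.lines Decomp811.exF
    congr 1 <;> · funext x; rcases x with (x | x) | x <;> rfl
  rw [h2]
  exact h1.comap hΦ hε _

/-- Labels of the family `withD` without one line. -/
def wdE {κ : Type} (d : κ) : {k : κ // k ≠ d} ⊕ Unit ↪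
    {k : κ ⊕ Unit // k ≠ (Sum.inl d : κ ⊕ Unit)} where
  toFun := Sum.elim (fun k => ⟨Sum.inl k.1, fun h' => k.2 (Sum.inl_injective h')⟩)
    fun u => ⟨Sum.inr u, by simp⟩
  inj' := by
    rintro (j | j) (k | k) hjk
    · have h' : j.1 = k.1 := Sum.inl_injective (congrArg Subtype.val hjk)
      exact congrArg Sum.inl (Subtype.ext h')
    · have h' := congrArg Subtype.val hjk
      cases h'
    · have h' := congrArg Subtype.val hjk
      cases h'
    · rfl

theorem wdE_comp {κ : Type} (F : κ → ML) (x : ML) (d : κ) :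
    (fun i => Decomp811.exF (withD F x) (Sum.inl d) (wdE d i)) =
      withD (fun k : {k : κ // k ≠ d} => F k) x := by
  funext i
  rcases i with i | i <;> rfl

variable {Φ : Space3 → ℝ} {ε te T' R : ℝ} {K : ℕ} {P : CTree} {z : PhasePoint × Par P} {m : ℕ}
  {w : Config m} {l x : ML}

/-- The test line `x` is good for the base world `w + d`, `d` an exit. -/
structure GoodXd (Φ : Space3 → ℝ) (ε : ℝ) (K : ℕ) (te : ℝ) (P : CTree) (z : PhasePoint × Par P)
    {m : ℕ} (w : Config m) (d : Idx P) (x : ML) : Prop where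
  nl : ∀ k : Idx P, k ≠ d → MW.NoLink Φ ε K te ((MW.cfg w).ins (lineML Φ ε P z d))
    (MW.line (lineML Φ ε P z k)) (MW.line x)
  ret : ¬ RetC Φ ε ε K te ((MW.cfg w).ins (lineML Φ ε P z d)) x (ptube Φ ε P z)

/-- The test lines which are not good for some base world `w + d`. -/
def lkXd (Φ : Space3 → ℝ) (ε : ℝ) (K : ℕ) (te : ℝ) (P : CTree) (z : PhasePoint × Par P)
    {m : ℕ} (w : Config m) : Set ML := {x | ∃ d, d ≠ root P ∧ ¬ GoodXd Φ ε K te P z w d x}

/-- The pairs of lines of the tree are unlinked in `w + d`. -/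
theorem E4Pairs.pairD (h4 : E4Pairs Φ ε K te P z w l) {d : Idx P} (hd : d ≠ root P) :
    PairNL Φ ε K te ((MW.cfg w).ins (lineML Φ ε P z d))
      (fun k : {k : Idx P // k ≠ d} => lineML Φ ε P z k) := by
  intro j k hjk
  refine h4.nld d hd (Sum.inl j.1) (Sum.inl k.1) ⟨fun h' => hjk (Subtype.ext
    (Sum.inl_injective h')), ?_, ?_⟩ (fun h' => j.2 (Sum.inl_injective h'))
    (fun h' => k.2 (Sum.inl_injective h'))
  · rintro ⟨-, b, hb⟩
    cases hb
  · rintro ⟨-, b, hb⟩
    cases hb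

theorem E4Pairs.pairR (h4 : E4Pairs Φ ε K te P z w l) :
    PairNL Φ ε K te (MW.cfg w) (lineML Φ ε P z) := by
  intro j k hjk
  refine h4.nl (Sum.inl j) (Sum.inl k) ⟨fun h' => hjk (Sum.inl_injective h'), ?_, ?_⟩
  · rintro ⟨-, b, hb⟩
    cases hb
  · rintro ⟨-, b, hb⟩
    cases hb

/-- The pairs of a family of unlinked lines and a line which is unlinked to all of them. -/
theorem pairNL_withD {ι κ : Type} [Fintype ι] [Fintype κ] {Y : MW ι} {F : κ → ML}
    (h1 : PairNL Φ ε K te Y F)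
    (h2 : ∀ k, MW.NoLink Φ ε K te Y (MW.line (F k)) (MW.line x)) :
    PairNL Φ ε K te Y (withD F x) := by
  rintro (j | j) (k | k) hjk
  · exact h1 j k fun h' => hjk (congrArg Sum.inl h')
  · exact h2 j
  · exact (h2 k).symm
  · exact absurd rfl hjk

/-- **A good test line is not in `Nbad4`.** -/
theorem _root_.Crest.Agent.R122.OneC285.Real4.not_mem_nbad4_of_good
    (h : Real4 Φ ε K te T' P z w l)
    (hΦ : AdmissiblePotential Φ) (hε : 0 < ε) (hTT : te ≤ T') (hK : P.leaves ≤ K)
    (hE : EncEv Φ ε R P z w l) (h4 : E4Pairs Φ ε K te P z w l) (hx0 : 0 ≤ x.1.1)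
    (hx : GoodX Φ ε K te P z w x) (hxd : ∀ d, d ≠ root P → GoodXd Φ ε K te P z w d x) :
    x ∉ Nbad4 Φ ε K te P z w l := by
  have hT : 0 ≤ te := h.pos.le.trans h.le
  have hokx : ((MW.cfg (Fin.append (cfT Φ ε P z) w)).ins x).Ok Φ ε := by
    have h3 : ((MW.cfg w).add (treeW Φ ε P z)).add (MW.line x) =
        ((MW.cfg (Fin.append (cfT Φ ε P z) w)).ins x).comap
          (Equiv.sumCongr (gE P m) (Equiv.refl Unit)) := by
      rw [← comap1]
      exact EquivE416.ins_comap _ x (gE P m)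
    have h4 := hx.okr
    rw [h3] at h4
    exact h4.of_comap hΦ hε _
  have hnl := pairNL_withD (E4Pairs.pairR h4) hx.nl
  refine h.not_mem_nbad4 hΦ hε hTT hK hE hx0 hokx hx.ok hnl hx.ret (fun d hd => ?_)
    (fun d hd => E4Pairs.pairD h4 hd) fun d hd hte hF => ?_
  · -- the family `(F k)_{k ≠ d}, x`
    have h1 := okFam_comp hΦ hε (okFam_ins hΦ hε hx.ok (Sum.inl d)) (wdE d)
    rw [wdE_comp] at h1
    exact h1
  · have key := LinkVd879.thetaL_le_ins (Z := MW.cfg w) (T := te) (T' := T')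
      (v := ((MW.cfg w).ins (lineML Φ ε P z d)).thetaL Φ ε K te x) (l := x) (δ := d) hΦ hε
      h.valid h.sep hK (hte.trans hTT) hT (fun _ => le_rfl) hx0 (toRL (R4.in1 hΦ hε h) _)
      (R4.ok1 hΦ hε h) hx.okr (fun k i _ => R4.sep0 hΦ hε h k i) hx.ok
      (okFam_ins hΦ hε hx.ok (Sum.inl d)) ?_ (hxd d hd).ret le_rfl hte hF
    · rwa [thetaL_treeW hΦ hε] at key
    · rintro ⟨(j | j), hj⟩ ⟨(k | k), hk⟩ hjk
      · exact E4Pairs.pairD h4 hd ⟨j, fun h' => hj (congrArg Sum.inl h')⟩
          ⟨k, fun h' => hk (congrArg Sum.inl h')⟩ fun h' => hjk (Subtype.ext (congrArg Sum.inl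
            (congrArg Subtype.val h')))
      · exact (hxd d hd).nl j fun h' => hj (congrArg Sum.inl h')
      · exact ((hxd d hd).nl k fun h' => hk (congrArg Sum.inl h')).symm
      · exact absurd rfl hjk

/-! ### The measure of the bad test lines -/

/-- The measure of `Nbad4`. -/
theorem lineM_nbad4_le {γ : ℝ → ℝ} (hγ : Measurable γ) (ρ : ℝ≥0∞)
    (h : Real4 Φ ε K te T' P z w l)
    (hΦ : AdmissiblePotential Φ) (hε : 0 < ε) (hTT : te ≤ T') (hK : P.leaves ≤ K)
    (hE : EncEv Φ ε R P z w l) (h4 : E4Pairs Φ ε K te P z w l) :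
    lineM γ ρ K te (Nbad4 Φ ε K te P z w l) ≤
      lineM γ ρ K te (lkX Φ ε K te P z w) + lineM γ ρ K te (lkXd Φ ε K te P z w) := by
  refine (measure_mono_ae ?_).trans (measure_union_le _ _)
  filter_upwards [EBasic602.lineM_ae (ρ := ρ) (K := K) (T := te) hγ] with y hy hbad
  by_contra hno
  have h1 : y ∉ lkX Φ ε K te P z w := fun h' => hno (Or.inl h')
  have h2 : y ∉ lkXd Φ ε K te P z w := fun h' => hno (Or.inr h')
  refine h.not_mem_nbad4_of_good hΦ hε hTT hK hE h4 hy.1.le (not_not.1 h1) (fun d hd => ?_) hbad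
  by_contra h3
  exact h2 ⟨d, hd, h3⟩

/-- The measure of `NbadE`. -/
theorem lineM_nbadE_le {γ : ℝ → ℝ} (hγ : Measurable γ) (ρ : ℝ≥0∞)
    (h : Real4 Φ ε K te T' P z w l)
    (hΦ : AdmissiblePotential Φ) (hε : 0 < ε) (hTT : te ≤ T') (hK : P.leaves ≤ K)
    (hA : Alt4 Φ ε K te P z w l) (hG : GoodT Φ ε K te P z w) :
    lineM γ ρ K te (NbadE Φ ε K te P z w) ≤ lineM γ ρ K te (lkX Φ ε K te P z w) := by
  refine measure_mono_ae ?_
  filter_upwards [EBasic602.lineM_ae (ρ := ρ) (K := K) (T := te) hγ] with y hy hbad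
  by_contra hno
  have h1 : GoodX Φ ε K te P z w y := not_not.1 hno
  have hokx : ((MW.cfg (Fin.append (cfT Φ ε P z) w)).ins y).Ok Φ ε := by
    have h3 : ((MW.cfg w).add (treeW Φ ε P z)).add (MW.line y) =
        ((MW.cfg (Fin.append (cfT Φ ε P z) w)).ins y).comap
          (Equiv.sumCongr (gE P m) (Equiv.refl Unit)) := by
      rw [← comap1]
      exact EquivE416.ins_comap _ y (gE P m)
    have h4 := h1.okr
    rw [h3] at h4
    exact h4.of_comap hΦ hε _
  exact not_mem_nbadE hΦ hε hTT h hK hA hy.1.le hokx h1.ok (pairNL_withD hG.2 h1.nl) h1.ret hbad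

theorem min_one_add_le (a b : ℝ≥0∞) : min 1 (a + b) ≤ min 1 a + min 1 b := by
  rcases le_total 1 a with ha | ha
  · exact (min_le_left _ _).trans ((min_eq_left ha).ge.trans le_self_add)
  rcases le_total 1 b with hb | hb
  · exact (min_le_left _ _).trans ((min_eq_left hb).ge.trans le_add_self)
  · rw [min_eq_right ha, min_eq_right hb]
    exact min_le_right _ _

/-- **The error of a real structure.** Structure facts: good worlds and no links between the lines of
the tree; if no exit touches up to the contact, `E4Pairs` and helper45's `EncParts`. -/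
theorem err4_le {Q : EPar} (hγ : Measurable Q.γ) (h : Real4 Φ ε K Q.te T' P z w l)
    (hΦ : AdmissiblePotential Φ) (hε : 0 < ε) (hTT : Q.te ≤ T') (hK : l.2 + P.leaves ≤ K) :
    err4 Φ ε K Q P z w l ≤
      (if GoodT Φ ε K Q.te P z w ∧ (Alt4 Φ ε K Q.te P z w l ∨
        E4Pairs Φ ε K Q.te P z w l ∧ EncParts Φ ε R K Q.te P z w l) then 0 else 1) +
      (min 1 (lineM Q.γ Q.ρ K Q.te (lkX Φ ε K Q.te P z w)) +
        min 1 (lineM Q.γ Q.ρ K Q.te (lkXd Φ ε K Q.te P z w))) := by
  have hPK : P.leaves ≤ K := by omega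
  have h1 : err4 Φ ε K Q P z w l ≤ 1 := OneC285.err4_le_one
  by_cases hg : GoodT Φ ε K Q.te P z w ∧ (Alt4 Φ ε K Q.te P z w l ∨
      E4Pairs Φ ε K Q.te P z w l ∧ EncParts Φ ε R K Q.te P z w l)
  swap
  · rw [if_neg hg]
    exact h1.trans le_self_add
  rw [if_pos hg, zero_add]
  unfold err4
  by_cases hA : Alt4 Φ ε K Q.te P z w l
  · rw [if_pos hA]
    exact (min_le_min le_rfl (lineM_nbadE_le hγ Q.ρ h hΦ hε hTT hPK hA hg.1)).trans le_self_add
  · rw [if_neg hA]
    obtain ⟨h4, hP⟩ := hg.2.resolve_left hA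
    have hE := EncEv.of_parts hΦ hε hP h.pos.le h4.okR (E4Pairs.pairR h4)
    rw [if_pos (Good4.of h hΦ hε hK h4 hP)]
    exact (min_le_min le_rfl (lineM_nbad4_le hγ Q.ρ h hΦ hε hTT hPK hE h4)).trans
      (min_one_add_le _ _)

end

end Crest.Agent.R122.NbadR263
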