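import Crest.Agent.R122.LinkWin_984
import Crest.Agent.R122.NbadG_263
import Crest.Agent.R122.OSTN_434
import Crest.Agent.R122.TLGate_311

/-!
# `StmtLink4` (row 122, board H1): `NbadDet`, slots from tree facts

* `nbadDet` : helper263's theorem gives `NbadDet`.
* `link4In_of` : `Link4In` from `KData` and `Slots4`.
* `osNull_of_tsn`, `slotX_of_tsn` : helper311's tree functionals give null structure functionals.
-/

set_option autoImplicit false

open MeasureTheory Set Filter Topology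
open scoped ENNReal
open Crest.AnalysisR.Kinetic
open Crest.Agent.R122.Kin796 Crest.Agent.R122.Kin796.CTree Crest.Agent.R122.Tree674
open Crest.Agent.R122.GC311 Crest.Agent.R122.EDefs602 Crest.Agent.R122.OneC285
open Crest.Agent.R122.Third741 Crest.Agent.R122.Master566 Crest.Agent.R122.Top602
open Crest.Agent.R122.Ineq1815 Crest.Agent.R122.InEq2 Crest.Agent.R122.TL311
open Crest.Agent.R122.Ins45 hiding relLs

noncomputable section

open scoped Classical

namespace Crest.Agent.R122.LinkAsm984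

variable {Φ : Space3 → ℝ} {f₀ : PhasePoint → ℝ} {f : ℝ → PhasePoint → ℝ} {β T : ℝ}
  {K : ℕ} {Q : EPar} {T' : ℝ}

/-- **Good test lines are not in `Nbad4`** (helper263). -/
theorem nbadDet (hΦ : AdmissiblePotential Φ) : NbadDet Φ := by
  intro ε R K te T' P z m w l x hε hTT hK hR h4 hE hx0 _ _ _ hG hXd
  have hPK : P.leaves ≤ K := le_trans (Nat.le_add_left _ _) hK
  have hEv : EncEv Φ ε R P z w l :=
    EncEv.of_parts hΦ hε hE hR.pos.le h4.okR (NbadR263.E4Pairs.pairR h4)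
  refine hR.not_mem_nbad4_of_good hΦ hε hTT hPK hEv h4 hx0.le hG fun d hd => ⟨fun k hk => ?_, ?_⟩
  · by_contra hc
    exact hXd ⟨d, hd, Or.inr ⟨k, hk, hc⟩⟩
  · intro hc
    exact hXd ⟨d, hd, Or.inl hc⟩

/-- **`StmtLink4` in the windows**, from the three null slots. -/
theorem link4In_of (hD : KData Φ β T f₀ f) (hS : Slots4 Φ f₀) : Link4In Φ f₀ f T :=
  link4In_of_slots hD (nbadDet hD.adm) hS

/-- **Tree functionals (helper311's `TSN`) are null for contact structures.** -/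
theorem osNull_of_tsn (hΦ : AdmissiblePotential Φ) (hf : Measurable f₀) {g0 : ℝ} (hQ : QOk Q g0)
    {F : ℝ → (P : CTree) → PhasePoint × Par P → (m : ℕ) → Config m → ℝ≥0∞}
    (h : TSN Φ f₀ T' K F) : OSNull Φ f₀ K Q T' fun ε P z m w _ => F ε P z m w := by
  intro δ hδ
  have hc : GateOS434.cOS Q K g0 * 2 ≠ ∞ :=
    ENNReal.mul_ne_top (GateOS434.cOS_ne_top hQ.ρ_ne hQ.g0_pos) (by norm_num)
  obtain ⟨δ', hδ', hmul⟩ := exists_mul_le hc hδ
  obtain ⟨ε₀, h0, h1⟩ := h (ENNReal.ofReal δ') (by simpa using hδ')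
  have h2 := GateOS434.osLe_of_TS (Φ := Φ) (f₀ := f₀) (Q := Q) (T' := T') hΦ hf K hQ.γ_meas
    hQ.ρ_ne hQ.γ_ge (c := ENNReal.ofReal δ') (F := F) ⟨ε₀, h0, fun ε hε hlt => by
      obtain ⟨G, hG, hle, hGi⟩ := h1 ε hε hlt
      exact ⟨G, hG, fun P z m w hP _ _ hw => hle P z m w hP hw, hGi⟩⟩
  refine h2.mono ?_ ⟨1, one_pos, fun _ _ _ _ _ _ _ _ _ => le_rfl⟩
  rw [← mul_assoc]
  exact hmul _ le_rfl

/-- The tree of a real contact structure is away from the gas at time `0`. -/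
theorem perpT_of_real4 {ε te : ℝ} {P : CTree} {z : PhasePoint × Par P} {m : ℕ} {w : Config m}
    {l : ML} (h : Real4 Φ ε K te T' P z w l) : InEq2T.PerpT Φ ε P z w := by
  intro x i
  rw [linesM_of_adm ε h.valid.1]
  have h1 := h.perp (Relabel674.eP P x) i
  rwa [R6Tree974.cfT_apply] at h1

/-- **The slot of the exceptional test lines** from helper311's gate. -/
theorem slotX_of_tsn (hΦ : AdmissiblePotential Φ) (hf : Measurable f₀) {g0 : ℝ} (hQ : QOk Q g0)
    (h : TSN Φ f₀ T' K (fun ε P z m w => if Valid Φ ε P T' z.1.2 z.2 ∧ Sep Φ ε P T' z.1 z.2 ∧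
      InEq2T.PerpT Φ ε P z w then
        min 1 (EDefs602.lineM Q.γ Q.ρ K Q.te (Xbad4 Φ ε K Q.te P z w)) else 0)) :
    OSNull Φ f₀ K Q T' fun ε P z _ w _ =>
      min 1 (EDefs602.lineM Q.γ Q.ρ K Q.te (Xbad4 Φ ε K Q.te P z w)) := by
  refine (osNull_of_tsn hΦ hf hQ h).congr fun ε hε P z m w l hg => ?_
  rw [if_pos ⟨hg.real.valid, hg.real.sep, perpT_of_real4 hg.real⟩]

end Crest.Agent.R122.LinkAsm984

end
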