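import Crest.Agent.R122.PairS6_969
import Crest.Agent.R122.EBasic_602
import Crest.Agent.R122.CollLeg_969

/-!
Row 122, block H7, helper969: the line measure `lineM` (`EDefs_602`).

* `map_shM_lineM`, `lineM_rho_le`, `lineM_rho_young` : translation invariance and local masses of
  `lineM`;
* `lineP` : the class parameters; `ae_sig_bind`.

(The literal forms of (S6*), (Y6*) for the entrance time of two lines are in `H5S6_994`.)
-/

set_option autoImplicit false

open MeasureTheory ProbabilityTheory Set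
open Crest.AnalysisR.Kinetic
open Crest.Agent.R122.Boost969 Crest.Agent.R122.Contact969 Crest.Agent.R122.Omega969
open Crest.Agent.R122.PairS969
open Crest.Agent.R122.Pair292
open Crest.Agent.R122.EDefs602 (lineM markW)
open Crest.Agent.R122.EBasic602 (lintegral_lineM tsum_markW_le)
open scoped ENNReal

noncomputable section

namespace Crest.Agent.R122.LinkS969

/-! ### The line measure -/

section lines

variable {γ : ℝ → ℝ} {ρ : ℝ≥0∞} {K : ℕ} {T : ℝ}

/-- translation invariance of the line measure -/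
theorem map_shM_lineM (hγ : Measurable γ) (x : Space3) :
    (lineM γ ρ K T).map (shM x) = lineM γ ρ K T := by
  refine Measure.ext_of_lintegral _ fun F hF => ?_
  have h1 := lintegral_lineM (ρ := ρ) (K := K) (T := T) hγ (hF.comp (measurable_shM x))
  simp only [Function.comp] at h1
  rw [lintegral_map hF (measurable_shM x), lintegral_lineM hγ hF]
  refine h1.trans ?_
  refine lintegral_congr fun τ => lintegral_congr fun v => ?_
  congr 1
  exact lintegral_add_right_eq_self
    (fun y : Space3 => ∑' n : ℕ, markW ρ K n * F ((τ, (y, v)), n)) x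

/-- the mass of the line measure per unit volume, birth times in `S` -/
theorem lineM_rho_le (hγ : Measurable γ) {g : ℝ} (hg : ∀ τ ∈ Ioc 0 T, g ≤ γ τ) {S : Set ℝ}
    (hS : MeasurableSet S) :
    ∫⁻ l, rho0 (posd l) * S.indicator 1 l.1.1 ∂lineM γ ρ K T ≤
      volume (Ioc 0 T ∩ S) * ((1 - ρ)⁻¹ * ∫⁻ v : Space3, Kin796.wG g v) := by
  have hF : Measurable (fun l : ML => rho0 (posd l) * S.indicator (1 : ℝ → ℝ≥0∞) l.1.1) :=
    (measurable_rho0.comp measurable_posd).mul
      ((measurable_one.indicator hS).comp (measurable_fst.comp measurable_fst))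
  rw [lintegral_lineM hγ hF]
  have h1 : ∀ (τ : ℝ) (v : Space3), ∫⁻ y : Space3, ∑' n : ℕ, markW ρ K n *
      (rho0 (posd ((τ, (y, v)), n)) * S.indicator 1 ((((τ, (y, v)), n) : ML)).1.1) =
      S.indicator 1 τ * ∑' n : ℕ, markW ρ K n := by
    intro τ v
    have h2 : ∀ y : Space3, ∑' n : ℕ, markW ρ K n *
        (rho0 (posd ((τ, (y, v)), n)) * S.indicator 1 ((((τ, (y, v)), n) : ML)).1.1) =
        (S.indicator 1 τ * ∑' n : ℕ, markW ρ K n) * rho0 y := by
      intro y
      have h3 : ∀ n : ℕ, markW ρ K n *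
          (rho0 (posd ((τ, (y, v)), n)) * S.indicator 1 ((((τ, (y, v)), n) : ML)).1.1) =
          markW ρ K n * (S.indicator 1 τ * rho0 y) := by
        intro n
        change markW ρ K n * (rho0 y * S.indicator 1 τ) = _
        ring
      simp only [h3]
      rw [ENNReal.tsum_mul_right]
      ring
    simp only [h2]
    rw [lintegral_const_mul _ measurable_rho0, lintegral_rho0, mul_one]
  simp only [h1]
  calc ∫⁻ τ in Ioc 0 T, (∫⁻ v : Space3, Kin796.wG (γ τ) v *
        (S.indicator 1 τ * ∑' n : ℕ, markW ρ K n))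
      ≤ ∫⁻ τ in Ioc 0 T, S.indicator 1 τ * ((1 - ρ)⁻¹ * ∫⁻ v : Space3, Kin796.wG g v) := by
        refine setLIntegral_mono' measurableSet_Ioc fun τ hτ => ?_
        have hm : Measurable (fun v : Space3 => Kin796.wG (γ τ) v) := by
          unfold Kin796.wG
          exact ENNReal.measurable_ofReal.comp (Continuous.measurable (by fun_prop))
        rw [lintegral_mul_const _ hm]
        calc (∫⁻ v : Space3, Kin796.wG (γ τ) v) * (S.indicator 1 τ * ∑' n : ℕ, markW ρ K n)
            ≤ (∫⁻ v : Space3, Kin796.wG g v) * (S.indicator 1 τ * (1 - ρ)⁻¹) := by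
              refine mul_le_mul' (lintegral_mono fun v => ?_) (mul_le_mul_right
                (tsum_markW_le K) _)
              unfold Kin796.wG
              refine ENNReal.ofReal_le_ofReal (Real.exp_le_exp.2 ?_)
              have := mul_le_mul_of_nonneg_right (hg τ hτ) (sq_nonneg ‖v‖)
              linarith
          _ = _ := by ring
    _ = (∫⁻ τ in Ioc 0 T, S.indicator (1 : ℝ → ℝ≥0∞) τ) *
          ((1 - ρ)⁻¹ * ∫⁻ v : Space3, Kin796.wG g v) :=
        lintegral_mul_const _ (measurable_one.indicator hS)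
    _ = _ := by
        rw [setLIntegral_indicator hS]
        simp only [Pi.one_apply, lintegral_one, Measure.restrict_apply MeasurableSet.univ,
          univ_inter]
        rw [inter_comm]

/-- local mass constant of the line measure -/
def Cline (ρ : ℝ≥0∞) (g T : ℝ) : ℝ≥0∞ :=
  (1 + ENNReal.ofReal T) * ((1 - ρ)⁻¹ * ∫⁻ v : Space3, Kin796.wG g v)

theorem Cline_ne_top {ρ : ℝ≥0∞} (hρ : ρ < 1) {g : ℝ} (hg : 0 < g) (T : ℝ) :
    Cline ρ g T ≠ ∞ := by
  unfold Cline
  refine ENNReal.mul_ne_top (by finiteness) (ENNReal.mul_ne_top ?_ ?_)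
  · exact ENNReal.inv_ne_top.2 (tsub_pos_of_lt hρ).ne'
  · have h : ∀ v : Space3, Kin796.wG g v = Kin416.gau g v := by
      intro v
      unfold Kin796.wG Kin416.gau
      rw [neg_mul]
    simp only [h]
    exact (Kin416.lintegral_gau_lt_top hg).ne

theorem lineM_rho (hγ : Measurable γ) {g : ℝ} (hg : ∀ τ ∈ Ioc 0 T, g ≤ γ τ) :
    ∫⁻ l, rho0 (posd l) ∂lineM γ ρ K T ≤ Cline ρ g T := by
  have h := lineM_rho_le (ρ := ρ) (K := K) hγ hg MeasurableSet.univ
  simp only [indicator_univ, Pi.one_apply, mul_one, inter_univ, Real.volume_Ioc, sub_zero] at h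
  refine h.trans ?_
  unfold Cline
  exact mul_le_mul_left le_add_self _

theorem lineM_rho_young (hγ : Measurable γ) {g : ℝ} (hg : ∀ τ ∈ Ioc 0 T, g ≤ γ τ) (r s : ℝ) :
    ∫⁻ l, rho0 (posd l) * (Icc (s - r) s).indicator 1 l.1.1 ∂lineM γ ρ K T ≤
      Cline ρ g T * ENNReal.ofReal r := by
  refine (lineM_rho_le (ρ := ρ) (K := K) hγ hg measurableSet_Icc).trans ?_
  have h1 : volume (Ioc 0 T ∩ Icc (s - r) s) ≤ ENNReal.ofReal r := by
    refine (measure_mono inter_subset_right).trans (le_of_eq ?_)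
    rw [Real.volume_Icc]
    congr 1
    ring
  unfold Cline
  calc volume (Ioc 0 T ∩ Icc (s - r) s) * ((1 - ρ)⁻¹ * ∫⁻ v : Space3, Kin796.wG g v)
      ≤ ENNReal.ofReal r * ((1 - ρ)⁻¹ * ∫⁻ v : Space3, Kin796.wG g v) := mul_le_mul_left h1 _
    _ ≤ ENNReal.ofReal r * ((1 + ENNReal.ofReal T) * ((1 - ρ)⁻¹ *
          ∫⁻ v : Space3, Kin796.wG g v)) := by
        refine mul_le_mul_right ?_ _
        exact le_mul_of_one_le_left' le_self_add
    _ = _ := by ring

end lines

/-! ### With the line measure `lineM` -/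

/-- the class parameters of a weight and the line measure -/
def lineP (W : LSt → ℝ≥0∞) (hW : Measurable W) (lam₁ : ℝ≥0∞) (hlam₁ : 1 ≤ lam₁) (γ : ℝ → ℝ)
    (ρ : ℝ≥0∞) (K : ℕ) (te : ℝ) (hW1 : ∀ z : LSt, z.1 ≤ te → 1 ≤ W z) : PPar :=
  ⟨W, lam₁, lineM γ ρ K te, te, hW, hlam₁, hW1⟩

instance (W : LSt → ℝ≥0∞) (hW : Measurable W) (lam₁ : ℝ≥0∞) (hlam₁ : 1 ≤ lam₁) (γ : ℝ → ℝ)
    (ρ : ℝ≥0∞) (K : ℕ) (te : ℝ) (hW1 : ∀ z : LSt, z.1 ≤ te → 1 ≤ W z) :
    SFinite (lineP W hW lam₁ hlam₁ γ ρ K te hW1).ℓ := by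
  unfold lineP
  infer_instance

/-- the second line is born after the turning time: preserved by the continuation steps -/
theorem ae_sig_bind {ν : Measure (Lab × LSt)} {ε b₀ t : ℝ}
    (hε : 0 ≤ ε) {Φ : Space3 → ℝ}
    {out : ℝ → Space3 → OCout796.CD → LSt} (ho : OutMap out)
    (hb : ∀ s x q, (out s x q).1 = s + OCout796.outT Φ ε q) {f : ℕ → ℕ → ℕ} {q : ℕ → ℝ≥0∞}
    (hq : ∀ m, q m ≠ ∞) (hsig : ∀ᵐ p ∂ν, sig p.1 ≤ p.2.1) :
    ∀ᵐ p ∂ν.bind (stO ε b₀ t out f q), sig p.1 ≤ p.2.1 := by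
  have hS : MeasurableSet {p : Lab × LSt | ¬ sig p.1 ≤ p.2.1} :=
    (measurableSet_le (measurable_sig.comp measurable_fst)
      (measurable_fst.comp measurable_snd)).compl
  have hF : Measurable ({p : Lab × LSt | ¬ sig p.1 ≤ p.2.1}.indicator (1 : Lab × LSt → ℝ≥0∞)) :=
    measurable_one.indicator hS
  rw [ae_iff, ← lintegral_indicator_one hS, Measure.lintegral_bind
    (Kernel.aemeasurable _) hF.aemeasurable]
  refine (lintegral_congr_ae ?_).trans lintegral_zero
  filter_upwards [hsig] with p hp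
  rw [lintegral_stO ho ε b₀ t f hq p hF]
  refine ENNReal.tsum_eq_zero.2 fun m => ?_
  rw [mul_eq_zero]
  right
  have h0 : ∀ c : CDat, dens b₀ p.2 c * {p : Lab × LSt | ¬ sig p.1 ≤ p.2.1}.indicator
      (1 : Lab × LSt → ℝ≥0∞) (incM f m p.1, outC out ε p.2 c) = 0 := by
    intro c
    by_cases hc : p.2.1 < c.1
    · have h1 : sig (incM f m p.1) ≤ (outC out ε p.2 c).1 := by
        have e1 : sig (incM f m p.1) = sig p.1 := rfl
        have e2 : (outC out ε p.2 c).1 = c.1 + OCout796.outT Φ ε (cdC p.2 c) := by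
          unfold outC
          exact hb _ _ _
        rw [e1, e2]
        have := OCout796.outT_nonneg (Φ := Φ) hε (cdC p.2 c)
        linarith
      rw [indicator_of_notMem (show (incM f m p.1, outC out ε p.2 c) ∉
        {p : Lab × LSt | ¬ sig p.1 ≤ p.2.1} from fun h => h h1), mul_zero]
    · have h2 : dens b₀ p.2 c = 0 := by
        unfold dens Pair292.rate
        rw [if_neg hc, zero_mul]
      rw [h2, zero_mul]
  simp only [h0, lintegral_zero]

end Crest.Agent.R122.LinkS969
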