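import Crest.Agent.R122.LinkC_331
import Crest.Agent.R122.LinkE_331
import Crest.Agent.R122.LinkR_331
import Crest.Agent.R122.LN1Real_304
import Crest.Agent.R122.LNWRW2_291

/-!
# Row 122, LN3-D (helper331): long chains give runs, in the frame of `LN1Defs_304`

Two real pseudo-worlds `(X b, C b)` (`b : Bool`) over `(M, Z)`; the part `π ∈ Λ` with the exit `a`,
which has no contacts with the outside in the world `false`.

* `tree_of_TL` : a connected tree-like set gives a `Tree`.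
* `okV_of` : one step of a trace.
* `exists_group` : the group of an entry chain.
* `run_of_group`, `run_of_chain` : an entry chain with `m + 2` members gives a `Run` with `m` steps.
-/

set_option autoImplicit false
set_option linter.unusedSectionVars false

open MeasureTheory Set Filter Topology
open scoped ENNReal NNReal Classical
open Crest.AnalysisR.Kinetic
open Crest.Agent.R122.Flow671 Crest.Agent.R122.Loc45 Crest.Agent.R122.Ins45
open Crest.Agent.R122.EDefs602 Crest.Agent.R122.LinkM547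
open Crest.Agent.R122.VL581 Crest.Agent.R122.VL581.VSys Crest.Agent.R122.VLInst442
open Crest.Agent.R122.LNg410 Crest.Agent.R122.LN304
open Crest.Agent.R122.Causal291

noncomputable section

namespace Crest.Agent.R122.LinkD331

variable {J κ : Type} [Fintype J] {M : VSys J κ} {c ℓ ς : ℝ} {Z : J → PhasePoint}
  {X : Bool → ℝ → J → PhasePoint} {C : Bool → ℝ → J → J → Prop} {Λ : Finset (Finset J)} {N : ℕ}
  {P π : Finset J} {a : J}

/-- Virtual contact of members of `P` at time `s`. -/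
def EV (M : VSys J κ) (c : ℝ) (P : Finset J) (Z : J → PhasePoint) (s : ℝ) (i j : J) : Prop :=
  i ∈ P ∧ j ∈ P ∧ vc M c P Z i j s

theorem acyclic_of_TL (hConn : M.Conn c P Z) (hTL : TL M c ℓ ς P Z) :
    (grA (EV M c P Z)).IsAcyclic := by
  classical
  have h1 := (hTL.2.cut (conn_iff.1 hConn)).isAcyclic
  refine h1.anti ?_
  rintro i j ⟨hij, s, h | h⟩
  · exact ⟨hij, h.1, h.2.1, Or.inl ⟨s, h.2.2⟩⟩
  · exact ⟨hij, h.2.1, h.1, Or.inr ⟨s, h.2.2⟩⟩

theorem sep_of_TL (hConn : M.Conn c P Z) (hTL : TL M c ℓ ς P Z) (hℓ : 2 * ℓ ≤ ς) {i j k l : J}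
    {s s' s'' : ℝ} (hij : i ≠ j) (hkl : k ≠ l) (h1 : s ≤ s'') (h2 : s'' ≤ s')
    (hv : EV M c P Z s i j) (hv' : EV M c P Z s' i j) (hv'' : EV M c P Z s'' k l) :
    s(i, j) = s(k, l) := by
  classical
  rcases TLg.sep hTL.2 (conn_iff.1 hConn) hℓ hv.1 hv.2.1 hij hv''.1 hv''.2.1 hkl hv.2.2 hv'.2.2
    hv''.2.2 h1 h2 with ⟨rfl, rfl⟩ | ⟨rfl, rfl⟩
  · rfl
  · exact Sym2.eq_swap

theorem pos_of_rw {X : ℝ → J → PhasePoint} {C : ℝ → J → J → Prop} (hRW : RW M Z X C) {s : ℝ}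
    {j k : J} (h : C s j k) (hjk : j ≠ k) : 0 < s := by
  obtain ⟨_, _, _, _, h1, _⟩ := hRW.geo s j k hjk h
  rcases h1 with h1 | h1
  · exact (bb_nonneg M j).trans_lt h1
  · exact (bb_nonneg M k).trans_lt h1

/-- A connected tree-like set gives a `Tree`. -/
theorem tree_of_TL (hRW : ∀ b, RW M Z (X b) (C b)) (hℓ : 2 * ℓ ≤ ς) (hConn : M.Conn c P Z)
    (hTL : TL M c ℓ ς P Z) {T' : ℝ} (hT' : T' ≤ M.T) : Tree T' C (EV M c P Z) where
  symmC b := (hRW b).symm
  closed b j k hjk := by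
    have h1 : {s | s ∈ Icc 0 T' ∧ C b s j k} = {s | s ∈ Icc 0 M.T ∧ C b s j k} ∩ Iic T' := by
      ext s
      simp only [mem_ofPred_eq, mem_inter_iff, mem_Icc, mem_Iic]
      constructor
      · rintro ⟨⟨h1, h2⟩, h3⟩
        exact ⟨⟨⟨h1, h2.trans hT'⟩, h3⟩, h2⟩
      · rintro ⟨⟨⟨h1, _⟩, h3⟩, h2⟩
        exact ⟨⟨h1, h2⟩, h3⟩
    rw [h1]
    exact ((hRW b).closed j k hjk).inter isClosed_Iic
  pos b s j k h hjk := pos_of_rw (hRW b) h hjk
  symmE s i j h := ⟨h.2.1, h.1, vc_symm h.2.2⟩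
  sep i j k l s s' s'' hij hkl _ _ h1 h2 hv hv' hv'' :=
    sep_of_TL hConn hTL hℓ hij hkl h1 h2 hv hv' hv''
  acyc := acyclic_of_TL hConn hTL

/-- The history of a member of `P` with virtual contacts stays in `P`. -/
theorem mem_of_hist {C : ℝ → J → J → Prop} {t : ℝ} {q : J} (hq : q ∈ P)
    (h : HistE C (EV M c P Z) t q) {s : ℝ} {k : J} (hk : Past C t q s k) : k ∈ P := by
  induction hk with
  | root _ => exact hq
  | @step s s' j k hp hc hs ih =>
    by_cases hjk : j = k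
    · rw [← hjk]; exact ih
    · exact (h s' j k hp hc hjk).2.1

theorem fs_pre {C : ℝ → J → J → Prop} {r : ℝ} {e : J} : fs (pre C r e) = preF C e r := by
  ext k
  rw [mem_fs, LNW291.mem_preF]
  exact Iff.rfl

section adm

variable (hΦ : AdmissiblePotential M.Φ) (hε : 0 < M.ε)
include hΦ hε

/-- One step of a trace. -/
theorem okV_of [Nonempty κ] {X : ℝ → J → PhasePoint} {C : ℝ → J → J → Prop} (hRW : RW M Z X C)
    (hc : 1 ≤ c) (hℓ : 2 * ℓ ≤ ς) (hConn : M.Conn c P Z) (hTL : TL M c ℓ ς P Z) {q e : J} {r : ℝ}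
    (hrT : r ≤ M.T) (hne : q ≠ e) (hqe : C r q e) (hbc : bcF C q r ⊆ P) {K : ℕ} {gas : Set J}
    (hcard : (pre C r e).ncard ≤ K) (hgas : pre C r e ⊆ gas) :
    OkV M Z gas K (pre C r e) e (pre C r q) q r := by
  have hr0 : 0 < r := pos_of_rw hRW hqe hne
  have hqP : preF C q r ⊆ P := LNW291.preF_subset_bcF.trans hbc
  have heP : preF C e r ⊆ P := by
    intro k hk
    rw [LNW291.mem_preF] at hk
    obtain ⟨s, hs, hk⟩ := hk
    exact hbc (LNW291.mem_bcF.2 (bc_contact hqe (past_mono_time hs.le hk)))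
  have hagr := LNW291.agr_of_TL hΦ hε hRW hc hℓ hConn hTL hr0 hrT heP
  have hgeo := (hRW.geo r q e hne hqe).2.2.2.2.2
  have hse := LNW291.state_preF hΦ hε hRW hc hℓ hConn hTL hr0 hrT heP
  have hsq := LNW291.state_preF hΦ hε hRW hc hℓ hConn hTL hr0 hrT hqP
  refine
    { time := ⟨hr0.le, hrT⟩
      mem := self_mem_pre hr0 e
      sub := hgas
      card := hcard
      ok := hTL.1 _ ?_
      ok' := hTL.1 _ (by rw [fs_pre]; exact heP)
      conn := ?_
      hit := ?_ }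
  · intro x hx
    rw [mem_fs] at hx
    rcases hx with hx | hx
    · exact hqP (LNW291.mem_preF.2 hx)
    · exact heP (LNW291.mem_preF.2 hx)
  · have key : ∀ s < r, ∀ (s' : ℝ) (k : J), Past C s e s' k → 0 ≤ s' →
        Relation.ReflTransGen (fun i j => j ∈ pre C r e ∧ ∃ t ∈ Icc 0 M.T,
          dist (M.st (fs (pre C r e)) t Z i).1 (M.st (fs (pre C r e)) t Z j).1 ≤ M.ε) e k := by
      intro s hs s' k hk
      induction hk with
      | root _ => exact fun _ => .refl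
      | @step s' s'' j k hp hcc hss ih =>
        intro hs'
        have h0 : 0 ≤ s'' := hs'.trans hss
        have h1 := ih h0
        by_cases hjk : j = k
        · rw [← hjk]; exact h1
        have hk'' : Past C s e s'' k := Past.contact hp hcc
        have hsr : s'' < r := hp.le.trans_lt hs
        refine h1.tail ⟨⟨s, hs, hk''.mono h0⟩, s'', ⟨h0, hsr.le.trans hrT⟩, ?_⟩
        have hj1 := hagr s'' ⟨h0, hsr⟩ j ⟨s, ⟨hp.le, hs⟩, hp⟩
        have hk1 := hagr s'' ⟨h0, hsr⟩ k ⟨s, ⟨hp.le, hs⟩, hk''⟩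
        have hd := (hRW.geo s'' j k hjk hcc).2.2.2.2.2
        rw [hj1, hk1] at hd
        rw [fs_pre]
        exact hd
    rintro x ⟨s, hs, hx⟩
    exact key s hs 0 x hx le_rfl
  · rw [fs_pre, fs_pre, ← hse, ← hsq, dist_comm]
    exact hgeo

/-- **The group of an entry chain.** -/
theorem exists_group [Nonempty κ] (hc : 1 ≤ c) (hℓ : 2 * ℓ ≤ ς)
    (hRW : ∀ b, RW M Z (X b) (C b)) (hP : Parts M c Z Λ) (hNB : NoBad M c ℓ ς Z Λ N)
    (hBH : ∀ b, ¬ BadHit M c Z (X b) (C b) Λ N) (hπ : π ∈ Λ) (ha : a ∈ π) {F : ℝ → J → Prop}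
    {K : ℕ} {s₁ : ℝ} (hs₁ : s₁ ∈ Icc 0 M.T) {L : List J} {s : ℝ} (h : EC C F a L s) (hs : s ≤ s₁)
    (hK : ∀ x ∈ L, x ≠ a → ∀ b, (bcF (C b) x s₁ \ uni Λ).card ≤ K)
    (hN : (uni Λ).card + 2 * K * L.length ≤ N) :
    ∃ P : Finset J, M.Conn c P Z ∧ π ⊆ P ∧ (P \ uni Λ).card ≤ 2 * K * L.length ∧
      (∀ x ∈ L, x ∈ P) ∧ ∀ x ∈ L, x ≠ a → ∀ b, bcF (C b) x s₁ ⊆ P := by
  classical
  induction h with
  | root =>
    refine ⟨π, hP.conn π hπ, Finset.Subset.refl _, ?_, ?_, ?_⟩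
    · have : π \ uni Λ = ∅ := by
        rw [Finset.sdiff_eq_empty_iff_subset]
        exact fun i hi => mem_uni.2 ⟨π, hπ, hi⟩
      rw [this]
      simp
    · intro x hx
      rw [List.mem_singleton] at hx
      rw [hx]; exact ha
    · intro x hx hxa
      rw [List.mem_singleton] at hx
      exact absurd hx hxa
  | @cons l k ps s s' b h hss hk hcc hn ih =>
    obtain ⟨P₀, h1, h2, h3, h4, h5⟩ := ih (hss.trans hs)
      (fun x hx => hK x (List.mem_cons_of_mem _ hx)) (by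
        simp only [List.length_cons] at hN ⊢
        nlinarith)
    have hka : k ≠ a := fun h' => hk (h' ▸ h.mem)
    have hs'0 : 0 ≤ s' := h.nonneg.trans hss
    have hlP : l ∈ P₀ := h4 l List.mem_cons_self
    have hlk : l ∈ bcF (C b) k s₁ := by
      refine mem_bcF.2 ?_
      have h6 : Past (C b) s₁ k s' k := .root hs
      exact (Past.contact h6 ((hRW b).symm _ _ _ hcc)).mono hs'0
    have hkk : ∀ b, k ∈ bcF (C b) k s₁ := fun b => mem_bcF.2 (.root hs₁.1)
    have hKk : ∀ b, (bcF (C b) k s₁ \ uni Λ).card ≤ K := hK k List.mem_cons_self hka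
    have hcardU : ∀ A B : Finset J, ((A ∪ B) \ uni Λ).card ≤ (A \ uni Λ).card + (B \ uni Λ).card := by
      intro A B
      rw [Finset.union_sdiff_distrib]
      exact Finset.card_union_le _ _
    have hcardN : ∀ A : Finset J, (A \ uni Λ).card + (uni Λ).card ≤ N → (A ∪ uni Λ).card ≤ N := by
      intro A hA
      rw [← Finset.card_sdiff_add_card]
      exact hA
    have hlen : 2 * K * (k :: l :: ps).length = 2 * K * (l :: ps).length + K + K := by
      simp only [List.length_cons]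
      ring
    rw [hlen] at hN ⊢
    have hP₁ : ((P₀ ∪ bcF (C b) k s₁) \ uni Λ).card ≤ 2 * K * (l :: ps).length + K :=
      (hcardU _ _).trans (add_le_add h3 (hKk b))
    have hP₂ : ((P₀ ∪ bcF (C b) k s₁ ∪ bcF (C (!b)) k s₁) \ uni Λ).card ≤
        2 * K * (l :: ps).length + K + K := (hcardU _ _).trans (add_le_add hP₁ (hKk _))
    have hc₁ : M.Conn c (P₀ ∪ bcF (C b) k s₁) Z :=
      LN304.conn_bcF hΦ hε hc (hRW b) (LNW291.wcore hΦ hε (hRW b) hc hℓ) hP hNB (hBH b) s₁ hs₁ k P₀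
        h1 ⟨π, hπ, h2⟩ ⟨l, hlP, hlk⟩ (hcardN _ (by omega))
    have hc₂ : M.Conn c (P₀ ∪ bcF (C b) k s₁ ∪ bcF (C (!b)) k s₁) Z :=
      LN304.conn_bcF hΦ hε hc (hRW (!b)) (LNW291.wcore hΦ hε (hRW (!b)) hc hℓ) hP hNB (hBH (!b))
        s₁ hs₁ k _ hc₁ ⟨π, hπ, h2.trans Finset.subset_union_left⟩
        ⟨k, Finset.mem_union_right _ (hkk b), hkk (!b)⟩ (hcardN _ (by omega))
    refine ⟨_, hc₂, (h2.trans Finset.subset_union_left).trans Finset.subset_union_left, hP₂, ?_, ?_⟩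
    · intro x hx
      rcases List.mem_cons.1 hx with rfl | hx
      · exact Finset.mem_union_left _ (Finset.mem_union_right _ (hkk b))
      · exact Finset.mem_union_left _ (Finset.mem_union_left _ (h4 x hx))
    · intro x hx hxa b'
      rcases List.mem_cons.1 hx with rfl | hx
      · by_cases hb : b' = b
        · subst hb
          exact Finset.subset_union_right.trans Finset.subset_union_left
        · have hb' : b' = !b := by
            cases b <;> cases b' <;> simp_all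
          subst hb'
          exact Finset.subset_union_right
      · exact ((h5 x hx hxa b').trans Finset.subset_union_left).trans Finset.subset_union_left

omit hΦ hε in
/-- After a contact with the outside a member of the part has no contact in the part. -/
theorem ps_of_TL {C : ℝ → J → J → Prop} (hℓ : 2 * ℓ ≤ ς)
    (hConn : M.Conn c P Z) (hTL : TL M c ℓ ς P Z) (hπP : π ⊆ P) (hπc : M.Conn c π Z)
    (hPS : ∀ p d g s s', p ∈ π → d ∈ π → p ≠ d → g ∉ π → 0 ≤ s' → s' ≤ s → s ≤ M.T → C s p d →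
      C s' d g → s' = s ∨ ∃ F : J → J → Prop, (CutConn π F ∧ ∀ i ∈ π, ∀ j ∈ π, i ≠ j → F i j →
        ∃ t ∈ Icc 0 M.T, M.VCt c π i j t Z) ∧
        (F p d ∨ F d p → ∃ s0 ∈ Icc 0 s', M.VCt c π p d s0 Z))
    {p d g : J} {s s' : ℝ} (hp : p ∈ π) (hd : d ∈ π) (hpd : p ≠ d) (hg : g ∉ π) (hs' : 0 ≤ s')
    (hss : s' ≤ s) (hs : s ≤ M.T) (hpdc : C s p d) (hdg : C s' d g)
    (hE : EV M c P Z s p d) (hE' : EV M c P Z s' d g) : False := by
  have hdg' : d ≠ g := fun h => hg (h ▸ hd)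
  rcases hPS p d g s s' hp hd hpd hg hs' hss hs hpdc hdg with h | ⟨F, ⟨hF1, hF2⟩, hF3⟩
  · subst h
    have h1 := sep_of_TL hConn hTL hℓ hpd hdg' le_rfl le_rfl hE hE hE'
    rcases Sym2.eq_iff.1 h1 with ⟨h2, _⟩ | ⟨h2, _⟩
    · exact hpd h2
    · exact hg (h2 ▸ hp)
  · have hcP : CutConn P fun i j => ∃ t, vc M c P Z i j t := conn_iff.1 hConn
    have hcπ : CutConn π fun i j => ∃ t, vc M c P Z i j t := by
      refine (conn_iff.1 hπc).mono fun i hi j hj hij h => ?_
      obtain ⟨t, ht⟩ := h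
      exact Or.inl ⟨t, vc_mono hπP ht⟩
    have hsub := hTL.2.sub hcP hπP hcπ
    have h1 := hsub.mem_of_cutConn hF1 (fun i hi j hj hij h => by
      obtain ⟨t, ht, h⟩ := hF2 i hi j hj hij h
      exact ⟨t, Or.inl ⟨ht, vct_mono hπP h⟩⟩) hp hd hpd hE.2.2
    obtain ⟨s0, hs0, h2⟩ := hF3 h1
    have hE0 : EV M c P Z s0 p d :=
      ⟨hπP hp, hπP hd, ⟨hs0.1, hs0.2.trans (hss.trans hs)⟩, vct_mono hπP h2⟩
    have h3 := sep_of_TL hConn hTL hℓ hpd hdg' hs0.2 hss hE0 hE hE'
    rcases Sym2.eq_iff.1 h3 with ⟨h4, _⟩ | ⟨h4, _⟩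
    · exact hpd h4
    · exact hg (h4 ▸ hp)

omit hΦ hε in
theorem bc_eq_coe {C : ℝ → J → J → Prop} {x : J} {v : ℝ} : BC C v x = (bcF C x v : Set J) := by
  ext k
  rw [Finset.mem_coe, LNW291.mem_bcF]
  exact Iff.rfl

/-- **Run from the group of a chain** (closed sizes at the time `s₁`). -/
theorem run_of_group [Nonempty κ] (hc : 1 ≤ c) (hℓ : 2 * ℓ ≤ ς) (hT : 0 < M.T)
    (hRW : ∀ b, RW M Z (X b) (C b)) (hP : Parts M c Z Λ) (hNB : NoBad M c ℓ ς Z Λ N)
    (hN2 : NoTwo M c Z Λ N) (hBH : ∀ b, ¬ BadHit M c Z (X b) (C b) Λ N) (hπ : π ∈ Λ) (ha : a ∈ π)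
    (hPS : ∀ p d g s s', p ∈ π → d ∈ π → p ≠ d → g ∉ π → 0 ≤ s' → s' ≤ s → s ≤ M.T →
      C true s p d → C true s' d g → s' = s ∨ ∃ F : J → J → Prop, (CutConn π F ∧ ∀ i ∈ π,
        ∀ j ∈ π, i ≠ j → F i j → ∃ t ∈ Icc 0 M.T, M.VCt c π i j t Z) ∧
        (F p d ∨ F d p → ∃ s0 ∈ Icc 0 s', M.VCt c π p d s0 Z))
    (hfalse : ∀ s k, C false s a k → k ∈ uni Λ) {F : ℝ → J → Prop}
    (hmono : ∀ r r' k, F r k → r ≤ r' → F r' k) (h0 : F 0 a)
    (hcon : ∀ b r j k, C b r j k → F r j → (j = a ∨ j ∉ uni Λ) → k ∉ uni Λ → F r k)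
    {s₁ : ℝ} (hs₁ : s₁ ∈ Icc 0 M.T)
    (hun : ∀ b r k, 0 ≤ r → r ≤ s₁ → k ∉ uni Λ → ¬ F r k → (∀ x ∈ BC (C b) r k, x ∉ uni Λ) →
      BC (C (!b)) r k = BC (C b) r k)
    {n : ℕ} {g : Fin n ↪ J} {w : Config n} (hw : ∀ i, w i = Z (g i)) (hgb : ∀ i, M.b (g i) = 0)
    (hgo : ∀ i, M.o ≠ some (g i)) (hgas : ∀ i, i ∉ uni Λ → i ∈ range g)
    {K : ℕ} {L : List J} {s : ℝ} (h : EC C F a L s) (hs : s ≤ s₁)
    (hL : ∀ x ∈ L, x ≠ a → x ∉ uni Λ)
    (hK : ∀ x ∈ L, x ≠ a → ∀ b, (bcF (C b) x s₁ \ uni Λ).card ≤ K)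
    (hN : (uni Λ).card + 2 * K * L.length ≤ N) {m : ℕ} (hm : L.length = m + 1) :
    ∃ D : Finset J, D ⊆ π ∧ a ∈ D ∧ ∀ (G : Type) [Fintype G] (W : MW G) (f : G ↪ J) (x : G),
      Grp M Z W f D → f x = a → Run M.Φ M.ε M.T K m W x w := by
  obtain ⟨P, h1, h2, h3, h4, h5⟩ := exists_group hΦ hε hc hℓ hRW hP hNB hBH hπ ha hs₁ h hs hK hN
  have hPN : (P ∪ uni Λ).card ≤ N := by
    rw [← Finset.card_sdiff_add_card]
    omega
  have hTL : TL M c ℓ ς P Z := hNB P h1 ⟨π, hπ, h2⟩ hPN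
  have hTr : Tree s₁ C (EV M c P Z) := tree_of_TL hRW hℓ h1 hTL hs₁.2
  have hgasS : ∀ x, x ∈ P → x ∉ π → x ∉ uni Λ := by
    intro x hxP hxπ hxu
    obtain ⟨π', hπ', hx⟩ := mem_uni.1 hxu
    have := hN2 P h1 hPN π hπ π' hπ' h2 ⟨x, hx, hxP⟩
    exact hxπ (this ▸ hx)
  have hH : ∀ x ∈ L, x ≠ a → ∀ b, HistE (C b) (EV M c P Z) s₁ x := by
    intro x hx hxa b u p q hp hpq hne
    have hu0 : 0 < u := pos_of_rw (hRW b) hpq hne
    have h6 := LNW291.hist_bcF hΦ hε (hRW b) hc hℓ h1 hTL hs₁ (h5 x hx hxa b) ⟨hu0.le, hp.le⟩ hne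
      hp hpq
    have hpP : p ∈ P := h5 x hx hxa b (LNW291.mem_bcF.2 (hp.mono hu0.le))
    have hqP : q ∈ P := h5 x hx hxa b (LNW291.mem_bcF.2 ((Past.contact hp hpq).mono hu0.le))
    exact ⟨hpP, hqP, vc_mono (h5 x hx hxa b) h6⟩
  have hKs : ∀ x ∈ L, x ≠ a → ∀ b, (BC (C b) s₁ x ∩ {k | k ∉ uni Λ}).ncard ≤ K := by
    intro x hx hxa b
    have h6 : BC (C b) s₁ x ∩ {k | k ∉ uni Λ} = ((bcF (C b) x s₁ \ uni Λ : Finset J) : Set J) := by
      rw [bc_eq_coe, Finset.coe_sdiff]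
      ext k
      simp
    rw [h6, Set.ncard_coe_finset]
    exact hK x hx hxa b
  obtain ⟨D, t₀, haD, hDS, htr⟩ := trace_of_ec2 (gas := {k | k ∉ uni Λ}) (S := (π : Set J))
    (Ok := OkV M Z (range g) K) (K := K) hTr
    (by
      intro b q e r hrs hne hqe hHq hKq hdis
      have hEqe : EV M c P Z r q e := hHq r q e (.root le_rfl) hqe hne
      have hr0 : 0 < r := pos_of_rw (hRW b) hqe hne
      have hbc : bcF (C b) q r ⊆ P := by
        intro k hk
        exact mem_of_hist hEqe.1 hHq (LNW291.mem_bcF.1 hk)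
      have hsub : pre (C b) r e ⊆ BC (C b) r q := (pre_subset r e).trans (bc_contact hqe)
      have hg : pre (C b) r e ⊆ {k | k ∉ uni Λ} := by
        intro k hk
        refine hgasS k (hbc (LNW291.mem_bcF.2 (hsub hk))) fun hkπ => ?_
        exact Set.disjoint_left.1 hdis hk hkπ
      refine ⟨okV_of hΦ hε (hRW b) hc hℓ h1 hTL (hrs.trans hs₁.2) hne hqe hbc
        ((ncard_le_ncard (subset_inter hsub hg) (toFinite _)).trans hKq)
        (fun k hk => hgas k (hg hk)), hg⟩)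
    hmono h0 (fun b r j k h6 h7 h8 h9 => hcon b r j k h6 h7 h8 h9)
    (fun b r k h6 h7 h8 h9 h10 => hun b r k h6 h7 h8 h9 h10)
    (fun s k _ h6 h7 => h7 (hfalse s k h6))
    (fun k hk hkπ => hk (mem_uni.2 ⟨π, hπ, hkπ⟩)) ha
    (by
      intro x hx
      have h6 := reachable_of_cutConn (conn_iff.1 (hP.conn π hπ)) ha hx
      refine h6.mono ?_
      rintro i j ⟨hij, hi, hj, h7 | h7⟩
      · obtain ⟨t, ht⟩ := h7
        exact ⟨hij, hi, hj, t, Or.inl ⟨h2 hi, h2 hj, vc_mono h2 ht⟩⟩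
      · obtain ⟨t, ht⟩ := h7
        exact ⟨hij, hi, hj, t, Or.inr ⟨h2 hj, h2 hi, vc_mono h2 ht⟩⟩)
    (fun p d g' r r' hp hd hpd hg' hr' hrr hr hpdc hdg hE hE' =>
      ps_of_TL hℓ h1 hTL h2 (hP.conn π hπ) hPS hp hd hpd hg' hr' hrr (hr.trans hs₁.2) hpdc
        hdg hE hE')
    h hL hs hH hKs hm
  refine ⟨fs D, fun x hx => hDS (mem_fs.1 hx), mem_fs.2 haD, fun G _ W f x hG hx => ?_⟩
  exact run_of_trace hΦ hε hT hw hgb hgo htr hG hx hDS

/-- **Run from an entry chain** (strict sizes at the time `v`, `v` allowed as entry time of the last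
member): a chain with `m + 2` members gives a run with `m` steps. -/
theorem run_of_chain [Nonempty κ] (hc : 1 ≤ c) (hℓ : 2 * ℓ ≤ ς)
    (hRW : ∀ b, RW M Z (X b) (C b)) (hP : Parts M c Z Λ) (hNB : NoBad M c ℓ ς Z Λ N)
    (hN2 : NoTwo M c Z Λ N) (hBH : ∀ b, ¬ BadHit M c Z (X b) (C b) Λ N) (hπ : π ∈ Λ) (ha : a ∈ π)
    (hPS : ∀ p d g s s', p ∈ π → d ∈ π → p ≠ d → g ∉ π → 0 ≤ s' → s' ≤ s → s ≤ M.T →
      C true s p d → C true s' d g → s' = s ∨ ∃ F : J → J → Prop, (CutConn π F ∧ ∀ i ∈ π,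
        ∀ j ∈ π, i ≠ j → F i j → ∃ t ∈ Icc 0 M.T, M.VCt c π i j t Z) ∧
        (F p d ∨ F d p → ∃ s0 ∈ Icc 0 s', M.VCt c π p d s0 Z))
    (hfalse : ∀ s k, C false s a k → k ∈ uni Λ) {F : ℝ → J → Prop}
    (hmono : ∀ r r' k, F r k → r ≤ r' → F r' k) (h0 : F 0 a)
    (hcon : ∀ b r j k, C b r j k → F r j → (j = a ∨ j ∉ uni Λ) → k ∉ uni Λ → F r k)
    {v : ℝ} (hv : v ∈ Ioc 0 M.T)
    (hun : ∀ b r k, 0 ≤ r → r < v → k ∉ uni Λ → ¬ F r k → (∀ x ∈ BC (C b) r k, x ∉ uni Λ) →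
      BC (C (!b)) r k = BC (C b) r k)
    {n : ℕ} {g : Fin n ↪ J} {w : Config n} (hw : ∀ i, w i = Z (g i)) (hgb : ∀ i, M.b (g i) = 0)
    (hgo : ∀ i, M.o ≠ some (g i)) (hgas : ∀ i, i ∉ uni Λ → i ∈ range g)
    {K : ℕ} {L : List J} {s : ℝ} (h : EC C F a L s) (hs : s ≤ v)
    (hL : ∀ x ∈ L, x ≠ a → x ∉ uni Λ)
    (hK : ∀ x ∈ L, ∀ b, (x = a → b = true) → (preF (C b) x v \ uni Λ).card ≤ K)
    (hN : (uni Λ).card + 2 * K * (L.length + 2) ≤ N) {m : ℕ} (hm : L.length = m + 2) :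
    ∃ D : Finset J, D ⊆ π ∧ a ∈ D ∧ ∀ (G : Type) [Fintype G] (W : MW G) (f : G ↪ J) (x : G),
      Grp M Z W f D → f x = a → Run M.Φ M.ε M.T K m W x w := by
  have hT : 0 < M.T := hv.1.trans_le hv.2
  -- closed pasts before `v`
  have hclosed : ∀ s₁ < v, ∀ x b, (preF (C b) x v \ uni Λ).card ≤ K →
      (bcF (C b) x s₁ \ uni Λ).card ≤ K := fun s₁ hs₁ x b h =>
    (Finset.card_le_card (Finset.sdiff_subset_sdiff (LNW291.bcF_subset_preF hs₁)
      (Finset.Subset.refl _))).trans h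
  -- the last two entries are not at the same time
  have key : ∀ (L : List J) (s : ℝ), EC C F a L s → s = v → (∀ x ∈ L, x ≠ a → x ∉ uni Λ) →
      (∀ x ∈ L, ∀ b, (x = a → b = true) → (preF (C b) x v \ uni Λ).card ≤ K) →
      (uni Λ).card + 2 * K * (L.length + 2) ≤ N → ∀ k l ps, L = k :: l :: ps →
      ∃ s₀ < v, EC C F a (l :: ps) s₀ := by
    intro L s h
    induction h with
    | root =>
      intro _ _ _ _ k l ps hL
      simp at hL
    | @cons l k ps s s' b h hss hk hcc hn ih =>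
      intro hsv hg hK hN k' l' ps' hLe
      rw [List.cons.injEq, List.cons.injEq] at hLe
      obtain ⟨rfl, rfl, rfl⟩ := hLe
      rcases (hss.trans hsv.le).lt_or_eq with h1 | h1
      · exact ⟨s, h1, h⟩
      exfalso
      have hN' : (uni Λ).card + 2 * K * ((l :: ps).length + 2) ≤ N := by
        simp only [List.length_cons] at hN ⊢
        nlinarith
      cases ps with
      | nil =>
        cases h with
        | root => exact absurd h1.symm hv.1.ne'
      | cons l' ps' =>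
        obtain ⟨s₀, hs₀, h2⟩ := ih h1 (fun x hx => hg x (List.mem_cons_of_mem _ hx))
          (fun x hx => hK x (List.mem_cons_of_mem _ hx)) hN' l l' ps' rfl
        -- the contact of `l'` and `l` is at the time `v`, too
        cases h with
        | @cons _ _ _ s₂ _ b₂ h3 hs₂ hl hcl hnl =>
          subst h1
          have hvT : s ∈ Icc 0 M.T := ⟨hv.1.le, hv.2⟩
          have hs₀T : s₀ ∈ Icc 0 M.T := ⟨h2.nonneg, hs₀.le.trans hv.2⟩
          have hs' : s' = s := hsv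
          subst hs'
          obtain ⟨P, g1, g2, g3, g4, g5⟩ := exists_group hΦ hε hc hℓ hRW hP hNB hBH hπ ha hs₀T h2
            le_rfl (K := K) (fun x hx hxa b => hclosed s₀ hs₀ x b
              (hK x (List.mem_cons_of_mem _ (List.mem_cons_of_mem _ hx)) b
                fun h' => absurd h' hxa)) (by
              simp only [List.length_cons] at hN ⊢
              nlinarith)
          have hl'P : l' ∈ P := g4 l' List.mem_cons_self
          have hla : l ≠ a := fun h' => hl (h' ▸ h2.mem)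
          have hka : k ≠ a := fun h' => hk (h' ▸ List.mem_cons_of_mem _ h2.mem)
          have hb₂ : l' = a → b₂ = true := by
            intro h'
            cases b₂ with
            | true => rfl
            | false =>
              exact absurd (hfalse s' l (h' ▸ hcl))
                (hg l (List.mem_cons_of_mem _ List.mem_cons_self) hla)
          have hK1 := hK l' (List.mem_cons_of_mem _ (List.mem_cons_of_mem _ List.mem_cons_self)) b₂
            hb₂
          have hK2 := fun b => hK l (List.mem_cons_of_mem _ List.mem_cons_self) b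
            fun h' => absurd h' hla
          have hK3 := hK k List.mem_cons_self b fun h' => absurd h' hka
          have hcardU : ∀ A B : Finset J,
              ((A ∪ B) \ uni Λ).card ≤ (A \ uni Λ).card + (B \ uni Λ).card := by
            intro A B
            rw [Finset.union_sdiff_distrib]
            exact Finset.card_union_le _ _
          have hcardN : ∀ A : Finset J, (A \ uni Λ).card + (uni Λ).card ≤ N →
              (A ∪ uni Λ).card ≤ N := by
            intro A hA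
            rw [← Finset.card_sdiff_add_card]
            exact hA
          have hlen : 2 * K * ((k :: l :: l' :: ps').length + 2) =
              2 * K * (l' :: ps').length + 4 * K + 4 * K := by
            simp only [List.length_cons]
            ring
          rw [hlen] at hN
          have hA1 := (hcardU P (preF (C b₂) l' s')).trans (add_le_add g3 hK1)
          have hA2 := (hcardU (P ∪ preF (C b₂) l' s') (preF (C b₂) l s')).trans
            (add_le_add hA1 (hK2 b₂))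
          obtain ⟨_, _, _, r4, r5⟩ := LN304.real hΦ hε hc (hRW b₂)
            (LNW291.wcore hΦ hε (hRW b₂) hc hℓ) hP hNB (hBH b₂) hv g1 ⟨π, hπ, g2⟩
            ⟨l', hl'P, self_mem_preF hv.1⟩ (hcardN _ (by omega))
          obtain ⟨q1, _, _, q4, q5⟩ := LN304.step hΦ hε hc (hRW b₂)
            (LNW291.wcore hΦ hε (hRW b₂) hc hℓ) hP hNB (hBH b₂) hv g1 ⟨π, hπ, g2⟩
            ⟨l', hl'P, self_mem_preF hv.1⟩ hcl (hcardN _ (by omega))
          set P₁ : Finset J := P ∪ preF (C b₂) l' s' ∪ preF (C b₂) l s' with hP₁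
          have hπ₁ : π ⊆ P₁ := (g2.trans Finset.subset_union_left).trans Finset.subset_union_left
          have hlP₁ : l ∈ P₁ := Finset.mem_union_right _ (self_mem_preF hv.1)
          have hA3 := (hcardU P₁ (preF (C b) l s')).trans (add_le_add hA2 (hK2 b))
          have hA4 := (hcardU (P₁ ∪ preF (C b) l s') (preF (C b) k s')).trans
            (add_le_add hA3 hK3)
          obtain ⟨_, _, _, t4, t5⟩ := LN304.real hΦ hε hc (hRW b)
            (LNW291.wcore hΦ hε (hRW b) hc hℓ) hP hNB (hBH b) hv q1 ⟨π, hπ, hπ₁⟩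
            ⟨l, hlP₁, self_mem_preF hv.1⟩ (hcardN _ (by omega))
          obtain ⟨u1, u2, _, u4, u5⟩ := LN304.step hΦ hε hc (hRW b)
            (LNW291.wcore hΦ hε (hRW b) hc hℓ) hP hNB (hBH b) hv q1 ⟨π, hπ, hπ₁⟩
            ⟨l, hlP₁, self_mem_preF hv.1⟩ hcc (hcardN _ (by omega))
          set P₂ : Finset J := P₁ ∪ preF (C b) l s' ∪ preF (C b) k s' with hP₂
          have hP₁₂ : P₁ ⊆ P₂ := Finset.subset_union_left.trans Finset.subset_union_left
          have hl'l : l' ≠ l := fun h' => hl (h' ▸ List.mem_cons_self)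
          have hlk : l ≠ k := fun h' => hk (h' ▸ List.mem_cons_self)
          have hl'k : l' ≠ k := fun h' => hk (h' ▸ List.mem_cons_of_mem _ List.mem_cons_self)
          obtain ⟨e1, e2, e3⟩ := (hRW b₂).geo s' l' l hl'l hcl
          obtain ⟨f1, f2, f3⟩ := (hRW b).geo s' l k hlk hcc
          have hd1 := e3.2.2.2
          rw [r5, q5] at hd1
          have hd2 := f3.2.2.2
          rw [t5, u5] at hd2
          have hV1 : M.VCt c P₂ l' l s' Z := vct_of hε hc (A := preF (C b₂) l' s')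
            (B := preF (C b₂) l s')
            ((Finset.subset_union_right.trans Finset.subset_union_left).trans hP₁₂)
            (Finset.subset_union_right.trans hP₁₂) (self_mem_preF hv.1) (self_mem_preF hv.1)
            r4 q4 e1 e2 hd1
          have hV2 : M.VCt c P₂ l k s' Z := vct_of hε hc (A := preF (C b) l s')
            (B := preF (C b) k s') (Finset.subset_union_right.trans Finset.subset_union_left)
            Finset.subset_union_right (self_mem_preF hv.1) (self_mem_preF hv.1) t4 u4 f1 f2 hd2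
          have hl'P₂ : l' ∈ P₂ :=
            hP₁₂ (Finset.mem_union_left _ (Finset.mem_union_left _ hl'P))
          have hkP₂ : k ∈ P₂ := Finset.mem_union_right _ (self_mem_preF hv.1)
          have hE1 : EV M c P₂ Z s' l' l := ⟨hl'P₂, hP₁₂ hlP₁, hvT, hV1⟩
          have hE2 : EV M c P₂ Z s' l k := ⟨hP₁₂ hlP₁, hkP₂, hvT, hV2⟩
          have hsep := sep_of_TL u1 u2 hℓ hl'l hlk le_rfl le_rfl hE1 hE1 hE2
          rcases Sym2.eq_iff.1 hsep with ⟨h6, _⟩ | ⟨h6, _⟩
          · exact hl'l h6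
          · exact hl'k h6
  -- an initial piece which ends before `v`
  have hpiece : ∃ L' s', EC C F a L' s' ∧ s' < v ∧ L'.length = m + 1 ∧ ∀ x ∈ L', x ∈ L := by
    cases L with
    | nil => simp at hm
    | cons k tl =>
      cases tl with
      | nil => simp at hm
      | cons l ps =>
        have hlen : (l :: ps).length = m + 1 := by
          simp only [List.length_cons] at hm ⊢
          omega
        rcases hs.lt_or_eq with h1 | h1
        · obtain ⟨L', s', h2, h3, h4, h5⟩ := h.drop (m := m) (by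
            simp only [List.length_cons] at hm ⊢
            omega)
          exact ⟨L', s', h2, h3.trans_lt h1, h4, h5⟩
        · obtain ⟨s₀, h2, h3⟩ := key _ s h h1 hL hK hN k l ps rfl
          exact ⟨_, s₀, h3, h2, hlen, fun x hx => List.mem_cons_of_mem _ hx⟩
  obtain ⟨L', s', h1, h2, h3, h4⟩ := hpiece
  have hs'T : s' ∈ Icc 0 M.T := ⟨h1.nonneg, h2.le.trans hv.2⟩
  exact run_of_group hΦ hε hc hℓ hT hRW hP hNB hN2 hBH hπ ha hPS hfalse hmono h0 hcon hs'T
    (fun b r k h5 h6 => hun b r k h5 (h6.trans_lt h2)) hw hgb hgo hgas h1 le_rfl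
    (fun x hx => hL x (h4 x hx))
    (fun x hx hxa b => hclosed s' h2 x b (hK x (h4 x hx) b fun h' => absurd h' hxa))
    (by rw [h3]; rw [hm] at hN; nlinarith) h3

end adm

end Crest.Agent.R122.LinkD331

end
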