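import Crest.Agent.R122.LinkAsm_984
import Crest.Agent.R122.Ineq1E_815
import Crest.Agent.R122.Conc_984

/-!
# `StmtLink4` in the windows (row 122, board H1)

* `exists_fOk` : the standing hypotheses on the datum from `KData`; `qOk_epar` : on the parameters.
* `Slots4` : the three null statements on the contact structures, for all parameters and windows.
* `link4In_of_slots` : helper815's `Link4In` from `KData`, `NbadDet`, `Slots4`.
-/

set_option autoImplicit false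

open MeasureTheory Set Filter Topology
open scoped ENNReal
open Crest.AnalysisR.Kinetic
open Crest.Agent.R122.Kin796 Crest.Agent.R122.Kin796.CTree Crest.Agent.R122.Tree674
open Crest.Agent.R122.GC311 Crest.Agent.R122.EDefs602 Crest.Agent.R122.OneC285
open Crest.Agent.R122.Third741 Crest.Agent.R122.Master566 Crest.Agent.R122.Top602
open Crest.Agent.R122.Ineq1815

noncomputable section

open scoped Classical

namespace Crest.Agent.R122.LinkAsm984

variable {Φ : Space3 → ℝ} {f₀ : PhasePoint → ℝ} {f : ℝ → PhasePoint → ℝ} {β T : ℝ}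

/-- The standing hypotheses on the datum. -/
theorem exists_fOk (hD : KData Φ β T f₀ f) :
    ∃ (A : Space3 → ℝ≥0∞) (C : ℝ), FOk f₀ A C (2 * β) := by
  obtain ⟨A, C, hC, hA, hfin, hle, hb⟩ := exists_majorant hD.gaussian
  have hβ : 0 < 2 * β := by linarith [hD.beta_pos]
  exact ⟨A, C, hD.contDiff.continuous.measurable, (Q1815.lintegral_mass hD).le, hβ,
    ⟨hC, hA, hfin, hle, hb⟩, (Conc984.mean_en_ne_top hβ hD.gaussian).1⟩

/-- The standing hypotheses on the parameters. -/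
theorem qOk_epar {g1 : ℝ} {r1 : ℝ≥0∞} {γ : ℝ → ℝ} {ρ : ℝ≥0∞} (hT : 0 ≤ T)
    (hl : LinePar g1 r1 T γ ρ) :
    ∃ g0 : ℝ, 0 < g0 ∧ g0 ≤ g1 ∧ ∀ L tw te : ℝ, te ≤ T → QOk (epar γ ρ L tw te) g0 := by
  obtain ⟨g, κ, hκ, hγ, hpos, hg1⟩ := hl.lin
  refine ⟨g - κ * T, hpos, by nlinarith, fun L tw te hte => ⟨?_, ?_, hpos, fun τ hτ => ?_⟩⟩
  · exact (hl.hi.trans ENNReal.one_lt_top).ne
  · exact hl.measurable
  · show g - κ * T ≤ γ τ
    rw [hγ]
    have : κ * τ ≤ κ * T := mul_le_mul_of_nonneg_left (hτ.2.trans hte) hκ.le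
    show g - κ * T ≤ g - κ * τ
    linarith

/-- **The three null statements on the contact structures.** -/
structure Slots4 (Φ : Space3 → ℝ) (f₀ : PhasePoint → ℝ) : Prop where
  /-- almost sure facts -/
  ok : ∀ (Q : EPar) (g0 T' : ℝ) (K : ℕ), QOk Q g0 → 0 ≤ Q.te → Q.te < T' →
    OSNull Φ f₀ K Q T' fun ε P z _ w l => if ¬ OkE4 Φ ε P z w l then 1 else 0
  /-- link events -/
  lk : ∀ (Q : EPar) (g0 T' : ℝ) (K : ℕ) (R : ℝ), QOk Q g0 → 0 ≤ Q.te → Q.te < T' → 0 ≤ R →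
    OSNull Φ f₀ K Q T' fun ε P z _ w l => if LinkE4 Φ ε R K Q.te P z w l then 1 else 0
  /-- exceptional test lines -/
  x : ∀ (Q : EPar) (g0 T' : ℝ) (K : ℕ), QOk Q g0 → 0 ≤ Q.te → Q.te < T' →
    OSNull Φ f₀ K Q T' fun ε P z _ w _ =>
      min 1 (lineM Q.γ Q.ρ K Q.te (Xbad4 Φ ε K Q.te P z w))

/-- **`StmtLink4` in the windows.** -/
theorem link4In_of_slots (hD : KData Φ β T f₀ f) (hN : NbadDet Φ) (hS : Slots4 Φ f₀) :
    Link4In Φ f₀ f T := by
  obtain ⟨A, C, hF⟩ := exists_fOk hD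
  refine ⟨1, one_pos, 1, one_pos, 0, zero_lt_one, fun h₀ hh₀ _ γ ρ hl => ?_⟩
  obtain ⟨g0, hg0, -, hQ⟩ := qOk_epar hD.T_pos.le hl
  refine ⟨h₀ / 2, half_pos hh₀, 1, fun h L tw te hh hhle _ hL hw _ => ?_⟩
  have hQ' := hQ L tw te hw.le_T
  have hte : 0 ≤ te := hw.nonneg.trans hw.le
  have hlt : te < tw + h₀ := by
    have := hw.short
    linarith
  exact stmtLink4_of_parts (Q := epar γ ρ L tw te) ⟨hD.adm, hF, hQ', hD.gaussian, hte⟩ hlt.le hN
    (fun K => hS.ok _ g0 _ K hQ' hte hlt) (fun K R hR => hS.lk _ g0 _ K R hQ' hte hlt hR)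
    (fun K => hS.x _ g0 _ K hQ' hte hlt)

end Crest.Agent.R122.LinkAsm984

end
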