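import Crest.Agent.R122.LinkX_331
import Crest.Agent.R122.LNReachAll_818
import Crest.Agent.R122.LinkGate2_424
import Crest.Agent.R122.LNPart_424
import Crest.Agent.R122.PWInst_442

/-!
# Row 122, LN3-D (helper331): bindings

* `bc_cm_eq` : the pasts of a not influenced label in the two marked worlds (818's `CM`).
* `cl_of_cg` : contacts of gas particles in the glued world are contacts of the marked world.
* `gas_of_ecW` : members of an entry chain (`TwoW`).
* `hlen_or_run` : **entry chains which end before the touch time are short, or there is a run from a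
  group of the part.**
* `runS_of_grp` : the run gives 424's `RunS`.
-/

set_option autoImplicit false
set_option linter.unusedSectionVars false

open MeasureTheory Set Filter Topology
open scoped ENNReal NNReal Classical
open Crest.AnalysisR.Kinetic
open Crest.Agent.R122.Flow671 Crest.Agent.R122.Loc45 Crest.Agent.R122.Ins45
open Crest.Agent.R122.EDefs602 Crest.Agent.R122.LinkM547
open Crest.Agent.R122.VL581 Crest.Agent.R122.VL581.VSys Crest.Agent.R122.VLInst442
open Crest.Agent.R122.LNg410 Crest.Agent.R122.LN304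
open Crest.Agent.R122.Causal291 Crest.Agent.R122.LNEv818

noncomputable section

namespace Crest.Agent.R122.LinkD331

section cm

variable {ι κ J : Type} [Fintype ι] [Fintype κ] {Φ : Space3 → ℝ} {ε : ℝ} {Z : MW ι} {A : MW κ}
  {f : ι → J} {g : κ → J}

theorem bc_cl_of_not_mem {α : Type} {W : MW α} [Fintype α] {f : α → J} {r : ℝ} (hr : 0 ≤ r) {k : J}
    (hk : k ∉ range f) : BC (CL Φ ε W f) r k = {k} := by
  apply Subset.antisymm
  · intro j hj
    have key : ∀ (s : ℝ) (j : J), Past (CL Φ ε W f) r k s j → j = k := by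
      intro s j hj
      induction hj with
      | root _ => rfl
      | @step s s' j l hp hc hs ih =>
        obtain ⟨x, y, _, h2, _⟩ := hc
        exact absurd ⟨x, h2.trans ih⟩ hk
    exact key 0 j hj
  · rintro _ rfl
    exact .root hr

/-- **Pasts of a not influenced label** in the two marked worlds. -/
theorem bc_cm_eq (hΦ : AdmissiblePotential Φ) (hε : 0 < ε) (hZ : Z.Ok Φ ε)
    (hZA : (Z.add A).Ok Φ ε) (hF : Function.Injective (Sum.elim f g)) (b : Bool) {r : ℝ}
    (hr : 0 ≤ r) {k : J} (hk : ¬ FJ (CM Φ ε Z A f g) (range g) r k) :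
    BC (CM Φ ε Z A f g (!b)) r k = BC (CM Φ ε Z A f g b) r k := by
  have key : BC (CM Φ ε Z A f g true) r k = BC (CM Φ ε Z A f g false) r k := by
    change BC (CL Φ ε (Z.add A) (Sum.elim f g)) r k = BC (CL Φ ε Z f) r k
    have hf : Function.Injective f := fun x y h =>
      Sum.inl_injective (hF (a₁ := Sum.inl x) (a₂ := Sum.inl y) h)
    by_cases h1 : k ∈ range (Sum.elim f g)
    · obtain ⟨x | c, rfl⟩ := h1
      · have h2 : ¬ Z.Fut Φ ε A r x := fun h' => hk (fj_of_fut (C := CM Φ ε Z A f g) hΦ hε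
          (fun _ i j hij hc => ⟨i, j, hij, rfl, rfl, hc⟩)
          (fun _ x y hxy hc => ⟨x, y, hxy, rfl, rfl, hc⟩) (S := range g) (g := g)
          (fun x => ⟨x, rfl⟩) h')
        have h3 := MW.histEq_of_not_fut hΦ hε hZ hZA hr h2
        have h4 := h3.act le_rfl
        rw [bc_cl (f := Sum.elim f g) hF]
        change _ = BC (CL Φ ε Z f) r (f x)
        rw [bc_cl (f := f) hf]
        have h5 : BC (Z.C Φ ε) r x = id '' CausalGen291.ActC (Z.C Φ ε) id r x 0 := h4.1
        have h6 : BC ((Z.add A).C Φ ε) r (Sum.inl x) =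
            Sum.inl '' CausalGen291.ActC (Z.C Φ ε) id r x 0 := h4.2
        rw [h5, h6, image_image, image_image]
        rfl
      · exact absurd (.base ⟨c, rfl⟩) hk
    · rw [bc_cl_of_not_mem (f := Sum.elim f g) hr h1, bc_cl_of_not_mem (f := f) hr
        fun ⟨x, hx⟩ => h1 ⟨Sum.inl x, hx⟩]
  cases b
  · exact key
  · exact key.symm

end cm

/-- **424's `RunS` from the conclusion of `run_of_ecm`**, for the gas and a structure. -/
theorem runS_of_grp {S : Type} [Fintype S] {n : ℕ} {Φ : Space3 → ℝ} {t ε c ℓ ς : ℝ}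
    {b : S → ℝ} {z : S → PhasePoint} {w : Config n} {Λ : Finset (Finset (Fin n ⊕ S))} {N : ℕ}
    {π : Finset (Fin n ⊕ S)} {a : Fin n ⊕ S} {K m : ℕ}
    (hP : Parts (LNPart424.gsys Φ t ε n b) c (Sum.elim w z) Λ)
    (hNB : NoBad (LNPart424.gsys Φ t ε n b) c ℓ ς (Sum.elim w z) Λ N)
    (hN : (uni Λ).card ≤ N) (hπ : π ∈ Λ) (hS : ∀ j ∈ π, ∃ y : S, j = Sum.inr y)
    (h : ∃ D : Finset (Fin n ⊕ S), D ⊆ π ∧ a ∈ D ∧
      ∀ (G : Type) [Fintype G] (W : MW G) (f : G ↪ Fin n ⊕ S) (x : G),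
        Grp (LNPart424.gsys Φ t ε n b) (Sum.elim w z) W f D → f x = a → Run Φ ε t K m W x w) :
    Gate424.RunS Φ ε t K m b z w := by
  obtain ⟨D, h1, h2, h3⟩ := h
  obtain ⟨y, rfl⟩ := hS a (h1 h2)
  set D' : Finset S := Finset.univ.filter fun y => Sum.inr y ∈ D with hD'
  have hmem : ∀ y, y ∈ D' ↔ Sum.inr y ∈ D := fun y => by simp [hD']
  have hTL := hNB π (hP.conn π hπ) ⟨π, hπ, Finset.Subset.refl _⟩ (by
    refine (Finset.card_le_card fun i hi => ?_).trans hN
    simp only [Finset.mem_union] at hi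
    rcases hi with hi | hi
    · exact mem_uni.2 ⟨π, hπ, hi⟩
    · exact hi)
  refine ⟨D', ⟨y, (hmem y).2 h2⟩, h3 D' (Gate424.sMW b z D')
    ⟨fun y => Sum.inr y.1, fun y y' h => Subtype.ext (Sum.inr_injective h)⟩ _ ?_ rfl⟩
  exact
    { b := fun x => rfl
      z := fun x => rfl
      obs := fun x h => by
        have h' : (none : Option (Fin n ⊕ S)) = some _ := h
        exact absurd h' (by simp)
      rng := fun j => by
        constructor
        · intro hj
          obtain ⟨y, rfl⟩ := hS j (h1 hj)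
          exact ⟨⟨y, (hmem y).2 hj⟩, rfl⟩
        · rintro ⟨x, rfl⟩
          exact (hmem x.1).1 x.2
      ok := hTL.1 D h1 }

/-! ### Glued worlds -/

section glue

open Crest.Agent.R122.PWGlue491 Crest.Agent.R122.PWInst442

variable {ι J κ : Type} [Fintype ι] [Fintype J] {M : VSys J κ} {Z : J → PhasePoint}
  {cl : J → Finset J} {W : MW ι} {f : ι ↪ J}

/-- **Contacts of gas particles** in the glued world are contacts of the marked world. -/
theorem cl_of_cg (H : GD M Z cl (bD W f) (labs f) (XD W f M.Φ M.ε)) {s : ℝ} {j k : J}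
    (hjk : j ≠ k) (hj : cl j = ∅) (hb : M.b j ≤ 0)
    (h : CG M Z cl (bD W f) (labs f) (XD W f M.Φ M.ε) s j k) : CL M.Φ M.ε W f s j k := by
  obtain ⟨-, -, hR, hb1, hb2, hst, hd⟩ := h
  rcases hR with ⟨gj, gk⟩ | ⟨hk, _⟩
  · have e1 := (H.alive_iff gj).1 hb1
    have e2 := (H.alive_iff gk).1 hb2
    rw [XG_of_inG gj, XG_of_inG gk] at hd
    have hs0 : 0 < s := by
      rcases hst with h' | h'
      · exact (bb_nonneg M j).trans_lt h'
      · exact (bb_nonneg M k).trans_lt h'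
    have hbj : bD W f j < s := by
      rw [H.gasb j gj.1 hj]
      unfold VSys.bb
      rw [max_eq_right hb]
      exact hs0
    obtain ⟨x, rfl⟩ := (mem_labs f).1 gj.1
    obtain ⟨y, rfl⟩ := (mem_labs f).1 gk.1
    rw [bD_apply] at e1 e2 hbj
    rw [XD_apply, XD_apply] at hd
    exact ⟨x, y, fun h' => hjk (by rw [h']), rfl, rfl, e1, e2, Or.inr (Or.inl hbj), hd⟩
  · rw [hj] at hk
    exact absurd hk (Finset.notMem_empty k)

end glue

/-! ### Runs from long chains -/

section run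

variable {J κ : Type} [Fintype J] {M : VSys J κ} {c ℓ ς : ℝ} {Z : J → PhasePoint}
  {X : Bool → ℝ → J → PhasePoint} {C C' : Bool → ℝ → J → J → Prop} {F : ℝ → J → Prop}
  {Λ : Finset (Finset J)} {N K : ℕ} {π : Finset J} {a : J}

/-- Members of an entry chain (except the exit) are gas particles. -/
theorem gas_of_ecW [Nonempty κ] (H : TwoW M c ℓ ς Z X C C' F Λ π a N) {L : List J} {s : ℝ}
    (hL : EC C' F a L s) (hsT : s ≤ M.T)
    (hK : ∀ x ∈ L, ∀ b, (x = a → b = true) → (preF (C b) x s \ uni Λ).card ≤ K)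
    (hN : (uni Λ).card + 2 * K * (L.length - 1) ≤ N) : ∀ x ∈ L, x ≠ a → x ∉ uni Λ := by
  obtain ⟨Y, hY, hmem⟩ := H.grp_of_ec hL hsT hK hN
  exact fun x hx hxa => (hY.gas x (hmem x hx)).resolve_left hxa

variable {ι : Type} [Fintype ι] {W : MW ι} {l : ML} {f : ι → J} {T : ℝ} {m : ℕ}

/-- **Short chains or a run**: if some entry chain which ends before the touch time has more than
`m + 1` members, then there is a run of any length `k ≤ m + 1` from a group of the part. -/
theorem hlen_or_run [Nonempty κ] (B : BindW M X C Λ W l f a K T)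
    (H : TwoW M c ℓ ς Z X C (cmL M W l f a) (fjL M W l f a) Λ π a N)
    (hgg : ∀ b s j k, j ≠ k → j ∉ uni Λ → C b s j k → cmL M W l f a b s j k)
    {n : ℕ} {g : Fin n ↪ J} {w : Config n} (hw : ∀ i, w i = Z (g i)) (hgb : ∀ i, M.b (g i) = 0)
    (hgo : ∀ i, M.o ≠ some (g i)) (hgas : ∀ i, i ∉ uni Λ → i ∈ range g)
    (hN : (uni Λ).card + 2 * K * (m + 2) ≤ N) {k : ℕ} (hk : k ≤ m + 1) :
    (∀ (L' : List J) (s : ℝ), EC (cmL M W l f a) (fjL M W l f a) a L' s →
      s < W.thetaL M.Φ M.ε K T l → s < T → L'.length ≤ m + 1) ∨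
    ∃ D : Finset J, D ⊆ π ∧ a ∈ D ∧ ∀ (G : Type) [Fintype G] (W : MW G) (f : G ↪ J) (x : G),
      Grp M Z W f D → f x = a → Run M.Φ M.ε M.T K k W x w := by
  by_cases hlen : ∀ (L' : List J) (s : ℝ), EC (cmL M W l f a) (fjL M W l f a) a L' s →
      s < W.thetaL M.Φ M.ε K T l → s < T → L'.length ≤ m + 1
  · exact Or.inl hlen
  right
  push Not at hlen
  obtain ⟨L₀, s₀, h0, h1, h2, h3⟩ := hlen
  obtain ⟨L, s, h4, h5, h6, _⟩ := h0.drop (m := k) (by omega)
  have hs0 : 0 ≤ s := h4.nonneg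
  have hsT : s < T := h5.trans_lt h2
  have hsθ : s < W.thetaL M.Φ M.ε K T l := h5.trans_lt h1
  -- a time `v` between
  obtain ⟨v, hv1, hv2⟩ := exists_between (lt_min hsθ hsT)
  have hvθ : v ≤ W.thetaL M.Φ M.ε K T l := hv2.le.trans (min_le_left _ _)
  have hvT : v ≤ T := hv2.le.trans (min_le_right _ _)
  have hsz : ∀ t ∈ Icc 0 v, ∀ x ∈ L, ∀ b, (x = a → b = true) →
      (preF (C b) x t \ uni Λ).card ≤ K := by
    intro t ht x hx b hb
    have h7 : fjL M W l f a s x := h4.fj (Set.mem_singleton a) hx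
    obtain ⟨x', rfl⟩ := B.exists_of_fj h7
    exact B.size_of_fj hvθ hvT hv1 h7 ht b hb
  have hNL : (uni Λ).card + 2 * K * L.length ≤ N := by
    rw [h6]
    have : 2 * K * (k + 1) ≤ 2 * K * (m + 2) := Nat.mul_le_mul_left _ (by omega)
    omega
  have hgasL : ∀ x ∈ L, x ≠ a → x ∉ uni Λ := by
    refine gas_of_ecW H h4 (hsT.le.trans B.le) (K := K) (hsz s ⟨hs0, hv1.le⟩) ?_
    have : 2 * K * (L.length - 1) ≤ 2 * K * L.length := Nat.mul_le_mul_left _ (by omega)
    omega
  have haU : a ∈ uni Λ := mem_uni.2 ⟨π, H.hπ, H.ha⟩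
  have hPS : LN304.PartS M c Z (C true) π := H.partS true
  refine run_of_group (F := fjL M W l f a) H.hΦ H.hε H.hc H.hℓς
    (hs0.trans_lt (hsT.trans_le B.le)) H.rw H.parts H.noBad H.noTwo H.noHit H.hπ H.ha hPS ?_
    (fun r r' k h1 h2 => h1.mono h2) (.base (Set.mem_singleton a)) ?_
    ⟨hs0, hsT.le.trans B.le⟩ ?_ hw hgb hgo hgas (h4.mono_C H.sub) le_rfl hgasL
    (fun x hx hxa b => ?_) hNL h6
  · intro s k hc'
    by_contra hk
    have hka : k ≠ a := fun h' => hk (h' ▸ haU)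
    exact H.out s k (cm_symm (hgg false s k a hka hk ((H.rw false).symm _ _ _ hc')))
  · intro b r j k hc' hF hj hk
    by_cases hjk : j = k
    · rw [← hjk]; exact hF
    · exact hF.con (cm_symm (hgg b r k j (Ne.symm hjk) hk ((H.rw b).symm _ _ _ hc')))
  · intro b r k h1 h2 h3 h4 h5
    refine bc_eq_of_marked (U := {x | x ∈ uni Λ}) H.sub
      (fun b s j k hjk hj hc' => hgg b s j k hjk hj hc') ?_ h5
    refine bc_cm_eq H.hΦ H.hε B.ok B.okA B.inj b h1 fun h' => h4 ?_
    rw [B.range_eq] at h'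
    exact h'
  · refine (Finset.card_le_card (Finset.sdiff_subset_sdiff (LNW291.bcF_subset_preF hv1)
      (Finset.Subset.refl _))).trans (hsz v ⟨hs0.trans hv1.le, le_rfl⟩ x hx b
        fun h' => absurd h' hxa)

/-- **Reachability or a run.** -/
theorem reachAll_or_run [Nonempty κ] (B : BindW M X C Λ W l f a K T)
    (H : TwoW M c ℓ ς Z X C (cmL M W l f a) (fjL M W l f a) Λ π a N)
    (hgg : ∀ b s j k, j ≠ k → j ∉ uni Λ → C b s j k → cmL M W l f a b s j k)
    {n : ℕ} {g : Fin n ↪ J} {w : Config n} (hw : ∀ i, w i = Z (g i)) (hgb : ∀ i, M.b (g i) = 0)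
    (hgo : ∀ i, M.o ≠ some (g i)) (hgas : ∀ i, i ∉ uni Λ → i ∈ range g)
    (hN : (uni Λ).card + 2 * K * (m + 2) ≤ N) {k : ℕ} (hk : k ≤ m + 1) :
    ReachAll (LNEv968.Reach M c Z Λ π a ((uni Λ).card + 2 * K * (m + 2))) M.Φ M.ε K T W f l a ∨
    ∃ D : Finset J, D ⊆ π ∧ a ∈ D ∧ ∀ (G : Type) [Fintype G] (W : MW G) (f : G ↪ J) (x : G),
      Grp M Z W f D → f x = a → Run M.Φ M.ε M.T K k W x w :=
  (hlen_or_run B H hgg hw hgb hgo hgas hN hk).imp (fun h => reachAll_core B H h hN) id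

end run

end Crest.Agent.R122.LinkD331

end
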