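import Crest.Agent.R122.OneX_973
import Crest.Agent.R122.LNS3a_304
import Crest.Agent.R122.E6Str_491
import Crest.Agent.R122.LKok_416

/-!
# Row 122, LINK6 (S4), deterministic part (helper974)

The pair structure with the tree (helper491's `PTree`) on the labels `σ` over the gas, and an
independent line `x`.

* `TreeP.str`, `TreeP.one`, `TreeP.tl` : the structure of the tree lines and `d` is one part; it is
  tree-like off the bad partitions.
* `TreeP.ex0`, `TreeP.ex1` : the exits over `cfg w`, `cfg w + d`; `TreeP.tube` : the tubes of the tree.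
* `lk_det` : `x` is good over `cfg w` and over `cfg w + d`, or `SAlt | XAlt | JAlt`.
-/

set_option autoImplicit false
set_option linter.unusedSectionVars false

open MeasureTheory Set Filter Topology
open scoped NNReal ENNReal
open Crest.AnalysisR.Kinetic
open Crest.Agent.R122.Flow671 hiding rel
open Crest.Agent.R122.Loc45 Crest.Agent.R122.Ins45 Crest.Agent.R122.EDefs602
open Crest.Agent.R122.VL581 Crest.Agent.R122.VL581.VSys Crest.Agent.R122.VLInst442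
open Crest.Agent.R122.Kin796 Crest.Agent.R122.Kin796.CTree Crest.Agent.R122.Tree674
open Crest.Agent.R122.TreeLines335 Crest.Agent.R122.LNTree410
open Crest.Agent.R122.LN304 Crest.Agent.R122.LNg410 Crest.Agent.R122.LNEv968
open Crest.Agent.R122.LNBridge968
open Crest.Agent.R122.PWGlue491 Crest.Agent.R122.PWInst442 Crest.Agent.R122.LNPart424
open Crest.Agent.R122.MWFam255 Crest.Agent.R122.LNEv818 Crest.Agent.R122.LNEv383
open Crest.Agent.R122.GIV566 Crest.Agent.R122.LNS674 Crest.Agent.R122.StrG491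
open Crest.Agent.R122.LNS3a304 (On one_of_str exits_cfg exits_ins_sep)
open Crest.Agent.R122.E6Hyp879 (withD inlEmb)
open Crest.Agent.R122.X692 (SAlt XAlt JAlt)
open Crest.Agent.R122.OneC285 (cT cB cD cX ptube)
open Crest.Agent.R122.LKok416 (OkX6)
open scoped Classical

noncomputable section

namespace Crest.Agent.R122.LkDet974

/-- Equal sets. -/
theorem str_congr {J κ : Type} [Fintype J] {M : VSys J κ} {c : ℝ} {Z : J → PhasePoint}
    {R : ℝ → J → J → Prop} {π π' : Finset J} {cl : J → Finset J} {bD : J → ℝ} {E E' : Finset J}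
    (h : Str M c Z R π cl bD E) (hπ : ∀ j, j ∈ π' ↔ j ∈ π) (hE : ∀ j, j ∈ E ↔ j ∈ E') :
    Str M c Z R π' cl bD E' := by
  have h1 : π = π' := Finset.ext fun j => (hπ j).symm
  have h2 : E = E' := Finset.ext hE
  rw [← h1, ← h2]
  exact h

variable {σ : Type} [Fintype σ] {n : ℕ} {Φ : Space3 → ℝ} {T te T' T₁ ε c R ς : ℝ} {b : σ → ℝ}
  {V : σ → PhasePoint} {w : Config n} {K m N : ℕ} {d e x : ML} {P : CTree}
  {z : PhasePoint × Par P} {A₀ : Finset σ}

/-- **The pair structure with the tree** on the labels `σ` over the gas. -/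
structure TreeP (Φ : Space3 → ℝ) (T ε c : ℝ) (b : σ → ℝ) (V : σ → PhasePoint) (w : Config n)
    (R₀ : ℝ → Fin n ⊕ σ → Fin n ⊕ σ → Prop) (π : Finset (Fin n ⊕ σ))
    (cl : Fin n ⊕ σ → Finset (Fin n ⊕ σ)) (bD : Fin n ⊕ σ → ℝ) (x₀ y₀ : σ) (g : Idx P ↪ σ)
    (d : ℝ × PhasePoint) (e : ML) (te : ℝ) (z : PhasePoint × Par P) : Prop where
  pt : PTree (gsys Φ T ε n b) c (Sum.elim w V) R₀ π cl bD (Sum.inr x₀) (Sum.inr y₀) d e te P z
    (g.trans (strE n σ))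
  all : ∀ j, j ∈ pS n σ ↔ j ∈ π ∨ j ∈ part (g.trans (strE n σ))

variable {R₀ : ℝ → Fin n ⊕ σ → Fin n ⊕ σ → Prop} {π : Finset (Fin n ⊕ σ)}
  {cl : Fin n ⊕ σ → Finset (Fin n ⊕ σ)} {bD : Fin n ⊕ σ → ℝ} {x₀ y₀ : σ} {g : Idx P ↪ σ}

namespace TreeP

/-- Classes. -/
abbrev cl0 (n : ℕ) (g : Idx P ↪ σ) (cl : Fin n ⊕ σ → Finset (Fin n ⊕ σ)) :
    Fin n ⊕ σ → Finset (Fin n ⊕ σ) := clSep cl (clOf (part (g.trans (strE n σ))))

/-- Contacts. -/
abbrev R0 (Φ : Space3 → ℝ) (T ε : ℝ) (b : σ → ℝ) (V : σ → PhasePoint) (w : Config n)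
    (R₀ : ℝ → Fin n ⊕ σ → Fin n ⊕ σ → Prop) (y₀ : σ) (g : Idx P ↪ σ) (e : ML)
    (z : PhasePoint × Par P) : ℝ → Fin n ⊕ σ → Fin n ⊕ σ → Prop :=
  joinR R₀ (RC (gsys Φ T ε n b) (Sum.elim w V) (part (g.trans (strE n σ)))) (Sum.inr y₀)
    ((g.trans (strE n σ)) (root P)) (cT ε z e)

variable (h : TreeP Φ T ε c b V w R₀ π cl bD x₀ y₀ g d.1 e te z)
include h

theorem str (hc : 1 ≤ c) (hΦ : AdmissiblePotential Φ) (hε : 0 < ε) :
    Str (gsys Φ T ε n b) c (Sum.elim w V) (R0 Φ T ε b V w R₀ y₀ g e z) (pS n σ) (cl0 n g cl) bD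
      ({Sum.inr x₀} ∪ part (g.trans (strE n σ))) := by
  have h1 := h.pt.str0 hc hΦ hε
  refine str_congr h1 (fun j => ?_) fun j => ?_
  · rw [h.all j]
    exact (@Finset.mem_union _ (fun a b => Classical.propDecidable _) _ _ _).symm
  · exact (@Finset.mem_union _ (fun a b => Classical.propDecidable _) _ _ _).trans
      (Finset.mem_union (s := {Sum.inr x₀}) (t := part (g.trans (strE n σ)))).symm

theorem one (hc : 1 ≤ c) (hΦ : AdmissiblePotential Φ) (hε : 0 < ε) (hw : w ∈ PairExcluded ε n) :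
    One Φ T ε c b V w (cl0 n g cl) (R0 Φ T ε b V w R₀ y₀ g e z) :=
  one_of_str hw (h.str hc hΦ hε)

theorem onI (hc : 1 ≤ c) (hΦ : AdmissiblePotential Φ) (hε : 0 < ε) (i : Idx P) :
    On (gsys Φ T ε n b) (Sum.elim w V) (cl0 n g cl) bD
      ({Sum.inr x₀} ∪ part (g.trans (strE n σ))) (g i) (lineML Φ ε P z i) where
  mem := Finset.mem_union_right _ (mem_part_self (e := g.trans (strE n σ)) i)
  b := (h.pt.bP i).symm
  st _ := by
    have hm := ((h.pt.hit hc hΦ hε).enc hΦ hε).meet hε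
    have h1 : (Sum.inr (g i) : Fin n ⊕ σ) ∈ part (g.trans (strE n σ)) :=
      mem_part_self (e := g.trans (strE n σ)) i
    have h2 : cl0 n g cl (Sum.inr (g i)) = part (g.trans (strE n σ)) := by
      rw [cl0, hm.cl₂_of h1, clOf_mem h1]
    rw [h2]
    exact h.pt.st_rel hΦ hε i

theorem onD (hc : 1 ≤ c) (hΦ : AdmissiblePotential Φ) (hε : 0 < ε) :
    On (gsys Φ T ε n b) (Sum.elim w V) (cl0 n g cl) bD
      ({Sum.inr x₀} ∪ part (g.trans (strE n σ))) x₀ d where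
  mem := Finset.mem_union_left _ (Finset.mem_singleton_self _)
  b := h.pt.pr.bx
  st ht := by
    have hm := ((h.pt.hit hc hΦ hε).enc hΦ hε).meet hε
    have h2 : cl0 n g cl (Sum.inr x₀) = cl (Sum.inr x₀) := by
      rw [cl0, hm.cl₁_of h.pt.pr.xπ]
    rw [h2]
    exact h.pt.pr.lx ht

theorem ne (i : Idx P) : g i ≠ x₀ := fun h' =>
  Finset.disjoint_left.1 h.pt.dj h.pt.pr.xπ
    (h' ▸ mem_part_self (e := g.trans (strE n σ)) i : (Sum.inr x₀ : Fin n ⊕ σ) ∈ _)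

theorem sep (hc : 1 ≤ c) (hΦ : AdmissiblePotential Φ) (hε : 0 < ε) (i : Idx P) :
    (Sum.inr x₀ : Fin n ⊕ σ) ∉ cl0 n g cl (Sum.inr (g i)) := by
  have hm := ((h.pt.hit hc hΦ hε).enc hΦ hε).meet hε
  have h1 : (Sum.inr (g i) : Fin n ⊕ σ) ∈ part (g.trans (strE n σ)) :=
    mem_part_self (e := g.trans (strE n σ)) i
  have h2 : cl0 n g cl (Sum.inr (g i)) = part (g.trans (strE n σ)) := by
    rw [cl0, hm.cl₂_of h1, clOf_mem h1]
  rw [h2]
  exact fun h3 => Finset.disjoint_left.1 h.pt.dj h.pt.pr.xπ h3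

/-- The whole structure is tree-like off the bad partitions. -/
theorem tl (hc : 1 ≤ c) (hΦ : AdmissiblePotential Φ) (hε : 0 < ε) (hw : w ∈ PairExcluded ε n)
    (hς : 2 * (R * ε) ≤ ς) (hT : T ≤ T') (hA : A₀.Nonempty) (hN : Fintype.card σ ≤ N)
    (hB : ¬ LN2.BadGas Φ T' c R ς ε N 1 A₀ b V w) :
    TL (gsys Φ T ε n b) c (R * ε) ς (pS n σ) (Sum.elim w V) := by
  have h1 := h.one hc hΦ hε hw
  refine (h1.ctx hΦ hε hc hς hT hA hB).nb (pS n σ) h1.conn ⟨_, mem_LS.2 rfl, subset_rfl⟩ ?_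
  refine (Finset.card_le_card (t := pS n σ) fun j hj => ?_).trans
    ((Finset.card_map _).le.trans (Finset.card_univ.le.trans hN))
  rcases (@Finset.mem_union _ (fun a b => Classical.propDecidable _) _ _ _).1 hj with h1 | h1
  · exact h1
  · rwa [uni_LS] at h1

/-- The lines of the tree over `cfg w`. -/
theorem ex0 (hc : 1 ≤ c) (hΦ : AdmissiblePotential Φ) (hε : 0 < ε) (hw : w ∈ PairExcluded ε n)
    (hς : 2 * (R * ε) ≤ ς) (hTL : TL (gsys Φ T ε n b) c (R * ε) ς (pS n σ) (Sum.elim w V))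
    (hok : MW.OkFam Φ ε (MW.cfg w) (withD (lineML Φ ε P z) d)) :
    Exits Φ T te ε b V w (cl0 n g cl) (R0 Φ T ε b V w R₀ y₀ g e z) (MW.cfg w) (gasE n σ)
      (lineML Φ ε P z) g :=
  exits_cfg (h.str hc hΦ hε) hw hΦ hε hc hς hTL h.pt.te_lt.le g.injective (h.onI hc hΦ hε)
    (okFam_comp hΦ hε hok (inlEmb (Idx P) Unit))

/-- The lines of the tree over `cfg w + d`. -/
theorem ex1 (hc : 1 ≤ c) (hΦ : AdmissiblePotential Φ) (hε : 0 < ε) (hw : w ∈ PairExcluded ε n)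
    (hς : 2 * (R * ε) ≤ ς) (hTL : TL (gsys Φ T ε n b) c (R * ε) ς (pS n σ) (Sum.elim w V))
    (hok : MW.OkFam Φ ε (MW.cfg w) (withD (lineML Φ ε P z) d)) :
    Exits Φ T te ε b V w (cl0 n g cl) (R0 Φ T ε b V w R₀ y₀ g e z) ((MW.cfg w).ins d)
      (lab1 n x₀) (lineML Φ ε P z) g :=
  exits_ins_sep (h.str hc hΦ hε) hw hΦ hε hc hς hTL h.pt.te_lt.le g.injective (h.onI hc hΦ hε)
    (h.onD hc hΦ hε) h.ne (LKok416.okFam_insD hΦ hε hok) (h.sep hc hΦ hε)

/-- The tubes of the tree. -/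
theorem tube (hΦ : AdmissiblePotential Φ) (hε : 0 < ε) :
    TubeOf (gsys Φ T ε n b) (Sum.elim w V) (LS n σ) (ptube Φ ε P z) te (fun _ => pS n σ)
      (g.trans (strE n σ)) := by
  have h1 : TubeOf (gsys Φ T ε n b) (Sum.elim w V) {part (g.trans (strE n σ))}
      (ptube Φ ε P z) te (fun _ => part (g.trans (strE n σ))) (g.trans (strE n σ)) :=
    tubeOf_ptube (M := gsys Φ T ε n b) hΦ hε h.pt.tree (Finset.mem_singleton_self _)
      h.pt.te_lt.le
  exact OneX973.tubeOf_sup h1 (fun _ j hj => (h.all j).2 (Or.inr hj)) fun _ => mem_LS.2 rfl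

end TreeP

/-- **The line `x` is good** over `cfg w` and over `cfg w + d`, or the alternatives. -/
theorem lk_det (h : TreeP Φ T ε c b V w R₀ π cl bD x₀ y₀ g d.1 e te z)
    (hΦ : AdmissiblePotential Φ) (hε : 0 < ε) (hc : 1 ≤ c) (hς : 2 * (R * ε) ≤ ς) (hT : T ≤ T')
    (hT₁ : T' < T₁) (hA₀ : A₀.Nonempty) (hw : w ∈ PairExcluded ε n)
    (hok : MW.OkFam Φ ε (MW.cfg w) (withD (lineML Φ ε P z) d))
    (hx : OkX6 Φ ε (MW.cfg w) P z d x) (hx0 : 0 ≤ x.1.1) (hdm : 1 ≤ d.2)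
    (hN : OneX973.sz σ K m + OneX973.sz σ K m ≤ N) :
    (BadX974.GoodXB Φ ε K te (MW.cfg w) P z x ∧
        BadX974.GoodXB Φ ε K te ((MW.cfg w).ins d) P z x) ∨
      SAlt Φ T' T₁ T c R ς ε K m N A₀ b V w ∨ XAlt Φ T' T₁ T c R ς ε K m N x w ∨
        JAlt Φ T' c R ς ε N A₀ b V x w := by
  have hT0 : 0 ≤ T := h.pt.T_pos.le
  have hte : te ≤ T := h.pt.te_lt.le
  have hA : A₀.Nonempty := hA₀
  by_cases hS : SAlt Φ T' T₁ T c R ς ε K m N A₀ b V w
  · exact Or.inr (Or.inl hS)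
  have hS' := hS
  unfold SAlt at hS'
  push Not at hS'
  have hcard : Fintype.card σ ≤ N := by
    unfold OneX973.sz at hN
    omega
  have hTL := h.tl hc hΦ hε hw hς hT hA hcard hS'.2.1
  have h1 := h.one hc hΦ hε hw
  have hO := h.tube hΦ hε
  have hok1 : (((MW.cfg w).ins d).ins x).Ok Φ ε :=
    (LKok416.ok_swap hΦ hε).1 ((LKok416.okFam_insD hΦ hε hx.fam).base hΦ hε)
  have hok0 : ((MW.cfg w).ins x).Ok Φ ε := hx.fam.base hΦ hε
  have hokd : ((MW.cfg w).ins d).Ok Φ ε := (LKok416.okFam_insD hΦ hε hok).base hΦ hε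
  rcases OneX973.one_x0 (x := x) (R := R) (ς := ς) (K := K) (m := m) (N := N) hΦ hε hT0 hte hc hς
    hT hT₁ hA h1 (h.ex0 hc hΦ hε hw hς hTL hok) hO hx0 hok0 hN with h2 | h2
  swap
  · exact Or.inr h2
  have hlab : Lab (gsys Φ T ε n b) (Sum.elim w V) (TreeP.cl0 n g cl) (Sum.inr x₀) d.1.1
      (back d.1) := h.pt.lab0_d hc hΦ hε
  rcases OneX973.one_xd (x := x) (R := R) (ς := ς) (K := K) (m := m) (N := N) hΦ hε hT0 hte hc hς
    hT hT₁ hA h1 (h.ex1 hc hΦ hε hw hς hTL hok) hO hlab h.pt.pr.d_nonneg hdm hx0 hokd hok1 hN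
    with h3 | h3
  swap
  · exact Or.inr h3
  exact Or.inl ⟨LKok416.goodXB₁ hΦ hε hx hok h2.1 h2.2, LKok416.goodXB₂ hΦ hε hx hok h3.1 h3.2⟩

end Crest.Agent.R122.LkDet974

end
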