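import Crest.Agent.R122.LNNear8_383
import Crest.Agent.R122.LkDet_974
import Crest.Agent.R122.Real6P_796
import Crest.Agent.R122.PassAE_416

/-!
# Row 122, LINK6 (helper796): the field `lk` of `Slots6G`

* `LkX6Null` : the null event of the world facts of the test line (`hX`).
* `ptreeQ_of_levD` : the contact tree over the gas from the level data.
* `fNull_lk` : the field `lk` from `OPX`, `PairAlt` and `hX`.
-/

set_option autoImplicit false
set_option linter.unusedSectionVars false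
set_option maxHeartbeats 400000

open MeasureTheory Set Filter Topology
open scoped Classical ENNReal
open Crest.AnalysisR.Kinetic
open Crest.Agent.R122.GC311 Crest.Agent.R122.EDefs602
open Crest.Agent.R122.Kin796 Crest.Agent.R122.Kin796.CTree Crest.Agent.R122.Tree674
open Crest.Agent.R122.TreeLines335
open Crest.Agent.R122.Gate424 Crest.Agent.R122.Gate973
open Crest.Agent.R122.Boost969 (LSt)
open Crest.Agent.R122.Pair292 (Lab)
open Crest.Agent.R122.PairD292 Crest.Agent.R122.Pt6811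
open Crest.Agent.R122.StrG491 (PTree)
open Crest.Agent.R122.LNPart424 Crest.Agent.R122.PWInst442
open Crest.Agent.R122.LNEv968 Crest.Agent.R122.LNEv383
open Crest.Agent.R122.GateOsP424 (osB osZ)
open Crest.Agent.R122.PairRep581 (Shp ShpOk osP ctOkS)
open Crest.Agent.R122.OPX973 (OPX anT)
open Crest.Agent.R122.PTreeOf331 (iT iS)
open Crest.Agent.R122.LKok416 (OkX6)
open Crest.Agent.R122.X692 (SAlt XAlt JAlt)

noncomputable section

namespace Crest.Agent.R122.Link6796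

variable {Φ : Space3 → ℝ} {f₀ : PhasePoint → ℝ} {bg γ β T' : ℝ} {ρ : Space3 → ℝ≥0∞}
  {P : CTree} {S : Shp} {K : ℕ} {Q : EPar}

/-- The pair structure of the level data (helper383's form). -/
theorem LevD.pairQ {T ε c ℓ ς te : ℝ} {q : (PhasePoint × Par P) × S.Θ}
    (h : LevD Φ T ε c ℓ ς te K P S q) : PairQ Φ T ε c S q.2 := by
  obtain ⟨R, cl, bD, x, y, h1, -, -⟩ := h.pair
  exact ⟨R, cl, bD, x, y, h1⟩

/-- The realisation hypothesis of helper383. -/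
theorem PairAlt.pairAltE {c : ℝ} (h : PairAlt Φ f₀ Q T' K P S c) :
    PairAltE Φ f₀ Q T' K P S c := by
  obtain ⟨B, Ht, hB, hH, h⟩ := h
  refine ⟨B, Ht, hB, hH, fun r hr ς hς => ?_⟩
  obtain ⟨ε₁, h0, h1⟩ := h r hr ς hς
  refine ⟨ε₁, h0, fun ε hε hlt n q w hw hG => ?_⟩
  obtain ⟨R, hG⟩ := hG
  rcases h1 ε hε hlt () n q w hw ⟨hG.gd.real.ct, hG.gd.real.okL⟩ hG.gd with h2 | h2 | h2
  · exact Or.inr (Or.inr h2.pairQ)
  · exact Or.inl h2
  · exact Or.inr (Or.inl h2)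

/-- **The null event of the test line**: the world facts of the line. -/
def LkX6Null (Φ : Space3 → ℝ) (f₀ : PhasePoint → ℝ) (Q : EPar) (T' : ℝ) (K : ℕ) (P : CTree)
    (S : Shp) : Prop :=
  ∀ R : ℝ, 0 ≤ R →
  GNull f₀ (fun ε i => (osP Φ f₀ Q.te T' K P S ε i).prod (lineM Q.γ Q.ρ K Q.te))
    (fun ε _ _ θ w => Gx6 Φ ε R K Q T' P θ.1.1 w (S.th ε θ.1.2) ∧
      Hyp6 Φ ε K Q.te P θ.1.1 w (S.th ε θ.1.2) ∧
      ¬ OkX6 Φ ε (MW.cfg w) P θ.1.1 (dL (S.th ε θ.1.2)) θ.2)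

/-- The births of the test lines are positive. -/
theorem gNull_line0 (hf : Measurable f₀) {gl : ℝ → ℝ} (hg : Measurable gl) (rm : ℝ≥0∞)
    (Km : ℕ) (te : ℝ) :
    GNull f₀ (fun (_ : ℝ) (_ : Unit) => lineM gl rm Km te) (fun _ _ _ x _ => ¬ 0 < x.1.1) := by
  refine PairRep581.gNull_of_ae hf (fun _ _ => by unfold lineM; infer_instance)
    fun ε hε i n => ?_
  have hs : SFinite (lineM gl rm Km te) := by unfold lineM; infer_instance
  have h1 := (Measure.quasiMeasurePreserving_fst (μ := lineM gl rm Km te)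
    (ν := (volume : Measure (Config n)))).ae (EBasic602.lineM_ae (K := Km) (T := te) (ρ := rm) hg)
  filter_upwards [h1] with q hq _
  exact not_not.2 hq.1

/-- **The deterministic alternatives** of the field `lk`. -/
theorem lk_alt {R r ς ε c : ℝ} {n m N : ℕ} {q : (PhasePoint × Par P) × S.Θ} {w : Config n}
    {x : ML} (hΦ : AdmissiblePotential Φ) (hε : 0 < ε) (hc : 1 ≤ c)
    (hr : 2 * (r * ε) ≤ ς) (hN : OneX973.sz (Idx P ⊕ S.κ) K m + OneX973.sz (Idx P ⊕ S.κ) K m ≤ N)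
    (hw : w ∈ PairExcluded ε n) (hG : Gx6 Φ ε R K Q T' P q.1 w (S.th ε q.2))
    (hH : Hyp6 Φ ε K Q.te P q.1 w (S.th ε q.2)) (hP : PTreeQ Φ T' Q.te ε c P S n w q)
    (hx0 : 0 < x.1.1) (hx : OkX6 Φ ε (MW.cfg w) P q.1 (dL (S.th ε q.2)) x) :
    (BadX974.GoodXB Φ ε K Q.te (MW.cfg w) P q.1 x ∧
        BadX974.GoodXB Φ ε K Q.te ((MW.cfg w).ins (dL (S.th ε q.2))) P q.1 x) ∨
      SAlt Φ T' (T' + 1) T' c r ς ε K m N (anT P S) (osB P S ε q) (osZ Φ P S ε q) w ∨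
      XAlt Φ T' (T' + 1) T' c r ς ε K m N x w ∨
      JAlt Φ T' c r ς ε N (anT P S) (osB P S ε q) (osZ Φ P S ε q) x w := by
  obtain ⟨Rc, π, cl, β', x₀, y₀, H, hπ⟩ := hP
  exact LkDet974.lk_det (h := ⟨H, fun j => (hπ j).symm⟩) hΦ hε hc hr le_rfl (lt_add_one T')
    anT_nonempty hw hH.ok₁ hx hx0.le hG.gd.real.okL.d1 hN

/-- The guard. -/
def GH6 (Φ : Space3 → ℝ) (Q : EPar) (T' R : ℝ) (K : ℕ) (P : CTree) (S : Shp) (ε : ℝ) (n : ℕ)
    (q : (PhasePoint × Par P) × S.Θ) (w : Config n) : Prop :=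
  Gx6 Φ ε R K Q T' P q.1 w (S.th ε q.2) ∧ Hyp6 Φ ε K Q.te P q.1 w (S.th ε q.2)

/-- **The field `lk` of `Slots6G`.** -/
theorem fNull_lk (h : OPX Φ f₀ bg γ β T' Q.te ρ S Q.γ Q.ρ) (hlt : Q.te < T') {c : ℝ}
    (hc : 1 ≤ c) (hPA : PairAltE Φ f₀ Q T' K P S c) (hX : LkX6Null Φ f₀ Q T' K P S) {R : ℝ}
    (hR : 0 ≤ R) :
    FNull f₀ (osP Φ f₀ Q.te T' K P S)
      (fun ε _ n q w => fLkG Φ Q T' R K ε P q.1 n w (S.th ε q.2)) := by
  have key : ∀ lk : ℝ → (n : ℕ) → ((PhasePoint × Par P) × S.Θ) → Config n → Set ML,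
      (∀ ε n q (w : Config n) (x : ML),
        BadX974.GoodXB Φ ε K Q.te (MW.cfg w) P q.1 x →
        BadX974.GoodXB Φ ε K Q.te ((MW.cfg w).ins (dL (S.th ε q.2))) P q.1 x →
        x ∉ lk ε n q w) →
      FNull f₀ (osP Φ f₀ Q.te T' K P S) (fun ε _ n q w =>
        if GH6 Φ Q T' R K P S ε n q w then
          min 1 ((lineM Q.γ Q.ρ K Q.te) (lk ε n q w)) else 0) := by
    intro lk hlk
    refine h.fNull_of_alt (u := T') le_rfl K K (G := GH6 Φ Q T' R K P S) (lk := lk) fun L => ?_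
    obtain ⟨B, Ht, hB, hHt, hPA⟩ := hPA
    refine ⟨OneX973.sz (Idx P ⊕ S.κ) K L + OneX973.sz (Idx P ⊕ S.κ) K L, c, T' + 1, B, _, _, Ht,
      fun _ _ _ x _ => ¬ 0 < x.1.1, _, by linarith [h.T_pos],
      ⟨hB, h.badF_X K c 1, h.badF_J T' K P K c 1⟩,
      ⟨hHt, gNull_line0 h.meas h.gl_meas Q.ρ K Q.te, hX R hR⟩, fun r hr ς hς => ?_⟩
    obtain ⟨ε₁, h0, h1⟩ := hPA r hr ς hς
    refine ⟨min ε₁ (ς / (2 * r)), lt_min h0 (by positivity), fun ε hε hl n q x w hw hG hx => ?_⟩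
    have hrε : 2 * (r * ε) ≤ ς := by
      have h2 := (hl.trans_le (min_le_right _ _)).le
      rw [le_div_iff₀ (by positivity)] at h2
      linarith
    by_cases hx0 : 0 < x.1.1
    swap
    · exact Or.inr (Or.inl (Or.inr (Or.inr hx0)))
    by_cases hX6 : OkX6 Φ ε (MW.cfg w) P q.1 (dL (S.th ε q.2)) x
    swap
    · exact Or.inr (Or.inr (Or.inr (Or.inr ⟨hG.1, hG.2, hX6⟩)))
    rcases h1 ε hε (hl.trans_le (min_le_left _ _)) n q w hw ⟨R, hG.1⟩ with h2 | h2 | h2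
    · exact Or.inl (Or.inr (Or.inl h2))
    · exact Or.inl (Or.inr (Or.inr h2))
    rcases lk_alt h.adm hε hc hrε le_rfl hw hG.1 hG.2
      (ptreeQ_of_pairQ h.adm hε hlt hG.1 h2) hx0 hX6 (m := L) with h3 | h3 | h3 | h3
    · exact absurd hx (hlk ε n q w x h3.1 h3.2)
    · exact Or.inl (Or.inl h3)
    · exact Or.inr (Or.inl (Or.inl h3))
    · exact Or.inr (Or.inr (Or.inl h3))
  have hA := key (fun ε _ q w => InEq2T.lkX Φ ε K Q.te P q.1 w)
    fun ε n q w x h1 _ h3 => h3 (BadX974.goodX_iff.2 h1)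
  have hB := key (fun ε _ q w => lkXd Φ ε K Q.te P q.1 w (dL (S.th ε q.2)))
    fun ε n q w x _ h2 h3 => h3 h2
  refine (OPX973.fNull_lkm h.meas (k := ENNReal.ofReal Q.L) ENNReal.ofReal_ne_top
    (G := fun ε _ n q w => GH6 Φ Q T' R K P S ε n q w) hA hB).mono
    ⟨1, one_pos, fun ε _ _ _ n q w _ => ?_⟩
  show fLkG Φ Q T' R K ε P q.1 n w (S.th ε q.2) ≤ _
  unfold fLkG
  by_cases hG : GH6 Φ Q T' R K P S ε n q w
  · rw [if_pos hG]
    exact (if_pos hG).le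
  · exact (if_neg hG).le.trans bot_le

end Crest.Agent.R122.Link6796

end
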