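import Crest.Agent.R122.TLBind_311
import Crest.Agent.R122.InEq2TAd_718
import Crest.Agent.R122.LNRoot_291
import Crest.Agent.R122.LNTreeRATR_399

/-!
# Row 122, INEQUALITY 2', touched half (helper718): `LnN` for `KData`

* `ctx_of_kdata` : the context of helper311's gate from `KData` and admissible line parameters.
* `lnN_of_det` : `LnN` from helper311's `OkXae` (a.e.) and `TLDet` (deterministic).
-/

set_option autoImplicit false
set_option maxHeartbeats 400000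

open MeasureTheory Set Filter Topology
open scoped ENNReal
open Crest.AnalysisR.Kinetic
open Crest.Agent.R122.GC311 Crest.Agent.R122.EDefs602 Crest.Agent.R122.InEq2
open Crest.Agent.R122.Kin796 Crest.Agent.R122.Kin796.CTree Crest.Agent.R122.Tree674
open Crest.Agent.R122.RtG302 Crest.Agent.R122.GIV566 Crest.Agent.R122.Master566
open Crest.Agent.R122.Top602 Crest.Agent.R122.TL311

namespace Crest.Agent.R122.InEq2T

noncomputable section

open scoped Classical

variable {Φ : Space3 → ℝ} {f₀ : PhasePoint → ℝ} {f : ℝ → PhasePoint → ℝ} {β T : ℝ} {γ : ℝ → ℝ}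
  {ρ : ℝ≥0∞} {h₀ : ℝ}

/-- The context of the gate of helper311. -/
theorem ctx_of_kdata (hD : KData Φ β T f₀ f) {g1 : ℝ} {r1 : ℝ≥0∞} (hLP : LinePar g1 r1 T γ ρ)
    {T' te : ℝ} (hT' : 0 ≤ T') (hte : te ≤ T) (hteT' : te ≤ T') :
    ∃ g : ℝ, TL311.Ctx Φ f₀ β T' te g γ ρ := by
  obtain ⟨g0, κ, hκ, hγ, hlow, hup⟩ := hLP.lin
  refine ⟨min (g0 - κ * T) β, hD.adm, hD.contDiff.continuous, hD.gaussian, ?_, hT', hteT',
    lt_min hlow hD.beta_pos, min_le_right _ _, fun τ hτ => ?_, measurable_rate hLP,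
    (hLP.hi.trans ENNReal.one_lt_top).ne⟩
  · rw [← ofReal_integral_eq_lintegral_ofReal hD.integrable (Eventually.of_forall hD.nonneg),
      hD.mass, ENNReal.ofReal_one]
  · refine (min_le_left _ _).trans ?_
    rw [hγ]
    have h1 : κ * τ ≤ κ * T := mul_le_mul_of_nonneg_left (hτ.2.trans hte) hκ.le
    show g0 - κ * T ≤ g0 - κ * τ
    linarith

/-- **`LnN`** from the a.e. and the deterministic input. -/
theorem lnN_of_det (hD : KData Φ β T f₀ f) {g1 : ℝ} {r1 : ℝ≥0∞} (hLP : LinePar g1 r1 T γ ρ)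
    (h0 : 0 < h₀) (hX : ∀ T' te : ℝ, 0 < T' → te ≤ T' → OkXae Φ T' te)
    (hDet : ∀ T' te : ℝ, 0 < T' → te ≤ T' → TLDet Φ T' te) : LnN Φ f₀ f T γ ρ h₀ := by
  have hγ : (0 : ℝ) < 2 * β := by linarith [hD.beta_pos]
  have h1 : ∫⁻ z, ENNReal.ofReal (f₀ z) ≤ 1 := by
    rw [← ofReal_integral_eq_lintegral_ofReal hD.integrable (Eventually.of_forall hD.nonneg),
      hD.mass, ENNReal.ofReal_one]
  refine lnN_of_tsn ⟨h₀, h0, 1, fun h L tw te hh hle _ _ hW _ K => ?_⟩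
  have hte : te ≤ tw + h₀ := hW.short.trans (by linarith)
  have hT : 0 < tw + h₀ := by linarith [hW.nonneg]
  obtain ⟨g, hc⟩ := ctx_of_kdata hD hLP hT.le hW.le_T hte
  exact tsn_lkX hc (hX _ _ hT hte) (hDet _ _ hT hte) (LNRoot291.tNull_goodT (K := K) hD.adm hγ
    hD.contDiff.continuous hD.gaussian h1 hT hte (LNTree399.ratR hD.adm K K))

/-- **`LnN`** on all short windows. -/
theorem lnIn_of_det (hD : KData Φ β T f₀ f)
    (hX : ∀ T' te : ℝ, 0 < T' → te ≤ T' → OkXae Φ T' te)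
    (hDet : ∀ T' te : ℝ, 0 < T' → te ≤ T' → TLDet Φ T' te) :
    InHL T fun h₀ γ ρ => LnN Φ f₀ f T γ ρ h₀ :=
  ⟨1, one_pos, 1, one_pos, 1 / 2, ENNReal.half_lt_self one_ne_zero ENNReal.one_ne_top,
    fun _ h0 _ _ _ hLP => lnN_of_det hD hLP h0 hX hDet⟩

end

end Crest.Agent.R122.InEq2T
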