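import Crest.Agent.R122.LvAll_726

/-!
# Levels of the pair structures (row 122, S^(j)), helper726, first line

* `dL_itS` : the first line is the same at all levels.
* `dT_all` : it is born before the contact of the base structure.
-/

set_option autoImplicit false
set_option linter.unusedSectionVars false

open MeasureTheory Set Filter Topology
open scoped NNReal ENNReal
open Crest.AnalysisR.Kinetic
open Crest.Agent.R122.VL581 Crest.Agent.R122.VL581.VSys
open Crest.Agent.R122.LN304 Crest.Agent.R122.LNg410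
open Crest.Agent.R122.Kin796 Crest.Agent.R122.Kin796.CTree Crest.Agent.R122.Tree674
open Crest.Agent.R122.TreeLines335 Crest.Agent.R122.EDefs602
open Crest.Agent.R122.Boost969 (LSt)
open Crest.Agent.R122.Pair292 (Lab)
open Crest.Agent.R122.PairD292 Crest.Agent.R122.PairRep581
open Crest.Agent.R122.StrN998 (Th Ka itS)
open Crest.Agent.R122.VLMeas973 (vsys)
open Crest.Agent.R122.StrG491 Crest.Agent.R122.StrMain307 Crest.Agent.R122.StrMot2_151
open Crest.Agent.R122.NuHit969 (HitD HitS bas)
open Crest.Agent.R122.BasePair45 (Good0 sys0 lB)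
open Crest.Agent.R122.NuL735 (famB Ix NPar zE oneE thE)
open scoped Classical

noncomputable section

namespace Crest.Agent.R122.Lv726

variable {Φ : Space3 → ℝ} {T T' T₁ te te₀ c R ς ε b₀ : ℝ} {K N₁ : ℕ} {N : NPar} {s : Ix N.m₀}
  {q : ℕ → ℝ≥0∞} {n : ℕ} {w : Config n}

/-- The first line is the same at all levels. -/
theorem dL_itS (S : Shp) (j : ℕ) (x : Th S.Θ j) :
    (dL ((itS S Φ b₀ te q j).th ε x)) = dL (S.th ε (bas S.Θ j x)) := by
  induction j with
  | zero => rfl
  | succ j ih => exact Eq.trans rfl (ih x.1)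

/-- **The first line is born before the contact of the base structure**, at all levels. -/
theorem dT_all (hε : 0 < ε) (j : ℕ) {x : Th (famB Φ K N s).Θ j}
    (h0 : Good0 Φ ε te₀ T' s.1.1 (bas (famB Φ K N s).Θ j x)) :
    (dL ((itS (famB Φ K N s) Φ b₀ te q j).th ε x)).1.1 ≤ te₀ := by
  rw [dL_itS]
  set y := bas (famB Φ K N s).Θ j x with hy
  have hadm : Adm Φ s.1.1 y.1.1.2 y.1.2 := h0.ct.2.2.2.2.1
  change (oneE Φ ε y s.2.1.1).1.1 ≤ te₀
  rw [NuL735.oneE_of_adm hadm]
  rcases hx : s.2.1.1 with i | b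
  · have hi : i ≠ root s.1.1 := by
      have := s.2.2.1
      rw [hx] at this
      exact Ins45.mem_exS.1 this
    rw [Ins45.oneLs_exit hi]
    have h1 : OneC285.cT ε y.1 (NuL735.lnO y.2) ≤ te₀ := h0.ct.2.2.2.1
    by_cases hpos : 0 < OneC285.cT ε y.1 (NuL735.lnO y.2)
    · exact (TreeLines335.rel_lt hε.le hpos h0.ct.2.2.2.2.2 i).le.trans h1
    · exact absurd (lt_of_le_of_lt le_rfl (show (0 : ℝ) < OneC285.cT ε y.1 (NuL735.lnO y.2) from
        lt_of_le_of_lt le_rfl h0.ct.2.2.1)) hpos
  · have := s.2.2.1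
    rw [hx] at this
    exact absurd this Ins45.inr_not_mem_exS

end Crest.Agent.R122.Lv726

end
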