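import Crest.Agent.R122.LvStep_317
import Crest.Agent.R122.LevGate_581

/-!
# Row 122, levels of the structures (helper317): all levels

* `BaseL` : a base structure is connected; if it is tree-like, it is a pair structure.
* `LvOut` : the level `j`: connected, tree-like, pair structure.
* `lvOut` : **all levels**: `BaseL`, `HitS` (helper969) and no bad partition of any level (helper581's
  `BadLv`) give `LvOut` at the level `j`; `lvOut_prj` : at every lower level.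
-/

set_option autoImplicit false
set_option linter.unusedSectionVars false

open MeasureTheory Set Filter Topology
open scoped NNReal ENNReal
open Crest.AnalysisR.Kinetic
open Crest.Agent.R122.Kin796 Crest.Agent.R122.Kin796.CTree Crest.Agent.R122.Tree674
open Crest.Agent.R122.VL581 Crest.Agent.R122.VL581.VSys Crest.Agent.R122.VLInst442
open Crest.Agent.R122.LN304 Crest.Agent.R122.StrG491
open Crest.Agent.R122.PairD292 (dL eL)
open Crest.Agent.R122.PairReal998 (hitO outK)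
open Crest.Agent.R122.StrN998 (SD Th Ka Fr itS ofShp)
open Crest.Agent.R122.PairRep581 (Shp BadK BadLv ShpOk)
open Crest.Agent.R122.NuHit969 (HitD HitS bas)
open Crest.Agent.R122.VLMeas973 (vsys)
open Crest.Agent.R122.OneC285 (exS)
open scoped Classical

noncomputable section

namespace Crest.Agent.R122.Lv317

variable {Φ : Space3 → ℝ} {T T' ε te c ρ ς b₀ : ℝ} {q : ℕ → ℝ≥0∞}

section levels

variable {Θ κ : Type} [MeasurableSpace Θ] [Fintype κ]

/-- **A base structure.** -/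
structure BaseL (S : SD Θ κ) (Φ : Space3 → ℝ) (T ε c ℓ ς : ℝ) (θ : Θ) : Prop where
  conn : (vsys Φ T ε (S.b θ)).Conn c Finset.univ (S.z θ)
  pair : TL (vsys Φ T ε (S.b θ)) c ℓ ς Finset.univ (S.z θ) →
    PairL Φ T ε c (S.b θ) (S.z θ) (dL (S.pr θ)).1 (eL (S.pr θ)).1

/-- **A good level.** -/
structure LvOut (S : SD Θ κ) (Φ : Space3 → ℝ) (T ε c ℓ ς : ℝ) (θ : Θ) : Prop where
  conn : (vsys Φ T ε (S.b θ)).Conn c Finset.univ (S.z θ)
  tl : TL (vsys Φ T ε (S.b θ)) c ℓ ς Finset.univ (S.z θ)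
  pair : PairL Φ T ε c (S.b θ) (S.z θ) (dL (S.pr θ)).1 (eL (S.pr θ)).1

theorem univ_nonempty {J : Type} [Fintype J] {M : VSys J Unit} {C : ℝ} {Z : J → PhasePoint}
    (h : M.Conn C Finset.univ Z) : (Finset.univ : Finset J).Nonempty := h.1

/-- One step of the levels. -/
theorem LvOut.step {S : SD Θ κ} (hC : 1 ≤ c) (hΦ : AdmissiblePotential Φ) (hε : 0 < ε)
    (hρ : 0 ≤ ρ) (hρς : 2 * (ρ * ε) ≤ ς) (hte : te + 2 * (ρ * ε) < T) (hT : T ≤ T') {x : Θ × Fr}
    (h : LvOut S Φ T ε c (ρ * ε) ς x.1) (hh : HitD Φ ε te x.2.1 (S.pr x.1).2) {N n : ℕ}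
    {w : Config n}
    (hB : ¬ LN2.BadGas Φ T' c ρ ς ε N 1 Finset.univ ((S.step Φ ε b₀ te q).b x)
      ((S.step Φ ε b₀ te q).z x) w) :
    LvOut (S.step Φ ε b₀ te q) Φ T ε c (ρ * ε) ς x := by
  have hℓ : 0 ≤ ρ * ε := mul_nonneg hρ hε.le
  have hteT : te < T := by linarith
  have hconn : (vsys Φ T ε ((S.step Φ ε b₀ te q).b x)).Conn c Finset.univ
      ((S.step Φ ε b₀ te q).z x) := connL_succ hC hΦ hε hteT h.pair hh
  have htl := LvTL317.tl_of_not_badGas hΦ hε hT hconn (univ_nonempty hconn) hB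
  exact ⟨hconn, htl, pairL_succ hC hΦ hε hte hℓ hρς h.pair hh htl x.2.2.2⟩

end levels

section shp

variable {S : Shp} {N n : ℕ} {w : Config n}

/-- **All levels.** -/
theorem lvOut (hC : 1 ≤ c) (hΦ : AdmissiblePotential Φ) (hε : 0 < ε)
    (hρ : 0 ≤ ρ) (hρς : 2 * (ρ * ε) ≤ ς) (hte : te + 2 * (ρ * ε) < T) (hT : T ≤ T') :
    ∀ (j : ℕ) (x : Th S.Θ j), BaseL (ofShp S ε) Φ T ε c (ρ * ε) ς (bas S.Θ j x) →
      HitS S Φ b₀ te q ε j x → ¬ BadLv S Φ b₀ te q T' c ρ ς ε N w j x →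
      LvOut ((ofShp S ε).iter Φ ε b₀ te q j) Φ T ε c (ρ * ε) ς x
  | 0, x, hb, _, hB => by
    have hconn := hb.conn
    have htl := LvTL317.tl_of_not_badGas (w := w) (N := N) hΦ hε hT hconn (univ_nonempty hconn)
      (fun h => hB (BadLv.zero.2 h))
    exact ⟨hconn, htl, hb.pair htl⟩
  | j + 1, x, hb, hh, hB => by
    have h1 := lvOut hC hΦ hε hρ hρς hte hT j x.1 hb hh.1 fun h => hB (Or.inr h)
    exact h1.step (b₀ := b₀) (q := q) (w := w) (N := N) hC hΦ hε hρ hρς hte hT hh.2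
      fun h => hB (Or.inl h)

theorem bas_prj {Θ : Type} (k i : ℕ) (x : Th Θ (k + i)) :
    bas Θ k (Marg494.prj Θ k i x) = bas Θ (k + i) x := by
  induction i with
  | zero => rfl
  | succ i ih => exact ih x.1

theorem hitS_prj (k i : ℕ) {x : Th S.Θ (k + i)} (h : HitS S Φ b₀ te q ε (k + i) x) :
    HitS S Φ b₀ te q ε k (Marg494.prj S.Θ k i x) := by
  induction i with
  | zero => exact h
  | succ i ih => exact ih h.1

theorem badLv_of_prj (k i : ℕ) {x : Th S.Θ (k + i)}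
    (h : BadLv S Φ b₀ te q T' c ρ ς ε N w k (Marg494.prj S.Θ k i x)) :
    BadLv S Φ b₀ te q T' c ρ ς ε N w (k + i) x := by
  induction i with
  | zero => exact h
  | succ i ih => exact Or.inr (ih h)

/-- All lower levels. -/
theorem lvOut_prj (hC : 1 ≤ c) (hΦ : AdmissiblePotential Φ) (hε : 0 < ε)
    (hρ : 0 ≤ ρ) (hρς : 2 * (ρ * ε) ≤ ς) (hte : te + 2 * (ρ * ε) < T) (hT : T ≤ T') (k i : ℕ)
    {x : Th S.Θ (k + i)} (hb : BaseL (ofShp S ε) Φ T ε c (ρ * ε) ς (bas S.Θ (k + i) x))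
    (hh : HitS S Φ b₀ te q ε (k + i) x)
    (hB : ¬ BadLv S Φ b₀ te q T' c ρ ς ε N w (k + i) x) :
    LvOut ((ofShp S ε).iter Φ ε b₀ te q k) Φ T ε c (ρ * ε) ς (Marg494.prj S.Θ k i x) :=
  lvOut hC hΦ hε hρ hρς hte hT k _ (by rw [bas_prj]; exact hb) (hitS_prj k i hh)
    fun h => hB (badLv_of_prj k i h)

end shp

end Crest.Agent.R122.Lv317

end
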