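import Crest.Agent.R122.BaseNu_45
import Crest.Agent.R122.StrMot2_151

/-!
# Levels of the pair structures, base (row 122, S^(0)), helper726

The pairs of lines of a one-contact structure (helper45's `Base1.pair`), with helper151's `PT`
(transversal exits, late cross contacts).

* `Base1.pairPT`, `pairPT0`.
-/

set_option autoImplicit false
set_option linter.unusedSectionVars false

open MeasureTheory Set Filter Topology
open scoped NNReal ENNReal
open Crest.AnalysisR.Kinetic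
open Crest.Agent.R122.Flow671 hiding rel
open Crest.Agent.R122.Loc45 Crest.Agent.R122.Ins45
open Crest.Agent.R122.VL581 Crest.Agent.R122.VL581.VSys Crest.Agent.R122.VLInst442
open Crest.Agent.R122.LNInst491 Crest.Agent.R122.LN304 Crest.Agent.R122.LNg410
open Crest.Agent.R122.Kin796 Crest.Agent.R122.Kin796.CTree Crest.Agent.R122.Tree674
open Crest.Agent.R122.PathFlow968 Crest.Agent.R122.TreeLines335 Crest.Agent.R122.EDefs602
open Crest.Agent.R122.LNTree410 Crest.Agent.R122.PWGlue491 Crest.Agent.R122.Inf879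
open Crest.Agent.R122.LNGraft410 Crest.Agent.R122.LNEv968
open Crest.Agent.R122.PWInst442 (LineIn oLab exists_bE)
open Crest.Agent.R122.StrG491 Crest.Agent.R122.StrMain307 Crest.Agent.R122.StrMot2_151
open Crest.Agent.R122.OCout796 Crest.Agent.R122.Scat818
open Crest.Agent.R122.OneC285 (cT cB cD cX oneLs exS)
open Crest.Agent.R122.VLMeas973 (vsys)
open Crest.Agent.R122.NuL735 (lnO zE oneE oneE_of_adm linesE_of_adm)
open scoped Classical

noncomputable section

namespace Crest.Agent.R122.BasePair45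

section generic

variable {J κ : Type} [Fintype J] {M : VSys J κ} {Z : J → PhasePoint}
variable {c : ℝ} {bD : J → ℝ} {ℓ ς te : ℝ} {P : CTree} {z : PhasePoint × Par P} {eP : Idx P ↪ J}
  {a : J} {l : ML}

/-- Late cross contacts after the encounter of two classes, any active label. -/
theorem crossT_join_cls {π₁ π₂ : Finset J} {y a y' : J} {s : ℝ} {cl₁ cl₂ : J → Finset J}
    {R₁ R₂ : ℝ → J → J → Prop} {E₁ E₂ : Finset J}
    (h : Meet M c Z R₁ R₂ π₁ π₂ cl₁ cl₂ bD E₁ E₂ y a s)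
    (h₁ : CrossT R₁ cl₁ bD y') (h₂ : CrossT R₂ cl₂ bD y') (hy : bD y ≤ s) (ha : bD a ≤ s) :
    CrossT (joinR R₁ R₂ y a s) (clSep cl₁ cl₂) bD y' := by
  intro r i j hR hne
  rcases hR with hR | hR | ⟨rfl, ⟨rfl, rfl⟩ | ⟨rfl, rfl⟩⟩
  · obtain ⟨hi, hj⟩ := h.s₁.supp r i j hR
    rw [h.cl₁_of hi, h.cl₁_of hj] at hne
    exact h₁ r i j hR hne
  · obtain ⟨hi, hj⟩ := h.s₂.supp r i j hR
    rw [h.cl₂_of hi, h.cl₂_of hj] at hne
    exact h₂ r i j hR hne
  · by_cases h1 : i = y'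
    · exact Or.inr ⟨fun h2 => h.ne (h1.trans h2.symm), ha⟩
    · exact Or.inl ⟨h1, hy⟩
  · by_cases h1 : i = y'
    · exact Or.inr ⟨fun h2 => h.ne (h2.trans h1.symm), hy⟩
    · exact Or.inl ⟨h1, ha⟩

namespace Base1

variable (h : Base1 M Z te P z eP a l)
variable [Nonempty κ] (hC : 1 ≤ c) (hΦ : AdmissiblePotential M.Φ) (hε : 0 < M.ε)
  (hb : BD z eP a l bD)
include h hC hΦ hε hb

/-- Separate classes, any active label. -/
theorem pt_sep (y' : J) :
    PT M Z (joinR (RC M Z {a}) (RC M Z (part eP)) a (eP (root P)) (cT M.ε z l))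
      (clSep (clOf {a}) (clOf (part eP))) bD y' := by
  have henc := h.enc hC hΦ hε hb
  have hm := henc.meet hε
  refine ⟨ExitT.join hm (ExitT.single (hb.ln.trans h.line.b.symm))
    (ExitT.tree hΦ hε h.T_pos h.tree hb.tr), ?_⟩
  exact crossT_join_cls hm (CrossT.of_cls _ _ _) (CrossT.of_cls _ _ _) henc.lty.le henc.lta.le

variable (hT : TL M c ℓ ς ({a} ∪ part eP) Z) (hℓς : 2 * ℓ ≤ ς) (hp : CDpass M.Φ (cD M.ε z l))
include hT hℓς hp

/-- Merged classes, the active label is one of the partners. -/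
theorem pt_mrg {y' : J} (hy : y' = a ∨ y' = eP (root P)) :
    PT M Z (joinR (RC M Z {a}) (RC M Z (part eP)) a (eP (root P)) (cT M.ε z l))
      (clMrg (clOf {a}) (clOf (part eP)) a (eP (root P)))
      (grafted M.Φ M.ε bD a (eP (root P)) (cT M.ε z l) (cD M.ε z l)) y' := by
  have henc := h.enc hC hΦ hε hb
  exact ⟨ExitT.graft henc hC hΦ hε hT hℓς hp (ExitT.single (hb.ln.trans h.line.b.symm))
    (ExitT.tree hΦ hε h.T_pos h.tree hb.tr),
    CrossT.graft henc hε (CrossT.of_cls _ _ _) (CrossT.of_cls _ _ _) hy⟩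

variable (hle : cT M.ε z l + outT M.Φ M.ε (cD M.ε z l) ≤ M.T)
include hle

omit hb in
/-- **The pairs of lines of a one-contact structure**, with transversal exits and late cross
contacts. -/
theorem pairPT {i : Idx P} (hi : i ≠ root P) {y : Idx P ⊕ Bool} (hy : y ≠ Sum.inl i) :
    ∃ (R : ℝ → J → J → Prop) (cl : J → Finset J) (bD : J → ℝ),
      Pair M c Z R ({a} ∪ part eP) cl bD (eP i) (oLab eP a y)
        (oneLs M.Φ M.ε P z l (Sum.inl i)).1 (oneLs M.Φ M.ε P z l y).1 ∧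
      PT M Z R cl bD (oLab eP a y) := by
  obtain ⟨bD, hb⟩ := h.exists_bd
  rw [oneLs_exit hi]
  rcases y with j | (_ | _)
  · have hij : i ≠ j := fun h' => hy (by rw [h'])
    by_cases hj : j = root P
    · subst hj
      rw [oneLs_root]
      exact ⟨_, _, _, h.pair_er hC hΦ hε hb hi hp, h.pt_sep hC hΦ hε hb _⟩
    · rw [oneLs_exit hj]
      exact ⟨_, _, _, h.pair_ee hC hΦ hε hb hij, h.pt_sep hC hΦ hε hb _⟩
  · exact ⟨_, _, _, h.pair_el hC hΦ hε hb hT hℓς hp hle hi,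
      h.pt_mrg hC hΦ hε hb hT hℓς hp (Or.inl rfl)⟩
  · exact ⟨_, _, _, h.pair_ec hC hΦ hε hb hT hℓς hp hle hi,
      h.pt_mrg hC hΦ hε hb hT hℓς hp (Or.inr rfl)⟩

end Base1

end generic

variable {Φ : Space3 → ℝ} {ε T te ℓ ς c : ℝ} {P : CTree} {q : NuL735.Th P}

/-- **The pair of the lines `x` (an exit) and `y`** of a tree-like base structure, with transversal
exits and late cross contacts. -/
theorem pairPT0 (hC : 1 ≤ c) (hΦ : AdmissiblePotential Φ) (hε : 0 < ε)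
    (hct : (q.1, (lnO q.2).1) ∈ OneC423.ctSet Φ ε te P) (hte : te < T)
    (hsep : Sep Φ ε P T q.1.1 q.1.2) (hcd : CDok (cD ε q.1 (lnO q.2)))
    (hT : TL (sys0 Φ T ε P) c ℓ ς Finset.univ (zE Φ ε q)) (hℓς : 2 * ℓ ≤ ς)
    (hlT : te + 2 * ℓ < T) {x y : Idx P ⊕ Bool} (hx : x ∈ exS P) (hy : y ≠ x) :
    ∃ (R : ℝ → Idx P ⊕ Unit → Idx P ⊕ Unit → Prop)
      (cl : Idx P ⊕ Unit → Finset (Idx P ⊕ Unit)) (bD : Idx P ⊕ Unit → ℝ),
      Pair (sys0 Φ T ε P) c (zE Φ ε q) R Finset.univ cl bD (lB P x) (lB P y)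
        (oneE Φ ε q x).1 (oneE Φ ε q y).1 ∧
      PT (sys0 Φ T ε P) (zE Φ ε q) R cl bD (lB P y) := by
  have h := base1 hct hte hsep hcd
  have hadm : Adm Φ P q.1.1.2 q.1.2 := hct.2.2.2.2.1
  obtain ⟨hp, hout⟩ := pass0 hC hΦ hε hct hte hsep hcd hT hℓς hlT
  have hle : cT ε q.1 (lnO q.2) + outT Φ ε (cD ε q.1 (lnO q.2)) ≤ T := by
    have h1 : cT ε q.1 (lnO q.2) ≤ te := hct.2.2.2.1
    linarith
  rcases x with i | b
  · have hi : i ≠ root P := mem_exS.1 hx
    obtain ⟨R, cl, bD, h1, h2⟩ := h.pairPT hC hΦ hε (ℓ := ℓ) (ς := ς)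
      (by rw [union_eB]; exact hT) hℓς hp hle hi hy
    rw [union_eB] at h1
    refine ⟨R, cl, bD, ?_, h2⟩
    rw [oneE_of_adm hadm, oneE_of_adm hadm]
    exact h1
  · exact absurd hx inr_not_mem_exS

end Crest.Agent.R122.BasePair45

end
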