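import Crest.Agent.R122.LvAll2_726
import Crest.Agent.R122.PairAlt_291
import Crest.Agent.R122.LinkEDet_726

/-!
# Levels of the continued base shapes (row 122), helper726: bindings

* `lvHyp_famB` : helper291's `LvHyp` for the base shapes; `pairAlt_real` : helper796's `PairAlt`,
  no open hypothesis.
* `linkENB_real` : the links of all levels are null events over the continued base shapes.
-/

set_option autoImplicit false
set_option linter.unusedSectionVars false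

open MeasureTheory Set Filter Topology
open scoped Classical ENNReal
open Crest.AnalysisR.Kinetic

noncomputable section

namespace Crest.Agent.R122.Lv726

open Crest.Agent.R122.GC311 Crest.Agent.R122.EDefs602
open Crest.Agent.R122.Kin796 Crest.Agent.R122.Kin796.CTree Crest.Agent.R122.Tree674
open Crest.Agent.R122.LN2 Crest.Agent.R122.Gate424 Crest.Agent.R122.Gate973
open Crest.Agent.R122.PairD292 Crest.Agent.R122.PairRep581
open Crest.Agent.R122.NuHit969 (HitS bas)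
open Crest.Agent.R122.StrN998 (Th Ka itS)
open Crest.Agent.R122.NuL735 (NPar Ix famB)
open Crest.Agent.R122.BasePair45 (Good0)
open Crest.Agent.R122.Link6796 Crest.Agent.R122.PairAlt291

variable {Φ : Space3 → ℝ} {f₀ : PhasePoint → ℝ} {γ β β' b₀ te T T' c : ℝ}
  {ρ : Space3 → ℝ≥0∞} {K : ℕ} {P : CTree} {q : ℕ → ℝ≥0∞} {C₀ : ℝ≥0∞}

/-- **The facts of all levels of the real base shapes.** -/
theorem lvHyp_famB (N : NPar) (K₁ : ℕ) (s : Ix N.m₀) (hΦ : AdmissiblePotential Φ) (hc : 1 ≤ c)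
    (hN : N.te ≤ te) (hT : T' ≤ N.T') (j M : ℕ) :
    LvHyp (famB Φ K₁ N s) Φ b₀ te q T' c M j fun ε x => Good0 Φ ε N.te N.T' s.1.1 x := by
  intro R ς ε hR hς hε hlT h2 n w x h0 hh hB
  have h := lv_all (K := K₁) (N := N) (s := s) hc hΦ hε h2 (by positivity) (T := T')
    (by linarith) hlT hT le_rfl j h0 hh hB
  exact ⟨h.conn, h.tl, h.pairD⟩

/-- **`PairAlt` for the continued base shapes.** -/
theorem pairAlt_real (N : NPar) {K₁ : ℕ} (s : Ix N.m₀) (hΦ : AdmissiblePotential Φ)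
    (hγb : γ ≤ N.b) (hγe : γ ≤ N.γe) (hβ0 : β < N.b) (hβγ : β < N.γe) (hN : N.ρ ≠ ∞)
    (hρ : Measurable ρ) (hf : Measurable f₀) (h1 : ∫⁻ z, ENNReal.ofReal (f₀ z) ≤ 1)
    (he : Env f₀ γ ρ C₀) (hγ : 0 < γ) (hb : γ ≤ b₀) (hβ : β' < β) (hβb : β ≤ b₀)
    (hq : ∑' m, q m ≠ ∞) {Q : EPar} (hT' : 0 < T') (hte : Q.te < T') (hc : 1 ≤ c)
    (hNte : N.te ≤ Q.te) (hNT : T' ≤ N.T') (j : ℕ) :
    PairAlt Φ f₀ Q T' K P (itS (famB Φ K₁ N s) Φ b₀ Q.te q j) c :=
  pairAlt_famB N s hΦ hγb hγe hβ0 hβγ hN hρ hf h1 he hγ hb hβ hβb hq hT' hte j 0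
    (lvHyp_famB N K₁ s hΦ hc hNte hNT j 0)

/-- **The links of all levels are null events** over the continued base shapes. -/
theorem linkENB_real (N : NPar) {K₁ : ℕ} (s : Ix N.m₀) (H : ItCtx Φ f₀ γ β β' b₀ T ρ q)
    (h : ShpOk γ β ρ (famB Φ K₁ N s)) {Q : EPar} (hte0 : 0 ≤ Q.te) (hte : Q.te < T)
    (hNte : N.te ≤ Q.te) (hNT : T ≤ N.T') (j : ℕ) :
    GNull f₀ (itS (famB Φ K₁ N s) Φ b₀ Q.te q j).mI (fun ε _ _ x w =>
      LinkENB Φ ε K Q w ((itS (famB Φ K₁ N s) Φ b₀ Q.te q j).th ε x)) := by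
  refine LNSE726.linkENB_gNull_of_lv (c := 1) H h le_rfl hte0 hte.le j
    (Gd := fun ε x => Good0 Φ ε N.te N.T' s.1.1 (bas (famB Φ K₁ N s).Θ j x) ∧
      HitS (famB Φ K₁ N s) Φ b₀ Q.te q ε j x) (fun ε hε => ?_) fun M R hR ς hς => ?_
  · exact NuHit969.ae_itS (te := Q.te) (q := q) (b₀ := b₀) h H.adm hε
      (BasePair45.ae_good0 H.adm hε N s.2.1.1 s.2.1.2) j
  · refine ⟨min (ς / (2 * R)) ((T - Q.te) / (2 * R)), lt_min (by positivity)
      (div_pos (by linarith) (by positivity)), fun ε hε hlt n w x hg _ hB => ?_⟩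
    have e1 : 2 * (R * ε) < ς := by
      have := (lt_div_iff₀ (by positivity : (0 : ℝ) < 2 * R)).1 (hlt.trans_le (min_le_left _ _))
      linarith
    have e2 : Q.te + 2 * (R * ε) < T := by
      have := (lt_div_iff₀ (by positivity : (0 : ℝ) < 2 * R)).1 (hlt.trans_le (min_le_right _ _))
      linarith
    exact (lv_all (K := K₁) (N := N) (s := s) le_rfl H.adm hε e1.le (by positivity) (T := T)
      (by linarith) e2 hNT le_rfl j hg.1 hg.2 hB).pairLv

end Crest.Agent.R122.Lv726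

end
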