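import Crest.Agent.R122.LvAll_317
import Crest.Agent.R122.LvBase_726
import Crest.Agent.R122.BaseAe_45
import Crest.Agent.R122.NuR_735
import Crest.Agent.R122.LinkEDet_726

/-!
# Row 122, levels of the structures (helper317): the real base

* `baseL_shpB` : the structures of the base law (helper735, helper45).
* `lvOut_famB` : **all levels over the base law**.
* `pairLv_all` : the eventual form (helper726's `PairLv`).
-/

set_option autoImplicit false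
set_option linter.unusedSectionVars false

open MeasureTheory Set Filter Topology
open scoped NNReal ENNReal
open Crest.AnalysisR.Kinetic
open Crest.Agent.R122.Kin796 Crest.Agent.R122.Kin796.CTree Crest.Agent.R122.Tree674
open Crest.Agent.R122.VL581 Crest.Agent.R122.VL581.VSys Crest.Agent.R122.VLInst442
open Crest.Agent.R122.LN304 Crest.Agent.R122.StrG491
open Crest.Agent.R122.PairD292 (dL eL)
open Crest.Agent.R122.StrN998 (SD Th Ka Fr itS ofShp)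
open Crest.Agent.R122.PairRep581 (Shp BadK BadLv ShpOk)
open Crest.Agent.R122.NuHit969 (HitD HitS bas)
open Crest.Agent.R122.VLMeas973 (vsys)
open Crest.Agent.R122.OneC285 (exS)
open Crest.Agent.R122.NuL735 Crest.Agent.R122.BasePair45
open scoped Classical

noncomputable section

namespace Crest.Agent.R122.Lv317

variable {Φ : Space3 → ℝ} {T T' ε c ρ ς ℓ b₀ : ℝ} {q : ℕ → ℝ≥0∞} {K : ℕ} {Np : NPar}

/-- **The structures of the base law.** -/
theorem baseL_shpB {P : CTree} {x y : Idx P ⊕ Bool} (hC : 1 ≤ c) (hΦ : AdmissiblePotential Φ)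
    (hε : 0 < ε) (hT : T ≤ Np.T') (hℓς : 2 * ℓ ≤ ς) (hℓ : 0 ≤ ℓ) (hlT : Np.te + 2 * ℓ < T)
    (hx : x ∈ exS P) (hy : y ≠ x) {θ : NuL735.Th P} (h : Good0 Φ ε Np.te Np.T' P θ) :
    BaseL (ofShp (shpB Φ K Np P x y) ε) Φ T ε c ℓ ς θ where
  conn := h.conn hC hΦ hε (by linarith) hT
  pair htl := by
    obtain ⟨R, cl, bD, h1, h2⟩ := pairPT0 hC hΦ hε h.ct (by linarith)
      (LNTree410.sep_anti hT h.sep) (PN564.cdok_cD hε h.proper) htl hℓς hlT hx hy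
    exact ⟨R, cl, bD, _, _, h1, h2⟩

/-- **All levels over the base law.** -/
theorem lvOut_famB (hC : 1 ≤ c) (hΦ : AdmissiblePotential Φ) (hε : 0 < ε)
    (hρ : 0 ≤ ρ) (hρς : 2 * (ρ * ε) ≤ ς) (hte : Np.te + 2 * (ρ * ε) < T) (hT : T ≤ Np.T')
    (hT' : T ≤ T') (s : Ix Np.m₀) {N n : ℕ} {w : Config n} (j : ℕ)
    (x : Th (famB Φ K Np s).Θ j) (hb : Good0 Φ ε Np.te Np.T' s.1.1 (bas (famB Φ K Np s).Θ j x))
    (hh : HitS (famB Φ K Np s) Φ b₀ Np.te q ε j x)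
    (hB : ¬ BadLv (famB Φ K Np s) Φ b₀ Np.te q T' c ρ ς ε N w j x) :
    LvOut ((ofShp (famB Φ K Np s) ε).iter Φ ε b₀ Np.te q j) Φ T ε c (ρ * ε) ς x :=
  lvOut hC hΦ hε hρ hρς hte hT' j x
    (baseL_shpB hC hΦ hε hT hρς (mul_nonneg hρ hε.le) hte s.2.2.1 s.2.2.2 hb) hh hB

/-- **All levels over the base law**, for small `ε`. -/
theorem lv_eventually (hC : 1 ≤ c) (hΦ : AdmissiblePotential Φ) (hte : Np.te < T)
    (hT : T ≤ Np.T') (hT' : T ≤ T') (s : Ix Np.m₀) (j N : ℕ) :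
    ∀ ρ : ℝ, 0 < ρ → ∀ ς : ℝ, 0 < ς → ∃ ε₁ : ℝ, 0 < ε₁ ∧ ∀ ε : ℝ, 0 < ε → ε < ε₁ →
      ∀ (n : ℕ) (w : Config n) (x : Th (famB Φ K Np s).Θ j),
        Good0 Φ ε Np.te Np.T' s.1.1 (bas (famB Φ K Np s).Θ j x) →
        HitS (famB Φ K Np s) Φ b₀ Np.te q ε j x →
        ¬ BadLv (famB Φ K Np s) Φ b₀ Np.te q T' c ρ ς ε N w j x →
        LvOut ((ofShp (famB Φ K Np s) ε).iter Φ ε b₀ Np.te q j) Φ T ε c (ρ * ε) ς x := by
  intro ρ hρ ς hς
  refine ⟨min (ς / (2 * ρ)) ((T - Np.te) / (2 * ρ)), lt_min (by positivity)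
    (div_pos (by linarith) (by positivity)), fun ε hε hlt n w x hb hh hB => ?_⟩
  have h1 : ε < ς / (2 * ρ) := hlt.trans_le (min_le_left _ _)
  have h2 : ε < (T - Np.te) / (2 * ρ) := hlt.trans_le (min_le_right _ _)
  rw [lt_div_iff₀ (by positivity)] at h1 h2
  exact lvOut_famB hC hΦ hε hρ.le (by nlinarith) (by nlinarith) hT hT' s j x hb hh hB

/-- **The pair structures of all levels** (helper726's form). -/
theorem pairLv_all (hC : 1 ≤ c) (hΦ : AdmissiblePotential Φ) (hte : Np.te < T)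
    (hT : T ≤ Np.T') (s : Ix Np.m₀) (j N : ℕ) :
    ∀ ρ : ℝ, 0 < ρ → ∀ ς : ℝ, 0 < ς → ∃ ε₁ : ℝ, 0 < ε₁ ∧ ∀ ε : ℝ, 0 < ε → ε < ε₁ →
      ∀ (n : ℕ) (w : Config n) (x : (itS (famB Φ K Np s) Φ b₀ Np.te q j).Θ),
        Good0 Φ ε Np.te Np.T' s.1.1 (bas (famB Φ K Np s).Θ j x) →
        HitS (famB Φ K Np s) Φ b₀ Np.te q ε j x →
        ¬ BadLv (famB Φ K Np s) Φ b₀ Np.te q T c ρ ς ε N w j x →
        LNSE726.PairLv T c (famB Φ K Np s) Φ b₀ Np.te q ε j x := by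
  intro ρ hρ ς hς
  obtain ⟨ε₁, h1, h2⟩ := lv_eventually (K := K) (b₀ := b₀) (q := q) hC hΦ hte hT le_rfl s j N
    ρ hρ ς hς
  refine ⟨ε₁, h1, fun ε hε hlt n w x hb hh hB => ?_⟩
  obtain ⟨R, cl, bD, a, b, h3⟩ := (h2 ε hε hlt n w x hb hh hB).pair
  exact ⟨R, cl, bD, a, b, h3.pr⟩

end Crest.Agent.R122.Lv317

end
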