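import Crest.Agent.R122.StrMap_491
import Crest.Agent.R122.PWInst4_442
import Crest.Agent.R122.StrN_998

/-!
# One step of the continued pair structures (row 122, S^(j)), helper491

The isolated system of the structure after a step of helper998's `SD.step`: labels `κ ⊕ Unit`, births
`Sum.elim b 0`, time-`0` states `Sum.elim z v` (`v` the fresh particle).

* `sysK` : the isolated system; `inE` : the old labels; `pull_step`.
* `yK` : the label of the new second line.
* `Pair.hitU` : the data of the encounter of the second line with the fresh particle (`hitS`).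
* `conn_step` : the new structure is connected (no tree-like hypothesis).
* `pass_step` : in a tree-like structure the encounter ends.
* `Pair.step` : the pair structure after the step, for the three outputs.
-/

set_option autoImplicit false
set_option linter.unusedSectionVars false

open MeasureTheory Set Filter Topology
open scoped NNReal ENNReal
open Crest.AnalysisR.Kinetic
open Crest.Agent.R122.VL581 Crest.Agent.R122.VL581.VSys Crest.Agent.R122.VLInst442
open Crest.Agent.R122.LN304 Crest.Agent.R122.LNg410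
open Crest.Agent.R122.Kin796 Crest.Agent.R122.Kin796.CTree
open Crest.Agent.R122.TreeLines335 Crest.Agent.R122.EDefs602
open Crest.Agent.R122.Boost969 (LSt)
open Crest.Agent.R122.LNGraft410 Crest.Agent.R122.LNEv968 Crest.Agent.R122.PWInst442
open Crest.Agent.R122.LNBridge968 Crest.Agent.R122.LNEmb410
open Crest.Agent.R122.OCout796 Crest.Agent.R122.Scat818
open Crest.Agent.R122.Loc45 Crest.Agent.R122.Ins45
open Crest.Agent.R122.OneC285 (cT cB cD cX)
open Crest.Agent.R122.PairReal998 (hitS hitO outK)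
open Crest.Agent.R122.VLMeas973 (vsys)
open scoped Classical

noncomputable section

namespace Crest.Agent.R122.StrG491

variable {κ : Type} [Fintype κ] {Φ : Space3 → ℝ} {T ε te c ℓ ς : ℝ} {b : κ → ℝ}
  {z : κ → PhasePoint} {v : PhasePoint}

/-- The old labels. -/
def inE (κ : Type) : κ ↪ κ ⊕ Unit := ⟨Sum.inl, Sum.inl_injective⟩

@[simp] theorem inE_apply (x : κ) : inE κ x = Sum.inl x := rfl

/-- Births after the step. -/
abbrev bU (b : κ → ℝ) : κ ⊕ Unit → ℝ := Sum.elim b fun _ => 0

/-- States after the step. -/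
abbrev zU (z : κ → PhasePoint) (v : PhasePoint) : κ ⊕ Unit → PhasePoint := Sum.elim z fun _ => v

/-- The isolated system of the structure after the step. -/
abbrev sysU (Φ : Space3 → ℝ) (T ε : ℝ) (b : κ → ℝ) : VSys (κ ⊕ Unit) Unit := vsys Φ T ε (bU b)

/-- The old system seen in the new one. -/
theorem pull_step (b : κ → ℝ) : Pull (vsys Φ T ε b) (sysU Φ T ε b) (inE κ) where
  Φ := rfl
  T := rfl
  ε := rfl
  b _ := rfl
  o i := by
    show (none : Option _) = _ ↔ (none : Option _) = _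
    simp
  S := rfl

theorem union_inE (inst : DecidableEq (κ ⊕ Unit)) :
    ((Finset.univ : Finset κ).map (inE κ) ∪ {Sum.inr ()} : Finset (κ ⊕ Unit)) = Finset.univ := by
  ext j
  rw [Finset.mem_union, Finset.mem_singleton, Finset.mem_map]
  refine iff_of_true ?_ (Finset.mem_univ j)
  rcases j with j | j
  · exact Or.inl ⟨j, Finset.mem_univ j, rfl⟩
  · exact Or.inr rfl

/-- The label of the second line after the step. -/
def yK (y : κ) : Option Bool → κ ⊕ Unit
  | none => Sum.inr ()
  | some false => Sum.inl y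
  | some true => Sum.inr ()

/-- Contact time of the line `e` and the fresh particle `v`. -/
abbrev hT0 (ε : ℝ) (v : PhasePoint) (e : LSt) : ℝ := cT (P := leaf) ε (v, ()) (e, 0)

/-- Place of the fresh particle at the contact. -/
abbrev hX0 (ε : ℝ) (v : PhasePoint) (e : LSt) : Space3 := cX (P := leaf) ε (v, ()) (e, 0)

/-- Contact data. -/
abbrev hD0 (ε : ℝ) (v : PhasePoint) (e : LSt) : CD := cD (P := leaf) ε (v, ()) (e, 0)

theorem hitO_eq (out : ℝ → Space3 → CD → LSt) (ε : ℝ) (v : PhasePoint) (e : LSt) :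
    hitO out ε v e = out (hT0 ε v e) (hX0 ε v e) (hD0 ε v e) := rfl

variable {R : ℝ → κ → κ → Prop} {π : Finset κ} {cl : κ → Finset κ} {bD : κ → ℝ} {x y : κ}
  {d e : LSt}

theorem hit_lt (hv : (v, e) ∈ hitS ε te) : e.1 < hT0 ε v e := hv.2.2.1

theorem hit_le (hv : (v, e) ∈ hitS ε te) : hT0 ε v e ≤ te := hv.2.2.2.1

theorem hit_pos (hv : (v, e) ∈ hitS ε te) : 0 < hT0 ε v e := hv.2.2.2.2

/-- The data of the encounter. -/
abbrev HitU (Φ : Space3 → ℝ) (T ε c : ℝ) (b : κ → ℝ) (z : κ → PhasePoint) (v : PhasePoint)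
    (R : ℝ → κ → κ → Prop) (cl : κ → Finset κ) (bD : κ → ℝ) (x y : κ) (d e : LSt) : Prop :=
  Pair.Hit (sysU Φ T ε b) c (zU z v) (mapR (inE κ) R) (RC (sysU Φ T ε b) (zU z v) {Sum.inr ()})
    (Finset.univ.map (inE κ)) {Sum.inr ()} (mapCl (inE κ) cl) (clOf {Sum.inr ()})
    (Sum.elim bD fun _ => 0) {Sum.inr ()} (Sum.inl x) (Sum.inl y) (Sum.inr ()) d e (hT0 ε v e)
    (hX0 ε v e) (hD0 ε v e)

/-- The fresh particle. -/
theorem lineIn_fresh (b : κ → ℝ) (z : κ → PhasePoint) (v : PhasePoint) :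
    LineIn (sysU Φ T ε b) (zU z v) (Sum.inr ()) (0, v) where
  o h := by cases h
  b := max_self (0 : ℝ)
  Z := by
    refine Prod.ext ?_ rfl
    change v.1 = v.1 - (0 : ℝ) • v.2
    rw [zero_smul, sub_zero]

variable (hC : 1 ≤ c) (hΦ : AdmissiblePotential Φ) (hε : 0 < ε)
include hC hΦ hε

/-- **The encounter of the second line with the fresh particle.** -/
theorem Pair.hitU (h : Pair (vsys Φ T ε b) c z R Finset.univ cl bD x y d e)
    (hv : (v, e) ∈ hitS ε te) (hte : te < T) (hcd : CDok (hD0 ε v e)) :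
    HitU Φ T ε c b z v R cl bD x y d e where
  pr := Pair.map (M := sysU Φ T ε b) (M' := vsys Φ T ε b) (e := inE κ) (Z := zU z v)
    (pull_step b) hΦ hε (fun _ _ => rfl) h
  s₂ := Str.single (M := sysU Φ T ε b) hC hε (lineIn_fresh b z v).o (lineIn_fresh b z v).b.symm
  dj := by
    rw [Finset.disjoint_singleton_right, Finset.mem_map]
    rintro ⟨i, _, hi⟩
    cases hi
  ha := Finset.mem_singleton_self _
  lte := hit_lt hv
  lta := hit_pos hv
  cd := hcd
  se := One796.state_l hε (P := leaf) (v, ()) (e, 0)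
  sa := by
    rw [clOf_mem (Finset.mem_singleton_self (Sum.inr ())),
      (lineIn_fresh (Φ := Φ) (T := T) (ε := ε) b z v).st hΦ hε (hit_pos hv).le
        ((hit_le hv).trans hte.le)]
    change lineAt 0 v (hT0 ε v e) = (v.1 + hT0 ε v e • v.2, v.2)
    unfold lineAt
    rw [sub_zero]
  lt_T := (hit_le hv).trans_lt hte

/-- **The structure after the step is connected.** -/
theorem conn_step (h : Pair (vsys Φ T ε b) c z R Finset.univ cl bD x y d e)
    (hv : (v, e) ∈ hitS ε te) (hte : te < T) (hcd : CDok (hD0 ε v e)) :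
    (sysU Φ T ε b).Conn c Finset.univ (zU z v) := by
  have h1 := ((h.hitU hC hΦ hε hv hte hcd).enc hΦ hε).conn hC hε
  rwa [union_inE] at h1

variable (hℓς : 2 * ℓ ≤ ς) (hlT : te + 2 * ℓ < T)
include hℓς hlT

/-- **In a tree-like structure the encounter ends.** -/
theorem pass_step (h : Pair (vsys Φ T ε b) c z R Finset.univ cl bD x y d e)
    (hv : (v, e) ∈ hitS ε te) (hte : te < T) (hcd : CDok (hD0 ε v e))
    (hT : TL (sysU Φ T ε b) c ℓ ς Finset.univ (zU z v)) :
    CDpass Φ (hD0 ε v e) ∧ outT Φ ε (hD0 ε v e) ≤ 2 * ℓ := by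
  have hh := (h.hitU hC hΦ hε hv hte hcd).enc hΦ hε
  have hlt : hT0 ε v e + 2 * ℓ < (sysU Φ T ε b).T := by
    have := hit_le hv
    change hT0 ε v e + 2 * ℓ < T
    linarith
  have hT' : ∀ S : Finset (κ ⊕ Unit), S = Finset.univ → TL (sysU Φ T ε b) c ℓ ς S (zU z v) :=
    fun S hS => hS ▸ hT
  have h1 : CDpass (sysU Φ T ε b).Φ (hD0 ε v e) ∧
      outT (sysU Φ T ε b).Φ (sysU Φ T ε b).ε (hD0 ε v e) ≤ 2 * ℓ :=
    hh.pass_of (ℓ := ℓ) (ς := ς) hC hΦ hε (hT' _ (union_inE _)) hℓς hlt
  exact h1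

/-- **The pair structure after the step**: all three outputs. -/
theorem Pair.step (h : Pair (vsys Φ T ε b) c z R Finset.univ cl bD x y d e)
    (hv : (v, e) ∈ hitS ε te) (hte : te < T) (hcd : CDok (hD0 ε v e))
    (hT : TL (sysU Φ T ε b) c ℓ ς Finset.univ (zU z v)) (k : Option Bool) :
    ∃ (R' : ℝ → κ ⊕ Unit → κ ⊕ Unit → Prop) (cl' : κ ⊕ Unit → Finset (κ ⊕ Unit))
      (bD' : κ ⊕ Unit → ℝ), Pair (sysU Φ T ε b) c (zU z v) R' Finset.univ cl' bD' (Sum.inl x)
        (yK y k) d (hitO (outK Φ ε k) ε v e) := by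
  have hh := h.hitU hC hΦ hε hv hte hcd
  obtain ⟨hp, hout⟩ := pass_step hC hΦ hε hℓς hlT h hv hte hcd hT
  have hle : hT0 ε v e + outT Φ ε (hD0 ε v e) ≤ T := by
    have := hit_le hv
    linarith
  have hT' : ∀ S : Finset (κ ⊕ Unit), S = Finset.univ → TL (sysU Φ T ε b) c ℓ ς S (zU z v) :=
    fun S hS => hS ▸ hT
  rcases k with _ | (_ | _)
  · have h1 := hh.outC hC hΦ hε hp
    rw [union_inE] at h1
    exact ⟨_, _, _, h1⟩
  · have h1 := hh.outL hC hΦ hε (hT' _ (union_inE _)) hℓς hp hle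
    rw [union_inE] at h1
    exact ⟨_, _, _, h1⟩
  · have h1 := hh.outC' hC hΦ hε (hT' _ (union_inE _)) hℓς hp hle
    rw [union_inE] at h1
    exact ⟨_, _, _, h1⟩

end Crest.Agent.R122.StrG491

end
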