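import Crest.Agent.R122.LvTL_317
import Crest.Agent.R122.NuStep_491
import Crest.Agent.R122.StrMot2_151
import Crest.Agent.R122.NuHitS_969

/-!
# Row 122, levels of the structures (helper317): one step

* `PairM` : a pair structure (helper491) with the motion data `PT` (helpers 151, 307), active label =
  second line; `PairM.map`.
* `PairL Φ T ε c b z d e` : the structure `(b, z)` (all labels, isolated) is a `PairM` with the lines
  `d`, `e`.
* `pairL_succ` : **the step** (tree-likeness of the new structure; every outcome).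
-/

set_option autoImplicit false
set_option linter.unusedSectionVars false

open MeasureTheory Set Filter Topology
open scoped NNReal ENNReal
open Crest.AnalysisR.Kinetic
open Crest.Agent.R122.VL581 Crest.Agent.R122.VL581.VSys Crest.Agent.R122.VLInst442
open Crest.Agent.R122.LN304 Crest.Agent.R122.LNg410
open Crest.Agent.R122.Kin796 Crest.Agent.R122.Kin796.CTree
open Crest.Agent.R122.TreeLines335 Crest.Agent.R122.EDefs602
open Crest.Agent.R122.Boost969 (LSt)
open Crest.Agent.R122.LNGraft410 Crest.Agent.R122.LNEv968 Crest.Agent.R122.PWInst442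
open Crest.Agent.R122.LNBridge968 Crest.Agent.R122.LNEmb410
open Crest.Agent.R122.OCout796 Crest.Agent.R122.Scat818
open Crest.Agent.R122.StrG491 Crest.Agent.R122.StrMain307 Crest.Agent.R122.StrMot2_151
open Crest.Agent.R122.PairReal998 (hitS hitO outK)
open Crest.Agent.R122.NuHit969 (hT hX hD HitD)
open Crest.Agent.R122.VLMeas973 (vsys)
open scoped Classical

noncomputable section

namespace Crest.Agent.R122.Lv317

/-! ### Pair structures with motion data -/

section pairM

variable {J κ : Type} [Fintype J] {M : VSys J κ} {Z : J → PhasePoint}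

/-- **A pair structure with motion data.** -/
structure PairM (M : VSys J κ) (c : ℝ) (Z : J → PhasePoint) (R : ℝ → J → J → Prop) (π : Finset J)
    (cl : J → Finset J) (bD : J → ℝ) (x y : J) (d e : ℝ × PhasePoint) : Prop where
  pr : Pair M c Z R π cl bD x y d e
  pt : PT M Z R cl bD y

/-- **Pair structures in a bigger system of labels.** -/
theorem PairM.map {J' : Type} [Fintype J'] {M' : VSys J' κ} {e : J' ↪ J} (hp : Pull M' M e)
    (hΦ : AdmissiblePotential M.Φ) (hε : 0 < M.ε)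
    {c : ℝ} {R : ℝ → J' → J' → Prop} {π : Finset J'} {cl : J' → Finset J'}
    {bD' : J' → ℝ} {bD : J → ℝ} (hb : ∀ i ∈ π, bD (e i) = bD' i) {x y : J'}
    {d f : ℝ × PhasePoint} (h : PairM M' c (fun k => Z (e k)) R π cl bD' x y d f) :
    PairM M c Z (mapR e R) (π.map e) (mapCl e cl) bD (e x) (e y) d f where
  pr := Pair.map hp hΦ hε hb h.pr
  pt := PT.map hp hΦ hε h.pr.str hb h.pt

end pairM

variable {κ : Type} [Fintype κ] {Φ : Space3 → ℝ} {T ε te c ℓ ς : ℝ} {b : κ → ℝ}
  {z : κ → PhasePoint} {d e : LSt} {v : PhasePoint}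

/-- **A pair structure on all labels.** -/
def PairL (Φ : Space3 → ℝ) (T ε c : ℝ) (b : κ → ℝ) (z : κ → PhasePoint) (d e : ℝ × PhasePoint) :
    Prop :=
  ∃ (R : ℝ → κ → κ → Prop) (cl : κ → Finset κ) (bD : κ → ℝ) (x y : κ),
    PairM (vsys Φ T ε b) c z R Finset.univ cl bD x y d e

section step

variable {R : ℝ → κ → κ → Prop} {cl : κ → Finset κ} {bD : κ → ℝ} {x y : κ}

/-- **The encounter with the fresh particle.** -/
theorem hitL (hC : 1 ≤ c) (hΦ : AdmissiblePotential Φ) (hε : 0 < ε) (hte : te < T)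
    (h : Pair (vsys Φ T ε b) c z R Finset.univ cl bD x y d e) (hh : HitD Φ ε te v e) :
    HitU Φ T ε c b z v R cl bD x y d e where
  pr := Pair.map (M := sysU Φ T ε b) (M' := vsys Φ T ε b) (e := inE κ) (Z := zU z v)
    (pull_step b) hΦ hε (fun _ _ => rfl) h
  s₂ := Str.single (M := sysU Φ T ε b) hC hε (lineIn_fresh b z v).o (lineIn_fresh b z v).b.symm
  dj := by
    rw [Finset.disjoint_singleton_right, Finset.mem_map]
    rintro ⟨i, _, hi⟩
    cases hi
  ha := Finset.mem_singleton_self _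
  lte := hh.lt
  lta := hh.pos
  cd := hh.cd
  se := hh.se
  sa := by
    have h0 : 0 ≤ hT0 ε v e := hh.pos.le
    have h1 : hT0 ε v e ≤ T := hh.le.trans hte.le
    rw [clOf_mem (Finset.mem_singleton_self (Sum.inr ())),
      (lineIn_fresh (Φ := Φ) (T := T) (ε := ε) b z v).st hΦ hε h0 h1]
    change Ins45.lineAt 0 v (hT0 ε v e) = (v.1 + hT0 ε v e • v.2, v.2)
    unfold Ins45.lineAt
    rw [sub_zero]
  lt_T := hh.le.trans_lt hte

/-- The motion data of the old structure and of the fresh particle. -/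
theorem ptL (hΦ : AdmissiblePotential Φ) (hε : 0 < ε)
    (h : PairM (vsys Φ T ε b) c z R Finset.univ cl bD x y d e) :
    PT (sysU Φ T ε b) (zU z v) (mapR (inE κ) R) (mapCl (inE κ) cl) (Sum.elim bD fun _ => 0)
      (Sum.inl y) :=
  PT.map (M := sysU Φ T ε b) (M' := vsys Φ T ε b) (e := inE κ) (Z := zU z v)
    (pull_step b) hΦ hε h.pr.str (fun _ _ => rfl) h.pt

end step

/-- **The structure with the fresh particle is connected.** -/
theorem connL_succ (hC : 1 ≤ c) (hΦ : AdmissiblePotential Φ) (hε : 0 < ε) (hte : te < T)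
    (h : PairL Φ T ε c b z d e) (hh : HitD Φ ε te v e) :
    (sysU Φ T ε b).Conn c Finset.univ (zU z v) := by
  obtain ⟨R, cl, bD, x, y, h⟩ := h
  have h1 := ((hitL hC hΦ hε hte h.pr hh).enc hΦ hε).conn hC hε
  rwa [union_inE] at h1

/-- **One step.** -/
theorem pairL_succ (hC : 1 ≤ c) (hΦ : AdmissiblePotential Φ) (hε : 0 < ε) (hte : te + 2 * ℓ < T)
    (hℓ : 0 ≤ ℓ) (hℓς : 2 * ℓ ≤ ς) (h : PairL Φ T ε c b z d e) (hh : HitD Φ ε te v e)
    (htl : TL (sysU Φ T ε b) c ℓ ς Finset.univ (zU z v)) (k : Option Bool) :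
    PairL Φ T ε c (bU b) (zU z v) d (hitO (outK Φ ε k) ε v e) := by
  have hteT : te < T := by linarith
  obtain ⟨R, cl, bD, x, y, h⟩ := h
  have hh' := hitL hC hΦ hε hteT h.pr hh
  have hpt : PT (sysU Φ T ε b) (zU z v) (mapR (inE κ) R) (mapCl (inE κ) cl)
    (Sum.elim bD fun _ => 0) (Sum.inl y) := ptL hΦ hε h
  have hpa : PT (sysU Φ T ε b) (zU z v) (RC (sysU Φ T ε b) (zU z v) {Sum.inr ()})
      (clOf {Sum.inr ()}) (Sum.elim bD fun _ => 0) (Sum.inr ()) :=
    PT.single (lineIn_fresh (Φ := Φ) (T := T) (ε := ε) b z v).b.symm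
  have hT' : ∀ S : Finset (κ ⊕ Unit), S = Finset.univ → TL (sysU Φ T ε b) c ℓ ς S (zU z v) :=
    fun S hS => hS ▸ htl
  have hs : hT0 ε v e ≤ te := hh.le
  obtain ⟨hp, ho⟩ := (hh'.enc hΦ hε).pass_of (ℓ := ℓ) (ς := ς) hC hΦ hε (hT' _ (union_inE _)) hℓς
    (show hT0 ε v e + 2 * ℓ < T by linarith)
  have hle : hT0 ε v e + outT Φ ε (hD0 ε v e) ≤ T := by
    have ho' : outT Φ ε (hD0 ε v e) ≤ 2 * ℓ := ho
    linarith
  rcases k with _ | (_ | _)
  · have h1 := hh'.outC hC hΦ hε hp
    rw [union_inE] at h1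
    exact ⟨_, _, _, _, _, h1, PT.outC hh' hΦ hε hpt hpa⟩
  · have h1 := hh'.outL hC hΦ hε (hT' _ (union_inE _)) hℓς hp hle
    rw [union_inE] at h1
    exact ⟨_, _, _, _, _, h1,
      PT.graft hh' hΦ hε hC (hT' _ (union_inE _)) hℓς hp hpt hpa (Or.inl rfl)⟩
  · have h1 := hh'.outC' hC hΦ hε (hT' _ (union_inE _)) hℓς hp hle
    rw [union_inE] at h1
    exact ⟨_, _, _, _, _, h1,
      PT.graft hh' hΦ hε hC (hT' _ (union_inE _)) hℓς hp hpt hpa (Or.inr rfl)⟩

end Crest.Agent.R122.Lv317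

end
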