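import Crest.Agent.R122.StrN2_998
import Crest.Agent.R122.Marg_494
import Crest.Agent.R122.PartsCt_564
import Crest.Agent.R122.HitPair_45

/-!
# Row 122, S^(j) (helper969): the contact data of a continuation step

* `hT`, `hX`, `hD` : time, place, data of the contact of the line `e` with the fresh particle `c`.
* `HitD Φ ε te c e` : the facts of the contact in the form of the encounters of helper491.
* `hitO_outK` : the output of a step.
* `ae_pass_root`, `ae_pass_hit` : the contact is a passage, almost surely.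
* `ae_hitD_step`, `HitAll`, `ae_hitAll` : the facts at all levels of `S^(j)`.
-/

set_option autoImplicit false
set_option linter.unusedSectionVars false

open MeasureTheory ProbabilityTheory Set Filter Topology
open scoped ENNReal
open Crest.AnalysisR.Kinetic
open Crest.Agent.R122.VL581 Crest.Agent.R122.VL581.VSys Crest.Agent.R122.VLInst442
open Crest.Agent.R122.LNg410 Crest.Agent.R122.LN304 Crest.Agent.R122.Ins45
open Crest.Agent.R122.Kin796 Crest.Agent.R122.Kin796.CTree Crest.Agent.R122.Tree674
open Crest.Agent.R122.Disc416 Crest.Agent.R122.Flux663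
open Crest.Agent.R122.LNTree410 Crest.Agent.R122.TreeLines335
open Crest.Agent.R122.OCout796 Crest.Agent.R122.Scat818 Crest.Agent.R122.EDefs602
open Crest.Agent.R122.OneC285 (cT cB cD cX)
open Crest.Agent.R122.Boost969 (LSt)
open Crest.Agent.R122.Kin416 (gau measurable_gau)
open Crest.Agent.R122.Pair292 (Lab)
open Crest.Agent.R122.PairReal998 Crest.Agent.R122.StrN998
open scoped Classical

noncomputable section

namespace Crest.Agent.R122.NuHit969

variable {Φ : Space3 → ℝ} {ε te b₀ : ℝ} {q : ℕ → ℝ≥0∞}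

/-! ### Contact data -/

/-- Time of the contact of the line `e` with the fresh particle `c` (time-`0` data). -/
def hT (ε : ℝ) (c : PhasePoint) (e : LSt) : ℝ := cT (P := leaf) ε (c, ()) (e, 0)

/-- Place of the fresh particle at the contact. -/
def hX (ε : ℝ) (c : PhasePoint) (e : LSt) : Space3 := cX (P := leaf) ε (c, ()) (e, 0)

/-- Contact data. -/
def hD (ε : ℝ) (c : PhasePoint) (e : LSt) : CD := cD (P := leaf) ε (c, ()) (e, 0)

/-- **The contact of a continuation step.** -/
structure HitD (Φ : Space3 → ℝ) (ε te : ℝ) (c : PhasePoint) (e : LSt) : Prop where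
  /-- the contact is after the birth of the line -/
  lt : e.1 < hT ε c e
  pos : 0 < hT ε c e
  le : hT ε c e ≤ te
  /-- state of the line at the contact -/
  se : Ins45.lineAt e.1 e.2 (hT ε c e) =
    (hX ε c e + ε • entrancePoint (relB (hD ε c e)).1 (relB (hD ε c e)).2, (hD ε c e).1)
  /-- state of the fresh particle at the contact -/
  sc : onLine c (hT ε c e) = (hX ε c e, (hD ε c e).2.1)
  pass : CDpass Φ (hD ε c e)

theorem HitD.cd {c : PhasePoint} {e : LSt} (h : HitD Φ ε te c e) : CDok (hD ε c e) := h.pass.ok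

theorem HitD.of_mem (hε : 0 < ε) {c : PhasePoint} {e : LSt} (h : (c, e) ∈ hitS ε te)
    (hp : CDpass Φ (hD ε c e)) : HitD Φ ε te c e where
  lt := h.2.2.1
  pos := h.2.2.2.2
  le := h.2.2.2.1
  se := PN564.state_l (P := leaf) hε (c, ()) (e, 0)
  sc := PN564.state_r (P := leaf) (c, ()) (e, 0)
  pass := hp

/-- **The outputs of a step.** -/
theorem hitO_none (c : PhasePoint) (e : LSt) :
    hitO (outK Φ ε none) ε c e = lineC Φ ε (hT ε c e) (hX ε c e) (hD ε c e) := rfl

theorem hitO_false (c : PhasePoint) (e : LSt) :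
    hitO (outK Φ ε (some false)) ε c e = lineL' Φ ε (hT ε c e) (hX ε c e) (hD ε c e) := rfl

theorem hitO_true (c : PhasePoint) (e : LSt) :
    hitO (outK Φ ε (some true)) ε c e = lineC' Φ ε (hT ε c e) (hX ε c e) (hD ε c e) := rfl

/-! ### The contact is a passage -/

theorem measurableSet_CDpass (hΦ : AdmissiblePotential Φ) : MeasurableSet {q : CD | CDpass Φ q} :=
  measurable_relB (measurableSet_passSet hΦ)

/-- Trapped contacts are exceptional (line fixed). -/
theorem ae_pass_root (hΦ : AdmissiblePotential Φ) (hε : 0 < ε) (te : ℝ) (P : CTree) (l : ML) :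
    ∀ᵐ z : PhasePoint × Par P, (z, l.1) ∈ OneC423.ctSet Φ ε te P → CDpass Φ (cD ε z l) := by
  set B : Set (PhasePoint × Par P) := {z | CDpass Φ (cD ε z l)}ᶜ with hB
  have hr : Measurable fun z : PhasePoint × Par P => OneC423.relL z.1 l.1 :=
    OneC423.measurable_relL.comp (f := fun z : PhasePoint × Par P => (z.1, l.1))
      (measurable_fst.prodMk measurable_const)
  have hcD : Measurable fun z : PhasePoint × Par P => cD ε z l := by
    unfold cD cB
    exact measurable_const.prodMk (measurable_fst.snd.prodMk ((OC663.measurable_entB ε).comp hr))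
  have hBm : MeasurableSet B := (hcD (measurableSet_CDpass hΦ)).compl
  have hms : MeasurableSet {z : PhasePoint × Par P | (z, l.1) ∈ OneC423.ctSet Φ ε te P} :=
    (measurable_id.prodMk (measurable_const (a := l.1))) (OneC423.measurableSet_ctSet hΦ ε te P)
  have h0 : ∫⁻ z : PhasePoint × Par P, {z | (z, l.1) ∈ OneC423.ctSet Φ ε te P}.indicator
      (B.indicator fun _ => (1 : ℝ≥0∞)) z = 0 := by
    rw [OneC423.lintegral_ct_root hΦ hε l.1 (measurable_const.indicator hBm)]
    refine mul_eq_zero.2 (Or.inr ?_)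
    refine (lintegral_congr fun s => ?_).trans lintegral_zero
    refine (lintegral_congr fun u => ?_).trans lintegral_zero
    by_cases hg : l.1.2.2 - u = 0
    · rw [hg, norm_zero, ENNReal.ofReal_zero, zero_mul]
    refine mul_eq_zero.2 (Or.inr ?_)
    have hd : MeasurableSet (impactDisc (l.1.2.2 - u)) := Disc416.measurableSet_impactDisc _
    refine (lintegral_congr_ae ?_).trans lintegral_zero
    rw [Filter.EventuallyEq, ae_restrict_iff' hd]
    have ht := measure_trapped hΦ hg
    rw [measure_eq_zero_iff_ae_notMem] at ht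
    filter_upwards [ht] with b hb hbd
    refine (lintegral_congr fun p => ?_).trans lintegral_zero
    have hnb : ((OneC423.rootAt ε s l.1 u b, p) : PhasePoint × Par P) ∉ B := by
      rw [hB, notMem_compl_iff]
      have e1 : cD ε ((OneC423.rootAt ε s l.1 u b, p) : PhasePoint × Par P) l =
          (l.1.2.2, u, b) := by
        unfold cD cB
        rw [PN564.relL_rootAt, (OneNS423.ent_inv hε hg hbd s).2]
        rfl
      show CDpass Φ _
      rw [e1]
      refine ⟨⟨hbd, hg⟩, ?_⟩
      by_contra hn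
      exact hb ⟨hbd, hn⟩
    by_cases hv : p ∈ {p | Valid Φ ε P s u p}
    · rw [indicator_of_mem hv]
      exact indicator_of_notMem hnb _
    · exact indicator_of_notMem hv _
  have h1 := (lintegral_eq_zero_iff ((measurable_const.indicator hBm).indicator hms)).1 h0
  filter_upwards [h1] with z hz hct
  by_contra hcon
  rw [indicator_of_mem (show z ∈ {z : PhasePoint × Par P | (z, l.1) ∈ OneC423.ctSet Φ ε te P}
    from hct), indicator_of_mem (show z ∈ B from hcon)] at hz
  exact one_ne_zero hz

theorem measurable_hD (ε : ℝ) : Measurable fun x : PhasePoint × LSt => hD ε x.1 x.2 := by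
  unfold hD cD cB
  have hr : Measurable fun q : PhasePoint × LSt => OneC423.relL q.1 q.2 := OneC423.measurable_relL
  exact measurable_snd.snd.snd.prodMk (measurable_fst.snd.prodMk
    ((OC663.measurable_entB ε).comp hr))

/-- Trapped contacts with a fresh particle are exceptional. -/
theorem ae_pass_hit (hΦ : AdmissiblePotential Φ) (hε : 0 < ε) (te : ℝ) (e : LSt) :
    ∀ᵐ c : PhasePoint, (c, e) ∈ hitS ε te → CDpass Φ (hD ε c e) := by
  have h := ae_pass_root hΦ hε te leaf (e, 0)
  set A : Set PhasePoint := {c | (c, e) ∈ hitS ε te ∧ ¬ CDpass Φ (hD ε c e)} with hA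
  have hAm : MeasurableSet A := by
    have h1 : MeasurableSet {c : PhasePoint | (c, e) ∈ hitS ε te} :=
      (measurable_id.prodMk (measurable_const (a := e))) (measurableSet_hitS hΦ ε te)
    have h2 : MeasurableSet {c : PhasePoint | CDpass Φ (hD ε c e)} :=
      ((measurable_hD ε).comp (f := fun c : PhasePoint => ((c, e) : PhasePoint × LSt))
        (measurable_id.prodMk measurable_const)) (measurableSet_CDpass hΦ)
    exact h1.inter h2.compl
  have h1 : (volume : Measure PhasePoint) A = 0 := by
    rw [← lintegral_indicator_one hAm]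
    have h2 := lintegral_leaf (fun z : PhasePoint × Par leaf => A.indicator (1 : PhasePoint → ℝ≥0∞) z.1)
      ((measurable_one.indicator hAm).comp measurable_fst)
    rw [← h2]
    refine (lintegral_congr_ae ?_).trans lintegral_zero
    filter_upwards [h] with z hz
    refine indicator_of_notMem (fun hc => ?_) _
    have hc' : (z.1, e) ∈ hitS ε te ∧ ¬ CDpass Φ (hD ε z.1 e) := hc
    exact hc'.2 (hz ((mem_hitS (Φ := Φ)).1 hc'.1).1)
  rw [measure_eq_zero_iff_ae_notMem] at h1
  filter_upwards [h1] with c hc hh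
  by_contra hcon
  exact hc ⟨hh, hcon⟩

/-! ### The facts along the levels -/

section step

variable {Θ κ : Type} [MeasurableSpace Θ] [Fintype κ] {S : SD Θ κ}

/-- **The contact facts of a step**, almost surely. -/
theorem ae_hitD_step [SFinite S.m] (hΦ : AdmissiblePotential Φ) (hε : 0 < ε)
    (hpr : Measurable S.pr) :
    ∀ᵐ x ∂(S.step Φ ε b₀ te q).m, HitD Φ ε te x.2.1 (S.pr x.1).2 := by
  have hsm : MeasurableSet (S.hit ε te) := measurable_hit (S := S) hΦ hpr ε te
  have hhit : ∀ᵐ x ∂(S.step Φ ε b₀ te q).m, (x.2.1, (S.pr x.1).2) ∈ hitS ε te :=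
    ae_step_hit hΦ hpr
  have hmD : Measurable fun x : Θ × Fr => hD ε x.2.1 (S.pr x.1).2 :=
    (measurable_hD ε).comp (f := fun x : Θ × Fr => ((x.2.1, (S.pr x.1).2) : PhasePoint × LSt))
      (measurable_snd.fst.prodMk (hpr.comp measurable_fst).snd)
  have hBm : MeasurableSet {x : Θ × Fr | CDpass Φ (hD ε x.2.1 (S.pr x.1).2)}ᶜ :=
    (hmD (measurableSet_CDpass hΦ)).compl
  have h0 : ∫⁻ x, {x : Θ × Fr | CDpass Φ (hD ε x.2.1 (S.pr x.1).2)}ᶜ.indicator
      (fun _ => (1 : ℝ≥0∞)) x ∂(S.step Φ ε b₀ te q).m = 0 := by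
    rw [lintegral_step hΦ hpr (measurable_const.indicator hBm)]
    refine mul_eq_zero.2 (Or.inr ?_)
    refine (lintegral_congr fun θ => ?_).trans lintegral_zero
    have hFm : Measurable fun r : Fr => (S.hit ε te).indicator
        ({x : Θ × Fr | CDpass Φ (hD ε x.2.1 (S.pr x.1).2)}ᶜ.indicator
          fun _ => (1 : ℝ≥0∞)) (θ, r) :=
      ((measurable_const.indicator hBm).indicator hsm).comp
        (measurable_const.prodMk measurable_id)
    rw [lintegral_frM hFm]
    refine Finset.sum_eq_zero fun k _ => ENNReal.tsum_eq_zero.2 fun m => ?_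
    refine mul_eq_zero.2 (Or.inr ?_)
    refine (lintegral_congr_ae ?_).trans lintegral_zero
    filter_upwards [ae_pass_hit hΦ hε te (S.pr θ).2] with c hc
    refine mul_eq_zero.2 (Or.inr ?_)
    by_cases hh : ((θ, (c, (m, k))) : Θ × Fr) ∈ S.hit ε te
    · rw [indicator_of_mem hh]
      have hn : ((θ, (c, (m, k))) : Θ × Fr) ∉
          {x : Θ × Fr | CDpass Φ (hD ε x.2.1 (S.pr x.1).2)}ᶜ := by
        rw [notMem_compl_iff]
        exact hc hh
      exact indicator_of_notMem hn _
    · exact indicator_of_notMem hh _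
  have h1 : (S.step Φ ε b₀ te q).m {x : Θ × Fr | CDpass Φ (hD ε x.2.1 (S.pr x.1).2)}ᶜ = 0 := by
    rw [← lintegral_indicator_one hBm]
    exact h0
  rw [measure_eq_zero_iff_ae_notMem] at h1
  filter_upwards [hhit, h1] with x hx hp
  exact HitD.of_mem hε hx (by simpa using hp)

end step

section iter

variable {Θ κ : Type} [MeasurableSpace Θ] [Fintype κ]

/-- **The contact facts at all levels.** -/
def HitAll (S : SD Θ κ) (Φ : Space3 → ℝ) (ε b₀ te : ℝ) (q : ℕ → ℝ≥0∞) : (j : ℕ) → Th Θ j → Prop
  | 0, _ => True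
  | j + 1, x => HitAll S Φ ε b₀ te q j x.1 ∧
      HitD Φ ε te x.2.1 ((S.iter Φ ε b₀ te q j).pr x.1).2

theorem ae_hitAll {S : SD Θ κ} (hS : S.Ok) (hΦ : AdmissiblePotential Φ) (hε : 0 < ε) (j : ℕ) :
    ∀ᵐ x ∂(S.iter Φ ε b₀ te q j).m, HitAll S Φ ε b₀ te q j x := by
  induction j with
  | zero => exact ae_of_all _ fun _ => trivial
  | succ j ih =>
    have hok : (S.iter Φ ε b₀ te q j).Ok := hS.iter hΦ j
    have := hok.sf
    have h1 := ae_step (Φ := Φ) (ε := ε) (b₀ := b₀) (te := te) (q := q) ih
    have h2 := ae_hitD_step (S := S.iter Φ ε b₀ te q j) (b₀ := b₀) (te := te) (q := q) hΦ hε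
      hok.mpr
    filter_upwards [h1, h2] with x hx hx'
    exact ⟨hx, hx'⟩

/-- The base of a structure of level `j`. -/
def bas (Θ : Type) : (j : ℕ) → Th Θ j → Θ
  | 0, x => x
  | j + 1, x => bas Θ j x.1

/-- Almost sure facts of the base at all levels. -/
theorem ae_bas {S : SD Θ κ} (hS : S.Ok) (hΦ : AdmissiblePotential Φ) {p : Θ → Prop}
    (h : ∀ᵐ θ ∂S.m, p θ) (j : ℕ) :
    ∀ᵐ x ∂(S.iter Φ ε b₀ te q j).m, p (bas Θ j x) := by
  induction j with
  | zero => exact h
  | succ j ih =>
    have hok : (S.iter Φ ε b₀ te q j).Ok := hS.iter hΦ j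
    have := hok.sf
    exact ae_step (Φ := Φ) (ε := ε) (b₀ := b₀) (te := te) (q := q) ih

/-- Almost sure facts of the level `k` at the level `k + i`. -/
theorem ae_prj {S : SD Θ κ} (hS : S.Ok) (hΦ : AdmissiblePotential Φ) (k i : ℕ)
    {p : Th Θ k → Prop} (h : ∀ᵐ θ ∂(S.iter Φ ε b₀ te q k).m, p θ) :
    ∀ᵐ x ∂(S.iter Φ ε b₀ te q (k + i)).m, p (Marg494.prj Θ k i x) := by
  induction i with
  | zero => exact h
  | succ i ih =>
    have hok : (S.iter Φ ε b₀ te q (k + i)).Ok := hS.iter hΦ (k + i)
    have := hok.sf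
    exact ae_step (Φ := Φ) (ε := ε) (b₀ := b₀) (te := te) (q := q) ih

end iter

end Crest.Agent.R122.NuHit969

end
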