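import Crest.Agent.R122.LvBase_726
import Crest.Agent.R122.NuStep_491
import Crest.Agent.R122.NuHit_969
import Crest.Agent.R122.LNPart_424

/-!
# Levels of the pair structures, one step (row 122, S^(j)), helper726

* `tl_of_not_badGas` : a connected structure which is not a bad partition is tree-like.
* `hitU_of_hitD` : helper491's encounter data from helper969's `HitD`.
* `pairPT_step` : helper491's `Pair.step` with helper151's `PT`.
-/

set_option autoImplicit false
set_option linter.unusedSectionVars false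

open MeasureTheory Set Filter Topology
open scoped NNReal ENNReal
open Crest.AnalysisR.Kinetic
open Crest.Agent.R122.VL581 Crest.Agent.R122.VL581.VSys Crest.Agent.R122.VLInst442
open Crest.Agent.R122.LN304 Crest.Agent.R122.LNg410
open Crest.Agent.R122.Kin796 Crest.Agent.R122.Kin796.CTree
open Crest.Agent.R122.TreeLines335 Crest.Agent.R122.EDefs602
open Crest.Agent.R122.Boost969 (LSt)
open Crest.Agent.R122.LNGraft410 Crest.Agent.R122.LNEv968 Crest.Agent.R122.PWInst442
open Crest.Agent.R122.LNBridge968 Crest.Agent.R122.LNEmb410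
open Crest.Agent.R122.OCout796 Crest.Agent.R122.Scat818
open Crest.Agent.R122.Loc45 Crest.Agent.R122.Ins45
open Crest.Agent.R122.PairReal998 (hitS hitO outK)
open Crest.Agent.R122.VLMeas973 (vsys)
open Crest.Agent.R122.StrG491 Crest.Agent.R122.StrMain307 Crest.Agent.R122.StrMot2_151
open Crest.Agent.R122.NuHit969 (HitD)
open scoped Classical

noncomputable section

namespace Crest.Agent.R122.Lv726

/-! ### Tree-like structures -/

/-- No gas particle. -/
def e0 (κ : Type) : (Fin 0 ⊕ κ) ↪ κ :=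
  ⟨Sum.elim (fun i => i.elim0) id, fun x y h => by
    rcases x with x | x
    · exact x.elim0
    · rcases y with y | y
      · exact y.elim0
      · exact congrArg Sum.inr h⟩

theorem pull_e0 {κ : Type} [Fintype κ] {Φ : Space3 → ℝ} {T ε : ℝ} (b : κ → ℝ) :
    Pull (vsys Φ T ε (LN2.bS 0 b)) (vsys Φ T ε b) (e0 κ) where
  Φ := rfl
  T := rfl
  ε := rfl
  b i := by
    rcases i with i | i
    · exact i.elim0
    · rfl
  o i := by
    show (none : Option _) = _ ↔ (none : Option _) = _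
    simp
  S := rfl

/-- **A connected structure which is not a bad partition is tree-like.** -/
theorem tl_of_not_badGas {κ : Type} [Fintype κ] {Φ : Space3 → ℝ} {T T₁ ε c ρ ς : ℝ} {N : ℕ}
    {b : κ → ℝ} {z : κ → PhasePoint} {A₀ : Finset κ} {n : ℕ} {w : Config n}
    (hΦ : AdmissiblePotential Φ) (hε : 0 < ε) (hT : T ≤ T₁)
    (hc : (vsys Φ T ε b).Conn c Finset.univ z) (hA : A₀.Nonempty)
    (h : ¬ LN2.BadGas Φ T₁ c ρ ς ε N 1 A₀ b z w) :
    TL (vsys Φ T ε b) c (ρ * ε) ς Finset.univ z := by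
  by_contra hcon
  obtain ⟨y, hy⟩ := hA
  refine h (LN2.badGasW_hor hT ⟨0, Nat.zero_le _, Function.Embedding.ofIsEmpty, ?_⟩).badGas
  have h1 := LNPart424.badPartW_of_conn (M' := vsys Φ T ε (LN2.bS 0 b)) (M := vsys Φ T ε b)
    (e := e0 κ) (Z := z) (C := c) (ℓ := ρ * ε) (ς := ς) (s := 1) (A' := LN2.anch 0 A₀)
    (Λ := {Finset.univ}) (pull_e0 b) hΦ hε
    (fun π hπ => by rw [Finset.mem_singleton.1 hπ]; exact hc)
    (fun π hπ π' hπ' hne => absurd
      ((Finset.mem_singleton.1 hπ).trans (Finset.mem_singleton.1 hπ').symm) hne)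
    (le_of_eq (Finset.card_singleton _))
    (fun π hπ => ⟨Sum.inr y, Finset.inr_mem_disjSum.2 hy, by
      rw [Finset.mem_singleton.1 hπ]; exact Finset.mem_univ _⟩)
    hc (Finset.mem_singleton_self _) subset_rfl
    (fun x => iff_of_true ⟨Sum.inr x, rfl⟩ (Or.inl (Finset.mem_univ x))) (Or.inl hcon)
  have h2 : (fun k => z (e0 κ k)) = Sum.elim (fun i => w ((Function.Embedding.ofIsEmpty :
      Fin 0 ↪ Fin n) i)) z := by
    funext k
    rcases k with k | k
    · exact k.elim0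
    · rfl
  rwa [h2] at h1

/-! ### The step -/

variable {κ : Type} [Fintype κ] {Φ : Space3 → ℝ} {T ε te c ℓ ς : ℝ} {b : κ → ℝ}
  {z : κ → PhasePoint} {v : PhasePoint}
variable {R : ℝ → κ → κ → Prop} {cl : κ → Finset κ} {bD : κ → ℝ} {x y : κ} {d e : LSt}
variable (hC : 1 ≤ c) (hΦ : AdmissiblePotential Φ) (hε : 0 < ε)
include hC hΦ hε

/-- **The encounter of the second line with the fresh particle.** -/
theorem hitU_of_hitD (h : Pair (vsys Φ T ε b) c z R Finset.univ cl bD x y d e)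
    (hv : HitD Φ ε te v e) (hte : te < T) : HitU Φ T ε c b z v R cl bD x y d e where
  pr := Pair.map (M := sysU Φ T ε b) (M' := vsys Φ T ε b) (e := inE κ) (Z := zU z v)
    (pull_step b) hΦ hε (fun _ _ => rfl) h
  s₂ := Str.single (M := sysU Φ T ε b) hC hε (lineIn_fresh b z v).o (lineIn_fresh b z v).b.symm
  dj := by
    rw [Finset.disjoint_singleton_right, Finset.mem_map]
    rintro ⟨i, _, hi⟩
    cases hi
  ha := Finset.mem_singleton_self _
  lte := hv.lt
  lta := hv.pos
  cd := hv.cd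
  se := hv.se
  sa := by
    have h1 : 0 ≤ hT0 ε v e := le_of_lt hv.pos
    have h2 : hT0 ε v e ≤ (sysU Φ T ε b).T := hv.le.trans hte.le
    rw [clOf_mem (Finset.mem_singleton_self (Sum.inr ())),
      (lineIn_fresh (Φ := Φ) (T := T) (ε := ε) b z v).st hΦ hε h1 h2]
    change lineAt 0 v (hT0 ε v e) = (v.1 + hT0 ε v e • v.2, v.2)
    unfold lineAt
    rw [sub_zero]
  lt_T := hv.le.trans_lt hte

/-- **The structure after the step is connected.** -/
theorem conn_step (h : Pair (vsys Φ T ε b) c z R Finset.univ cl bD x y d e)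
    (hv : HitD Φ ε te v e) (hte : te < T) :
    (sysU Φ T ε b).Conn c Finset.univ (zU z v) := by
  have h1 := ((hitU_of_hitD hC hΦ hε h hv hte).enc hΦ hε).conn hC hε
  rwa [union_inE] at h1

/-- **The pair structure after the step**, with transversal exits and late cross contacts. -/
theorem pairPT_step (hℓς : 2 * ℓ ≤ ς) (hℓ : 0 ≤ ℓ) (hlT : te + 2 * ℓ < T)
    (h : Pair (vsys Φ T ε b) c z R Finset.univ cl bD x y d e)
    (hpt : PT (vsys Φ T ε b) z R cl bD y) (hv : HitD Φ ε te v e)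
    (hT : TL (sysU Φ T ε b) c ℓ ς Finset.univ (zU z v)) (k : Option Bool) :
    ∃ (R' : ℝ → κ ⊕ Unit → κ ⊕ Unit → Prop) (cl' : κ ⊕ Unit → Finset (κ ⊕ Unit))
      (bD' : κ ⊕ Unit → ℝ), Pair (sysU Φ T ε b) c (zU z v) R' Finset.univ cl' bD' (Sum.inl x)
        (yK y k) d (hitO (outK Φ ε k) ε v e) ∧
      PT (sysU Φ T ε b) (zU z v) R' cl' bD' (yK y k) := by
  have hte : te < T := by linarith
  have hh := hitU_of_hitD hC hΦ hε h hv hte
  have hT' : ∀ S : Finset (κ ⊕ Unit), S = Finset.univ → TL (sysU Φ T ε b) c ℓ ς S (zU z v) :=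
    fun S hS => hS ▸ hT
  have hlt : hT0 ε v e + 2 * ℓ < (sysU Φ T ε b).T := by
    have := hv.le
    change hT0 ε v e + 2 * ℓ < T
    have h2 : hT0 ε v e ≤ te := hv.le
    linarith
  have hpass := (hh.enc hΦ hε).pass_of (ℓ := ℓ) (ς := ς) hC hΦ hε (hT' _ (union_inE _)) hℓς hlt
  obtain ⟨hp, hout⟩ := hpass
  have hle : hT0 ε v e + outT Φ ε (hD0 ε v e) ≤ T := by
    have h2 : hT0 ε v e ≤ te := hv.le
    have h3 : outT Φ ε (hD0 ε v e) ≤ 2 * ℓ := hout
    linarith
  have h₁ : PT (sysU Φ T ε b) (zU z v) (mapR (inE κ) R) (mapCl (inE κ) cl)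
      (Sum.elim bD fun _ => 0) (Sum.inl y) :=
    PT.map (M := sysU Φ T ε b) (M' := vsys Φ T ε b) (e := inE κ) (Z := zU z v) (c := c)
      (pull_step b) hΦ hε h.str (fun _ _ => rfl) hpt
  have h₂ : PT (sysU Φ T ε b) (zU z v) (RC (sysU Φ T ε b) (zU z v) {Sum.inr ()})
      (clOf {Sum.inr ()}) (Sum.elim bD fun _ => 0) (Sum.inr ()) :=
    PT.single (lineIn_fresh (Φ := Φ) (T := T) (ε := ε) b z v).b.symm
  rcases k with _ | (_ | _)
  · have h1 := hh.outC hC hΦ hε hp
    rw [union_inE] at h1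
    exact ⟨_, _, _, h1, PT.outC hh hΦ hε h₁ h₂⟩
  · have h1 := hh.outL hC hΦ hε (hT' _ (union_inE _)) hℓς hp hle
    rw [union_inE] at h1
    exact ⟨_, _, _, h1, PT.graft hh hΦ hε hC (hT' _ (union_inE _)) hℓς hp h₁ h₂ (Or.inl rfl)⟩
  · have h1 := hh.outC' hC hΦ hε (hT' _ (union_inE _)) hℓς hp hle
    rw [union_inE] at h1
    exact ⟨_, _, _, h1, PT.graft hh hΦ hε hC (hT' _ (union_inE _)) hℓς hp h₁ h₂ (Or.inr rfl)⟩

end Crest.Agent.R122.Lv726

end
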