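import Crest.Agent.R122.EquivE_416
import Crest.Agent.R122.Decomp3E_811

/-!
# Algebra of marked worlds up to relabelling (row 122), helper811

`Z.add A` is commutative / associative up to relabelling of the index type; touch times do not
change under relabelling (`EquivE_416`). Consequences: `relW`, decomposition of the lines of a
cluster into exits and root line.
-/

set_option autoImplicit false
set_option linter.unusedSectionVars false

open MeasureTheory Set
open scoped ENNReal
open Crest.AnalysisR.Kinetic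
open Crest.Agent.R122.EDefs602 Crest.Agent.R122.EquivE416

namespace Crest.Agent.R122.Decomp811

noncomputable section

open scoped Classical

variable {ι ι' κ κ' lam : Type}

/-! ### Equivalences of index types -/

/-- `(ι ⊕ κ) ⊕ lam ≃ (ι ⊕ lam) ⊕ κ` -/
def swapR (ι κ lam : Type) : (ι ⊕ κ) ⊕ lam ≃ (ι ⊕ lam) ⊕ κ :=
  (Equiv.sumAssoc ι κ lam).trans
    ((Equiv.sumCongr (Equiv.refl ι) (Equiv.sumComm κ lam)).trans (Equiv.sumAssoc ι lam κ).symm)

theorem add_right_comm' (Z : MW ι) (A : MW κ) (B : MW lam) :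
    (Z.add A).add B = ((Z.add B).add A).comap (swapR ι κ lam) := by
  unfold MW.add MW.comap swapR
  congr 1 <;>
  · funext x
    rcases x with (x | x) | x <;> rfl

theorem add_assoc' (Z : MW ι) (A : MW κ) (B : MW lam) :
    (Z.add A).add B = (Z.add (A.add B)).comap (Equiv.sumAssoc ι κ lam) := by
  unfold MW.add MW.comap
  congr 1 <;>
  · funext x
    rcases x with (x | x) | x <;> rfl

theorem add_comm' (A : MW κ) (B : MW lam) :
    A.add B = (B.add A).comap (Equiv.sumComm κ lam) := by
  unfold MW.add MW.comap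
  congr 1 <;>
  · funext x
    rcases x with x | x <;> rfl

theorem comap_comap (Z : MW ι) (e : κ → ι) (f : lam → κ) :
    (Z.comap e).comap f = Z.comap (e ∘ f) := rfl

theorem comap_refl (Z : MW ι) : Z.comap (Equiv.refl ι) = Z := rfl

/-- `κ ≃ {k ≠ r} ⊕ Unit` -/
def splitE {κ : Type} (r : κ) : κ ≃ {k : κ // k ≠ r} ⊕ Unit where
  toFun k := if h : k = r then Sum.inr () else Sum.inl ⟨k, h⟩
  invFun := Sum.elim (fun k : {k : κ // k ≠ r} => (k : κ)) (fun _ : Unit => r)
  left_inv k := by
    by_cases h : k = r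
    · simp [h]
    · simp [h]
  right_inv x := by
    rcases x with ⟨k, hk⟩ | u
    · simp [hk]
    · simp

/-- The lines of a cluster = exits + root line. -/
theorem lines_split (F : κ → ML) (r : κ) :
    MW.lines F = ((MW.lines (exF F r)).add (MW.line (F r))).comap (splitE r) := by
  unfold MW.add MW.comap MW.lines MW.line exF splitE
  congr 1 <;>
  · funext k
    by_cases h : k = r
    · subst h; simp [MW.lines]
    · simp [h]

/-- Sub-family of a family of lines. -/
theorem lines_comp (F : κ → ML) (e : lam → κ) :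
    MW.lines (fun k => F (e k)) = (MW.lines F).comap e := rfl

/-! ### Touch times -/

variable [Fintype ι] [Fintype ι'] [Fintype κ] [Fintype κ'] [Fintype lam]
variable {Φ : Space3 → ℝ} {ε : ℝ}

theorem theta_congr_comap (hΦ : AdmissiblePotential Φ) (hε : 0 < ε) (K : ℕ) (T : ℝ)
    {Z : MW ι} {Z' : MW ι'} {A : MW κ} {A' : MW κ'} (e : ι' ≃ ι) (f : κ' ≃ κ)
    (hZ : Z' = Z.comap e) (hA : A' = A.comap f) :
    Z'.theta Φ ε K T A' = Z.theta Φ ε K T A := by
  rw [hZ, hA, theta_comap hΦ hε]

theorem thetaL_congr_comap (hΦ : AdmissiblePotential Φ) (hε : 0 < ε) (K : ℕ) (T : ℝ)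
    {Z : MW ι} {Z' : MW ι'} (e : ι' ≃ ι) (hZ : Z' = Z.comap e) (l : ML) :
    Z'.thetaL Φ ε K T l = Z.thetaL Φ ε K T l := by
  rw [hZ, thetaL_comap hΦ hε]

theorem relW (hΦ : AdmissiblePotential Φ) (hε : 0 < ε) (K : ℕ) (T : ℝ) (w₂ : MW ι)
    (A : MW κ) (d : ML) : RelW Φ ε K T w₂ A d := fun l =>
  thetaL_congr_comap hΦ hε K T (swapR ι κ Unit)
    (add_right_comm' w₂ A (MW.line d)) l

/-- `θ(Z, lines F) = θ(Z, exits + root)`. -/
theorem theta_lines_split (hΦ : AdmissiblePotential Φ) (hε : 0 < ε) (K : ℕ) (T : ℝ) (Z : MW ι)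
    (F : κ → ML) (r : κ) :
    Z.theta Φ ε K T (MW.lines F) =
      Z.theta Φ ε K T ((MW.lines (exF F r)).add (MW.line (F r))) :=
  theta_congr_comap hΦ hε K T (Equiv.refl ι) (splitE r) rfl (lines_split F r)

/-- The world `w₂ + lines F + d` is `Z₀ + root line`, up to relabelling. -/
theorem real_eq_Z0 (w₂ : MW ι) (F : κ → ML) (r : κ) (d : ML) :
    ∃ e : (ι ⊕ κ) ⊕ Unit ≃ ((ι ⊕ Unit) ⊕ {k : κ // k ≠ r}) ⊕ Unit,
      (w₂.add (MW.lines F)).ins d = ((Z0 w₂ F r d).ins (F r)).comap e := by
  refine ⟨(swapR ι κ Unit).trans ((Equiv.sumCongr (Equiv.refl (ι ⊕ Unit)) (splitE r)).trans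
    (Equiv.sumAssoc (ι ⊕ Unit) {k : κ // k ≠ r} Unit).symm), ?_⟩
  have h1 : (w₂.add (MW.lines F)).ins d = ((w₂.ins d).add (MW.lines F)).comap
      (swapR ι κ Unit) := add_right_comm' w₂ (MW.lines F) (MW.line d)
  rw [h1, lines_split F r]
  unfold MW.add MW.comap MW.ins MW.lines MW.line exF splitE swapR Z0
  congr 1 <;>
  · funext x
    rcases x with (x | x) | x
    · rfl
    · by_cases h : x = r
      · simp [MW.add, MW.ins, MW.lines, MW.line, h]
      · simp [MW.add, MW.ins, MW.lines, MW.line, h, exF]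
    · rfl

end

end Crest.Agent.R122.Decomp811
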