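import Crest.Agent.R122.GCBounds_311

/-!
# Row 122: the majorant layer

`lintegral` is a lower integral, hence useless for upper bounds of non-measurable functions.

* `uInt μ f` : the upper integral, attained (`exists_uInt`), monotone, countably subadditive,
  continuous from below, `≤ c * μ S` on indicators, iterated upper integral `≤` product one.
* `uE f₀ ε F` : upper grand-canonical expectation, attained by a measurable majorant
  (`exists_uE`), equal to `gcE` for measurable functionals, countably subadditive.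
* `symMin` : symmetrisation of a measurable majorant of a covariant functional (minimum over the
  relabellings: it can only decrease).
* `locBad` : from a local measurable majorant `M k V j` (`V : Config k`) of a covariant local weight
  to a measurable covariant gas functional `Bad n X i`, with the Mecke bound.
-/

set_option autoImplicit false
open MeasureTheory Set Filter
open scoped Classical ENNReal Topology
open Crest.AnalysisR.Kinetic
open Crest.Agent.R122.GC311
noncomputable section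

namespace Crest.Agent.R122.Major522

/-! ## Upper integrals -/

section upper

variable {α β : Type*} [MeasurableSpace α] [MeasurableSpace β] {μ : Measure α}

/-- The upper integral. -/
def uInt (μ : Measure α) (f : α → ℝ≥0∞) : ℝ≥0∞ :=
  ⨅ g : {g : α → ℝ≥0∞ // Measurable g ∧ f ≤ g}, ∫⁻ a, g.1 a ∂μ

theorem uInt_le {f g : α → ℝ≥0∞} (hg : Measurable g) (h : f ≤ g) :
    uInt μ f ≤ ∫⁻ a, g a ∂μ :=
  iInf_le (fun g : {g : α → ℝ≥0∞ // Measurable g ∧ f ≤ g} => ∫⁻ a, g.1 a ∂μ) ⟨g, hg, h⟩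

/-- The upper integral is attained. -/
theorem exists_uInt (μ : Measure α) (f : α → ℝ≥0∞) :
    ∃ g : α → ℝ≥0∞, Measurable g ∧ f ≤ g ∧ ∫⁻ a, g a ∂μ = uInt μ f := by
  set S : Set ℝ≥0∞ := Set.range fun g : {g : α → ℝ≥0∞ // Measurable g ∧ f ≤ g} =>
    ∫⁻ a, g.1 a ∂μ with hS
  have hne : S.Nonempty := ⟨_, ⟨⟨fun _ => ∞, measurable_const, fun _ => le_top⟩, rfl⟩⟩
  obtain ⟨u, _, hu, hmem⟩ := exists_seq_tendsto_sInf hne (OrderBot.bddBelow S)
  choose g hg using hmem
  refine ⟨fun a => ⨅ n, (g n).1 a, Measurable.iInf fun n => (g n).2.1,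
    fun a => le_iInf fun n => (g n).2.2 a, le_antisymm ?_ ?_⟩
  · have h1 : ∀ n, ∫⁻ a, ⨅ n, (g n).1 a ∂μ ≤ u n := fun n => by
      rw [← hg n]
      exact lintegral_mono fun a => iInf_le _ n
    exact ge_of_tendsto' hu h1
  · exact uInt_le (Measurable.iInf fun n => (g n).2.1) fun a => le_iInf fun n => (g n).2.2 a

theorem lintegral_le_uInt (f : α → ℝ≥0∞) : ∫⁻ a, f a ∂μ ≤ uInt μ f :=
  le_iInf fun g => lintegral_mono g.2.2

theorem uInt_eq_lintegral {f : α → ℝ≥0∞} (hf : Measurable f) : uInt μ f = ∫⁻ a, f a ∂μ :=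
  le_antisymm (uInt_le hf le_rfl) (lintegral_le_uInt f)

theorem uInt_mono {f g : α → ℝ≥0∞} (h : f ≤ g) : uInt μ f ≤ uInt μ g := by
  obtain ⟨G, hG, hgG, hI⟩ := exists_uInt μ g
  rw [← hI]
  exact uInt_le hG (h.trans hgG)

theorem uInt_mono_measure {ν : Measure α} (hμν : μ ≤ ν) (f : α → ℝ≥0∞) :
    uInt μ f ≤ uInt ν f := by
  obtain ⟨G, hG, hgG, hI⟩ := exists_uInt ν f
  rw [← hI]
  exact (uInt_le hG hgG).trans (lintegral_mono' hμν le_rfl)

/-- Almost everywhere monotonicity. -/
theorem uInt_mono_ae {f g : α → ℝ≥0∞} (h : ∀ᵐ a ∂μ, f a ≤ g a) : uInt μ f ≤ uInt μ g := by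
  obtain ⟨G, hG, hgG, hI⟩ := exists_uInt μ g
  rw [← hI]
  set N : Set α := toMeasurable μ {a | ¬ f a ≤ g a} with hN
  have hN0 : μ N = 0 := by rw [hN, measure_toMeasurable]; exact h
  have hNm : MeasurableSet N := measurableSet_toMeasurable _ _
  have h1 : f ≤ fun a => G a + N.indicator (fun _ => ∞) a := by
    intro a
    by_cases ha : a ∈ N
    · simp [Set.indicator_of_mem ha]
    · have : f a ≤ g a := by
        by_contra hc
        exact ha (subset_toMeasurable _ _ hc)
      exact this.trans ((hgG a).trans le_self_add)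
  refine (uInt_le (hG.add (measurable_const.indicator hNm)) h1).trans ?_
  change ∫⁻ a, G a + N.indicator (fun _ => ∞) a ∂μ ≤ _
  rw [lintegral_add_left hG, lintegral_indicator_const hNm, hN0, mul_zero, add_zero]

theorem uInt_congr_ae {f g : α → ℝ≥0∞} (h : f =ᵐ[μ] g) : uInt μ f = uInt μ g :=
  le_antisymm (uInt_mono_ae (h.mono fun _ => le_of_eq))
    (uInt_mono_ae (h.mono fun _ h => h.symm.le))

theorem uInt_add_le (f g : α → ℝ≥0∞) : uInt μ (fun a => f a + g a) ≤ uInt μ f + uInt μ g := by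
  obtain ⟨F, hF, hfF, hIF⟩ := exists_uInt μ f
  obtain ⟨G, hG, hgG, hIG⟩ := exists_uInt μ g
  rw [← hIF, ← hIG, ← lintegral_add_left hF]
  exact uInt_le (hF.add hG) fun a => add_le_add (hfF a) (hgG a)

theorem uInt_tsum_le {ι : Type*} [Countable ι] (f : ι → α → ℝ≥0∞) :
    uInt μ (fun a => ∑' i, f i a) ≤ ∑' i, uInt μ (f i) := by
  choose F hF hfF hIF using fun i => exists_uInt μ (f i)
  calc uInt μ (fun a => ∑' i, f i a) ≤ ∫⁻ a, ∑' i, F i a ∂μ :=
        uInt_le (Measurable.tsum hF) fun a => ENNReal.tsum_le_tsum fun i => hfF i a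
    _ = ∑' i, ∫⁻ a, F i a ∂μ := lintegral_tsum fun i => (hF i).aemeasurable
    _ = ∑' i, uInt μ (f i) := tsum_congr hIF

theorem uInt_zero : uInt μ (fun _ => 0) = 0 := by
  rw [uInt_eq_lintegral measurable_const, lintegral_zero]

theorem uInt_finset_sum_le {ι : Type*} (s : Finset ι) (f : ι → α → ℝ≥0∞) :
    uInt μ (fun a => ∑ i ∈ s, f i a) ≤ ∑ i ∈ s, uInt μ (f i) := by
  induction s using Finset.induction_on with
  | empty => simp [uInt_zero]
  | insert i s hi ih =>
    simp only [Finset.sum_insert hi]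
    exact (uInt_add_le _ _).trans (add_le_add le_rfl ih)

theorem uInt_const_mul (c : ℝ≥0∞) (f : α → ℝ≥0∞) :
    uInt μ (fun a => c * f a) ≤ c * uInt μ f := by
  obtain ⟨F, hF, hfF, hIF⟩ := exists_uInt μ f
  rw [← hIF, ← lintegral_const_mul c hF]
  exact uInt_le (hF.const_mul c) fun a => mul_le_mul_right (hfF a) c

theorem uInt_const_mul' {c : ℝ≥0∞} (h0 : c ≠ 0) (ht : c ≠ ∞) (f : α → ℝ≥0∞) :
    uInt μ (fun a => c * f a) = c * uInt μ f := by
  refine le_antisymm (uInt_const_mul c f) ?_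
  have h1 := uInt_const_mul (μ := μ) c⁻¹ (fun a => c * f a)
  have h2 : (fun a => c⁻¹ * (c * f a)) = f := by
    funext a
    rw [← mul_assoc, ENNReal.inv_mul_cancel h0 ht, one_mul]
  rw [h2] at h1
  calc c * uInt μ f ≤ c * (c⁻¹ * uInt μ fun a => c * f a) := mul_le_mul_right h1 c
    _ = _ := by rw [← mul_assoc, ENNReal.mul_inv_cancel h0 ht, one_mul]

/-- Multiplication by a measurable weight. -/
theorem uInt_mul_le {w f : α → ℝ≥0∞} (hw : Measurable w) :
    uInt μ (fun a => w a * f a) ≤ uInt (μ.withDensity w) f := by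
  obtain ⟨F, hF, hfF, hIF⟩ := exists_uInt (μ.withDensity w) f
  rw [← hIF, lintegral_withDensity_eq_lintegral_mul _ hw hF]
  exact uInt_le (hw.mul hF) fun a => mul_le_mul_right (hfF a) _

/-- Indicators of arbitrary sets: the outer measure. -/
theorem uInt_indicator_le (S : Set α) (c : ℝ≥0∞) :
    uInt μ (S.indicator fun _ => c) ≤ c * μ S := by
  have h1 : S.indicator (fun _ => c) ≤ (toMeasurable μ S).indicator fun _ => c :=
    Set.indicator_le_indicator_of_subset (subset_toMeasurable μ S) fun _ => zero_le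
  refine (uInt_le (measurable_const.indicator (measurableSet_toMeasurable μ S)) h1).trans ?_
  rw [lintegral_indicator_const (measurableSet_toMeasurable μ S), measure_toMeasurable]

theorem measure_le_uInt (S : Set α) : μ S ≤ uInt μ (S.indicator fun _ => 1) := by
  obtain ⟨G, hG, hSG, hI⟩ := exists_uInt μ (S.indicator fun _ => (1 : ℝ≥0∞))
  rw [← hI]
  have h1 : S ⊆ {a | 1 ≤ G a} := fun a ha => by
    have := hSG a
    rwa [Set.indicator_of_mem ha] at this
  refine (measure_mono h1).trans ?_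
  have h2 := mul_meas_ge_le_lintegral (μ := μ) hG 1
  simpa using h2

theorem uInt_indicator_one (S : Set α) : uInt μ (S.indicator fun _ => 1) = μ S :=
  le_antisymm (by simpa using uInt_indicator_le S 1) (measure_le_uInt S)

/-- Restriction to a subset. -/
theorem uInt_indicator_set_le (S : Set α) (f : α → ℝ≥0∞) :
    uInt μ (S.indicator f) ≤ uInt μ f :=
  uInt_mono fun a => Set.indicator_le_self' (fun _ _ => zero_le) a

/-- Continuity from below. -/
theorem uInt_iSup {f : ℕ → α → ℝ≥0∞} (hf : Monotone f) :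
    uInt μ (fun a => ⨆ n, f n a) = ⨆ n, uInt μ (f n) := by
  refine le_antisymm ?_ (iSup_le fun n => uInt_mono fun a => le_iSup (fun n => f n a) n)
  choose g hg hfg hI using fun n => exists_uInt μ (f n)
  set h : ℕ → α → ℝ≥0∞ := fun n a => ⨅ m : ℕ, g (n + m) a with hh
  have hm : ∀ n, Measurable (h n) := fun n => Measurable.iInf fun m => hg (n + m)
  have hle : ∀ n, f n ≤ h n := fun n a => le_iInf fun m =>
    (hf (Nat.le_add_right n m) a).trans (hfg (n + m) a)
  have hmono : Monotone h := by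
    refine monotone_nat_of_le_succ fun n a => le_iInf fun m => ?_
    have : n + 1 + m = n + (m + 1) := by omega
    rw [this]
    exact iInf_le _ (m + 1)
  calc uInt μ (fun a => ⨆ n, f n a) ≤ ∫⁻ a, ⨆ n, h n a ∂μ :=
        uInt_le (Measurable.iSup hm) fun a => iSup_mono fun n => hle n a
    _ = ⨆ n, ∫⁻ a, h n a ∂μ := lintegral_iSup hm hmono
    _ ≤ ⨆ n, uInt μ (f n) := iSup_mono fun n => by
        rw [← hI n]
        exact lintegral_mono fun a => (iInf_le (fun m => g (n + m) a) 0)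

/-- Iterated upper integrals are at most the upper integral over the product. -/
theorem uInt_uInt_le {ν : Measure β} [SFinite ν] (f : α × β → ℝ≥0∞) :
    uInt μ (fun a => uInt ν fun b => f (a, b)) ≤ uInt (μ.prod ν) f := by
  obtain ⟨F, hF, hfF, hIF⟩ := exists_uInt (μ.prod ν) f
  rw [← hIF, lintegral_prod _ hF.aemeasurable]
  refine uInt_le hF.lintegral_prod_right' fun a => ?_
  exact uInt_le (hF.comp measurable_prodMk_left) fun b => hfF (a, b)

/-- Measurable maps: `∫* f∘φ dμ ≤ ∫* f d(φ_* μ)`. -/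
theorem uInt_comp_le {φ : α → β} (hφ : Measurable φ) (f : β → ℝ≥0∞) :
    uInt μ (fun a => f (φ a)) ≤ uInt (μ.map φ) f := by
  obtain ⟨F, hF, hfF, hIF⟩ := exists_uInt (μ.map φ) f
  rw [← hIF, lintegral_map hF hφ]
  exact uInt_le (hF.comp hφ) fun a => hfF (φ a)

/-- Measure preserving equivalences. -/
theorem uInt_comp_equiv {ν : Measure β} (e : α ≃ᵐ β) (he : MeasurePreserving e μ ν)
    (f : β → ℝ≥0∞) : uInt μ (fun a => f (e a)) = uInt ν f := by
  refine le_antisymm ?_ ?_
  · have h := uInt_comp_le (μ := μ) e.measurable f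
    rwa [he.map_eq] at h
  · have h := uInt_comp_le (μ := ν) e.symm.measurable (fun a => f (e a))
    rw [(he.symm e).map_eq] at h
    simpa using h

end upper

/-! ## Upper grand-canonical expectations -/

section gas

variable {f₀ : PhasePoint → ℝ} {ε : ℝ}

theorem gcWeight_ne_top (f₀ : PhasePoint → ℝ) (ε : ℝ) {n : ℕ} (Z : Config n) :
    gcWeight f₀ ε n Z ≠ ∞ := by
  unfold gcWeight
  by_cases hZ : Z ∈ PairExcluded ε n
  · rw [Set.indicator_of_mem hZ]
    exact ENNReal.prod_ne_top fun i _ => ENNReal.ofReal_ne_top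
  · rw [Set.indicator_of_notMem hZ]
    exact ENNReal.zero_ne_top

/-- Upper grand-canonical expectation. -/
def uE (f₀ : PhasePoint → ℝ) (ε : ℝ) (F : (n : ℕ) → Config n → ℝ≥0∞) : ℝ≥0∞ :=
  (gcPartition f₀ ε)⁻¹ * ∑' n : ℕ, activity ε ^ n / (n.factorial : ℝ≥0∞) *
    uInt volume fun Z => gcWeight f₀ ε n Z * F n Z

theorem uE_le {F G : (n : ℕ) → Config n → ℝ≥0∞} (hf : Measurable f₀)
    (hG : ∀ n, Measurable (G n)) (h : ∀ n, ∀ Z ∈ PairExcluded ε n, F n Z ≤ G n Z) :
    uE f₀ ε F ≤ gcE f₀ ε G := by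
  unfold uE gcE
  refine mul_le_mul_right (ENNReal.tsum_le_tsum fun n => mul_le_mul_right ?_ _) _
  refine uInt_le ((measurable_gcWeight hf ε n).mul (hG n)) fun Z => ?_
  by_cases hZ : Z ∈ PairExcluded ε n
  · exact mul_le_mul_right (h n Z hZ) _
  · have h0 : gcWeight f₀ ε n Z = 0 := by simp [gcWeight, Set.indicator_of_notMem hZ]
    simp only [h0, zero_mul]
    exact le_rfl

theorem gcE_le_uE (F : (n : ℕ) → Config n → ℝ≥0∞) : gcE f₀ ε F ≤ uE f₀ ε F := by
  unfold uE gcE
  exact mul_le_mul_right (ENNReal.tsum_le_tsum fun n =>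
    mul_le_mul_right (lintegral_le_uInt _) _) _

/-- The upper expectation is attained by a measurable majorant. -/
theorem exists_uE (hf : Measurable f₀) (F : (n : ℕ) → Config n → ℝ≥0∞) :
    ∃ G : (n : ℕ) → Config n → ℝ≥0∞, (∀ n, Measurable (G n)) ∧ (∀ n Z, F n Z ≤ G n Z) ∧
      gcE f₀ ε G = uE f₀ ε F := by
  choose h hh hFh hI using fun n => exists_uInt (volume : Measure (Config n))
    fun Z => gcWeight f₀ ε n Z * F n Z
  set G : (n : ℕ) → Config n → ℝ≥0∞ := fun n Z =>
    if gcWeight f₀ ε n Z = 0 then ∞ else (gcWeight f₀ ε n Z)⁻¹ * h n Z with hG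
  have hGm : ∀ n, Measurable (G n) := fun n =>
    Measurable.ite ((measurable_gcWeight hf ε n) (measurableSet_singleton 0)) measurable_const
      ((measurable_gcWeight hf ε n).inv.mul (hh n))
  have hFG : ∀ n Z, F n Z ≤ G n Z := by
    intro n Z
    simp only [hG]
    split_ifs with h0
    · exact le_top
    · calc F n Z = (gcWeight f₀ ε n Z)⁻¹ * (gcWeight f₀ ε n Z * F n Z) := by
            rw [← mul_assoc, ENNReal.inv_mul_cancel h0 (gcWeight_ne_top f₀ ε Z), one_mul]
        _ ≤ _ := mul_le_mul_right (hFh n Z) _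
  have hle : ∀ n Z, gcWeight f₀ ε n Z * G n Z ≤ h n Z := by
    intro n Z
    simp only [hG]
    split_ifs with h0
    · rw [h0, zero_mul]; exact zero_le
    · rw [← mul_assoc, ENNReal.mul_inv_cancel h0 (gcWeight_ne_top f₀ ε Z), one_mul]
  refine ⟨G, hGm, hFG, le_antisymm ?_ (uE_le hf hGm fun n Z _ => hFG n Z)⟩
  unfold uE gcE
  refine mul_le_mul_right (ENNReal.tsum_le_tsum fun n => mul_le_mul_right ?_ _) _
  rw [← hI n]
  exact lintegral_mono (hle n)

theorem uE_eq_gcE (hf : Measurable f₀) {F : (n : ℕ) → Config n → ℝ≥0∞}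
    (hF : ∀ n, Measurable (F n)) : uE f₀ ε F = gcE f₀ ε F :=
  le_antisymm (uE_le hf hF fun _ _ _ => le_rfl) (gcE_le_uE F)

theorem uE_mono (hf : Measurable f₀) {F G : (n : ℕ) → Config n → ℝ≥0∞}
    (h : ∀ n, ∀ Z ∈ PairExcluded ε n, F n Z ≤ G n Z) : uE f₀ ε F ≤ uE f₀ ε G := by
  obtain ⟨H, hH, hGH, hI⟩ := exists_uE (ε := ε) hf G
  rw [← hI]
  exact uE_le hf hH fun n Z hZ => (h n Z hZ).trans (hGH n Z)

theorem uE_add_le (hf : Measurable f₀) (F G : (n : ℕ) → Config n → ℝ≥0∞) :
    uE f₀ ε (fun n Z => F n Z + G n Z) ≤ uE f₀ ε F + uE f₀ ε G := by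
  obtain ⟨F', hF', hFF', hIF⟩ := exists_uE (ε := ε) hf F
  obtain ⟨G', hG', hGG', hIG⟩ := exists_uE (ε := ε) hf G
  rw [← hIF, ← hIG, ← gcE_add hf ε hF']
  exact uE_le hf (fun n => (hF' n).add (hG' n)) fun n Z _ => add_le_add (hFF' n Z) (hGG' n Z)

theorem uE_tsum_le (hf : Measurable f₀) {ι : Type*} [Countable ι]
    (F : ι → (n : ℕ) → Config n → ℝ≥0∞) :
    uE f₀ ε (fun n Z => ∑' i, F i n Z) ≤ ∑' i, uE f₀ ε (F i) := by
  choose G hG hFG hI using fun i => exists_uE (ε := ε) hf (F i)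
  calc uE f₀ ε (fun n Z => ∑' i, F i n Z) ≤ gcE f₀ ε fun n Z => ∑' i, G i n Z :=
        uE_le hf (fun n => Measurable.tsum fun i => hG i n)
          fun n Z _ => ENNReal.tsum_le_tsum fun i => hFG i n Z
    _ = ∑' i, gcE f₀ ε (G i) := gcE_tsum hf ε hG
    _ = ∑' i, uE f₀ ε (F i) := tsum_congr hI

theorem uE_finset_sum_le (hf : Measurable f₀) {ι : Type*} (s : Finset ι)
    (F : ι → (n : ℕ) → Config n → ℝ≥0∞) :
    uE f₀ ε (fun n Z => ∑ i ∈ s, F i n Z) ≤ ∑ i ∈ s, uE f₀ ε (F i) := by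
  choose G hG hFG hI using fun i => exists_uE (ε := ε) hf (F i)
  calc uE f₀ ε (fun n Z => ∑ i ∈ s, F i n Z) ≤ gcE f₀ ε fun n Z => ∑ i ∈ s, G i n Z :=
        uE_le hf (fun n => Finset.measurable_sum _ fun i _ => hG i n)
          fun n Z _ => Finset.sum_le_sum fun i _ => hFG i n Z
    _ = ∑ i ∈ s, gcE f₀ ε (G i) := gcE_finset_sum hf ε s fun i _ n => hG i n
    _ = ∑ i ∈ s, uE f₀ ε (F i) := Finset.sum_congr rfl fun i _ => hI i

theorem uE_const_mul_le (hf : Measurable f₀) {c : ℝ≥0∞} (hc : c ≠ ∞)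
    (F : (n : ℕ) → Config n → ℝ≥0∞) :
    uE f₀ ε (fun n Z => c * F n Z) ≤ c * uE f₀ ε F := by
  obtain ⟨G, hG, hFG, hI⟩ := exists_uE (ε := ε) hf F
  rw [← hI, ← gcE_const_mul f₀ ε hc]
  exact uE_le hf (fun n => (hG n).const_mul c) fun n Z _ => mul_le_mul_right (hFG n Z) _

end gas

/-! ## Symmetrisation of majorants -/

section sym

/-- Minimum over the relabellings of a marked functional (`r` marks). -/
def symMin {r : ℕ} (G : (n : ℕ) → Config n → (Fin r → Fin n) → ℝ≥0∞) (n : ℕ) (Z : Config n)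
    (m : Fin r → Fin n) : ℝ≥0∞ :=
  ⨅ σ : Equiv.Perm (Fin n), G n (fun k => Z (σ k)) (fun a => σ.symm (m a))

variable {r : ℕ} {G : (n : ℕ) → Config n → (Fin r → Fin n) → ℝ≥0∞}

theorem symMin_le (n : ℕ) (Z : Config n) (m : Fin r → Fin n) : symMin G n Z m ≤ G n Z m :=
  iInf_le (fun σ : Equiv.Perm (Fin n) => G n (fun k => Z (σ k)) fun a => σ.symm (m a)) 1

theorem measurable_symMin (hG : ∀ n m, Measurable fun Z => G n Z m) (n : ℕ) (m : Fin r → Fin n) :
    Measurable fun Z => symMin G n Z m :=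
  Measurable.iInf fun σ => (hG n _).comp
    (measurable_pi_iff.2 fun k => measurable_pi_apply (σ k))

/-- Covariance of the symmetrised majorant. -/
theorem symMin_perm (n : ℕ) (σ : Equiv.Perm (Fin n)) (Z : Config n) (m : Fin r → Fin n) :
    symMin G n (fun k => Z (σ k)) m = symMin G n Z (fun a => σ (m a)) := by
  unfold symMin
  refine (Equiv.iInf_congr (Equiv.mulLeft σ) fun τ => ?_)
  congr 1
  funext a
  change τ.symm (σ.symm (σ (m a))) = τ.symm (m a)
  rw [Equiv.symm_apply_apply]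

theorem le_symMin {F : (n : ℕ) → Config n → (Fin r → Fin n) → ℝ≥0∞}
    (hF : ∀ (n : ℕ) (σ : Equiv.Perm (Fin n)) (Z : Config n) (m : Fin r → Fin n),
      F n (fun k => Z (σ k)) m = F n Z (fun a => σ (m a)))
    (hFG : ∀ n Z m, F n Z m ≤ G n Z m) (n : ℕ) (Z : Config n) (m : Fin r → Fin n) :
    F n Z m ≤ symMin G n Z m := by
  refine le_iInf fun σ => ?_
  refine le_trans (le_of_eq ?_) (hFG n (fun k => Z (σ k)) fun a => σ.symm (m a))
  rw [hF n σ Z]
  congr 1
  funext a
  simp

/-- **Covariant measurable majorants, one mark**: a measurable majorant of a covariant functional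
can be replaced by a smaller, measurable and covariant one. -/
theorem exists_sym_majorant {F G : (n : ℕ) → Config n → Fin n → ℝ≥0∞}
    (hF : ∀ (n : ℕ) (σ : Equiv.Perm (Fin n)) (Z : Config n) (i : Fin n),
      F n (fun k => Z (σ k)) i = F n Z (σ i))
    (hG : ∀ n i, Measurable fun Z => G n Z i) (hFG : ∀ n Z i, F n Z i ≤ G n Z i) :
    ∃ H : (n : ℕ) → Config n → Fin n → ℝ≥0∞, (∀ n i, Measurable fun Z => H n Z i) ∧
      (∀ (n : ℕ) (σ : Equiv.Perm (Fin n)) (Z : Config n) (i : Fin n),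
        H n (fun k => Z (σ k)) i = H n Z (σ i)) ∧
      (∀ n Z i, F n Z i ≤ H n Z i) ∧ ∀ n Z i, H n Z i ≤ G n Z i := by
  refine ⟨fun n Z i => symMin (r := 1) (fun n Z m => G n Z (m 0)) n Z (fun _ => i),
    fun n i => measurable_symMin (fun n m => hG n (m 0)) n _,
    fun n σ Z i => symMin_perm n σ Z _, fun n Z i => ?_, fun n Z i => symMin_le n Z _⟩
  exact le_symMin (F := fun n Z m => F n Z (m 0)) (fun n σ Z m => hF n σ Z (m 0))
    (fun n Z m => hFG n Z (m 0)) n Z _

/-- No mark. -/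
theorem exists_sym_majorant₀ {F G : (n : ℕ) → Config n → ℝ≥0∞}
    (hF : ∀ (n : ℕ) (σ : Equiv.Perm (Fin n)) (Z : Config n), F n (fun k => Z (σ k)) = F n Z)
    (hG : ∀ n, Measurable (G n)) (hFG : ∀ n Z, F n Z ≤ G n Z) :
    ∃ H : (n : ℕ) → Config n → ℝ≥0∞, (∀ n, Measurable (H n)) ∧
      (∀ (n : ℕ) (σ : Equiv.Perm (Fin n)) (Z : Config n), H n (fun k => Z (σ k)) = H n Z) ∧
      (∀ n Z, F n Z ≤ H n Z) ∧ ∀ n Z, H n Z ≤ G n Z := by
  refine ⟨fun n Z => symMin (r := 0) (fun n Z _ => G n Z) n Z Fin.elim0,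
    fun n => measurable_symMin (fun n _ => hG n) n _, fun n σ Z => ?_, fun n Z => ?_,
    fun n Z => symMin_le n Z _⟩
  · change symMin (r := 0) (fun n Z _ => G n Z) n (fun k => Z (σ k)) Fin.elim0 =
      symMin (r := 0) (fun n Z _ => G n Z) n Z Fin.elim0
    rw [symMin_perm]
    congr 1
    funext a
    exact a.elim0
  · exact le_symMin (F := fun n Z _ => F n Z) (fun n σ Z _ => hF n σ Z)
      (fun n Z _ => hFG n Z) n Z _

end sym

/-! ## From local majorants to gas functionals -/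

section loc

variable {f₀ : PhasePoint → ℝ} {ε : ℝ}

/-- Sum over all ways of selecting `k ≤ K` particles containing `i` of the local functional. -/
def locBad (M : (k : ℕ) → Config k → Fin k → ℝ≥0∞) (K n : ℕ) (X : Config n) (i : Fin n) :
    ℝ≥0∞ :=
  ∑ k ∈ Finset.range (K + 1), (k.factorial : ℝ≥0∞)⁻¹ *
    ∑ ι : Fin k ↪ Fin n, ∑ j : Fin k, if ι j = i then M k (fun a => X (ι a)) j else 0

variable {M : (k : ℕ) → Config k → Fin k → ℝ≥0∞}

theorem measurable_locBad (hM : ∀ k j, Measurable fun V => M k V j) (K n : ℕ) (i : Fin n) :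
    Measurable fun X => locBad M K n X i := by
  unfold locBad
  refine Finset.measurable_sum _ fun k _ => Measurable.const_mul ?_ _
  refine Finset.measurable_sum _ fun ι _ => Finset.measurable_sum _ fun j _ => ?_
  by_cases h : ι j = i
  · simp only [if_pos h]
    exact (hM k j).comp (measurable_pi_iff.2 fun a => measurable_pi_apply (ι a))
  · simp only [if_neg h]
    exact measurable_const

theorem locBad_perm (K n : ℕ) (σ : Equiv.Perm (Fin n)) (X : Config n) (i : Fin n) :
    locBad M K n (fun k => X (σ k)) i = locBad M K n X (σ i) := by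
  unfold locBad
  refine Finset.sum_congr rfl fun k _ => ?_
  congr 1
  refine Fintype.sum_equiv (Equiv.embeddingCongr (Equiv.refl (Fin k)) σ) _ _ fun ι => ?_
  refine Finset.sum_congr rfl fun j _ => ?_
  have e1 : ∀ a, (Equiv.embeddingCongr (Equiv.refl (Fin k)) σ ι) a = σ (ι a) := fun a => rfl
  simp only [e1, σ.injective.eq_iff]

/-- Domination. -/
theorem le_locBad {E : (k : ℕ) → Config k → Fin k → ℝ≥0∞}
    (hE : ∀ (k : ℕ) (τ : Equiv.Perm (Fin k)) (V : Config k) (j : Fin k),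
      E k (fun a => V (τ a)) j = E k V (τ j))
    (hEM : ∀ k V j, E k V j ≤ M k V j) {K n k : ℕ} (hk : k ≤ K) (X : Config n)
    (ι : Fin k ↪ Fin n) (j : Fin k) : E k (fun a => X (ι a)) j ≤ locBad M K n X (ι j) := by
  unfold locBad
  refine le_trans ?_ (Finset.single_le_sum (f := fun k => (k.factorial : ℝ≥0∞)⁻¹ *
    ∑ ι' : Fin k ↪ Fin n, ∑ j' : Fin k, if ι' j' = ι j then M k (fun a => X (ι' a)) j' else 0)
    (fun _ _ => zero_le) (Finset.mem_range.2 (Nat.lt_succ_of_le hk)))
  have hk0 : (k.factorial : ℝ≥0∞) ≠ 0 := by exact_mod_cast (Nat.factorial_pos k).ne'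
  have hkt : (k.factorial : ℝ≥0∞) ≠ ∞ := ENNReal.natCast_ne_top _
  -- the relabelled embeddings
  have hinj : Function.Injective fun τ : Equiv.Perm (Fin k) => τ.toEmbedding.trans ι := by
    intro τ τ' h
    ext a
    have h1 := DFunLike.congr_fun h a
    exact congrArg Fin.val (ι.injective h1)
  have h2 : (k.factorial : ℝ≥0∞) * E k (fun a => X (ι a)) j ≤
      ∑ ι' : Fin k ↪ Fin n, ∑ j' : Fin k,
        if ι' j' = ι j then M k (fun a => X (ι' a)) j' else 0 := by
    calc (k.factorial : ℝ≥0∞) * E k (fun a => X (ι a)) j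
        = ∑ _τ : Equiv.Perm (Fin k), E k (fun a => X (ι a)) j := by
          rw [Finset.sum_const, Finset.card_univ, Fintype.card_perm, Fintype.card_fin,
            nsmul_eq_mul]
      _ ≤ ∑ τ : Equiv.Perm (Fin k), ∑ j' : Fin k, if (τ.toEmbedding.trans ι) j' = ι j then
            M k (fun a => X ((τ.toEmbedding.trans ι) a)) j' else 0 := by
          refine Finset.sum_le_sum fun τ _ => ?_
          refine le_trans ?_ (Finset.single_le_sum (f := fun j' : Fin k =>
            if (τ.toEmbedding.trans ι) j' = ι j then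
              M k (fun a => X ((τ.toEmbedding.trans ι) a)) j' else 0)
            (fun _ _ => zero_le) (Finset.mem_univ (τ.symm j)))
          have e1 : (τ.toEmbedding.trans ι) (τ.symm j) = ι j := by simp
          rw [if_pos e1]
          refine le_trans (le_of_eq ?_) (hEM k _ _)
          have e2 := hE k τ (fun a => X (ι a)) (τ.symm j)
          rw [Equiv.apply_symm_apply] at e2
          exact e2.symm
      _ = ∑ ι' ∈ Finset.univ.image (fun τ : Equiv.Perm (Fin k) => τ.toEmbedding.trans ι),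
            ∑ j' : Fin k, if ι' j' = ι j then M k (fun a => X (ι' a)) j' else 0 := by
          rw [Finset.sum_image fun a _ b _ h => hinj h]
      _ ≤ _ := Finset.sum_le_sum_of_subset (Finset.subset_univ _)
  calc E k (fun a => X (ι a)) j
      = (k.factorial : ℝ≥0∞)⁻¹ * ((k.factorial : ℝ≥0∞) * E k (fun a => X (ι a)) j) := by
        rw [← mul_assoc, ENNReal.inv_mul_cancel hk0 hkt, one_mul]
    _ ≤ _ := mul_le_mul_right h2 _

/-- **Mecke bound.** -/
theorem gcE_locBad_le (hf : Measurable f₀) (h1 : ∫⁻ z, ENNReal.ofReal (f₀ z) ≤ 1)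
    (hM : ∀ k j, Measurable fun V => M k V j) (K : ℕ) :
    gcE f₀ ε (fun n X => ∑ i : Fin n, locBad M K n X i) ≤
      ∑ k ∈ Finset.range (K + 1), activity ε ^ k / (k.factorial : ℝ≥0∞) *
        ∫⁻ V : Config k, gcWeight f₀ ε k V * ∑ j : Fin k, M k V j := by
  have hs : ∀ (n : ℕ) (X : Config n), ∑ i : Fin n, locBad M K n X i =
      ∑ k ∈ Finset.range (K + 1), (k.factorial : ℝ≥0∞)⁻¹ *
        ∑ ι : Fin k ↪ Fin n, ∑ j : Fin k, M k (fun a => X (ι a)) j := by
    intro n X
    unfold locBad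
    rw [Finset.sum_comm]
    refine Finset.sum_congr rfl fun k _ => ?_
    rw [← Finset.mul_sum]
    congr 1
    rw [Finset.sum_comm]
    refine Finset.sum_congr rfl fun ι _ => ?_
    rw [Finset.sum_comm]
    refine Finset.sum_congr rfl fun j _ => ?_
    rw [Finset.sum_ite_eq]
    simp
  have hGm : ∀ k, Measurable fun V : Config k => ∑ j : Fin k, M k V j := fun k =>
    Finset.measurable_sum _ fun j _ => hM k j
  have hm : ∀ (k n : ℕ), Measurable fun X : Config n =>
      ∑ ι : Fin k ↪ Fin n, ∑ j : Fin k, M k (fun a => X (ι a)) j := fun k n =>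
    Finset.measurable_sum _ fun ι _ =>
      (hGm k).comp (measurable_pi_iff.2 fun a => measurable_pi_apply (ι a))
  simp only [hs]
  rw [gcE_finset_sum hf ε _ fun k _ n => (hm k n).const_mul _]
  refine Finset.sum_le_sum fun k _ => ?_
  have hk0 : (k.factorial : ℝ≥0∞) ≠ 0 := by exact_mod_cast (Nat.factorial_pos k).ne'
  rw [gcE_const_mul f₀ ε (ENNReal.inv_ne_top.2 hk0), ENNReal.div_eq_inv_mul, mul_assoc]
  exact mul_le_mul_right (gcE_sum_emb_le hf h1 ε _ (hGm k)) _

/-- **The majorant layer, environment-free form**: a covariant local weight `E k V j` with a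
measurable majorant `M` gives a measurable covariant gas functional which dominates `E` on every
selection of at most `K` particles. -/
theorem exists_bad (hf : Measurable f₀) (h1 : ∫⁻ z, ENNReal.ofReal (f₀ z) ≤ 1)
    {E : (k : ℕ) → Config k → Fin k → ℝ≥0∞}
    (hE : ∀ (k : ℕ) (τ : Equiv.Perm (Fin k)) (V : Config k) (j : Fin k),
      E k (fun a => V (τ a)) j = E k V (τ j))
    (hM : ∀ k j, Measurable fun V => M k V j) (hEM : ∀ k V j, E k V j ≤ M k V j) (K : ℕ) :
    ∃ Bad : (n : ℕ) → Config n → Fin n → ℝ≥0∞, (∀ n i, Measurable fun X => Bad n X i) ∧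
      (∀ (n : ℕ) (σ : Equiv.Perm (Fin n)) (X : Config n) (i : Fin n),
        Bad n (fun k => X (σ k)) i = Bad n X (σ i)) ∧
      (∀ (n k : ℕ), k ≤ K → ∀ (X : Config n) (ι : Fin k ↪ Fin n) (j : Fin k),
        E k (fun a => X (ι a)) j ≤ Bad n X (ι j)) ∧
      gcE f₀ ε (fun n X => ∑ i : Fin n, Bad n X i) ≤
        ∑ k ∈ Finset.range (K + 1), activity ε ^ k / (k.factorial : ℝ≥0∞) *
          ∫⁻ V : Config k, gcWeight f₀ ε k V * ∑ j : Fin k, M k V j :=
  ⟨locBad M K, fun n i => measurable_locBad hM K n i, locBad_perm K,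
    fun _ _ hk X ι j => le_locBad hE hEM hk X ι j, gcE_locBad_le hf h1 hM K⟩

/-- The same from upper integrals of the local weight only. -/
theorem exists_bad_of_uInt (hf : Measurable f₀) (h1 : ∫⁻ z, ENNReal.ofReal (f₀ z) ≤ 1)
    {E : (k : ℕ) → Config k → Fin k → ℝ≥0∞}
    (hE : ∀ (k : ℕ) (τ : Equiv.Perm (Fin k)) (V : Config k) (j : Fin k),
      E k (fun a => V (τ a)) j = E k V (τ j)) (K : ℕ) :
    ∃ Bad : (n : ℕ) → Config n → Fin n → ℝ≥0∞, (∀ n i, Measurable fun X => Bad n X i) ∧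
      (∀ (n : ℕ) (σ : Equiv.Perm (Fin n)) (X : Config n) (i : Fin n),
        Bad n (fun k => X (σ k)) i = Bad n X (σ i)) ∧
      (∀ (n k : ℕ), k ≤ K → ∀ (X : Config n) (ι : Fin k ↪ Fin n) (j : Fin k),
        X ∈ PairExcluded ε n → E k (fun a => X (ι a)) j ≤ Bad n X (ι j)) ∧
      gcE f₀ ε (fun n X => ∑ i : Fin n, Bad n X i) ≤
        ∑ k ∈ Finset.range (K + 1), activity ε ^ k / (k.factorial : ℝ≥0∞) *
          ∑ j : Fin k, uInt volume fun V : Config k => gcWeight f₀ ε k V * E k V j := by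
  choose h hh hFh hI using fun (k : ℕ) (j : Fin k) => exists_uInt (volume : Measure (Config k))
    fun V => gcWeight f₀ ε k V * E k V j
  set M' : (k : ℕ) → Config k → Fin k → ℝ≥0∞ := fun k V j =>
    if gcWeight f₀ ε k V = 0 then ∞ else (gcWeight f₀ ε k V)⁻¹ * h k j V with hM'
  have hM'm : ∀ k j, Measurable fun V => M' k V j := fun k j =>
    Measurable.ite ((measurable_gcWeight hf ε k) (measurableSet_singleton 0)) measurable_const
      ((measurable_gcWeight hf ε k).inv.mul (hh k j))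
  have hEM' : ∀ k V j, E k V j ≤ M' k V j := by
    intro k V j
    simp only [hM']
    split_ifs with h0
    · exact le_top
    · calc E k V j = (gcWeight f₀ ε k V)⁻¹ * (gcWeight f₀ ε k V * E k V j) := by
            rw [← mul_assoc, ENNReal.inv_mul_cancel h0 (gcWeight_ne_top f₀ ε V), one_mul]
        _ ≤ _ := mul_le_mul_right (hFh k j V) _
  obtain ⟨Bad, hm, hc, hd, hb⟩ := exists_bad (M := M') (ε := ε) hf h1 hE hM'm hEM' K
  refine ⟨Bad, hm, hc, fun n k hk X ι j _ => hd n k hk X ι j, hb.trans ?_⟩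
  refine Finset.sum_le_sum fun k _ => mul_le_mul_right ?_ _
  calc ∫⁻ V : Config k, gcWeight f₀ ε k V * ∑ j : Fin k, M' k V j
      ≤ ∫⁻ V : Config k, ∑ j : Fin k, h k j V := by
        refine lintegral_mono fun V => ?_
        rw [Finset.mul_sum]
        refine Finset.sum_le_sum fun j _ => ?_
        simp only [hM']
        split_ifs with h0
        · rw [h0, zero_mul]; exact zero_le
        · rw [← mul_assoc, ENNReal.mul_inv_cancel h0 (gcWeight_ne_top f₀ ε V), one_mul]
    _ = ∑ j : Fin k, ∫⁻ V : Config k, h k j V := lintegral_finsetSum _ fun j _ => hh k j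
    _ = _ := Finset.sum_congr rfl fun j _ => hI k j

end loc

end Crest.Agent.R122.Major522
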