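import Crest.Agent.R122.StrN_998
import Crest.Agent.R122.LN2Touch_494

/-!
# Row 122, block H4 (helper494): integrating out a fresh step

* `step_mass` : mass of the contacts of a free line with a fresh Gaussian particle, with an
  exponential velocity weight, is at most `C (1 + |v|)`, uniformly in `ε`.
* `step_marg` : one step of `marg_le`.
-/

set_option autoImplicit false
set_option linter.unusedSectionVars false

open MeasureTheory ProbabilityTheory Set Filter
open scoped ENNReal Classical Topology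
open Crest.AnalysisR.Kinetic

noncomputable section

namespace Crest.Agent.R122.Marg494

open Crest.Agent.R122.GC311
open Crest.Agent.R122.Boost969 (LSt posAt)
open Crest.Agent.R122.Kin416 (gau measurable_gau lintegral_gau_lt_top)
open Crest.Agent.R122.Pair292 hiding ML
open Crest.Agent.R122.PairReal998 Crest.Agent.R122.LN2 Crest.Agent.R122.TouchFlux494

theorem gau_mul_exp (b a : ℝ) (v : Space3) :
    gau b v * ENNReal.ofReal (Real.exp (a * ‖v‖ ^ 2)) = gau (b - a) v := by
  unfold Kin416.gau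
  rw [← ENNReal.ofReal_mul (Real.exp_pos _).le, ← Real.exp_add]
  congr 2
  ring

/-- Total mass of the contact density. -/
theorem lintegral_dens_le {b₀ : ℝ} (hb : 0 < b₀) (te : ℝ) :
    ∃ C : ℝ≥0∞, C ≠ ∞ ∧ ∀ z : LSt,
      ∫⁻ c, dens b₀ z c ∂mC te ≤ C * ENNReal.ofReal (1 + ‖z.2.2‖) := by
  set B : ℝ≥0∞ := (volume (Metric.ball (0 : Disc416.Plane) 1)) with hB
  have hBt : B ≠ ∞ := measure_ball_lt_top.ne
  set M : ℝ≥0∞ := ∫⁻ u : Space3, ENNReal.ofReal (1 + ‖u‖) * gau b₀ u with hM
  have hMt : M ≠ ∞ := by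
    have h1 : ∀ u : Space3, ENNReal.ofReal (1 + ‖u‖) * gau b₀ u ≤
        ENNReal.ofReal (Real.exp (1 / (2 * b₀))) * gau (b₀ / 2) u := by
      intro u
      unfold Kin416.gau
      rw [← ENNReal.ofReal_mul (by positivity), ← ENNReal.ofReal_mul (by positivity)]
      refine ENNReal.ofReal_le_ofReal ?_
      have h2 : 1 + ‖u‖ ≤ Real.exp ‖u‖ := by
        have := Real.add_one_le_exp ‖u‖
        linarith
      have h3 : ‖u‖ ≤ 1 / (2 * b₀) + b₀ / 2 * ‖u‖ ^ 2 := by
        have h5 : 0 ≤ b₀ / 2 * (‖u‖ - 1 / b₀) ^ 2 := by positivity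
        have h6 : b₀ / 2 * (‖u‖ - 1 / b₀) ^ 2 = b₀ / 2 * ‖u‖ ^ 2 - ‖u‖ + 1 / (2 * b₀) := by
          field_simp
          ring
        linarith
      calc (1 + ‖u‖) * Real.exp (-b₀ * ‖u‖ ^ 2)
          ≤ Real.exp (1 / (2 * b₀) + b₀ / 2 * ‖u‖ ^ 2) * Real.exp (-b₀ * ‖u‖ ^ 2) := by
            refine mul_le_mul_of_nonneg_right (h2.trans (Real.exp_le_exp.2 h3))
              (Real.exp_pos _).le
        _ = Real.exp (1 / (2 * b₀)) * Real.exp (-(b₀ / 2) * ‖u‖ ^ 2) := by
            rw [← Real.exp_add, ← Real.exp_add]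
            congr 1
            ring
    refine ne_top_of_le_ne_top ?_ (lintegral_mono h1)
    rw [lintegral_const_mul' _ _ ENNReal.ofReal_ne_top]
    exact ENNReal.mul_ne_top ENNReal.ofReal_ne_top (lintegral_gau_lt_top (by positivity)).ne
  refine ⟨ENNReal.ofReal te * (M * B), ENNReal.mul_ne_top ENNReal.ofReal_ne_top
    (ENNReal.mul_ne_top hMt hBt), fun z => ?_⟩
  have hpt : ∀ c : CDat, dens b₀ z c ≤ ENNReal.ofReal (1 + ‖z.2.2‖) *
      (ENNReal.ofReal (1 + ‖c.2.1‖) * gau b₀ c.2.1) := by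
    intro c
    unfold dens rate
    rw [← mul_assoc]
    refine mul_le_mul_left ?_ _
    split_ifs
    · rw [← ENNReal.ofReal_mul (by positivity)]
      refine ENNReal.ofReal_le_ofReal ?_
      have h1 := norm_sub_le z.2.2 c.2.1
      nlinarith [norm_nonneg z.2.2, norm_nonneg c.2.1, mul_nonneg (norm_nonneg z.2.2)
        (norm_nonneg c.2.1)]
    · exact zero_le
  have hgm : Measurable fun u : Space3 => ENNReal.ofReal (1 + ‖u‖) * gau b₀ u :=
    (by fun_prop : Measurable fun u : Space3 => ENNReal.ofReal (1 + ‖u‖)).mul (measurable_gau b₀)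
  have hm : Measurable fun c : CDat => ENNReal.ofReal (1 + ‖c.2.1‖) * gau b₀ c.2.1 :=
    hgm.comp measurable_snd.fst
  calc ∫⁻ c, dens b₀ z c ∂mC te
      ≤ ∫⁻ c, ENNReal.ofReal (1 + ‖z.2.2‖) *
        (ENNReal.ofReal (1 + ‖c.2.1‖) * gau b₀ c.2.1) ∂mC te := lintegral_mono hpt
    _ = ENNReal.ofReal (1 + ‖z.2.2‖) *
        ∫⁻ c, ENNReal.ofReal (1 + ‖c.2.1‖) * gau b₀ c.2.1 ∂mC te :=
      lintegral_const_mul' _ _ ENNReal.ofReal_ne_top
    _ = ENNReal.ofReal (1 + ‖z.2.2‖) * (ENNReal.ofReal te * (M * B)) := by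
      congr 1
      unfold mC
      rw [lintegral_prod _ hm.aemeasurable]
      have h2 : ∫⁻ q : Space3 × Disc416.Plane,
          ENNReal.ofReal (1 + ‖q.1‖) * gau b₀ q.1
            ∂((volume : Measure Space3).prod (volume.restrict (Metric.ball (0 : Disc416.Plane) 1))) =
          M * B := by
        have h3 := lintegral_prod_mul (μ := (volume : Measure Space3))
          (ν := (volume : Measure Disc416.Plane).restrict (Metric.ball (0 : Disc416.Plane) 1))
          (f := fun u : Space3 => ENNReal.ofReal (1 + ‖u‖) * gau b₀ u)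
          (g := fun _ => 1) hgm.aemeasurable aemeasurable_const
        simp only [mul_one, lintegral_const, Measure.restrict_apply MeasurableSet.univ,
          univ_inter, one_mul] at h3
        exact h3
      simp only [lintegral_const, Measure.restrict_apply MeasurableSet.univ, univ_inter,
        Real.volume_Ioc, sub_zero]
      rw [mul_comm]
      congr 1
    _ = _ := by rw [mul_comm]

/-- **Mass of one fresh step**, with an exponential velocity weight. -/
theorem step_mass {Φ : Space3 → ℝ} (hΦ : AdmissiblePotential Φ) {b₀ a : ℝ} (ha : a < b₀)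
    (te : ℝ) : ∃ C : ℝ≥0∞, C ≠ ∞ ∧ ∀ ε : ℝ, 0 < ε → ∀ z : LSt,
      activity ε * ∫⁻ c : PhasePoint, (hitS ε te).indicator
        (fun x => gau b₀ x.1.2 * ENNReal.ofReal (Real.exp (a * ‖x.1.2‖ ^ 2))) (c, z) ≤
      C * ENNReal.ofReal (1 + ‖z.2.2‖) := by
  obtain ⟨C, hC, h⟩ := lintegral_dens_le (sub_pos.2 ha) te
  refine ⟨C, hC, fun ε hε z => ?_⟩
  have hout := outMap_outK hΦ ε none
  have h1 := lintegral_kO_hit (b₀ := b₀ - a) (te := te) hΦ hε hout z
    (F := fun _ => 1) measurable_const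
  have h2 := lintegral_kO hout ε (b₀ - a) te z (F := fun _ => 1) measurable_const
  simp only [mul_one] at h1 h2
  simp only [gau_mul_exp]
  rw [← h1, h2]
  exact h z

/-- **One step of `marg_le`.** If the new structure measure is dominated by the old one times the
contact density of the fresh particle, functionals of the old structure with an exponential weight in
all velocities are dominated by the old ones, with a slightly larger weight. -/
theorem step_marg {Φ : Space3 → ℝ} (hΦ : AdmissiblePotential Φ) {b₀ a a' : ℝ} (ha : a < b₀)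
    (haa : a < a') (te B : ℝ) (κ : Type) [Fintype κ] :
    ∃ C : ℝ≥0∞, C ≠ ∞ ∧ ∀ ε : ℝ, 0 < ε → ∀ (Θ Θ' : Type) [MeasurableSpace Θ] [MeasurableSpace Θ']
      (m : Measure Θ) (m' : Measure Θ') (pr : Θ' → Θ) (cc : Θ' → PhasePoint)
      (z : Θ → κ → PhasePoint) (e : Θ → LSt) (Q : ℝ≥0∞), Measurable e → Measurable z →
      (∀ᵐ θ ∂m, ‖(e θ).2.2‖ ≤ B * (1 + ∑ i, ‖(z θ i).2‖)) →
      (∀ G : Θ × PhasePoint → ℝ≥0∞, Measurable G →
        ∫⁻ x, G (pr x, cc x) ∂m' ≤ Q * ∫⁻ θ, activity ε * (∫⁻ c : PhasePoint,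
          (hitS ε te).indicator (fun x => gau b₀ x.1.2 * G (θ, x.1)) (c, e θ)) ∂m) →
      ∀ F : Θ → ℝ≥0∞, Measurable F →
        ∫⁻ x, F (pr x) * (expW a (z (pr x)) * ENNReal.ofReal (Real.exp (a * ‖(cc x).2‖ ^ 2))) ∂m' ≤
          C * Q * ∫⁻ θ, F θ * expW a' (z θ) ∂m := by
  obtain ⟨C₁, hC₁, h1⟩ := step_mass hΦ ha te
  obtain ⟨C₂, hC₂, h2⟩ := exists_one_add_le_expW (κ := κ) (sub_pos.2 haa) B
  refine ⟨C₁ * C₂, ENNReal.mul_ne_top hC₁ hC₂, ?_⟩
  intro ε hε Θ Θ' _ _ m m' pr cc z e Q he hz hv hle F hF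
  have hzm : Measurable fun θ => expW a (z θ) := (measurable_expW a).comp hz
  have hGm : Measurable fun p : Θ × PhasePoint =>
      F p.1 * (expW a (z p.1) * ENNReal.ofReal (Real.exp (a * ‖p.2.2‖ ^ 2))) :=
    (hF.comp measurable_fst).mul ((hzm.comp measurable_fst).mul
      (by fun_prop : Measurable fun p : Θ × PhasePoint =>
        ENNReal.ofReal (Real.exp (a * ‖p.2.2‖ ^ 2))))
  have h3 := hle _ hGm
  have hpt : ∀ᵐ θ ∂m, activity ε * ∫⁻ c : PhasePoint, (hitS ε te).indicator
      (fun x => gau b₀ x.1.2 * (F θ * (expW a (z θ) *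
        ENNReal.ofReal (Real.exp (a * ‖x.1.2‖ ^ 2))))) (c, e θ) ≤
      C₁ * C₂ * (F θ * expW a' (z θ)) := by
    filter_upwards [hv] with θ hθ
    have e1 : ∀ c : PhasePoint, (hitS ε te).indicator
        (fun x : PhasePoint × LSt => gau b₀ x.1.2 * (F θ * (expW a (z θ) *
          ENNReal.ofReal (Real.exp (a * ‖x.1.2‖ ^ 2))))) (c, e θ) =
        F θ * expW a (z θ) * (hitS ε te).indicator
          (fun x : PhasePoint × LSt => gau b₀ x.1.2 *
            ENNReal.ofReal (Real.exp (a * ‖x.1.2‖ ^ 2))) (c, e θ) := by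
      intro c
      by_cases hc : (c, e θ) ∈ hitS ε te
      · rw [indicator_of_mem hc, indicator_of_mem hc]
        ring
      · rw [indicator_of_notMem hc, indicator_of_notMem hc, mul_zero]
    simp only [e1]
    have hmm : Measurable fun c : PhasePoint => (hitS ε te).indicator
          (fun x : PhasePoint × LSt => gau b₀ x.1.2 *
            ENNReal.ofReal (Real.exp (a * ‖x.1.2‖ ^ 2))) (c, e θ) := by
      have hb : Measurable fun x : PhasePoint × LSt => gau b₀ x.1.2 *
            ENNReal.ofReal (Real.exp (a * ‖x.1.2‖ ^ 2)) :=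
        ((measurable_gau b₀).comp measurable_fst.snd).mul (by fun_prop)
      exact (hb.indicator (measurableSet_hitS hΦ ε te)).comp
        (measurable_id.prodMk measurable_const)
    rw [lintegral_const_mul _ hmm]
    calc activity ε * (F θ * expW a (z θ) * ∫⁻ c : PhasePoint, (hitS ε te).indicator
          (fun x : PhasePoint × LSt => gau b₀ x.1.2 *
            ENNReal.ofReal (Real.exp (a * ‖x.1.2‖ ^ 2))) (c, e θ))
        = F θ * expW a (z θ) * (activity ε * ∫⁻ c : PhasePoint, (hitS ε te).indicator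
          (fun x : PhasePoint × LSt => gau b₀ x.1.2 *
            ENNReal.ofReal (Real.exp (a * ‖x.1.2‖ ^ 2))) (c, e θ)) := by ring
      _ ≤ F θ * expW a (z θ) * (C₁ * (C₂ * expW (a' - a) (z θ))) := by
          refine mul_le_mul_right ((h1 ε hε (e θ)).trans (mul_le_mul_right ?_ _)) _
          exact h2 _ _ hθ
      _ = C₁ * C₂ * (F θ * (expW a (z θ) * expW (a' - a) (z θ))) := by ring
      _ = _ := by
          rw [expW_add, show a + (a' - a) = a' by ring]
  calc ∫⁻ x, F (pr x) * (expW a (z (pr x)) * ENNReal.ofReal (Real.exp (a * ‖(cc x).2‖ ^ 2))) ∂m'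
      ≤ Q * ∫⁻ θ, activity ε * (∫⁻ c : PhasePoint, (hitS ε te).indicator
          (fun x => gau b₀ x.1.2 * (F θ * (expW a (z θ) *
            ENNReal.ofReal (Real.exp (a * ‖x.1.2‖ ^ 2))))) (c, e θ)) ∂m := h3
    _ ≤ Q * ∫⁻ θ, C₁ * C₂ * (F θ * expW a' (z θ)) ∂m :=
        mul_le_mul_right (lintegral_mono_ae hpt) _
    _ = _ := by
        rw [lintegral_const_mul' _ _ (ENNReal.mul_ne_top hC₁ hC₂)]
        ring

end Crest.Agent.R122.Marg494

end
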