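import Crest.Agent.R122.Mark10_307
import Crest.Agent.R122.Omega_969

/-!
# Base pair laws (row 122, block H7b), helper307: the source at the top node

* `px_srcT` : the law (exit line, sibling on the sphere of radius `ε`) is a spread pair law.
* `domR_top` : `DomR` for the top node.
-/

set_option autoImplicit false
set_option maxHeartbeats 400000
set_option linter.unusedSectionVars false

open MeasureTheory ProbabilityTheory Set Filter
open scoped ENNReal Topology Classical
open Crest.AnalysisR.Kinetic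
open Crest.Agent.R122.Kin796 Crest.Agent.R122.Kin796.CTree Crest.Agent.R122.Tree674
open Crest.Agent.R122.Disc416 Crest.Agent.R122.EDefs602
open Crest.Agent.R122.Boost969 Crest.Agent.R122.Kin416 Crest.Agent.R122.Omega969
open Crest.Agent.R122.Pair292 hiding ML
open Crest.Agent.R122.CollLeg969 (WPack CLeg EC collM domK)
open Crest.Agent.R122.PairSrc969

noncomputable section

namespace Crest.Agent.R122.Mark307

variable {Φ : Space3 → ℝ}

/-- time indicator -/
def iT (te s : ℝ) : ℝ≥0∞ := if 0 < s ∧ s ≤ te then 1 else 0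

theorem measurable_iT (te : ℝ) : Measurable (iT te) := by
  unfold iT
  exact Measurable.ite ((measurableSet_lt measurable_const measurable_id).inter
    (measurableSet_le measurable_id measurable_const)) measurable_const measurable_const

theorem lineM_geC {γ : ℝ → ℝ} (hγm : Measurable γ) {ρ : ℝ≥0∞} (hρ1 : ρ ≤ 1) {K n : ℕ}
    (hn : 1 ≤ n) (hnK : n ≤ K) {T b' : ℝ} (hγ : ∀ τ ∈ Ioc 0 T, γ τ ≤ b')
    {φ : ML → ℝ≥0∞} (hφ : Measurable φ) :
    ρ ^ n * ∫⁻ d : BLine, iT T d.1 * (gE b' d.2.2 * φ (d, n)) ≤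
      ∫⁻ l, φ l ∂lineM γ ρ K T := by
  have hm : Measurable fun l : ML => lineD γ ρ K l * φ l := (EBasic602.measurable_lineD hγm).mul hφ
  have hm2 : Measurable fun d : BLine => iT T d.1 * (gE b' d.2.2 * φ (d, n)) :=
    ((measurable_iT T).comp measurable_fst).mul (((measurable_gE b').comp measurable_snd.snd).mul
      (hφ.comp (measurable_id.prodMk measurable_const)))
  have e1 : ∫⁻ l, φ l ∂lineM γ ρ K T = ∫⁻ x, ∑' n : ℕ, lineD γ ρ K (x, n) * φ (x, n)
      ∂((volume.restrict (Ioc (0 : ℝ) T)).prod (volume : Measure PhasePoint)) := by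
    unfold lineM
    rw [lintegral_withDensity_eq_lintegral_mul _ (EBasic602.measurable_lineD hγm) hφ]
    unfold lineV
    simp only [Pi.mul_apply]
    rw [lintegral_prod _ hm.aemeasurable]
    refine lintegral_congr fun x => ?_
    rw [lintegral_count]
  have e2 : ((volume.restrict (Ioc (0 : ℝ) T)).prod (volume : Measure PhasePoint)) =
      (volume : Measure BLine).restrict ((Ioc 0 T) ×ˢ univ) := by
    rw [Measure.volume_eq_prod ℝ PhasePoint, ← Measure.prod_restrict, Measure.restrict_univ]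
  rw [e1, e2, ← lintegral_const_mul _ hm2,
    ← lintegral_indicator (measurableSet_Ioc.prod MeasurableSet.univ)]
  refine lintegral_mono fun d => ?_
  by_cases hd : 0 < d.1 ∧ d.1 ≤ T
  · have hd' : d ∈ (Ioc (0 : ℝ) T) ×ˢ (univ : Set PhasePoint) := ⟨⟨hd.1, hd.2⟩, mem_univ _⟩
    rw [indicator_of_mem hd']
    refine le_trans ?_ (ENNReal.le_tsum n)
    have h1 : gE b' d.2.2 ≤ Kin796.wG (γ d.1) d.2.2 := by
      rw [gE_eq_wG]
      unfold Kin796.wG
      refine ENNReal.ofReal_le_ofReal (Real.exp_le_exp.2 (neg_le_neg ?_))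
      exact mul_le_mul_of_nonneg_right (hγ d.1 ⟨hd.1, hd.2⟩) (by positivity)
    have h2 : ρ ^ n = markW ρ K n := by
      unfold markW
      rw [if_pos ⟨hn, hnK⟩]
    unfold lineD
    rw [← h2]
    show ρ ^ n * (iT T d.1 * (gE b' d.2.2 * φ (d, n))) ≤ _
    unfold iT
    rw [if_pos hd, one_mul]
    calc ρ ^ n * (gE b' d.2.2 * φ (d, n)) = gE b' d.2.2 * ρ ^ n * φ (d, n) := by ring
      _ ≤ _ := by gcongr
  · show ρ ^ n * (iT T d.1 * (gE b' d.2.2 * φ (d, n))) ≤ _
    unfold iT
    rw [if_neg hd, zero_mul, mul_zero]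
    exact bot_le

/-! ### The source -/

/-- source data: exit line, direction -/
abbrev SQ : Type := BLine × Space3

/-- direction indicator -/
def iS (w : Space3) : ℝ≥0∞ := if ‖w‖ = 1 then 1 else 0

theorem measurable_iS : Measurable iS := by
  unfold iS
  exact Measurable.ite (measurableSet_eq_fun measurable_norm measurable_const) measurable_const
    measurable_const

/-- density of the source -/
def sG (C : ℝ≥0∞) (te b' : ℝ) (p : SQ × Space3) : ℝ≥0∞ :=
  iT te p.1.1.1 * (iS p.1.2 * (C * ((gE b' p.2 * gE b' p.1.1.2.2) *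
    ENNReal.ofReal (-inner ℝ (p.2 - p.1.1.2.2) p.1.2))))

/-- bound of the density -/
def sA (C : ℝ≥0∞) (te bs : ℝ) (q : SQ) : ℝ≥0∞ := iT te q.1.1 * (C * gE bs q.1.2.2)

theorem measurable_sG (C : ℝ≥0∞) (te b' : ℝ) : Measurable (sG C te b') := by
  unfold sG
  have h1 : Measurable fun p : SQ × Space3 => ENNReal.ofReal (-inner ℝ (p.2 - p.1.1.2.2) p.1.2) :=
    ENNReal.measurable_ofReal.comp (Continuous.measurable (by fun_prop))
  exact ((measurable_iT te).comp measurable_fst.fst.fst).mul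
    ((measurable_iS.comp measurable_fst.snd).mul (measurable_const.mul
      ((((measurable_gE b').comp measurable_snd).mul
        ((measurable_gE b').comp measurable_fst.fst.snd.snd)).mul h1)))

theorem measurable_sA (C : ℝ≥0∞) (te bs : ℝ) : Measurable (sA C te bs) := by
  unfold sA
  exact ((measurable_iT te).comp measurable_fst.fst).mul
    (measurable_const.mul ((measurable_gE bs).comp measurable_fst.snd.snd))

theorem sG_le {bs b' : ℝ} (hb : bs < b') : ∃ C1 : ℝ≥0∞, C1 ≠ ∞ ∧ ∀ (C : ℝ≥0∞) (te : ℝ) (q : SQ)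
    (v : Space3), sG C te b' (q, v) ≤ sA (C * C1) te bs q * gau bs v := by
  obtain ⟨C1, hC1, h1⟩ := one_add_gE hb
  refine ⟨C1 * C1, ENNReal.mul_ne_top hC1 hC1, fun C te q v => ?_⟩
  unfold sG sA iS
  simp only
  by_cases hq : ‖q.2‖ = 1
  · rw [if_pos hq, one_mul]
    have h2 : ENNReal.ofReal (-inner ℝ (v - q.1.2.2) q.2) ≤
        ENNReal.ofReal (1 + ‖v‖) * ENNReal.ofReal (1 + ‖q.1.2.2‖) := by
      refine le_trans (ENNReal.ofReal_le_ofReal ?_) (norm_sub_le_mul v q.1.2.2)
      have h3 := abs_real_inner_le_norm (v - q.1.2.2) q.2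
      rw [hq, mul_one] at h3
      exact (neg_le_abs _).trans h3
    calc iT te q.1.1 * (C * (gE b' v * gE b' q.1.2.2 *
          ENNReal.ofReal (-inner ℝ (v - q.1.2.2) q.2)))
        ≤ iT te q.1.1 * (C * (gE b' v * gE b' q.1.2.2 *
          (ENNReal.ofReal (1 + ‖v‖) * ENNReal.ofReal (1 + ‖q.1.2.2‖)))) := by gcongr
      _ = iT te q.1.1 * (C * ((ENNReal.ofReal (1 + ‖v‖) * gE b' v) *
          (ENNReal.ofReal (1 + ‖q.1.2.2‖) * gE b' q.1.2.2))) := by ring
      _ ≤ iT te q.1.1 * (C * ((C1 * gE bs v) * (C1 * gE bs q.1.2.2))) :=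
          mul_le_mul_right (mul_le_mul_right (mul_le_mul' (h1 v) (h1 q.1.2.2)) _) _
      _ = iT te q.1.1 * (C * (C1 * C1) * gE bs q.1.2.2) * gau bs v := by
          rw [← gE_eq_gau]; ring
  · rw [if_neg hq, zero_mul, mul_zero]
    exact bot_le

/-- translation of the source data -/
def sT (a : Space3) (q : SQ) : SQ := (shL a q.1, q.2)

theorem measurePreserving_shL (a : Space3) :
    MeasurePreserving (shL a) (volume : Measure BLine) (volume : Measure BLine) := by
  have h1 := (MeasurePreserving.id (volume : Measure ℝ)).prod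
    ((measurePreserving_add_right (volume : Measure Space3) a).prod
      (MeasurePreserving.id (volume : Measure Space3)))
  exact h1

theorem map_sT (a : Space3) : ((volume : Measure BLine).prod sphM).map (sT a) =
    (volume : Measure BLine).prod sphM :=
  ((measurePreserving_shL a).prod (MeasurePreserving.id sphM)).map_eq

theorem measurable_sT (a : Space3) : Measurable (sT a) :=
  ((measurable_shL a).comp measurable_fst).prodMk measurable_snd

/-- the law of the source -/
def srcT (C : ℝ≥0∞) (ε te b' : ℝ) (N : ℕ) : Measure (Lab × LSt) :=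
  srcN ((volume : Measure BLine).prod sphM) (fun q => (q.1, N)) (fun q => q.1.1) (fun _ => N)
    (fun q => q.1.2.1 - ε • q.2) (sG C te b')

theorem measurable_sD (N : ℕ) : Measurable fun q : SQ => ((q.1, N) : ML) :=
  measurable_fst.prodMk measurable_const

theorem measurable_sY (ε : ℝ) : Measurable fun q : SQ => q.1.2.1 - ε • q.2 := by fun_prop

theorem lintegral_srcT (C : ℝ≥0∞) (ε te b' : ℝ) (N : ℕ) {F : Lab × LSt → ℝ≥0∞}
    (hF : Measurable F) : ∫⁻ p, F p ∂srcT C ε te b' N =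
      ∫⁻ q, (∫⁻ v, sG C te b' (q, v) * F (((q.1, N), (q.1.1, N)),
        (q.1.1, (q.1.2.1 - ε • q.2, v)))) ∂((volume : Measure BLine).prod sphM) :=
  lintegral_srcN (measurable_sD N) measurable_fst.fst measurable_const (measurable_sY ε)
    (measurable_sG C te b') hF

/-- **The source is in the class.** -/
theorem px_srcT {B : BPar} (hB : B.Ok) {b' : ℝ} (hb : B.bs < b') {C : ℝ≥0∞} (hC : C ≠ ∞)
    {N : ℕ} (hN : 1 ≤ N) : ∃ c : ℝ≥0∞, c ≠ ∞ ∧ ∀ (ε te : ℝ) (K : ℕ) (Pp : PPar), te ≤ B.T →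
      N ≤ K → IsPP B te K Pp → ∃ Ξ, PX Pp Ξ (srcT C ε te b' N) c := by
  obtain ⟨C1, hC1, h1⟩ := sG_le hb
  have hρt : B.ρ ≠ ∞ := (hB.ρ1.trans_lt ENNReal.one_lt_top).ne
  have hp0 : B.ρ ^ N ≠ 0 := pow_ne_zero _ hB.ρ0
  have hpt : B.ρ ^ N ≠ ∞ := ENNReal.pow_ne_top hρt
  set cm : ℝ≥0∞ := sphM univ * (B.lam₁ ^ N * (C * C1) * (B.ρ ^ N)⁻¹) with hcm
  have hcmt : cm ≠ ∞ := by
    refine ENNReal.mul_ne_top (measure_ne_top _ _) (ENNReal.mul_ne_top (ENNReal.mul_ne_top
      (ENNReal.pow_ne_top hB.lt) (ENNReal.mul_ne_top hC hC1)) (ENNReal.inv_ne_top.2 hp0))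
  have hη : (∫⁻ v, gau (B.bs / 2 - B.η) v) ≠ ∞ := by
    have h2 := hB.ηs
    exact lintegral_gE_ne_top (b := B.bs / 2 - B.η) (by linarith)
  refine ⟨cm * (cB * ENNReal.ofReal (Real.exp B.bs) * (B.A * ∫⁻ v, gau (B.bs / 2 - B.η) v)),
    ENNReal.mul_ne_top hcmt (ENNReal.mul_ne_top (ENNReal.mul_ne_top cB_ne_top
      ENNReal.ofReal_ne_top) (ENNReal.mul_ne_top hB.wp.Atop hη)),
    fun ε te K Pp hte hNK hPp => ⟨srcN ((volume : Measure BLine).prod sphM)
      (fun q => (q.1, N)) (fun q => q.1.1) (fun _ => N) (fun q => q.1.2.1 - ε • q.2)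
      (prD (sA (C * C1) te B.bs) B.bs), ?_⟩⟩
  unfold srcT
  refine PX.src (b := B.bs) hB.wp hPp.w (measurable_sD N) measurable_fst.fst measurable_const
    (measurable_sY ε) (measurable_sG C te b') (measurable_sA (C * C1) te B.bs) hB.bs0.le
    (fun q v => h1 C te q v) ?_ sT measurable_sT map_sT (fun a q => rfl) (fun a q => rfl)
    (fun a q => rfl) ?_ (fun a q v => rfl) ?_
  · intro q hq
    by_contra hc
    refine hq ?_
    unfold sA iT
    rw [if_neg (fun h => hc h.1.le), zero_mul]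
  · intro a q
    show q.1.2.1 + a - ε • q.2 = q.1.2.1 - ε • q.2 + a
    abel
  · intro F hF
    have hφ : Measurable fun l : ML => F (l, l.1.1) :=
      hF.comp (measurable_id.prodMk measurable_fst.fst)
    have h2 := lineM_geC hB.γm hB.ρ1 hN hNK (T := te) (b' := B.bs)
      (fun τ hτ => hB.γs τ ⟨hτ.1, hτ.2.trans hte⟩) hφ
    have h3 : ∫⁻ d : BLine, iT te d.1 * (gE B.bs d.2.2 * F ((d, N), d.1)) ≤
        (B.ρ ^ N)⁻¹ * ∫⁻ l, F (l, l.1.1) ∂lineM B.γ B.ρ K te := by
      rw [← ENNReal.mul_le_iff_le_inv hp0 hpt]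
      exact h2
    have hm : Measurable fun d : BLine => iT te d.1 * (gE B.bs d.2.2 * F ((d, N), d.1)) :=
      ((measurable_iT te).comp measurable_fst).mul (((measurable_gE B.bs).comp
        measurable_snd.snd).mul (hF.comp ((measurable_id.prodMk measurable_const).prodMk
          measurable_fst)))
    have hm1 : Measurable fun q : SQ => F (((q.1, N) : ML), q.1.1) *
        (Pp.lam₁ ^ N * sA (C * C1) te B.bs q) :=
      (hF.comp ((measurable_sD N).prodMk measurable_fst.fst)).mul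
        (measurable_const.mul (measurable_sA _ _ _))
    calc ∫⁻ q : SQ, F (((q.1, N) : ML), q.1.1) * (Pp.lam₁ ^ N * sA (C * C1) te B.bs q)
          ∂((volume : Measure BLine).prod sphM)
        = ∫⁻ d : BLine, ∫⁻ _w : Space3, F ((d, N), d.1) *
          (Pp.lam₁ ^ N * (iT te d.1 * ((C * C1) * gE B.bs d.2.2))) ∂sphM :=
          lintegral_prod _ hm1.aemeasurable
      _ = ∫⁻ d : BLine, (sphM univ * (B.lam₁ ^ N * (C * C1))) *
          (iT te d.1 * (gE B.bs d.2.2 * F ((d, N), d.1))) := by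
          refine lintegral_congr fun d => ?_
          rw [lintegral_const, hPp.l]
          ring
      _ = (sphM univ * (B.lam₁ ^ N * (C * C1))) *
          ∫⁻ d : BLine, iT te d.1 * (gE B.bs d.2.2 * F ((d, N), d.1)) :=
          lintegral_const_mul _ hm
      _ ≤ (sphM univ * (B.lam₁ ^ N * (C * C1))) *
          ((B.ρ ^ N)⁻¹ * ∫⁻ l, F (l, l.1.1) ∂lineM B.γ B.ρ K te) := mul_le_mul_right h3 _
      _ = cm * ∫⁻ l, F (l, l.1.1) ∂Pp.ℓ := by rw [hcm, hPp.ell]; ring
      _ ≤ cm * Pp.rhs F := mul_le_mul_right le_self_add _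

/-- almost sure facts of the source -/
theorem aux_srcT {ε : ℝ} (hε : 0 < ε) (C : ℝ≥0∞) (te b' : ℝ) (N : ℕ) :
    AuxF ε (srcT C ε te b' N) := by
  have key : ∀ S : Lab × LSt → Prop, MeasurableSet {p | S p} →
      (∀ (q : SQ) (v : Space3), sG C te b' (q, v) ≠ 0 →
        S (((q.1, N), (q.1.1, N)), (q.1.1, (q.1.2.1 - ε • q.2, v)))) →
      ∀ᵐ p ∂srcT C ε te b' N, S p := by
    intro S hS h
    have hSm : MeasurableSet {p : Lab × LSt | ¬ S p} := hS.compl
    have hF : Measurable ({p : Lab × LSt | ¬ S p}.indicator (1 : Lab × LSt → ℝ≥0∞)) :=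
      measurable_one.indicator hSm
    rw [ae_iff, ← lintegral_indicator_one hSm, lintegral_srcT C ε te b' N hF]
    refine (lintegral_congr fun q => ?_).trans lintegral_zero
    refine (lintegral_congr fun v => ?_).trans lintegral_zero
    by_cases hG : sG C te b' (q, v) = 0
    · rw [hG, zero_mul]
    · have h2 : ((((q.1, N), (q.1.1, N)), (q.1.1, (q.1.2.1 - ε • q.2, v))) : Lab × LSt) ∉
          {p : Lab × LSt | ¬ S p} := fun hc => hc (h q v hG)
      rw [indicator_of_notMem h2, mul_zero]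
  have hpos : ∀ (q : SQ) (v : Space3), sG C te b' (q, v) ≠ 0 →
      0 < q.1.1 ∧ ‖q.2‖ = 1 ∧ 0 < -inner ℝ (v - q.1.2.2) q.2 := by
    intro q v h
    unfold sG iT iS at h
    simp only at h
    refine ⟨?_, ?_, ?_⟩
    · by_contra hc
      exact h (by rw [if_neg (fun h => hc h.1), zero_mul])
    · by_contra hc
      exact h (by rw [if_neg hc, zero_mul, mul_zero])
    · by_contra hc
      exact h (by rw [ENNReal.ofReal_of_nonpos (not_lt.1 hc)]; simp)
  refine ⟨key _ ?_ fun q v h => ?_, key _ ?_ fun q v h h1 => ?_⟩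
  · have h1 : MeasurableSet {θ : Lab × LSt | 0 ≤ θ.1.2.1} :=
      measurableSet_le measurable_const measurable_fst.snd.fst
    have h2 : MeasurableSet {θ : Lab × LSt | θ.1.2.1 = θ.1.1.1.1} :=
      measurableSet_eq_fun measurable_fst.snd.fst measurable_fst.fst.fst.fst
    have h3 : MeasurableSet {θ : Lab × LSt | θ.1.1.1.1 ≤ θ.2.1} :=
      measurableSet_le measurable_fst.fst.fst.fst measurable_snd.fst
    exact h1.inter (h2.inter h3)
  · exact ⟨(hpos q v h).1.le, rfl, le_rfl⟩
  · have h1 : MeasurableSet {θ : Lab × LSt | θ.1.1.1.1 = θ.2.1} :=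
      measurableSet_eq_fun measurable_fst.fst.fst.fst measurable_snd.fst
    have hd : Measurable fun θ : Lab × LSt => dist θ.1.1.1.2.1 θ.2.2.1 :=
      measurable_fst.fst.fst.snd.fst.dist measurable_snd.snd.fst
    have hi : Measurable fun θ : Lab × LSt =>
        inner ℝ (θ.1.1.1.2.1 - θ.2.2.1) (θ.1.1.1.2.2 - θ.2.2.2) :=
      (measurable_fst.fst.fst.snd.fst.sub measurable_snd.snd.fst).inner
        (measurable_fst.fst.fst.snd.snd.sub measurable_snd.snd.snd)
    have h2 : MeasurableSet {θ : Lab × LSt | SibSepD ε θ} := by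
      have h3 : MeasurableSet {θ : Lab × LSt | ε ≤ dist θ.1.1.1.2.1 θ.2.2.1} :=
        measurableSet_le measurable_const hd
      have h4 : MeasurableSet {θ : Lab × LSt | dist θ.1.1.1.2.1 θ.2.2.1 = ε} :=
        measurableSet_eq_fun hd measurable_const
      have h5 : MeasurableSet {θ : Lab × LSt |
          0 < inner ℝ (θ.1.1.1.2.1 - θ.2.2.1) (θ.1.1.1.2.2 - θ.2.2.2)} :=
        measurableSet_lt measurable_const hi
      exact h3.inter (h4.imp h5)
    exact h1.imp h2
  · obtain ⟨-, h2, h3⟩ := hpos q v h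
    have e1 : q.1.2.1 - (q.1.2.1 - ε • q.2) = ε • q.2 := by abel
    have e2 : dist q.1.2.1 (q.1.2.1 - ε • q.2) = ε := by
      rw [dist_eq_norm, e1, norm_smul, h2, mul_one, Real.norm_eq_abs, abs_of_pos hε]
    refine ⟨e2.ge, fun _ => ?_⟩
    show 0 < inner ℝ (q.1.2.1 - (q.1.2.1 - ε • q.2)) (q.1.2.2 - v)
    rw [e1, inner_smul_left, real_inner_comm, ← neg_sub v q.1.2.2, inner_neg_left]
    exact mul_pos hε h3

end Crest.Agent.R122.Mark307

end
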