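import Crest.Agent.R122.Mark11_307

/-!
# Base pair laws (row 122, block H7b), helper307: `DomR` for the top node

* `sib_disc`, `sG_int` : integration of the sibling in direction form.
* `domR_top` : `DomR` for the top node.
-/

set_option autoImplicit false
set_option maxHeartbeats 400000
set_option linter.unusedSectionVars false

open MeasureTheory ProbabilityTheory Set Filter
open scoped ENNReal Topology Classical
open Crest.AnalysisR.Kinetic
open Crest.Agent.R122.Kin796 Crest.Agent.R122.Kin796.CTree Crest.Agent.R122.Tree674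
open Crest.Agent.R122.Disc416 Crest.Agent.R122.EDefs602 Crest.Agent.R122.TreeDom974
open Crest.Agent.R122.Boost969 Crest.Agent.R122.Kin416 Crest.Agent.R122.Omega969
open Crest.Agent.R122.Pair292 hiding ML
open Crest.Agent.R122.CollLeg969 (WPack CLeg EC collM domK)
open Crest.Agent.R122.PairSrc969

noncomputable section

namespace Crest.Agent.R122.Mark307

variable {Φ : Space3 → ℝ}

/-- unit disc indicator -/
def iD (y : Plane) : ℝ≥0∞ := if ‖y‖ < 1 then 1 else 0

theorem measurable_iD : Measurable iD := by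
  unfold iD
  exact Measurable.ite (measurableSet_lt measurable_norm measurable_const) measurable_const
    measurable_const

/-- direction of the sibling -/
def eD (g : Space3) (y : Plane) : Space3 := entrancePoint (frameMap g y) g

theorem measurable_eD : Measurable fun q : Space3 × Plane => eD q.1 q.2 :=
  Scat818.measurable_entrancePoint.comp ((measurable_frameMap.comp measurable_id).prodMk
    measurable_fst)

theorem eD_def (g : Space3) (y : Plane) : eD g y = entrancePoint (frameMap g y) g := rfl

attribute [irreducible] eD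

/-- inner integral -/
theorem disc_dir {ψ : Space3 → ℝ≥0∞} (hψ : Measurable ψ) (g : Space3) (c : ℝ≥0∞) :
    ∫⁻ y : Plane, iD y * (c * (ENNReal.ofReal ‖g‖ * ψ (eD g y))) =
      c * ∫⁻ w, ENNReal.ofReal (-inner ℝ g w) * ψ w ∂sphM := by
  have hm : Measurable fun y : Plane => ψ (eD g y) :=
    hψ.comp (measurable_eD.comp (measurable_const.prodMk measurable_id))
  have e1 : ∀ y : Plane, iD y * (c * (ENNReal.ofReal ‖g‖ * ψ (eD g y))) =
      (c * ENNReal.ofReal ‖g‖) * (Metric.ball (0 : Plane) 1).indicator (fun y => ψ (eD g y)) y := by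
    intro y
    unfold iD
    by_cases hy : ‖y‖ < 1
    · rw [if_pos hy, indicator_of_mem (by rw [mem_ball_zero_iff]; exact hy)]
      ring
    · rw [if_neg hy, indicator_of_notMem (by rw [mem_ball_zero_iff]; exact hy)]
      simp
  simp only [e1]
  rw [lintegral_const_mul _ (hm.indicator measurableSet_ball),
    lintegral_indicator measurableSet_ball]
  by_cases hv : g = 0
  · rw [hv]
    simp
  · have h2 := omega_disc hv hψ
    calc (c * ENNReal.ofReal ‖g‖) * ∫⁻ y in Metric.ball (0 : Plane) 1, ψ (eD g y)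
        = c * (ENNReal.ofReal ‖g‖ * ∫⁻ y in Metric.ball (0 : Plane) 1, ψ (eD g y)) := by ring
      _ = _ := by simp only [eD_def]; rw [h2]

/-- coefficient -/
def cD (te b' : ℝ) (d : BLine) (v : Space3) : ℝ≥0∞ := iT te d.1 * (gE b' v * gE b' d.2.2)

theorem measurable_cD (te b' : ℝ) : Measurable fun q : BLine × Space3 => cD te b' q.1 q.2 := by
  unfold cD
  exact ((measurable_iT te).comp measurable_fst.fst).mul
    (((measurable_gE b').comp measurable_snd).mul ((measurable_gE b').comp measurable_fst.snd.snd))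

section

variable {Kf : BLine × (Space3 × Space3) → ℝ≥0∞}

/-- integrand of the sibling integral -/
def sibF (te b' : ℝ) (Kf : BLine × (Space3 × Space3) → ℝ≥0∞) (z : BLine × (Space3 × Plane)) :
    ℝ≥0∞ :=
  iD z.2.2 * (cD te b' z.1 z.2.1 * (ENNReal.ofReal ‖z.2.1 - z.1.2.2‖ *
    Kf (z.1, (z.2.1, eD (z.2.1 - z.1.2.2) z.2.2))))

theorem measurable_sibF (te b' : ℝ) (hK : Measurable Kf) : Measurable (sibF te b' Kf) := by
  unfold sibF
  have h1 : Measurable fun z : BLine × (Space3 × Plane) => (z.2.1 - z.1.2.2, z.2.2) :=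
    (measurable_snd.fst.sub measurable_fst.snd.snd).prodMk measurable_snd.snd
  have h2 : Measurable fun z : BLine × (Space3 × Plane) => eD (z.2.1 - z.1.2.2) z.2.2 :=
    measurable_eD.comp h1
  have h3 : Measurable fun z : BLine × (Space3 × Plane) => ENNReal.ofReal ‖z.2.1 - z.1.2.2‖ :=
    ENNReal.measurable_ofReal.comp (measurable_norm.comp
      (measurable_snd.fst.sub measurable_fst.snd.snd))
  have h4 : Measurable fun z : BLine × (Space3 × Plane) => cD te b' z.1 z.2.1 :=
    (measurable_cD te b').comp (measurable_fst.prodMk measurable_snd.fst)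
  have h5 : Measurable fun z : BLine × (Space3 × Plane) =>
      Kf (z.1, (z.2.1, eD (z.2.1 - z.1.2.2) z.2.2)) :=
    hK.comp (measurable_fst.prodMk (measurable_snd.fst.prodMk h2))
  have h6 : Measurable fun z : BLine × (Space3 × Plane) => iD z.2.2 :=
    measurable_iD.comp measurable_snd.snd
  exact h6.mul (h4.mul (h3.mul h5))

/-- integrand in direction form -/
def dirF (te b' : ℝ) (Kf : BLine × (Space3 × Space3) → ℝ≥0∞) (q : BLine × Space3) : ℝ≥0∞ :=
  cD te b' q.1 q.2 * ∫⁻ w, ENNReal.ofReal (-inner ℝ (q.2 - q.1.2.2) w) * Kf (q.1, (q.2, w)) ∂sphM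

theorem measurable_dirI (hK : Measurable Kf) : Measurable fun p : (BLine × Space3) × Space3 =>
    ENNReal.ofReal (-inner ℝ (p.1.2 - p.1.1.2.2) p.2) * Kf (p.1.1, (p.1.2, p.2)) := by
  have h1 : Measurable fun p : (BLine × Space3) × Space3 =>
      ENNReal.ofReal (-inner ℝ (p.1.2 - p.1.1.2.2) p.2) :=
    ((measurable_fst.snd.sub measurable_fst.fst.snd.snd).inner measurable_snd).neg.ennreal_ofReal
  exact h1.mul (hK.comp (measurable_fst.fst.prodMk (measurable_fst.snd.prodMk measurable_snd)))

theorem measurable_dirF (te b' : ℝ) (hK : Measurable Kf) : Measurable (dirF te b' Kf) := by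
  unfold dirF
  exact (measurable_cD te b').mul ((measurable_dirI hK).lintegral_prod_right' (ν := sphM))

/-- **Sibling integral in direction form.** -/
theorem sib_disc (te b' : ℝ) (hK : Measurable Kf) :
    ∫⁻ z : BLine × (Space3 × Plane), sibF te b' Kf z = ∫⁻ q : BLine × Space3, dirF te b' Kf q := by
  rw [Measure.volume_eq_prod BLine (Space3 × Plane), Measure.volume_eq_prod BLine Space3,
    lintegral_prod _ (measurable_sibF te b' hK).aemeasurable,
    lintegral_prod _ (measurable_dirF te b' hK).aemeasurable]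
  refine lintegral_congr fun d => ?_
  have hm0 : Measurable fun q : Space3 × Plane => sibF te b' Kf (d, q) :=
    (measurable_sibF te b' hK).comp (measurable_const.prodMk measurable_id)
  rw [Measure.volume_eq_prod, lintegral_prod _ hm0.aemeasurable]
  refine lintegral_congr fun v => ?_
  exact disc_dir (ψ := fun w => Kf (d, (v, w)))
    (hK.comp (measurable_const.prodMk (measurable_const.prodMk measurable_id))) (v - d.2.2)
    (cD te b' d v)

/-- the source integral in direction form -/
theorem sG_int (C : ℝ≥0∞) (te b' : ℝ) (hK : Measurable Kf) :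
    ∫⁻ q : SQ, (∫⁻ v, sG C te b' (q, v) * Kf (q.1, (v, q.2))) ∂((volume : Measure BLine).prod sphM) =
      C * ∫⁻ q : BLine × Space3, dirF te b' Kf q := by
  have hRm : Measurable fun p : SQ × Space3 => sG C te b' p * Kf (p.1.1, (p.2, p.1.2)) :=
    (measurable_sG C te b').mul (hK.comp (measurable_fst.fst.prodMk
      (measurable_snd.prodMk measurable_fst.snd)))
  have hRI : Measurable fun q : SQ => ∫⁻ v, sG C te b' (q, v) * Kf (q.1, (v, q.2)) :=
    hRm.lintegral_prod_right'
  rw [lintegral_prod _ hRI.aemeasurable, ← lintegral_const_mul _ (measurable_dirF te b' hK),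
    Measure.volume_eq_prod BLine Space3,
    lintegral_prod _ ((measurable_dirF te b' hK).const_mul C).aemeasurable]
  refine lintegral_congr fun d => ?_
  have hmd : Measurable fun p : Space3 × Space3 => sG C te b' ((d, p.1), p.2) *
      Kf (d, (p.2, p.1)) :=
    hRm.comp (g := fun p : SQ × Space3 => sG C te b' p * Kf (p.1.1, (p.2, p.1.2)))
      (f := fun p : Space3 × Space3 => (((d, p.1), p.2) : SQ × Space3))
      ((measurable_const.prodMk measurable_fst).prodMk measurable_snd)
  rw [lintegral_lintegral_swap (f := fun w v => sG C te b' ((d, w), v) * Kf (d, (v, w)))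
    hmd.aemeasurable]
  refine lintegral_congr fun v => ?_
  have hmw : Measurable fun w : Space3 => ENNReal.ofReal (-inner ℝ (v - d.2.2) w) *
      Kf (d, (v, w)) :=
    (measurable_dirI hK).comp (g := fun p : (BLine × Space3) × Space3 =>
      ENNReal.ofReal (-inner ℝ (p.1.2 - p.1.1.2.2) p.2) * Kf (p.1.1, (p.1.2, p.2)))
      (f := fun w : Space3 => (((d, v), w) : (BLine × Space3) × Space3))
      (measurable_const.prodMk measurable_id)
  calc ∫⁻ w, sG C te b' ((d, w), v) * Kf (d, (v, w)) ∂sphM
      = ∫⁻ w, (C * cD te b' d v) * (ENNReal.ofReal (-inner ℝ (v - d.2.2) w) *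
          Kf (d, (v, w))) ∂sphM := by
        refine lintegral_congr_ae ?_
        filter_upwards [ae_norm_sphM] with w hw
        unfold sG iS cD
        simp only
        rw [if_pos hw]
        ring
    _ = (C * cD te b' d v) * ∫⁻ w, ENNReal.ofReal (-inner ℝ (v - d.2.2) w) *
          Kf (d, (v, w)) ∂sphM := lintegral_const_mul _ hmw
    _ = _ := by
        show _ = C * (cD te b' d v * _)
        rw [mul_assoc]

end

/-- **`DomR` for the top node.** -/
theorem domR_top (hΦ : AdmissiblePotential Φ) {B : BPar} (hB : B.Ok) {b : ℝ} (hb : B.bs < b)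
    (l r : CTree) : DomR Φ B b (node l r) (Mk.top l r) := by
  set b' : ℝ := (B.bs + b) / 2 with hb'
  have hb1 : B.bs < b' := by rw [hb']; linarith
  have hb2 : b' < b := by rw [hb']; linarith
  have hb0 : 0 < b' := hB.bs0.trans hb1
  obtain ⟨C, hC, hN⟩ := N0 hΦ hb0 hb2 B.T l r
  have hN1 : 1 ≤ (node l r).leaves := by
    exact TreeLines335.one_le_leaves _
  obtain ⟨c, hc, hX⟩ := px_srcT hB hb1 hC hN1
  refine ⟨c, hc, fun ε T' te hε hε1 hte hteT hT K hK Pp hPp => ?_⟩
  obtain ⟨Ξ, hΞ⟩ := hX ε te K Pp (hteT.trans hT) hK hPp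
  refine ⟨Ξ, _, hΞ, aux_srcT hε C te b' _, fun F hF hF0 => ?_⟩
  set N : ℕ := (node l r).leaves with hNdef
  -- the integrand at the node
  set H : PhasePoint × NodeP → ℝ≥0∞ := fun z =>
    F (((topX ε z, N), (z.2.1, N)), (z.2.1, onLine z.1 z.2.1)) with hH
  have hon : Measurable fun z : PhasePoint × NodeP => onLine z.1 z.2.1 := by
    unfold onLine
    exact (measurable_fst.fst.add (measurable_snd.fst.smul measurable_fst.snd)).prodMk
      measurable_fst.snd
  have hHm : Measurable H := by
    refine hF.comp ?_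
    exact (((measurable_topX ε).prodMk measurable_const).prodMk
      (measurable_snd.fst.prodMk measurable_const)).prodMk (measurable_snd.fst.prodMk hon)
  have hH0 : ∀ z : PhasePoint × NodeP, ¬ z.2.1 ≤ te → H z = 0 := fun z hz =>
    hF0 (((topX ε z, N), (z.2.1, N)), (z.2.1, onLine z.1 z.2.1)) hz
  have hz1 : Measurable fun z : PhasePoint × Par (node l r) =>
      ((z.1, z.2.1) : PhasePoint × NodeP) :=
    measurable_fst.prodMk ((measurable_par1 l r).comp measurable_snd)
  have hint : Measurable fun z : PhasePoint × Par (node l r) =>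
      vw Φ ε (node l r) T' z * (gw b (node l r) z * H (z.1, z.2.1)) :=
    (measurable_vw hΦ ε (node l r) T').mul ((measurable_gw b (node l r)).mul (hHm.comp hz1))
  -- the sibling integrand
  set Kf : BLine × (Space3 × Space3) → ℝ≥0∞ := fun q =>
    F (((q.1, N), (q.1.1, N)), (q.1.1, (q.1.2.1 - ε • q.2.2, q.2.1))) with hKf
  have hKm : Measurable Kf := by
    refine hF.comp ?_
    refine ((measurable_fst.prodMk measurable_const).prodMk
      (measurable_fst.fst.prodMk measurable_const)).prodMk
      (measurable_fst.fst.prodMk (Measurable.prodMk ?_ measurable_snd.fst))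
    exact measurable_fst.snd.fst.sub (measurable_snd.snd.const_smul ε)
  -- the majorant before the exchange
  set G : PhasePoint × NodeP → ℝ≥0∞ := fun z =>
    iD z.2.2.2 * ((iT te z.2.1 * (gE b' z.1.2 * gE b' z.2.2.1)) *
      (ENNReal.ofReal ‖z.1.2 - z.2.2.1‖ * H z)) with hG
  have hGm : Measurable G := by
    have h3 : Measurable fun z : PhasePoint × NodeP => ENNReal.ofReal ‖z.1.2 - z.2.2.1‖ :=
      (measurable_fst.snd.sub measurable_snd.snd.fst).norm.ennreal_ofReal
    exact (measurable_iD.comp measurable_snd.snd.snd).mul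
      ((((measurable_iT te).comp measurable_snd.fst).mul
        (((measurable_gE b').comp measurable_fst.snd).mul
          ((measurable_gE b').comp measurable_snd.snd.fst))).mul (h3.mul hHm))
  have hle : ∀ (ℓ : PhasePoint) (a : NodeP), (vI Φ ε T' (ℓ, a) * ENNReal.ofReal ‖ℓ.2 - a.2.1‖) *
      ((gE b' ℓ.2 * gE b' a.2.1) * H (ℓ, a)) ≤ G (ℓ, a) := by
    intro ℓ a
    by_cases h1 : a.1 ≤ te
    swap
    · rw [hH0 (ℓ, a) h1, mul_zero, mul_zero]; exact bot_le
    have h2 := vI_le_box (Φ := Φ) hε.le hT ℓ a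
    by_cases h3 : 0 < a.1 ∧ ‖a.2.2‖ < 1
    · have h4 : iD a.2.2 = 1 := if_pos h3.2
      have h5 : iT te a.1 = 1 := if_pos ⟨h3.1, h1⟩
      have h6 : vI Φ ε T' (ℓ, a) ≤ 1 :=
        h2.trans (by unfold box1; exact Set.indicator_le_self' (fun _ _ => zero_le_one) _)
      rw [hG]
      simp only
      rw [h4, h5, one_mul, one_mul]
      calc (vI Φ ε T' (ℓ, a) * ENNReal.ofReal ‖ℓ.2 - a.2.1‖) *
            ((gE b' ℓ.2 * gE b' a.2.1) * H (ℓ, a))
          ≤ (1 * ENNReal.ofReal ‖ℓ.2 - a.2.1‖) * ((gE b' ℓ.2 * gE b' a.2.1) * H (ℓ, a)) :=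
            mul_le_mul_left (mul_le_mul_left h6 _) _
        _ = _ := by ring
    · have h4 : box1 B.T a = 0 := by
        unfold box1
        exact indicator_of_notMem (fun hc => h3 ⟨hc.1.1, hc.2⟩) _
      have h5 : vI Φ ε T' (ℓ, a) = 0 := le_antisymm (h2.trans h4.le) bot_le
      rw [h5, zero_mul, zero_mul]
      exact bot_le
  calc ∫⁻ z : PhasePoint × Par (node l r), vw Φ ε (node l r) T' z * (gw b (node l r) z *
        F (((exM Φ ε (Mk.top l r) z, mkN (Mk.top l r)), ((exM Φ ε (Mk.top l r) z).1,
          (node l r).leaves)), rootB (node l r) z))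
      = ∫⁻ z : PhasePoint × Par (node l r), vw Φ ε (node l r) T' z * (gw b (node l r) z *
        H (z.1, z.2.1)) := rfl
    _ = ∫⁻ ℓ : PhasePoint, ∫⁻ p : Par (node l r), vw Φ ε (node l r) T' (ℓ, p) *
        (gw b (node l r) (ℓ, p) * H (ℓ, p.1)) := by
        rw [Measure.volume_eq_prod, lintegral_prod _ hint.aemeasurable]
    _ ≤ ∫⁻ ℓ : PhasePoint, C * ∫⁻ a : NodeP, (vI Φ ε T' (ℓ, a) * ENNReal.ofReal ‖ℓ.2 - a.2.1‖) *
        ((gE b' ℓ.2 * gE b' a.2.1) * H (ℓ, a)) :=
        lintegral_mono fun ℓ => hN ε T' hε hT ℓ (fun a => H (ℓ, a))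
          (hHm.comp (measurable_const.prodMk measurable_id))
    _ ≤ ∫⁻ ℓ : PhasePoint, C * ∫⁻ a : NodeP, G (ℓ, a) :=
        lintegral_mono fun ℓ => mul_le_mul_right (lintegral_mono fun a => hle ℓ a) _
    _ = C * ∫⁻ ℓ : PhasePoint, ∫⁻ a : NodeP, G (ℓ, a) :=
        lintegral_const_mul _ hGm.lintegral_prod_right'
    _ = C * ∫⁻ z : PhasePoint × NodeP, G z := by
        rw [Measure.volume_eq_prod PhasePoint NodeP, lintegral_prod _ hGm.aemeasurable]
    _ = C * ∫⁻ z : BLine × (Space3 × Plane), sibF te b' Kf z := by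
        rw [lintegral_sib ε hGm]
        congr 1
        refine lintegral_congr fun z => ?_
        obtain ⟨d, u, y⟩ := z
        have e1 : topX ε (sibLine ε d (u, y), ((d.1, d.2.2, y) : NodeP)) = d := by
          simp only [topX, onLine, outLine, sibLine]
          refine Prod.ext rfl (Prod.ext ?_ rfl)
          simp only
          module
        have e2 : onLine (sibLine ε d (u, y)) d.1 =
            (d.2.1 - ε • eD (u - d.2.2) y, u) := by
          unfold onLine sibLine
          rw [eD_def]
          refine Prod.ext ?_ rfl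
          show _ - _ - d.1 • u + d.1 • u = _
          rw [sub_add_cancel]
          rfl
        rw [hG]
        simp only
        rw [hH]
        simp only
        rw [e1, e2]
        rfl
    _ = C * ∫⁻ q : BLine × Space3, dirF te b' Kf q := by rw [sib_disc te b' hKm]
    _ = ∫⁻ q : SQ, (∫⁻ v, sG C te b' (q, v) * Kf (q.1, (v, q.2)))
          ∂((volume : Measure BLine).prod sphM) := (sG_int C te b' hKm).symm
    _ = ∫⁻ p, F p ∂srcT C ε te b' N := (lintegral_srcT C ε te b' N hF).symm

end Crest.Agent.R122.Mark307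

end
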