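import Crest.Agent.R122.Mark12_307

/-!
# Base pair laws (row 122, block H7b), helper307: `DomR`, `DomP` on the forward path

* `stepL`, `stepR` : forward step through a node.
* `domR` : `DomR` for all marks.
* `domP_fwd` : `DomP` for `fwd m m'`; `domP_inl`, `domP_inr` : reduction of `DomP` to one branch.
-/

set_option autoImplicit false
set_option maxHeartbeats 400000
set_option linter.unusedSectionVars false

open MeasureTheory ProbabilityTheory Set Filter
open scoped ENNReal Topology Classical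
open Crest.AnalysisR.Kinetic
open Crest.Agent.R122.Kin796 Crest.Agent.R122.Kin796.CTree Crest.Agent.R122.Tree674
open Crest.Agent.R122.Disc416 Crest.Agent.R122.EDefs602 Crest.Agent.R122.TreeDom974
open Crest.Agent.R122.Boost969 Crest.Agent.R122.Kin416
open Crest.Agent.R122.Pair292 hiding ML
open Crest.Agent.R122.CollLeg969 (WPack CLeg EC collM domK)
open Crest.Agent.R122.PairSrc969

noncomputable section

namespace Crest.Agent.R122.Mark307

variable {Φ : Space3 → ℝ}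

/-- Domination of the law of (exit, line `X` at the top node). -/
def DomX (Φ : Space3 → ℝ) (B : BPar) (b : ℝ) (l r : CTree) (X : ℝ → PhasePoint × NodeP → BLine)
    (m : Mk (node l r)) : Prop :=
  ∃ c : ℝ≥0∞, c ≠ ∞ ∧ ∀ ε T' te : ℝ, 0 < ε → ε ≤ 1 → 0 < te → te ≤ T' → T' ≤ B.T →
    ∀ K : ℕ, (node l r).leaves ≤ K → ∀ Pp : PPar, IsPP B te K Pp →
    ∃ Ξ ν : Measure (Lab × LSt), PX Pp Ξ ν c ∧ AuxF ε ν ∧
      ∀ F : Lab × LSt → ℝ≥0∞, Measurable F → (∀ p, ¬ p.1.1.1.1 ≤ te → F p = 0) →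
        ∫⁻ z : PhasePoint × Par (node l r), vw Φ ε (node l r) T' z * (gw b (node l r) z *
          F (((exM Φ ε m z, mkN m), ((exM Φ ε m z).1, (node l r).leaves)), X ε (z.1, z.2.1))) ≤
        ∫⁻ p, F p ∂ν

/-- the leg `L` gives the line `X` at a flipped node (first orientation) -/
structure FwdL (Φ : Space3 → ℝ) (L : ℝ → Leg EC) (X : ℝ → PhasePoint × NodeP → BLine) : Prop where
  cl : ∀ ε, 0 < ε → CLeg (L ε)
  meas : ∀ ε, Measurable (X ε)
  out : ∀ ε, 0 < ε → ∀ (T' : ℝ) (ℓ : PhasePoint) (a : NodeP), (ℓ, a) ∈ GoodL Φ ε T' →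
    ∀ s₀ : ℝ, X ε (outD Φ ε T' (ℓ, inLine ε ℓ a)) =
      (L ε).out ((s₀, onLine ℓ s₀), (a.1, eN ℓ a))

/-- the leg `L` gives the line `X` at a flipped node (second orientation) -/
structure FwdR (Φ : Space3 → ℝ) (L : ℝ → Leg EC) (X : ℝ → PhasePoint × NodeP → BLine) : Prop where
  cl : ∀ ε, 0 < ε → CLeg (L ε)
  meas : ∀ ε, Measurable (X ε)
  out : ∀ ε, 0 < ε → ∀ (T' : ℝ) (ℓ : PhasePoint) (a : NodeP), (ℓ, a) ∈ GoodR Φ ε T' →
    ∀ s₀ : ℝ, X ε (outD Φ ε T' (inLine ε ℓ a, ℓ)) =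
      (L ε).out ((s₀, onLine ℓ s₀), (a.1, eN ℓ a))

/-- root line of a node -/
def rootX (_ε : ℝ) (o : PhasePoint × NodeP) : BLine := (o.2.1, onLine o.1 o.2.1)

theorem measurable_rootX (ε : ℝ) : Measurable (rootX ε) := by
  unfold rootX onLine
  exact measurable_snd.fst.prodMk ((measurable_fst.fst.add
    (measurable_snd.fst.smul measurable_fst.snd)).prodMk measurable_fst.snd)

theorem fwdL_root (hΦ : AdmissiblePotential Φ) :
    FwdL Φ (fun ε => CollLeg969.legL' hΦ ε) rootX where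
  cl ε hε := CLeg.legL' hΦ hε.le
  meas := measurable_rootX
  out ε hε T' ℓ a h s₀ := (out_L hΦ hε h rfl s₀).1

theorem fwdL_top (hΦ : AdmissiblePotential Φ) :
    FwdL Φ (fun ε => CollLeg969.legC' hΦ ε) topX where
  cl ε hε := CLeg.legC' hΦ hε.le
  meas := measurable_topX
  out ε hε T' ℓ a h s₀ := (out_L hΦ hε h rfl s₀).2

theorem fwdR_root (hΦ : AdmissiblePotential Φ) :
    FwdR Φ (fun ε => CollLeg969.legC' hΦ ε) rootX where
  cl ε hε := CLeg.legC' hΦ hε.le
  meas := measurable_rootX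
  out ε hε T' ℓ a h s₀ := (out_R hΦ hε h rfl s₀).1

theorem fwdR_top (hΦ : AdmissiblePotential Φ) :
    FwdR Φ (fun ε => CollLeg969.legL' hΦ ε) topX where
  cl ε hε := CLeg.legL' hΦ hε.le
  meas := measurable_topX
  out ε hε T' ℓ a h s₀ := (out_R hΦ hε h rfl s₀).2

/-- the root birth is before the next entrance -/
theorem topT_lt {P : CTree} {p : Par P} {s : ℝ} (hs : 0 < s) (h : TopLt P s p) : topT P p < s := by
  cases P with
  | leaf => exact hs
  | node l r => exact h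

theorem measurable_topT : ∀ P : CTree, Measurable (topT P)
  | leaf => measurable_const
  | node l r => (measurable_par1 l r).fst

theorem measurable_rootB (P : CTree) : Measurable (rootB P) := by
  have h1 : Measurable fun z : PhasePoint × Par P => topT P z.2 :=
    (measurable_topT P).comp measurable_snd
  unfold rootB onLine
  exact h1.prodMk ((measurable_fst.fst.add (h1.smul measurable_fst.snd)).prodMk measurable_fst.snd)

/-- measurability of the label map -/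
theorem measurable_sgT (hΦ : AdmissiblePotential Φ) (ε : ℝ) {P : CTree} (m m' : Mk P) :
    Measurable (sgT Φ ε m m') := by
  unfold sgT
  split_ifs
  · exact (measurable_exM hΦ ε m).fst
  · exact (measurable_exM hΦ ε m').fst

theorem measurable_pairT (hΦ : AdmissiblePotential Φ) (ε : ℝ) {P : CTree} (m m' : Mk P) :
    Measurable (pairT Φ ε m m') := by
  unfold pairT
  exact (((measurable_exM hΦ ε m).prodMk measurable_const).prodMk
    ((measurable_sgT hΦ ε m m').prodMk measurable_const)).prodMk (measurable_exM hΦ ε m')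

/-- the class constant of a forward step -/
theorem px_step {B : BPar} (hB : B.Ok) {te : ℝ} {K : ℕ} {Pp : PPar} (hPp : IsPP B te K Pp)
    {Ξ ν : Measure (Lab × LSt)} {c : ℝ≥0∞} (h : PX Pp Ξ ν c) {L : Leg EC} (hL : CLeg L) (k : ℕ)
    (C : ℝ≥0∞) :
    PX Pp (C • Ξ.bind (mkK fadd (q1 k) (domK L B.b₀)))
      (C • ν.bind (mkK fadd (q1 k) (fwdK collM L CollLeg969.gE 1 B.b₀)))
      (C * (B.lam * B.lam₁ ^ k * c)) := by
  have h1 := stepK_fwd (f := fadd) (q := q1 k) hB.wp hPp.w hB.b0.le hL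
    (fun m n => le_rfl) (q1_ne_top k)
  have h2 := PairSrc969.PX.smul (h.bind h1) C
  refine h2.mono_c (le_of_eq ?_)
  rw [tsum_q1' k fun m => Pp.lam₁ ^ m, hPp.l]

/-- **Forward step through a node, first orientation.** -/
theorem stepL (hΦ : AdmissiblePotential Φ) {B : BPar} (hB : B.Ok) {b : ℝ} (hb : B.bs < b)
    {l : CTree} (m : Mk l) (r : CTree) (hR : DomR Φ B b l m) {L : ℝ → Leg EC}
    {X : ℝ → PhasePoint × NodeP → BLine} (hX : FwdL Φ L X) :
    DomX Φ B b l r X (Mk.inl m r) := by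
  obtain ⟨C, hC, hN⟩ := NL hΦ hB.b0 (hB.b0s.trans_lt hb) B.T l r
  obtain ⟨c, hc, hR⟩ := hR
  refine ⟨C * (B.lam * B.lam₁ ^ r.leaves * c), ENNReal.mul_ne_top hC (ENNReal.mul_ne_top
    (ENNReal.mul_ne_top hB.lamt (ENNReal.pow_ne_top hB.lt)) hc), ?_⟩
  intro ε T' te hε hε1 hte hteT hT K hK Pp hPp
  have hlv : (node l r).leaves = l.leaves + r.leaves := rfl
  obtain ⟨Ξ, ν, hPX, hA, hdom⟩ := hR ε T' te hε hε1 hte hteT hT K (by omega) Pp hPp
  have hL := hX.cl ε hε
  refine ⟨_, _, px_step hB hPp hPX hL r.leaves C, (hA.bind hL B.b₀ (q1_ne_top _)).smul C,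
    fun F hF hF0 => ?_⟩
  -- the function of the followed branch
  set κ : Kernel LSt LSt := fwdK collM (L ε) CollLeg969.gE 1 B.b₀ with hκ
  set G : Lab × LSt → ℝ≥0∞ := fun p => ∫⁻ p', F p' ∂mkK fadd (q1 r.leaves) κ p with hG
  have hsf : IsSFiniteKernel (mkK fadd (q1 r.leaves) κ) :=
    (stepK_fwd (f := fadd) (q := q1 r.leaves) hB.wp hPp.w hB.b0.le hL
      (fun m n => le_rfl) (q1_ne_top _)).sf
  have hGm : Measurable G := hF.lintegral_kernel
  have hGe : ∀ p : Lab × LSt, G p =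
      ∫⁻ z', F ((p.1.1, (p.1.2.1, p.1.2.2 + r.leaves)), z') ∂κ p.2 := fun p =>
    lintegral_mk1 r.leaves κ p hF
  have hG0 : ∀ p : Lab × LSt, ¬ p.1.1.1.1 ≤ te → G p = 0 := by
    intro p hp
    rw [hGe]
    refine (lintegral_congr fun z' => ?_).trans lintegral_zero
    exact hF0 ((p.1.1, (p.1.2.1, p.1.2.2 + r.leaves)), z') hp
  -- the function at the node
  set H : (PhasePoint × Par l) × (PhasePoint × NodeP) → ℝ≥0∞ := fun q =>
    F (((exM Φ ε m q.1, mkN m), ((exM Φ ε m q.1).1, (node l r).leaves)), X ε q.2) with hH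
  have hHm : Measurable H := by
    have h1 : Measurable fun q : (PhasePoint × Par l) × (PhasePoint × NodeP) =>
        exM Φ ε m q.1 := (measurable_exM hΦ ε m).comp measurable_fst
    exact hF.comp (((h1.prodMk measurable_const).prodMk (h1.fst.prodMk measurable_const)).prodMk
      ((hX.meas ε).comp measurable_snd))
  have h1 := hN ε T' hε hT H hHm
  have h2 : ∀ z1 : PhasePoint × Par l, ∫⁻ a : NodeP,
      (gL Φ ε T' (z1.1, a) * topI l (a.1, z1.2) *
        (ENNReal.ofReal ‖z1.1.2 - a.2.1‖ * gE B.b₀ a.2.1)) *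
          H (z1, outD Φ ε T' (z1.1, inLine ε z1.1 a)) ≤
      G (((exM Φ ε m z1, mkN m), ((exM Φ ε m z1).1, l.leaves)), rootB l z1) := by
    intro z1
    rw [hGe]
    simp only
    rw [hκ, ← fk (L ε) B.b₀ (rootB l z1) (F := fun z' =>
      F (((exM Φ ε m z1, mkN m), ((exM Φ ε m z1).1, l.leaves + r.leaves)), z'))
      (hF.comp (measurable_const.prodMk measurable_id))]
    refine lintegral_mono fun a => ?_
    by_cases hg : gL Φ ε T' (z1.1, a) * topI l (a.1, z1.2) = 0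
    · rw [hg, zero_mul, zero_mul]; exact bot_le
    obtain ⟨hg1, hg2⟩ := mul_ne_zero_iff.1 hg
    have hgood := mem_GoodL_of_gL hg1
    obtain ⟨g1, -, -, g4, -, -, g7, -⟩ := goodL_spec hΦ hε hgood rfl
    have ha0 : 0 < a.1 := by rw [← g4]; exact g1.2.2
    have htop : topT l z1.2 < a.1 := topT_lt ha0 (topLt_of_topI hg2)
    have hfw : fwI (rootB l z1).1 a = 1 := by
      unfold fwI
      exact if_pos ⟨htop, g7⟩
    have hout : X ε (outD Φ ε T' (z1.1, inLine ε z1.1 a)) =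
        (L ε).out (rootB l z1, (a.1, ((rootB l z1).2.2 - a.2.1, -a.2.2))) :=
      hX.out ε hε T' z1.1 a hgood (topT l z1.2)
    have hle : gL Φ ε T' (z1.1, a) * topI l (a.1, z1.2) ≤ 1 := by
      have e1 : gL Φ ε T' (z1.1, a) ≤ 1 := by
        unfold gL
        exact Set.indicator_le_self' (fun _ _ => zero_le_one) _
      calc _ ≤ (1 : ℝ≥0∞) * 1 := mul_le_mul' e1 (topI_le_one _ _)
        _ = 1 := one_mul _
    rw [hfw, one_mul]
    show (gL Φ ε T' (z1.1, a) * topI l (a.1, z1.2) *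
        (ENNReal.ofReal ‖z1.1.2 - a.2.1‖ * gE B.b₀ a.2.1)) *
        F (((exM Φ ε m z1, mkN m), ((exM Φ ε m z1).1, l.leaves + r.leaves)),
          X ε (outD Φ ε T' (z1.1, inLine ε z1.1 a))) ≤
      (ENNReal.ofReal ‖z1.1.2 - a.2.1‖ * gE B.b₀ a.2.1) *
        F (((exM Φ ε m z1, mkN m), ((exM Φ ε m z1).1, l.leaves + r.leaves)),
          (L ε).out (rootB l z1, (a.1, ((rootB l z1).2.2 - a.2.1, -a.2.2))))
    rw [hout]
    refine mul_le_mul_left ?_ _
    calc gL Φ ε T' (z1.1, a) * topI l (a.1, z1.2) *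
        (ENNReal.ofReal ‖z1.1.2 - a.2.1‖ * gE B.b₀ a.2.1)
        ≤ 1 * (ENNReal.ofReal ‖z1.1.2 - a.2.1‖ * gE B.b₀ a.2.1) := mul_le_mul_left hle _
      _ = _ := one_mul _
  calc ∫⁻ z : PhasePoint × Par (node l r), vw Φ ε (node l r) T' z * (gw b (node l r) z *
        F (((exM Φ ε (Mk.inl m r) z, mkN (Mk.inl m r)), ((exM Φ ε (Mk.inl m r) z).1,
          (node l r).leaves)), X ε (z.1, z.2.1)))
      = ∫⁻ z : PhasePoint × Par (node l r), vw Φ ε (node l r) T' z * (gw b (node l r) z *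
        H (((inM Φ ε (z.1, z.2.1)).1, z.2.2.1), (z.1, z.2.1))) := rfl
    _ ≤ C * ∫⁻ z1 : PhasePoint × Par l, vw Φ ε l T' z1 * (gw b l z1 * ∫⁻ a : NodeP,
        (gL Φ ε T' (z1.1, a) * topI l (a.1, z1.2) *
          (ENNReal.ofReal ‖z1.1.2 - a.2.1‖ * gE B.b₀ a.2.1)) *
          H (z1, outD Φ ε T' (z1.1, inLine ε z1.1 a))) := h1
    _ ≤ C * ∫⁻ z1 : PhasePoint × Par l, vw Φ ε l T' z1 * (gw b l z1 *
        G (((exM Φ ε m z1, mkN m), ((exM Φ ε m z1).1, l.leaves)), rootB l z1)) :=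
        mul_le_mul_right (lintegral_mono fun z1 =>
          mul_le_mul_right (mul_le_mul_right (h2 z1) _) _) _
    _ ≤ C * ∫⁻ p, G p ∂ν := mul_le_mul_right (hdom G hGm hG0) _
    _ = C * ∫⁻ p, F p ∂ν.bind (mkK fadd (q1 r.leaves) κ) := by
        rw [Measure.lintegral_bind (Kernel.aemeasurable _) hF.aemeasurable]
    _ = ∫⁻ p, F p ∂(C • ν.bind (mkK fadd (q1 r.leaves) κ)) := by
        rw [lintegral_smul_measure, smul_eq_mul]

/-- **Forward step through a node, second orientation.** -/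
theorem stepR (hΦ : AdmissiblePotential Φ) {B : BPar} (hB : B.Ok) {b : ℝ} (hb : B.bs < b)
    (l : CTree) {r : CTree} (m : Mk r) (hR : DomR Φ B b r m) {L : ℝ → Leg EC}
    {X : ℝ → PhasePoint × NodeP → BLine} (hX : FwdR Φ L X) :
    DomX Φ B b l r X (Mk.inr l m) := by
  obtain ⟨C, hC, hN⟩ := NR hΦ hB.b0 (hB.b0s.trans_lt hb) B.T l r
  obtain ⟨c, hc, hR⟩ := hR
  refine ⟨C * (B.lam * B.lam₁ ^ l.leaves * c), ENNReal.mul_ne_top hC (ENNReal.mul_ne_top
    (ENNReal.mul_ne_top hB.lamt (ENNReal.pow_ne_top hB.lt)) hc), ?_⟩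
  intro ε T' te hε hε1 hte hteT hT K hK Pp hPp
  have hlv : (node l r).leaves = r.leaves + l.leaves := Nat.add_comm _ _
  obtain ⟨Ξ, ν, hPX, hA, hdom⟩ := hR ε T' te hε hε1 hte hteT hT K (by omega) Pp hPp
  have hL := hX.cl ε hε
  refine ⟨_, _, px_step hB hPp hPX hL l.leaves C, (hA.bind hL B.b₀ (q1_ne_top _)).smul C,
    fun F hF hF0 => ?_⟩
  -- the function of the followed branch
  set κ : Kernel LSt LSt := fwdK collM (L ε) CollLeg969.gE 1 B.b₀ with hκ
  set G : Lab × LSt → ℝ≥0∞ := fun p => ∫⁻ p', F p' ∂mkK fadd (q1 l.leaves) κ p with hG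
  have hsf : IsSFiniteKernel (mkK fadd (q1 l.leaves) κ) :=
    (stepK_fwd (f := fadd) (q := q1 l.leaves) hB.wp hPp.w hB.b0.le hL
      (fun m n => le_rfl) (q1_ne_top _)).sf
  have hGm : Measurable G := hF.lintegral_kernel
  have hGe : ∀ p : Lab × LSt, G p =
      ∫⁻ z', F ((p.1.1, (p.1.2.1, p.1.2.2 + l.leaves)), z') ∂κ p.2 := fun p =>
    lintegral_mk1 l.leaves κ p hF
  have hG0 : ∀ p : Lab × LSt, ¬ p.1.1.1.1 ≤ te → G p = 0 := by
    intro p hp
    rw [hGe]
    refine (lintegral_congr fun z' => ?_).trans lintegral_zero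
    exact hF0 ((p.1.1, (p.1.2.1, p.1.2.2 + l.leaves)), z') hp
  -- the function at the node
  set H : (PhasePoint × Par r) × (PhasePoint × NodeP) → ℝ≥0∞ := fun q =>
    F (((exM Φ ε m q.1, mkN m), ((exM Φ ε m q.1).1, r.leaves + l.leaves)), X ε q.2) with hH
  have hHm : Measurable H := by
    have h1 : Measurable fun q : (PhasePoint × Par r) × (PhasePoint × NodeP) =>
        exM Φ ε m q.1 := (measurable_exM hΦ ε m).comp measurable_fst
    exact hF.comp (((h1.prodMk measurable_const).prodMk (h1.fst.prodMk measurable_const)).prodMk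
      ((hX.meas ε).comp measurable_snd))
  have h1 := hN ε T' hε hT H hHm
  have h2 : ∀ z1 : PhasePoint × Par r, ∫⁻ a : NodeP,
      (gR Φ ε T' (z1.1, a) * topI r (a.1, z1.2) *
        (ENNReal.ofReal ‖z1.1.2 - a.2.1‖ * gE B.b₀ a.2.1)) *
          H (z1, outD Φ ε T' (inLine ε z1.1 a, z1.1)) ≤
      G (((exM Φ ε m z1, mkN m), ((exM Φ ε m z1).1, r.leaves)), rootB r z1) := by
    intro z1
    rw [hGe]
    simp only
    rw [hκ, ← fk (L ε) B.b₀ (rootB r z1) (F := fun z' =>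
      F (((exM Φ ε m z1, mkN m), ((exM Φ ε m z1).1, r.leaves + l.leaves)), z'))
      (hF.comp (measurable_const.prodMk measurable_id))]
    refine lintegral_mono fun a => ?_
    by_cases hg : gR Φ ε T' (z1.1, a) * topI r (a.1, z1.2) = 0
    · rw [hg, zero_mul, zero_mul]; exact bot_le
    obtain ⟨hg1, hg2⟩ := mul_ne_zero_iff.1 hg
    have hgood := mem_GoodR_of_gR hg1
    obtain ⟨g1, -, -, g4, -, -, g7, -⟩ := goodR_spec hΦ hε hgood rfl
    have ha0 : 0 < a.1 := by rw [← g4]; exact g1.2.2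
    have htop : topT r z1.2 < a.1 := topT_lt ha0 (topLt_of_topI hg2)
    have hfw : fwI (rootB r z1).1 a = 1 := by
      unfold fwI
      exact if_pos ⟨htop, g7⟩
    have hout : X ε (outD Φ ε T' (inLine ε z1.1 a, z1.1)) =
        (L ε).out (rootB r z1, (a.1, ((rootB r z1).2.2 - a.2.1, -a.2.2))) :=
      hX.out ε hε T' z1.1 a hgood (topT r z1.2)
    have hle : gR Φ ε T' (z1.1, a) * topI r (a.1, z1.2) ≤ 1 := by
      have e1 : gR Φ ε T' (z1.1, a) ≤ 1 := by
        unfold gR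
        exact Set.indicator_le_self' (fun _ _ => zero_le_one) _
      calc _ ≤ (1 : ℝ≥0∞) * 1 := mul_le_mul' e1 (topI_le_one _ _)
        _ = 1 := one_mul _
    rw [hfw, one_mul]
    show (gR Φ ε T' (z1.1, a) * topI r (a.1, z1.2) *
        (ENNReal.ofReal ‖z1.1.2 - a.2.1‖ * gE B.b₀ a.2.1)) *
        F (((exM Φ ε m z1, mkN m), ((exM Φ ε m z1).1, r.leaves + l.leaves)),
          X ε (outD Φ ε T' (inLine ε z1.1 a, z1.1))) ≤
      (ENNReal.ofReal ‖z1.1.2 - a.2.1‖ * gE B.b₀ a.2.1) *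
        F (((exM Φ ε m z1, mkN m), ((exM Φ ε m z1).1, r.leaves + l.leaves)),
          (L ε).out (rootB r z1, (a.1, ((rootB r z1).2.2 - a.2.1, -a.2.2))))
    rw [hout]
    refine mul_le_mul_left ?_ _
    calc gR Φ ε T' (z1.1, a) * topI r (a.1, z1.2) *
        (ENNReal.ofReal ‖z1.1.2 - a.2.1‖ * gE B.b₀ a.2.1)
        ≤ 1 * (ENNReal.ofReal ‖z1.1.2 - a.2.1‖ * gE B.b₀ a.2.1) := mul_le_mul_left hle _
      _ = _ := one_mul _
  calc ∫⁻ z : PhasePoint × Par (node l r), vw Φ ε (node l r) T' z * (gw b (node l r) z *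
        F (((exM Φ ε (Mk.inr l m) z, mkN (Mk.inr l m)), ((exM Φ ε (Mk.inr l m) z).1,
          (node l r).leaves)), X ε (z.1, z.2.1)))
      = ∫⁻ z : PhasePoint × Par (node l r), vw Φ ε (node l r) T' z * (gw b (node l r) z *
        H (((inM Φ ε (z.1, z.2.1)).2, z.2.2.2), (z.1, z.2.1))) := by rw [hlv]; rfl
    _ ≤ C * ∫⁻ z1 : PhasePoint × Par r, vw Φ ε r T' z1 * (gw b r z1 * ∫⁻ a : NodeP,
        (gR Φ ε T' (z1.1, a) * topI r (a.1, z1.2) *
          (ENNReal.ofReal ‖z1.1.2 - a.2.1‖ * gE B.b₀ a.2.1)) *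
          H (z1, outD Φ ε T' (inLine ε z1.1 a, z1.1))) := h1
    _ ≤ C * ∫⁻ z1 : PhasePoint × Par r, vw Φ ε r T' z1 * (gw b r z1 *
        G (((exM Φ ε m z1, mkN m), ((exM Φ ε m z1).1, r.leaves)), rootB r z1)) :=
        mul_le_mul_right (lintegral_mono fun z1 =>
          mul_le_mul_right (mul_le_mul_right (h2 z1) _) _) _
    _ ≤ C * ∫⁻ p, G p ∂ν := mul_le_mul_right (hdom G hGm hG0) _
    _ = C * ∫⁻ p, F p ∂ν.bind (mkK fadd (q1 l.leaves) κ) := by
        rw [Measure.lintegral_bind (Kernel.aemeasurable _) hF.aemeasurable]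
    _ = ∫⁻ p, F p ∂(C • ν.bind (mkK fadd (q1 l.leaves) κ)) := by
        rw [lintegral_smul_measure, smul_eq_mul]

/-! ### All marks -/

/-- **`DomR`** for all marks. -/
theorem domR (hΦ : AdmissiblePotential Φ) {B : BPar} (hB : B.Ok) {b : ℝ} (hb : B.bs < b) :
    {P : CTree} → (m : Mk P) → DomR Φ B b P m
  | _, .top l r => domR_top hΦ hB hb l r
  | _, .inl m r => stepL hΦ hB hb m r (domR hΦ hB hb m) (fwdL_root hΦ)
  | _, .inr l m => stepR hΦ hB hb l m (domR hΦ hB hb m) (fwdR_root hΦ)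

/-- `DomP` from `DomX` for the top exit -/
theorem domP_of_domX {B : BPar} {b : ℝ} {l r : CTree} {m : Mk (node l r)}
    (h : DomX Φ B b l r topX m) (hf : fwd m (.top l r) = true) :
    DomP Φ B b (node l r) m (.top l r) := by
  obtain ⟨c, hc, h⟩ := h
  refine ⟨c, hc, fun ε T' te hε hε1 hte hteT hT K hK Pp hPp => ?_⟩
  obtain ⟨Ξ, ν, hPX, hA, hdom⟩ := h ε T' te hε hε1 hte hteT hT K hK Pp hPp
  refine ⟨Ξ, ν, hPX, hA.aux, fun F hF hF0 => ?_⟩
  have h1 := hdom F hF (fun p hp => hF0 p fun hc => hp hc.1)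
  refine le_trans (le_of_eq ?_) h1
  refine lintegral_congr fun z => ?_
  have e : sgT Φ ε m (.top l r) z = (exM Φ ε m z).1 := by
    unfold sgT
    rw [if_pos hf]
  unfold pairT
  rw [e]
  rfl

/-- reduction to the first branch -/
theorem domP_inl (hΦ : AdmissiblePotential Φ) {B : BPar} {b : ℝ}
    {l : CTree} {m m' : Mk l} (r : CTree) {b' : ℝ} (hb' : 0 < b') (hbb : b' < b)
    (h : DomP Φ B b' l m m') : DomP Φ B b (node l r) (.inl m r) (.inl m' r) := by
  obtain ⟨C, hC, hN⟩ := subL hΦ hb' hbb B.T l r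
  obtain ⟨c, hc, h⟩ := h
  refine ⟨C * c, ENNReal.mul_ne_top hC hc, fun ε T' te hε hε1 hte hteT hT K hK Pp hPp => ?_⟩
  have hlv : (node l r).leaves = l.leaves + r.leaves := rfl
  obtain ⟨Ξ, ν, hPX, hA, hdom⟩ := h ε T' te hε hε1 hte hteT hT K (by omega) Pp hPp
  refine ⟨_, _, PairSrc969.PX.smul hPX C, hA.smul C, fun F hF hF0 => ?_⟩
  have hm : Measurable fun z : PhasePoint × Par l => F (pairT Φ ε m m' z) :=
    hF.comp (measurable_pairT hΦ ε m m')
  calc ∫⁻ z : PhasePoint × Par (node l r), vw Φ ε (node l r) T' z * (gw b (node l r) z *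
        F (pairT Φ ε (Mk.inl m r) (Mk.inl m' r) z))
      = ∫⁻ z : PhasePoint × Par (node l r), vw Φ ε (node l r) T' z * (gw b (node l r) z *
        (fun z => F (pairT Φ ε m m' z)) ((inM Φ ε (z.1, z.2.1)).1, z.2.2.1)) := rfl
    _ ≤ C * ∫⁻ z1 : PhasePoint × Par l, vw Φ ε l T' z1 * (gw b' l z1 *
        F (pairT Φ ε m m' z1)) := hN ε T' hε hT _ hm
    _ ≤ C * ∫⁻ p, F p ∂ν := mul_le_mul_right (hdom F hF hF0) _
    _ = ∫⁻ p, F p ∂(C • ν) := by rw [lintegral_smul_measure, smul_eq_mul]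

/-- reduction to the second branch -/
theorem domP_inr (hΦ : AdmissiblePotential Φ) {B : BPar} {b : ℝ}
    (l : CTree) {r : CTree} {m m' : Mk r} {b' : ℝ} (hb' : 0 < b') (hbb : b' < b)
    (h : DomP Φ B b' r m m') : DomP Φ B b (node l r) (.inr l m) (.inr l m') := by
  obtain ⟨C, hC, hN⟩ := subR hΦ hb' hbb B.T l r
  obtain ⟨c, hc, h⟩ := h
  refine ⟨C * c, ENNReal.mul_ne_top hC hc, fun ε T' te hε hε1 hte hteT hT K hK Pp hPp => ?_⟩
  have hlv : (node l r).leaves = l.leaves + r.leaves := rfl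
  obtain ⟨Ξ, ν, hPX, hA, hdom⟩ := h ε T' te hε hε1 hte hteT hT K (by omega) Pp hPp
  refine ⟨_, _, PairSrc969.PX.smul hPX C, hA.smul C, fun F hF hF0 => ?_⟩
  have hm : Measurable fun z : PhasePoint × Par r => F (pairT Φ ε m m' z) :=
    hF.comp (measurable_pairT hΦ ε m m')
  calc ∫⁻ z : PhasePoint × Par (node l r), vw Φ ε (node l r) T' z * (gw b (node l r) z *
        F (pairT Φ ε (Mk.inr l m) (Mk.inr l m') z))
      = ∫⁻ z : PhasePoint × Par (node l r), vw Φ ε (node l r) T' z * (gw b (node l r) z *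
        (fun z => F (pairT Φ ε m m' z)) ((inM Φ ε (z.1, z.2.1)).2, z.2.2.2)) := rfl
    _ ≤ C * ∫⁻ z1 : PhasePoint × Par r, vw Φ ε r T' z1 * (gw b' r z1 *
        F (pairT Φ ε m m' z1)) := hN ε T' hε hT _ hm
    _ ≤ C * ∫⁻ p, F p ∂ν := mul_le_mul_right (hdom F hF hF0) _
    _ = ∫⁻ p, F p ∂(C • ν) := by rw [lintegral_smul_measure, smul_eq_mul]

/-- **`DomP` on the forward path.** -/
theorem domP_fwd (hΦ : AdmissiblePotential Φ) {B : BPar} (hB : B.Ok) :
    {P : CTree} → (m m' : Mk P) → fwd m m' = true → ∀ {b : ℝ}, B.bs < b → DomP Φ B b P m m'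
  | _, .top _ _, _, h, _, _ => by
      simp [fwd] at h
  | _, .inl m r, .top _ _, h, _, hb =>
      domP_of_domX (stepL hΦ hB hb m r (domR hΦ hB hb m) (fwdL_top hΦ)) h
  | _, .inl m r, .inl m' _, h, b, hb =>
      domP_inl hΦ r (b' := (B.bs + b) / 2) (by have := hB.bs0; linarith) (by linarith)
        (domP_fwd hΦ hB m m' h (by linarith))
  | _, .inl _ _, .inr _ _, h, _, _ => by
      simp [fwd] at h
  | _, .inr l m, .top _ _, h, _, hb =>
      domP_of_domX (stepR hΦ hB hb l m (domR hΦ hB hb m) (fwdR_top hΦ)) h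
  | _, .inr _ _, .inl _ _, h, _, _ => by
      simp [fwd] at h
  | _, .inr l m, .inr _ m', h, b, hb =>
      domP_inr hΦ l (b' := (B.bs + b) / 2) (by have := hB.bs0; linarith) (by linarith)
        (domP_fwd hΦ hB m m' h (by linarith))

end Crest.Agent.R122.Mark307

end
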