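import Crest.Agent.R122.TreeMeas_674

/-!
Row 122, block H7b (helper307), part 1: **node flip**.

A node of a collision tree is parametrised in `TreeDefs_674` by the *outgoing* line of the root and
`a = (exit time, outgoing velocity of the partner, planar impact parameter)`.  Here it is
parametrised by ONE INCOMING line (the followed one, first or second input of the node) and
`a' = (entrance time, incoming velocity of the fresh partner, planar impact parameter)`: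
`inLine ε ℓ a'` is the incoming line of the partner.  The two parametrisations have the same measure
`|relative velocity| dℓ da` (`flipL`, `flipR`).
-/

set_option autoImplicit false

open MeasureTheory Set Filter Topology
open Crest.AnalysisR.Kinetic
open scoped ENNReal

noncomputable section

namespace Crest.Agent.R122.Mark307

open Kin796 Kin796.CTree Disc416 Scat818 Flow671 Flux663 Tree674

variable {Φ : Space3 → ℝ}

/-! ### Incoming partner -/

/-- incoming line of the partner which starts the encounter with the line `ℓ` at time `a.1`, with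
velocity `a.2.1` and planar impact parameter `a.2.2` -/
def inLine (ε : ℝ) (ℓ : PhasePoint) (a : NodeP) : PhasePoint :=
  (ℓ.1 + a.1 • ℓ.2 + ε • (nb ℓ.2 a + (Real.sqrt (1 - ‖nb ℓ.2 a‖ ^ 2) / ‖ng ℓ.2 a‖) • ng ℓ.2 a)
    - a.1 • a.2.1, a.2.1)

/-- entrance time of a pair of incoming lines -/
def sI (ε : ℝ) (q : PhasePoint × PhasePoint) : ℝ :=
  tline (q.2.1 - q.1.1, q.1.2 - q.2.2) - ε * (Real.sqrt (1 - ‖bO ε q‖ ^ 2) / ‖q.1.2 - q.2.2‖)

/-- first line and incoming node parameters of a pair of incoming lines -/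
def nodeI (ε : ℝ) (q : PhasePoint × PhasePoint) : PhasePoint × NodeP :=
  (q.1, (sI ε q, q.2.2, planeC (q.1.2 - q.2.2) (bO ε q)))

theorem measurable_sI (ε : ℝ) : Measurable (sI ε) := by
  have h1 := measurable_tline.comp measurable_relq
  have h2 : Measurable fun q => Real.sqrt (1 - ‖bO ε q‖ ^ 2) :=
    (((measurable_bO ε).norm.pow_const 2).const_sub 1).sqrt
  have h3 : Measurable fun q : PhasePoint × PhasePoint => ‖q.1.2 - q.2.2‖ := measurable_relv.norm
  exact h1.sub ((h2.div h3).const_mul ε)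

theorem measurable_nodeI (ε : ℝ) : Measurable (nodeI ε) := by
  have h8 : Measurable fun q : PhasePoint × PhasePoint => (nodeO ε q).2.2 :=
    (measurable_nodeO ε).snd.snd
  have h9 : Measurable fun q : PhasePoint × PhasePoint => q.1 := measurable_fst
  exact h9.prodMk ((measurable_sI ε).prodMk h8)

theorem measurable_inLine (ε : ℝ) :
    Measurable fun z : PhasePoint × NodeP => inLine ε z.1 z.2 := by
  have h0 : Measurable fun z : PhasePoint × NodeP => (nb z.1.2 z.2, ng z.1.2 z.2) :=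
    measurable_nbng.comp measurable_zv
  have h1 : Measurable fun z : PhasePoint × NodeP => Real.sqrt (1 - ‖nb z.1.2 z.2‖ ^ 2) :=
    ((h0.fst.norm.pow_const 2).const_sub 1).sqrt
  have h2 : Measurable fun z : PhasePoint × NodeP =>
      (Real.sqrt (1 - ‖nb z.1.2 z.2‖ ^ 2) / ‖ng z.1.2 z.2‖) • ng z.1.2 z.2 :=
    (h1.div h0.snd.norm).smul h0.snd
  have h3 : Measurable fun z : PhasePoint × NodeP => z.1.1 + z.2.1 • z.1.2 := by fun_prop
  have h4 : Measurable fun z : PhasePoint × NodeP => z.2.1 • z.2.2.1 := by fun_prop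
  have h5 : Measurable fun z : PhasePoint × NodeP => z.2.2.1 := by fun_prop
  exact ((h3.add ((h0.fst.add h2).const_smul ε)).sub h4).prodMk h5

theorem measurable_inLine_right (ε : ℝ) (ℓ : PhasePoint) :
    Measurable fun a : NodeP => inLine ε ℓ a := by
  have h0 : Measurable fun a : NodeP => (nb ℓ.2 a, ng ℓ.2 a) :=
    measurable_nbng.comp (measurable_const.prodMk measurable_id)
  have h1 : Measurable fun a : NodeP => Real.sqrt (1 - ‖nb ℓ.2 a‖ ^ 2) :=
    ((h0.fst.norm.pow_const 2).const_sub 1).sqrt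
  have h2 : Measurable fun a : NodeP =>
      (Real.sqrt (1 - ‖nb ℓ.2 a‖ ^ 2) / ‖ng ℓ.2 a‖) • ng ℓ.2 a :=
    (h1.div h0.snd.norm).smul h0.snd
  have h3 : Measurable fun a : NodeP => ℓ.1 + a.1 • ℓ.2 := by fun_prop
  have h4 : Measurable fun a : NodeP => a.1 • a.2.1 := by fun_prop
  have h5 : Measurable fun a : NodeP => a.2.1 := by fun_prop
  exact ((h3.add ((h0.fst.add h2).const_smul ε)).sub h4).prodMk h5

theorem inLine_fst_sub (ε : ℝ) (ℓ : PhasePoint) (a : NodeP) :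
    (inLine ε ℓ a).1 - ℓ.1 = ε • nb ℓ.2 a +
      (a.1 + ε * (Real.sqrt (1 - ‖nb ℓ.2 a‖ ^ 2) / ‖ng ℓ.2 a‖)) • ng ℓ.2 a := by
  simp only [inLine, ng]
  module

theorem nodeI_inLine {ε : ℝ} (hε : 0 < ε) {ℓ : PhasePoint} {a : NodeP} (ha : ℓ.2 ≠ a.2.1) :
    nodeI ε (ℓ, inLine ε ℓ a) = (ℓ, a) := by
  have hg : ng ℓ.2 a ≠ 0 := sub_ne_zero.2 ha
  have hb0 : inner ℝ (nb ℓ.2 a) (ng ℓ.2 a) = 0 := inner_frameMap_self _ _
  have hb1 : inner ℝ (ε • nb ℓ.2 a) (ng ℓ.2 a) = 0 := by rw [inner_smul_left, hb0, mul_zero]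
  obtain ⟨h1, h2⟩ := bline_frame hg hb1
    (a.1 + ε * (Real.sqrt (1 - ‖nb ℓ.2 a‖ ^ 2) / ‖ng ℓ.2 a‖))
  have e1 : bO ε (ℓ, inLine ε ℓ a) = nb ℓ.2 a := by
    simp only [bO]
    rw [inLine_fst_sub, show ℓ.2 - (inLine ε ℓ a).2 = ng ℓ.2 a from rfl, h1, smul_smul,
      one_div_mul_cancel hε.ne', one_smul]
  have e2 : sI ε (ℓ, inLine ε ℓ a) = a.1 := by
    simp only [sI]
    rw [inLine_fst_sub, show ℓ.2 - (inLine ε ℓ a).2 = ng ℓ.2 a from rfl, h2, e1]
    ring
  simp only [nodeI, e1, e2]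
  have e3 : planeC (ℓ.2 - (inLine ε ℓ a).2) (nb ℓ.2 a) = a.2.2 := planeC_frameMap hg _
  rw [e3]
  rfl

theorem inLine_nodeI {ε : ℝ} (hε : 0 < ε) {q : PhasePoint × PhasePoint} (hq : q.1.2 ≠ q.2.2) :
    inLine ε (nodeI ε q).1 (nodeI ε q).2 = q.2 := by
  have hg : q.1.2 - q.2.2 ≠ 0 := sub_ne_zero.2 hq
  have e1 : nb (nodeI ε q).1.2 (nodeI ε q).2 = bO ε q := frameMap_planeC hg (bO_inner ε q hq)
  have h1 := inLine_fst_sub ε (nodeI ε q).1 (nodeI ε q).2
  rw [e1] at h1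
  have h2 : (inLine ε (nodeI ε q).1 (nodeI ε q).2).1 = q.2.1 := by
    have h3 : (inLine ε (nodeI ε q).1 (nodeI ε q).2).1 =
        (inLine ε (nodeI ε q).1 (nodeI ε q).2).1 - (nodeI ε q).1.1 + q.1.1 := by
      show _ = _ - q.1.1 + q.1.1
      abel
    rw [h3, h1]
    show ε • bO ε q + (sI ε q + ε * (Real.sqrt (1 - ‖bO ε q‖ ^ 2) / ‖q.1.2 - q.2.2‖)) •
      (q.1.2 - q.2.2) + q.1.1 = q.2.1
    have h4 : sI ε q + ε * (Real.sqrt (1 - ‖bO ε q‖ ^ 2) / ‖q.1.2 - q.2.2‖) =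
        tline (q.2.1 - q.1.1, q.1.2 - q.2.2) := by unfold sI; ring
    rw [h4]
    have h5 : ε • bO ε q = bline (q.2.1 - q.1.1, q.1.2 - q.2.2) := by
      unfold bO; rw [smul_smul, mul_one_div_cancel hε.ne', one_smul]
    rw [h5]
    unfold bline
    simp
  exact Prod.ext h2 rfl

theorem nodeI_mem_GN_iff {ε : ℝ} (hε : 0 < ε) (q : PhasePoint × PhasePoint) :
    nodeI ε q ∈ GN ↔ q.1.2 ≠ q.2.2 ∧ ‖bline (q.2.1 - q.1.1, q.1.2 - q.2.2)‖ < ε :=
  nodeO_mem_GN_iff hε q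

/-- **Cylinder coordinates for the incoming partner.** -/
theorem lintegral_inLine {ε : ℝ} (hε : 0 < ε) (ℓ : PhasePoint) {K : PhasePoint → ℝ≥0∞}
    (hK : Measurable K) :
    ∫⁻ ℓo : PhasePoint, {ℓo | nodeI ε (ℓ, ℓo) ∈ GN}.indicator K ℓo =
      ENNReal.ofReal (ε ^ 2) * ∫⁻ a : NodeP, {a | (ℓ, a) ∈ GN}.indicator
        (fun a => ENNReal.ofReal ‖ℓ.2 - a.2.1‖ * K (inLine ε ℓ a)) a := by
  have hmo : Measurable fun a : NodeP => inLine ε ℓ a := measurable_inLine_right ε ℓ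
  have hmG : MeasurableSet {a : NodeP | (ℓ, a) ∈ GN} :=
    measurableSet_GN.preimage (measurable_const.prodMk measurable_id)
  have hmI : Measurable ({a : NodeP | (ℓ, a) ∈ GN}.indicator
        (fun a => ENNReal.ofReal ‖ℓ.2 - a.2.1‖ * K (inLine ε ℓ a))) :=
    Measurable.indicator ((by fun_prop : Measurable fun a : NodeP =>
      ENNReal.ofReal ‖ℓ.2 - a.2.1‖).mul (hK.comp hmo)) hmG
  have hmL : MeasurableSet {ℓo : PhasePoint | nodeI ε (ℓ, ℓo) ∈ GN} :=
    measurableSet_GN.preimage ((measurable_nodeI ε).comp (measurable_const.prodMk measurable_id))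
  -- left side: velocity first
  rw [Measure.volume_eq_prod, lintegral_prod_symm _ (hK.indicator hmL).aemeasurable]
  -- right side: order w, y, s
  have hR : ∫⁻ a : NodeP, {a | (ℓ, a) ∈ GN}.indicator
        (fun a => ENNReal.ofReal ‖ℓ.2 - a.2.1‖ * K (inLine ε ℓ a)) a =
      ∫⁻ w : Space3, ∫⁻ y : Plane, ∫⁻ s : ℝ, {a | (ℓ, a) ∈ GN}.indicator
        (fun a => ENNReal.ofReal ‖ℓ.2 - a.2.1‖ * K (inLine ε ℓ a)) (s, w, y) := by
    rw [Measure.volume_eq_prod, lintegral_prod_symm _ hmI.aemeasurable, Measure.volume_eq_prod,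
      lintegral_prod _ hmI.lintegral_prod_left'.aemeasurable]
  rw [hR, ← lintegral_const_mul' _ _ ENNReal.ofReal_ne_top]
  refine lintegral_congr_ae ?_
  filter_upwards [Measure.ae_ne volume ℓ.2] with w hw
  have hg : ℓ.2 - w ≠ 0 := sub_ne_zero.2 (Ne.symm hw)
  have h1 : ∫⁻ x : Space3, {ℓo | nodeI ε (ℓ, ℓo) ∈ GN}.indicator K (x, w) =
      ∫⁻ x : Space3, (if ‖bline (x, ℓ.2 - w)‖ < ε then K (ℓ.1 + x, w) else 0) := by
    rw [← lintegral_add_left_eq_self (fun x => {ℓo | nodeI ε (ℓ, ℓo) ∈ GN}.indicator K (x, w)) ℓ.1]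
    refine lintegral_congr fun x => ?_
    have h2 : ((ℓ.1 + x, w) : PhasePoint) ∈ {ℓo | nodeI ε (ℓ, ℓo) ∈ GN} ↔
        ‖bline (x, ℓ.2 - w)‖ < ε := by
      show nodeI ε (ℓ, (ℓ.1 + x, w)) ∈ GN ↔ _
      rw [nodeI_mem_GN_iff hε]
      simp only [add_sub_cancel_left]
      exact ⟨fun h => h.2, fun h => ⟨hw.symm, h⟩⟩
    by_cases h3 : ‖bline (x, ℓ.2 - w)‖ < ε
    · rw [indicator_of_mem (h2.2 h3), if_pos h3]
    · rw [indicator_of_notMem (fun h => h3 (h2.1 h)), if_neg h3]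
  rw [h1, lintegral_cyl_eps hε hg (F := fun x => K (ℓ.1 + x, w))
    (hK.comp ((measurable_const.add measurable_id).prodMk measurable_const))]
  congr 1
  rw [← lintegral_const_mul' _ _ ENNReal.ofReal_ne_top, ← lintegral_indicator measurableSet_ball]
  refine lintegral_congr fun y => ?_
  by_cases hy : ‖y‖ < 1
  · have hy' : y ∈ Metric.ball (0 : Plane) 1 := by simpa using hy
    rw [indicator_of_mem hy', ← lintegral_const_mul' _ _ ENNReal.ofReal_ne_top]
    set c := ε * (Real.sqrt (1 - ‖frameMap (ℓ.2 - w) y‖ ^ 2) / ‖ℓ.2 - w‖) with hc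
    rw [← lintegral_add_right_eq_self (fun s : ℝ => ENNReal.ofReal ‖ℓ.2 - w‖ *
      K (ℓ.1 + (ε • frameMap (ℓ.2 - w) y + s • (ℓ.2 - w)), w)) c]
    refine lintegral_congr fun s => ?_
    have h4 : ((s, w, y) : NodeP) ∈ {a | (ℓ, a) ∈ GN} := ⟨hy, hw.symm⟩
    rw [indicator_of_mem h4]
    congr 2
    have h5 := inLine_fst_sub ε ℓ (s, w, y)
    have h6 : (inLine ε ℓ (s, w, y)).1 = ℓ.1 + ((inLine ε ℓ (s, w, y)).1 - ℓ.1) := by abel
    refine Prod.ext ?_ rfl
    show ℓ.1 + _ = (inLine ε ℓ (s, w, y)).1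
    rw [h6, h5]
    rfl
  · have hy' : y ∉ Metric.ball (0 : Plane) 1 := by simpa using hy
    rw [indicator_of_notMem hy']
    symm
    rw [lintegral_eq_zero_iff']
    · refine Eventually.of_forall fun s => ?_
      have h4 : ((s, w, y) : NodeP) ∉ {a | (ℓ, a) ∈ GN} := fun h => hy h.1
      simp only [Pi.zero_apply]
      rw [indicator_of_notMem h4]
    · exact (hmI.comp (measurable_id.prodMk measurable_const)).aemeasurable

/-! ### The incoming pair of a node -/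

/-- the exit point of the passage in terms of the outgoing impact parameter -/
theorem qx_eq_impact (hΦ : AdmissiblePotential Φ) {b g : Space3} (hb : b ∈ impactDisc g)
    (hg : g ≠ 0) (h : NT Φ b g) :
    qx Φ b g = exitImpact Φ b g + (Real.sqrt (1 - ‖b‖ ^ 2) / ‖g‖) • exitVelocity Φ b g := by
  have hE := hasExit_tau hΦ hb hg h
  rw [exitImpact_eq hΦ hb hg hE, Scat818.exitVelocity_eq hΦ (reg_entrance Φ hb hg) hE, qx,
    Tree674.qpath_eq hΦ hb hg h]
  abel

theorem inMap_vel_sub (ε : ℝ) (ℓ : PhasePoint) (a : NodeP) :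
    (inMap Φ ε ℓ a).1.2 - (inMap Φ ε ℓ a).2.2 = exitVelocity Φ (nb ℓ.2 a) (ng ℓ.2 a) := by
  show (preV Φ ℓ.2 a).1 - (preV Φ ℓ.2 a).2 = _
  rw [preV_eq]
  module

theorem inMap_pos_sub (hΦ : AdmissiblePotential Φ) (ε : ℝ) {ℓ : PhasePoint} {a : NodeP}
    (ha : Adm1 Φ ℓ.2 a) :
    (inMap Φ ε ℓ a).2.1 - (inMap Φ ε ℓ a).1.1 = ε • exitImpact Φ (nb ℓ.2 a) (ng ℓ.2 a) +
      (Tree674.sin Φ ε ℓ.2 a + ε * (Real.sqrt (1 - ‖nb ℓ.2 a‖ ^ 2) / ‖ng ℓ.2 a‖)) •
        exitVelocity Φ (nb ℓ.2 a) (ng ℓ.2 a) := by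
  have h1 := qx_eq_impact hΦ ha.nb_mem ha.ng_ne ha.nt
  simp only [inMap, xin, preV_eq]
  rw [h1]
  module

theorem norm_nb_lt {v : Space3} {a : NodeP} (ha : Adm1 Φ v a) : ‖nb v a‖ < 1 := ha.nb_mem.2

/-- the pair of incoming lines of an admissible node, in incoming node parameters -/
theorem nodeI_inMap (hΦ : AdmissiblePotential Φ) {ε : ℝ} (hε : 0 < ε) {z : PhasePoint × NodeP}
    (hz : Adm1 Φ z.1.2 z.2) :
    nodeI ε (inMap Φ ε z.1 z.2) ∈ GN ∧
      sI ε (inMap Φ ε z.1 z.2) = Tree674.sin Φ ε z.1.2 z.2 := by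
  set b := nb z.1.2 z.2 with hb
  set g := ng z.1.2 z.2 with hg
  have hbm : b ∈ impactDisc g := hz.nb_mem
  have hg0 : g ≠ 0 := hz.ng_ne
  have hg' : exitVelocity Φ b g ≠ 0 := exitVelocity_ne_zero hΦ hbm hg0
  have hb' : inner ℝ (exitImpact Φ b g) (exitVelocity Φ b g) = 0 := inner_exitImpact hΦ hbm hg0
  have hbn : ‖exitImpact Φ b g‖ = ‖b‖ := norm_exitImpact hΦ hbm hg0
  have hgn : ‖exitVelocity Φ b g‖ = ‖g‖ := norm_exitVelocity hΦ hbm hg0
  have hb1 : inner ℝ (ε • exitImpact Φ b g) (exitVelocity Φ b g) = 0 := by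
    rw [inner_smul_left, hb', mul_zero]
  obtain ⟨h1, h2⟩ := bline_frame hg' hb1
    (Tree674.sin Φ ε z.1.2 z.2 + ε * (Real.sqrt (1 - ‖b‖ ^ 2) / ‖g‖))
  have hp := inMap_pos_sub hΦ ε hz
  have hv := inMap_vel_sub (Φ := Φ) ε z.1 z.2
  rw [← hb, ← hg] at hp hv
  have e1 : bO ε (inMap Φ ε z.1 z.2) = exitImpact Φ b g := by
    unfold bO
    rw [hp, hv, h1, smul_smul, one_div_mul_cancel hε.ne', one_smul]
  refine ⟨?_, ?_⟩
  · rw [nodeI_mem_GN_iff hε, hp, hv, h1]
    refine ⟨fun h => hg' ?_, ?_⟩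
    · rw [← hv, sub_eq_zero]; exact h
    · rw [norm_smul, Real.norm_eq_abs, abs_of_pos hε, hbn]
      have : ‖b‖ < 1 := hbm.2
      nlinarith
  · unfold sI
    rw [hp, hv, h2, e1, hbn, hgn]
    ring

/-! ### Symmetry of the incoming parameters -/

theorem bline_neg_neg (x g : Space3) : bline (-x, -g) = -bline (x, g) := by
  unfold bline tline
  simp only [inner_neg_neg, norm_neg, smul_neg]
  abel

theorem tline_neg_neg (x g : Space3) : tline (-x, -g) = tline (x, g) := by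
  unfold tline
  simp only [inner_neg_neg, norm_neg]

theorem bO_swap (ε : ℝ) (q : PhasePoint × PhasePoint) : bO ε q.swap = -bO ε q := by
  unfold bO
  simp only [Prod.fst_swap, Prod.snd_swap]
  rw [← neg_sub q.2.1 q.1.1, ← neg_sub q.1.2 q.2.2, bline_neg_neg, smul_neg]

theorem sI_swap (ε : ℝ) (q : PhasePoint × PhasePoint) : sI ε q.swap = sI ε q := by
  unfold sI
  rw [bO_swap, norm_neg]
  simp only [Prod.fst_swap, Prod.snd_swap]
  rw [← neg_sub q.2.1 q.1.1, ← neg_sub q.1.2 q.2.2, tline_neg_neg, norm_neg]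

theorem nodeI_swap_mem {ε : ℝ} (hε : 0 < ε) (q : PhasePoint × PhasePoint) :
    nodeI ε q.swap ∈ GN ↔ nodeI ε q ∈ GN := by
  rw [nodeI_mem_GN_iff hε, nodeI_mem_GN_iff hε]
  simp only [Prod.fst_swap, Prod.snd_swap]
  rw [← neg_sub q.2.1 q.1.1, ← neg_sub q.1.2 q.2.2, bline_neg_neg, norm_neg]
  exact and_congr_left' ne_comm

/-! ### Node flip -/

/-- the set of good incoming parameters: first orientation (`ℓ` = first input) -/
def GoodL (Φ : Space3 → ℝ) (ε T : ℝ) : Set (PhasePoint × NodeP) :=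
  {z | z ∈ GN ∧ outD Φ ε T (z.1, inLine ε z.1 z.2) ∈ Vset Φ ε T}

/-- the set of good incoming parameters: second orientation (`ℓ` = second input) -/
def GoodR (Φ : Space3 → ℝ) (ε T : ℝ) : Set (PhasePoint × NodeP) :=
  {z | z ∈ GN ∧ outD Φ ε T (inLine ε z.1 z.2, z.1) ∈ Vset Φ ε T}

theorem measurable_pairL (ε : ℝ) :
    Measurable fun z : PhasePoint × NodeP => (z.1, inLine ε z.1 z.2) :=
  measurable_fst.prodMk (measurable_inLine ε)

theorem measurable_pairR (ε : ℝ) :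
    Measurable fun z : PhasePoint × NodeP => (inLine ε z.1 z.2, z.1) :=
  (measurable_inLine ε).prodMk measurable_fst

theorem measurableSet_GoodL (hΦ : AdmissiblePotential Φ) {ε : ℝ} (hε : 0 < ε) (T : ℝ) :
    MeasurableSet (GoodL Φ ε T) :=
  measurableSet_GN.inter
    (((measurable_outD hΦ hε T).comp (measurable_pairL ε)) (measurableSet_Vset hΦ ε T))

theorem measurableSet_GoodR (hΦ : AdmissiblePotential Φ) {ε : ℝ} (hε : 0 < ε) (T : ℝ) :
    MeasurableSet (GoodR Φ ε T) :=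
  measurableSet_GN.inter
    (((measurable_outD hΦ hε T).comp (measurable_pairR ε)) (measurableSet_Vset hΦ ε T))

/-- incoming pairs of valid nodes are close -/
theorem nodeI_mem_of_outD (hΦ : AdmissiblePotential Φ) {ε : ℝ} (hε : 0 < ε) {T : ℝ}
    {q : PhasePoint × PhasePoint} (hq : outD Φ ε T q ∈ Vset Φ ε T) :
    nodeI ε q ∈ GN ∧ sI ε q = Tree674.sin Φ ε (outD Φ ε T q).1.2 (outD Φ ε T q).2 := by
  have h := nodeI_inMap hΦ hε (z := outD Φ ε T q) hq.1
  rwa [inMap_outD hΦ hε hq] at h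

/-- entrance time of a node in incoming parameters -/
theorem sin_of_mem_GoodL (hΦ : AdmissiblePotential Φ) {ε : ℝ} (hε : 0 < ε) {T : ℝ}
    {z : PhasePoint × NodeP} (hz : z ∈ GoodL Φ ε T) :
    Tree674.sin Φ ε (outD Φ ε T (z.1, inLine ε z.1 z.2)).1.2
      (outD Φ ε T (z.1, inLine ε z.1 z.2)).2 = z.2.1 := by
  have h1 := (nodeI_mem_of_outD hΦ hε hz.2).2
  have h2 : nodeI ε (z.1, inLine ε z.1 z.2) = (z.1, z.2) := nodeI_inLine hε hz.1.2
  rw [← h1]
  have : (nodeI ε (z.1, inLine ε z.1 z.2)).2.1 = z.2.1 := by rw [h2]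
  exact this

theorem sin_of_mem_GoodR (hΦ : AdmissiblePotential Φ) {ε : ℝ} (hε : 0 < ε) {T : ℝ}
    {z : PhasePoint × NodeP} (hz : z ∈ GoodR Φ ε T) :
    Tree674.sin Φ ε (outD Φ ε T (inLine ε z.1 z.2, z.1)).1.2
      (outD Φ ε T (inLine ε z.1 z.2, z.1)).2 = z.2.1 := by
  have h1 := (nodeI_mem_of_outD hΦ hε hz.2).2
  have h2 : nodeI ε (z.1, inLine ε z.1 z.2) = (z.1, z.2) := nodeI_inLine hε hz.1.2
  have h3 : sI ε (inLine ε z.1 z.2, z.1) = sI ε (z.1, inLine ε z.1 z.2) :=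
    sI_swap ε (z.1, inLine ε z.1 z.2)
  rw [← h1, h3]
  have : (nodeI ε (z.1, inLine ε z.1 z.2)).2.1 = z.2.1 := by rw [h2]
  exact this

/-- **Node flip, first orientation**: the root side of the two-body identity in the parameters
(first incoming line, incoming node). -/
theorem flipL (hΦ : AdmissiblePotential Φ) {ε : ℝ} (hε : 0 < ε) (T : ℝ)
    {H : (PhasePoint × NodeP) × (PhasePoint × PhasePoint) → ℝ≥0∞} (hH : Measurable H) :
    ∫⁻ z : PhasePoint × NodeP, (Vset Φ ε T).indicator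
        (fun z => ENNReal.ofReal ‖z.1.2 - z.2.2.1‖ * H (z, inMap Φ ε z.1 z.2)) z =
      ∫⁻ z : PhasePoint × NodeP, (GoodL Φ ε T).indicator
        (fun z => ENNReal.ofReal ‖z.1.2 - z.2.2.1‖ *
          H (outD Φ ε T (z.1, inLine ε z.1 z.2), (z.1, inLine ε z.1 z.2))) z := by
  have hε2 : ENNReal.ofReal (ε ^ 2) ≠ 0 := by
    rw [Ne, ENNReal.ofReal_eq_zero, not_le]; positivity
  have key : ENNReal.ofReal (ε ^ 2) * ∫⁻ z : PhasePoint × NodeP, (Vset Φ ε T).indicator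
        (fun z => ENNReal.ofReal ‖z.1.2 - z.2.2.1‖ * H (z, inMap Φ ε z.1 z.2)) z =
      ENNReal.ofReal (ε ^ 2) * ∫⁻ z : PhasePoint × NodeP, (GoodL Φ ε T).indicator
        (fun z => ENNReal.ofReal ‖z.1.2 - z.2.2.1‖ *
          H (outD Φ ε T (z.1, inLine ε z.1 z.2), (z.1, inLine ε z.1 z.2))) z := by
    rw [twoBody hΦ hε T hH]
    have mo := measurable_outD hΦ hε T
    have hV := measurableSet_Vset hΦ ε T
    have hF : Measurable ((outD Φ ε T ⁻¹' Vset Φ ε T).indicator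
        (fun q => H (outD Φ ε T q, q))) :=
      (hH.comp (mo.prodMk measurable_id)).indicator (mo hV)
    have hG : Measurable ((GoodL Φ ε T).indicator
        (fun z : PhasePoint × NodeP => ENNReal.ofReal ‖z.1.2 - z.2.2.1‖ *
          H (outD Φ ε T (z.1, inLine ε z.1 z.2), (z.1, inLine ε z.1 z.2)))) := by
      refine Measurable.indicator ?_ (measurableSet_GoodL hΦ hε T)
      have h1 : Measurable fun z : PhasePoint × NodeP => ENNReal.ofReal ‖z.1.2 - z.2.2.1‖ := by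
        fun_prop
      exact h1.mul (hH.comp ((mo.comp (measurable_pairL ε)).prodMk (measurable_pairL ε)))
    rw [Tree674.lintegral_pair hF, Tree674.lintegral_pair hG,
      ← lintegral_const_mul' _ _ ENNReal.ofReal_ne_top]
    refine lintegral_congr fun ℓ => ?_
    have hK : Measurable fun ℓo : PhasePoint => (outD Φ ε T ⁻¹' Vset Φ ε T).indicator
        (fun q => H (outD Φ ε T q, q)) (ℓ, ℓo) :=
      hF.comp (measurable_const.prodMk measurable_id)
    have h1 := lintegral_inLine hε ℓ hK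
    have h2 : ∀ ℓo : PhasePoint, {ℓo | nodeI ε (ℓ, ℓo) ∈ GN}.indicator
        (fun ℓo : PhasePoint => (outD Φ ε T ⁻¹' Vset Φ ε T).indicator
        (fun q => H (outD Φ ε T q, q)) (ℓ, ℓo)) ℓo =
        (outD Φ ε T ⁻¹' Vset Φ ε T).indicator (fun q => H (outD Φ ε T q, q)) (ℓ, ℓo) := by
      intro ℓo
      by_cases h : nodeI ε (ℓ, ℓo) ∈ GN
      · rw [indicator_of_mem (by exact h)]
      · rw [indicator_of_notMem (by exact h), indicator_of_notMem]
        exact fun h' => h (nodeI_mem_of_outD hΦ hε h').1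
    simp only [h2] at h1
    rw [h1]
    congr 1
    refine lintegral_congr fun a => ?_
    by_cases hz : ((ℓ, a) : PhasePoint × NodeP) ∈ GoodL Φ ε T
    · rw [indicator_of_mem hz, indicator_of_mem (show a ∈ {a : NodeP | (ℓ, a) ∈ GN} from hz.1),
        indicator_of_mem (show (ℓ, inLine ε ℓ a) ∈ outD Φ ε T ⁻¹' Vset Φ ε T from hz.2)]
    · rw [indicator_of_notMem hz]
      by_cases h : ((ℓ, a) : PhasePoint × NodeP) ∈ GN
      · rw [indicator_of_mem (show a ∈ {a : NodeP | (ℓ, a) ∈ GN} from h),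
          indicator_of_notMem (show (ℓ, inLine ε ℓ a) ∉ outD Φ ε T ⁻¹' Vset Φ ε T from
            fun h' => hz ⟨h, h'⟩), mul_zero]
      · rw [indicator_of_notMem (show a ∉ {a : NodeP | (ℓ, a) ∈ GN} from h)]
  exact (ENNReal.mul_right_inj hε2 ENNReal.ofReal_ne_top).1 key

/-- **Node flip, second orientation.** -/
theorem flipR (hΦ : AdmissiblePotential Φ) {ε : ℝ} (hε : 0 < ε) (T : ℝ)
    {H : (PhasePoint × NodeP) × (PhasePoint × PhasePoint) → ℝ≥0∞} (hH : Measurable H) :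
    ∫⁻ z : PhasePoint × NodeP, (Vset Φ ε T).indicator
        (fun z => ENNReal.ofReal ‖z.1.2 - z.2.2.1‖ * H (z, inMap Φ ε z.1 z.2)) z =
      ∫⁻ z : PhasePoint × NodeP, (GoodR Φ ε T).indicator
        (fun z => ENNReal.ofReal ‖z.1.2 - z.2.2.1‖ *
          H (outD Φ ε T (inLine ε z.1 z.2, z.1), (inLine ε z.1 z.2, z.1))) z := by
  have hε2 : ENNReal.ofReal (ε ^ 2) ≠ 0 := by
    rw [Ne, ENNReal.ofReal_eq_zero, not_le]; positivity
  have key : ENNReal.ofReal (ε ^ 2) * ∫⁻ z : PhasePoint × NodeP, (Vset Φ ε T).indicator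
        (fun z => ENNReal.ofReal ‖z.1.2 - z.2.2.1‖ * H (z, inMap Φ ε z.1 z.2)) z =
      ENNReal.ofReal (ε ^ 2) * ∫⁻ z : PhasePoint × NodeP, (GoodR Φ ε T).indicator
        (fun z => ENNReal.ofReal ‖z.1.2 - z.2.2.1‖ *
          H (outD Φ ε T (inLine ε z.1 z.2, z.1), (inLine ε z.1 z.2, z.1))) z := by
    rw [twoBody hΦ hε T hH]
    have mo := measurable_outD hΦ hε T
    have hV := measurableSet_Vset hΦ ε T
    have hF : Measurable ((outD Φ ε T ⁻¹' Vset Φ ε T).indicator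
        (fun q => H (outD Φ ε T q, q))) :=
      (hH.comp (mo.prodMk measurable_id)).indicator (mo hV)
    have hG : Measurable ((GoodR Φ ε T).indicator
        (fun z : PhasePoint × NodeP => ENNReal.ofReal ‖z.1.2 - z.2.2.1‖ *
          H (outD Φ ε T (inLine ε z.1 z.2, z.1), (inLine ε z.1 z.2, z.1)))) := by
      refine Measurable.indicator ?_ (measurableSet_GoodR hΦ hε T)
      have h1 : Measurable fun z : PhasePoint × NodeP => ENNReal.ofReal ‖z.1.2 - z.2.2.1‖ := by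
        fun_prop
      exact h1.mul (hH.comp ((mo.comp (measurable_pairR ε)).prodMk (measurable_pairR ε)))
    have hs : ∫⁻ q : PhasePoint × PhasePoint, (outD Φ ε T ⁻¹' Vset Φ ε T).indicator
        (fun q => H (outD Φ ε T q, q)) q =
        ∫⁻ ℓ2 : PhasePoint, ∫⁻ ℓ1 : PhasePoint, (outD Φ ε T ⁻¹' Vset Φ ε T).indicator
        (fun q => H (outD Φ ε T q, q)) (ℓ1, ℓ2) := by
      rw [Measure.volume_eq_prod]
      exact lintegral_prod_symm _ hF.aemeasurable
    rw [hs, Tree674.lintegral_pair hG, ← lintegral_const_mul' _ _ ENNReal.ofReal_ne_top]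
    refine lintegral_congr fun ℓ => ?_
    have hK : Measurable fun ℓo : PhasePoint => (outD Φ ε T ⁻¹' Vset Φ ε T).indicator
        (fun q => H (outD Φ ε T q, q)) (ℓo, ℓ) :=
      hF.comp (measurable_id.prodMk measurable_const)
    have h1 := lintegral_inLine hε ℓ hK
    have h2 : ∀ ℓo : PhasePoint, {ℓo | nodeI ε (ℓ, ℓo) ∈ GN}.indicator
        (fun ℓo : PhasePoint => (outD Φ ε T ⁻¹' Vset Φ ε T).indicator
        (fun q => H (outD Φ ε T q, q)) (ℓo, ℓ)) ℓo =
        (outD Φ ε T ⁻¹' Vset Φ ε T).indicator (fun q => H (outD Φ ε T q, q)) (ℓo, ℓ) := by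
      intro ℓo
      by_cases h : nodeI ε (ℓ, ℓo) ∈ GN
      · rw [indicator_of_mem (by exact h)]
      · rw [indicator_of_notMem (by exact h), indicator_of_notMem]
        intro h'
        have h3 : nodeI ε ((ℓ, ℓo) : PhasePoint × PhasePoint).swap ∈ GN :=
          (nodeI_mem_of_outD hΦ hε h').1
        exact h ((nodeI_swap_mem hε (ℓ, ℓo)).1 h3)
    simp only [h2] at h1
    rw [h1]
    congr 1
    refine lintegral_congr fun a => ?_
    by_cases hz : ((ℓ, a) : PhasePoint × NodeP) ∈ GoodR Φ ε T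
    · rw [indicator_of_mem hz, indicator_of_mem (show a ∈ {a : NodeP | (ℓ, a) ∈ GN} from hz.1),
        indicator_of_mem (show (inLine ε ℓ a, ℓ) ∈ outD Φ ε T ⁻¹' Vset Φ ε T from hz.2)]
    · rw [indicator_of_notMem hz]
      by_cases h : ((ℓ, a) : PhasePoint × NodeP) ∈ GN
      · rw [indicator_of_mem (show a ∈ {a : NodeP | (ℓ, a) ∈ GN} from h),
          indicator_of_notMem (show (inLine ε ℓ a, ℓ) ∉ outD Φ ε T ⁻¹' Vset Φ ε T from
            fun h' => hz ⟨h, h'⟩), mul_zero]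
      · rw [indicator_of_notMem (show a ∉ {a : NodeP | (ℓ, a) ∈ GN} from h)]
  exact (ENNReal.mul_right_inj hε2 ENNReal.ofReal_ne_top).1 key

end Crest.Agent.R122.Mark307

end
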