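import Crest.Agent.R122.Mark1_307

/-!
Row 122, block H7b (helper307), part 2: **re-rooting a collision tree at a marked exit line**.

`Mk P` = the nodes of `P` (marks); the marked particle is the partner released at this node.
`Fib m` = the parameters of the tree when the exit line `d = (birth time, position, velocity)` of the
marked particle is the free parameter: at the marked node the velocity of the sibling and the planar
impact parameter, together with the two incoming trees; along the forward path to the root, at every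
node the incoming parameters (entrance time, velocity, planar impact parameter) of the fresh partner
and the parameters of its tree.

`reroot` : `∫ over (root line, parameters) = ∫ over (d, fibre)`.
-/

set_option autoImplicit false
set_option synthInstance.maxSize 1024

open MeasureTheory Set Filter Topology
open Crest.AnalysisR.Kinetic
open scoped ENNReal

noncomputable section

namespace Crest.Agent.R122.Mark307

open Kin796 Kin796.CTree Disc416 Scat818 Flow671 Flux663 Tree674

variable {Φ : Space3 → ℝ}

/-- A line seen from its birth: (birth time, phase point at the birth time).  This is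
`Boost969.LSt`. -/
abbrev BLine : Type := ℝ × PhasePoint

/-- Marks of a tree: its nodes. -/
inductive Mk : CTree → Type
  | top (l r : CTree) : Mk (node l r)
  | inl {l : CTree} (m : Mk l) (r : CTree) : Mk (node l r)
  | inr (l : CTree) {r : CTree} (m : Mk r) : Mk (node l r)

/-- The particle released at the marked node. -/
def exIdx : {P : CTree} → Mk P → Idx P
  | _, .top _ r => Sum.inr (root r)
  | _, .inl m _ => Sum.inl (exIdx m)
  | _, .inr _ m => Sum.inr (exIdx m)

/-- The exit line of the marked particle: (exit time, phase point at the exit time). -/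
def exl (Φ : Space3 → ℝ) (ε : ℝ) : {P : CTree} → Mk P → PhasePoint → Par P → BLine
  | _, .top _ _ => fun ℓ p => (p.1.1, onLine (outLine ε ℓ p.1) p.1.1)
  | _, .inl m _ => fun ℓ p => exl Φ ε m (inMap Φ ε ℓ p.1).1 p.2.1
  | _, .inr _ m => fun ℓ p => exl Φ ε m (inMap Φ ε ℓ p.1).2 p.2.2

/-- Fibre over the exit line of the marked particle. -/
def Fib : {P : CTree} → Mk P → Type
  | _, .top l r => (Space3 × Plane) × (Par l × Par r)
  | _, .inl m r => Fib m × (NodeP × Par r)
  | _, .inr l m => Fib m × (NodeP × Par l)

instance instMeasurableSpaceFib : {P : CTree} → (m : Mk P) → MeasurableSpace (Fib m)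
  | _, .top l r => inferInstanceAs (MeasurableSpace ((Space3 × Plane) × (Par l × Par r)))
  | _, .inl m r => @Prod.instMeasurableSpace _ _ (instMeasurableSpaceFib m)
      (inferInstanceAs (MeasurableSpace (NodeP × Par r)))
  | _, .inr l m => @Prod.instMeasurableSpace _ _ (instMeasurableSpaceFib m)
      (inferInstanceAs (MeasurableSpace (NodeP × Par l)))

/-- reference measure on the fibre (Lebesgue) -/
def fibVol : {P : CTree} → (m : Mk P) → Measure (Fib m)
  | _, .top l r => (volume : Measure ((Space3 × Plane) × (Par l × Par r)))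
  | _, .inl m r => (fibVol m).prod (volume : Measure (NodeP × Par r))
  | _, .inr l m => (fibVol m).prod (volume : Measure (NodeP × Par l))

instance instMeasureSpaceFib {P : CTree} (m : Mk P) : MeasureSpace (Fib m) := ⟨fibVol m⟩

instance instSigmaFiniteFib : {P : CTree} → (m : Mk P) → SigmaFinite (volume : Measure (Fib m))
  | _, .top l r =>
      inferInstanceAs (SigmaFinite (volume : Measure ((Space3 × Plane) × (Par l × Par r))))
  | _, .inl m r => by
      haveI := instSigmaFiniteFib m
      exact inferInstanceAs (SigmaFinite ((volume : Measure (Fib m)).prod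
        (volume : Measure (NodeP × Par r))))
  | _, .inr l m => by
      haveI := instSigmaFiniteFib m
      exact inferInstanceAs (SigmaFinite ((volume : Measure (Fib m)).prod
        (volume : Measure (NodeP × Par l))))

/-- line of the sibling at the marked node -/
def sibLine (ε : ℝ) (d : BLine) (q : Space3 × Plane) : PhasePoint :=
  (d.2.1 - ε • entrancePoint (nb q.1 (d.1, d.2.2, q.2)) (ng q.1 (d.1, d.2.2, q.2)) - d.1 • q.1, q.1)

/-- The re-rooting map: (exit line, fibre) ↦ (root line, parameters). -/
def psi (Φ : Space3 → ℝ) (ε T : ℝ) : {P : CTree} → (m : Mk P) → BLine × Fib m → PhasePoint × Par P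
  | _, .top _ _ => fun z => (sibLine ε z.1 z.2.1, ((z.1.1, z.1.2.2, z.2.1.2), (z.2.2.1, z.2.2.2)))
  | _, .inl m _ => fun z =>
      ((outD Φ ε T ((psi Φ ε T m (z.1, z.2.1)).1, inLine ε (psi Φ ε T m (z.1, z.2.1)).1 z.2.2.1)).1,
        ((outD Φ ε T ((psi Φ ε T m (z.1, z.2.1)).1,
            inLine ε (psi Φ ε T m (z.1, z.2.1)).1 z.2.2.1)).2,
          ((psi Φ ε T m (z.1, z.2.1)).2, z.2.2.2)))
  | _, .inr _ m => fun z =>
      ((outD Φ ε T (inLine ε (psi Φ ε T m (z.1, z.2.1)).1 z.2.2.1, (psi Φ ε T m (z.1, z.2.1)).1)).1,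
        ((outD Φ ε T (inLine ε (psi Φ ε T m (z.1, z.2.1)).1 z.2.2.1,
            (psi Φ ε T m (z.1, z.2.1)).1)).2,
          (z.2.2.2, (psi Φ ε T m (z.1, z.2.1)).2)))

/-- indicator of the good incoming parameters (first orientation) -/
def gL (Φ : Space3 → ℝ) (ε T : ℝ) (z : PhasePoint × NodeP) : ℝ≥0∞ := (GoodL Φ ε T).indicator 1 z

/-- indicator of the good incoming parameters (second orientation) -/
def gR (Φ : Space3 → ℝ) (ε T : ℝ) (z : PhasePoint × NodeP) : ℝ≥0∞ := (GoodR Φ ε T).indicator 1 z

/-- The weight (validity included) in the re-rooted parameters. -/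
def vf (Φ : Space3 → ℝ) (ε T : ℝ) : {P : CTree} → (m : Mk P) → BLine × Fib m → ℝ≥0∞
  | _, .top l r => fun z => vw Φ ε (node l r) T (psi Φ ε T (.top l r) z)
  | _, .inl (l := l) m r => fun z => vf Φ ε T m (z.1, z.2.1) *
      (gL Φ ε T ((psi Φ ε T m (z.1, z.2.1)).1, z.2.2.1) *
        ENNReal.ofReal ‖(psi Φ ε T m (z.1, z.2.1)).1.2 - z.2.2.1.2.1‖ *
        topI l (z.2.2.1.1, (psi Φ ε T m (z.1, z.2.1)).2) *
        (topI r (z.2.2.1.1, z.2.2.2) *
          vw Φ ε r T (inLine ε (psi Φ ε T m (z.1, z.2.1)).1 z.2.2.1, z.2.2.2)))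
  | _, .inr l (r := r) m => fun z => vf Φ ε T m (z.1, z.2.1) *
      (gR Φ ε T ((psi Φ ε T m (z.1, z.2.1)).1, z.2.2.1) *
        ENNReal.ofReal ‖(psi Φ ε T m (z.1, z.2.1)).1.2 - z.2.2.1.2.1‖ *
        topI r (z.2.2.1.1, (psi Φ ε T m (z.1, z.2.1)).2) *
        (topI l (z.2.2.1.1, z.2.2.2) *
          vw Φ ε l T (inLine ε (psi Φ ε T m (z.1, z.2.1)).1 z.2.2.1, z.2.2.2)))

/-! ### Measurability -/

theorem measurable_gL (hΦ : AdmissiblePotential Φ) {ε : ℝ} (hε : 0 < ε) (T : ℝ) :
    Measurable (gL Φ ε T) := measurable_one.indicator (measurableSet_GoodL hΦ hε T)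

theorem measurable_gR (hΦ : AdmissiblePotential Φ) {ε : ℝ} (hε : 0 < ε) (T : ℝ) :
    Measurable (gR Φ ε T) := measurable_one.indicator (measurableSet_GoodR hΦ hε T)

theorem measurable_sibLine (ε : ℝ) :
    Measurable fun z : BLine × (Space3 × Plane) => sibLine ε z.1 z.2 := by
  have h0 : Measurable fun z : BLine × (Space3 × Plane) =>
      ((z.2.1, (z.1.1, z.1.2.2, z.2.2)) : Space3 × NodeP) := by fun_prop
  have h1 : Measurable fun z : BLine × (Space3 × Plane) =>
      entrancePoint (nb z.2.1 (z.1.1, z.1.2.2, z.2.2)) (ng z.2.1 (z.1.1, z.1.2.2, z.2.2)) :=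
    measurable_entrancePoint.comp (measurable_nbng.comp h0)
  have h2 : Measurable fun z : BLine × (Space3 × Plane) => z.1.2.1 := by fun_prop
  have h3 : Measurable fun z : BLine × (Space3 × Plane) => z.1.1 • z.2.1 := by fun_prop
  have h4 : Measurable fun z : BLine × (Space3 × Plane) => z.2.1 := by fun_prop
  exact ((h2.sub (h1.const_smul ε)).sub h3).prodMk h4

theorem measurable_psi (hΦ : AdmissiblePotential Φ) {ε : ℝ} (hε : 0 < ε) (T : ℝ) :
    {P : CTree} → (m : Mk P) → Measurable (psi Φ ε T m)
  | _, .top l r => by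
      have h0 : Measurable fun z : BLine × ((Space3 × Plane) × (Par l × Par r)) =>
          (z.1, z.2.1) := by fun_prop
      have h1 : Measurable fun z : BLine × ((Space3 × Plane) × (Par l × Par r)) =>
          sibLine ε z.1 z.2.1 := (measurable_sibLine ε).comp h0
      have h2 : Measurable fun z : BLine × ((Space3 × Plane) × (Par l × Par r)) =>
          ((z.1.1, z.1.2.2, z.2.1.2), (z.2.2.1, z.2.2.2)) := by fun_prop
      exact h1.prodMk ((measurable_parMk l r).comp h2)
  | _, .inl (l := l) m r => by
      have hm := measurable_psi hΦ hε T m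
      have h0 : Measurable fun z : BLine × (Fib m × (NodeP × Par r)) => (z.1, z.2.1) := by fun_prop
      have h1 := hm.comp h0
      have h2 : Measurable fun z : BLine × (Fib m × (NodeP × Par r)) => z.2.2.1 := by fun_prop
      have h3 : Measurable fun z : BLine × (Fib m × (NodeP × Par r)) => z.2.2.2 := by fun_prop
      have ho := (measurable_outD hΦ hε T).comp ((measurable_pairL ε).comp (h1.fst.prodMk h2))
      exact ho.fst.prodMk ((measurable_parMk l r).comp (ho.snd.prodMk (h1.snd.prodMk h3)))
  | _, .inr l (r := r) m => by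
      have hm := measurable_psi hΦ hε T m
      have h0 : Measurable fun z : BLine × (Fib m × (NodeP × Par l)) => (z.1, z.2.1) := by fun_prop
      have h1 := hm.comp h0
      have h2 : Measurable fun z : BLine × (Fib m × (NodeP × Par l)) => z.2.2.1 := by fun_prop
      have h3 : Measurable fun z : BLine × (Fib m × (NodeP × Par l)) => z.2.2.2 := by fun_prop
      have ho := (measurable_outD hΦ hε T).comp ((measurable_pairR ε).comp (h1.fst.prodMk h2))
      exact ho.fst.prodMk ((measurable_parMk l r).comp (ho.snd.prodMk (h3.prodMk h1.snd)))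

theorem measurable_vf (hΦ : AdmissiblePotential Φ) {ε : ℝ} (hε : 0 < ε) (T : ℝ) :
    {P : CTree} → (m : Mk P) → Measurable (vf Φ ε T m)
  | _, .top l r => (measurable_vw hΦ ε (node l r) T).comp (measurable_psi hΦ hε T (.top l r))
  | _, .inl (l := l) m r => by
      have hm := measurable_psi hΦ hε T m
      have hv := measurable_vf hΦ hε T m
      have h0 : Measurable fun z : BLine × (Fib m × (NodeP × Par r)) => (z.1, z.2.1) := by fun_prop
      have h1 := hm.comp h0
      have h2 : Measurable fun z : BLine × (Fib m × (NodeP × Par r)) => z.2.2.1 := by fun_prop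
      have h3 : Measurable fun z : BLine × (Fib m × (NodeP × Par r)) => z.2.2.2 := by fun_prop
      have h4 : Measurable fun z : BLine × (Fib m × (NodeP × Par r)) =>
          ENNReal.ofReal ‖(psi Φ ε T m (z.1, z.2.1)).1.2 - z.2.2.1.2.1‖ :=
        (h1.fst.snd.sub h2.snd.fst).norm.ennreal_ofReal
      have h5 := (measurable_gL hΦ hε T).comp (h1.fst.prodMk h2)
      have h6 := (measurable_topI l).comp (h2.fst.prodMk h1.snd)
      have h7 := (measurable_topI r).comp (h2.fst.prodMk h3)
      have h8 := (measurable_vw hΦ ε r T).comp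
        (((measurable_inLine ε).comp (h1.fst.prodMk h2)).prodMk h3)
      exact (hv.comp h0).mul (((h5.mul h4).mul h6).mul (h7.mul h8))
  | _, .inr l (r := r) m => by
      have hm := measurable_psi hΦ hε T m
      have hv := measurable_vf hΦ hε T m
      have h0 : Measurable fun z : BLine × (Fib m × (NodeP × Par l)) => (z.1, z.2.1) := by fun_prop
      have h1 := hm.comp h0
      have h2 : Measurable fun z : BLine × (Fib m × (NodeP × Par l)) => z.2.2.1 := by fun_prop
      have h3 : Measurable fun z : BLine × (Fib m × (NodeP × Par l)) => z.2.2.2 := by fun_prop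
      have h4 : Measurable fun z : BLine × (Fib m × (NodeP × Par l)) =>
          ENNReal.ofReal ‖(psi Φ ε T m (z.1, z.2.1)).1.2 - z.2.2.1.2.1‖ :=
        (h1.fst.snd.sub h2.snd.fst).norm.ennreal_ofReal
      have h5 := (measurable_gR hΦ hε T).comp (h1.fst.prodMk h2)
      have h6 := (measurable_topI r).comp (h2.fst.prodMk h1.snd)
      have h7 := (measurable_topI l).comp (h2.fst.prodMk h3)
      have h8 := (measurable_vw hΦ ε l T).comp
        (((measurable_inLine ε).comp (h1.fst.prodMk h2)).prodMk h3)
      exact (hv.comp h0).mul (((h5.mul h4).mul h6).mul (h7.mul h8))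

end Crest.Agent.R122.Mark307

end
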