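import Crest.Agent.R122.Mark2_307

/-!
Row 122, block H7b (helper307), part 3: the re-rooting identity `reroot`.
-/

set_option autoImplicit false
set_option synthInstance.maxSize 1024

open MeasureTheory Set Filter Topology
open Crest.AnalysisR.Kinetic
open scoped ENNReal

noncomputable section

namespace Crest.Agent.R122.Mark307

open Kin796 Kin796.CTree Disc416 Scat818 Flow671 Flux663 Tree674

variable {Φ : Space3 → ℝ}

/-! ### Rearrangements -/

/-- `((X, v), (s, w, y)) ↦ (X, ((s, w), (v, y)))` -/
def arr1 (z : PhasePoint × NodeP) : Space3 × ((ℝ × Space3) × (Space3 × Plane)) :=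
  (z.1.1, ((z.2.1, z.2.2.1), (z.1.2, z.2.2.2)))

/-- `((τ, (x, w)), (v, y)) ↦ (x, ((τ, w), (v, y)))` -/
def arr2 (z : BLine × (Space3 × Plane)) : Space3 × ((ℝ × Space3) × (Space3 × Plane)) :=
  (z.1.2.1, ((z.1.1, z.1.2.2), z.2))

theorem mp_arr1 : MeasurePreserving arr1 := by
  have a1 : MeasurePreserving (MeasurableEquiv.prodAssoc :
      (Space3 × Space3) × (ℝ × (Space3 × Plane)) ≃ᵐ _) := volume_preserving_prodAssoc
  have b1 : MeasurePreserving (MeasurableEquiv.prodAssoc :
      (ℝ × Space3) × Plane ≃ᵐ _).symm :=
    (volume_preserving_prodAssoc (α₁ := ℝ) (β₁ := Space3) (γ₁ := Plane)).symm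
  have b2 : MeasurePreserving (MeasurableEquiv.prodAssoc :
      (Space3 × (ℝ × Space3)) × Plane ≃ᵐ _).symm :=
    (volume_preserving_prodAssoc (α₁ := Space3) (β₁ := ℝ × Space3) (γ₁ := Plane)).symm
  have b3 : MeasurePreserving (Prod.map (Prod.swap : Space3 × (ℝ × Space3) → (ℝ × Space3) × Space3)
      (id : Plane → Plane)) :=
    (Measure.measurePreserving_swap (μ := (volume : Measure Space3))
      (ν := (volume : Measure (ℝ × Space3)))).prod (MeasurePreserving.id (volume : Measure Plane))
  have b4 : MeasurePreserving (MeasurableEquiv.prodAssoc :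
      ((ℝ × Space3) × Space3) × Plane ≃ᵐ _) := volume_preserving_prodAssoc
  have c1 : MeasurePreserving (Prod.map (id : Space3 → Space3)
      ((MeasurableEquiv.prodAssoc : (ℝ × Space3) × Plane ≃ᵐ _).symm)) :=
    (MeasurePreserving.id (volume : Measure Space3)).prod b1
  have c := b4.comp (b3.comp (b2.comp c1))
  have d := (MeasurePreserving.id (volume : Measure Space3)).prod c
  exact d.comp a1

theorem mp_arr2 : MeasurePreserving arr2 := by
  have a1 : MeasurePreserving (MeasurableEquiv.prodAssoc : (ℝ × Space3) × Space3 ≃ᵐ _).symm :=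
    (volume_preserving_prodAssoc (α₁ := ℝ) (β₁ := Space3) (γ₁ := Space3)).symm
  have a2 : MeasurePreserving (Prod.map (Prod.swap : ℝ × Space3 → Space3 × ℝ)
      (id : Space3 → Space3)) :=
    (Measure.measurePreserving_swap (μ := (volume : Measure ℝ))
      (ν := (volume : Measure Space3))).prod (MeasurePreserving.id (volume : Measure Space3))
  have a3 : MeasurePreserving (MeasurableEquiv.prodAssoc : (Space3 × ℝ) × Space3 ≃ᵐ _) :=
    volume_preserving_prodAssoc
  have a := a3.comp (a2.comp a1)
  have b := a.prod (MeasurePreserving.id (volume : Measure (Space3 × Plane)))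
  have c : MeasurePreserving (MeasurableEquiv.prodAssoc :
      (Space3 × (ℝ × Space3)) × (Space3 × Plane) ≃ᵐ _) := volume_preserving_prodAssoc
  exact c.comp b

/-- translation of the first component by a function of the second -/
theorem lintegral_shift {β : Type*} [MeasureSpace β] [SFinite (volume : Measure β)]
    {c : β → Space3} (hc : Measurable c) {G : Space3 × β → ℝ≥0∞} (hG : Measurable G) :
    ∫⁻ z : Space3 × β, G (z.1 - c z.2, z.2) = ∫⁻ z : Space3 × β, G z := by
  have h1 : Measurable fun z : Space3 × β => G (z.1 - c z.2, z.2) :=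
    hG.comp ((measurable_fst.sub (hc.comp measurable_snd)).prodMk measurable_snd)
  rw [Measure.volume_eq_prod, lintegral_prod_symm _ h1.aemeasurable,
    lintegral_prod_symm _ hG.aemeasurable]
  refine lintegral_congr fun p => ?_
  exact lintegral_sub_right_eq_self (fun x => G (x, p)) (c p)

/-- the exchange of the free outgoing line at one node -/
theorem lintegral_sib (ε : ℝ) {G : PhasePoint × NodeP → ℝ≥0∞} (hG : Measurable G) :
    ∫⁻ z : PhasePoint × NodeP, G z =
      ∫⁻ z : BLine × (Space3 × Plane), G (sibLine ε z.1 z.2, (z.1.1, z.1.2.2, z.2.2)) := by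
  -- `G` in the coordinates `(x, p)`
  set G' : Space3 × ((ℝ × Space3) × (Space3 × Plane)) → ℝ≥0∞ := fun z =>
    G ((z.1, z.2.2.1), (z.2.1.1, z.2.1.2, z.2.2.2)) with hG'
  have hG'm : Measurable G' := hG.comp (by fun_prop)
  set c : (ℝ × Space3) × (Space3 × Plane) → Space3 := fun p =>
    ε • entrancePoint (nb p.2.1 (p.1.1, p.1.2, p.2.2)) (ng p.2.1 (p.1.1, p.1.2, p.2.2)) +
      p.1.1 • p.2.1 with hc
  have hcm : Measurable c := by
    have h0 : Measurable fun p : (ℝ × Space3) × (Space3 × Plane) =>
        ((p.2.1, (p.1.1, p.1.2, p.2.2)) : Space3 × NodeP) := by fun_prop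
    have h1 : Measurable fun p : (ℝ × Space3) × (Space3 × Plane) =>
        entrancePoint (nb p.2.1 (p.1.1, p.1.2, p.2.2)) (ng p.2.1 (p.1.1, p.1.2, p.2.2)) :=
      measurable_entrancePoint.comp (measurable_nbng.comp h0)
    have h3 : Measurable fun p : (ℝ × Space3) × (Space3 × Plane) => p.1.1 • p.2.1 := by fun_prop
    exact (h1.const_smul ε).add h3
  have e1 : ∫⁻ z : PhasePoint × NodeP, G z = ∫⁻ z, G' z := by
    rw [← mp_arr1.lintegral_comp hG'm]
    rfl
  have hG2m : Measurable fun z : Space3 × ((ℝ × Space3) × (Space3 × Plane)) =>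
      G' (z.1 - c z.2, z.2) :=
    hG'm.comp ((measurable_fst.sub (hcm.comp measurable_snd)).prodMk measurable_snd)
  rw [e1, ← lintegral_shift hcm hG'm, ← mp_arr2.lintegral_comp hG2m]
  refine lintegral_congr fun z => ?_
  simp only [hG', hc, arr2, sibLine]
  rw [sub_add_eq_sub_sub]

/-! ### The identity -/

theorem lintegral_assoc3 {α β γ : Type*} [MeasureSpace α] [MeasureSpace β] [MeasureSpace γ]
    [SFinite (volume : Measure α)] [SFinite (volume : Measure β)] [SFinite (volume : Measure γ)]
    {F : α × (β × γ) → ℝ≥0∞} (hF : Measurable F) :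
    ∫⁻ z, F z = ∫⁻ z : α × β, ∫⁻ y : γ, F (z.1, (z.2, y)) := by
  have h2 : Measurable fun z : (α × β) × γ => F (z.1.1, (z.1.2, z.2)) :=
    hF.comp (by fun_prop)
  have h3 : Measurable fun z : α × β => ∫⁻ y : γ, F (z.1, (z.2, y)) := h2.lintegral_prod_right'
  rw [Tree674.lintegral_pair hF, Tree674.lintegral_pair h3]
  refine lintegral_congr fun d => ?_
  have h4 : Measurable fun q : β × γ => F (d, q) := hF.comp (measurable_const.prodMk measurable_id)
  exact Tree674.lintegral_pair h4

theorem lintegral_fib_top (l r : CTree) {F : BLine × Fib (Mk.top l r) → ℝ≥0∞} (hF : Measurable F) :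
    ∫⁻ z : BLine × Fib (Mk.top l r), F z =
      ∫⁻ z : BLine × (Space3 × Plane), ∫⁻ y : Par l × Par r,
        F (z.1, ((z.2, y) : (Space3 × Plane) × (Par l × Par r))) :=
  lintegral_assoc3 (α := BLine) (β := Space3 × Plane) (γ := Par l × Par r) hF

theorem lintegral_fib_inl {l : CTree} (m : Mk l) (r : CTree)
    {F : BLine × Fib (Mk.inl m r) → ℝ≥0∞} (hF : Measurable F) :
    ∫⁻ z : BLine × Fib (Mk.inl m r), F z =
      ∫⁻ z : BLine × Fib m, ∫⁻ y : NodeP × Par r, F (z.1, ((z.2, y) : Fib m × (NodeP × Par r))) :=
  lintegral_assoc3 (α := BLine) (β := Fib m) (γ := NodeP × Par r) hF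

theorem lintegral_fib_inr (l : CTree) {r : CTree} (m : Mk r)
    {F : BLine × Fib (Mk.inr l m) → ℝ≥0∞} (hF : Measurable F) :
    ∫⁻ z : BLine × Fib (Mk.inr l m), F z =
      ∫⁻ z : BLine × Fib m, ∫⁻ y : NodeP × Par l, F (z.1, ((z.2, y) : Fib m × (NodeP × Par l))) :=
  lintegral_assoc3 (α := BLine) (β := Fib m) (γ := NodeP × Par l) hF

/-- **Re-rooting at a marked exit line.** -/
theorem reroot (hΦ : AdmissiblePotential Φ) {ε : ℝ} (hε : 0 < ε) (T : ℝ) :
    {P : CTree} → (m : Mk P) → {H : PhasePoint × Par P → ℝ≥0∞} → Measurable H →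
    ∫⁻ z : PhasePoint × Par P, vw Φ ε P T z * H z =
      ∫⁻ z : BLine × Fib m, vf Φ ε T m z * H (psi Φ ε T m z)
  | _, .top l r, H, hH => by
      have hF : Measurable fun z : PhasePoint × Par (node l r) => vw Φ ε (node l r) T z * H z :=
        (measurable_vw hΦ ε (node l r) T).mul hH
      set G : PhasePoint × NodeP → ℝ≥0∞ := fun z => ∫⁻ y : Par l × Par r,
        vw Φ ε (node l r) T (z.1, ((z.2, y) : Par (node l r))) *
          H (z.1, ((z.2, y) : Par (node l r))) with hG
      have hF2 : Measurable fun z : (PhasePoint × NodeP) × (Par l × Par r) =>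
          vw Φ ε (node l r) T (z.1.1, ((z.1.2, z.2) : Par (node l r))) *
          H (z.1.1, ((z.1.2, z.2) : Par (node l r))) :=
        hF.comp (measurable_fst.fst.prodMk
          ((measurable_parMk l r).comp (measurable_fst.snd.prodMk measurable_snd)))
      have hGm : Measurable G := hF2.lintegral_prod_right'
      have e1 : ∫⁻ z : PhasePoint × Par (node l r), vw Φ ε (node l r) T z * H z = ∫⁻ z, G z := by
        rw [Tree674.lintegral_pair hF, Tree674.lintegral_pair hGm]
        refine lintegral_congr fun ℓ => ?_
        have hFℓ : Measurable fun y : Par (node l r) => vw Φ ε (node l r) T (ℓ, y) * H (ℓ, y) :=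
          hF.comp (measurable_const.prodMk measurable_id)
        exact lintegral_par_node l r hFℓ
      have hR : Measurable fun z : BLine × Fib (Mk.top l r) =>
          vf Φ ε T (.top l r) z * H (psi Φ ε T (.top l r) z) :=
        (measurable_vf hΦ hε T (.top l r)).mul (hH.comp (measurable_psi hΦ hε T (.top l r)))
      rw [e1, lintegral_sib ε hGm, lintegral_fib_top l r hR]
      rfl
  | _, .inl (l := l) m r, H, hH => by
      have mo := measurable_outD hΦ hε T
      have ms := measurable_sinM hΦ ε
      have mvl := measurable_vw hΦ ε l T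
      have mvr := measurable_vw hΦ ε r T
      have hF : Measurable fun z : PhasePoint × Par (node l r) => vw Φ ε (node l r) T z * H z :=
        (measurable_vw hΦ ε (node l r) T).mul hH
      -- the function `L`
      set L : ((PhasePoint × NodeP) × (PhasePoint × PhasePoint)) × (Par l × Par r) → ℝ≥0∞ :=
        fun w => (topI l (sinM Φ ε w.1.1, w.2.1) * vw Φ ε l T (w.1.2.1, w.2.1)) *
          (topI r (sinM Φ ε w.1.1, w.2.2) * vw Φ ε r T (w.1.2.2, w.2.2)) *
          H (w.1.1.1, ((w.1.1.2, w.2) : Par (node l r))) with hLdef
      have m11 : Measurable fun w : ((PhasePoint × NodeP) × (PhasePoint × PhasePoint)) ×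
          (Par l × Par r) => w.1.1 := measurable_fst.fst
      have m121 : Measurable fun w : ((PhasePoint × NodeP) × (PhasePoint × PhasePoint)) ×
          (Par l × Par r) => w.1.2.1 := measurable_fst.snd.fst
      have m122 : Measurable fun w : ((PhasePoint × NodeP) × (PhasePoint × PhasePoint)) ×
          (Par l × Par r) => w.1.2.2 := measurable_fst.snd.snd
      have m21 : Measurable fun w : ((PhasePoint × NodeP) × (PhasePoint × PhasePoint)) ×
          (Par l × Par r) => w.2.1 := measurable_snd.fst
      have m22 : Measurable fun w : ((PhasePoint × NodeP) × (PhasePoint × PhasePoint)) ×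
          (Par l × Par r) => w.2.2 := measurable_snd.snd
      have mp : Measurable fun w : ((PhasePoint × NodeP) × (PhasePoint × PhasePoint)) ×
          (Par l × Par r) => ((w.1.1.2, w.2) : Par (node l r)) :=
        (measurable_parMk l r).comp (m11.snd.prodMk measurable_snd)
      have hL : Measurable L := by
        refine Measurable.mul (Measurable.mul ?_ ?_) ?_
        · exact ((measurable_topI l).comp ((ms.comp m11).prodMk m21)).mul
            (mvl.comp (m121.prodMk m21))
        · exact ((measurable_topI r).comp ((ms.comp m11).prodMk m22)).mul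
            (mvr.comp (m122.prodMk m22))
        · exact hH.comp (m11.fst.prodMk mp)
      set K : (PhasePoint × NodeP) × (PhasePoint × PhasePoint) → ℝ≥0∞ :=
        fun w => ∫⁻ y : Par l × Par r, L (w, y) with hKdef
      have hK : Measurable K := hL.lintegral_prod_right'
      -- Step 1
      have step1 : ∫⁻ z : PhasePoint × Par (node l r), vw Φ ε (node l r) T z * H z =
          ∫⁻ z : PhasePoint × NodeP, (Vset Φ ε T).indicator
            (fun z => ENNReal.ofReal ‖z.1.2 - z.2.2.1‖ * K (z, inMap Φ ε z.1 z.2)) z := by
        have hin : ∀ z : PhasePoint × NodeP, (Vset Φ ε T).indicator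
            (fun z => ENNReal.ofReal ‖z.1.2 - z.2.2.1‖ * K (z, inMap Φ ε z.1 z.2)) z =
            vI Φ ε T z * (ENNReal.ofReal ‖z.1.2 - z.2.2.1‖ * K (z, inM Φ ε z)) := by
          intro z
          unfold vI
          by_cases hz : z ∈ Vset Φ ε T
          · rw [indicator_of_mem hz, indicator_of_mem hz, inM_of_adm hz.1, Pi.one_apply, one_mul]
          · rw [indicator_of_notMem hz, indicator_of_notMem hz, zero_mul]
        simp only [hin]
        have hmz : Measurable fun z : PhasePoint × NodeP =>
            vI Φ ε T z * (ENNReal.ofReal ‖z.1.2 - z.2.2.1‖ * K (z, inM Φ ε z)) := by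
          have h1 : Measurable fun z : PhasePoint × NodeP => ENNReal.ofReal ‖z.1.2 - z.2.2.1‖ := by
            fun_prop
          exact (measurable_vI hΦ ε T).mul
            (h1.mul (hK.comp (measurable_id.prodMk (measurable_inM hΦ ε))))
        rw [Tree674.lintegral_pair hF, Tree674.lintegral_pair hmz]
        refine lintegral_congr fun ℓ => ?_
        have hFℓ : Measurable fun y : Par (node l r) => vw Φ ε (node l r) T (ℓ, y) * H (ℓ, y) :=
          hF.comp (measurable_const.prodMk measurable_id)
        rw [lintegral_par_node l r hFℓ]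
        refine lintegral_congr fun a => ?_
        have hLa : Measurable fun y : Par l × Par r => L (((ℓ, a), inM Φ ε (ℓ, a)), y) :=
          hL.comp (measurable_const.prodMk measurable_id)
        simp only [hKdef]
        rw [← lintegral_const_mul _ hLa, ← lintegral_const_mul _ (hLa.const_mul _)]
        refine lintegral_congr fun y => ?_
        have hv := vw_node hε (Φ := Φ) (l := l) (r := r) (T := T) ℓ a y.1 y.2
        have hv' : vw Φ ε (node l r) T (ℓ, ((a, y) : Par (node l r))) = _ := hv
        rw [hv']
        simp only [hLdef]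
        ring
      -- Step 2: flip
      have step2 := flipL hΦ hε T hK
      -- Step 3: reorder
      set G : (PhasePoint × Par l) × (NodeP × Par r) → ℝ≥0∞ := fun w =>
        (gL Φ ε T (w.1.1, w.2.1) * ENNReal.ofReal ‖w.1.1.2 - w.2.1.2.1‖ *
          topI l (w.2.1.1, w.1.2) *
          (topI r (w.2.1.1, w.2.2) * vw Φ ε r T (inLine ε w.1.1 w.2.1, w.2.2))) *
          H ((outD Φ ε T (w.1.1, inLine ε w.1.1 w.2.1)).1,
            (((outD Φ ε T (w.1.1, inLine ε w.1.1 w.2.1)).2, (w.1.2, w.2.2)) : Par (node l r)))
        with hGdef
      have hG : Measurable G := by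
        have n11 : Measurable fun w : (PhasePoint × Par l) × (NodeP × Par r) => w.1.1 :=
          measurable_fst.fst
        have n12 : Measurable fun w : (PhasePoint × Par l) × (NodeP × Par r) => w.1.2 :=
          measurable_fst.snd
        have n21 : Measurable fun w : (PhasePoint × Par l) × (NodeP × Par r) => w.2.1 :=
          measurable_snd.fst
        have n22 : Measurable fun w : (PhasePoint × Par l) × (NodeP × Par r) => w.2.2 :=
          measurable_snd.snd
        have ho := mo.comp ((measurable_pairL ε).comp (n11.prodMk n21))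
        refine Measurable.mul (Measurable.mul (Measurable.mul (Measurable.mul ?_ ?_) ?_)
          (Measurable.mul ?_ ?_)) ?_
        · exact (measurable_gL hΦ hε T).comp (n11.prodMk n21)
        · exact (n11.snd.sub n21.snd.fst).norm.ennreal_ofReal
        · exact (measurable_topI l).comp (n21.fst.prodMk n12)
        · exact (measurable_topI r).comp (n21.fst.prodMk n22)
        · exact mvr.comp (((measurable_inLine ε).comp (n11.prodMk n21)).prodMk n22)
        · exact hH.comp (ho.fst.prodMk ((measurable_parMk l r).comp
            (ho.snd.prodMk (n12.prodMk n22))))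
      have step3 : ∫⁻ z : PhasePoint × NodeP, (GoodL Φ ε T).indicator
          (fun z => ENNReal.ofReal ‖z.1.2 - z.2.2.1‖ *
            K (outD Φ ε T (z.1, inLine ε z.1 z.2), (z.1, inLine ε z.1 z.2))) z =
          ∫⁻ z1 : PhasePoint × Par l, vw Φ ε l T z1 * ∫⁻ z2 : NodeP × Par r, G (z1, z2) := by
        have hin : ∀ z : PhasePoint × NodeP, (GoodL Φ ε T).indicator
          (fun z => ENNReal.ofReal ‖z.1.2 - z.2.2.1‖ *
            K (outD Φ ε T (z.1, inLine ε z.1 z.2), (z.1, inLine ε z.1 z.2))) z =
            ∫⁻ y : Par l × Par r, vw Φ ε l T (z.1, y.1) * G ((z.1, y.1), (z.2, y.2)) := by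
          intro z
          by_cases hz : z ∈ GoodL Φ ε T
          · rw [indicator_of_mem hz]
            have hLa : Measurable fun y : Par l × Par r =>
                L ((outD Φ ε T (z.1, inLine ε z.1 z.2), (z.1, inLine ε z.1 z.2)), y) :=
              hL.comp (measurable_const.prodMk measurable_id)
            simp only [hKdef]
            rw [← lintegral_const_mul _ hLa]
            refine lintegral_congr fun y => ?_
            have hsin : sinM Φ ε (outD Φ ε T (z.1, inLine ε z.1 z.2)) = z.2.1 := by
              rw [sinM_of_adm hz.2.1]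
              exact sin_of_mem_GoodL hΦ hε hz
            have hg : gL Φ ε T (z.1, z.2) = 1 := by
              unfold gL
              rw [indicator_of_mem (show (z.1, z.2) ∈ GoodL Φ ε T from hz)]
              rfl
            simp only [hLdef, hGdef, hsin, hg]
            ring
          · rw [indicator_of_notMem hz]
            have hg : gL Φ ε T (z.1, z.2) = 0 := by
              unfold gL
              exact indicator_of_notMem (show (z.1, z.2) ∉ GoodL Φ ε T from hz) _
            simp only [hGdef, hg]
            simp
        simp only [hin]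
        have hL2 : Measurable fun w : (PhasePoint × NodeP) × (Par l × Par r) =>
            vw Φ ε l T (w.1.1, w.2.1) * G ((w.1.1, w.2.1), (w.1.2, w.2.2)) := by
          have k1 : Measurable fun w : (PhasePoint × NodeP) × (Par l × Par r) => (w.1.1, w.2.1) :=
            measurable_fst.fst.prodMk measurable_snd.fst
          have k2 : Measurable fun w : (PhasePoint × NodeP) × (Par l × Par r) => (w.1.2, w.2.2) :=
            measurable_fst.snd.prodMk measurable_snd.snd
          exact (mvl.comp k1).mul (hG.comp (k1.prodMk k2))
        have h4 := lintegral_four (volume : Measure PhasePoint) (volume : Measure NodeP)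
          (volume : Measure (Par l)) (volume : Measure (Par r)) hL2
        rw [← Measure.volume_eq_prod, ← Measure.volume_eq_prod, ← Measure.volume_eq_prod,
          ← Measure.volume_eq_prod] at h4
        rw [h4]
        refine lintegral_congr fun z1 => ?_
        have hGz : Measurable fun z2 : NodeP × Par r => G (z1, z2) :=
          hG.comp (measurable_const.prodMk measurable_id)
        rw [← lintegral_const_mul _ hGz]
      -- Step 4: induction hypothesis
      have hG2 : Measurable fun z1 : PhasePoint × Par l => ∫⁻ z2 : NodeP × Par r, G (z1, z2) :=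
        hG.lintegral_prod_right'
      have ih := reroot hΦ hε T m hG2
      have hR : Measurable fun z : BLine × Fib (Mk.inl m r) =>
          vf Φ ε T (.inl m r) z * H (psi Φ ε T (.inl m r) z) :=
        (measurable_vf hΦ hε T (.inl m r)).mul (hH.comp (measurable_psi hΦ hε T (.inl m r)))
      rw [step1, step2, step3, ih, lintegral_fib_inl m r hR]
      refine lintegral_congr fun z => ?_
      have hGz : Measurable fun z2 : NodeP × Par r => G (psi Φ ε T m z, z2) :=
        hG.comp (measurable_const.prodMk measurable_id)
      rw [← lintegral_const_mul _ hGz]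
      refine lintegral_congr fun y => ?_
      have e1 : vf Φ ε T (Mk.inl m r) (z.1, ((z.2, y) : Fib m × (NodeP × Par r))) =
          vf Φ ε T m z * (gL Φ ε T ((psi Φ ε T m z).1, y.1) *
            ENNReal.ofReal ‖(psi Φ ε T m z).1.2 - y.1.2.1‖ *
            topI l (y.1.1, (psi Φ ε T m z).2) *
            (topI r (y.1.1, y.2) * vw Φ ε r T (inLine ε (psi Φ ε T m z).1 y.1, y.2))) := rfl
      have e2 : psi Φ ε T (Mk.inl m r) (z.1, ((z.2, y) : Fib m × (NodeP × Par r))) =
          ((outD Φ ε T ((psi Φ ε T m z).1, inLine ε (psi Φ ε T m z).1 y.1)).1,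
            (((outD Φ ε T ((psi Φ ε T m z).1, inLine ε (psi Φ ε T m z).1 y.1)).2,
              ((psi Φ ε T m z).2, y.2)) : Par (node l r))) := rfl
      rw [e1, e2]
      exact (mul_assoc _ _ _).symm
  | _, .inr l (r := r) m, H, hH => by
      have mo := measurable_outD hΦ hε T
      have ms := measurable_sinM hΦ ε
      have mvl := measurable_vw hΦ ε l T
      have mvr := measurable_vw hΦ ε r T
      have hF : Measurable fun z : PhasePoint × Par (node l r) => vw Φ ε (node l r) T z * H z :=
        (measurable_vw hΦ ε (node l r) T).mul hH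
      -- the function `L`
      set L : ((PhasePoint × NodeP) × (PhasePoint × PhasePoint)) × (Par r × Par l) → ℝ≥0∞ :=
        fun w => (topI r (sinM Φ ε w.1.1, w.2.1) * vw Φ ε r T (w.1.2.2, w.2.1)) *
          (topI l (sinM Φ ε w.1.1, w.2.2) * vw Φ ε l T (w.1.2.1, w.2.2)) *
          H (w.1.1.1, ((w.1.1.2, (w.2.2, w.2.1)) : Par (node l r))) with hLdef
      have m11 : Measurable fun w : ((PhasePoint × NodeP) × (PhasePoint × PhasePoint)) ×
          (Par r × Par l) => w.1.1 := measurable_fst.fst
      have m121 : Measurable fun w : ((PhasePoint × NodeP) × (PhasePoint × PhasePoint)) ×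
          (Par r × Par l) => w.1.2.1 := measurable_fst.snd.fst
      have m122 : Measurable fun w : ((PhasePoint × NodeP) × (PhasePoint × PhasePoint)) ×
          (Par r × Par l) => w.1.2.2 := measurable_fst.snd.snd
      have m21 : Measurable fun w : ((PhasePoint × NodeP) × (PhasePoint × PhasePoint)) ×
          (Par r × Par l) => w.2.1 := measurable_snd.fst
      have m22 : Measurable fun w : ((PhasePoint × NodeP) × (PhasePoint × PhasePoint)) ×
          (Par r × Par l) => w.2.2 := measurable_snd.snd
      have mp : Measurable fun w : ((PhasePoint × NodeP) × (PhasePoint × PhasePoint)) ×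
          (Par r × Par l) => ((w.1.1.2, (w.2.2, w.2.1)) : Par (node l r)) :=
        (measurable_parMk l r).comp (m11.snd.prodMk (m22.prodMk m21))
      have hL : Measurable L := by
        refine Measurable.mul (Measurable.mul ?_ ?_) ?_
        · exact ((measurable_topI r).comp ((ms.comp m11).prodMk m21)).mul
            (mvr.comp (m122.prodMk m21))
        · exact ((measurable_topI l).comp ((ms.comp m11).prodMk m22)).mul
            (mvl.comp (m121.prodMk m22))
        · exact hH.comp (m11.fst.prodMk mp)
      set K : (PhasePoint × NodeP) × (PhasePoint × PhasePoint) → ℝ≥0∞ :=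
        fun w => ∫⁻ y : Par r × Par l, L (w, y) with hKdef
      have hK : Measurable K := hL.lintegral_prod_right'
      -- Step 1
      have step1 : ∫⁻ z : PhasePoint × Par (node l r), vw Φ ε (node l r) T z * H z =
          ∫⁻ z : PhasePoint × NodeP, (Vset Φ ε T).indicator
            (fun z => ENNReal.ofReal ‖z.1.2 - z.2.2.1‖ * K (z, inMap Φ ε z.1 z.2)) z := by
        have hin : ∀ z : PhasePoint × NodeP, (Vset Φ ε T).indicator
            (fun z => ENNReal.ofReal ‖z.1.2 - z.2.2.1‖ * K (z, inMap Φ ε z.1 z.2)) z =
            vI Φ ε T z * (ENNReal.ofReal ‖z.1.2 - z.2.2.1‖ * K (z, inM Φ ε z)) := by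
          intro z
          unfold vI
          by_cases hz : z ∈ Vset Φ ε T
          · rw [indicator_of_mem hz, indicator_of_mem hz, inM_of_adm hz.1, Pi.one_apply, one_mul]
          · rw [indicator_of_notMem hz, indicator_of_notMem hz, zero_mul]
        simp only [hin]
        have hmz : Measurable fun z : PhasePoint × NodeP =>
            vI Φ ε T z * (ENNReal.ofReal ‖z.1.2 - z.2.2.1‖ * K (z, inM Φ ε z)) := by
          have h1 : Measurable fun z : PhasePoint × NodeP => ENNReal.ofReal ‖z.1.2 - z.2.2.1‖ := by
            fun_prop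
          exact (measurable_vI hΦ ε T).mul
            (h1.mul (hK.comp (measurable_id.prodMk (measurable_inM hΦ ε))))
        rw [Tree674.lintegral_pair hF, Tree674.lintegral_pair hmz]
        refine lintegral_congr fun ℓ => ?_
        have hFℓ : Measurable fun y : Par (node l r) => vw Φ ε (node l r) T (ℓ, y) * H (ℓ, y) :=
          hF.comp (measurable_const.prodMk measurable_id)
        rw [lintegral_par_node l r hFℓ]
        refine lintegral_congr fun a => ?_
        have hLa : Measurable fun y : Par r × Par l => L (((ℓ, a), inM Φ ε (ℓ, a)), y) :=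
          hL.comp (measurable_const.prodMk measurable_id)
        have hsw : ∫⁻ y : Par l × Par r, vw Φ ε (node l r) T (ℓ, ((a, y) : Par (node l r))) *
              H (ℓ, ((a, y) : Par (node l r))) =
            ∫⁻ y : Par r × Par l, vw Φ ε (node l r) T (ℓ, ((a, y.swap) : Par (node l r))) *
              H (ℓ, ((a, y.swap) : Par (node l r))) := by
          have hm : Measurable fun y : Par l × Par r =>
              vw Φ ε (node l r) T (ℓ, ((a, y) : Par (node l r))) *
              H (ℓ, ((a, y) : Par (node l r))) :=
            hFℓ.comp ((measurable_parMk l r).comp (measurable_const.prodMk measurable_id))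
          exact ((Measure.measurePreserving_swap (μ := (volume : Measure (Par r)))
            (ν := (volume : Measure (Par l)))).lintegral_comp hm).symm
        rw [hsw]
        simp only [hKdef]
        rw [← lintegral_const_mul _ hLa, ← lintegral_const_mul _ (hLa.const_mul _)]
        refine lintegral_congr fun y => ?_
        have hv := vw_node hε (Φ := Φ) (l := l) (r := r) (T := T) ℓ a y.2 y.1
        have hv' : vw Φ ε (node l r) T (ℓ, ((a, y.swap) : Par (node l r))) = _ := hv
        rw [hv']
        simp only [hLdef, Prod.swap]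
        ring
      -- Step 2: flip
      have step2 := flipR hΦ hε T hK
      -- Step 3: reorder
      set G : (PhasePoint × Par r) × (NodeP × Par l) → ℝ≥0∞ := fun w =>
        (gR Φ ε T (w.1.1, w.2.1) * ENNReal.ofReal ‖w.1.1.2 - w.2.1.2.1‖ *
          topI r (w.2.1.1, w.1.2) *
          (topI l (w.2.1.1, w.2.2) * vw Φ ε l T (inLine ε w.1.1 w.2.1, w.2.2))) *
          H ((outD Φ ε T (inLine ε w.1.1 w.2.1, w.1.1)).1,
            (((outD Φ ε T (inLine ε w.1.1 w.2.1, w.1.1)).2, (w.2.2, w.1.2)) : Par (node l r)))
        with hGdef
      have hG : Measurable G := by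
        have n11 : Measurable fun w : (PhasePoint × Par r) × (NodeP × Par l) => w.1.1 :=
          measurable_fst.fst
        have n12 : Measurable fun w : (PhasePoint × Par r) × (NodeP × Par l) => w.1.2 :=
          measurable_fst.snd
        have n21 : Measurable fun w : (PhasePoint × Par r) × (NodeP × Par l) => w.2.1 :=
          measurable_snd.fst
        have n22 : Measurable fun w : (PhasePoint × Par r) × (NodeP × Par l) => w.2.2 :=
          measurable_snd.snd
        have ho := mo.comp ((measurable_pairR ε).comp (n11.prodMk n21))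
        refine Measurable.mul (Measurable.mul (Measurable.mul (Measurable.mul ?_ ?_) ?_)
          (Measurable.mul ?_ ?_)) ?_
        · exact (measurable_gR hΦ hε T).comp (n11.prodMk n21)
        · exact (n11.snd.sub n21.snd.fst).norm.ennreal_ofReal
        · exact (measurable_topI r).comp (n21.fst.prodMk n12)
        · exact (measurable_topI l).comp (n21.fst.prodMk n22)
        · exact mvl.comp (((measurable_inLine ε).comp (n11.prodMk n21)).prodMk n22)
        · exact hH.comp (ho.fst.prodMk ((measurable_parMk l r).comp
            (ho.snd.prodMk (n22.prodMk n12))))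
      have step3 : ∫⁻ z : PhasePoint × NodeP, (GoodR Φ ε T).indicator
          (fun z => ENNReal.ofReal ‖z.1.2 - z.2.2.1‖ *
            K (outD Φ ε T (inLine ε z.1 z.2, z.1), (inLine ε z.1 z.2, z.1))) z =
          ∫⁻ z1 : PhasePoint × Par r, vw Φ ε r T z1 * ∫⁻ z2 : NodeP × Par l, G (z1, z2) := by
        have hin : ∀ z : PhasePoint × NodeP, (GoodR Φ ε T).indicator
          (fun z => ENNReal.ofReal ‖z.1.2 - z.2.2.1‖ *
            K (outD Φ ε T (inLine ε z.1 z.2, z.1), (inLine ε z.1 z.2, z.1))) z =
            ∫⁻ y : Par r × Par l, vw Φ ε r T (z.1, y.1) * G ((z.1, y.1), (z.2, y.2)) := by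
          intro z
          by_cases hz : z ∈ GoodR Φ ε T
          · rw [indicator_of_mem hz]
            have hLa : Measurable fun y : Par r × Par l =>
                L ((outD Φ ε T (inLine ε z.1 z.2, z.1), (inLine ε z.1 z.2, z.1)), y) :=
              hL.comp (measurable_const.prodMk measurable_id)
            simp only [hKdef]
            rw [← lintegral_const_mul _ hLa]
            refine lintegral_congr fun y => ?_
            have hsin : sinM Φ ε (outD Φ ε T (inLine ε z.1 z.2, z.1)) = z.2.1 := by
              rw [sinM_of_adm hz.2.1]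
              exact sin_of_mem_GoodR hΦ hε hz
            have hg : gR Φ ε T (z.1, z.2) = 1 := by
              unfold gR
              rw [indicator_of_mem (show (z.1, z.2) ∈ GoodR Φ ε T from hz)]
              rfl
            simp only [hLdef, hGdef, hsin, hg]
            ring
          · rw [indicator_of_notMem hz]
            have hg : gR Φ ε T (z.1, z.2) = 0 := by
              unfold gR
              exact indicator_of_notMem (show (z.1, z.2) ∉ GoodR Φ ε T from hz) _
            simp only [hGdef, hg]
            simp
        simp only [hin]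
        have hL2 : Measurable fun w : (PhasePoint × NodeP) × (Par r × Par l) =>
            vw Φ ε r T (w.1.1, w.2.1) * G ((w.1.1, w.2.1), (w.1.2, w.2.2)) := by
          have k1 : Measurable fun w : (PhasePoint × NodeP) × (Par r × Par l) => (w.1.1, w.2.1) :=
            measurable_fst.fst.prodMk measurable_snd.fst
          have k2 : Measurable fun w : (PhasePoint × NodeP) × (Par r × Par l) => (w.1.2, w.2.2) :=
            measurable_fst.snd.prodMk measurable_snd.snd
          exact (mvr.comp k1).mul (hG.comp (k1.prodMk k2))
        have h4 := lintegral_four (volume : Measure PhasePoint) (volume : Measure NodeP)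
          (volume : Measure (Par r)) (volume : Measure (Par l)) hL2
        rw [← Measure.volume_eq_prod, ← Measure.volume_eq_prod, ← Measure.volume_eq_prod,
          ← Measure.volume_eq_prod] at h4
        rw [h4]
        refine lintegral_congr fun z1 => ?_
        have hGz : Measurable fun z2 : NodeP × Par l => G (z1, z2) :=
          hG.comp (measurable_const.prodMk measurable_id)
        rw [← lintegral_const_mul _ hGz]
      -- Step 4: induction hypothesis
      have hG2 : Measurable fun z1 : PhasePoint × Par r => ∫⁻ z2 : NodeP × Par l, G (z1, z2) :=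
        hG.lintegral_prod_right'
      have ih := reroot hΦ hε T m hG2
      have hR : Measurable fun z : BLine × Fib (Mk.inr l m) =>
          vf Φ ε T (.inr l m) z * H (psi Φ ε T (.inr l m) z) :=
        (measurable_vf hΦ hε T (.inr l m)).mul (hH.comp (measurable_psi hΦ hε T (.inr l m)))
      rw [step1, step2, step3, ih, lintegral_fib_inr l m hR]
      refine lintegral_congr fun z => ?_
      have hGz : Measurable fun z2 : NodeP × Par l => G (psi Φ ε T m z, z2) :=
        hG.comp (measurable_const.prodMk measurable_id)
      rw [← lintegral_const_mul _ hGz]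
      refine lintegral_congr fun y => ?_
      have e1 : vf Φ ε T (Mk.inr l m) (z.1, ((z.2, y) : Fib m × (NodeP × Par l))) =
          vf Φ ε T m z * (gR Φ ε T ((psi Φ ε T m z).1, y.1) *
            ENNReal.ofReal ‖(psi Φ ε T m z).1.2 - y.1.2.1‖ *
            topI r (y.1.1, (psi Φ ε T m z).2) *
            (topI l (y.1.1, y.2) * vw Φ ε l T (inLine ε (psi Φ ε T m z).1 y.1, y.2))) := rfl
      have e2 : psi Φ ε T (Mk.inr l m) (z.1, ((z.2, y) : Fib m × (NodeP × Par l))) =
          ((outD Φ ε T (inLine ε (psi Φ ε T m z).1 y.1, (psi Φ ε T m z).1)).1,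
            (((outD Φ ε T (inLine ε (psi Φ ε T m z).1 y.1, (psi Φ ε T m z).1)).2,
              (y.2, (psi Φ ε T m z).2)) : Par (node l r))) := rfl
      rw [e1, e2]
      exact (mul_assoc _ _ _).symm

end Crest.Agent.R122.Mark307

end
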