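import Crest.Agent.R122.Mark3_307
import Crest.Agent.R122.TreeDom_974
import Crest.Agent.R122.TreeLines_335

/-!
Row 122, block H7b (helper307), part 4: marks and exit lines.

* `exIdx : Mk P → Idx P` is a bijection onto the non-root particles (`sum_exIdx`).
* `exl` = (release time, state at the release time) of the marked particle, in terms of `fin`, `prot`.
* `reroot_ex` : the re-rooting identity with the exit line as free parameter.
* energy, box and weight in re-rooted parameters.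
-/

set_option autoImplicit false
set_option synthInstance.maxSize 1024

open MeasureTheory Set Filter Topology
open Crest.AnalysisR.Kinetic
open scoped ENNReal

noncomputable section

namespace Crest.Agent.R122.Mark307

open Kin796 Kin796.CTree Disc416 Scat818 Flow671 Flux663 Tree674 TreeDom974 PathFlow968
open TreeLines335 EDefs602
open scoped Classical

variable {Φ : Space3 → ℝ}

/-! ### Marks -/

theorem exIdx_ne_root : {P : CTree} → (m : Mk P) → exIdx m ≠ root P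
  | _, .top l r => Sum.inr_ne_inl
  | _, .inl m r => fun h => exIdx_ne_root m (Sum.inl.inj h)
  | _, .inr l m => Sum.inr_ne_inl

theorem exIdx_injective : {P : CTree} → Function.Injective (exIdx (P := P))
  | _, .top l r, .top _ _, _ => rfl
  | _, .top l r, .inl m _, h => absurd h Sum.inr_ne_inl
  | _, .top l r, .inr _ m, h => absurd (Sum.inr.inj h).symm (exIdx_ne_root m)
  | _, .inl m r, .top _ _, h => absurd h Sum.inl_ne_inr
  | _, .inl m r, .inl m' _, h => by
      rw [exIdx_injective (Sum.inl.inj h)]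
  | _, .inl m r, .inr _ m', h => absurd h Sum.inl_ne_inr
  | _, .inr l m, .top _ _, h => absurd (Sum.inr.inj h) (exIdx_ne_root m)
  | _, .inr l m, .inl m' _, h => absurd h Sum.inr_ne_inl
  | _, .inr l m, .inr _ m', h => by
      rw [exIdx_injective (Sum.inr.inj h)]

theorem exIdx_surj : (P : CTree) → (i : Idx P) → i ≠ root P → ∃ m : Mk P, exIdx m = i
  | leaf, i, h => absurd rfl h
  | node l r, Sum.inl i, h => by
      obtain ⟨m, hm⟩ := exIdx_surj l i fun h' => h (by rw [h']; rfl)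
      exact ⟨.inl m r, congrArg Sum.inl hm⟩
  | node l r, Sum.inr i, h => by
      by_cases hi : i = root r
      · exact ⟨.top l r, congrArg Sum.inr hi.symm⟩
      · obtain ⟨m, hm⟩ := exIdx_surj r i hi
        exact ⟨.inr l m, congrArg Sum.inr hm⟩

/-- marks = non-root particles -/
def mkEquiv (P : CTree) : Mk P ≃ {i : Idx P // i ≠ root P} :=
  Equiv.ofBijective (fun m => ⟨exIdx m, exIdx_ne_root m⟩)
    ⟨fun _ _ h => exIdx_injective (Subtype.ext_iff.1 h),
      fun i => by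
        obtain ⟨m, hm⟩ := exIdx_surj P i.1 i.2
        exact ⟨m, Subtype.ext hm⟩⟩

theorem mkEquiv_apply {P : CTree} (m : Mk P) : (mkEquiv P m : Idx P) = exIdx m := rfl

instance instFiniteMk (P : CTree) : Finite (Mk P) := Finite.of_injective _ (exIdx_injective (P := P))

instance instFintypeMk (P : CTree) : Fintype (Mk P) := Fintype.ofFinite _

/-- sum over the exits = sum over the marks -/
theorem sum_exIdx (P : CTree) {M : Type*} [AddCommMonoid M] [Fintype {i : Idx P // i ≠ root P}]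
    (f : Idx P → M) :
    ∑ i : {i : Idx P // i ≠ root P}, f i = ∑ m : Mk P, f (exIdx m) :=
  (Equiv.sum_comp (mkEquiv P) (fun i => f i)).symm

theorem sum_exIdx_filter (P : CTree) {M : Type*} [AddCommMonoid M] (f : Idx P → M) :
    ∑ i ∈ Finset.univ.filter (fun i => i ≠ root P), f i = ∑ m : Mk P, f (exIdx m) := by
  rw [← sum_exIdx P f]
  exact Finset.sum_subtype _ (fun i => by simp) f

/-- mark of the exit line = number of particles below its last node -/
def mkN : {P : CTree} → Mk P → ℕ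
  | _, .top l r => (node l r).leaves
  | _, .inl m _ => mkN m
  | _, .inr _ m => mkN m

theorem mk_exIdx : {P : CTree} → (m : Mk P) → TreeLines335.mk P (exIdx m) = mkN m
  | _, .top l r => by simp [exIdx, TreeLines335.mk, mkN]
  | _, .inl m r => by
      simp only [exIdx, TreeLines335.mk, mkN, Sum.elim_inl, if_neg (exIdx_ne_root m)]
      exact mk_exIdx m
  | _, .inr l m => by
      simp only [exIdx, TreeLines335.mk, mkN, Sum.elim_inr, if_neg (exIdx_ne_root m)]
      exact mk_exIdx m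

/-- release time of the marked particle -/
def exT : {P : CTree} → Mk P → Par P → ℝ
  | _, .top _ _ => fun p => p.1.1
  | _, .inl m _ => fun p => exT m p.2.1
  | _, .inr _ m => fun p => exT m p.2.2

theorem rel_exIdx : {P : CTree} → (m : Mk P) → (p : Par P) →
    TreeLines335.rel P p (exIdx m) = exT m p
  | _, .top l r, p => by simp [exIdx, TreeLines335.rel, exT]
  | _, .inl m r, p => by
      simp only [exIdx, TreeLines335.rel, exT, Sum.elim_inl, if_neg (exIdx_ne_root m)]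
      exact rel_exIdx m p.2.1
  | _, .inr l m, p => by
      simp only [exIdx, TreeLines335.rel, exT, Sum.elim_inr, if_neg (exIdx_ne_root m)]
      exact rel_exIdx m p.2.2

theorem exl_eq : {P : CTree} → (m : Mk P) → (ε : ℝ) → (ℓ : PhasePoint) → (p : Par P) →
    exl Φ ε m ℓ p = (exT m p, onLine (fin Φ ε P ℓ p (exIdx m)) (exT m p))
  | _, .top l r, ε, ℓ, p => by
      simp only [exl, exT, exIdx, fin, Sum.elim_inr, Function.update_self]
  | _, .inl m r, ε, ℓ, p => by
      have h := exl_eq m ε (inMap Φ ε ℓ p.1).1 p.2.1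
      simp only [exl, exT, exIdx, fin, Sum.elim_inl]
      rw [h, Function.update_of_ne (exIdx_ne_root m)]
  | _, .inr l m, ε, ℓ, p => by
      have h := exl_eq m ε (inMap Φ ε ℓ p.1).2 p.2.2
      simp only [exl, exT, exIdx, fin, Sum.elim_inr]
      rw [h, Function.update_of_ne (exIdx_ne_root m)]

/-- the marked line of 335 -/
theorem lineML_exIdx {P : CTree} (m : Mk P) (ε : ℝ) (z : PhasePoint × Par P) :
    lineML Φ ε P z (exIdx m) = (exl Φ ε m z.1 z.2, mkN m) := by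
  unfold lineML
  rw [rel_exIdx, mk_exIdx, exl_eq]

/-- exit line of the partner of a node -/
def topX (ε : ℝ) (z : PhasePoint × NodeP) : BLine := (z.2.1, onLine (outLine ε z.1 z.2) z.2.1)

theorem measurable_topX (ε : ℝ) : Measurable (topX ε) := by
  have h0 : Measurable fun z : PhasePoint × NodeP => (nb z.1.2 z.2, ng z.1.2 z.2) :=
    measurable_nbng.comp measurable_zv
  have h1 : Measurable fun z : PhasePoint × NodeP =>
      entrancePoint (nb z.1.2 z.2) (ng z.1.2 z.2) := measurable_entrancePoint.comp h0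
  have h3 : Measurable fun z : PhasePoint × NodeP => z.1.1 + z.2.1 • z.1.2 := by fun_prop
  have h4 : Measurable fun z : PhasePoint × NodeP => z.2.1 • z.2.2.1 := by fun_prop
  have h5 : Measurable fun z : PhasePoint × NodeP => z.2.2.1 := by fun_prop
  have h6 := (h3.add (h1.const_smul ε)).sub h4
  exact measurable_snd.fst.prodMk ((h6.add h4).prodMk h5)

/-- measurable version of `exl` -/
def exM (Φ : Space3 → ℝ) (ε : ℝ) : {P : CTree} → Mk P → PhasePoint × Par P → BLine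
  | _, .top _ _ => fun z => topX ε (z.1, z.2.1)
  | _, .inl m _ => fun z => exM Φ ε m ((inM Φ ε (z.1, z.2.1)).1, z.2.2.1)
  | _, .inr _ m => fun z => exM Φ ε m ((inM Φ ε (z.1, z.2.1)).2, z.2.2.2)

theorem exM_eq {ε : ℝ} : {P : CTree} → (m : Mk P) → {z : PhasePoint × Par P} →
    Adm Φ P z.1.2 z.2 → exM Φ ε m z = exl Φ ε m z.1 z.2
  | _, .top l r, z, h => rfl
  | _, .inl m r, z, h => by
      have h1 : inM Φ ε (z.1, z.2.1) = inMap Φ ε z.1 z.2.1 := inM_of_adm (z := (z.1, z.2.1)) h.1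
      simp only [exM, exl, h1]
      exact exM_eq m h.2.1
  | _, .inr l m, z, h => by
      have h1 : inM Φ ε (z.1, z.2.1) = inMap Φ ε z.1 z.2.1 := inM_of_adm (z := (z.1, z.2.1)) h.1
      simp only [exM, exl, h1]
      exact exM_eq m h.2.2

theorem measurable_exM (hΦ : AdmissiblePotential Φ) (ε : ℝ) {P : CTree} (m : Mk P) :
    Measurable (exM Φ ε m) := by
  induction m with
  | top l r =>
      have h1 : Measurable fun z : PhasePoint × Par (node l r) => (z.1, z.2.1) :=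
        measurable_fst.prodMk ((measurable_par1 l r).comp measurable_snd)
      exact (measurable_topX ε).comp h1
  | @inl l m r ih =>
      have h1 : Measurable fun z : PhasePoint × Par (node l r) => (z.1, z.2.1) :=
        measurable_fst.prodMk ((measurable_par1 l r).comp measurable_snd)
      have h2 : Measurable fun z : PhasePoint × Par (node l r) => z.2.2.1 :=
        (measurable_parL l r).comp measurable_snd
      have h3 : Measurable fun z : PhasePoint × Par (node l r) =>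
          ((inM Φ ε (z.1, z.2.1)).1, z.2.2.1) := (((measurable_inM hΦ ε).comp h1).fst).prodMk h2
      exact ih.comp h3
  | @inr l r m ih =>
      have h1 : Measurable fun z : PhasePoint × Par (node l r) => (z.1, z.2.1) :=
        measurable_fst.prodMk ((measurable_par1 l r).comp measurable_snd)
      have h2 : Measurable fun z : PhasePoint × Par (node l r) => z.2.2.2 :=
        (measurable_parR l r).comp measurable_snd
      have h3 : Measurable fun z : PhasePoint × Par (node l r) =>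
          ((inM Φ ε (z.1, z.2.1)).2, z.2.2.2) := (((measurable_inM hΦ ε).comp h1).snd).prodMk h2
      exact ih.comp h3

/-! ### Facts on the support of `vf` -/

theorem mem_GoodL_of_gL {ε T : ℝ} {z : PhasePoint × NodeP} (h : gL Φ ε T z ≠ 0) :
    z ∈ GoodL Φ ε T := by
  by_contra hc
  exact h (indicator_of_notMem hc _)

theorem mem_GoodR_of_gR {ε T : ℝ} {z : PhasePoint × NodeP} (h : gR Φ ε T z ≠ 0) :
    z ∈ GoodR Φ ε T := by
  by_contra hc
  exact h (indicator_of_notMem hc _)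

theorem topLt_of_topI {P : CTree} {q : ℝ × Par P} (h : topI P q ≠ 0) : TopLt P q.1 q.2 := by
  by_contra hc
  exact h (indicator_of_notMem (show q ∉ {q : ℝ × Par P | TopLt P q.1 q.2} from hc) _)

theorem valid_of_vw {ε T : ℝ} {P : CTree} {z : PhasePoint × Par P} (h : vw Φ ε P T z ≠ 0) :
    Valid Φ ε P T z.1.2 z.2 := by
  by_contra hc
  exact h (vw_of_not_valid hc)

/-- unfolding of the support, `inl` -/
theorem vf_inl_ne {ε T : ℝ} {l : CTree} {m : Mk l} {r : CTree} {d : BLine} {q : Fib m}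
    {a : NodeP} {q' : Par r}
    (h : vf Φ ε T (Mk.inl m r) (d, ((q, (a, q')) : Fib m × (NodeP × Par r))) ≠ 0) :
    vf Φ ε T m (d, q) ≠ 0 ∧ ((psi Φ ε T m (d, q)).1, a) ∈ GoodL Φ ε T ∧
      TopLt l a.1 (psi Φ ε T m (d, q)).2 ∧ TopLt r a.1 q' ∧
      Valid Φ ε r T a.2.1 q' := by
  have h' : vf Φ ε T m (d, q) * (gL Φ ε T ((psi Φ ε T m (d, q)).1, a) *
      ENNReal.ofReal ‖(psi Φ ε T m (d, q)).1.2 - a.2.1‖ *
      topI l (a.1, (psi Φ ε T m (d, q)).2) *
      (topI r (a.1, q') * vw Φ ε r T (inLine ε (psi Φ ε T m (d, q)).1 a, q'))) ≠ 0 := h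
  simp only [mul_ne_zero_iff] at h'
  obtain ⟨h1, ⟨⟨⟨h2, _⟩, h3⟩, h4, h5⟩⟩ := h'
  exact ⟨h1, mem_GoodL_of_gL h2, topLt_of_topI h3, topLt_of_topI h4, valid_of_vw h5⟩

/-- unfolding of the support, `inr` -/
theorem vf_inr_ne {ε T : ℝ} {l : CTree} {r : CTree} {m : Mk r} {d : BLine} {q : Fib m}
    {a : NodeP} {q' : Par l}
    (h : vf Φ ε T (Mk.inr l m) (d, ((q, (a, q')) : Fib m × (NodeP × Par l))) ≠ 0) :
    vf Φ ε T m (d, q) ≠ 0 ∧ ((psi Φ ε T m (d, q)).1, a) ∈ GoodR Φ ε T ∧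
      TopLt r a.1 (psi Φ ε T m (d, q)).2 ∧ TopLt l a.1 q' ∧
      Valid Φ ε l T a.2.1 q' := by
  have h' : vf Φ ε T m (d, q) * (gR Φ ε T ((psi Φ ε T m (d, q)).1, a) *
      ENNReal.ofReal ‖(psi Φ ε T m (d, q)).1.2 - a.2.1‖ *
      topI r (a.1, (psi Φ ε T m (d, q)).2) *
      (topI l (a.1, q') * vw Φ ε l T (inLine ε (psi Φ ε T m (d, q)).1 a, q'))) ≠ 0 := h
  simp only [mul_ne_zero_iff] at h'
  obtain ⟨h1, ⟨⟨⟨h2, _⟩, h3⟩, h4, h5⟩⟩ := h'
  exact ⟨h1, mem_GoodR_of_gR h2, topLt_of_topI h3, topLt_of_topI h4, valid_of_vw h5⟩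

/-- outgoing data of a good incoming pair (first orientation) -/
theorem goodL_spec (hΦ : AdmissiblePotential Φ) {ε : ℝ} (hε : 0 < ε) {T : ℝ}
    {ℓ : PhasePoint} {a : NodeP} (h : (ℓ, a) ∈ GoodL Φ ε T) {o : PhasePoint × NodeP}
    (hoo : outD Φ ε T (ℓ, inLine ε ℓ a) = o) :
    o ∈ Vset Φ ε T ∧ inMap Φ ε o.1 o.2 = (ℓ, inLine ε ℓ a) ∧
      inM Φ ε o = (ℓ, inLine ε ℓ a) ∧ Tree674.sin Φ ε o.1.2 o.2 = a.1 ∧ sinM Φ ε o = a.1 ∧
      ‖o.1.2 - o.2.2.1‖ = ‖ℓ.2 - a.2.1‖ ∧ ‖a.2.2‖ < 1 ∧ ℓ.2 ≠ a.2.1 := by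
  have ho : o ∈ Vset Φ ε T := by rw [← hoo]; exact h.2
  have hA : Adm1 Φ o.1.2 o.2 := ho.1
  have h3 : ‖exitVelocity Φ (nb o.1.2 o.2) (ng o.1.2 o.2)‖ = ‖ng o.1.2 o.2‖ :=
    Scat818.norm_exitVelocity hΦ hA.nb_mem hA.ng_ne
  have hin0 : inMap Φ ε (outD Φ ε T (ℓ, inLine ε ℓ a)).1 (outD Φ ε T (ℓ, inLine ε ℓ a)).2 =
    (ℓ, inLine ε ℓ a) := inMap_outD hΦ hε h.2
  have hin : inMap Φ ε o.1 o.2 = (ℓ, inLine ε ℓ a) := by rw [← hoo]; exact hin0
  have hs0 := sin_of_mem_GoodL hΦ hε h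
  have hs : Tree674.sin Φ ε o.1.2 o.2 = a.1 := by rw [← hoo]; exact hs0
  have h1 := inMap_vel_sub (Φ := Φ) ε o.1 o.2
  rw [hin] at h1
  have h2 : ℓ.2 - a.2.1 = exitVelocity Φ (nb o.1.2 o.2) (ng o.1.2 o.2) := h1
  rw [← h2] at h3
  refine ⟨ho, hin, ?_, hs, ?_, h3.symm, h.1.1, h.1.2⟩
  · rw [inM_of_adm ho.1]; exact hin
  · rw [sinM_of_adm ho.1]; exact hs

/-- outgoing data of a good incoming pair (second orientation) -/
theorem goodR_spec (hΦ : AdmissiblePotential Φ) {ε : ℝ} (hε : 0 < ε) {T : ℝ}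
    {ℓ : PhasePoint} {a : NodeP} (h : (ℓ, a) ∈ GoodR Φ ε T) {o : PhasePoint × NodeP}
    (hoo : outD Φ ε T (inLine ε ℓ a, ℓ) = o) :
    o ∈ Vset Φ ε T ∧ inMap Φ ε o.1 o.2 = (inLine ε ℓ a, ℓ) ∧
      inM Φ ε o = (inLine ε ℓ a, ℓ) ∧ Tree674.sin Φ ε o.1.2 o.2 = a.1 ∧ sinM Φ ε o = a.1 ∧
      ‖o.1.2 - o.2.2.1‖ = ‖ℓ.2 - a.2.1‖ ∧ ‖a.2.2‖ < 1 ∧ ℓ.2 ≠ a.2.1 := by
  have ho : o ∈ Vset Φ ε T := by rw [← hoo]; exact h.2
  have hA : Adm1 Φ o.1.2 o.2 := ho.1
  have h3 : ‖exitVelocity Φ (nb o.1.2 o.2) (ng o.1.2 o.2)‖ = ‖ng o.1.2 o.2‖ :=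
    Scat818.norm_exitVelocity hΦ hA.nb_mem hA.ng_ne
  have hin0 : inMap Φ ε (outD Φ ε T (inLine ε ℓ a, ℓ)).1 (outD Φ ε T (inLine ε ℓ a, ℓ)).2 =
    (inLine ε ℓ a, ℓ) := inMap_outD hΦ hε h.2
  have hin : inMap Φ ε o.1 o.2 = (inLine ε ℓ a, ℓ) := by rw [← hoo]; exact hin0
  have hs0 := sin_of_mem_GoodR hΦ hε h
  have hs : Tree674.sin Φ ε o.1.2 o.2 = a.1 := by rw [← hoo]; exact hs0
  have h1 := inMap_vel_sub (Φ := Φ) ε o.1 o.2
  rw [hin] at h1
  have h2 : a.2.1 - ℓ.2 = exitVelocity Φ (nb o.1.2 o.2) (ng o.1.2 o.2) := h1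
  rw [← h2, norm_sub_rev] at h3
  refine ⟨ho, hin, ?_, hs, ?_, h3.symm, h.1.1, h.1.2⟩
  · rw [inM_of_adm ho.1]; exact hin
  · rw [sinM_of_adm ho.1]; exact hs

/-- **The exit line of the re-rooted tree is the free parameter.** -/
theorem exM_psi (hΦ : AdmissiblePotential Φ) {ε : ℝ} (hε : 0 < ε) (T : ℝ) :
    {P : CTree} → (m : Mk P) → {z : BLine × Fib m} → vf Φ ε T m z ≠ 0 →
    exM Φ ε m (psi Φ ε T m z) = z.1
  | _, .top l r, z, _ => by
      obtain ⟨d, q⟩ := z
      simp only [exM, topX, psi, onLine, outLine, sibLine]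
      refine Prod.ext rfl (Prod.ext ?_ rfl)
      simp only
      module
  | _, .inl (l := l) m r, z, h => by
      obtain ⟨d, (q : Fib m × (NodeP × Par r))⟩ := z
      obtain ⟨q, a, q'⟩ := q
      obtain ⟨h1, h2, -⟩ := vf_inl_ne h
      obtain ⟨-, -, h3, -⟩ := goodL_spec hΦ hε h2 rfl
      have e : exM Φ ε (Mk.inl m r) (psi Φ ε T (Mk.inl m r)
          (d, ((q, (a, q')) : Fib m × (NodeP × Par r)))) =
          exM Φ ε m ((inM Φ ε (outD Φ ε T ((psi Φ ε T m (d, q)).1,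
            inLine ε (psi Φ ε T m (d, q)).1 a))).1, (psi Φ ε T m (d, q)).2) := rfl
      rw [e, h3]
      exact exM_psi hΦ hε T m h1
  | _, .inr l (r := r) m, z, h => by
      obtain ⟨d, (q : Fib m × (NodeP × Par l))⟩ := z
      obtain ⟨q, a, q'⟩ := q
      obtain ⟨h1, h2, -⟩ := vf_inr_ne h
      obtain ⟨-, -, h3, -⟩ := goodR_spec hΦ hε h2 rfl
      have e : exM Φ ε (Mk.inr l m) (psi Φ ε T (Mk.inr l m)
          (d, ((q, (a, q')) : Fib m × (NodeP × Par l)))) =
          exM Φ ε m ((inM Φ ε (outD Φ ε T (inLine ε (psi Φ ε T m (d, q)).1 a,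
            (psi Φ ε T m (d, q)).1))).2, (psi Φ ε T m (d, q)).2) := rfl
      rw [e, h3]
      exact exM_psi hΦ hε T m h1

/-- **Re-rooting at the exit line**, with the exit line as argument of the test function. -/
theorem reroot_ex (hΦ : AdmissiblePotential Φ) {ε : ℝ} (hε : 0 < ε) (T : ℝ) {P : CTree}
    (m : Mk P) {F : BLine × (PhasePoint × Par P) → ℝ≥0∞} (hF : Measurable F) :
    ∫⁻ z : PhasePoint × Par P, vw Φ ε P T z * F (exM Φ ε m z, z) =
      ∫⁻ z : BLine × Fib m, vf Φ ε T m z * F (z.1, psi Φ ε T m z) := by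
  have hH : Measurable fun z : PhasePoint × Par P => F (exM Φ ε m z, z) :=
    hF.comp ((measurable_exM hΦ ε m).prodMk measurable_id)
  rw [reroot hΦ hε T m hH]
  refine lintegral_congr fun z => ?_
  by_cases hz : vf Φ ε T m z = 0
  · rw [hz, zero_mul, zero_mul]
  · rw [exM_psi hΦ hε T m hz]

/-- **The weight in re-rooted parameters.** -/
theorem vf_eq (hΦ : AdmissiblePotential Φ) {ε : ℝ} (hε : 0 < ε) (T : ℝ) :
    {P : CTree} → (m : Mk P) → {z : BLine × Fib m} → vf Φ ε T m z ≠ 0 →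
    vf Φ ε T m z = vw Φ ε P T (psi Φ ε T m z)
  | _, .top l r, z, _ => rfl
  | _, .inl (l := l) m r, z, h => by
      obtain ⟨d, (q : Fib m × (NodeP × Par r))⟩ := z
      obtain ⟨q, a, q'⟩ := q
      obtain ⟨h1, h2, h3, h4, h5⟩ := vf_inl_ne h
      have ih := vf_eq hΦ hε T m h1
      obtain ⟨o, ho⟩ : ∃ o, outD Φ ε T ((psi Φ ε T m (d, q)).1,
        inLine ε (psi Φ ε T m (d, q)).1 a) = o := ⟨_, rfl⟩
      obtain ⟨g1, g2, g3, g4, g5, g6, -⟩ := goodL_spec hΦ hε h2 ho
      have e1 : vf Φ ε T (Mk.inl m r) (d, ((q, (a, q')) : Fib m × (NodeP × Par r))) =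
          vf Φ ε T m (d, q) * (gL Φ ε T ((psi Φ ε T m (d, q)).1, a) *
            ENNReal.ofReal ‖(psi Φ ε T m (d, q)).1.2 - a.2.1‖ *
            topI l (a.1, (psi Φ ε T m (d, q)).2) *
            (topI r (a.1, q') * vw Φ ε r T (inLine ε (psi Φ ε T m (d, q)).1 a, q'))) := rfl
      have e2 : vw Φ ε (node l r) T (o.1, ((o.2, ((psi Φ ε T m (d, q)).2, q')) :
          Par (node l r))) =
          vI Φ ε T o * (ENNReal.ofReal ‖o.1.2 - o.2.2.1‖ *
            ((topI l (sinM Φ ε o, (psi Φ ε T m (d, q)).2) *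
              vw Φ ε l T ((inM Φ ε o).1, (psi Φ ε T m (d, q)).2)) *
            (topI r (sinM Φ ε o, q') * vw Φ ε r T ((inM Φ ε o).2, q')))) :=
        vw_node hε (Φ := Φ) (l := l) (r := r) (T := T) o.1 o.2 (psi Φ ε T m (d, q)).2 q'
      have e3 : psi Φ ε T (Mk.inl m r) (d, ((q, (a, q')) : Fib m × (NodeP × Par r))) =
        (o.1, ((o.2, ((psi Φ ε T m (d, q)).2, q')) : Par (node l r))) := by
        rw [← ho]; rfl
      have e4 : vI Φ ε T o = 1 := by
        unfold vI; rw [indicator_of_mem g1]; rfl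
      have e5 : gL Φ ε T ((psi Φ ε T m (d, q)).1, a) = 1 := by
        unfold gL; rw [indicator_of_mem h2]; rfl
      refine e1.trans (Eq.trans ?_ ((congrArg (vw Φ ε (node l r) T) e3).trans e2).symm)
      rw [ih, e4, g3, g5, g6, e5]
      ring
  | _, .inr l (r := r) m, z, h => by
      obtain ⟨d, (q : Fib m × (NodeP × Par l))⟩ := z
      obtain ⟨q, a, q'⟩ := q
      obtain ⟨h1, h2, h3, h4, h5⟩ := vf_inr_ne h
      have ih := vf_eq hΦ hε T m h1
      obtain ⟨o, ho⟩ : ∃ o, outD Φ ε T (inLine ε (psi Φ ε T m (d, q)).1 a,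
        (psi Φ ε T m (d, q)).1) = o := ⟨_, rfl⟩
      obtain ⟨g1, g2, g3, g4, g5, g6, -⟩ := goodR_spec hΦ hε h2 ho
      have e1 : vf Φ ε T (Mk.inr l m) (d, ((q, (a, q')) : Fib m × (NodeP × Par l))) =
          vf Φ ε T m (d, q) * (gR Φ ε T ((psi Φ ε T m (d, q)).1, a) *
            ENNReal.ofReal ‖(psi Φ ε T m (d, q)).1.2 - a.2.1‖ *
            topI r (a.1, (psi Φ ε T m (d, q)).2) *
            (topI l (a.1, q') * vw Φ ε l T (inLine ε (psi Φ ε T m (d, q)).1 a, q'))) := rfl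
      have e2 : vw Φ ε (node l r) T (o.1, ((o.2, (q', (psi Φ ε T m (d, q)).2)) :
          Par (node l r))) =
          vI Φ ε T o * (ENNReal.ofReal ‖o.1.2 - o.2.2.1‖ *
            ((topI l (sinM Φ ε o, q') * vw Φ ε l T ((inM Φ ε o).1, q')) *
            (topI r (sinM Φ ε o, (psi Φ ε T m (d, q)).2) *
              vw Φ ε r T ((inM Φ ε o).2, (psi Φ ε T m (d, q)).2)))) :=
        vw_node hε (Φ := Φ) (l := l) (r := r) (T := T) o.1 o.2 q' (psi Φ ε T m (d, q)).2
      have e3 : psi Φ ε T (Mk.inr l m) (d, ((q, (a, q')) : Fib m × (NodeP × Par l))) =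
        (o.1, ((o.2, (q', (psi Φ ε T m (d, q)).2)) : Par (node l r))) := by
        rw [← ho]; rfl
      have e4 : vI Φ ε T o = 1 := by
        unfold vI; rw [indicator_of_mem g1]; rfl
      have e5 : gR Φ ε T ((psi Φ ε T m (d, q)).1, a) = 1 := by
        unfold gR; rw [indicator_of_mem h2]; rfl
      refine e1.trans (Eq.trans ?_ ((congrArg (vw Φ ε (node l r) T) e3).trans e2).symm)
      rw [ih, e4, g3, g5, g6, e5]
      ring

end Crest.Agent.R122.Mark307

end
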