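import Crest.Agent.R122.Mark6_307

/-!
Row 122, block H7b (helper307), part 7: **flipped nodes**.

`nodeL`, `nodeR` : a tree integral over `node l r` in the parameters (tree of the followed incoming
particle; fresh incoming partner and its tree).
-/

set_option autoImplicit false
set_option synthInstance.maxSize 1024

open MeasureTheory Set Filter Topology
open Crest.AnalysisR.Kinetic
open scoped ENNReal

noncomputable section

namespace Crest.Agent.R122.Mark307

open Kin796 Kin796.CTree Disc416 Scat818 Flow671 Flux663 Tree674 TreeDom974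
open scoped Classical

variable {Φ : Space3 → ℝ}

/-- weight of the fresh side of a flipped node, first orientation -/
def fL (Φ : Space3 → ℝ) (ε T : ℝ) (l r : CTree) (z1 : PhasePoint × Par l) (z2 : NodeP × Par r) :
    ℝ≥0∞ :=
  gL Φ ε T (z1.1, z2.1) * ENNReal.ofReal ‖z1.1.2 - z2.1.2.1‖ * topI l (z2.1.1, z1.2) *
    (topI r (z2.1.1, z2.2) * vw Φ ε r T (inLine ε z1.1 z2.1, z2.2))

/-- weight of the fresh side of a flipped node, second orientation -/
def fR (Φ : Space3 → ℝ) (ε T : ℝ) (l r : CTree) (z1 : PhasePoint × Par r) (z2 : NodeP × Par l) :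
    ℝ≥0∞ :=
  gR Φ ε T (z1.1, z2.1) * ENNReal.ofReal ‖z1.1.2 - z2.1.2.1‖ * topI r (z2.1.1, z1.2) *
    (topI l (z2.1.1, z2.2) * vw Φ ε l T (inLine ε z1.1 z2.1, z2.2))

/-- **Flipped node, first orientation.** -/
theorem nodeL (hΦ : AdmissiblePotential Φ) {ε : ℝ} (hε : 0 < ε) (T : ℝ) (l r : CTree)
    {H : PhasePoint × Par (node l r) → ℝ≥0∞} (hH : Measurable H) :
    ∫⁻ z : PhasePoint × Par (node l r), vw Φ ε (node l r) T z * H z =
      ∫⁻ z1 : PhasePoint × Par l, vw Φ ε l T z1 * ∫⁻ z2 : NodeP × Par r,
        fL Φ ε T l r z1 z2 * H ((outD Φ ε T (z1.1, inLine ε z1.1 z2.1)).1,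
            (((outD Φ ε T (z1.1, inLine ε z1.1 z2.1)).2, (z1.2, z2.2)) : Par (node l r))) := by
  have mo := measurable_outD hΦ hε T
  have ms := measurable_sinM hΦ ε
  have mvl := measurable_vw hΦ ε l T
  have mvr := measurable_vw hΦ ε r T
  have hF : Measurable fun z : PhasePoint × Par (node l r) => vw Φ ε (node l r) T z * H z :=
    (measurable_vw hΦ ε (node l r) T).mul hH
  -- the function `L`
  set L : ((PhasePoint × NodeP) × (PhasePoint × PhasePoint)) × (Par l × Par r) → ℝ≥0∞ :=
    fun w => (topI l (sinM Φ ε w.1.1, w.2.1) * vw Φ ε l T (w.1.2.1, w.2.1)) *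
      (topI r (sinM Φ ε w.1.1, w.2.2) * vw Φ ε r T (w.1.2.2, w.2.2)) *
      H (w.1.1.1, ((w.1.1.2, w.2) : Par (node l r))) with hLdef
  have m11 : Measurable fun w : ((PhasePoint × NodeP) × (PhasePoint × PhasePoint)) ×
      (Par l × Par r) => w.1.1 := measurable_fst.fst
  have m121 : Measurable fun w : ((PhasePoint × NodeP) × (PhasePoint × PhasePoint)) ×
      (Par l × Par r) => w.1.2.1 := measurable_fst.snd.fst
  have m122 : Measurable fun w : ((PhasePoint × NodeP) × (PhasePoint × PhasePoint)) ×
      (Par l × Par r) => w.1.2.2 := measurable_fst.snd.snd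
  have m21 : Measurable fun w : ((PhasePoint × NodeP) × (PhasePoint × PhasePoint)) ×
      (Par l × Par r) => w.2.1 := measurable_snd.fst
  have m22 : Measurable fun w : ((PhasePoint × NodeP) × (PhasePoint × PhasePoint)) ×
      (Par l × Par r) => w.2.2 := measurable_snd.snd
  have mp : Measurable fun w : ((PhasePoint × NodeP) × (PhasePoint × PhasePoint)) ×
      (Par l × Par r) => ((w.1.1.2, w.2) : Par (node l r)) :=
    (measurable_parMk l r).comp (m11.snd.prodMk measurable_snd)
  have hL : Measurable L := by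
    refine Measurable.mul (Measurable.mul ?_ ?_) ?_
    · exact ((measurable_topI l).comp ((ms.comp m11).prodMk m21)).mul
        (mvl.comp (m121.prodMk m21))
    · exact ((measurable_topI r).comp ((ms.comp m11).prodMk m22)).mul
        (mvr.comp (m122.prodMk m22))
    · exact hH.comp (m11.fst.prodMk mp)
  set K : (PhasePoint × NodeP) × (PhasePoint × PhasePoint) → ℝ≥0∞ :=
    fun w => ∫⁻ y : Par l × Par r, L (w, y) with hKdef
  have hK : Measurable K := hL.lintegral_prod_right'
  -- Step 1
  have step1 : ∫⁻ z : PhasePoint × Par (node l r), vw Φ ε (node l r) T z * H z =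
      ∫⁻ z : PhasePoint × NodeP, (Vset Φ ε T).indicator
        (fun z => ENNReal.ofReal ‖z.1.2 - z.2.2.1‖ * K (z, inMap Φ ε z.1 z.2)) z := by
    have hin : ∀ z : PhasePoint × NodeP, (Vset Φ ε T).indicator
        (fun z => ENNReal.ofReal ‖z.1.2 - z.2.2.1‖ * K (z, inMap Φ ε z.1 z.2)) z =
        vI Φ ε T z * (ENNReal.ofReal ‖z.1.2 - z.2.2.1‖ * K (z, inM Φ ε z)) := by
      intro z
      unfold vI
      by_cases hz : z ∈ Vset Φ ε T
      · rw [indicator_of_mem hz, indicator_of_mem hz, inM_of_adm hz.1, Pi.one_apply, one_mul]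
      · rw [indicator_of_notMem hz, indicator_of_notMem hz, zero_mul]
    simp only [hin]
    have hmz : Measurable fun z : PhasePoint × NodeP =>
        vI Φ ε T z * (ENNReal.ofReal ‖z.1.2 - z.2.2.1‖ * K (z, inM Φ ε z)) := by
      have h1 : Measurable fun z : PhasePoint × NodeP => ENNReal.ofReal ‖z.1.2 - z.2.2.1‖ := by
        fun_prop
      exact (measurable_vI hΦ ε T).mul
        (h1.mul (hK.comp (measurable_id.prodMk (measurable_inM hΦ ε))))
    rw [Tree674.lintegral_pair hF, Tree674.lintegral_pair hmz]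
    refine lintegral_congr fun ℓ => ?_
    have hFℓ : Measurable fun y : Par (node l r) => vw Φ ε (node l r) T (ℓ, y) * H (ℓ, y) :=
      hF.comp (measurable_const.prodMk measurable_id)
    rw [lintegral_par_node l r hFℓ]
    refine lintegral_congr fun a => ?_
    have hLa : Measurable fun y : Par l × Par r => L (((ℓ, a), inM Φ ε (ℓ, a)), y) :=
      hL.comp (measurable_const.prodMk measurable_id)
    simp only [hKdef]
    rw [← lintegral_const_mul _ hLa, ← lintegral_const_mul _ (hLa.const_mul _)]
    refine lintegral_congr fun y => ?_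
    have hv := vw_node hε (Φ := Φ) (l := l) (r := r) (T := T) ℓ a y.1 y.2
    have hv' : vw Φ ε (node l r) T (ℓ, ((a, y) : Par (node l r))) = _ := hv
    rw [hv']
    simp only [hLdef]
    ring
  -- Step 2: flip
  have step2 := flipL hΦ hε T hK
  -- Step 3: reorder
  set G : (PhasePoint × Par l) × (NodeP × Par r) → ℝ≥0∞ := fun w =>
    (gL Φ ε T (w.1.1, w.2.1) * ENNReal.ofReal ‖w.1.1.2 - w.2.1.2.1‖ *
      topI l (w.2.1.1, w.1.2) *
      (topI r (w.2.1.1, w.2.2) * vw Φ ε r T (inLine ε w.1.1 w.2.1, w.2.2))) *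
      H ((outD Φ ε T (w.1.1, inLine ε w.1.1 w.2.1)).1,
        (((outD Φ ε T (w.1.1, inLine ε w.1.1 w.2.1)).2, (w.1.2, w.2.2)) : Par (node l r)))
    with hGdef
  have hG : Measurable G := by
    have n11 : Measurable fun w : (PhasePoint × Par l) × (NodeP × Par r) => w.1.1 :=
      measurable_fst.fst
    have n12 : Measurable fun w : (PhasePoint × Par l) × (NodeP × Par r) => w.1.2 :=
      measurable_fst.snd
    have n21 : Measurable fun w : (PhasePoint × Par l) × (NodeP × Par r) => w.2.1 :=
      measurable_snd.fst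
    have n22 : Measurable fun w : (PhasePoint × Par l) × (NodeP × Par r) => w.2.2 :=
      measurable_snd.snd
    have ho := mo.comp ((measurable_pairL ε).comp (n11.prodMk n21))
    refine Measurable.mul (Measurable.mul (Measurable.mul (Measurable.mul ?_ ?_) ?_)
      (Measurable.mul ?_ ?_)) ?_
    · exact (measurable_gL hΦ hε T).comp (n11.prodMk n21)
    · exact (n11.snd.sub n21.snd.fst).norm.ennreal_ofReal
    · exact (measurable_topI l).comp (n21.fst.prodMk n12)
    · exact (measurable_topI r).comp (n21.fst.prodMk n22)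
    · exact mvr.comp (((measurable_inLine ε).comp (n11.prodMk n21)).prodMk n22)
    · exact hH.comp (ho.fst.prodMk ((measurable_parMk l r).comp
        (ho.snd.prodMk (n12.prodMk n22))))
  have step3 : ∫⁻ z : PhasePoint × NodeP, (GoodL Φ ε T).indicator
      (fun z => ENNReal.ofReal ‖z.1.2 - z.2.2.1‖ *
        K (outD Φ ε T (z.1, inLine ε z.1 z.2), (z.1, inLine ε z.1 z.2))) z =
      ∫⁻ z1 : PhasePoint × Par l, vw Φ ε l T z1 * ∫⁻ z2 : NodeP × Par r, G (z1, z2) := by
    have hin : ∀ z : PhasePoint × NodeP, (GoodL Φ ε T).indicator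
      (fun z => ENNReal.ofReal ‖z.1.2 - z.2.2.1‖ *
        K (outD Φ ε T (z.1, inLine ε z.1 z.2), (z.1, inLine ε z.1 z.2))) z =
        ∫⁻ y : Par l × Par r, vw Φ ε l T (z.1, y.1) * G ((z.1, y.1), (z.2, y.2)) := by
      intro z
      by_cases hz : z ∈ GoodL Φ ε T
      · rw [indicator_of_mem hz]
        have hLa : Measurable fun y : Par l × Par r =>
            L ((outD Φ ε T (z.1, inLine ε z.1 z.2), (z.1, inLine ε z.1 z.2)), y) :=
          hL.comp (measurable_const.prodMk measurable_id)
        simp only [hKdef]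
        rw [← lintegral_const_mul _ hLa]
        refine lintegral_congr fun y => ?_
        have hsin : sinM Φ ε (outD Φ ε T (z.1, inLine ε z.1 z.2)) = z.2.1 := by
          rw [sinM_of_adm hz.2.1]
          exact sin_of_mem_GoodL hΦ hε hz
        have hg : gL Φ ε T (z.1, z.2) = 1 := by
          unfold gL
          rw [indicator_of_mem (show (z.1, z.2) ∈ GoodL Φ ε T from hz)]
          rfl
        simp only [hLdef, hGdef, hsin, hg]
        ring
      · rw [indicator_of_notMem hz]
        have hg : gL Φ ε T (z.1, z.2) = 0 := by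
          unfold gL
          exact indicator_of_notMem (show (z.1, z.2) ∉ GoodL Φ ε T from hz) _
        simp only [hGdef, hg]
        simp
    simp only [hin]
    have hL2 : Measurable fun w : (PhasePoint × NodeP) × (Par l × Par r) =>
        vw Φ ε l T (w.1.1, w.2.1) * G ((w.1.1, w.2.1), (w.1.2, w.2.2)) := by
      have k1 : Measurable fun w : (PhasePoint × NodeP) × (Par l × Par r) => (w.1.1, w.2.1) :=
        measurable_fst.fst.prodMk measurable_snd.fst
      have k2 : Measurable fun w : (PhasePoint × NodeP) × (Par l × Par r) => (w.1.2, w.2.2) :=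
        measurable_fst.snd.prodMk measurable_snd.snd
      exact (mvl.comp k1).mul (hG.comp (k1.prodMk k2))
    have h4 := lintegral_four (volume : Measure PhasePoint) (volume : Measure NodeP)
      (volume : Measure (Par l)) (volume : Measure (Par r)) hL2
    rw [← Measure.volume_eq_prod, ← Measure.volume_eq_prod, ← Measure.volume_eq_prod,
      ← Measure.volume_eq_prod] at h4
    rw [h4]
    refine lintegral_congr fun z1 => ?_
    have hGz : Measurable fun z2 : NodeP × Par r => G (z1, z2) :=
      hG.comp (measurable_const.prodMk measurable_id)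
    rw [← lintegral_const_mul _ hGz]
  rw [step1, step2, step3]
  rfl

/-- **Flipped node, second orientation.** -/
theorem nodeR (hΦ : AdmissiblePotential Φ) {ε : ℝ} (hε : 0 < ε) (T : ℝ) (l r : CTree)
    {H : PhasePoint × Par (node l r) → ℝ≥0∞} (hH : Measurable H) :
    ∫⁻ z : PhasePoint × Par (node l r), vw Φ ε (node l r) T z * H z =
      ∫⁻ z1 : PhasePoint × Par r, vw Φ ε r T z1 * ∫⁻ z2 : NodeP × Par l,
        fR Φ ε T l r z1 z2 * H ((outD Φ ε T (inLine ε z1.1 z2.1, z1.1)).1,
            (((outD Φ ε T (inLine ε z1.1 z2.1, z1.1)).2, (z2.2, z1.2)) : Par (node l r))) := by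
  have mo := measurable_outD hΦ hε T
  have ms := measurable_sinM hΦ ε
  have mvl := measurable_vw hΦ ε l T
  have mvr := measurable_vw hΦ ε r T
  have hF : Measurable fun z : PhasePoint × Par (node l r) => vw Φ ε (node l r) T z * H z :=
    (measurable_vw hΦ ε (node l r) T).mul hH
  -- the function `L`
  set L : ((PhasePoint × NodeP) × (PhasePoint × PhasePoint)) × (Par r × Par l) → ℝ≥0∞ :=
    fun w => (topI r (sinM Φ ε w.1.1, w.2.1) * vw Φ ε r T (w.1.2.2, w.2.1)) *
      (topI l (sinM Φ ε w.1.1, w.2.2) * vw Φ ε l T (w.1.2.1, w.2.2)) *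
      H (w.1.1.1, ((w.1.1.2, (w.2.2, w.2.1)) : Par (node l r))) with hLdef
  have m11 : Measurable fun w : ((PhasePoint × NodeP) × (PhasePoint × PhasePoint)) ×
      (Par r × Par l) => w.1.1 := measurable_fst.fst
  have m121 : Measurable fun w : ((PhasePoint × NodeP) × (PhasePoint × PhasePoint)) ×
      (Par r × Par l) => w.1.2.1 := measurable_fst.snd.fst
  have m122 : Measurable fun w : ((PhasePoint × NodeP) × (PhasePoint × PhasePoint)) ×
      (Par r × Par l) => w.1.2.2 := measurable_fst.snd.snd
  have m21 : Measurable fun w : ((PhasePoint × NodeP) × (PhasePoint × PhasePoint)) ×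
      (Par r × Par l) => w.2.1 := measurable_snd.fst
  have m22 : Measurable fun w : ((PhasePoint × NodeP) × (PhasePoint × PhasePoint)) ×
      (Par r × Par l) => w.2.2 := measurable_snd.snd
  have mp : Measurable fun w : ((PhasePoint × NodeP) × (PhasePoint × PhasePoint)) ×
      (Par r × Par l) => ((w.1.1.2, (w.2.2, w.2.1)) : Par (node l r)) :=
    (measurable_parMk l r).comp (m11.snd.prodMk (m22.prodMk m21))
  have hL : Measurable L := by
    refine Measurable.mul (Measurable.mul ?_ ?_) ?_
    · exact ((measurable_topI r).comp ((ms.comp m11).prodMk m21)).mul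
        (mvr.comp (m122.prodMk m21))
    · exact ((measurable_topI l).comp ((ms.comp m11).prodMk m22)).mul
        (mvl.comp (m121.prodMk m22))
    · exact hH.comp (m11.fst.prodMk mp)
  set K : (PhasePoint × NodeP) × (PhasePoint × PhasePoint) → ℝ≥0∞ :=
    fun w => ∫⁻ y : Par r × Par l, L (w, y) with hKdef
  have hK : Measurable K := hL.lintegral_prod_right'
  -- Step 1
  have step1 : ∫⁻ z : PhasePoint × Par (node l r), vw Φ ε (node l r) T z * H z =
      ∫⁻ z : PhasePoint × NodeP, (Vset Φ ε T).indicator
        (fun z => ENNReal.ofReal ‖z.1.2 - z.2.2.1‖ * K (z, inMap Φ ε z.1 z.2)) z := by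
    have hin : ∀ z : PhasePoint × NodeP, (Vset Φ ε T).indicator
        (fun z => ENNReal.ofReal ‖z.1.2 - z.2.2.1‖ * K (z, inMap Φ ε z.1 z.2)) z =
        vI Φ ε T z * (ENNReal.ofReal ‖z.1.2 - z.2.2.1‖ * K (z, inM Φ ε z)) := by
      intro z
      unfold vI
      by_cases hz : z ∈ Vset Φ ε T
      · rw [indicator_of_mem hz, indicator_of_mem hz, inM_of_adm hz.1, Pi.one_apply, one_mul]
      · rw [indicator_of_notMem hz, indicator_of_notMem hz, zero_mul]
    simp only [hin]
    have hmz : Measurable fun z : PhasePoint × NodeP =>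
        vI Φ ε T z * (ENNReal.ofReal ‖z.1.2 - z.2.2.1‖ * K (z, inM Φ ε z)) := by
      have h1 : Measurable fun z : PhasePoint × NodeP => ENNReal.ofReal ‖z.1.2 - z.2.2.1‖ := by
        fun_prop
      exact (measurable_vI hΦ ε T).mul
        (h1.mul (hK.comp (measurable_id.prodMk (measurable_inM hΦ ε))))
    rw [Tree674.lintegral_pair hF, Tree674.lintegral_pair hmz]
    refine lintegral_congr fun ℓ => ?_
    have hFℓ : Measurable fun y : Par (node l r) => vw Φ ε (node l r) T (ℓ, y) * H (ℓ, y) :=
      hF.comp (measurable_const.prodMk measurable_id)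
    rw [lintegral_par_node l r hFℓ]
    refine lintegral_congr fun a => ?_
    have hLa : Measurable fun y : Par r × Par l => L (((ℓ, a), inM Φ ε (ℓ, a)), y) :=
      hL.comp (measurable_const.prodMk measurable_id)
    have hsw : ∫⁻ y : Par l × Par r, vw Φ ε (node l r) T (ℓ, ((a, y) : Par (node l r))) *
          H (ℓ, ((a, y) : Par (node l r))) =
        ∫⁻ y : Par r × Par l, vw Φ ε (node l r) T (ℓ, ((a, y.swap) : Par (node l r))) *
          H (ℓ, ((a, y.swap) : Par (node l r))) := by
      have hm : Measurable fun y : Par l × Par r =>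
          vw Φ ε (node l r) T (ℓ, ((a, y) : Par (node l r))) *
          H (ℓ, ((a, y) : Par (node l r))) :=
        hFℓ.comp ((measurable_parMk l r).comp (measurable_const.prodMk measurable_id))
      exact ((Measure.measurePreserving_swap (μ := (volume : Measure (Par r)))
        (ν := (volume : Measure (Par l)))).lintegral_comp hm).symm
    rw [hsw]
    simp only [hKdef]
    rw [← lintegral_const_mul _ hLa, ← lintegral_const_mul _ (hLa.const_mul _)]
    refine lintegral_congr fun y => ?_
    have hv := vw_node hε (Φ := Φ) (l := l) (r := r) (T := T) ℓ a y.2 y.1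
    have hv' : vw Φ ε (node l r) T (ℓ, ((a, y.swap) : Par (node l r))) = _ := hv
    rw [hv']
    simp only [hLdef, Prod.swap]
    ring
  -- Step 2: flip
  have step2 := flipR hΦ hε T hK
  -- Step 3: reorder
  set G : (PhasePoint × Par r) × (NodeP × Par l) → ℝ≥0∞ := fun w =>
    (gR Φ ε T (w.1.1, w.2.1) * ENNReal.ofReal ‖w.1.1.2 - w.2.1.2.1‖ *
      topI r (w.2.1.1, w.1.2) *
      (topI l (w.2.1.1, w.2.2) * vw Φ ε l T (inLine ε w.1.1 w.2.1, w.2.2))) *
      H ((outD Φ ε T (inLine ε w.1.1 w.2.1, w.1.1)).1,
        (((outD Φ ε T (inLine ε w.1.1 w.2.1, w.1.1)).2, (w.2.2, w.1.2)) : Par (node l r)))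
    with hGdef
  have hG : Measurable G := by
    have n11 : Measurable fun w : (PhasePoint × Par r) × (NodeP × Par l) => w.1.1 :=
      measurable_fst.fst
    have n12 : Measurable fun w : (PhasePoint × Par r) × (NodeP × Par l) => w.1.2 :=
      measurable_fst.snd
    have n21 : Measurable fun w : (PhasePoint × Par r) × (NodeP × Par l) => w.2.1 :=
      measurable_snd.fst
    have n22 : Measurable fun w : (PhasePoint × Par r) × (NodeP × Par l) => w.2.2 :=
      measurable_snd.snd
    have ho := mo.comp ((measurable_pairR ε).comp (n11.prodMk n21))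
    refine Measurable.mul (Measurable.mul (Measurable.mul (Measurable.mul ?_ ?_) ?_)
      (Measurable.mul ?_ ?_)) ?_
    · exact (measurable_gR hΦ hε T).comp (n11.prodMk n21)
    · exact (n11.snd.sub n21.snd.fst).norm.ennreal_ofReal
    · exact (measurable_topI r).comp (n21.fst.prodMk n12)
    · exact (measurable_topI l).comp (n21.fst.prodMk n22)
    · exact mvl.comp (((measurable_inLine ε).comp (n11.prodMk n21)).prodMk n22)
    · exact hH.comp (ho.fst.prodMk ((measurable_parMk l r).comp
        (ho.snd.prodMk (n22.prodMk n12))))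
  have step3 : ∫⁻ z : PhasePoint × NodeP, (GoodR Φ ε T).indicator
      (fun z => ENNReal.ofReal ‖z.1.2 - z.2.2.1‖ *
        K (outD Φ ε T (inLine ε z.1 z.2, z.1), (inLine ε z.1 z.2, z.1))) z =
      ∫⁻ z1 : PhasePoint × Par r, vw Φ ε r T z1 * ∫⁻ z2 : NodeP × Par l, G (z1, z2) := by
    have hin : ∀ z : PhasePoint × NodeP, (GoodR Φ ε T).indicator
      (fun z => ENNReal.ofReal ‖z.1.2 - z.2.2.1‖ *
        K (outD Φ ε T (inLine ε z.1 z.2, z.1), (inLine ε z.1 z.2, z.1))) z =
        ∫⁻ y : Par r × Par l, vw Φ ε r T (z.1, y.1) * G ((z.1, y.1), (z.2, y.2)) := by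
      intro z
      by_cases hz : z ∈ GoodR Φ ε T
      · rw [indicator_of_mem hz]
        have hLa : Measurable fun y : Par r × Par l =>
            L ((outD Φ ε T (inLine ε z.1 z.2, z.1), (inLine ε z.1 z.2, z.1)), y) :=
          hL.comp (measurable_const.prodMk measurable_id)
        simp only [hKdef]
        rw [← lintegral_const_mul _ hLa]
        refine lintegral_congr fun y => ?_
        have hsin : sinM Φ ε (outD Φ ε T (inLine ε z.1 z.2, z.1)) = z.2.1 := by
          rw [sinM_of_adm hz.2.1]
          exact sin_of_mem_GoodR hΦ hε hz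
        have hg : gR Φ ε T (z.1, z.2) = 1 := by
          unfold gR
          rw [indicator_of_mem (show (z.1, z.2) ∈ GoodR Φ ε T from hz)]
          rfl
        simp only [hLdef, hGdef, hsin, hg]
        ring
      · rw [indicator_of_notMem hz]
        have hg : gR Φ ε T (z.1, z.2) = 0 := by
          unfold gR
          exact indicator_of_notMem (show (z.1, z.2) ∉ GoodR Φ ε T from hz) _
        simp only [hGdef, hg]
        simp
    simp only [hin]
    have hL2 : Measurable fun w : (PhasePoint × NodeP) × (Par r × Par l) =>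
        vw Φ ε r T (w.1.1, w.2.1) * G ((w.1.1, w.2.1), (w.1.2, w.2.2)) := by
      have k1 : Measurable fun w : (PhasePoint × NodeP) × (Par r × Par l) => (w.1.1, w.2.1) :=
        measurable_fst.fst.prodMk measurable_snd.fst
      have k2 : Measurable fun w : (PhasePoint × NodeP) × (Par r × Par l) => (w.1.2, w.2.2) :=
        measurable_fst.snd.prodMk measurable_snd.snd
      exact (mvr.comp k1).mul (hG.comp (k1.prodMk k2))
    have h4 := lintegral_four (volume : Measure PhasePoint) (volume : Measure NodeP)
      (volume : Measure (Par r)) (volume : Measure (Par l)) hL2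
    rw [← Measure.volume_eq_prod, ← Measure.volume_eq_prod, ← Measure.volume_eq_prod,
      ← Measure.volume_eq_prod] at h4
    rw [h4]
    refine lintegral_congr fun z1 => ?_
    have hGz : Measurable fun z2 : NodeP × Par l => G (z1, z2) :=
      hG.comp (measurable_const.prodMk measurable_id)
    rw [← lintegral_const_mul _ hGz]
  rw [step1, step2, step3]
  rfl

end Crest.Agent.R122.Mark307

end
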