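import Crest.Agent.R122.Mark7_307
import Crest.Agent.R122.CollLeg_969

/-!
Row 122, block H7b (helper307), part 8: **Gaussian tree weights and reductions**.

* `gw b P z = exp (-b * total energy)`.
* `W0`, `I0` : the weight `vw * gw b` is dominated by a product; integral over the parameters.
* `node_fix` : node identity at a fixed root line, with the Gaussian weights of the branches.
* `NL`, `NR` : integration of the fresh branch of a flipped node.
* `subL`, `subR` : reduction of functionals of one branch to this branch.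
* `N0` : integration of both branches of a node.
-/

set_option autoImplicit false
set_option synthInstance.maxSize 1024

open MeasureTheory Set Filter Topology
open Crest.AnalysisR.Kinetic
open scoped ENNReal

noncomputable section

namespace Crest.Agent.R122.Mark307

open Kin796 Kin796.CTree Disc416 Scat818 Flow671 Flux663 Tree674 TreeDom974
open scoped Classical

variable {Φ : Space3 → ℝ}

/-! ### Gaussian weights -/

/-- Gaussian weight of a tree -/
def gw (b : ℝ) (P : CTree) (z : PhasePoint × Par P) : ℝ≥0∞ :=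
  ENNReal.ofReal (Real.exp (-b * (‖z.1.2‖ ^ 2 + nodeE P z.2)))

theorem measurable_nodeE : ∀ P : CTree, Measurable (nodeE P)
  | leaf => measurable_const
  | node l r => by
      have h1 : Measurable fun p : Par (node l r) => ‖p.1.2.1‖ ^ 2 :=
        ((measurable_par1 l r).snd.fst).norm.pow_const 2
      have h2 := (measurable_nodeE l).comp (measurable_parL l r)
      have h3 := (measurable_nodeE r).comp (measurable_parR l r)
      exact h1.add (h2.add h3)

theorem measurable_gw (b : ℝ) (P : CTree) : Measurable (gw b P) := by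
  unfold gw
  have h1 : Measurable fun z : PhasePoint × Par P => nodeE P z.2 :=
    (measurable_nodeE P).comp measurable_snd
  have h2 : Measurable fun z : PhasePoint × Par P => ‖z.1.2‖ ^ 2 :=
    (measurable_fst.snd.norm).pow_const 2
  exact ((h2.add h1).const_mul (-b)).exp.ennreal_ofReal

theorem energy_nonneg (P : CTree) (z : PhasePoint × Par P) : 0 ≤ ‖z.1.2‖ ^ 2 + nodeE P z.2 := by
  have := nodeE_nonneg P z.2
  positivity

theorem gw_mono {b' b : ℝ} (h : b' ≤ b) (P : CTree) (z : PhasePoint × Par P) :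
    gw b P z ≤ gw b' P z := by
  unfold gw
  refine ENNReal.ofReal_le_ofReal (Real.exp_le_exp.2 ?_)
  have := energy_nonneg P z
  nlinarith

theorem gE_mono {b' b : ℝ} (h : b' ≤ b) (v : Space3) : gE b v ≤ gE b' v := by
  unfold gE
  refine ENNReal.ofReal_le_ofReal (Real.exp_le_exp.2 ?_)
  have : 0 ≤ ‖v‖ ^ 2 := by positivity
  nlinarith

theorem gE_ne_top (b : ℝ) (v : Space3) : gE b v ≠ ∞ := ENNReal.ofReal_ne_top

/-- the Gaussian weight at a node, in the incoming lines -/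
theorem gw_node (hΦ : AdmissiblePotential Φ) {ε : ℝ} {l r : CTree} {o : PhasePoint × NodeP}
    (ho : Adm1 Φ o.1.2 o.2) {q : PhasePoint × PhasePoint} (hq : inMap Φ ε o.1 o.2 = q) (b : ℝ)
    (pl : Par l) (pr : Par r) :
    gw b (node l r) (o.1, ((o.2, (pl, pr)) : Par (node l r))) =
      gw b l (q.1, pl) * gw b r (q.2, pr) := by
  have h := energy_flip hΦ ho hq
  unfold gw
  rw [← gE_add]
  congr 3
  show ‖o.1.2‖ ^ 2 + (‖o.2.2.1‖ ^ 2 + (nodeE l pl + nodeE r pr)) =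
    ‖q.1.2‖ ^ 2 + nodeE l pl + (‖q.2.2‖ ^ 2 + nodeE r pr)
  linarith

/-- the Gaussians at a node -/
theorem gE_node (hΦ : AdmissiblePotential Φ) {ε : ℝ} {o : PhasePoint × NodeP}
    (ho : Adm1 Φ o.1.2 o.2) {q : PhasePoint × PhasePoint} (hq : inMap Φ ε o.1 o.2 = q) (b : ℝ) :
    gE b q.1.2 * gE b q.2.2 = gE b o.1.2 * gE b o.2.2.1 := by
  have h := energy_flip hΦ ho hq
  unfold gE
  rw [← gE_add, ← gE_add, h]

/-- one polynomial factor is absorbed by the Gaussian -/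
theorem one_add_gE {b b' : ℝ} (hb : b' < b) : ∃ C : ℝ≥0∞, C ≠ ∞ ∧ ∀ v : Space3,
    ENNReal.ofReal (1 + ‖v‖) * gE b v ≤ C * gE b' v := by
  set δ := b - b' with hδ
  have hδ0 : 0 < δ := sub_pos.2 hb
  refine ⟨ENNReal.ofReal (1 + 1 / (4 * δ)), ENNReal.ofReal_ne_top, fun v => ?_⟩
  unfold gE
  rw [← ENNReal.ofReal_mul (by positivity), ← ENNReal.ofReal_mul (by positivity)]
  refine ENNReal.ofReal_le_ofReal ?_
  have h1 := CollLeg969.one_add_le_exp hδ0 ‖v‖
  have h2 : Real.exp (-b' * ‖v‖ ^ 2) = Real.exp (δ * ‖v‖ ^ 2) * Real.exp (-b * ‖v‖ ^ 2) := by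
    rw [← Real.exp_add]; congr 1; rw [hδ]; ring
  rw [h2, ← mul_assoc]
  exact mul_le_mul_of_nonneg_right h1 (Real.exp_pos _).le

theorem one_add_gw {b b' : ℝ} (hb : b' < b) : ∃ C : ℝ≥0∞, C ≠ ∞ ∧ ∀ (P : CTree)
    (z : PhasePoint × Par P), ENNReal.ofReal (1 + ‖z.1.2‖) * gw b P z ≤ C * gw b' P z := by
  set δ := b - b' with hδ
  have hδ0 : 0 < δ := sub_pos.2 hb
  refine ⟨ENNReal.ofReal (1 + 1 / (4 * δ)), ENNReal.ofReal_ne_top, fun P z => ?_⟩
  unfold gw
  rw [← ENNReal.ofReal_mul (by positivity), ← ENNReal.ofReal_mul (by positivity)]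
  refine ENNReal.ofReal_le_ofReal ?_
  have h1 := CollLeg969.one_add_le_exp hδ0 ‖z.1.2‖
  have hn := nodeE_nonneg P z.2
  have h3 : Real.exp (δ * ‖z.1.2‖ ^ 2) ≤ Real.exp (δ * (‖z.1.2‖ ^ 2 + nodeE P z.2)) := by
    refine Real.exp_le_exp.2 (mul_le_mul_of_nonneg_left ?_ hδ0.le)
    linarith
  have h2 : Real.exp (-b' * (‖z.1.2‖ ^ 2 + nodeE P z.2)) =
      Real.exp (δ * (‖z.1.2‖ ^ 2 + nodeE P z.2)) *
        Real.exp (-b * (‖z.1.2‖ ^ 2 + nodeE P z.2)) := by
    rw [← Real.exp_add]; congr 1; rw [hδ]; ring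
  rw [h2, ← mul_assoc]
  refine mul_le_mul_of_nonneg_right (h1.trans ?_) (Real.exp_pos _).le
  exact mul_le_mul_of_nonneg_left h3 (by positivity)

/-! ### Domination of the weight -/

theorem W0 (hΦ : AdmissiblePotential Φ) {b b' : ℝ} (hb : b' < b) (P : CTree) (T : ℝ) :
    ∃ C : ℝ≥0∞, C ≠ ∞ ∧ ∀ (ε T' : ℝ), 0 ≤ ε → T' ≤ T → ∀ z : PhasePoint × Par P,
      vw Φ ε P T' z * gw b P z ≤ C * (gE b' z.1.2 * domP b' T P z.2) := by
  set δ := b - b' with hδdef
  have hδ : 0 < δ := sub_pos.2 hb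
  refine ⟨ENNReal.ofReal (P.size.factorial / δ ^ P.size * Real.exp δ), ENNReal.ofReal_ne_top,
    fun ε T' hε hT z => ?_⟩
  by_cases hz : vw Φ ε P T' z = 0
  · rw [hz, zero_mul]; exact bot_le
  have hV := valid_of_vw hz
  rw [vw_of_valid hV]
  set E := ‖z.1.2‖ ^ 2 + nodeE P z.2 with hE
  have hE0 : 0 ≤ E := energy_nonneg P z
  have h1 := wt_le hΦ (E := E) hV.1 le_rfl
  have h3 := one_add_pow_le hδ hE0 P.size
  have h4 : Real.exp (-b' * E) = Real.exp (δ * E) * Real.exp (-b * E) := by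
    rw [← Real.exp_add]; congr 1; rw [hδdef]; ring
  have h5 : gE b' z.1.2 * domP b' T P z.2 = ENNReal.ofReal (Real.exp (-b' * E)) := by
    rw [domP_eq, boxI_of_valid hε hV hT, one_mul, gE, hE, gE_add]
  rw [h5, ← ENNReal.ofReal_mul (by positivity), h4]
  unfold gw
  calc wt Φ P z.1.2 z.2 * ENNReal.ofReal (Real.exp (-b * E))
      ≤ ENNReal.ofReal ((1 + E) ^ P.size) * ENNReal.ofReal (Real.exp (-b * E)) :=
        mul_le_mul_left h1 _
    _ = ENNReal.ofReal ((1 + E) ^ P.size * Real.exp (-b * E)) := by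
        rw [← ENNReal.ofReal_mul (by positivity)]
    _ ≤ _ := by
        refine ENNReal.ofReal_le_ofReal ?_
        calc (1 + E) ^ P.size * Real.exp (-b * E)
            ≤ ((P.size.factorial / δ ^ P.size * Real.exp δ) * Real.exp (δ * E)) *
              Real.exp (-b * E) := by gcongr
          _ = _ := by ring

/-- integral over the parameters at a fixed root line -/
theorem I0 (hΦ : AdmissiblePotential Φ) {b b' : ℝ} (hb' : 0 < b') (hb : b' < b) (P : CTree)
    (T : ℝ) : ∃ C : ℝ≥0∞, C ≠ ∞ ∧ ∀ (ε T' : ℝ), 0 ≤ ε → T' ≤ T → ∀ ℓ : PhasePoint,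
      ∫⁻ p : Par P, vw Φ ε P T' (ℓ, p) * gw b P (ℓ, p) ≤ C * gE b' ℓ.2 := by
  obtain ⟨C, hC, H⟩ := W0 hΦ hb P T
  refine ⟨C * ∫⁻ p, domP b' T P p, ENNReal.mul_ne_top hC (lintegral_domP_ne_top hb' T P),
    fun ε T' hε hT ℓ => ?_⟩
  calc ∫⁻ p : Par P, vw Φ ε P T' (ℓ, p) * gw b P (ℓ, p)
      ≤ ∫⁻ p : Par P, (C * gE b' ℓ.2) * domP b' T P p := by
        refine lintegral_mono fun p => (H ε T' hε hT (ℓ, p)).trans (le_of_eq ?_)
        rw [mul_assoc]
    _ = (C * gE b' ℓ.2) * ∫⁻ p, domP b' T P p := lintegral_const_mul _ (measurable_domP b' T P)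
    _ = _ := by ring

/-! ### Node at a fixed root line -/

/-- weight of a branch, with its Gaussian -/
def br (Φ : Space3 → ℝ) (ε T b : ℝ) (P : CTree) (s : ℝ) (z : PhasePoint × Par P) : ℝ≥0∞ :=
  topI P (s, z.2) * (vw Φ ε P T z * gw b P z)

theorem measurable_br (hΦ : AdmissiblePotential Φ) (ε T b : ℝ) (P : CTree) :
    Measurable fun q : ℝ × (PhasePoint × Par P) => br Φ ε T b P q.1 q.2 := by
  unfold br
  exact ((measurable_topI P).comp (measurable_fst.prodMk measurable_snd.snd)).mul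
    (((measurable_vw hΦ ε P T).comp measurable_snd).mul ((measurable_gw b P).comp measurable_snd))

theorem topI_le_one (P : CTree) (q : ℝ × Par P) : topI P q ≤ 1 := by
  unfold topI
  exact Set.indicator_le_self' (fun _ _ => zero_le_one) q

theorem br_le (ε T b : ℝ) (P : CTree) (s : ℝ) (z : PhasePoint × Par P) :
    br Φ ε T b P s z ≤ vw Φ ε P T z * gw b P z := by
  unfold br
  calc _ ≤ 1 * (vw Φ ε P T z * gw b P z) := mul_le_mul_left (topI_le_one _ _) _
    _ = _ := one_mul _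

theorem vw_gw_node (hΦ : AdmissiblePotential Φ) {ε : ℝ} (hε : 0 < ε) (T b : ℝ) (l r : CTree)
    (ℓ : PhasePoint) (a : NodeP) (pl : Par l) (pr : Par r) :
    vw Φ ε (node l r) T (ℓ, ((a, (pl, pr)) : Par (node l r))) *
      gw b (node l r) (ℓ, ((a, (pl, pr)) : Par (node l r))) =
    (vI Φ ε T (ℓ, a) * ENNReal.ofReal ‖ℓ.2 - a.2.1‖) *
      (br Φ ε T b l (sinM Φ ε (ℓ, a)) ((inM Φ ε (ℓ, a)).1, pl) *
        br Φ ε T b r (sinM Φ ε (ℓ, a)) ((inM Φ ε (ℓ, a)).2, pr)) := by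
  rw [vw_node hε]
  by_cases hz : ((ℓ, a) : PhasePoint × NodeP) ∈ Vset Φ ε T
  · have h1 : Adm1 Φ ℓ.2 a := hz.1
    have h2 : gw b (node l r) (ℓ, ((a, (pl, pr)) : Par (node l r))) =
        gw b l ((inM Φ ε (ℓ, a)).1, pl) * gw b r ((inM Φ ε (ℓ, a)).2, pr) := by
      rw [inM_of_adm (z := (ℓ, a)) h1]
      exact gw_node hΦ (o := (ℓ, a)) h1 rfl b pl pr
    rw [h2]
    unfold br
    ring
  · have h0 : vI Φ ε T (ℓ, a) = 0 := indicator_of_notMem hz _
    rw [h0, zero_mul, zero_mul, zero_mul, zero_mul]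

/-- **Node identity at a fixed root line.** -/
theorem node_fix (hΦ : AdmissiblePotential Φ) {ε : ℝ} (hε : 0 < ε) (T b : ℝ) (l r : CTree)
    (ℓ : PhasePoint) {H : Par (node l r) → ℝ≥0∞} (hH : Measurable H) :
    ∫⁻ p : Par (node l r), vw Φ ε (node l r) T (ℓ, p) * (gw b (node l r) (ℓ, p) * H p) =
      ∫⁻ a : NodeP, (vI Φ ε T (ℓ, a) * ENNReal.ofReal ‖ℓ.2 - a.2.1‖) *
        ∫⁻ pl : Par l, br Φ ε T b l (sinM Φ ε (ℓ, a)) ((inM Φ ε (ℓ, a)).1, pl) *
          ∫⁻ pr : Par r, br Φ ε T b r (sinM Φ ε (ℓ, a)) ((inM Φ ε (ℓ, a)).2, pr) *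
            H ((a, (pl, pr)) : Par (node l r)) := by
  have hvm : Measurable fun p : Par (node l r) => vw Φ ε (node l r) T (ℓ, p) *
      (gw b (node l r) (ℓ, p) * H p) :=
    ((measurable_vw hΦ ε (node l r) T).comp (measurable_const.prodMk measurable_id)).mul
      (((measurable_gw b (node l r)).comp (measurable_const.prodMk measurable_id)).mul hH)
  rw [lintegral_par_node l r hvm]
  refine lintegral_congr fun a => ?_
  have hHa : Measurable fun y : Par l × Par r => H ((a, y) : Par (node l r)) :=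
    hH.comp ((measurable_parMk l r).comp (measurable_const.prodMk measurable_id))
  have hbl : Measurable fun pl : Par l =>
      br Φ ε T b l (sinM Φ ε (ℓ, a)) ((inM Φ ε (ℓ, a)).1, pl) :=
    (measurable_br hΦ ε T b l).comp (measurable_const.prodMk
      (measurable_const.prodMk measurable_id))
  have hbr : Measurable fun pr : Par r =>
      br Φ ε T b r (sinM Φ ε (ℓ, a)) ((inM Φ ε (ℓ, a)).2, pr) :=
    (measurable_br hΦ ε T b r).comp (measurable_const.prodMk
      (measurable_const.prodMk measurable_id))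
  have e1 : ∀ y : Par l × Par r, vw Φ ε (node l r) T (ℓ, ((a, y) : Par (node l r))) *
      (gw b (node l r) (ℓ, ((a, y) : Par (node l r))) * H ((a, y) : Par (node l r))) =
      (vI Φ ε T (ℓ, a) * ENNReal.ofReal ‖ℓ.2 - a.2.1‖) *
        (br Φ ε T b l (sinM Φ ε (ℓ, a)) ((inM Φ ε (ℓ, a)).1, y.1) *
          (br Φ ε T b r (sinM Φ ε (ℓ, a)) ((inM Φ ε (ℓ, a)).2, y.2) *
            H ((a, y) : Par (node l r)))) := by
    intro y
    have h := vw_gw_node hΦ hε T b l r ℓ a y.1 y.2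
    have h' : vw Φ ε (node l r) T (ℓ, ((a, y) : Par (node l r))) *
        gw b (node l r) (ℓ, ((a, y) : Par (node l r))) = _ := h
    rw [← mul_assoc, h']
    ring
  simp only [e1]
  have hm : Measurable fun y : Par l × Par r =>
      br Φ ε T b l (sinM Φ ε (ℓ, a)) ((inM Φ ε (ℓ, a)).1, y.1) *
          (br Φ ε T b r (sinM Φ ε (ℓ, a)) ((inM Φ ε (ℓ, a)).2, y.2) *
            H ((a, y) : Par (node l r))) :=
    (hbl.comp measurable_fst).mul ((hbr.comp measurable_snd).mul hHa)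
  rw [lintegral_const_mul _ hm, Tree674.lintegral_pair hm]
  congr 1
  refine lintegral_congr fun pl => ?_
  have hHp : Measurable fun pr : Par r => H ((a, (pl, pr)) : Par (node l r)) :=
    hHa.comp (measurable_const.prodMk measurable_id)
  have hfin : Measurable fun pr : Par r =>
      br Φ ε T b r (sinM Φ ε (ℓ, a)) ((inM Φ ε (ℓ, a)).2, pr) *
        H ((a, (pl, pr)) : Par (node l r)) := hbr.mul hHp
  exact lintegral_const_mul (μ := (volume : Measure (Par r)))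
    (br Φ ε T b l (sinM Φ ε (ℓ, a)) ((inM Φ ε (ℓ, a)).1, pl)) hfin

/-! ### Integration of the fresh branch of a flipped node -/

theorem measurable_inD (hΦ : AdmissiblePotential Φ) {ε : ℝ} (l r : CTree) :
    Measurable fun z : PhasePoint × Par (node l r) => inM Φ ε (z.1, z.2.1) :=
  (measurable_inM hΦ ε).comp
    (measurable_fst.prodMk ((measurable_par1 l r).comp measurable_snd))

/-- **Integration of the fresh branch, first orientation.** -/
theorem NL (hΦ : AdmissiblePotential Φ) {b b' : ℝ} (hb' : 0 < b') (hb : b' < b) (T : ℝ)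
    (l r : CTree) : ∃ C : ℝ≥0∞, C ≠ ∞ ∧ ∀ (ε T' : ℝ), 0 < ε → T' ≤ T →
      ∀ H : (PhasePoint × Par l) × (PhasePoint × NodeP) → ℝ≥0∞, Measurable H →
      ∫⁻ z : PhasePoint × Par (node l r), vw Φ ε (node l r) T' z * (gw b (node l r) z *
        H (((inM Φ ε (z.1, z.2.1)).1, z.2.2.1), (z.1, z.2.1))) ≤
      C * ∫⁻ z1 : PhasePoint × Par l, vw Φ ε l T' z1 * (gw b l z1 * ∫⁻ a : NodeP,
        (gL Φ ε T' (z1.1, a) * topI l (a.1, z1.2) *
          (ENNReal.ofReal ‖z1.1.2 - a.2.1‖ * gE b' a.2.1)) *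
          H (z1, outD Φ ε T' (z1.1, inLine ε z1.1 a))) := by
  obtain ⟨C, hC, hI⟩ := I0 hΦ hb' hb r T
  refine ⟨C, hC, fun ε T' hε hT H hH => ?_⟩
  have mo := measurable_outD hΦ hε T'
  have hHm : Measurable fun z : PhasePoint × Par (node l r) => gw b (node l r) z *
      H (((inM Φ ε (z.1, z.2.1)).1, z.2.2.1), (z.1, z.2.1)) := by
    refine (measurable_gw b (node l r)).mul (hH.comp ?_)
    refine ((measurable_inD hΦ l r).fst.prodMk
      ((measurable_parL l r).comp measurable_snd)).prodMk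
      (measurable_fst.prodMk ((measurable_par1 l r).comp measurable_snd))
  rw [nodeL hΦ hε T' l r hHm, ← lintegral_const_mul' _ _ hC]
  refine lintegral_mono fun z1 => ?_
  rw [← mul_assoc, mul_comm C, mul_assoc]
  refine mul_le_mul_right ?_ _
  -- the fresh side
  set A : NodeP → ℝ≥0∞ := fun a => gw b l z1 * ((gL Φ ε T' (z1.1, a) *
    ENNReal.ofReal ‖z1.1.2 - a.2.1‖ * topI l (a.1, z1.2)) *
    H (z1, outD Φ ε T' (z1.1, inLine ε z1.1 a))) with hA
  have hAm : Measurable A := by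
    have m1 : Measurable fun a : NodeP => (z1.1, a) := measurable_const.prodMk measurable_id
    have m2 := (measurable_gL hΦ hε T').comp m1
    have m3 : Measurable fun a : NodeP => ENNReal.ofReal ‖z1.1.2 - a.2.1‖ := by fun_prop
    have m4 : Measurable fun a : NodeP => topI l (a.1, z1.2) :=
      (measurable_topI l).comp (measurable_fst.prodMk measurable_const)
    have m5 : Measurable fun a : NodeP => H (z1, outD Φ ε T' (z1.1, inLine ε z1.1 a)) :=
      hH.comp (measurable_const.prodMk (mo.comp ((measurable_pairL ε).comp m1)))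
    exact (((m2.mul m3).mul m4).mul m5).const_mul _
  set B : NodeP × Par r → ℝ≥0∞ := fun z2 => vw Φ ε r T' (inLine ε z1.1 z2.1, z2.2) *
    gw b r (inLine ε z1.1 z2.1, z2.2) with hB
  have hBm : Measurable B := by
    have m1 : Measurable fun z2 : NodeP × Par r => (inLine ε z1.1 z2.1, z2.2) :=
      ((measurable_inLine ε).comp (measurable_const.prodMk measurable_fst)).prodMk measurable_snd
    exact ((measurable_vw hΦ ε r T').comp m1).mul ((measurable_gw b r).comp m1)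
  have hpt : ∀ z2 : NodeP × Par r, fL Φ ε T' l r z1 z2 * (gw b (node l r)
      ((outD Φ ε T' (z1.1, inLine ε z1.1 z2.1)).1,
        (((outD Φ ε T' (z1.1, inLine ε z1.1 z2.1)).2, (z1.2, z2.2)) : Par (node l r))) *
      H (((inM Φ ε ((outD Φ ε T' (z1.1, inLine ε z1.1 z2.1)).1,
        (outD Φ ε T' (z1.1, inLine ε z1.1 z2.1)).2)).1, z1.2),
        ((outD Φ ε T' (z1.1, inLine ε z1.1 z2.1)).1,
          (outD Φ ε T' (z1.1, inLine ε z1.1 z2.1)).2))) ≤ A z2.1 * B z2 := by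
    intro z2
    by_cases hg : gL Φ ε T' (z1.1, z2.1) = 0
    · unfold fL
      rw [hg, zero_mul, zero_mul, zero_mul, zero_mul]
      exact bot_le
    obtain ⟨o, ho⟩ : ∃ o, outD Φ ε T' (z1.1, inLine ε z1.1 z2.1) = o := ⟨_, rfl⟩
    obtain ⟨g1, g2, g3, -⟩ := goodL_spec hΦ hε (mem_GoodL_of_gL hg) ho
    have hgw := gw_node hΦ (l := l) (r := r) (o := o) g1.1 g2 b z1.2 z2.2
    simp only [ho, hA, hB, Prod.mk.eta, g3]
    rw [hgw]
    unfold fL
    calc _ = (gw b l z1 * ((gL Φ ε T' (z1.1, z2.1) * ENNReal.ofReal ‖z1.1.2 - z2.1.2.1‖ *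
            topI l (z2.1.1, z1.2)) * H (z1, o))) *
          (topI r (z2.1.1, z2.2) * (vw Φ ε r T' (inLine ε z1.1 z2.1, z2.2) *
            gw b r (inLine ε z1.1 z2.1, z2.2))) := by ring
      _ ≤ (gw b l z1 * ((gL Φ ε T' (z1.1, z2.1) * ENNReal.ofReal ‖z1.1.2 - z2.1.2.1‖ *
            topI l (z2.1.1, z1.2)) * H (z1, o))) *
          (1 * (vw Φ ε r T' (inLine ε z1.1 z2.1, z2.2) *
            gw b r (inLine ε z1.1 z2.1, z2.2))) := by
          gcongr
          exact topI_le_one _ _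
      _ = _ := by ring
  refine (lintegral_mono hpt).trans ?_
  have hAB : Measurable fun z2 : NodeP × Par r => A z2.1 * B z2 :=
    (hAm.comp measurable_fst).mul hBm
  rw [Tree674.lintegral_pair hAB]
  have hs : ∀ a : NodeP, ∫⁻ pr : Par r, A a * B (a, pr) ≤ A a * (C * gE b' a.2.1) := by
    intro a
    have hBa : Measurable fun pr : Par r => B (a, pr) :=
      hBm.comp (measurable_const.prodMk measurable_id)
    rw [lintegral_const_mul _ hBa]
    exact mul_le_mul_right (hI ε T' hε.le hT (inLine ε z1.1 a)) _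
  refine (lintegral_mono hs).trans (le_of_eq ?_)
  rw [← lintegral_const_mul' _ _ (show gw b l z1 ≠ ∞ from ENNReal.ofReal_ne_top),
    ← lintegral_const_mul' _ _ hC]
  refine lintegral_congr fun a => ?_
  simp only [hA]
  ring

/-- **Integration of the fresh branch, second orientation.** -/
theorem NR (hΦ : AdmissiblePotential Φ) {b b' : ℝ} (hb' : 0 < b') (hb : b' < b) (T : ℝ)
    (l r : CTree) : ∃ C : ℝ≥0∞, C ≠ ∞ ∧ ∀ (ε T' : ℝ), 0 < ε → T' ≤ T →
      ∀ H : (PhasePoint × Par r) × (PhasePoint × NodeP) → ℝ≥0∞, Measurable H →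
      ∫⁻ z : PhasePoint × Par (node l r), vw Φ ε (node l r) T' z * (gw b (node l r) z *
        H (((inM Φ ε (z.1, z.2.1)).2, z.2.2.2), (z.1, z.2.1))) ≤
      C * ∫⁻ z1 : PhasePoint × Par r, vw Φ ε r T' z1 * (gw b r z1 * ∫⁻ a : NodeP,
        (gR Φ ε T' (z1.1, a) * topI r (a.1, z1.2) *
          (ENNReal.ofReal ‖z1.1.2 - a.2.1‖ * gE b' a.2.1)) *
          H (z1, outD Φ ε T' (inLine ε z1.1 a, z1.1))) := by
  obtain ⟨C, hC, hI⟩ := I0 hΦ hb' hb l T
  refine ⟨C, hC, fun ε T' hε hT H hH => ?_⟩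
  have mo := measurable_outD hΦ hε T'
  have hHm : Measurable fun z : PhasePoint × Par (node l r) => gw b (node l r) z *
      H (((inM Φ ε (z.1, z.2.1)).2, z.2.2.2), (z.1, z.2.1)) := by
    refine (measurable_gw b (node l r)).mul (hH.comp ?_)
    refine ((measurable_inD hΦ l r).snd.prodMk
      ((measurable_parR l r).comp measurable_snd)).prodMk
      (measurable_fst.prodMk ((measurable_par1 l r).comp measurable_snd))
  rw [nodeR hΦ hε T' l r hHm, ← lintegral_const_mul' _ _ hC]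
  refine lintegral_mono fun z1 => ?_
  rw [← mul_assoc, mul_comm C, mul_assoc]
  refine mul_le_mul_right ?_ _
  -- the fresh side
  set A : NodeP → ℝ≥0∞ := fun a => gw b r z1 * ((gR Φ ε T' (z1.1, a) *
    ENNReal.ofReal ‖z1.1.2 - a.2.1‖ * topI r (a.1, z1.2)) *
    H (z1, outD Φ ε T' (inLine ε z1.1 a, z1.1))) with hA
  have hAm : Measurable A := by
    have m1 : Measurable fun a : NodeP => (z1.1, a) := measurable_const.prodMk measurable_id
    have m2 := (measurable_gR hΦ hε T').comp m1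
    have m3 : Measurable fun a : NodeP => ENNReal.ofReal ‖z1.1.2 - a.2.1‖ := by fun_prop
    have m4 : Measurable fun a : NodeP => topI r (a.1, z1.2) :=
      (measurable_topI r).comp (measurable_fst.prodMk measurable_const)
    have m8 : Measurable fun a : NodeP => inLine ε z1.1 a := measurable_inLine_right ε z1.1
    have m6 : Measurable fun a : NodeP => (inLine ε z1.1 a, z1.1) := m8.prodMk measurable_const
    have m7 : Measurable fun a : NodeP => outD Φ ε T' (inLine ε z1.1 a, z1.1) := mo.comp m6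
    have m5 : Measurable fun a : NodeP => H (z1, outD Φ ε T' (inLine ε z1.1 a, z1.1)) :=
      hH.comp (measurable_const.prodMk m7)
    exact (((m2.mul m3).mul m4).mul m5).const_mul _
  set B : NodeP × Par l → ℝ≥0∞ := fun z2 => vw Φ ε l T' (inLine ε z1.1 z2.1, z2.2) *
    gw b l (inLine ε z1.1 z2.1, z2.2) with hB
  have hBm : Measurable B := by
    have m1 : Measurable fun z2 : NodeP × Par l => (inLine ε z1.1 z2.1, z2.2) :=
      ((measurable_inLine ε).comp (measurable_const.prodMk measurable_fst)).prodMk measurable_snd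
    exact ((measurable_vw hΦ ε l T').comp m1).mul ((measurable_gw b l).comp m1)
  have hpt : ∀ z2 : NodeP × Par l, fR Φ ε T' l r z1 z2 * (gw b (node l r)
      ((outD Φ ε T' (inLine ε z1.1 z2.1, z1.1)).1,
        (((outD Φ ε T' (inLine ε z1.1 z2.1, z1.1)).2, (z2.2, z1.2)) : Par (node l r))) *
      H (((inM Φ ε ((outD Φ ε T' (inLine ε z1.1 z2.1, z1.1)).1,
        (outD Φ ε T' (inLine ε z1.1 z2.1, z1.1)).2)).2, z1.2),
        ((outD Φ ε T' (inLine ε z1.1 z2.1, z1.1)).1,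
          (outD Φ ε T' (inLine ε z1.1 z2.1, z1.1)).2))) ≤ A z2.1 * B z2 := by
    intro z2
    by_cases hg : gR Φ ε T' (z1.1, z2.1) = 0
    · unfold fR
      rw [hg, zero_mul, zero_mul, zero_mul, zero_mul]
      exact bot_le
    obtain ⟨o, ho⟩ : ∃ o, outD Φ ε T' (inLine ε z1.1 z2.1, z1.1) = o := ⟨_, rfl⟩
    obtain ⟨g1, g2, g3, -⟩ := goodR_spec hΦ hε (mem_GoodR_of_gR hg) ho
    have hgw := gw_node hΦ (l := l) (r := r) (o := o) g1.1 g2 b z2.2 z1.2
    simp only [ho, hA, hB, Prod.mk.eta, g3]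
    rw [hgw]
    unfold fR
    calc _ = (gw b r z1 * ((gR Φ ε T' (z1.1, z2.1) * ENNReal.ofReal ‖z1.1.2 - z2.1.2.1‖ *
            topI r (z2.1.1, z1.2)) * H (z1, o))) *
          (topI l (z2.1.1, z2.2) * (vw Φ ε l T' (inLine ε z1.1 z2.1, z2.2) *
            gw b l (inLine ε z1.1 z2.1, z2.2))) := by ring
      _ ≤ (gw b r z1 * ((gR Φ ε T' (z1.1, z2.1) * ENNReal.ofReal ‖z1.1.2 - z2.1.2.1‖ *
            topI r (z2.1.1, z1.2)) * H (z1, o))) *
          (1 * (vw Φ ε l T' (inLine ε z1.1 z2.1, z2.2) *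
            gw b l (inLine ε z1.1 z2.1, z2.2))) := by
          gcongr
          exact topI_le_one _ _
      _ = _ := by ring
  refine (lintegral_mono hpt).trans ?_
  have hAB : Measurable fun z2 : NodeP × Par l => A z2.1 * B z2 :=
    (hAm.comp measurable_fst).mul hBm
  rw [Tree674.lintegral_pair hAB]
  have hs : ∀ a : NodeP, ∫⁻ pr : Par l, A a * B (a, pr) ≤ A a * (C * gE b' a.2.1) := by
    intro a
    have hBa : Measurable fun pr : Par l => B (a, pr) :=
      hBm.comp (measurable_const.prodMk measurable_id)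
    rw [lintegral_const_mul _ hBa]
    exact mul_le_mul_right (hI ε T' hε.le hT (inLine ε z1.1 a)) _
  refine (lintegral_mono hs).trans (le_of_eq ?_)
  rw [← lintegral_const_mul' _ _ (show gw b r z1 ≠ ∞ from ENNReal.ofReal_ne_top),
    ← lintegral_const_mul' _ _ hC]
  refine lintegral_congr fun a => ?_
  simp only [hA]
  ring

/-! ### Boxes -/

theorem gL_le_box (hΦ : AdmissiblePotential Φ) {ε : ℝ} (hε : 0 < ε) {T T' : ℝ} (hT : T' ≤ T)
    (ℓ : PhasePoint) (a : NodeP) : gL Φ ε T' (ℓ, a) ≤ box1 T a := by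
  by_cases hg : gL Φ ε T' (ℓ, a) = 0
  · rw [hg]; exact bot_le
  obtain ⟨g1, -, -, g4, -, -, g7, -⟩ := goodL_spec hΦ hε (mem_GoodL_of_gL hg) rfl
  have ha0 : 0 < a.1 := by rw [← g4]; exact g1.2.2
  have ha1 : a.1 < T' := by
    rw [← g4]
    exact (PathFlow968.sin_le hε.le _ _).trans_lt g1.2.1
  rw [box1_of ⟨ha0, ha1.trans_le hT⟩ g7]
  exact Set.indicator_le_self' (fun _ _ => zero_le_one) _

theorem gR_le_box (hΦ : AdmissiblePotential Φ) {ε : ℝ} (hε : 0 < ε) {T T' : ℝ} (hT : T' ≤ T)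
    (ℓ : PhasePoint) (a : NodeP) : gR Φ ε T' (ℓ, a) ≤ box1 T a := by
  by_cases hg : gR Φ ε T' (ℓ, a) = 0
  · rw [hg]; exact bot_le
  obtain ⟨g1, -, -, g4, -, -, g7, -⟩ := goodR_spec hΦ hε (mem_GoodR_of_gR hg) rfl
  have ha0 : 0 < a.1 := by rw [← g4]; exact g1.2.2
  have ha1 : a.1 < T' := by
    rw [← g4]
    exact (PathFlow968.sin_le hε.le _ _).trans_lt g1.2.1
  rw [box1_of ⟨ha0, ha1.trans_le hT⟩ g7]
  exact Set.indicator_le_self' (fun _ _ => zero_le_one) _

theorem vI_le_box {ε : ℝ} (hε : 0 ≤ ε) {T T' : ℝ} (hT : T' ≤ T)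
    (ℓ : PhasePoint) (a : NodeP) : vI Φ ε T' (ℓ, a) ≤ box1 T a := by
  by_cases hz : ((ℓ, a) : PhasePoint × NodeP) ∈ Vset Φ ε T'
  · have h0 : 0 < a.1 := lt_of_lt_of_le hz.2.2 (PathFlow968.sin_le hε _ _)
    have h1 : a.1 < T' := hz.2.1
    rw [box1_of ⟨h0, h1.trans_le hT⟩ hz.1.1]
    exact Set.indicator_le_self' (fun _ _ => zero_le_one) _
  · have h0 : vI Φ ε T' (ℓ, a) = 0 := indicator_of_notMem hz _
    rw [h0]; exact bot_le

theorem norm_sub_le_mul (v w : Space3) :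
    ENNReal.ofReal ‖v - w‖ ≤ ENNReal.ofReal (1 + ‖v‖) * ENNReal.ofReal (1 + ‖w‖) := by
  rw [← ENNReal.ofReal_mul (by positivity)]
  refine ENNReal.ofReal_le_ofReal ?_
  have := norm_sub_le v w
  nlinarith [norm_nonneg v, norm_nonneg w]

theorem box_flux {b : ℝ} (hb : 0 < b) (T : ℝ) : ∃ C : ℝ≥0∞, C ≠ ∞ ∧ ∀ v : Space3,
    ∫⁻ a : NodeP, box1 T a * (ENNReal.ofReal ‖v - a.2.1‖ * gE b a.2.1) ≤
      C * ENNReal.ofReal (1 + ‖v‖) := by
  obtain ⟨C, hC, h⟩ := one_add_gE (b := b) (b' := b / 2) (by linarith)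
  have hfin : ∫⁻ a : NodeP, box1 T a * gE (b / 2) a.2.1 ≠ ∞ :=
    lintegral_box_ne_top (half_pos hb) T
  have hm : Measurable fun a : NodeP => box1 T a * gE (b / 2) a.2.1 :=
    (measurable_box1 T).mul ((measurable_gE (b / 2)).comp measurable_snd.fst)
  refine ⟨C * ∫⁻ a : NodeP, box1 T a * gE (b / 2) a.2.1, ENNReal.mul_ne_top hC hfin,
    fun v => ?_⟩
  calc ∫⁻ a : NodeP, box1 T a * (ENNReal.ofReal ‖v - a.2.1‖ * gE b a.2.1)
      ≤ ∫⁻ a : NodeP, (C * ENNReal.ofReal (1 + ‖v‖)) * (box1 T a * gE (b / 2) a.2.1) := by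
        refine lintegral_mono fun a => ?_
        calc _ ≤ box1 T a * ((ENNReal.ofReal (1 + ‖v‖) * ENNReal.ofReal (1 + ‖a.2.1‖)) *
              gE b a.2.1) := by
              gcongr
              exact norm_sub_le_mul v a.2.1
          _ = box1 T a * (ENNReal.ofReal (1 + ‖v‖) *
                (ENNReal.ofReal (1 + ‖a.2.1‖) * gE b a.2.1)) := by ring
          _ ≤ box1 T a * (ENNReal.ofReal (1 + ‖v‖) * (C * gE (b / 2) a.2.1)) :=
              mul_le_mul_right (mul_le_mul_right (h _) _) _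
          _ = _ := by ring
    _ = _ := by rw [lintegral_const_mul _ hm]; ring

/-! ### Reduction to one branch -/

/-- **Reduction to the first branch.** -/
theorem subL (hΦ : AdmissiblePotential Φ) {b b' : ℝ} (hb' : 0 < b') (hb : b' < b) (T : ℝ)
    (l r : CTree) : ∃ C : ℝ≥0∞, C ≠ ∞ ∧ ∀ (ε T' : ℝ), 0 < ε → T' ≤ T →
      ∀ G : PhasePoint × Par l → ℝ≥0∞, Measurable G →
      ∫⁻ z : PhasePoint × Par (node l r), vw Φ ε (node l r) T' z * (gw b (node l r) z *
        G ((inM Φ ε (z.1, z.2.1)).1, z.2.2.1)) ≤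
      C * ∫⁻ z1 : PhasePoint × Par l, vw Φ ε l T' z1 * (gw b' l z1 * G z1) := by
  obtain ⟨C, hC, H⟩ := NL hΦ hb' hb T l r
  obtain ⟨C1, hC1, h1⟩ := box_flux hb' T
  obtain ⟨C2, hC2, h2⟩ := one_add_gw hb
  refine ⟨C * (C1 * C2), ENNReal.mul_ne_top hC (ENNReal.mul_ne_top hC1 hC2),
    fun ε T' hε hT G hG => ?_⟩
  refine (H ε T' hε hT (fun w => G w.1) (hG.comp measurable_fst)).trans ?_
  rw [mul_assoc, ← lintegral_const_mul' _ _ (ENNReal.mul_ne_top hC1 hC2)]
  refine mul_le_mul_right (lintegral_mono fun z1 => ?_) _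
  have h3 : ∫⁻ a : NodeP, (gL Φ ε T' (z1.1, a) * topI l (a.1, z1.2) *
      (ENNReal.ofReal ‖z1.1.2 - a.2.1‖ * gE b' a.2.1)) * G z1 ≤
      (C1 * ENNReal.ofReal (1 + ‖z1.1.2‖)) * G z1 := by
    have hm : Measurable fun a : NodeP => box1 T a *
        (ENNReal.ofReal ‖z1.1.2 - a.2.1‖ * gE b' a.2.1) := by
      have m1 : Measurable fun a : NodeP => ENNReal.ofReal ‖z1.1.2 - a.2.1‖ := by fun_prop
      exact (measurable_box1 T).mul (m1.mul ((measurable_gE b').comp measurable_snd.fst))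
    calc _ ≤ ∫⁻ a : NodeP, (box1 T a *
          (ENNReal.ofReal ‖z1.1.2 - a.2.1‖ * gE b' a.2.1)) * G z1 := by
          refine lintegral_mono fun a => ?_
          have h4 := gL_le_box hΦ hε hT z1.1 a
          have h5 := topI_le_one l (a.1, z1.2)
          calc _ ≤ (box1 T a * 1 * (ENNReal.ofReal ‖z1.1.2 - a.2.1‖ * gE b' a.2.1)) * G z1 := by
                gcongr
            _ = _ := by rw [mul_one]
      _ = (∫⁻ a : NodeP, box1 T a *
          (ENNReal.ofReal ‖z1.1.2 - a.2.1‖ * gE b' a.2.1)) * G z1 := lintegral_mul_const _ hm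
      _ ≤ _ := mul_le_mul_left (h1 _) _
  calc _ ≤ vw Φ ε l T' z1 * (gw b l z1 * ((C1 * ENNReal.ofReal (1 + ‖z1.1.2‖)) * G z1)) := by
        gcongr
    _ = vw Φ ε l T' z1 * (C1 * (ENNReal.ofReal (1 + ‖z1.1.2‖) * gw b l z1) * G z1) := by ring
    _ ≤ vw Φ ε l T' z1 * (C1 * (C2 * gw b' l z1) * G z1) :=
        mul_le_mul_right (mul_le_mul_left (mul_le_mul_right (h2 l z1) _) _) _
    _ = _ := by ring

/-- **Reduction to the second branch.** -/
theorem subR (hΦ : AdmissiblePotential Φ) {b b' : ℝ} (hb' : 0 < b') (hb : b' < b) (T : ℝ)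
    (l r : CTree) : ∃ C : ℝ≥0∞, C ≠ ∞ ∧ ∀ (ε T' : ℝ), 0 < ε → T' ≤ T →
      ∀ G : PhasePoint × Par r → ℝ≥0∞, Measurable G →
      ∫⁻ z : PhasePoint × Par (node l r), vw Φ ε (node l r) T' z * (gw b (node l r) z *
        G ((inM Φ ε (z.1, z.2.1)).2, z.2.2.2)) ≤
      C * ∫⁻ z1 : PhasePoint × Par r, vw Φ ε r T' z1 * (gw b' r z1 * G z1) := by
  obtain ⟨C, hC, H⟩ := NR hΦ hb' hb T l r
  obtain ⟨C1, hC1, h1⟩ := box_flux hb' T
  obtain ⟨C2, hC2, h2⟩ := one_add_gw hb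
  refine ⟨C * (C1 * C2), ENNReal.mul_ne_top hC (ENNReal.mul_ne_top hC1 hC2),
    fun ε T' hε hT G hG => ?_⟩
  refine (H ε T' hε hT (fun w => G w.1) (hG.comp measurable_fst)).trans ?_
  rw [mul_assoc, ← lintegral_const_mul' _ _ (ENNReal.mul_ne_top hC1 hC2)]
  refine mul_le_mul_right (lintegral_mono fun z1 => ?_) _
  have h3 : ∫⁻ a : NodeP, (gR Φ ε T' (z1.1, a) * topI r (a.1, z1.2) *
      (ENNReal.ofReal ‖z1.1.2 - a.2.1‖ * gE b' a.2.1)) * G z1 ≤
      (C1 * ENNReal.ofReal (1 + ‖z1.1.2‖)) * G z1 := by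
    have hm : Measurable fun a : NodeP => box1 T a *
        (ENNReal.ofReal ‖z1.1.2 - a.2.1‖ * gE b' a.2.1) := by
      have m1 : Measurable fun a : NodeP => ENNReal.ofReal ‖z1.1.2 - a.2.1‖ := by fun_prop
      exact (measurable_box1 T).mul (m1.mul ((measurable_gE b').comp measurable_snd.fst))
    calc _ ≤ ∫⁻ a : NodeP, (box1 T a *
          (ENNReal.ofReal ‖z1.1.2 - a.2.1‖ * gE b' a.2.1)) * G z1 := by
          refine lintegral_mono fun a => ?_
          have h4 := gR_le_box hΦ hε hT z1.1 a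
          have h5 := topI_le_one r (a.1, z1.2)
          calc _ ≤ (box1 T a * 1 * (ENNReal.ofReal ‖z1.1.2 - a.2.1‖ * gE b' a.2.1)) * G z1 := by
                gcongr
            _ = _ := by rw [mul_one]
      _ = (∫⁻ a : NodeP, box1 T a *
          (ENNReal.ofReal ‖z1.1.2 - a.2.1‖ * gE b' a.2.1)) * G z1 := lintegral_mul_const _ hm
      _ ≤ _ := mul_le_mul_left (h1 _) _
  calc _ ≤ vw Φ ε r T' z1 * (gw b r z1 * ((C1 * ENNReal.ofReal (1 + ‖z1.1.2‖)) * G z1)) := by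
        gcongr
    _ = vw Φ ε r T' z1 * (C1 * (ENNReal.ofReal (1 + ‖z1.1.2‖) * gw b r z1) * G z1) := by ring
    _ ≤ vw Φ ε r T' z1 * (C1 * (C2 * gw b' r z1) * G z1) :=
        mul_le_mul_right (mul_le_mul_left (mul_le_mul_right (h2 r z1) _) _) _
    _ = _ := by ring

/-! ### Integration of both branches -/

/-- integral of a branch -/
theorem lintegral_br_le {ε T b : ℝ} {P : CTree} {C : ℝ≥0∞} {b' : ℝ} {ℓ : PhasePoint} (s : ℝ)
    (h : ∫⁻ p : Par P, vw Φ ε P T (ℓ, p) * gw b P (ℓ, p) ≤ C * gE b' ℓ.2) :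
    ∫⁻ p : Par P, br Φ ε T b P s (ℓ, p) ≤ C * gE b' ℓ.2 :=
  (lintegral_mono fun _ => br_le _ _ _ _ _ _).trans h

/-- **Integration of both branches** at a fixed root line. -/
theorem N0 (hΦ : AdmissiblePotential Φ) {b b' : ℝ} (hb' : 0 < b') (hb : b' < b) (T : ℝ)
    (l r : CTree) : ∃ C : ℝ≥0∞, C ≠ ∞ ∧ ∀ (ε T' : ℝ), 0 < ε → T' ≤ T → ∀ ℓ : PhasePoint,
      ∀ H : NodeP → ℝ≥0∞, Measurable H →
      ∫⁻ p : Par (node l r), vw Φ ε (node l r) T' (ℓ, p) * (gw b (node l r) (ℓ, p) * H p.1) ≤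
      C * ∫⁻ a : NodeP, (vI Φ ε T' (ℓ, a) * ENNReal.ofReal ‖ℓ.2 - a.2.1‖) *
        ((gE b' ℓ.2 * gE b' a.2.1) * H a) := by
  obtain ⟨C1, hC1, h1⟩ := I0 hΦ hb' hb l T
  obtain ⟨C2, hC2, h2⟩ := I0 hΦ hb' hb r T
  refine ⟨C1 * C2, ENNReal.mul_ne_top hC1 hC2, fun ε T' hε hT ℓ H hH => ?_⟩
  rw [node_fix hΦ hε T' b l r ℓ (H := fun p => H p.1) (hH.comp (measurable_par1 l r)),
    ← lintegral_const_mul' _ _ (ENNReal.mul_ne_top hC1 hC2)]
  refine lintegral_mono fun a => ?_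
  by_cases hz : ((ℓ, a) : PhasePoint × NodeP) ∈ Vset Φ ε T'
  · have hA : Adm1 Φ ℓ.2 a := hz.1
    have hbr : Measurable fun pr : Par r =>
        br Φ ε T' b r (sinM Φ ε (ℓ, a)) ((inM Φ ε (ℓ, a)).2, pr) :=
      (measurable_br hΦ ε T' b r).comp (measurable_const.prodMk
        (measurable_const.prodMk measurable_id))
    have hbl : Measurable fun pl : Par l =>
        br Φ ε T' b l (sinM Φ ε (ℓ, a)) ((inM Φ ε (ℓ, a)).1, pl) :=
      (measurable_br hΦ ε T' b l).comp (measurable_const.prodMk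
        (measurable_const.prodMk measurable_id))
    have e1 : ∀ pl : Par l, ∫⁻ pr : Par r, br Φ ε T' b r (sinM Φ ε (ℓ, a))
        ((inM Φ ε (ℓ, a)).2, pr) * H a =
        (∫⁻ pr : Par r, br Φ ε T' b r (sinM Φ ε (ℓ, a)) ((inM Φ ε (ℓ, a)).2, pr)) * H a :=
      fun pl => lintegral_mul_const (μ := (volume : Measure (Par r))) (H a) hbr
    have i1 := lintegral_br_le (sinM Φ ε (ℓ, a)) (h1 ε T' hε.le hT (inM Φ ε (ℓ, a)).1)
    have i2 := lintegral_br_le (sinM Φ ε (ℓ, a)) (h2 ε T' hε.le hT (inM Φ ε (ℓ, a)).2)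
    have e2 : gE b' (inM Φ ε (ℓ, a)).1.2 * gE b' (inM Φ ε (ℓ, a)).2.2 =
        gE b' ℓ.2 * gE b' a.2.1 := by
      rw [inM_of_adm (z := (ℓ, a)) hA]
      exact gE_node hΦ (o := (ℓ, a)) hA rfl b'
    have e3 : ∫⁻ pl : Par l, br Φ ε T' b l (sinM Φ ε (ℓ, a)) ((inM Φ ε (ℓ, a)).1, pl) *
          ∫⁻ pr : Par r, br Φ ε T' b r (sinM Φ ε (ℓ, a)) ((inM Φ ε (ℓ, a)).2, pr) * H a =
        (∫⁻ pl : Par l, br Φ ε T' b l (sinM Φ ε (ℓ, a)) ((inM Φ ε (ℓ, a)).1, pl)) *
          ((∫⁻ pr : Par r, br Φ ε T' b r (sinM Φ ε (ℓ, a)) ((inM Φ ε (ℓ, a)).2, pr)) * H a) := by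
      refine (lintegral_congr fun pl => ?_).trans
        (lintegral_mul_const (μ := (volume : Measure (Par l))) _ hbl)
      exact congrArg _ (e1 pl)
    refine (mul_le_mul_right e3.le _).trans ?_
    calc _ ≤ (vI Φ ε T' (ℓ, a) * ENNReal.ofReal ‖ℓ.2 - a.2.1‖) *
          ((C1 * gE b' (inM Φ ε (ℓ, a)).1.2) * ((C2 * gE b' (inM Φ ε (ℓ, a)).2.2) * H a)) := by
          gcongr
      _ = (vI Φ ε T' (ℓ, a) * ENNReal.ofReal ‖ℓ.2 - a.2.1‖) *
          ((C1 * C2) * ((gE b' (inM Φ ε (ℓ, a)).1.2 * gE b' (inM Φ ε (ℓ, a)).2.2) * H a)) := by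
          ring
      _ = _ := by rw [e2]; ring
  · have h0 : vI Φ ε T' (ℓ, a) = 0 := indicator_of_notMem hz _
    rw [h0]
    simp

end Crest.Agent.R122.Mark307

end
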