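import Crest.Agent.R122.Mark8_307

/-!
Row 122, block H7b (helper307), part 9: **the outgoing lines of a flipped node are collision legs**.

* parity of the passage data (`tauM_neg`, `exitM_neg`, `passSet_neg`).
* `rev_node` : the reversed passage at a node.
* `out_L`, `out_R` : for good incoming parameters, the root line at the exit time and the exit line of
  the node are `legL'`, `legC'` (followed particle = first input), resp. `legC'`, `legL'` (followed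
  particle = second input) of helper969.
-/

set_option autoImplicit false
set_option synthInstance.maxSize 1024

open MeasureTheory Set Filter Topology
open Crest.AnalysisR.Kinetic
open scoped ENNReal

noncomputable section

namespace Crest.Agent.R122.Mark307

open Kin796 Kin796.CTree Disc416 Scat818 Flow671 Flux663 Tree674 TreeDom974
open scoped Classical

variable {Φ : Space3 → ℝ}

/-! ### Parity -/

theorem entrancePoint_neg (b g : Space3) : entrancePoint (-b) (-g) = -entrancePoint b g :=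
  entrancePoint_isometry (LinearIsometryEquiv.neg ℝ) b g

theorem inc_neg (b g : Space3) : inc (-b) (-g) = -inc b g := by
  unfold inc
  rw [entrancePoint_neg]
  rfl

theorem gincid_neg {p : Space3 × Space3} : -p ∈ gincid ↔ p ∈ gincid := by
  unfold gincid
  have h1 := mem_impactDisc_isometry (LinearIsometryEquiv.neg ℝ) (b := p.1) (g := p.2)
  have h2 : (-p).1 ∈ impactDisc (-p).2 ↔ p.1 ∈ impactDisc p.2 := h1
  have h3 : (-p).2 ≠ 0 ↔ p.2 ≠ 0 := by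
    show -p.2 ≠ 0 ↔ p.2 ≠ 0
    exact neg_ne_zero
  exact and_congr h2 h3

theorem hasExit_neg (hΦ : AdmissiblePotential Φ) {p : Space3 × Space3} (hp : p ∈ gincid) {τ : ℝ} :
    HasExit Φ (inc (-p).1 (-p).2) τ ↔ HasExit Φ (inc p.1 p.2) τ :=
  hasExit_isometry hΦ (LinearIsometryEquiv.neg ℝ) hp.1 hp.2

theorem passSet_neg (hΦ : AdmissiblePotential Φ) {p : Space3 × Space3} :
    -p ∈ passSet Φ ↔ p ∈ passSet Φ := by
  constructor
  · rintro ⟨h1, τ, h2⟩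
    have h3 := gincid_neg.1 h1
    exact ⟨h3, τ, (hasExit_neg hΦ h3).1 h2⟩
  · rintro ⟨h1, τ, h2⟩
    exact ⟨gincid_neg.2 h1, τ, (hasExit_neg hΦ h1).2 h2⟩

theorem tauM_neg (hΦ : AdmissiblePotential Φ) (p : Space3 × Space3) :
    tauM Φ (-p) = tauM Φ p := by
  by_cases hp : p ∈ passSet Φ
  · rw [tauM_of_mem ((passSet_neg hΦ).2 hp), tauM_of_mem hp]
    exact exitTime_eq ((hasExit_neg hΦ hp.1).2 hp.2.hasExit)
  · rw [tauM_of_not (fun h => hp ((passSet_neg hΦ).1 h)), tauM_of_not hp]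

theorem exitM_neg (hΦ : AdmissiblePotential Φ) (p : Space3 × Space3) :
    exitM Φ (-p) = -exitM Φ p := by
  by_cases hp : p ∈ passSet Φ
  · unfold exitM
    rw [tauM_neg hΦ]
    have hz : Reg Φ (inc p.1 p.2).1 := reg_entrance Φ hp.1.1 hp.1.2
    have h1 := relFlow_isometry hΦ (LinearIsometryEquiv.neg ℝ) hz (tauM Φ p)
    have h2 : inc (-p).1 (-p).2 = (LinearIsometryEquiv.neg ℝ (inc p.1 p.2).1,
        LinearIsometryEquiv.neg ℝ (inc p.1 p.2).2) := inc_neg p.1 p.2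
    rw [h2, h1]
    rfl
  · rw [exitM_of_not hΦ (fun h => hp ((passSet_neg hΦ).1 h)), exitM_of_not hΦ hp]
    exact inc_neg p.1 p.2

/-! ### The reversed passage at a node -/

/-- reversed passage data at a node -/
def rvn (Φ : Space3 → ℝ) (v : Space3) (a : NodeP) : Space3 × Space3 :=
  (exitImpact Φ (nb v a) (ng v a), -exitVelocity Φ (nb v a) (ng v a))

theorem rev_node (hΦ : AdmissiblePotential Φ) {v : Space3} {a : NodeP} (ha : Adm1 Φ v a) :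
    tauM Φ (rvn Φ v a) = tau Φ (nb v a) (ng v a) ∧
      exitM Φ (rvn Φ v a) = (entrancePoint (nb v a) (ng v a), -ng v a) ∧
      entrancePoint (rvn Φ v a).1 (rvn Φ v a).2 = qx Φ (nb v a) (ng v a) := by
  have hb := ha.nb_mem
  have hg := ha.ng_ne
  have hE := hasExit_tau hΦ hb hg ha.nt
  obtain ⟨h1, h2⟩ := hE.reverse hΦ hb hg
  have hm : rvn Φ v a ∈ passSet Φ :=
    ⟨⟨mem_impactDisc_neg.2 (exitImpact_mem hΦ hb hg),
      neg_ne_zero.2 (exitVelocity_ne_zero hΦ hb hg)⟩, ⟨_, h1⟩⟩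
  have ht : tauM Φ (rvn Φ v a) = tau Φ (nb v a) (ng v a) := by
    rw [tauM_of_mem hm]
    exact exitTime_eq h1
  refine ⟨ht, ?_, ?_⟩
  · unfold exitM
    rw [ht]
    exact h2
  · rw [qx_eq_impact hΦ hb hg ha.nt]
    unfold rvn entrancePoint
    simp only
    rw [norm_exitImpact hΦ hb hg, norm_neg, norm_exitVelocity hΦ hb hg, smul_neg, sub_neg_eq_add]

theorem frameMap_neg (g : Space3) (y : Plane) : frameMap g (-y) = -frameMap g y := by
  have h := frameMap_smul g (-1) y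
  rw [neg_one_smul, neg_one_smul] at h
  exact h

/-- impact data of the incoming pair of a node -/
theorem bO_inMap (hΦ : AdmissiblePotential Φ) {ε : ℝ} (hε : 0 < ε) {z : PhasePoint × NodeP}
    (hz : Adm1 Φ z.1.2 z.2) :
    bO ε (inMap Φ ε z.1 z.2) = exitImpact Φ (nb z.1.2 z.2) (ng z.1.2 z.2) := by
  have hbm := hz.nb_mem
  have hg0 := hz.ng_ne
  have hg' := exitVelocity_ne_zero hΦ hbm hg0
  have hb' := inner_exitImpact hΦ hbm hg0
  have hb1 : inner ℝ (ε • exitImpact Φ (nb z.1.2 z.2) (ng z.1.2 z.2))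
      (exitVelocity Φ (nb z.1.2 z.2) (ng z.1.2 z.2)) = 0 := by
    rw [inner_smul_left, hb', mul_zero]
  obtain ⟨h1, -⟩ := bline_frame hg' hb1 (Tree674.sin Φ ε z.1.2 z.2 +
    ε * (Real.sqrt (1 - ‖nb z.1.2 z.2‖ ^ 2) / ‖ng z.1.2 z.2‖))
  have hp := inMap_pos_sub hΦ ε hz
  have hv := inMap_vel_sub (Φ := Φ) ε z.1 z.2
  unfold bO
  rw [hp, hv, h1, smul_smul, one_div_mul_cancel hε.ne', one_smul]

theorem bO_inLine {ε : ℝ} (hε : 0 < ε) {ℓ : PhasePoint} {a : NodeP} (ha : ℓ.2 ≠ a.2.1) :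
    bO ε (ℓ, inLine ε ℓ a) = nb ℓ.2 a := by
  have hg : ng ℓ.2 a ≠ 0 := sub_ne_zero.2 ha
  have hb0 : inner ℝ (nb ℓ.2 a) (ng ℓ.2 a) = 0 := inner_frameMap_self _ _
  have hb1 : inner ℝ (ε • nb ℓ.2 a) (ng ℓ.2 a) = 0 := by rw [inner_smul_left, hb0, mul_zero]
  obtain ⟨h1, -⟩ := bline_frame hg hb1
    (a.1 + ε * (Real.sqrt (1 - ‖nb ℓ.2 a‖ ^ 2) / ‖ng ℓ.2 a‖))
  simp only [bO]
  rw [inLine_fst_sub, show ℓ.2 - (inLine ε ℓ a).2 = ng ℓ.2 a from rfl, h1, smul_smul,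
    one_div_mul_cancel hε.ne', one_smul]

/-- relative data of the followed line at a flipped node -/
def eN (ℓ : PhasePoint) (a : NodeP) : CollLeg969.EC := (ℓ.2 - a.2.1, -a.2.2)

theorem bg_eN (ℓ : PhasePoint) (a : NodeP) :
    CollLeg969.bg (eN ℓ a) = (-nb ℓ.2 a, ng ℓ.2 a) := by
  unfold CollLeg969.bg eN
  simp only
  rw [frameMap_neg]
  rfl

/-! ### Outgoing lines -/

/-- **Outgoing lines of a flipped node, first orientation.** -/
theorem out_L (hΦ : AdmissiblePotential Φ) {ε : ℝ} (hε : 0 < ε) {T : ℝ} {ℓ : PhasePoint}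
    {a : NodeP} (h : (ℓ, a) ∈ GoodL Φ ε T) {o : PhasePoint × NodeP}
    (ho : outD Φ ε T (ℓ, inLine ε ℓ a) = o) (s₀ : ℝ) :
    ((o.2.1, onLine o.1 o.2.1) : BLine) =
      (CollLeg969.legL' hΦ ε).out ((s₀, onLine ℓ s₀), (a.1, eN ℓ a)) ∧
    topX ε o = (CollLeg969.legC' hΦ ε).out ((s₀, onLine ℓ s₀), (a.1, eN ℓ a)) := by
  obtain ⟨g1, g2, -, g4, -, -, -, g8⟩ := goodL_spec hΦ hε h ho
  have hA := g1.1
  obtain ⟨r1, r2, r3⟩ := rev_node hΦ hA
  -- identification of the data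
  have e1 : nb ℓ.2 a = exitImpact Φ (nb o.1.2 o.2) (ng o.1.2 o.2) := by
    rw [← bO_inLine hε g8, ← g2]
    exact bO_inMap hΦ hε hA
  have e2 : ng ℓ.2 a = exitVelocity Φ (nb o.1.2 o.2) (ng o.1.2 o.2) := by
    rw [← inMap_vel_sub (Φ := Φ) ε o.1 o.2, g2]
    rfl
  have e3 : CollLeg969.bg (eN ℓ a) = -rvn Φ o.1.2 o.2 := by
    rw [bg_eN, e1, e2]
    unfold rvn
    refine Prod.ext rfl ?_
    simp
  set τ := tau Φ (nb o.1.2 o.2) (ng o.1.2 o.2) with hτ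
  have d1 : CollLeg969.dtE Φ ε (eN ℓ a) = ε * τ := by
    unfold CollLeg969.dtE
    rw [e3, tauM_neg hΦ, r1]
  have d2 : CollLeg969.entE (eN ℓ a) = -qx Φ (nb o.1.2 o.2) (ng o.1.2 o.2) := by
    unfold CollLeg969.entE
    rw [e3]
    show entrancePoint (-(rvn Φ o.1.2 o.2).1) (-(rvn Φ o.1.2 o.2).2) = _
    rw [entrancePoint_neg, r3]
  have d3 : CollLeg969.exE Φ (eN ℓ a) =
      (-entrancePoint (nb o.1.2 o.2) (ng o.1.2 o.2), ng o.1.2 o.2) := by
    unfold CollLeg969.exE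
    rw [e3, exitM_neg hΦ, r2]
    refine Prod.ext rfl ?_
    simp
  have hs : o.2.1 = a.1 + ε * τ := by
    have : Tree674.sin Φ ε o.1.2 o.2 = o.2.1 - ε * τ := rfl
    rw [this] at g4
    linarith
  have hl : ℓ = (inMap Φ ε o.1 o.2).1 := by rw [g2]
  have hv : ℓ.2 = cmv o.1.2 o.2 + (1 / 2 : ℝ) • ng ℓ.2 a := by
    conv_lhs => rw [hl]
    show (preV Φ o.1.2 o.2).1 = _
    rw [preV_eq, e2]
  have hx : ℓ.1 = cms ε o.1 o.2 - (ε * τ) • cmv o.1.2 o.2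
      - (ε / 2) • qx Φ (nb o.1.2 o.2) (ng o.1.2 o.2) - a.1 • ℓ.2 := by
    have h1 : ℓ.1 = (xin Φ ε o.1 o.2).1 - Tree674.sin Φ ε o.1.2 o.2 • (preV Φ o.1.2 o.2).1 := by
      conv_lhs => rw [hl]
      rfl
    have h2 : (preV Φ o.1.2 o.2).1 = ℓ.2 := by
      conv_rhs => rw [hl]
      rfl
    rw [h1, g4, h2]
    rfl
  have hge : (eN ℓ a).1 = ng ℓ.2 a := rfl
  have hcm : cmv o.1.2 o.2 = (1 / 2 : ℝ) • (o.1.2 + o.2.2.1) := rfl
  have hng : ng o.1.2 o.2 = o.1.2 - o.2.2.1 := rfl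
  set G := ng ℓ.2 a with hG
  constructor
  · unfold Boost969.Leg.out CollLeg969.legL' onLine
    simp only
    rw [d1, d2, d3, hge]
    refine Prod.ext hs (Prod.ext ?_ ?_)
    · simp only
      have h3 : ℓ.1 + s₀ • ℓ.2 + (a.1 - s₀ + ε * τ) • ℓ.2 +
          (-((ε / 2) • -qx Φ (nb o.1.2 o.2) (ng o.1.2 o.2)) - (ε * τ / 2) • G +
            (ε / 2) • -entrancePoint (nb o.1.2 o.2) (ng o.1.2 o.2)) =
          (ℓ.1 + a.1 • ℓ.2 + (ε / 2) • qx Φ (nb o.1.2 o.2) (ng o.1.2 o.2)) +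
            (ε * τ) • (ℓ.2 - (1 / 2 : ℝ) • G) -
            (ε / 2) • entrancePoint (nb o.1.2 o.2) (ng o.1.2 o.2) := by module
      have h4 : ℓ.2 - (1 / 2 : ℝ) • G = cmv o.1.2 o.2 := by
        rw [eq_comm, eq_sub_iff_add_eq]; exact hv.symm
      have h5 : ℓ.1 + a.1 • ℓ.2 + (ε / 2) • qx Φ (nb o.1.2 o.2) (ng o.1.2 o.2) =
          cms ε o.1 o.2 - (ε * τ) • cmv o.1.2 o.2 := by
        rw [hx]; abel
      rw [h3, h4, h5]
      unfold cms
      module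
    · simp only
      have h4 : ℓ.2 = cmv o.1.2 o.2 + (1 / 2 : ℝ) • G := hv
      rw [h4, hng, hcm]
      module
  · unfold topX Boost969.Leg.out CollLeg969.legC' onLine outLine
    simp only
    rw [d1, d2, d3, hge]
    refine Prod.ext hs (Prod.ext ?_ ?_)
    · simp only
      have h3 : ℓ.1 + s₀ • ℓ.2 + (a.1 - s₀ + ε * τ) • ℓ.2 +
          (-((ε / 2) • -qx Φ (nb o.1.2 o.2) (ng o.1.2 o.2)) - (ε * τ / 2) • G -
            (ε / 2) • -entrancePoint (nb o.1.2 o.2) (ng o.1.2 o.2)) =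
          (ℓ.1 + a.1 • ℓ.2 + (ε / 2) • qx Φ (nb o.1.2 o.2) (ng o.1.2 o.2)) +
            (ε * τ) • (ℓ.2 - (1 / 2 : ℝ) • G) +
            (ε / 2) • entrancePoint (nb o.1.2 o.2) (ng o.1.2 o.2) := by module
      have h4 : ℓ.2 - (1 / 2 : ℝ) • G = cmv o.1.2 o.2 := by
        rw [eq_comm, eq_sub_iff_add_eq]; exact hv.symm
      have h5 : ℓ.1 + a.1 • ℓ.2 + (ε / 2) • qx Φ (nb o.1.2 o.2) (ng o.1.2 o.2) =
          cms ε o.1 o.2 - (ε * τ) • cmv o.1.2 o.2 := by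
        rw [hx]; abel
      rw [h3, h4, h5]
      unfold cms
      module
    · simp only
      have h4 : ℓ.2 = cmv o.1.2 o.2 + (1 / 2 : ℝ) • G := hv
      rw [h4, hng, hcm]
      module

/-- **Outgoing lines of a flipped node, second orientation.** -/
theorem out_R (hΦ : AdmissiblePotential Φ) {ε : ℝ} (hε : 0 < ε) {T : ℝ} {ℓ : PhasePoint}
    {a : NodeP} (h : (ℓ, a) ∈ GoodR Φ ε T) {o : PhasePoint × NodeP}
    (ho : outD Φ ε T (inLine ε ℓ a, ℓ) = o) (s₀ : ℝ) :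
    ((o.2.1, onLine o.1 o.2.1) : BLine) =
      (CollLeg969.legC' hΦ ε).out ((s₀, onLine ℓ s₀), (a.1, eN ℓ a)) ∧
    topX ε o = (CollLeg969.legL' hΦ ε).out ((s₀, onLine ℓ s₀), (a.1, eN ℓ a)) := by
  obtain ⟨g1, g2, -, g4, -, -, -, g8⟩ := goodR_spec hΦ hε h ho
  have hA := g1.1
  obtain ⟨r1, r2, r3⟩ := rev_node hΦ hA
  have e0 : bO ε (ℓ, inLine ε ℓ a) = -bO ε (inLine ε ℓ a, ℓ) := by
    have := bO_swap ε (inLine ε ℓ a, ℓ)
    exact this
  have e1 : nb ℓ.2 a = -exitImpact Φ (nb o.1.2 o.2) (ng o.1.2 o.2) := by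
    rw [← bO_inLine hε g8, e0, ← g2]
    rw [bO_inMap hΦ hε hA]
  have e2 : ng ℓ.2 a = -exitVelocity Φ (nb o.1.2 o.2) (ng o.1.2 o.2) := by
    rw [← inMap_vel_sub (Φ := Φ) ε o.1 o.2, g2]
    show ℓ.2 - a.2.1 = -(a.2.1 - ℓ.2)
    abel
  have e3 : CollLeg969.bg (eN ℓ a) = rvn Φ o.1.2 o.2 := by
    rw [bg_eN, e1, e2, neg_neg]
    rfl
  set τ := tau Φ (nb o.1.2 o.2) (ng o.1.2 o.2) with hτ
  have d1 : CollLeg969.dtE Φ ε (eN ℓ a) = ε * τ := by
    unfold CollLeg969.dtE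
    rw [e3, r1]
  have d2 : CollLeg969.entE (eN ℓ a) = qx Φ (nb o.1.2 o.2) (ng o.1.2 o.2) := by
    unfold CollLeg969.entE
    rw [e3, r3]
  have d3 : CollLeg969.exE Φ (eN ℓ a) =
      (entrancePoint (nb o.1.2 o.2) (ng o.1.2 o.2), -ng o.1.2 o.2) := by
    unfold CollLeg969.exE
    rw [e3, r2]
  have hs : o.2.1 = a.1 + ε * τ := by
    have : Tree674.sin Φ ε o.1.2 o.2 = o.2.1 - ε * τ := rfl
    rw [this] at g4
    linarith
  have hl : ℓ = (inMap Φ ε o.1 o.2).2 := by rw [g2]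
  have hv : ℓ.2 = cmv o.1.2 o.2 + (1 / 2 : ℝ) • ng ℓ.2 a := by
    conv_lhs => rw [hl]
    show (preV Φ o.1.2 o.2).2 = _
    rw [preV_eq, e2]
    module
  have hx : ℓ.1 = cms ε o.1 o.2 - (ε * τ) • cmv o.1.2 o.2
      + (ε / 2) • qx Φ (nb o.1.2 o.2) (ng o.1.2 o.2) - a.1 • ℓ.2 := by
    have h1 : ℓ.1 = (xin Φ ε o.1 o.2).2 - Tree674.sin Φ ε o.1.2 o.2 • (preV Φ o.1.2 o.2).2 := by
      conv_lhs => rw [hl]
      rfl
    have h2 : (preV Φ o.1.2 o.2).2 = ℓ.2 := by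
      conv_rhs => rw [hl]
      rfl
    rw [h1, g4, h2]
    rfl
  have hge : (eN ℓ a).1 = ng ℓ.2 a := rfl
  have hcm : cmv o.1.2 o.2 = (1 / 2 : ℝ) • (o.1.2 + o.2.2.1) := rfl
  have hng : ng o.1.2 o.2 = o.1.2 - o.2.2.1 := rfl
  set G := ng ℓ.2 a with hG
  have h4 : ℓ.2 - (1 / 2 : ℝ) • G = cmv o.1.2 o.2 := by
    rw [eq_comm, eq_sub_iff_add_eq]; exact hv.symm
  have h5 : ℓ.1 + a.1 • ℓ.2 - (ε / 2) • qx Φ (nb o.1.2 o.2) (ng o.1.2 o.2) =
      cms ε o.1 o.2 - (ε * τ) • cmv o.1.2 o.2 := by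
    rw [hx]; abel
  constructor
  · unfold Boost969.Leg.out CollLeg969.legC' onLine
    simp only
    rw [d1, d2, d3, hge]
    refine Prod.ext hs (Prod.ext ?_ ?_)
    · simp only
      have h3 : ℓ.1 + s₀ • ℓ.2 + (a.1 - s₀ + ε * τ) • ℓ.2 +
          (-((ε / 2) • qx Φ (nb o.1.2 o.2) (ng o.1.2 o.2)) - (ε * τ / 2) • G -
            (ε / 2) • entrancePoint (nb o.1.2 o.2) (ng o.1.2 o.2)) =
          (ℓ.1 + a.1 • ℓ.2 - (ε / 2) • qx Φ (nb o.1.2 o.2) (ng o.1.2 o.2)) +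
            (ε * τ) • (ℓ.2 - (1 / 2 : ℝ) • G) -
            (ε / 2) • entrancePoint (nb o.1.2 o.2) (ng o.1.2 o.2) := by module
      rw [h3, h4, h5]
      unfold cms
      module
    · simp only
      rw [hv, hng, hcm]
      module
  · unfold topX Boost969.Leg.out CollLeg969.legL' onLine outLine
    simp only
    rw [d1, d2, d3, hge]
    refine Prod.ext hs (Prod.ext ?_ ?_)
    · simp only
      have h3 : ℓ.1 + s₀ • ℓ.2 + (a.1 - s₀ + ε * τ) • ℓ.2 +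
          (-((ε / 2) • qx Φ (nb o.1.2 o.2) (ng o.1.2 o.2)) - (ε * τ / 2) • G +
            (ε / 2) • entrancePoint (nb o.1.2 o.2) (ng o.1.2 o.2)) =
          (ℓ.1 + a.1 • ℓ.2 - (ε / 2) • qx Φ (nb o.1.2 o.2) (ng o.1.2 o.2)) +
            (ε * τ) • (ℓ.2 - (1 / 2 : ℝ) • G) +
            (ε / 2) • entrancePoint (nb o.1.2 o.2) (ng o.1.2 o.2) := by module
      rw [h3, h4, h5]
      unfold cms
      module
    · simp only
      rw [hv, hng, hcm]
      module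

end Crest.Agent.R122.Mark307

end
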