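import Crest.Agent.R122.TransD3_151
import Crest.Agent.R122.OneCA_423

/-!
# Good worlds are jointly measurable events in births and states (row 122), helper167

* `OkC` : nobody is born on top of a living particle (or the potential is twice differentiable);
  `okC_iff` : equivalent to `BWorld` of the evolution; `measurableSet_okC`.
* `OkS` : `BWorld` and `SepB`; `OkS.ok` : implies `MW.Ok` for births `≥ 0`; `measurableSet_okS`.
* `OkFamS` : all sub-families; `OkFamS.okFam`, `measurableSet_okFamS`.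
* `ae_births`, `ae_births_ML`, `ae_baseM` : a measurable event which has full measure for every
  fixed birth time has full measure jointly.
-/

set_option autoImplicit false
set_option linter.unusedSectionVars false

open MeasureTheory Set Filter Topology
open scoped ENNReal NNReal
open Crest.AnalysisR.Kinetic
open Crest.Agent.R122.Flow671 Crest.Agent.R122.Loc45 Crest.Agent.R122.Ins45
open Crest.Agent.R122.Simul984 Crest.Agent.R122.Inf879 Crest.Agent.R122.EDefs602
open Crest.Agent.R122.MWAlg255 Crest.Agent.R122.TransOk151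
open Crest.Agent.R122.OneC423 (baseM)

namespace Crest.Agent.R122.MeasOk167

noncomputable section

open scoped Classical

variable {Φ : Space3 → ℝ} {ε : ℝ} {ι : Type} [Fintype ι] {δ : Type*} [MeasurableSpace δ]

/-! ### Nobody is born on top of a living particle -/

/-- Nobody is born on top of a living particle. -/
def OkC (Φ : Space3 → ℝ) (ε : ℝ) (b : ι → ℝ) (Z : ι → PhasePoint) : Prop :=
  ContDiff ℝ 2 Φ ∨ ((∀ j k, j ≠ k → b j ≤ 0 → b k ≤ 0 → (Z j).1 ≠ (Z k).1) ∧
    ∀ i, 0 < b i → ∀ j k, j ≠ k → b j ≤ b i → b k ≤ b i →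
      (evo Φ ε b 0 (b i) Z j).1 ≠ (evo Φ ε b 0 (b i) Z k).1)

theorem okC_iff (hΦ : AdmissiblePotential Φ) (hε : 0 < ε) {b : ι → ℝ} {Z : ι → PhasePoint} :
    OkC Φ ε b Z ↔ BWorld Φ ε b 0 (fun t => evo Φ ε b 0 t Z) := by
  constructor
  · rintro (h | ⟨h1, h2⟩)
    · exact bworld_evo hΦ hε (Or.inl h) fun _ _ => Or.inl h
    · exact bworld_evo hΦ hε (Or.inr h1) fun i hi => Or.inr (h2 i hi)
  · intro h
    by_cases hC : ContDiff ℝ 2 Φ
    · exact Or.inl hC
    refine Or.inr ⟨?_, fun i hi => ?_⟩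
    · have h1 := (h.dom 0 le_rfl).resolve_left hC
      rw [evo_self hΦ hε] at h1
      exact h1
    · exact (h.dom (b i) hi.le).resolve_left hC

theorem measurableSet_okC (hΦ : AdmissiblePotential Φ) (hε : 0 < ε) {b : δ → ι → ℝ}
    {Z : δ → ι → PhasePoint} (hb : ∀ i, Measurable fun x => b x i) (hZ : Measurable Z) :
    MeasurableSet {x | OkC Φ ε (b x) (Z x)} := by
  have hne : ∀ (j k : ι) {f : δ → ι → PhasePoint}, Measurable f →
      MeasurableSet {x | (f x j).1 ≠ (f x k).1} := fun j k f hf =>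
    (measurableSet_eq_fun (measurable_fst.comp ((measurable_pi_apply j).comp hf))
      (measurable_fst.comp ((measurable_pi_apply k).comp hf))).compl
  unfold OkC
  refine MeasurableSet.union (MeasurableSet.const _) (MeasurableSet.inter ?_ ?_)
  · have e : {x | ∀ j k, j ≠ k → b x j ≤ 0 → b x k ≤ 0 → (Z x j).1 ≠ (Z x k).1} =
        ⋂ j, ⋂ k, {x | j ≠ k → b x j ≤ 0 → b x k ≤ 0 → (Z x j).1 ≠ (Z x k).1} := by
      ext x
      simp only [mem_ofPred_eq, mem_iInter]
    change MeasurableSet {x | ∀ j k, j ≠ k → b x j ≤ 0 → b x k ≤ 0 → (Z x j).1 ≠ (Z x k).1}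
    rw [e]
    refine MeasurableSet.iInter fun j => MeasurableSet.iInter fun k => ?_
    have e2 : {x | j ≠ k → b x j ≤ 0 → b x k ≤ 0 → (Z x j).1 ≠ (Z x k).1} =
        {_x | j ≠ k}ᶜ ∪ ({x | b x j ≤ 0}ᶜ ∪ ({x | b x k ≤ 0}ᶜ ∪ {x | (Z x j).1 ≠ (Z x k).1})) := by
      ext x
      simp only [mem_union, mem_compl_iff, mem_ofPred_eq]
      tauto
    rw [e2]
    exact (MeasurableSet.const _).compl.union ((measurableSet_le (hb j) measurable_const).compl.union
      ((measurableSet_le (hb k) measurable_const).compl.union (hne j k hZ)))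
  · have e : {x | ∀ i, 0 < b x i → ∀ j k, j ≠ k → b x j ≤ b x i → b x k ≤ b x i →
        (evo Φ ε (b x) 0 (b x i) (Z x) j).1 ≠ (evo Φ ε (b x) 0 (b x i) (Z x) k).1} =
        ⋂ i, ⋂ j, ⋂ k, {x | 0 < b x i → j ≠ k → b x j ≤ b x i → b x k ≤ b x i →
          (evo Φ ε (b x) 0 (b x i) (Z x) j).1 ≠ (evo Φ ε (b x) 0 (b x i) (Z x) k).1} := by
      ext x
      simp only [mem_ofPred_eq, mem_iInter]
      exact ⟨fun h i j k h1 => h i h1 j k, fun h i h1 j k => h i j k h1⟩
    change MeasurableSet {x | ∀ i, 0 < b x i → ∀ j k, j ≠ k → b x j ≤ b x i → b x k ≤ b x i →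
        (evo Φ ε (b x) 0 (b x i) (Z x) j).1 ≠ (evo Φ ε (b x) 0 (b x i) (Z x) k).1}
    rw [e]
    refine MeasurableSet.iInter fun i => MeasurableSet.iInter fun j => MeasurableSet.iInter fun k => ?_
    have e2 : {x | 0 < b x i → j ≠ k → b x j ≤ b x i → b x k ≤ b x i →
          (evo Φ ε (b x) 0 (b x i) (Z x) j).1 ≠ (evo Φ ε (b x) 0 (b x i) (Z x) k).1} =
        {x | 0 < b x i}ᶜ ∪ ({_x | j ≠ k}ᶜ ∪ ({x | b x j ≤ b x i}ᶜ ∪ ({x | b x k ≤ b x i}ᶜ ∪
          {x | (evo Φ ε (b x) 0 (b x i) (Z x) j).1 ≠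
            (evo Φ ε (b x) 0 (b x i) (Z x) k).1}))) := by
      ext x
      simp only [mem_union, mem_compl_iff, mem_ofPred_eq]
      tauto
    rw [e2]
    refine (measurableSet_lt measurable_const (hb i)).compl.union
      ((MeasurableSet.const _).compl.union ((measurableSet_le (hb j) (hb i)).compl.union
      ((measurableSet_le (hb k) (hb i)).compl.union (hne j k ?_))))
    exact measurable_evo hΦ hε hb measurable_const (hb i) hZ

/-! ### Separation of simultaneous births -/

theorem measurableSet_startSep {f g : δ → PhasePoint} (hf : Measurable f) (hg : Measurable g) :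
    MeasurableSet {x | StartSep ε (f x) (g x)} := by
  have h1 : Measurable fun x => dist (f x).1 (g x).1 :=
    (measurable_fst.comp hf).dist (measurable_fst.comp hg)
  have h2 : Measurable fun x => (inner ℝ ((f x).1 - (g x).1) ((f x).2 - (g x).2) : ℝ) :=
    ((measurable_fst.comp hf).sub (measurable_fst.comp hg)).inner
      ((measurable_snd.comp hf).sub (measurable_snd.comp hg))
  exact (measurableSet_lt measurable_const h1).union
    ((measurableSet_eq_fun h1 measurable_const).inter (measurableSet_lt measurable_const h2))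

theorem measurable_lineAt' {a t : δ → ℝ} {z : δ → PhasePoint} (ha : Measurable a)
    (ht : Measurable t) (hz : Measurable z) : Measurable fun x => lineAt (a x) (z x) (t x) := by
  unfold lineAt
  exact ((measurable_fst.comp hz).add ((ht.sub ha).smul (measurable_snd.comp hz))).prodMk
    (measurable_snd.comp hz)

theorem measurableSet_sepB {W : δ → MW ι} (hb : ∀ i, Measurable fun x => (W x).b i)
    (hZ : Measurable fun x => (W x).z) : MeasurableSet {x | SepB ε (W x)} := by
  have hZi : ∀ i, Measurable fun x => (W x).z i := fun i => (measurable_pi_apply i).comp hZ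
  have e : {x | SepB ε (W x)} = ⋂ i, ⋂ j, ({_x | i ≠ j}ᶜ ∪ ({x | (W x).b i = (W x).b j}ᶜ ∪
      {x | StartSep ε (lineAt 0 ((W x).z i) ((W x).b i)) (lineAt 0 ((W x).z j) ((W x).b j))})) := by
    ext x
    simp only [mem_ofPred_eq, mem_iInter, mem_union, mem_compl_iff]
    unfold SepB
    refine forall_congr' fun i => forall_congr' fun j => ?_
    rw [imp_iff_not_or, imp_iff_not_or]
  rw [e]
  refine MeasurableSet.iInter fun i => MeasurableSet.iInter fun j => ?_
  exact (MeasurableSet.const _).compl.union ((measurableSet_eq_fun (hb i) (hb j)).compl.union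
    (measurableSet_startSep (measurable_lineAt' measurable_const (hb i) (hZi i))
      (measurable_lineAt' measurable_const (hb j) (hZi j))))

/-! ### Good worlds -/

/-- A world with births whose simultaneous births are separated. -/
structure OkS (Φ : Space3 → ℝ) (ε : ℝ) (W : MW ι) : Prop where
  bw : OkC Φ ε W.b W.z
  sep : SepB ε W

theorem OkS.ok (hΦ : AdmissiblePotential Φ) (hε : 0 < ε) {W : MW ι} (h : OkS Φ ε W)
    (hb : ∀ i, 0 ≤ W.b i) : W.Ok Φ ε :=
  ok_of hΦ hε hb ((okC_iff hΦ hε).1 h.bw) (evo_self hΦ hε _ _ _) h.sep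

/-- `OkS` from a world with births. -/
theorem okS_of (hΦ : AdmissiblePotential Φ) (hε : 0 < ε) {W : MW ι} {Y : ℝ → ι → PhasePoint}
    (hY : BWorld Φ ε W.b 0 Y) (hY0 : Y 0 = W.z) (hS : SepB ε W) : OkS Φ ε W := by
  refine ⟨(okC_iff hΦ hε).2 (hY.congr fun t ht => ?_), hS⟩
  rw [hY.eq_evo hΦ hε ht, hY0]

/-- `OkS` from `MW.Ok`. -/
theorem okS_of_ok (hΦ : AdmissiblePotential Φ) (hε : 0 < ε) {W : MW ι} (h : W.Ok Φ ε)
    (hS : SepB ε W) : OkS Φ ε W := okS_of hΦ hε h.bw (MW.path_zero hΦ hε W) hS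

theorem measurableSet_okS (hΦ : AdmissiblePotential Φ) (hε : 0 < ε) {W : δ → MW ι}
    (hb : ∀ i, Measurable fun x => (W x).b i) (hZ : Measurable fun x => (W x).z) :
    MeasurableSet {x | OkS Φ ε (W x)} := by
  have e : {x | OkS Φ ε (W x)} = {x | OkC Φ ε (W x).b (W x).z} ∩ {x | SepB ε (W x)} := by
    ext x
    exact ⟨fun h => ⟨h.bw, h.sep⟩, fun h => ⟨h.1, h.2⟩⟩
  rw [e]
  exact (measurableSet_okC hΦ hε hb hZ).inter (measurableSet_sepB hb hZ)

/-- All sub-families. -/
def OkFamS {κ : Type} (Φ : Space3 → ℝ) (ε : ℝ) (W : MW ι) (ls : κ → ML) : Prop :=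
  ∀ S : Finset κ, OkS Φ ε (W.add (sub ls S))

theorem OkFamS.okFam (hΦ : AdmissiblePotential Φ) (hε : 0 < ε) {κ : Type} {W : MW ι}
    {ls : κ → ML} (h : OkFamS Φ ε W ls) (hb : ∀ i, 0 ≤ W.b i) (hl : ∀ x, 0 ≤ (ls x).1.1) :
    MW.OkFam Φ ε W ls := by
  intro S
  refine (h S).ok hΦ hε ?_
  rintro (i | x)
  · exact hb i
  · exact hl x

theorem measurable_add {κ : Type} {W : δ → MW ι} {A : δ → MW κ}
    (hW : Measurable fun x => (W x).z) (hA : Measurable fun x => (A x).z) :
    Measurable fun x => ((W x).add (A x)).z := by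
  refine measurable_pi_iff.2 ?_
  rintro (i | i)
  · exact (measurable_pi_apply i).comp hW
  · exact (measurable_pi_apply i).comp hA

theorem measurable_lines {κ : Type} {ls : δ → κ → ML} (hl : ∀ k, Measurable fun x => ls x k) :
    Measurable fun x => (MW.lines (ls x)).z := by
  refine measurable_pi_iff.2 fun k => ?_
  have hb : Measurable fun p : ℝ × PhasePoint => back p := by
    unfold back
    fun_prop
  exact hb.comp (measurable_fst.comp (hl k))

theorem measurableSet_okFamS (hΦ : AdmissiblePotential Φ) (hε : 0 < ε) {κ : Type} [Fintype κ]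
    {W : δ → MW ι} {ls : δ → κ → ML} (hb : ∀ i, Measurable fun x => (W x).b i)
    (hZ : Measurable fun x => (W x).z) (hl : ∀ k, Measurable fun x => ls x k) :
    MeasurableSet {x | OkFamS Φ ε (W x) (ls x)} := by
  have e : {x | OkFamS Φ ε (W x) (ls x)} =
      ⋂ S : Finset κ, {x | OkS Φ ε ((W x).add (sub (ls x) S))} := by
    ext x
    simp only [mem_ofPred_eq, mem_iInter]
    rfl
  rw [e]
  refine MeasurableSet.iInter fun S => measurableSet_okS hΦ hε ?_ ?_
  · rintro (i | k)
    · exact hb i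
    · exact measurable_fst.comp (measurable_fst.comp (hl k))
  · exact measurable_add hZ (measurable_lines fun k : S => hl k)

/-! ### From fixed births to random births -/

/-- A measurable event of full measure for (almost) every fixed birth time has full measure. -/
theorem ae_births {Ω : Type*} [MeasurableSpace Ω] {κ : Measure ℝ} {ν : Measure Ω} [SFinite ν]
    {p : ℝ × Ω → Prop} (hp : MeasurableSet {q | p q})
    (h : ∀ᵐ τ ∂κ, ∀ᵐ y ∂ν, p (τ, y)) : ∀ᵐ q ∂(κ.prod ν), p q := by
  rw [Measure.ae_prod_iff_ae_ae hp]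
  exact h

/-- Random birth, state and mark of a line; parameters `Ω` first. -/
theorem ae_baseM {Ω : Type*} [MeasurableSpace Ω] {κ : Measure ℝ} [SFinite κ] {ν : Measure Ω}
    [SFinite ν] {p : Ω × ML → Prop} (hp : MeasurableSet {q | p q})
    (h : ∀ᵐ τ ∂κ, ∀ n : ℕ, ∀ᵐ q ∂(ν.prod (volume : Measure PhasePoint)),
      p (q.1, ((τ, q.2), n))) : ∀ᵐ q ∂(ν.prod (baseM κ)), p q := by
  -- the marks
  have h1 : ∀ n : ℕ, ∀ᵐ q ∂(κ.prod (ν.prod (volume : Measure PhasePoint))),
      p (q.2.1, ((q.1, q.2.2), n)) := by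
    intro n
    have hm : Measurable fun q : ℝ × (Ω × PhasePoint) => (q.2.1, ((q.1, q.2.2), n)) := by fun_prop
    refine (Measure.ae_prod_iff_ae_ae (p := fun q : ℝ × (Ω × PhasePoint) =>
      p (q.2.1, ((q.1, q.2.2), n))) (hm hp)).2 ?_
    filter_upwards [h] with τ hτ using hτ n
  -- as a statement about `Ω × (ℝ × PhasePoint) × ℕ`
  have h2 : ∀ n : ℕ, ∀ᵐ ω ∂ν, ∀ᵐ q ∂(κ.prod (volume : Measure PhasePoint)), p (ω, (q, n)) := by
    intro n
    have hm : Measurable fun q : Ω × (ℝ × PhasePoint) => (q.1, (q.2, n)) := by fun_prop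
    have e : MeasurePreserving (fun q : Ω × (ℝ × PhasePoint) => (q.2.1, (q.1, q.2.2)))
        (ν.prod (κ.prod (volume : Measure PhasePoint)))
        (κ.prod (ν.prod (volume : Measure PhasePoint))) := by
      have e1 := (measurePreserving_prodAssoc ν κ (volume : Measure PhasePoint)).symm
      have e2 : MeasurePreserving (Prod.map (Prod.swap : Ω × ℝ → ℝ × Ω) (id : PhasePoint → _))
          ((ν.prod κ).prod (volume : Measure PhasePoint))
          ((κ.prod ν).prod (volume : Measure PhasePoint)) :=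
        (Measure.measurePreserving_swap (μ := ν) (ν := κ)).prod (MeasurePreserving.id _)
      have e3 := measurePreserving_prodAssoc κ ν (volume : Measure PhasePoint)
      exact e3.comp (e2.comp e1)
    have h3 := e.quasiMeasurePreserving.ae (h1 n)
    exact Measure.ae_ae_of_ae_prod h3
  rw [Measure.ae_prod_iff_ae_ae hp]
  have h3 : ∀ᵐ ω ∂ν, ∀ n : ℕ, ∀ᵐ q ∂(κ.prod (volume : Measure PhasePoint)), p (ω, (q, n)) :=
    ae_all_iff.2 h2
  filter_upwards [h3] with ω hω
  unfold baseM
  have hm : Measurable fun l : ML => (ω, l) := by fun_prop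
  refine (Measure.ae_prod_iff_ae_ae (p := fun l : ML => p (ω, l)) (hm hp)).2 ?_
  have h4 : ∀ᵐ q ∂(κ.prod (volume : Measure PhasePoint)), ∀ n : ℕ, p (ω, (q, n)) :=
    ae_all_iff.2 hω
  filter_upwards [h4] with q hq
  exact Eventually.of_forall hq

end

end Crest.Agent.R122.MeasOk167
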