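import Crest.Agent.R122.MeasE_416
import Crest.Agent.R122.CausalGenInf_291

/-!
# Random sigma-closed events (row 122, helper416)

The contact relation with births `CtB` (captain's decision 2 (a)) is not closed for arbitrary data
(two particles born at the same instant are not in contact at that instant). For measurability this
is harmless: `RSE E` says that `E` is a countable union of random closed events, and this class is
stable under finite conjunctions/disjunctions/quantifiers, countable unions, forward closures,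
backward clusters; events at random times, events "at some time of a random interval" are measurable
and first times are measurable functions.

* `RSE.fut`, `RSE.touched`, `measurable_theta`: binding to `CausalGen_291`, `CausalGenInf_291`.
-/

set_option autoImplicit false

open Set Filter Topology MeasureTheory
open Crest.AnalysisR.Kinetic
open Crest.Agent.R122.Flow671 Crest.Agent.R122.Causal291
open scoped ENNReal

namespace Crest.Agent.R122.MeasE416

section rse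

variable {Ω : Type*} [MeasurableSpace Ω] {ι : Type*}

/-- Random sigma-closed event: a countable union of random closed events. -/
def RSE (E : Ω → ℝ → Prop) : Prop :=
  ∃ F : ℕ → Ω → ℝ → Prop, (∀ n, RCE (F n)) ∧ ∀ ω s, E ω s ↔ ∃ n, F n ω s

theorem RCE.rse {E : Ω → ℝ → Prop} (h : RCE E) : RSE E :=
  ⟨fun _ => E, fun _ => h, fun _ _ => ⟨fun h => ⟨0, h⟩, fun ⟨_, h⟩ => h⟩⟩

namespace RSE

variable {E F : Ω → ℝ → Prop}

theorem congr (h : RSE E) (he : ∀ ω s, F ω s ↔ E ω s) : RSE F := by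
  obtain ⟨G, hG, h⟩ := h
  exact ⟨G, hG, fun ω s => (he ω s).trans (h ω s)⟩

/-- The approximating sequence can be taken increasing. -/
theorem exists_mono (h : RSE E) : ∃ F : ℕ → Ω → ℝ → Prop, (∀ n, RCE (F n)) ∧
    (∀ m n, m ≤ n → ∀ ω s, F m ω s → F n ω s) ∧ ∀ ω s, E ω s ↔ ∃ n, F n ω s := by
  obtain ⟨G, hG, h⟩ := h
  refine ⟨fun n ω s => ∃ k ∈ Finset.range (n + 1), G k ω s, fun n =>
    RCE.exists_finset _ fun k _ => hG k, fun m n hmn ω s => ?_, fun ω s => ?_⟩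
  · rintro ⟨k, hk, h⟩
    exact ⟨k, Finset.mem_range.2 ((Finset.mem_range.1 hk).trans_le (by omega)), h⟩
  · rw [h]
    constructor
    · rintro ⟨n, hn⟩
      exact ⟨n, n, Finset.mem_range.2 (Nat.lt_succ_self n), hn⟩
    · rintro ⟨n, k, _, hk⟩
      exact ⟨k, hk⟩

theorem exists_countable {κ : Type*} [Countable κ] [Nonempty κ] {E : κ → Ω → ℝ → Prop}
    (h : ∀ k, RSE (E k)) : RSE fun ω s => ∃ k, E k ω s := by
  choose G hG hE using h
  obtain ⟨φ, hφ⟩ := exists_surjective_nat (κ × ℕ)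
  refine ⟨fun n => G (φ n).1 (φ n).2, fun n => hG _ _, fun ω s => ?_⟩
  constructor
  · rintro ⟨k, hk⟩
    obtain ⟨m, hm⟩ := (hE k ω s).1 hk
    obtain ⟨n, hn⟩ := hφ (k, m)
    refine ⟨n, ?_⟩
    change G (φ n).1 (φ n).2 ω s
    rw [hn]
    exact hm
  · rintro ⟨n, hn⟩
    exact ⟨(φ n).1, (hE _ ω s).2 ⟨(φ n).2, hn⟩⟩

theorem measurableSet (h : RSE E) (s : ℝ) : MeasurableSet {ω | E ω s} := by
  obtain ⟨G, hG, h⟩ := h
  have : {ω | E ω s} = ⋃ n, {ω | G n ω s} := by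
    ext ω
    simp only [mem_iUnion, mem_ofPred_eq]
    exact h ω s
  rw [this]
  exact MeasurableSet.iUnion fun n => (hG n).measurableSet s

theorem joint (h : RSE E) : MeasurableSet {p : ℝ × Ω | E p.2 p.1} := by
  obtain ⟨G, hG, h⟩ := h
  have : {p : ℝ × Ω | E p.2 p.1} = ⋃ n, {p : ℝ × Ω | G n p.2 p.1} := by
    ext p
    simp only [mem_iUnion, mem_ofPred_eq]
    exact h p.2 p.1
  rw [this]
  exact MeasurableSet.iUnion fun n => (hG n).joint

/-- The event at a measurable random time is measurable. -/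
theorem measurableSet_at (h : RSE E) {τ : Ω → ℝ} (hτ : Measurable τ) :
    MeasurableSet {ω | E ω (τ ω)} :=
  (hτ.prodMk measurable_id) h.joint

theorem and (h : RSE E) (h' : RSE F) : RSE fun ω s => E ω s ∧ F ω s := by
  obtain ⟨G, hG, hGm, h⟩ := h.exists_mono
  obtain ⟨H, hH, hHm, h'⟩ := h'.exists_mono
  refine ⟨fun n ω s => G n ω s ∧ H n ω s, fun n => (hG n).and (hH n), fun ω s => ?_⟩
  change (E ω s ∧ F ω s) ↔ ∃ n, G n ω s ∧ H n ω s
  rw [h, h']
  constructor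
  · rintro ⟨⟨m, hm⟩, n, hn⟩
    exact ⟨Max.max m n, hGm _ _ (le_max_left m n) _ _ hm, hHm _ _ (le_max_right m n) _ _ hn⟩
  · rintro ⟨n, h1, h2⟩
    exact ⟨⟨n, h1⟩, n, h2⟩

theorem or (h : RSE E) (h' : RSE F) : RSE fun ω s => E ω s ∨ F ω s := by
  obtain ⟨G, hG, hGm, h⟩ := h.exists_mono
  obtain ⟨H, hH, hHm, h'⟩ := h'.exists_mono
  refine ⟨fun n ω s => G n ω s ∨ H n ω s, fun n => (hG n).or (hH n), fun ω s => ?_⟩
  change (E ω s ∨ F ω s) ↔ ∃ n, G n ω s ∨ H n ω s
  rw [h, h']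
  constructor
  · rintro (⟨m, hm⟩ | ⟨m, hm⟩)
    · exact ⟨m, Or.inl hm⟩
    · exact ⟨m, Or.inr hm⟩
  · rintro ⟨n, h1 | h1⟩
    · exact Or.inl ⟨n, h1⟩
    · exact Or.inr ⟨n, h1⟩

theorem const {A : Ω → Prop} (hA : MeasurableSet {ω | A ω}) : RSE fun ω _ => A ω :=
  (RCE.const hA).rse

theorem const' (A : Prop) : RSE fun (_ : Ω) _ => A := (RCE.const' A).rse

theorem le_time {τ : Ω → ℝ} (hτ : Measurable τ) : RSE fun ω s => τ ω ≤ s := (RCE.le_time hτ).rse

theorem time_le {τ : Ω → ℝ} (hτ : Measurable τ) : RSE fun ω s => s ≤ τ ω := (RCE.time_le hτ).rse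

theorem lt_time {τ : Ω → ℝ} (hτ : Measurable τ) : RSE fun ω s => τ ω < s := by
  refine ⟨fun n ω s => τ ω + 1 / ((n : ℝ) + 1) ≤ s, fun n => RCE.le_time (hτ.add_const _),
    fun ω s => ?_⟩
  constructor
  · intro h
    obtain ⟨n, hn⟩ := exists_nat_one_div_lt (sub_pos.2 h)
    exact ⟨n, by linarith⟩
  · rintro ⟨n, hn⟩
    have : (0 : ℝ) < 1 / ((n : ℝ) + 1) := by positivity
    linarith

theorem time_lt {τ : Ω → ℝ} (hτ : Measurable τ) : RSE fun ω s => s < τ ω := by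
  refine ⟨fun n ω s => s ≤ τ ω - 1 / ((n : ℝ) + 1), fun n => RCE.time_le (hτ.sub_const _),
    fun ω s => ?_⟩
  constructor
  · intro h
    obtain ⟨n, hn⟩ := exists_nat_one_div_lt (sub_pos.2 h)
    exact ⟨n, by linarith⟩
  · rintro ⟨n, hn⟩
    have : (0 : ℝ) < 1 / ((n : ℝ) + 1) := by positivity
    linarith

/-- Strict inequalities for random continuous functions. -/
theorem lt_of_CF0 {f : Ω → ℝ → ℝ} (hf : CF0 f) (c : ℝ) : RSE fun ω s => f ω s < c := by
  refine ⟨fun n ω s => f ω s ≤ c - 1 / ((n : ℝ) + 1), fun n => RCE.of_le hf _, fun ω s => ?_⟩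
  constructor
  · intro h
    obtain ⟨n, hn⟩ := exists_nat_one_div_lt (sub_pos.2 h)
    exact ⟨n, by linarith⟩
  · rintro ⟨n, hn⟩
    have : (0 : ℝ) < 1 / ((n : ℝ) + 1) := by positivity
    linarith

theorem gt_of_CF0 {f : Ω → ℝ → ℝ} (hf : CF0 f) (c : ℝ) : RSE fun ω s => c < f ω s := by
  have h1 := lt_of_CF0 ((CF0.const (Ω := Ω) (c := fun _ => (0 : ℝ)) measurable_const).sub hf) (-c)
  exact h1.congr fun ω s => by
    constructor <;> intro h <;> linarith

theorem comap {Ω' : Type*} [MeasurableSpace Ω'] (h : RSE E) {T : Ω' → Ω} (hT : Measurable T) :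
    RSE fun ω s => E (T ω) s := by
  obtain ⟨G, hG, h⟩ := h
  exact ⟨fun n ω s => G n (T ω) s, fun n => (hG n).comap hT, fun ω s => h (T ω) s⟩

theorem exists_finset {κ : Type*} (A : Finset κ) {E : κ → Ω → ℝ → Prop} (h : ∀ k ∈ A, RSE (E k)) :
    RSE fun ω s => ∃ k ∈ A, E k ω s := by
  classical
  induction A using Finset.induction_on with
  | empty => simpa using const' (Ω := Ω) False
  | insert a A ha ih =>
    have h1 := h a (Finset.mem_insert_self a A)
    have h2 := ih fun k hk => h k (Finset.mem_insert_of_mem hk)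
    refine (h1.or h2).congr fun ω s => ?_
    simp

theorem forall_finset {κ : Type*} (A : Finset κ) {E : κ → Ω → ℝ → Prop} (h : ∀ k ∈ A, RSE (E k)) :
    RSE fun ω s => ∀ k ∈ A, E k ω s := by
  classical
  induction A using Finset.induction_on with
  | empty => simpa using const' (Ω := Ω) True
  | insert a A ha ih =>
    have h1 := h a (Finset.mem_insert_self a A)
    have h2 := ih fun k hk => h k (Finset.mem_insert_of_mem hk)
    refine (h1.and h2).congr fun ω s => ?_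
    simp

theorem exists_finite {κ : Type*} [Finite κ] {E : κ → Ω → ℝ → Prop} (h : ∀ k, RSE (E k)) :
    RSE fun ω s => ∃ k, E k ω s := by
  have := Fintype.ofFinite κ
  refine (exists_finset Finset.univ (E := E) fun k _ => h k).congr fun ω s => ?_
  simp

theorem forall_finite {κ : Type*} [Finite κ] {E : κ → Ω → ℝ → Prop} (h : ∀ k, RSE (E k)) :
    RSE fun ω s => ∀ k, E k ω s := by
  have := Fintype.ofFinite κ
  refine (forall_finset Finset.univ (E := E) fun k _ => h k).congr fun ω s => ?_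
  simp

/-- Restriction to particles satisfying a fixed property. -/
theorem exists_finite_and {κ : Type*} [Finite κ] {q : κ → Prop} {E : κ → Ω → ℝ → Prop}
    (h : ∀ k, RSE (E k)) : RSE fun ω s => ∃ k, q k ∧ E k ω s :=
  exists_finite fun k => (const' (q k)).and (h k)

theorem existsIcc (h : RSE E) {α β : Ω → ℝ} (hα : Measurable α) (hβ : Measurable β) :
    MeasurableSet {ω | ∃ s ∈ Icc (α ω) (β ω), E ω s} := by
  obtain ⟨G, hG, h⟩ := h
  have : {ω | ∃ s ∈ Icc (α ω) (β ω), E ω s} = ⋃ n, {ω | ∃ s ∈ Icc (α ω) (β ω), G n ω s} := by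
    ext ω
    simp only [mem_iUnion, mem_ofPred_eq]
    constructor
    · rintro ⟨s, hs, hE⟩
      obtain ⟨n, hn⟩ := (h ω s).1 hE
      exact ⟨n, s, hs, hn⟩
    · rintro ⟨n, s, hs, hn⟩
      exact ⟨s, hs, (h ω s).2 ⟨n, hn⟩⟩
  rw [this]
  exact MeasurableSet.iUnion fun n => (hG n).existsIcc hα hβ

theorem existsIoc (h : RSE E) {α β : Ω → ℝ} (hα : Measurable α) (hβ : Measurable β) :
    MeasurableSet {ω | ∃ s ∈ Ioc (α ω) (β ω), E ω s} := by
  have h1 : {ω | ∃ s ∈ Ioc (α ω) (β ω), E ω s} =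
      {ω | ∃ s ∈ Icc (α ω) (β ω), α ω < s ∧ E ω s} := by
    ext ω
    constructor
    · rintro ⟨s, hs, h⟩; exact ⟨s, ⟨hs.1.le, hs.2⟩, hs.1, h⟩
    · rintro ⟨s, hs, h1, h⟩; exact ⟨s, ⟨h1, hs.2⟩, h⟩
  rw [h1]
  exact ((lt_time hα).and h).existsIcc hα hβ

theorem existsIco (h : RSE E) {α β : Ω → ℝ} (hα : Measurable α) (hβ : Measurable β) :
    MeasurableSet {ω | ∃ s ∈ Ico (α ω) (β ω), E ω s} := by
  have h1 : {ω | ∃ s ∈ Ico (α ω) (β ω), E ω s} =
      {ω | ∃ s ∈ Icc (α ω) (β ω), s < β ω ∧ E ω s} := by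
    ext ω
    constructor
    · rintro ⟨s, hs, h⟩; exact ⟨s, ⟨hs.1, hs.2.le⟩, hs.2, h⟩
    · rintro ⟨s, hs, h1, h⟩; exact ⟨s, ⟨hs.1, h1⟩, h⟩
  rw [h1]
  exact ((time_lt hβ).and h).existsIcc hα hβ

theorem existsIoo (h : RSE E) {α β : Ω → ℝ} (hα : Measurable α) (hβ : Measurable β) :
    MeasurableSet {ω | ∃ s ∈ Ioo (α ω) (β ω), E ω s} := by
  have h1 : {ω | ∃ s ∈ Ioo (α ω) (β ω), E ω s} =
      {ω | ∃ s ∈ Icc (α ω) (β ω), (α ω < s ∧ s < β ω) ∧ E ω s} := by
    ext ω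
    constructor
    · rintro ⟨s, hs, h⟩; exact ⟨s, ⟨hs.1.le, hs.2.le⟩, hs, h⟩
    · rintro ⟨s, hs, h1, h⟩; exact ⟨s, h1, h⟩
  rw [h1]
  exact (((lt_time hα).and (time_lt hβ)).and h).existsIcc hα hβ

/-- The time-closure from below: `∃ r ∈ [a, s], E r` is again sigma-closed. -/
theorem exists_before (h : RSE E) {a : Ω → ℝ} (ha : Measurable a) :
    RSE fun ω s => ∃ r, a ω ≤ r ∧ r ≤ s ∧ E ω r := by
  obtain ⟨G, hG, h⟩ := h
  refine ⟨fun n ω s => Fwd (fun r (_ : Unit) => G n ω r) (fun _ _ _ => False) (a ω) s (),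
    fun n => RCE.fwd (fun _ => hG n) (fun _ _ => RCE.const' False) ha (), fun ω s => ?_⟩
  constructor
  · rintro ⟨r, h1, h2, h3⟩
    obtain ⟨n, hn⟩ := (h ω r).1 h3
    exact ⟨n, .src h1 hn h2⟩
  · rintro ⟨n, hn⟩
    cases hn with
    | src h1 h2 h3 => exact ⟨_, h1, h3, (h ω _).2 ⟨n, h2⟩⟩
    | link _ h _ => exact h.elim

end RSE

end rse

/-! ### Closures -/

section fwd

variable {Ω : Type*} [MeasurableSpace Ω] {ι : Type*} [Finite ι]
variable {S : Ω → ℝ → ι → Prop} {L : Ω → ℝ → ι → ι → Prop}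

/-- **Forward closures** of random sigma-closed sources and links are random sigma-closed events. -/
theorem RSE.fwd (hS : ∀ k, RSE fun ω s => S ω s k) (hL : ∀ l k, RSE fun ω s => L ω s l k)
    {a : Ω → ℝ} (ha : Measurable a) (k : ι) : RSE fun ω s => Fwd (S ω) (L ω) (a ω) s k := by
  choose G hG hGm hS' using fun k => (hS k).exists_mono
  choose H hH hHm hL' using fun l k => (hL l k).exists_mono
  refine ⟨fun n ω s => Fwd (fun r k => G k n ω r) (fun r l k => H l k n ω r) (a ω) s k,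
    fun n => RCE.fwd (S := fun ω r k => G k n ω r) (L := fun ω r l k => H l k n ω r)
      (fun k => hG k n) (fun l k => hH l k n) ha k, fun ω s => ?_⟩
  have hmono : ∀ m n, m ≤ n → ∀ {s k}, Fwd (fun r k => G k m ω r) (fun r l k => H l k m ω r) (a ω) s k →
      Fwd (fun r k => G k n ω r) (fun r l k => H l k n ω r) (a ω) s k := by
    intro m n hmn s k h
    exact h.imp le_rfl (fun r k _ h => hGm k m n hmn ω r h) (fun r l k _ h => hHm l k m n hmn ω r h)
  constructor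
  · intro h
    induction h with
    | @src r s k h1 h2 h3 =>
      obtain ⟨n, hn⟩ := (hS' k ω r).1 h2
      exact ⟨n, .src h1 hn h3⟩
    | @link r s l k h hc hs ih =>
      obtain ⟨n, hn⟩ := ih
      obtain ⟨m, hm⟩ := (hL' l k ω r).1 hc
      refine ⟨Max.max m n, .link (hmono _ _ (le_max_right m n) hn) ?_ hs⟩
      exact hHm l k _ _ (le_max_left m n) ω r hm
  · rintro ⟨n, hn⟩
    exact hn.imp le_rfl (fun r k _ h => (hS' k ω r).2 ⟨n, h⟩)
      (fun r l k _ h => (hL' l k ω r).2 ⟨n, h⟩)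

variable {C : Ω → ℝ → ι → ι → Prop}

/-- Backward clusters as functions of the root time. -/
theorem RSE.past_root (hC : ∀ j k, RSE fun ω s => C ω s j k) {σ : Ω → ℝ} (hσ : Measurable σ)
    (i k : ι) : RSE fun ω t => Past (C ω) t i (σ ω) k := by
  have h1 := RSE.fwd (S := fun (_ : Ω) _ l => l = k) (L := fun ω r l m => C ω r m l)
    (fun l => RSE.const' (l = k)) (fun l m => hC m l) hσ i
  exact h1.congr fun ω t => past_iff_fwd

/-- Joint measurability of the backward cluster (root time, observation time, `ω`). -/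
theorem RSE.measurableSet_past3 (hC : ∀ j k, RSE fun ω s => C ω s j k) (i k : ι) :
    MeasurableSet {p : ℝ × ℝ × Ω | Past (C p.2.2) p.1 i p.2.1 k} := by
  have h1 := RSE.past_root (Ω := ℝ × Ω) (C := fun p => C p.2)
    (fun j k => (hC j k).comap measurable_snd) measurable_fst i k
  exact h1.joint

/-- Backward clusters at random root and observation times. -/
theorem RSE.measurableSet_past (hC : ∀ j k, RSE fun ω s => C ω s j k) {τ σ : Ω → ℝ}
    (hτ : Measurable τ) (hσ : Measurable σ) (i k : ι) :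
    MeasurableSet {ω | Past (C ω) (τ ω) i (σ ω) k} :=
  (RSE.past_root hC hσ i k).measurableSet_at hτ

/-- Backward clusters as functions of the observation time. -/
theorem RSE.past_obs (hC : ∀ j k, RSE fun ω s => C ω s j k) {τ : Ω → ℝ} (hτ : Measurable τ)
    (i k : ι) : RSE fun ω s => Past (C ω) (τ ω) i s k := by
  -- approximation of the contact relation by closed relations
  choose H hH hHm hC' using fun j k => (hC j k).exists_mono
  refine ⟨fun n ω s => Past (fun r j k => H j k n ω r) (τ ω) i s k,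
    fun n => RCE.past_obs (C := fun ω r j k => H j k n ω r) (fun j k => hH j k n) hτ i k,
    fun ω s => ?_⟩
  constructor
  · intro h
    induction h with
    | root h => exact ⟨0, .root h⟩
    | @step s s' j l h hc hs ih =>
      obtain ⟨n, hn⟩ := ih
      obtain ⟨m, hm⟩ := (hC' j l ω s').1 hc
      refine ⟨Max.max m n, .step (j := j) (s' := s') (hn.mono_rel fun r j k h => ?_) ?_ hs⟩
      · exact hHm j k _ _ (le_max_right m n) ω r h
      · exact hHm j l _ _ (le_max_left m n) ω s' hm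
  · rintro ⟨n, hn⟩
    exact hn.mono_rel fun r j k h => (hC' j k ω r).2 ⟨n, h⟩

end fwd

/-! ### First times -/

section first

variable {Ω : Type*} [MeasurableSpace Ω]

theorem RSE.measurable_first {E : Ω → ℝ → Prop} (hE : RSE E) {a T : Ω → ℝ} (ha : Measurable a)
    (hT : Measurable T) : Measurable fun ω => first (a ω) (T ω) (E ω) := by
  refine measurable_of_Iio fun c => ?_
  have key : (fun ω => first (a ω) (T ω) (E ω)) ⁻¹' Iio c =
      {ω | ∃ r ∈ Icc (a ω) (T ω), r < c ∧ E ω r} ∪ ({ω | T ω + 1 < c} ∩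
        {ω | ∃ r ∈ Icc (a ω) (T ω), E ω r}ᶜ) := by
    ext ω
    simp only [mem_preimage, mem_Iio, mem_union, mem_ofPred_eq, mem_inter_iff, mem_compl_iff]
    by_cases hex : ∃ s ∈ Icc (a ω) (T ω), E ω s
    · have hbd : BddBelow {s | s ∈ Icc (a ω) (T ω) ∧ E ω s} := ⟨a ω, fun s hs => hs.1.1⟩
      have hne : {s | s ∈ Icc (a ω) (T ω) ∧ E ω s}.Nonempty := hex
      have h1 : first (a ω) (T ω) (E ω) = sInf {s | s ∈ Icc (a ω) (T ω) ∧ E ω s} := by
        unfold first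
        rw [if_pos hex]
      rw [h1]
      constructor
      · intro h
        obtain ⟨s, hs, hsc⟩ := exists_lt_of_csInf_lt hne h
        exact Or.inl ⟨s, hs.1, hsc, hs.2⟩
      · rintro (⟨r, hr, hrc, hEr⟩ | h)
        · exact (csInf_le hbd ⟨hr, hEr⟩).trans_lt hrc
        · exact absurd hex h.2
    · have h1 : first (a ω) (T ω) (E ω) = T ω + 1 := by
        unfold first
        rw [if_neg hex]
      have h2 : ¬ ∃ r ∈ Icc (a ω) (T ω), r < c ∧ E ω r := by
        rintro ⟨r, hr, _, h⟩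
        exact hex ⟨r, hr, h⟩
      rw [h1]
      simp only [h2, false_or, hex, not_false_eq_true, and_true]
  rw [key]
  refine MeasurableSet.union ?_ ((measurableSet_lt (hT.add_const 1) measurable_const).inter
    (hE.existsIcc ha hT).compl)
  exact ((RSE.time_lt (measurable_const (a := c))).and hE).existsIcc ha hT

end first

/-! ### Marked sizes -/

section msize

variable {Ω : Type*} [MeasurableSpace Ω] {ι : Type*} [Fintype ι]

theorem RSE.lt_msz {C : Ω → ℝ → ι → ι → Prop} (hC : ∀ j k, RSE fun ω s => C ω s j k)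
    {m : Ω → ι → ℕ} (hm : ∀ k, Measurable fun ω => m ω k) {σ : Ω → ℝ} (hσ : Measurable σ)
    (i : ι) (K : ℕ) : RSE fun ω t => K < msz (C ω) (m ω) (σ ω) t i := by
  refine (RSE.exists_finite (κ := Finset ι) (E := fun A ω t =>
    (∀ k ∈ A, Past (C ω) t i (σ ω) k) ∧ K < ∑ k ∈ A, m ω k) fun A => ?_).congr
    fun ω t => lt_msz_iff _ _ _ _ _ _
  refine (RSE.forall_finset A fun k _ => RSE.past_root hC hσ i k).and (RSE.const ?_)
  exact measurableSet_lt measurable_const (Finset.measurable_sum A fun k _ => hm k)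

theorem RSE.measurable_msz {C : Ω → ℝ → ι → ι → Prop} (hC : ∀ j k, RSE fun ω s => C ω s j k)
    {m : Ω → ι → ℕ} (hm : ∀ k, Measurable fun ω => m ω k) {σ τ : Ω → ℝ} (hσ : Measurable σ)
    (hτ : Measurable τ) (i : ι) : Measurable fun ω => msz (C ω) (m ω) (σ ω) (τ ω) i := by
  classical
  unfold msz
  refine Finset.measurable_sum _ fun k _ => Measurable.ite ?_ (hm k) measurable_const
  exact (RSE.past_root hC hσ i k).measurableSet_at hτ

end msize

/-! ### Binding to `CausalGen_291` -/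

section gen

open Crest.Agent.R122.CausalGen291

variable {ι₁ ι₂ κ : Type} {X : Type*}

/-- 291's forward closure is a forward closure `Fwd`. -/
theorem fut_iff_fwd {C₁ : ℝ → ι₁ → ι₁ → Prop} {C₂ : ℝ → ι₂ → ι₂ → Prop}
    {z₁ : ℝ → ι₁ → X} {z₂ : ℝ → ι₂ → X} {e₁ : κ → ι₁} {e₂ : κ → ι₂} {s : ℝ} {k : κ} :
    Fut C₁ z₁ C₂ z₂ e₁ e₂ s k ↔ Fwd (fun r k => z₁ 0 (e₁ k) ≠ z₂ 0 (e₂ k) ∨
      ((∃ j, j ∉ range e₁ ∧ C₁ r j (e₁ k)) ∨ ∃ j, j ∉ range e₂ ∧ C₂ r j (e₂ k)))
      (fun r l k => C₁ r (e₁ l) (e₁ k) ∨ C₂ r (e₂ l) (e₂ k)) 0 s k := by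
  constructor
  · intro h
    induction h with
    | init h hs => exact .src le_rfl (Or.inl h) hs
    | new₁ j hj hc h0 hs => exact .src h0 (Or.inr (Or.inl ⟨j, hj, hc⟩)) hs
    | new₂ j hj hc h0 hs => exact .src h0 (Or.inr (Or.inr ⟨j, hj, hc⟩)) hs
    | chain₁ _ hc hs ih => exact .link ih (Or.inl hc) hs
    | chain₂ _ hc hs ih => exact .link ih (Or.inr hc) hs
  · intro h
    induction h with
    | src ha h hs =>
      rcases h with h | ⟨j, hj, hc⟩ | ⟨j, hj, hc⟩
      · exact .init h (ha.trans hs)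
      · exact .new₁ j hj hc ha hs
      · exact .new₂ j hj hc ha hs
    | link _ hc hs ih =>
      rcases hc with hc | hc
      · exact .chain₁ ih hc hs
      · exact .chain₂ ih hc hs

variable {Ω : Type*} [MeasurableSpace Ω] [Finite ι₁] [Finite ι₂] [Finite κ]
variable {C₁ : Ω → ℝ → ι₁ → ι₁ → Prop} {C₂ : Ω → ℝ → ι₂ → ι₂ → Prop}
variable {z₁ : Ω → ℝ → ι₁ → X} {z₂ : Ω → ℝ → ι₂ → X} {e₁ : κ → ι₁} {e₂ : κ → ι₂}

/-- The influenced set is a random sigma-closed event. -/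
theorem RSE.fut (hC₁ : ∀ j k, RSE fun ω s => C₁ ω s j k) (hC₂ : ∀ j k, RSE fun ω s => C₂ ω s j k)
    (hz : ∀ k, MeasurableSet {ω | z₁ ω 0 (e₁ k) = z₂ ω 0 (e₂ k)}) (k : κ) :
    RSE fun ω s => Fut (C₁ ω) (z₁ ω) (C₂ ω) (z₂ ω) e₁ e₂ s k := by
  refine (RSE.fwd (S := fun ω r k => z₁ ω 0 (e₁ k) ≠ z₂ ω 0 (e₂ k) ∨
      ((∃ j, j ∉ range e₁ ∧ C₁ ω r j (e₁ k)) ∨ ∃ j, j ∉ range e₂ ∧ C₂ ω r j (e₂ k)))
      (L := fun ω r l k => C₁ ω r (e₁ l) (e₁ k) ∨ C₂ ω r (e₂ l) (e₂ k))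
      (a := fun _ => 0) ?_ ?_ measurable_const k).congr fun ω s => fut_iff_fwd
  · intro k
    exact (RSE.const (hz k).compl).or ((RSE.exists_finite_and fun j => hC₁ j (e₁ k)).or
      (RSE.exists_finite_and fun j => hC₂ j (e₂ k)))
  · exact fun l k => (hC₁ _ _).or (hC₂ _ _)

variable {P₁ : Ω → ℝ → ι₁ → Prop} {P₂ : Ω → ℝ → ι₂ → Prop}

/-- Touches are random sigma-closed events. -/
theorem RSE.touched (hC₁ : ∀ j k, RSE fun ω s => C₁ ω s j k)
    (hC₂ : ∀ j k, RSE fun ω s => C₂ ω s j k)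
    (hz : ∀ k, MeasurableSet {ω | z₁ ω 0 (e₁ k) = z₂ ω 0 (e₂ k)})
    (hP₁ : ∀ j, RSE fun ω s => P₁ ω s j) (hP₂ : ∀ j, RSE fun ω s => P₂ ω s j) :
    RSE fun ω s => Touched (C₁ ω) (z₁ ω) (C₂ ω) (z₂ ω) e₁ e₂ (P₁ ω) (P₂ ω) s := by
  unfold Touched
  exact (RSE.exists_finite fun k => (RSE.fut hC₁ hC₂ hz k).and ((hP₁ _).or (hP₂ _))).or
    ((RSE.exists_finite_and fun j => hP₁ j).or (RSE.exists_finite_and fun j => hP₂ j))

omit [Finite ι₁] [Finite ι₂] [Finite κ] [MeasurableSpace Ω] in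
theorem theta_eq_first {C₁ : ℝ → ι₁ → ι₁ → Prop} {C₂ : ℝ → ι₂ → ι₂ → Prop}
    {z₁ : ℝ → ι₁ → X} {z₂ : ℝ → ι₂ → X} {a T : ℝ} {P₁ : ℝ → ι₁ → Prop} {P₂ : ℝ → ι₂ → Prop} :
    CausalGen291.theta C₁ z₁ C₂ z₂ e₁ e₂ a T P₁ P₂ =
      first a T (Touched C₁ z₁ C₂ z₂ e₁ e₂ P₁ P₂) := rfl

/-- **The touch time is measurable.** -/
theorem measurable_theta (hC₁ : ∀ j k, RSE fun ω s => C₁ ω s j k)
    (hC₂ : ∀ j k, RSE fun ω s => C₂ ω s j k)
    (hz : ∀ k, MeasurableSet {ω | z₁ ω 0 (e₁ k) = z₂ ω 0 (e₂ k)})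
    (hP₁ : ∀ j, RSE fun ω s => P₁ ω s j) (hP₂ : ∀ j, RSE fun ω s => P₂ ω s j)
    {a T : Ω → ℝ} (ha : Measurable a) (hT : Measurable T) :
    Measurable fun ω => CausalGen291.theta (C₁ ω) (z₁ ω) (C₂ ω) (z₂ ω) e₁ e₂ (a ω) (T ω)
      (P₁ ω) (P₂ ω) := by
  simp only [theta_eq_first]
  exact (RSE.touched hC₁ hC₂ hz hP₁ hP₂).measurable_first ha hT

end gen

end Crest.Agent.R122.MeasE416
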