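import Mathlib
import Crest.Agent.R122.Quench1_815

/-!
helper815, row 122, block Q, part 0b: the σ-finite law of large numbers with varying weights.
-/

set_option autoImplicit false
open MeasureTheory Set Filter
open scoped ENNReal Topology

noncomputable section

namespace Crest.Agent.R122.Quench815

open Crest.Agent.R122.LLN815

theorem absd_eq_tsub {a b : ℝ≥0∞} (h : b ≤ a) : absd a b = a - b := by
  unfold absd
  rw [tsub_eq_zero_of_le h, add_zero]

theorem absd_eq_tsub' {a b : ℝ≥0∞} (h : a ≤ b) : absd a b = b - a := by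
  rw [absd_comm, absd_eq_tsub h]

theorem absd_sum_le {α : Type*} (s : Finset α) (f g : α → ℝ≥0∞) :
    absd (∑ a ∈ s, f a) (∑ a ∈ s, g a) ≤ ∑ a ∈ s, absd (f a) (g a) := by
  rw [absd_le_iff, ← Finset.sum_add_distrib, ← Finset.sum_add_distrib]
  exact ⟨Finset.sum_le_sum fun a _ => le_add_absd _ _,
    Finset.sum_le_sum fun a _ => le_add_absd' _ _⟩

/-- the weight can be changed at the cost of its `L¹` distance, `H ≤ 1`. -/
theorem absd_weight_le {Z : Type*} [MeasurableSpace Z] (ζ : Measure Z) {g g' H : Z → ℝ≥0∞}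
    (hg : Measurable g) (hg' : Measurable g') (hH : Measurable H) (hH1 : ∀ z, H z ≤ 1) :
    absd (∫⁻ z, g z * H z ∂ζ) (∫⁻ z, g' z * H z ∂ζ) ≤ ∫⁻ z, absd (g z) (g' z) ∂ζ := by
  refine (absd_lintegral_le ζ (hg.mul hH) (hg'.mul hH)).trans (lintegral_mono fun z => ?_)
  have h1 : absd (g z * H z) (g' z * H z) ≤ H z * absd (g z) (g' z) := by
    rw [mul_comm (g z), mul_comm (g' z)]
    exact absd_mul_le _ _ _
  exact h1.trans (mul_le_of_le_one_left bot_le (hH1 z))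

section Sigma

variable {ι : Type*} {Ω : ι → Type*} [∀ i, MeasurableSpace (Ω i)] {P : ∀ i, Measure (Ω i)}
  [∀ i, IsProbabilityMeasure (P i)] {Y Z : Type*} [MeasurableSpace Y] [MeasurableSpace Z]

/-- **Quenched law of large numbers**, σ-finite base and fibre, weights converging in `L¹`. -/
theorem lln {l : Filter ι} [l.IsCountablyGenerated] (μ : Measure Y) [SFinite μ]
    (ζ : Measure Z) [SigmaFinite ζ]
    {B : ℕ → Set Y} (hBm : ∀ n, MeasurableSet (B n)) (hBfin : ∀ n, μ (B n) ≠ ∞)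
    (hBmono : Monotone B) (hBU : ∀ y, ∃ n, y ∈ B n)
    {g : Y → Z → ℝ≥0∞} (hg : Measurable (Function.uncurry g))
    (hgi : ∫⁻ y, ∫⁻ z, g y z ∂ζ ∂μ ≠ ∞)
    {G : ι → Y → Z → ℝ≥0∞} (hG : ∀ i, Measurable (Function.uncurry (G i)))
    (hGlim : Tendsto (fun i => ∫⁻ y, ∫⁻ z, absd (G i y z) (g y z) ∂ζ ∂μ) l (𝓝 0))
    {H : ∀ i, Ω i → Y → Z → ℝ≥0∞}
    (hH : ∀ i, Measurable fun p : (Ω i × Y) × Z => H i p.1.1 p.1.2 p.2)
    (hH1 : ∀ i ω y z, H i ω y z ≤ 1)
    {h : Y → Z → ℝ≥0∞} (hh : Measurable (Function.uncurry h)) (hh1 : ∀ y z, h y z ≤ 1)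
    (A1 : ∀ n, ∀ᵐ z ∂ζ, Tendsto (fun i => ∫⁻ y in B n, absd (∫⁻ ω, H i ω y z ∂P i) (h y z) ∂μ)
      l (𝓝 0))
    (A2 : ∀ n, ∀ᵐ z ∂ζ, ∀ᵐ z' ∂ζ,
      Tendsto (fun i => ∫⁻ y in B n, absd (∫⁻ ω, H i ω y z * H i ω y z' ∂P i)
      (h y z * h y z') ∂μ) l (𝓝 0)) :
    Tendsto (fun i => ∫⁻ ω, ∫⁻ y, absd (∫⁻ z, G i y z * H i ω y z ∂ζ)
      (∫⁻ z, g y z * h y z ∂ζ) ∂μ ∂P i) l (𝓝 0) := by
  -- truncations
  set C : ℕ → Set Z := fun n => spanningSets ζ n with hC
  have hCm : ∀ n, MeasurableSet (C n) := fun n => measurableSet_spanningSets ζ n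
  set t : ℕ → Y → Z → ℝ≥0∞ := fun n y z =>
    (B n ×ˢ C n).indicator (fun q : Y × Z => min (g q.1 q.2) n) (y, z) with ht
  have htm : ∀ n, Measurable (Function.uncurry (t n)) := fun n =>
    (hg.min measurable_const).indicator ((hBm n).prod (hCm n))
  have htle : ∀ n y z, t n y z ≤ g y z := fun n y z =>
    (indicator_le_self' (fun _ _ => bot_le) _).trans (min_le_left _ _)
  have htM : ∀ n y z, t n y z ≤ n := fun n y z =>
    (indicator_le_self' (fun _ _ => bot_le) _).trans (min_le_right _ _)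
  have htB : ∀ n y z, y ∉ B n → t n y z = 0 := fun n y z hy =>
    indicator_of_notMem (fun h => hy h.1) _
  have htC : ∀ n y z, z ∉ C n → t n y z = 0 := fun n y z hz =>
    indicator_of_notMem (fun h => hz h.2) _
  have htmono : ∀ y z, Monotone fun n => t n y z := by
    intro y z n m hnm
    show t n y z ≤ t m y z
    by_cases hy : (y, z) ∈ B n ×ˢ C n
    · have hy' : (y, z) ∈ B m ×ˢ C m :=
        ⟨hBmono hnm hy.1, monotone_spanningSets ζ hnm hy.2⟩
      rw [ht]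
      show indicator _ _ _ ≤ indicator _ _ _
      rw [indicator_of_mem hy, indicator_of_mem hy']
      exact min_le_min le_rfl (by exact_mod_cast hnm)
    · rw [show t n y z = 0 from indicator_of_notMem hy _]
      exact bot_le
  have htsup : ∀ y z, ⨆ n, t n y z = g y z := by
    intro y z
    refine le_antisymm (iSup_le fun n => htle n y z) ?_
    obtain ⟨n1, hn1⟩ := hBU y
    have hz : z ∈ ⋃ n, C n := by rw [hC, iUnion_spanningSets]; trivial
    obtain ⟨n2, hn2⟩ := mem_iUnion.1 hz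
    have hmem : ∀ n, max n1 n2 ≤ n → t n y z = min (g y z) n := fun n hn =>
      indicator_of_mem (s := B n ×ˢ C n) (a := (y, z)) ⟨hBmono ((le_max_left _ _).trans hn) hn1,
        monotone_spanningSets ζ ((le_max_right _ _).trans hn) hn2⟩ _
    rw [le_iSup_iff]
    intro b hb
    by_contra hlt
    push Not at hlt
    obtain ⟨c, hc1, hc2⟩ := exists_between hlt
    obtain ⟨k, hk⟩ := ENNReal.exists_nat_gt (ne_top_of_lt hc2)
    have h1 := hb (max (max n1 n2) k)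
    rw [hmem _ (le_max_left _ _)] at h1
    have h2 : c ≤ min (g y z) ((max (max n1 n2) k : ℕ) : ℝ≥0∞) :=
      le_min hc2.le (hk.le.trans (by exact_mod_cast le_max_right _ _))
    exact absurd (h2.trans h1) (not_le.2 hc1)
  have htI : ⨆ n, ∫⁻ y, ∫⁻ z, t n y z ∂ζ ∂μ = ∫⁻ y, ∫⁻ z, g y z ∂ζ ∂μ := by
    have e1 := lintegral_iSup (μ := μ) (f := fun n y => ∫⁻ z, t n y z ∂ζ)
      (fun n => (htm n).lintegral_prod_right')
      (fun n m hnm y => lintegral_mono fun z => htmono y z hnm)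
    rw [← e1]
    refine lintegral_congr fun y => ?_
    have e2 := lintegral_iSup (μ := ζ) (f := fun n z => t n y z)
      (fun n => (htm n).comp measurable_prodMk_left) (fun n m hnm z => htmono y z hnm)
    rw [← e2]
    exact lintegral_congr fun z => htsup y z
  have htlim : Tendsto (fun n => ∫⁻ y, ∫⁻ z, t n y z ∂ζ ∂μ) atTop
      (𝓝 (∫⁻ y, ∫⁻ z, g y z ∂ζ ∂μ)) := by
    rw [← htI]
    exact tendsto_atTop_iSup fun n m hnm => lintegral_mono fun y =>
      lintegral_mono fun z => htmono y z hnm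
  have hmain : ∀ n, Tendsto (fun i => ∫⁻ ω, ∫⁻ y, absd (∫⁻ z, t n y z * H i ω y z ∂ζ)
      (∫⁻ z, t n y z * h y z ∂ζ) ∂μ ∂P i) l (𝓝 0) := by
    intro n
    haveI : IsFiniteMeasure (μ.restrict (B n)) := isFiniteMeasure_restrict.2 (hBfin n)
    haveI : IsFiniteMeasure (ζ.restrict (C n)) :=
      isFiniteMeasure_restrict.2 (measure_spanningSets_lt_top ζ n).ne
    have key := lln_fin (P := P) (l := l) (μ.restrict (B n)) (ζ.restrict (C n)) (htm n)
      (ENNReal.natCast_ne_top n) (htM n) hH hH1 hh hh1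
      (ae_restrict_of_ae (A1 n)) (ae_restrict_of_ae ((A2 n).mono fun z hz => ae_restrict_of_ae hz))
    have e1 : ∀ (y : Y) (F : Z → ℝ≥0∞), ∫⁻ z, t n y z * F z ∂(ζ.restrict (C n)) =
        ∫⁻ z, t n y z * F z ∂ζ := by
      intro y F
      rw [← lintegral_indicator (hCm n)]
      refine lintegral_congr fun z => ?_
      by_cases hz : z ∈ C n
      · rw [indicator_of_mem hz]
      · rw [indicator_of_notMem hz, htC n y z hz, zero_mul]
    have e2 : ∀ (F : Y → Z → ℝ≥0∞), ∫⁻ y in B n, absd (∫⁻ z, t n y z * F y z ∂ζ)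
        (∫⁻ z, t n y z * h y z ∂ζ) ∂μ = ∫⁻ y, absd (∫⁻ z, t n y z * F y z ∂ζ)
        (∫⁻ z, t n y z * h y z ∂ζ) ∂μ := by
      intro F
      rw [← lintegral_indicator (hBm n)]
      refine lintegral_congr fun y => ?_
      by_cases hy : y ∈ B n
      · rw [indicator_of_mem hy]
      · rw [indicator_of_notMem hy]
        simp [htB n y _ hy]
    simp_rw [e1, e2] at key
    exact key
  rw [ENNReal.tendsto_nhds_zero]
  intro ε hε
  rcases eq_or_ne ε ∞ with rfl | hε'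
  · exact Eventually.of_forall fun _ => le_top
  have hε4 : 0 < ε / 4 := ENNReal.div_pos hε.ne' (by simp)
  -- choose the truncation
  have hex : ∃ n, ∫⁻ y, ∫⁻ z, g y z ∂ζ ∂μ ≤ (∫⁻ y, ∫⁻ z, t n y z ∂ζ ∂μ) + ε / 4 := by
    rcases eq_or_ne (∫⁻ y, ∫⁻ z, g y z ∂ζ ∂μ) 0 with h0 | h0
    · exact ⟨0, by rw [h0]; exact bot_le⟩
    have hlt : (∫⁻ y, ∫⁻ z, g y z ∂ζ ∂μ) - ε / 4 < ∫⁻ y, ∫⁻ z, g y z ∂ζ ∂μ :=
      ENNReal.sub_lt_self hgi h0 hε4.ne'
    obtain ⟨n, hn⟩ := (htlim.eventually (lt_mem_nhds hlt)).exists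
    exact ⟨n, tsub_le_iff_right.1 hn.le⟩
  obtain ⟨n, hn⟩ := hex
  have htfin : ∫⁻ y, ∫⁻ z, t n y z ∂ζ ∂μ ≠ ∞ :=
    ne_top_of_le_ne_top hgi (lintegral_mono fun y => lintegral_mono fun z => htle n y z)
  have hdiff : ∫⁻ y, ∫⁻ z, absd (g y z) (t n y z) ∂ζ ∂μ ≤ ε / 4 := by
    have h1 : (∫⁻ y, ∫⁻ z, t n y z ∂ζ ∂μ) + ∫⁻ y, ∫⁻ z, absd (g y z) (t n y z) ∂ζ ∂μ =
        ∫⁻ y, ∫⁻ z, g y z ∂ζ ∂μ := by
      have hmt : Measurable fun y => ∫⁻ z, t n y z ∂ζ := (htm n).lintegral_prod_right'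
      rw [← lintegral_add_left hmt]
      refine lintegral_congr fun y => ?_
      have hmt' : Measurable fun z => t n y z := (htm n).comp measurable_prodMk_left
      rw [← lintegral_add_left hmt']
      refine lintegral_congr fun z => ?_
      rw [absd_eq_tsub (htle n y z)]
      exact add_tsub_cancel_of_le (htle n y z)
    rw [← h1] at hn
    exact (ENNReal.add_le_add_iff_left htfin).1 hn
  filter_upwards [(ENNReal.tendsto_nhds_zero.1 (hmain n)) (ε / 4) hε4,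
    (ENNReal.tendsto_nhds_zero.1 hGlim) (ε / 4) hε4] with i hi hi'
  have hgy : ∀ y, Measurable (g y) := fun y => hg.comp measurable_prodMk_left
  have hty : ∀ y, Measurable (t n y) := fun y => (htm n).comp measurable_prodMk_left
  have hGy : ∀ y, Measurable (G i y) := fun y => (hG i).comp measurable_prodMk_left
  have hhy : ∀ y, Measurable (h y) := fun y => hh.comp measurable_prodMk_left
  have hHy : ∀ ω y, Measurable (H i ω y) := fun ω y =>
    (hH i).comp (((measurable_const (a := ω)).prodMk (measurable_const (a := y))).prodMk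
      measurable_id)
  have hpt : ∀ ω y, absd (∫⁻ z, G i y z * H i ω y z ∂ζ) (∫⁻ z, g y z * h y z ∂ζ) ≤
      absd (∫⁻ z, t n y z * H i ω y z ∂ζ) (∫⁻ z, t n y z * h y z ∂ζ) +
        ((∫⁻ z, absd (G i y z) (g y z) ∂ζ) + ((∫⁻ z, absd (g y z) (t n y z) ∂ζ) +
          (∫⁻ z, absd (g y z) (t n y z) ∂ζ))) := by
    intro ω y
    have a1 := absd_weight_le ζ (hGy y) (hgy y) (hHy ω y) (hH1 i ω y)
    have a2 := absd_weight_le ζ (hgy y) (hty y) (hHy ω y) (hH1 i ω y)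
    have a3 := absd_weight_le ζ (hgy y) (hty y) (hhy y) (hh1 y)
    rw [absd_comm] at a3
    calc absd (∫⁻ z, G i y z * H i ω y z ∂ζ) (∫⁻ z, g y z * h y z ∂ζ)
        ≤ absd (∫⁻ z, G i y z * H i ω y z ∂ζ) (∫⁻ z, g y z * H i ω y z ∂ζ) +
          absd (∫⁻ z, g y z * H i ω y z ∂ζ) (∫⁻ z, g y z * h y z ∂ζ) := absd_triangle _ _ _
      _ ≤ absd (∫⁻ z, G i y z * H i ω y z ∂ζ) (∫⁻ z, g y z * H i ω y z ∂ζ) +
          (absd (∫⁻ z, g y z * H i ω y z ∂ζ) (∫⁻ z, t n y z * H i ω y z ∂ζ) +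
          absd (∫⁻ z, t n y z * H i ω y z ∂ζ) (∫⁻ z, g y z * h y z ∂ζ)) := by
            gcongr; exact absd_triangle _ _ _
      _ ≤ absd (∫⁻ z, G i y z * H i ω y z ∂ζ) (∫⁻ z, g y z * H i ω y z ∂ζ) +
          (absd (∫⁻ z, g y z * H i ω y z ∂ζ) (∫⁻ z, t n y z * H i ω y z ∂ζ) +
          (absd (∫⁻ z, t n y z * H i ω y z ∂ζ) (∫⁻ z, t n y z * h y z ∂ζ) +
          absd (∫⁻ z, t n y z * h y z ∂ζ) (∫⁻ z, g y z * h y z ∂ζ))) := by
            gcongr; exact absd_triangle _ _ _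
      _ ≤ (∫⁻ z, absd (G i y z) (g y z) ∂ζ) + ((∫⁻ z, absd (g y z) (t n y z) ∂ζ) +
          (absd (∫⁻ z, t n y z * H i ω y z ∂ζ) (∫⁻ z, t n y z * h y z ∂ζ) +
          (∫⁻ z, absd (g y z) (t n y z) ∂ζ))) := by gcongr
      _ = _ := by ring
  have hm1 : Measurable fun y => ∫⁻ z, absd (G i y z) (g y z) ∂ζ :=
    (measurable_absd (hG i) hg).lintegral_prod_right'
  have hm2 : Measurable fun y => ∫⁻ z, absd (g y z) (t n y z) ∂ζ :=
    (measurable_absd hg (htm n)).lintegral_prod_right'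
  calc ∫⁻ ω, ∫⁻ y, absd (∫⁻ z, G i y z * H i ω y z ∂ζ) (∫⁻ z, g y z * h y z ∂ζ) ∂μ ∂P i
      ≤ ∫⁻ ω, ((∫⁻ y, absd (∫⁻ z, t n y z * H i ω y z ∂ζ) (∫⁻ z, t n y z * h y z ∂ζ) ∂μ) +
          (ε / 4 + (ε / 4 + ε / 4))) ∂P i := by
        refine lintegral_mono fun ω => ?_
        refine (lintegral_mono fun y => hpt ω y).trans ?_
        have hm3 : Measurable fun y => (∫⁻ z, absd (g y z) (t n y z) ∂ζ) +
            (∫⁻ z, absd (g y z) (t n y z) ∂ζ) := hm2.add hm2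
        have hm4 : Measurable fun y => (∫⁻ z, absd (G i y z) (g y z) ∂ζ) +
            ((∫⁻ z, absd (g y z) (t n y z) ∂ζ) + (∫⁻ z, absd (g y z) (t n y z) ∂ζ)) :=
          hm1.add hm3
        rw [lintegral_add_right _ hm4, lintegral_add_left hm1, lintegral_add_left hm2]
        gcongr
    _ = (∫⁻ ω, ∫⁻ y, absd (∫⁻ z, t n y z * H i ω y z ∂ζ) (∫⁻ z, t n y z * h y z ∂ζ) ∂μ ∂P i) +
          (ε / 4 + (ε / 4 + ε / 4)) := by
        rw [lintegral_add_right _ measurable_const]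
        simp
    _ ≤ ε / 4 + (ε / 4 + (ε / 4 + ε / 4)) := by gcongr
    _ = ε := by
        have h2 : ε / 4 + ε / 4 = ε / 2 := by
          rw [← ENNReal.add_div, ← two_mul, show (4 : ℝ≥0∞) = 2 * 2 by norm_num,
            ENNReal.mul_div_mul_left _ _ (by simp) (by simp)]
        calc ε / 4 + (ε / 4 + (ε / 4 + ε / 4)) = (ε / 4 + ε / 4) + (ε / 4 + ε / 4) := by ring
          _ = ε / 2 + ε / 2 := by rw [h2]
          _ = ε := ENNReal.add_halves ε

end Sigma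

end Crest.Agent.R122.Quench815

end
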