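import Crest.Agent.R122.QDensA_815
import Crest.Agent.R122.Quench2_815

/-!
helper815, row 122, block Q (quenched densities), part 1b: `L¹` convergence as `ε → 0` of the weight
`1[Valid] wt ∏ f₀(lines) φ` of a collision tree.
-/

set_option autoImplicit false

open MeasureTheory Set Filter
open scoped ENNReal Topology Classical
open Crest.AnalysisR.Kinetic Crest.Agent.R122.Kin796 Crest.Agent.R122.Disc416
  Crest.Agent.R122.Kin416 Crest.Agent.R122.Tree674
  Crest.Agent.R122.Scat818 Crest.Agent.R122.TreeF399 Crest.Agent.R122.TreeEps399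
  Crest.Agent.R122.Hid424 Crest.Agent.R122.Quench815

noncomputable section

namespace Crest.Agent.R122.QDens815

open CTree

variable {Φ : Space3 → ℝ} {f₀ : PhasePoint → ℝ}

/-! ### Lattice envelope of the initial datum -/

/-- an integrable bounded local envelope of the initial datum -/
structure Env (γ : ℝ) (f₀ : PhasePoint → ℝ) (env : Space3 → ℝ≥0∞) (A : ℝ≥0∞) : Prop where
  meas : Measurable env
  A_ne : A ≠ ∞
  int_ne : ∫⁻ x, env x ≠ ∞
  le_A : ∀ x, env x ≤ A
  bound : ∀ x y v : Space3, dist x y ≤ 1 → ENNReal.ofReal (f₀ (y, v)) ≤ env x * gau γ v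

theorem exists_env {γ : ℝ} (H : HasSummableGaussianBound γ (fun x v => f₀ (x, v))) :
    ∃ (env : Space3 → ℝ≥0∞) (A : ℝ≥0∞), Env γ f₀ env A := by
  obtain ⟨M, hM, hb⟩ := H
  have hM0 : ∀ k, 0 ≤ M k := by
    intro k
    refine le_trans ?_ (hb k (latticePoint k) 0 (by simp))
    positivity
  have hA : ∑' k, ENNReal.ofReal (M k) ≠ ∞ := by
    rw [← ENNReal.ofReal_tsum_of_nonneg hM0 hM]
    exact ENNReal.ofReal_ne_top
  have hmk : ∀ k : Fin 3 → ℤ, Measurable
      ((Metric.closedBall (latticePoint k) 2).indicator fun _ : Space3 => ENNReal.ofReal (M k)) :=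
    fun k => measurable_const.indicator Metric.isClosed_closedBall.measurableSet
  refine ⟨fun x => ∑' k : Fin 3 → ℤ,
    (Metric.closedBall (latticePoint k) 2).indicator (fun _ => ENNReal.ofReal (M k)) x,
    ∑' k, ENNReal.ofReal (M k), Measurable.tsum hmk, hA, ?_, ?_, ?_⟩
  · rw [lintegral_tsum fun k => (hmk k).aemeasurable]
    have e : ∀ k : Fin 3 → ℤ, ∫⁻ x : Space3,
        (Metric.closedBall (latticePoint k) 2).indicator (fun _ => ENNReal.ofReal (M k)) x =
        ENNReal.ofReal (M k) * volume (Metric.closedBall (0 : Space3) 2) := by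
      intro k
      rw [lintegral_indicator Metric.isClosed_closedBall.measurableSet, lintegral_const,
          Measure.restrict_apply_univ, Measure.addHaar_closedBall_center]
    simp_rw [e]
    rw [ENNReal.tsum_mul_right]
    exact ENNReal.mul_ne_top hA measure_closedBall_lt_top.ne
  · intro x
    exact ENNReal.tsum_le_tsum fun k => indicator_le_self' (fun _ _ => bot_le) x
  · intro x y v hxy
    obtain ⟨k, hk⟩ := Boltz814.exists_lattice y
    have hxk : x ∈ Metric.closedBall (latticePoint k) 2 := by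
      rw [Metric.mem_closedBall]
      have := dist_triangle x y (latticePoint k)
      linarith
    calc ENNReal.ofReal (f₀ (y, v)) ≤ ENNReal.ofReal (M k) * gau γ v := by
          unfold gau
          rw [← ENNReal.ofReal_mul (hM0 k)]
          refine ENNReal.ofReal_le_ofReal ?_
          have h1 := hb k y v hk
          have h2 : Real.exp (γ * ‖v‖ ^ 2) * Real.exp (-γ * ‖v‖ ^ 2) = 1 := by
            rw [← Real.exp_add]; simp
          calc f₀ (y, v) ≤ ‖f₀ (y, v)‖ := le_abs_self _
            _ = (Real.exp (γ * ‖v‖ ^ 2) * Real.exp (-γ * ‖v‖ ^ 2)) * ‖f₀ (y, v)‖ := by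
                rw [h2, one_mul]
            _ = (Real.exp (γ * ‖v‖ ^ 2) * ‖f₀ (y, v)‖) * Real.exp (-γ * ‖v‖ ^ 2) := by ring
            _ ≤ M k * Real.exp (-γ * ‖v‖ ^ 2) := by gcongr
      _ ≤ _ := by
          refine mul_le_mul_left ?_ _
          refine le_trans ?_ (ENNReal.le_tsum k)
          rw [indicator_of_mem hxk]

/-! ### Product of the initial densities -/

/-- product of the initial densities of a tree -/
def fp (Φ : Space3 → ℝ) (f₀ : PhasePoint → ℝ) (ε : ℝ) (P : CTree) (ℓ : PhasePoint) (p : Par P) :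
    ℝ≥0∞ := ∏ i, ENNReal.ofReal (f₀ (lines Φ ε P ℓ p i))

theorem fp_ne_top (ε : ℝ) (P : CTree) (ℓ : PhasePoint) (p : Par P) : fp Φ f₀ ε P ℓ p ≠ ∞ :=
  ENNReal.prod_ne_top fun _ _ => ENNReal.ofReal_ne_top

theorem fp_le (hΦ : AdmissiblePotential Φ) {γ : ℝ} {env : Space3 → ℝ≥0∞} {A : ℝ≥0∞}
    (hE : Env γ f₀ env A) (ε : ℝ) (P : CTree) (ℓ : PhasePoint) (p : Par P) (hp : Adm Φ P ℓ.2 p)
    (Z : Space3) (hZ : dist Z (lines Φ ε P ℓ p (root P)).1 ≤ 1) :
    fp Φ f₀ ε P ℓ p ≤ env Z * A ^ P.size *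
      ENNReal.ofReal (Real.exp (-γ * (‖ℓ.2‖ ^ 2 + nodeEn P p))) := by
  have e1 : ∏ i, gau γ (vels Φ P ℓ.2 p i) =
      ENNReal.ofReal (Real.exp (-γ * (‖ℓ.2‖ ^ 2 + nodeEn P p))) := by
    unfold gau
    rw [← ENNReal.ofReal_prod_of_nonneg (fun i _ => (Real.exp_pos _).le), ← Real.exp_sum,
      ← Finset.mul_sum, sum_vels hΦ P ℓ.2 p hp]
  have hb : ∀ i, ENNReal.ofReal (f₀ (lines Φ ε P ℓ p i)) ≤
      (if i = root P then env Z else A) * gau γ (vels Φ P ℓ.2 p i) := by
    intro i
    have hv := lines_vel (Φ := Φ) ε P ℓ p i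
    have e : lines Φ ε P ℓ p i = ((lines Φ ε P ℓ p i).1, vels Φ P ℓ.2 p i) := by
      rw [← hv]
    rw [e]
    split_ifs with hi
    · subst hi
      exact hE.bound _ _ _ hZ
    · refine (hE.bound (lines Φ ε P ℓ p i).1 _ _ (by simp)).trans ?_
      gcongr
      exact hE.le_A _
  calc fp Φ f₀ ε P ℓ p ≤ ∏ i, ((if i = root P then env Z else A) * gau γ (vels Φ P ℓ.2 p i)) :=
        Finset.prod_le_prod' fun i _ => hb i
    _ = (∏ i, if i = root P then env Z else A) * ∏ i, gau γ (vels Φ P ℓ.2 p i) :=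
        Finset.prod_mul_distrib
    _ = _ := by
        rw [e1]
        congr 1
        rw [← Finset.mul_prod_erase Finset.univ _ (Finset.mem_univ (root P)), if_pos rfl]
        congr 1
        rw [Finset.prod_congr rfl (g := fun _ => A)
          (fun i hi => if_neg (Finset.ne_of_mem_erase hi)), Finset.prod_const,
          Finset.card_erase_of_mem (Finset.mem_univ _), Finset.card_univ, card_idx, leaves_eq]
        simp

/-- integral over the position of the root -/
theorem lintegral_fp_le (hΦ : AdmissiblePotential Φ) {γ : ℝ} {env : Space3 → ℝ≥0∞} {A : ℝ≥0∞}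
    (hE : Env γ f₀ env A) (ε : ℝ) (P : CTree) (v : Space3) (p : Par P) (hp : Adm Φ P v p) :
    ∫⁻ X : Space3, fp Φ f₀ ε P (X, v) p ≤ (∫⁻ x, env x) * A ^ P.size *
      ENNReal.ofReal (Real.exp (-γ * (‖v‖ ^ 2 + nodeEn P p))) := by
  set d := (lines Φ ε P (0, v) p (root P)).1 with hd
  have h1 : ∀ X : Space3, fp Φ f₀ ε P (X, v) p ≤ env (d + X) * A ^ P.size *
      ENNReal.ofReal (Real.exp (-γ * (‖v‖ ^ 2 + nodeEn P p))) := by
    intro X
    refine fp_le hΦ hE ε P (X, v) p hp _ ?_
    rw [lines_shift]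
    simp [hd]
  calc ∫⁻ X : Space3, fp Φ f₀ ε P (X, v) p
      ≤ ∫⁻ X : Space3, env (d + X) * (A ^ P.size *
        ENNReal.ofReal (Real.exp (-γ * (‖v‖ ^ 2 + nodeEn P p)))) :=
        lintegral_mono fun X => (h1 X).trans (le_of_eq (mul_assoc _ _ _))
    _ = (∫⁻ X : Space3, env (d + X)) * (A ^ P.size *
        ENNReal.ofReal (Real.exp (-γ * (‖v‖ ^ 2 + nodeEn P p)))) :=
        lintegral_mul_const _ (hE.meas.comp (measurable_const_add d))
    _ = _ := by rw [lintegral_add_left_eq_self, ← mul_assoc]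

theorem continuous_shift {P : CTree} {v : Space3} {p : Par P} (ε : ℝ) (i : Idx P) :
    Continuous fun X : Space3 => lines Φ ε P (X, v) p i := by
  have : (fun X : Space3 => lines Φ ε P (X, v) p i) = fun X : Space3 =>
      ((lines Φ ε P (0, v) p i).1 + X, (lines Φ ε P (0, v) p i).2) := by
    funext X
    exact lines_shift ε P X v p i
  rw [this]
  fun_prop

theorem measurable_fp_shift (hf : Measurable f₀) {P : CTree} {v : Space3} {p : Par P} (ε : ℝ) :
    Measurable fun X : Space3 => fp Φ f₀ ε P (X, v) p := by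
  unfold fp
  exact Finset.measurable_prod _ fun i _ =>
    (hf.comp (continuous_shift ε i).measurable).ennreal_ofReal

theorem tendsto_lines (P : CTree) (ℓ : PhasePoint) (p : Par P) (i : Idx P) :
    Tendsto (fun ε => lines Φ ε P ℓ p i) L (𝓝 (lines Φ 0 P ℓ p i)) := by
  have h := lines_close (Φ := Φ) P ℓ.2 p (fun _ => ℓ.1) ℓ.1 tendsto_const_nhds i
  have h2 : Tendsto (fun ε => (lines Φ ε P ℓ p i).2) L (𝓝 (lines Φ 0 P ℓ p i).2) := by
    have : (fun ε => (lines Φ ε P ℓ p i).2) = fun _ => (lines Φ 0 P ℓ p i).2 := by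
      funext ε
      exact h.2 ε
    rw [this]
    exact tendsto_const_nhds
  exact h.1.prodMk_nhds h2

theorem tendsto_absd {α : Type*} {l : Filter α} {a : α → ℝ≥0∞} {b : ℝ≥0∞} (hb : b ≠ ∞)
    (h : Tendsto a l (𝓝 b)) : Tendsto (fun x => absd (a x) b) l (𝓝 0) := by
  have h1 : Tendsto (fun x => a x - b) l (𝓝 (b - b)) :=
    ENNReal.Tendsto.sub h tendsto_const_nhds (Or.inr hb)
  have h2 : Tendsto (fun x => b - a x) l (𝓝 (b - b)) :=
    ENNReal.Tendsto.sub tendsto_const_nhds h (Or.inl hb)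
  have := h1.add h2
  simpa [absd] using this

/-- `L¹(dX)` convergence of the product of the initial densities -/
theorem tendsto_fp (hΦ : AdmissiblePotential Φ) {γ : ℝ} {env : Space3 → ℝ≥0∞} {A : ℝ≥0∞}
    (hE : Env γ f₀ env A) (hf : Continuous f₀) (P : CTree) (v : Space3) (p : Par P)
    (hp : Adm Φ P v p) :
    Tendsto (fun ε => ∫⁻ X : Space3, absd (fp Φ f₀ ε P (X, v) p) (fp Φ f₀ 0 P (X, v) p)) L
      (𝓝 0) := by
  set G : ℝ≥0∞ := ENNReal.ofReal (Real.exp (-γ * (‖v‖ ^ 2 + nodeEn P p))) with hG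
  set d := (lines Φ 0 P (0, v) p (root P)).1 with hd
  have hlim : ∀ X : Space3, Tendsto (fun ε => absd (fp Φ f₀ ε P (X, v) p)
      (fp Φ f₀ 0 P (X, v) p)) L (𝓝 0) := by
    intro X
    refine tendsto_absd (fp_ne_top _ _ _ _) ?_
    unfold fp
    refine ENNReal.tendsto_finsetProd_of_ne_top _ (fun i _ => ?_)
      (fun i _ => ENNReal.ofReal_ne_top)
    exact ENNReal.tendsto_ofReal ((hf.tendsto _).comp (tendsto_lines P (X, v) p i))
  have hclose : ∀ᶠ ε in L, ∀ X : Space3,
      dist (d + X) (lines Φ ε P (X, v) p (root P)).1 ≤ 1 := by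
    have h1 := (tendsto_lines (Φ := Φ) P (0, v) p (root P)).fst_nhds
    have h2 : ∀ᶠ ε in L, dist (lines Φ ε P (0, v) p (root P)).1 d < 1 :=
      (tendsto_iff_dist_tendsto_zero.1 h1).eventually (gt_mem_nhds one_pos)
    filter_upwards [h2] with ε hε X
    rw [lines_shift]
    simp only [dist_add_right]
    rw [dist_comm]
    exact hε.le
  have key := tendsto_lintegral_filter_of_dominated_convergence (μ := (volume : Measure Space3))
    (l := L) (F := fun ε X => absd (fp Φ f₀ ε P (X, v) p) (fp Φ f₀ 0 P (X, v) p))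
    (f := fun _ => 0) (fun X => env (d + X) * A ^ P.size * G + env (d + X) * A ^ P.size * G)
    (Eventually.of_forall fun ε => measurable_absd (measurable_fp_shift hf.measurable ε)
      (measurable_fp_shift hf.measurable 0))
    (by
      filter_upwards [hclose] with ε hε
      refine ae_of_all _ fun X => (absd_le_add _ _).trans (add_le_add ?_ ?_)
      · exact fp_le hΦ hE ε P (X, v) p hp _ (hε X)
      · refine fp_le hΦ hE 0 P (X, v) p hp _ ?_
        rw [lines_shift]
        simp [hd])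
    (by
      have hm0 : Measurable fun X : Space3 => env (d + X) :=
        hE.meas.comp (measurable_const_add d)
      have hm1 : Measurable fun X : Space3 => env (d + X) * A ^ P.size := hm0.mul_const _
      have hm : Measurable fun X : Space3 => env (d + X) * A ^ P.size * G := hm1.mul_const _
      rw [lintegral_add_left hm, lintegral_mul_const _ hm1, lintegral_mul_const _ hm0,
        lintegral_add_left_eq_self]
      have : (∫⁻ x, env x) * A ^ P.size * G ≠ ∞ :=
        ENNReal.mul_ne_top (ENNReal.mul_ne_top hE.int_ne (ENNReal.pow_ne_top hE.A_ne))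
          ENNReal.ofReal_ne_top
      exact ENNReal.add_ne_top.2 ⟨this, this⟩)
    (ae_of_all _ hlim)
  simpa using key

end Crest.Agent.R122.QDens815

end
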