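import Crest.Agent.R122.TreeLim_974
import Crest.Agent.R122.QDensB_815
import Crest.Agent.R122.ToTree_335

/-!
# The root in the middle of its last collision (row 122, helper317)

* `Mid Φ ε s P v p` : at time `s` the root of the tree is in its last collision window;
* `midI` : mass of these trees, with the energy weight of the leaves;
* `midI_le` : uniform bound; `tendsto_midI` : `midI → 0` as `ε → 0`;
  `tendsto_lintegral_midI` : the same integrated in `s`.
-/

set_option autoImplicit false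

open MeasureTheory Set Filter
open scoped Classical ENNReal Topology
open Crest.AnalysisR.Kinetic

noncomputable section

namespace Crest.Agent.R122.Mid317

open Kin796 Kin796.CTree Disc416 Tree674 ToTree335 QDens815 TreeDom974 Kin416

variable {Φ : Space3 → ℝ} {f₀ : PhasePoint → ℝ}

/-- At time `s` the root is in its last collision window. -/
def Mid (Φ : Space3 → ℝ) (ε s : ℝ) : ∀ P : CTree, Space3 → Par P → Prop
  | leaf => fun _ _ => False
  | node _ _ => fun v p => Adm1 Φ v p.1 ∧ Tree674.sin Φ ε v p.1 ≤ s ∧ s ≤ p.1.1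

/-- indicator of `Mid` -/
def indM (Φ : Space3 → ℝ) (ε s : ℝ) (P : CTree) (q : Space3 × Par P) : ℝ≥0∞ :=
  if Mid Φ ε s P q.1 q.2 then 1 else 0

theorem indM_le_one (ε s : ℝ) (P : CTree) (q : Space3 × Par P) : indM Φ ε s P q ≤ 1 := by
  unfold indM; split_ifs <;> simp

theorem measurable_indM (hΦ : AdmissiblePotential Φ) (ε : ℝ) : ∀ P : CTree,
    Measurable fun q : ℝ × (Space3 × Par P) => indM Φ ε q.1 P q.2
  | leaf => by
      have : (fun q : ℝ × (Space3 × Par leaf) => indM Φ ε q.1 leaf q.2) = fun _ => 0 := by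
        funext q
        exact if_neg id
      rw [this]
      exact measurable_const
  | node l r => by
      refine Measurable.ite ?_ measurable_const measurable_const
      have hz : Measurable fun q : ℝ × (Space3 × Par (node l r)) => (q.2.1, q.2.2.1) :=
        measurable_snd.fst.prodMk ((measurable_par1 l r).comp measurable_snd.snd)
      have hs := (measurable_sM hΦ ε).comp hz
      have key : {q : ℝ × (Space3 × Par (node l r)) | Mid Φ ε q.1 (node l r) q.2.1 q.2.2} =
          (fun q : ℝ × (Space3 × Par (node l r)) => (q.2.1, q.2.2.1)) ⁻¹' NS Φ ∩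
          ({q : ℝ × (Space3 × Par (node l r)) | sM Φ ε (q.2.1, q.2.2.1) ≤ q.1} ∩
          {q : ℝ × (Space3 × Par (node l r)) | q.1 ≤ q.2.2.1.1}) := by
        ext q
        constructor
        · rintro ⟨h1, h2, h3⟩
          refine ⟨h1, ?_, h3⟩
          show sM Φ ε (q.2.1, q.2.2.1) ≤ q.1
          rw [sM_of_adm (z := (q.2.1, q.2.2.1)) h1]
          exact h2
        · rintro ⟨h1, h2, h3⟩
          refine ⟨h1, ?_, h3⟩
          have h2' : sM Φ ε (q.2.1, q.2.2.1) ≤ q.1 := h2
          rwa [sM_of_adm (z := (q.2.1, q.2.2.1)) h1] at h2'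
      rw [key]
      refine (hz (measurableSet_NS hΦ)).inter ((measurableSet_le hs measurable_fst).inter ?_)
      exact measurableSet_le measurable_fst
        (measurable_fst.comp ((measurable_par1 l r).comp measurable_snd.snd))

/-- energy weight of the leaves (measurable version) -/
def WM (Φ : Space3 → ℝ) (ε : ℝ) (P : CTree) (z : PhasePoint × Par P) : ℝ≥0∞ :=
  ∑ x, ENNReal.ofReal (1 + ‖(linesM Φ ε P z.1 z.2 x).2‖ ^ 2)

theorem measurable_WM (hΦ : AdmissiblePotential Φ) (ε : ℝ) (P : CTree) :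
    Measurable (WM Φ ε P) := by
  refine Finset.measurable_sum _ fun x _ => ?_
  have h := ((measurable_pi_apply x).comp (measurable_linesM hΦ ε P)).snd
  exact ((h.norm.pow_const 2).const_add 1).ennreal_ofReal

theorem WM_of_adm {ε : ℝ} {P : CTree} {z : PhasePoint × Par P} (h : Adm Φ P z.1.2 z.2) :
    WM Φ ε P z = ∑ x, ENNReal.ofReal (1 + ‖vels Φ P z.1.2 z.2 x‖ ^ 2) := by
  unfold WM
  refine Finset.sum_congr rfl fun x _ => ?_
  rw [linesM_of_adm ε h, Hid424.lines_vel]

/-- the integrand -/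
def gM (Φ : Space3 → ℝ) (f₀ : PhasePoint → ℝ) (ε s : ℝ) (P : CTree) (z : PhasePoint × Par P) :
    ℝ≥0∞ := pfM Φ f₀ ε P z * (WM Φ ε P z * indM Φ ε s P (z.1.2, z.2))

theorem measurable_gM2 (hΦ : AdmissiblePotential Φ) (hf : Measurable f₀) (ε : ℝ) (P : CTree) :
    Measurable fun q : ℝ × (PhasePoint × Par P) => gM Φ f₀ ε q.1 P q.2 := by
  refine ((measurable_pfM hΦ hf P).comp measurable_snd).mul
    (((measurable_WM hΦ ε P).comp measurable_snd).mul ?_)
  have h : Measurable fun q : ℝ × (PhasePoint × Par P) => (q.1, (q.2.1.2, q.2.2)) :=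
    measurable_fst.prodMk (measurable_snd.fst.snd.prodMk measurable_snd.snd)
  exact (measurable_indM hΦ ε P).comp h

theorem measurable_gM (hΦ : AdmissiblePotential Φ) (hf : Measurable f₀) (ε s : ℝ) (P : CTree) :
    Measurable (gM Φ f₀ ε s P) :=
  (measurable_gM2 hΦ hf ε P).comp (measurable_const.prodMk measurable_id)

/-- mass of the trees whose root is in its last collision window at time `s` -/
def midI (Φ : Space3 → ℝ) (f₀ : PhasePoint → ℝ) (ε T s : ℝ) (P : CTree) : ℝ≥0∞ :=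
  ∫⁻ z : PhasePoint × Par P, {z : PhasePoint × Par P | Valid Φ ε P T z.1.2 z.2}.indicator
    (fun z => wt Φ P z.1.2 z.2 * gM Φ f₀ ε s P z) z

theorem measurable_ind2 (hΦ : AdmissiblePotential Φ) (hf : Measurable f₀) (ε T : ℝ) (P : CTree) :
    Measurable fun q : ℝ × (PhasePoint × Par P) =>
      {z : PhasePoint × Par P | Valid Φ ε P T z.1.2 z.2}.indicator
        (fun z => wt Φ P z.1.2 z.2 * gM Φ f₀ ε q.1 P z) q.2 := by
  have h1 : (fun q : ℝ × (PhasePoint × Par P) =>
      {z : PhasePoint × Par P | Valid Φ ε P T z.1.2 z.2}.indicator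
        (fun z => wt Φ P z.1.2 z.2 * gM Φ f₀ ε q.1 P z) q.2) =
      fun q : ℝ × (PhasePoint × Par P) => vw Φ ε P T q.2 * gM Φ f₀ ε q.1 P q.2 := by
    funext q
    by_cases hz : Valid Φ ε P T q.2.1.2 q.2.2
    · rw [vw_of_valid hz]
      exact indicator_of_mem (show q.2 ∈ {z : PhasePoint × Par P | Valid Φ ε P T z.1.2 z.2} from hz)
        _
    · rw [vw_of_not_valid hz, zero_mul]
      exact indicator_of_notMem
        (show q.2 ∉ {z : PhasePoint × Par P | Valid Φ ε P T z.1.2 z.2} from hz) _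
  rw [h1]
  exact ((measurable_vw hΦ ε P T).comp measurable_snd).mul (measurable_gM2 hΦ hf ε P)

theorem measurable_midI (hΦ : AdmissiblePotential Φ) (hf : Measurable f₀) (ε T : ℝ) (P : CTree) :
    Measurable fun s => midI Φ f₀ ε T s P :=
  (measurable_ind2 hΦ hf ε T P).lintegral_prod_right'

/-! ### The bound -/

/-- the reduced integral -/
def domI (Φ : Space3 → ℝ) (C b ε T s : ℝ) (P : CTree) : ℝ≥0∞ :=
  ∫⁻ q : Space3 × Par P, domG C b T P q.1 q.2 * indM Φ ε s P q

theorem midI_le (hΦ : AdmissiblePotential Φ) (hf : Measurable f₀) {γ : ℝ} (hγ : 0 < γ)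
    (hb : HasSummableGaussianBound γ (fun x v => f₀ (x, v))) (P : CTree) :
    ∃ (c : ℝ≥0∞) (C b : ℝ), c ≠ ∞ ∧ 0 ≤ C ∧ 0 < b ∧ ∀ ε T s : ℝ, 0 ≤ ε →
      midI Φ f₀ ε T s P ≤ c * domI Φ C b ε T s P := by
  obtain ⟨env, A, hE⟩ := exists_env hb
  set γ₁ := γ / 2 with hγ₁
  have h1 : 0 < γ₁ := by positivity
  have hlt : γ / 4 < γ₁ := by rw [hγ₁]; linarith
  set k : PhasePoint → ℝ≥0∞ := fun z => ENNReal.ofReal (1 * Real.exp (-γ₁ * ‖z.2‖ ^ 2)) with hk
  obtain ⟨C', hC', hdom⟩ := le_domG hΦ (C := 1) (b := γ₁) (b' := γ / 4) zero_le_one hlt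
    (k := k) (fun z => le_rfl) P
  set n : ℝ := (Fintype.card (Idx P) : ℝ) with hn
  have hn1 : 1 ≤ n := by
    rw [hn]
    exact_mod_cast Fintype.card_pos_iff.2 ⟨root P⟩
  set c1 : ℝ := n * ((1 : ℕ).factorial / γ₁ ^ 1 * Real.exp γ₁) with hc1
  have hc10 : 0 ≤ c1 := by positivity
  refine ⟨((∫⁻ x, env x) * A ^ P.size) * ENNReal.ofReal c1, C', γ / 4,
    ENNReal.mul_ne_top (ENNReal.mul_ne_top hE.int_ne (ENNReal.pow_ne_top hE.A_ne))
      ENNReal.ofReal_ne_top, hC', by positivity, fun ε T s hε => ?_⟩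
  have hmeas : Measurable fun z : PhasePoint × Par P =>
      {z : PhasePoint × Par P | Valid Φ ε P T z.1.2 z.2}.indicator
        (fun z => wt Φ P z.1.2 z.2 * gM Φ f₀ ε s P z) z :=
    (measurable_ind2 hΦ hf ε T P).comp (measurable_const.prodMk measurable_id)
  unfold midI domI
  rw [TreeLim974.lintegral_split P hmeas]
  have hcne : ((∫⁻ x, env x) * A ^ P.size) * ENNReal.ofReal c1 ≠ ∞ :=
    ENNReal.mul_ne_top (ENNReal.mul_ne_top hE.int_ne (ENNReal.pow_ne_top hE.A_ne))
      ENNReal.ofReal_ne_top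
  rw [← lintegral_const_mul' _ _ hcne]
  refine lintegral_mono fun q => ?_
  by_cases hV : Valid Φ ε P T q.1 q.2
  swap
  · have : ∀ x : Space3, {z : PhasePoint × Par P | Valid Φ ε P T z.1.2 z.2}.indicator
        (fun z => wt Φ P z.1.2 z.2 * gM Φ f₀ ε s P z) ((x, q.1), q.2) = 0 := fun x =>
      indicator_of_notMem (show ((x, q.1), q.2) ∉
        {z : PhasePoint × Par P | Valid Φ ε P T z.1.2 z.2} from hV) _
    simp only [this, lintegral_zero]
    exact bot_le
  have hA := hV.1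
  have hEn := QDens815.sum_vels hΦ P q.1 q.2 hA
  set E : ℝ := ‖q.1‖ ^ 2 + nodeEn P q.2 with hEdef
  have hE0 : 0 ≤ E := by
    have := nodeEn_nonneg P q.2
    positivity
  have e1 : ∀ x : Space3, {z : PhasePoint × Par P | Valid Φ ε P T z.1.2 z.2}.indicator
        (fun z => wt Φ P z.1.2 z.2 * gM Φ f₀ ε s P z) ((x, q.1), q.2) =
      (wt Φ P q.1 q.2 * ((∑ i, ENNReal.ofReal (1 + ‖vels Φ P q.1 q.2 i‖ ^ 2)) *
        indM Φ ε s P q)) * fp Φ f₀ ε P (x, q.1) q.2 := by
    intro x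
    rw [indicator_of_mem (show ((x, q.1), q.2) ∈
      {z : PhasePoint × Par P | Valid Φ ε P T z.1.2 z.2} from hV)]
    unfold gM
    rw [pfM_of_adm (z := ((x, q.1), q.2)) hA, WM_of_adm (z := ((x, q.1), q.2)) hA]
    unfold pf fp
    ring
  simp only [e1]
  have hne : wt Φ P q.1 q.2 * ((∑ i, ENNReal.ofReal (1 + ‖vels Φ P q.1 q.2 i‖ ^ 2)) *
      indM Φ ε s P q) ≠ ∞ := by
    refine ENNReal.mul_ne_top (TreeLim974.wt_ne_top P _ _) (ENNReal.mul_ne_top ?_ ?_)
    · exact ENNReal.sum_ne_top.2 fun _ _ => ENNReal.ofReal_ne_top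
    · exact ((indM_le_one ε s P q).trans_lt ENNReal.one_lt_top).ne
  rw [lintegral_const_mul' _ _ hne]
  have hW : (∑ i, ENNReal.ofReal (1 + ‖vels Φ P q.1 q.2 i‖ ^ 2)) =
      ENNReal.ofReal (n + E) := by
    rw [← ENNReal.ofReal_sum_of_nonneg fun i _ => by positivity, Finset.sum_add_distrib, hEn,
      Finset.sum_const, Finset.card_univ, nsmul_eq_mul, mul_one]
  have hprod : ∏ i, k (lines Φ ε P ((0 : Space3), q.1) q.2 i) =
      ENNReal.ofReal (Real.exp (-γ₁ * E)) := by
    simp only [hk, one_mul]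
    rw [← ENNReal.ofReal_prod_of_nonneg (fun i _ => (Real.exp_pos _).le), ← Real.exp_sum,
      ← Finset.mul_sum]
    congr 3
    rw [← hEn]
    refine Finset.sum_congr rfl fun i _ => ?_
    rw [Hid424.lines_vel]
  have hexp : ENNReal.ofReal (n + E) * ENNReal.ofReal (Real.exp (-γ * E)) ≤
      ENNReal.ofReal c1 * ENNReal.ofReal (Real.exp (-γ₁ * E)) := by
    rw [← ENNReal.ofReal_mul (by positivity), ← ENNReal.ofReal_mul hc10]
    refine ENNReal.ofReal_le_ofReal ?_
    have h2 := one_add_pow_le h1 hE0 1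
    rw [pow_one (1 + E)] at h2
    have h3 : Real.exp (-γ * E) = Real.exp (-γ₁ * E) * Real.exp (-(γ₁ * E)) := by
      rw [← Real.exp_add]
      congr 1
      rw [hγ₁]; ring
    have h4 : Real.exp (γ₁ * E) * Real.exp (-(γ₁ * E)) = 1 := by
      rw [← Real.exp_add]; simp
    calc (n + E) * Real.exp (-γ * E)
        ≤ (n * (1 + E)) * Real.exp (-γ * E) := by
          refine mul_le_mul_of_nonneg_right ?_ (Real.exp_pos _).le
          nlinarith
      _ ≤ (n * (((1 : ℕ).factorial / γ₁ ^ 1 * Real.exp γ₁) * Real.exp (γ₁ * E))) *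
            Real.exp (-γ * E) := by
          refine mul_le_mul_of_nonneg_right ?_ (Real.exp_pos _).le
          exact mul_le_mul_of_nonneg_left h2 (by linarith)
      _ = c1 * Real.exp (-γ₁ * E) * (Real.exp (γ₁ * E) * Real.exp (-(γ₁ * E))) := by
          rw [h3, hc1]; ring
      _ = c1 * Real.exp (-γ₁ * E) := by rw [h4, mul_one]
  have hfin := hdom ε T T ((0 : Space3), q.1) q.2 hε le_rfl hV
  rw [hprod] at hfin
  calc wt Φ P q.1 q.2 * ((∑ i, ENNReal.ofReal (1 + ‖vels Φ P q.1 q.2 i‖ ^ 2)) *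
        indM Φ ε s P q) * ∫⁻ x : Space3, fp Φ f₀ ε P (x, q.1) q.2
      ≤ wt Φ P q.1 q.2 * (ENNReal.ofReal (n + E) * indM Φ ε s P q) *
          ((∫⁻ x, env x) * A ^ P.size * ENNReal.ofReal (Real.exp (-γ * E))) := by
        rw [hW]
        exact mul_le_mul_right (lintegral_fp_le hΦ hE ε P q.1 q.2 hA) _
    _ = ((∫⁻ x, env x) * A ^ P.size) * wt Φ P q.1 q.2 * indM Φ ε s P q *
          (ENNReal.ofReal (n + E) * ENNReal.ofReal (Real.exp (-γ * E))) := by ring
    _ ≤ ((∫⁻ x, env x) * A ^ P.size) * wt Φ P q.1 q.2 * indM Φ ε s P q *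
          (ENNReal.ofReal c1 * ENNReal.ofReal (Real.exp (-γ₁ * E))) := mul_le_mul_right hexp _
    _ = ((∫⁻ x, env x) * A ^ P.size) * ENNReal.ofReal c1 *
          ((wt Φ P q.1 q.2 * ENNReal.ofReal (Real.exp (-γ₁ * E))) * indM Φ ε s P q) := by ring
    _ ≤ ((∫⁻ x, env x) * A ^ P.size) * ENNReal.ofReal c1 *
          (domG C' (γ / 4) T P q.1 q.2 * indM Φ ε s P q) := by
        gcongr

/-! ### The limit -/

theorem ae_top_ne (l r : CTree) (s : ℝ) : ∀ᵐ q : Space3 × Par (node l r), q.2.1.1 ≠ s := by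
  have h1 : ∀ᵐ u : ℝ, u ≠ s := by
    rw [ae_iff]; simp
  have h2 : ∀ᵐ a : NodeP, a.1 ≠ s :=
    (Measure.quasiMeasurePreserving_fst (μ := (volume : Measure ℝ))
      (ν := (volume : Measure (Space3 × Plane)))).ae h1
  have h3 : ∀ᵐ p : NodeP × (Par l × Par r), p.1.1 ≠ s :=
    (Measure.quasiMeasurePreserving_fst (μ := (volume : Measure NodeP))
      (ν := (volume : Measure (Par l × Par r)))).ae h2
  exact (Measure.quasiMeasurePreserving_snd (μ := (volume : Measure Space3))
      (ν := (volume : Measure (NodeP × (Par l × Par r))))).ae h3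

theorem indM_eventually {l r : CTree} {s : ℝ} {q : Space3 × Par (node l r)} (h : q.2.1.1 ≠ s) :
    ∀ᶠ ε in 𝓝[>] (0 : ℝ), indM Φ ε s (node l r) q = 0 := by
  rcases lt_or_gt_of_ne h with hlt | hlt
  · refine Eventually.of_forall fun ε => if_neg fun hm => ?_
    exact absurd hm.2.2 (not_le.2 hlt)
  · have hc : Tendsto (fun ε : ℝ => Tree674.sin Φ ε q.1 q.2.1) (𝓝[>] 0) (𝓝 q.2.1.1) := by
      have : Tendsto (fun ε : ℝ => q.2.1.1 - ε * tau Φ (nb q.1 q.2.1) (ng q.1 q.2.1)) (𝓝 0)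
          (𝓝 (q.2.1.1 - 0 * tau Φ (nb q.1 q.2.1) (ng q.1 q.2.1))) :=
        tendsto_const_nhds.sub (tendsto_id.mul_const _)
      rw [zero_mul, sub_zero] at this
      exact this.mono_left nhdsWithin_le_nhds
    filter_upwards [hc.eventually (lt_mem_nhds hlt)] with ε hε
    exact if_neg fun hm => absurd hm.2.1 (not_le.2 hε)

theorem tendsto_domI (hΦ : AdmissiblePotential Φ) {C b : ℝ} (hC : 0 ≤ C) (hb : 0 < b)
    (T s : ℝ) (P : CTree) : Tendsto (fun ε => domI Φ C b ε T s P) (𝓝[>] 0) (𝓝 0) := by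
  have h0 : (0 : ℝ≥0∞) = ∫⁻ _q : Space3 × Par P, (0 : ℝ≥0∞) := by simp
  rw [h0]
  refine tendsto_lintegral_filter_of_dominated_convergence
    (fun q : Space3 × Par P => domG C b T P q.1 q.2) ?_ ?_ (lintegral_domG_ne_top hC hb T P) ?_
  · refine Eventually.of_forall fun ε => (measurable_domG hC b T P).mul ?_
    exact (measurable_indM hΦ ε P).comp (measurable_const.prodMk measurable_id)
  · refine Eventually.of_forall fun ε => Eventually.of_forall fun q => ?_
    calc domG C b T P q.1 q.2 * indM Φ ε s P q ≤ domG C b T P q.1 q.2 * 1 :=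
          mul_le_mul_right (indM_le_one ε s P q) _
      _ = _ := mul_one _
  · cases P with
    | leaf =>
      refine Eventually.of_forall fun q => ?_
      have : ∀ ε, indM Φ ε s leaf q = 0 := fun ε => if_neg id
      simp only [this, mul_zero]
      exact tendsto_const_nhds
    | node l r =>
      filter_upwards [ae_top_ne l r s] with q hq
      refine tendsto_const_nhds.congr' ?_
      filter_upwards [indM_eventually (Φ := Φ) hq] with ε hε
      rw [hε, mul_zero]

theorem domI_le {C b : ℝ} (ε T s : ℝ) (P : CTree) :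
    domI Φ C b ε T s P ≤ ∫⁻ q : Space3 × Par P, domG C b T P q.1 q.2 := by
  refine lintegral_mono fun q => ?_
  calc domG C b T P q.1 q.2 * indM Φ ε s P q ≤ domG C b T P q.1 q.2 * 1 :=
        mul_le_mul_right (indM_le_one ε s P q) _
    _ = _ := mul_one _

theorem measurable_domI (hΦ : AdmissiblePotential Φ) {C b : ℝ} (hC : 0 ≤ C) (ε T : ℝ)
    (P : CTree) : Measurable fun s => domI Φ C b ε T s P := by
  refine Measurable.lintegral_prod_right' (f := fun q : ℝ × (Space3 × Par P) =>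
    domG C b T P q.2.1 q.2.2 * indM Φ ε q.1 P q.2) ?_
  exact ((measurable_domG hC b T P).comp measurable_snd).mul (measurable_indM hΦ ε P)

theorem tendsto_lintegral_domI (hΦ : AdmissiblePotential Φ) {C b : ℝ} (hC : 0 ≤ C) (hb : 0 < b)
    (T t : ℝ) (P : CTree) :
    Tendsto (fun ε => ∫⁻ s in Ioo 0 t, domI Φ C b ε T s P) (𝓝[>] 0) (𝓝 0) := by
  have h0 : (0 : ℝ≥0∞) = ∫⁻ _s in Ioo 0 t, (0 : ℝ≥0∞) := by simp
  rw [h0]
  refine tendsto_lintegral_filter_of_dominated_convergence
    (fun _ : ℝ => ∫⁻ q : Space3 × Par P, domG C b T P q.1 q.2) ?_ ?_ ?_ ?_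
  · exact Eventually.of_forall fun ε => measurable_domI hΦ hC ε T P
  · exact Eventually.of_forall fun ε => Eventually.of_forall fun s => domI_le ε T s P
  · rw [setLIntegral_const]
    exact ENNReal.mul_ne_top (lintegral_domG_ne_top hC hb T P) (by simp)
  · exact Eventually.of_forall fun s => tendsto_domI hΦ hC hb T s P

/-- **The mass of the trees seen in the middle of the last collision tends to zero.** -/
theorem tendsto_midI (hΦ : AdmissiblePotential Φ) (hf : Measurable f₀) {γ : ℝ} (hγ : 0 < γ)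
    (hb : HasSummableGaussianBound γ (fun x v => f₀ (x, v))) (T s : ℝ) (P : CTree) :
    Tendsto (fun ε => midI Φ f₀ ε T s P) (𝓝[>] 0) (𝓝 0) := by
  obtain ⟨c, C, b, hc, hC, hb', h⟩ := midI_le hΦ hf hγ hb P
  have h1 : Tendsto (fun ε => c * domI Φ C b ε T s P) (𝓝[>] 0) (𝓝 (c * 0)) :=
    ENNReal.Tendsto.const_mul (tendsto_domI hΦ hC hb' T s P) (Or.inr hc)
  rw [mul_zero] at h1
  refine tendsto_of_tendsto_of_tendsto_of_le_of_le' tendsto_const_nhds h1
    (Eventually.of_forall fun _ => bot_le) ?_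
  filter_upwards [self_mem_nhdsWithin] with ε hε
  exact h ε T s (le_of_lt hε)

/-- **Time integrated version.** -/
theorem tendsto_lintegral_midI (hΦ : AdmissiblePotential Φ) (hf : Measurable f₀) {γ : ℝ}
    (hγ : 0 < γ) (hb : HasSummableGaussianBound γ (fun x v => f₀ (x, v))) (T t : ℝ) (P : CTree) :
    Tendsto (fun ε => ∫⁻ s in Ioo 0 t, midI Φ f₀ ε T s P) (𝓝[>] 0) (𝓝 0) := by
  obtain ⟨c, C, b, hc, hC, hb', h⟩ := midI_le hΦ hf hγ hb P
  have h1 : Tendsto (fun ε => c * ∫⁻ s in Ioo 0 t, domI Φ C b ε T s P) (𝓝[>] 0) (𝓝 (c * 0)) :=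
    ENNReal.Tendsto.const_mul (tendsto_lintegral_domI hΦ hC hb' T t P) (Or.inr hc)
  rw [mul_zero] at h1
  refine tendsto_of_tendsto_of_tendsto_of_le_of_le' tendsto_const_nhds h1
    (Eventually.of_forall fun _ => bot_le) ?_
  filter_upwards [self_mem_nhdsWithin] with ε hε
  rw [← lintegral_const_mul' _ _ hc]
  exact lintegral_mono fun s => h ε T s (le_of_lt hε)

end Crest.Agent.R122.Mid317
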