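import Crest.Agent.R122.DSum_167
import Crest.Agent.R122.TransTree_942
import Crest.Agent.R122.Good4One_45

/-!
# The motion of a tree and of the test line (row 122, OkFam facts of inequality 1), helper167

`Real4 Φ ε K te T' P z w l`: the test line `l` meets the root of the tree `(P, z)` at the time
`cT ε z l`. The isolated motion of tree + `l`, in which the exits die at their release times and the
root and `l` die at the end `tO` of their encounter:

* `dworld_E4`, `relD_E4` : motion with births and deaths, release data; the birth of `l` may be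
  replaced by any `q ∈ [l.1.1, cT]`.
* `dworld_E1`, `relD_E1` : the tree alone, the root survives up to a given time `T`.
-/

set_option autoImplicit false
set_option linter.unusedSectionVars false

open MeasureTheory Set Filter Topology
open scoped ENNReal NNReal
open Crest.AnalysisR.Kinetic
open Crest.Agent.R122.Flow671 hiding rel
open Crest.Agent.R122.Loc45 Crest.Agent.R122.Ins45
open Crest.Agent.R122.Simul984 Crest.Agent.R122.Inf879 Crest.Agent.R122.EDefs602
open Crest.Agent.R122.MWAlg255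
open Crest.Agent.R122.Kin796 Crest.Agent.R122.Kin796.CTree Crest.Agent.R122.Tree674
open Crest.Agent.R122.PathFlow968 Crest.Agent.R122.TreeLines335 Crest.Agent.R122.Relabel674
open Crest.Agent.R122.GC311
open Crest.Agent.R122.Scat818 Crest.Agent.R122.OCout796
open Crest.Agent.R122.OneC285 (lpos mSet mT Meet clM cfT rt cT cB cD cX oneLs exS Real4)
open Crest.Agent.R122.TransOk151

namespace Crest.Agent.R122.OkE167

noncomputable section

open scoped Classical

variable {Φ : Space3 → ℝ} {ε : ℝ}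

/-- Whoever separates from its partner at the end of a passage moves away from it. -/
theorem exit_enc (hΦ : AdmissiblePotential Φ) (hε : 0 < ε) {s : ℝ} {y : Space3} {q : CD}
    (hq : CDpass Φ q) : TransTree942.Exit ε (encPL Φ ε s y q (s + outT Φ ε q))
      (encPC Φ ε s y q (s + outT Φ ε q)) := by
  refine ⟨hq.dist_exit hε, ?_⟩
  have h1 : (encPL Φ ε s y q (s + outT Φ ε q)).2 - (encPC Φ ε s y q (s + outT Φ ε q)).2 =
      (encR Φ ε s q (s + outT Φ ε q)).2 := by
    unfold encPL encPC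
    simp only
    module
  rw [encPL_sub_encPC, h1, real_inner_smul_left]
  refine mul_pos hε ?_
  have h2 := hq.hasExit.inner_pos hΦ (reg_entrance Φ hq.ok.1 hq.ok.2)
  have h3 : encR Φ ε s q (s + outT Φ ε q) =
      relFlow Φ (tauM Φ (relB q)) (inc (relB q).1 (relB q).2) := by
    unfold encR outT
    rw [add_sub_cancel_left, mul_div_cancel_left₀ _ hε.ne']
  rw [h3]
  exact h2

/-! ### The tree, the root survives -/

section tree

variable {P : CTree} {s : ℝ} {ℓ : PhasePoint} {p : Par P}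

/-- Deaths: the exits at their release times, the root at `δ`. -/
def dT (P : CTree) (p : Par P) (δ : ℝ) (i : Idx P) : ℝ := if i = root P then δ else rel P p i

theorem dT_root (P : CTree) (p : Par P) (δ : ℝ) : dT P p δ (root P) = δ := if_pos rfl

theorem dT_exit {p : Par P} {δ : ℝ} {i : Idx P} (hi : i ≠ root P) : dT P p δ i = rel P p i :=
  if_neg hi

/-- Up to the time `s` at which it is seen. -/
theorem dworld_tree (hΦ : AdmissiblePotential Φ) (hε : 0 < ε) (hs : 0 < s)
    (hv : Valid Φ ε P s ℓ.2 p) (hS : Sep Φ ε P s ℓ p) {δ : ℝ} (hδ : s < δ) :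
    DWorld Φ ε (fun _ : Idx P => (0 : ℝ)) (dT P p δ) 0 s
        (fun t => flow Φ ε t (lines Φ ε P ℓ p)) ∧
      RelD ε (fun _ : Idx P => (0 : ℝ)) (dT P p δ) s (fun t => flow Φ ε t (lines Φ ε P ℓ p)) := by
  have hX : BWorld Φ ε (fun _ : Idx P => (0 : ℝ)) 0 (fun t => flow Φ ε t (lines Φ ε P ℓ p)) :=
    World.bworld (world_flow hΦ hε (lines_mem_Dom hε hs.le hv.2 hS)) fun _ => le_rfl
  obtain ⟨h1, h2⟩ := Rel.dworld hΦ hε hX (TransTree942.rel_tree hΦ hε hs hv hS)
  have hd : ∀ i : Idx P, i ≠ root P → dth {i : Idx P | i ≠ root P} (rel P p) s i = rel P p i :=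
    fun i hi => dth_mem hi
  have hr : dth {i : Idx P | i ≠ root P} (rel P p) s (root P) = s + 1 :=
    dth_not_mem fun h => h rfl
  refine ⟨h1.congr_d fun i => ?_, fun i hi => ?_, fun i hi => ?_, fun i hi => ?_⟩
  · by_cases hi : i = root P
    · subst hi
      rw [hr, dT_root]
      exact Or.inr ⟨by linarith, hδ.le⟩
    · rw [hd i hi, dT_exit hi]
      exact Or.inl rfl
  · have hi' : i ≠ root P := by
      rintro rfl
      rw [dT_root] at hi
      exact absurd hi (not_le.2 hδ)
    rw [dT_exit hi'] at hi ⊢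
    have := h2.pos i (by rw [hd i hi']; exact hi)
    rwa [hd i hi'] at this
  · have hi' : i ≠ root P := by
      rintro rfl
      rw [dT_root] at hi
      exact absurd hi (not_le.2 hδ)
    rw [dT_exit hi'] at hi ⊢
    have := h2.born i (by rw [hd i hi']; exact hi)
    rwa [hd i hi'] at this
  · have hi' : i ≠ root P := by
      rintro rfl
      rw [dT_root] at hi
      exact absurd hi (not_le.2 hδ)
    rw [dT_exit hi'] at hi ⊢
    obtain ⟨k, h3, h4, h5, h6, h7⟩ := h2.exit i (by rw [hd i hi']; exact hi)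
    rw [hd i hi'] at h4 h5 h6 h7
    refine ⟨k, h3, h4, ?_, h6, h7⟩
    by_cases hk : k = root P
    · subst hk
      rw [dT_root]
      exact hi.trans hδ.le
    · rw [dT_exit hk, ← hd k hk]
      exact h5

/-- The path of the root at the time `s`. -/
theorem flow_root (hΦ : AdmissiblePotential Φ) (hε : 0 < ε) (hs : 0 < s)
    (hv : Valid Φ ε P s ℓ.2 p) (hS : Sep Φ ε P s ℓ p) :
    flow Φ ε s (lines Φ ε P ℓ p) (root P) = onLine ℓ s := by
  rw [← path_eq_flow hΦ hε hv hS ⟨hs.le, le_rfl⟩]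
  exact path_root_after hε.le hv.2 le_rfl

/-- The motion of the tree in which the root flies freely after the time `s`. -/
def XT (Φ : Space3 → ℝ) (ε : ℝ) (P : CTree) (s : ℝ) (ℓ : PhasePoint) (p : Par P) (t : ℝ) :
    Idx P → PhasePoint :=
  if t ≤ s then flow Φ ε t (lines Φ ε P ℓ p) else fun _ => onLine ℓ t

theorem XT_le {t : ℝ} (ht : t ≤ s) :
    XT Φ ε P s ℓ p t = flow Φ ε t (lines Φ ε P ℓ p) := if_pos ht

theorem XT_root (hΦ : AdmissiblePotential Φ) (hε : 0 < ε) (hs : 0 < s)
    (hv : Valid Φ ε P s ℓ.2 p) (hS : Sep Φ ε P s ℓ p) {t : ℝ} (ht : s ≤ t) :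
    XT Φ ε P s ℓ p t (root P) = onLine ℓ t := by
  rcases ht.eq_or_lt with h | h
  · subst h
    rw [XT_le le_rfl, flow_root hΦ hε hs hv hS]
  · unfold XT
    rw [if_neg (not_le.2 h)]

theorem XT_zero (hΦ : AdmissiblePotential Φ) (hε : 0 < ε) (hs : 0 < s) :
    XT Φ ε P s ℓ p 0 = lines Φ ε P ℓ p := by
  rw [XT_le hs.le, Flow671.flow_zero hΦ hε]

theorem onLine_eq_lineAt (ℓ : PhasePoint) (s t : ℝ) : onLine ℓ t = lineAt s (onLine ℓ s) t := by
  unfold onLine lineAt
  refine Prod.ext ?_ rfl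
  simp only
  module

/-- **The tree alone**, the root survives up to `T`. -/
theorem dworld_E1 (hΦ : AdmissiblePotential Φ) (hε : 0 < ε) (hs : 0 < s)
    (hv : Valid Φ ε P s ℓ.2 p) (hS : Sep Φ ε P s ℓ p) {δ T : ℝ} (hsT : s ≤ T) (hδ : T < δ) :
    DWorld Φ ε (fun _ : Idx P => (0 : ℝ)) (dT P p δ) 0 T (XT Φ ε P s ℓ p) := by
  have h1 := (dworld_tree hΦ hε hs hv hS (hsT.trans_lt hδ)).1
  have h2 : DWorld Φ ε (fun _ : Idx P => (0 : ℝ)) (dT P p δ) s T (fun t _ => onLine ℓ t) := by
    let e : Unit ↪ Idx P := ⟨fun _ => root P, fun _ _ _ => rfl⟩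
    refine DWorld.of_emb e ?_ fun i hi => ?_
    · have h3 : DWorld Φ ε (fun _ : Unit => (0 : ℝ)) (fun _ => δ) s T
          (fun t _ => lineAt 0 ℓ t) := DWorld.line hΦ hε 0 ℓ δ s T
      have e1 : (fun i : Unit => dT P p δ (e i)) = fun _ => δ := by
        funext i
        exact dT_root P p δ
      rw [e1]
      refine h3.congr fun t _ _ _ _ => ?_
      unfold onLine lineAt
      rw [sub_zero]
    · have hi' : i ≠ root P := fun h => hi ⟨(), h.symm⟩
      rw [dT_exit hi']
      exact (rel_lt hε.le hs hv.2 i).le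
  refine DWorld.glue hs.le hsT h1 h2 (fun t _ ht i _ => by rw [XT_le ht]) fun t ht _ i hi => ?_
  by_cases hi' : i = root P
  · subst hi'
    exact XT_root hΦ hε hs hv hS ht
  · rw [dT_exit hi'] at hi
    exact absurd ((rel_lt hε.le hs hv.2 i).trans_le ht) (not_lt.2 hi)

theorem relD_E1 (hΦ : AdmissiblePotential Φ) (hε : 0 < ε) (hs : 0 < s)
    (hv : Valid Φ ε P s ℓ.2 p) (hS : Sep Φ ε P s ℓ p) {δ T : ℝ} (hsT : s ≤ T) (hδ : T < δ) :
    RelD ε (fun _ : Idx P => (0 : ℝ)) (dT P p δ) T (XT Φ ε P s ℓ p) := by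
  have h1 := (dworld_tree hΦ hε hs hv hS (hsT.trans_lt hδ)).2
  have hle : ∀ i, dT P p δ i ≤ T → dT P p δ i ≤ s := by
    intro i hi
    by_cases hi' : i = root P
    · subst hi'
      rw [dT_root] at hi
      exact absurd hi (not_le.2 hδ)
    · rw [dT_exit hi']
      exact (rel_lt hε.le hs hv.2 i).le
  refine ⟨fun i hi => h1.pos i (hle i hi), fun i hi => h1.born i (hle i hi), fun i hi => ?_⟩
  obtain ⟨k, h3, h4, h5, h6, h7⟩ := h1.exit i (hle i hi)
  refine ⟨k, h3, h4, h5, ?_, ?_⟩
  · rw [XT_le (hle i hi)]; exact h6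
  · rw [XT_le (hle i hi)]; exact h7

end tree

/-! ### The tree and the test line -/

section enc

variable {te T' : ℝ} {K : ℕ} {P : CTree} {z : PhasePoint × Par P} {m : ℕ} {w : Config m} {l : ML}

/-- The end of the encounter. -/
def tO (Φ : Space3 → ℝ) (ε : ℝ) (z : PhasePoint × Par P) (l : ML) : ℝ :=
  cT ε z l + outT Φ ε (cD ε z l)

/-- Deaths: the exits at their release times, the root and the test line at the end of the
encounter. -/
def dE (Φ : Space3 → ℝ) (ε : ℝ) (P : CTree) (z : PhasePoint × Par P) (l : ML) :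
    Idx P ⊕ Unit → ℝ := Sum.elim (dT P z.2 (tO Φ ε z l)) fun _ => tO Φ ε z l

/-- Births. -/
def bE (P : CTree) (q : ℝ) : Idx P ⊕ Unit → ℝ := Sum.elim (fun _ => 0) fun _ => q

/-- The motion of tree + test line. -/
def XE (Φ : Space3 → ℝ) (ε : ℝ) (P : CTree) (z : PhasePoint × Par P) (l : ML) (t : ℝ) :
    Idx P ⊕ Unit → PhasePoint :=
  if t ≤ cT ε z l then
    Sum.elim (flow Φ ε t (lines Φ ε P z.1 z.2)) fun _ => lineAt l.1.1 l.1.2 t
  else Sum.elim (fun _ => encPC Φ ε (cT ε z l) (cX ε z l) (cD ε z l) t)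
    fun _ => encPL Φ ε (cT ε z l) (cX ε z l) (cD ε z l) t

theorem XE_le {t : ℝ} (ht : t ≤ cT ε z l) : XE Φ ε P z l t =
    Sum.elim (flow Φ ε t (lines Φ ε P z.1 z.2)) fun _ => lineAt l.1.1 l.1.2 t := if_pos ht

variable (h : Real4 Φ ε K te T' P z w l)

include h in
/-- The living particles of the tree do not meet the test line before `cT`. -/
theorem far_alive (hΦ : AdmissiblePotential Φ) (hε : 0 < ε) {t : ℝ} (h0 : 0 ≤ t)
    (ht : l.1.1 ≤ t) (hts : t < cT ε z l) {i : Idx P} {δ : ℝ} (hi : t < dT P z.2 δ i) :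
    ε < dist (flow Φ ε t (lines Φ ε P z.1 z.2) i).1 (lineAt l.1.1 l.1.2 t).1 := by
  have hr := h.real
  have hp : t ≤ prot P (cT ε z l) z.2 i := by
    by_cases hi' : i = root P
    · subst hi'
      rw [PathFlow968.prot_root]
      exact hts.le
    · rw [dT_exit hi', rel_eq_prot P (cT ε z l) z.2 i hi'] at hi
      exact hi.le
  have h1 := h.freeFar hΦ hε t (Fin.castAdd m (eP P i)) ht hts h0
  rw [EBasic602.cfg_path hΦ hε, hr.agree i t h0 hp,
    path_eq_flow hΦ hε hr.valid hr.sep ⟨h0, hts.le⟩, dist_comm] at h1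
  exact h1

include h in
/-- The root at the contact time. -/
theorem state_root (hΦ : AdmissiblePotential Φ) (hε : 0 < ε) :
    flow Φ ε (cT ε z l) (lines Φ ε P z.1 z.2) (root P) = (cX ε z l, (cD ε z l).2.1) := by
  rw [flow_root hΦ hε h.pos h.real.valid h.real.sep]
  rfl

include h in
theorem XE_root (hΦ : AdmissiblePotential Φ) (hε : 0 < ε) (hq : CDpass Φ (cD ε z l)) {t : ℝ}
    (ht : cT ε z l ≤ t) : XE Φ ε P z l t (Sum.inl (root P)) =
      encPC Φ ε (cT ε z l) (cX ε z l) (cD ε z l) t := by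
  rcases ht.eq_or_lt with h1 | h1
  · rw [← h1, XE_le le_rfl, encPC_self hΦ hε hq.ok]
    exact state_root h hΦ hε
  · unfold XE
    rw [if_neg (not_le.2 h1)]
    rfl

include h in
theorem XE_line (hΦ : AdmissiblePotential Φ) (hε : 0 < ε) (hq : CDpass Φ (cD ε z l)) {t : ℝ}
    (ht : cT ε z l ≤ t) (x : Unit) : XE Φ ε P z l t (Sum.inr x) =
      encPL Φ ε (cT ε z l) (cX ε z l) (cD ε z l) t := by
  rcases ht.eq_or_lt with h1 | h1
  · rw [← h1, XE_le le_rfl, encPL_self hΦ hε hq.ok]
    exact h.state_l hε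
  · unfold XE
    rw [if_neg (not_le.2 h1)]
    rfl

include h in
/-- The motion up to the contact. -/
theorem dworld_before (hΦ : AdmissiblePotential Φ) (hε : 0 < ε) (hq : CDpass Φ (cD ε z l)) {q : ℝ}
    (hq1 : l.1.1 ≤ q) :
    DWorld Φ ε (bE P q) (dE Φ ε P z l) 0 (cT ε z l)
      (fun t => Sum.elim (flow Φ ε t (lines Φ ε P z.1 z.2)) fun _ => lineAt l.1.1 l.1.2 t) := by
  have hs := h.pos
  have hO : cT ε z l < tO Φ ε z l := by
    have := hq.outT_pos hε
    unfold tO
    linarith
  have h1 := (dworld_tree hΦ hε hs h.real.valid h.real.sep hO).1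
  have h2 : DWorld Φ ε (fun _ : Unit => q) (fun _ => tO Φ ε z l) 0 (cT ε z l)
      (fun t _ => lineAt l.1.1 l.1.2 t) := by
    refine (DWorld.line hΦ hε q (lineAt l.1.1 l.1.2 q) _ _ _).congr fun t _ _ _ _ => ?_
    exact (lineAt_lineAt l.1.1 q t l.1.2).symm
  exact DWorld.sum hΦ hε h1 h2 fun t ht hts i j _ hdi hbj _ =>
    (far_alive h hΦ hε ht (hq1.trans hbj) hts hdi).le

include h in
/-- The encounter. -/
theorem dworld_after (hΦ : AdmissiblePotential Φ) (hε : 0 < ε) (hq : CDpass Φ (cD ε z l)) {q : ℝ}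
    (hq2 : q ≤ cT ε z l) {T : ℝ} :
    DWorld Φ ε (bE P q) (dE Φ ε P z l) (cT ε z l) T
      (fun t => Sum.elim (fun _ => encPC Φ ε (cT ε z l) (cX ε z l) (cD ε z l) t)
        fun _ => encPL Φ ε (cT ε z l) (cX ε z l) (cD ε z l) t) := by
  have hs := h.pos
  let e : Fin 2 ↪ Idx P ⊕ Unit := ⟨![Sum.inr (), Sum.inl (root P)], by
    intro i j hij
    fin_cases i <;> fin_cases j
    · rfl
    · simp at hij
    · simp at hij
    · rfl⟩
  have e0 : e 0 = Sum.inr () := rfl
  have e1 : e 1 = Sum.inl (root P) := rfl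
  have hW := world_encP (s := cT ε z l) (y := cX ε z l) hΦ hε hq.ok
  have hB : BWorld Φ ε (fun i => bE P q (e i)) (cT ε z l) (fun t =>
      pr2 (encPL Φ ε (cT ε z l) (cX ε z l) (cD ε z l) t,
        encPC Φ ε (cT ε z l) (cX ε z l) (cD ε z l) t)) := World.bworld hW (by
    intro i
    fin_cases i
    · exact hq2
    · exact hs.le)
  refine DWorld.of_emb e ?_ fun i hi => ?_
  · have h1 := DWorld.of_bworld_const hΦ hε hB (tO Φ ε z l) T
    have h2 : (fun i => dE Φ ε P z l (e i)) = fun _ => tO Φ ε z l := by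
      funext i
      fin_cases i
      · rfl
      · exact dT_root P z.2 _
    rw [h2]
    refine h1.congr fun t _ _ i _ => ?_
    fin_cases i <;> rfl
  · rcases i with i | i
    · have hi' : i ≠ root P := fun h => hi ⟨1, by rw [e1, h]⟩
      show dT P z.2 _ i ≤ _
      rw [dT_exit hi']
      exact (rel_lt hε.le hs h.real.valid.2 i).le
    · exact absurd ⟨0, e0⟩ hi

include h in
/-- **The motion of tree + test line** up to the end of the encounter. -/
theorem dworld_E4 (hΦ : AdmissiblePotential Φ) (hε : 0 < ε) (hq : CDpass Φ (cD ε z l)) {q : ℝ}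
    (hq1 : l.1.1 ≤ q) (hq2 : q ≤ cT ε z l) :
    DWorld Φ ε (bE P q) (dE Φ ε P z l) 0 (tO Φ ε z l) (XE Φ ε P z l) := by
  have hs := h.pos
  have hO : cT ε z l ≤ tO Φ ε z l := by
    have := hq.outT_pos hε
    unfold tO
    linarith
  refine DWorld.glue hs.le hO (dworld_before h hΦ hε hq hq1) (dworld_after h hΦ hε hq hq2)
    (fun t _ ht i _ => by rw [XE_le ht]) fun t ht _ i hi => ?_
  rcases i with i | i
  · by_cases hi' : i = root P
    · subst hi'
      exact XE_root h hΦ hε hq ht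
    · have h1 : t ≤ dT P z.2 (tO Φ ε z l) i := hi
      rw [dT_exit hi'] at h1
      exact absurd ((rel_lt hε.le hs h.real.valid.2 i).trans_le ht) (not_lt.2 h1)
  · exact XE_line h hΦ hε hq ht i

include h in
/-- **Release data** of tree + test line. -/
theorem relD_E4 (hΦ : AdmissiblePotential Φ) (hε : 0 < ε) (hq : CDpass Φ (cD ε z l)) {q : ℝ}
    (hq2 : q ≤ cT ε z l) :
    RelD ε (bE P q) (dE Φ ε P z l) (tO Φ ε z l) (XE Φ ε P z l) := by
  have hs := h.pos
  have hO : cT ε z l < tO Φ ε z l := by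
    have := hq.outT_pos hε
    unfold tO
    linarith
  have hT0 : 0 < tO Φ ε z l := hs.trans hO
  have h1 := (dworld_tree hΦ hε hs h.real.valid h.real.sep hO).2
  have hroot : dE Φ ε P z l (Sum.inl (root P)) = tO Φ ε z l := dT_root P z.2 _
  have hex : ∀ i, i ≠ root P → dT P z.2 (tO Φ ε z l) i < cT ε z l := fun i hi => by
    rw [dT_exit hi]
    exact rel_lt hε.le hs h.real.valid.2 i
  have hE := exit_enc (s := cT ε z l) (y := cX ε z l) hΦ hε hq
  have eL := XE_line h hΦ hε hq hO.le ()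
  have eC := XE_root h hΦ hε hq hO.le
  refine ⟨fun i _ => ?_, fun i _ => ?_, fun i _ => ?_⟩
  · rcases i with i | i
    · by_cases hi : i = root P
      · subst hi
        rw [hroot]
        exact hT0
      · exact h1.pos i (hex i hi).le
    · exact hT0
  · rcases i with i | i
    · by_cases hi : i = root P
      · subst hi
        rw [hroot]
        exact hT0.le
      · exact h1.born i (hex i hi).le
    · exact hq2.trans hO.le
  · rcases i with i | i
    · by_cases hi : i = root P
      · subst hi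
        rw [hroot]
        refine ⟨Sum.inr (), by simp, hq2.trans hO.le, le_rfl, ?_⟩
        rw [eL, eC]
        exact hE.symm
      · obtain ⟨k, h3, h4, h5, h6, h7⟩ := h1.exit i (hex i hi).le
        refine ⟨Sum.inl k, fun h => h3 (Sum.inl_injective h), h4, h5, ?_⟩
        have e1 : XE Φ ε P z l (dE Φ ε P z l (Sum.inl i)) = _ := XE_le (hex i hi).le
        rw [e1]
        exact ⟨h6, h7⟩
    · refine ⟨Sum.inl (root P), by simp, hT0.le, hroot.ge, ?_⟩
      have e2 : dE Φ ε P z l (Sum.inr i) = tO Φ ε z l := rfl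
      rw [e2, eC, XE_line h hΦ hε hq hO.le i]
      exact hE

include h in
theorem XE_zero (hΦ : AdmissiblePotential Φ) (hε : 0 < ε) :
    XE Φ ε P z l 0 = Sum.elim (lines Φ ε P z.1 z.2) fun _ => back l.1 := by
  rw [XE_le h.pos.le, Flow671.flow_zero hΦ hε, back_eq]

end enc

end

end Crest.Agent.R122.OkE167
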