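import Crest.Agent.R122.RealA_811

/-!
# No double lines in the world in which `e` is inserted (row 122, E_FINAL (1.6')), helper811

`L : MW α` world with lines, `hit : Hit Φ ε L e c s₁ s₁'`, `e` meets first the line `c`;
`encW ≅ Z + lines ls` : the world after the encounter, `FamNL Φ ε K T Z ls s` : no touch before `s`
and no link. Then in `L + e` no clean particle has two of the lines `D` in its past up to `s`, where
`D` consists of lines of `ls` and `c`.
-/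

set_option autoImplicit false
set_option linter.unusedSectionVars false

open MeasureTheory Set Filter Topology
open scoped ENNReal
open Crest.AnalysisR.Kinetic
open Crest.Agent.R122.Flow671 Crest.Agent.R122.Loc45 Crest.Agent.R122.Ins45
open Crest.Agent.R122.Causal291 Crest.Agent.R122.Inf879 Crest.Agent.R122.EDefs602
open Crest.Agent.R122.Lines255 Crest.Agent.R122.MWAlg255
open Crest.Agent.R122.MWFam255 (FamNL)

namespace Crest.Agent.R122.RealL811

noncomputable section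

open scoped Classical

section bc

variable {α : Type} [Fintype α] {Φ : Space3 → ℝ} {ε s₁ s₁' t : ℝ} {L : MW α} {e : ML} {c : α}

/-- Backward clusters before the encounter of `e` and `c` is taken out. -/
theorem bc_enc (hit : Hit Φ ε L e c s₁ s₁') (hΦ : AdmissiblePotential Φ) (hε : 0 < ε)
    (hL : L.Ok Φ ε) (hLe : (L.ins e).Ok Φ ε) {x y : α ⊕ Unit} (hx : x ∈ encD c → s₁' ≤ t)
    (hy : y ∈ BC ((L.ins e).C Φ ε) t x) :
    (y ∉ encD c ∧ y ∈ BC ((encW Φ ε L e c s₁').C Φ ε) t x) ∨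
      (y ∈ encD c ∧ ∃ j ∈ encD c, j ∈ BC ((encW Φ ε L e c s₁').C Φ ε) t x) := by
  have h1 := Lines255.bc_eq (i := x) (t := t) (hit.closed hΦ hε hL hLe)
    (fun _ _ _ hc => MW.C_symm _ hc) (hit.lines hΦ hε hL hLe)
    (fun hx' => by rw [encB_of_mem hx']; exact hx hx') (fun j _ => hit.encB_nonneg j)
  rw [h1] at hy
  rcases hy with ⟨h2, h3⟩ | hy
  · exact Or.inl ⟨h3, h2⟩
  · right
    simp only [mem_iUnion, mem_inter_iff, exists_prop] at hy
    obtain ⟨j, ⟨h2, h3⟩, h4⟩ := hy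
    rw [encB_of_mem h3, hit.bc_eq hΦ hε hL hLe h3] at h4
    exact ⟨h4, j, h3, h2⟩

end bc

section nde

variable {α ι κ' : Type} [Fintype α] [Fintype ι] [Fintype κ'] {Φ : Space3 → ℝ}
  {ε T s v s₁ s₁' t : ℝ} {K : ℕ} {L : MW α} {e : ML} {c : α} {Z : MW ι} {ls : κ' → ML}
  {φ : ι ⊕ κ' ≃ α ⊕ Unit} {W : MW (α ⊕ Unit)} {D : Set (α ⊕ Unit)}

/-- In `L + e`, the lines of `D` in the past of `x` reduce to one if the past after the encounter
contains at most one line. -/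
theorem sub_of_unique (hit : Hit Φ ε L e c s₁ s₁') (hΦ : AdmissiblePotential Φ) (hε : 0 < ε)
    (hL : L.Ok Φ ε) (hLe : (L.ins e).Ok Φ ε)
    (hφ : (encW Φ ε L e c s₁').comap φ = Z.add (MW.lines ls))
    (henc : ∀ x ∈ encD c, φ.symm x ∈ range Sum.inr)
    (hD : ∀ x ∈ D, φ.symm x ∈ range Sum.inr) (hDe : ∀ x ∈ D, x ∈ encD c → x = Sum.inl c)
    {x : α ⊕ Unit} (hx : x ∈ encD c → s₁' ≤ t)
    (hu : (BC ((Z.add (MW.lines ls)).C Φ ε) t (φ.symm x) ∩ range Sum.inr).Subsingleton) :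
    (BC ((L.ins e).C Φ ε) t x ∩ D).Subsingleton := by
  have key : ∀ j, j ∈ BC ((encW Φ ε L e c s₁').C Φ ε) t x →
      φ.symm j ∈ BC ((Z.add (MW.lines ls)).C Φ ε) t (φ.symm x) := by
    intro j hj
    have h1 := EquivE416.past_comap hΦ hε (encW Φ ε L e c s₁') φ (t := t) (s := 0)
      (i := φ.symm x) (k := φ.symm j)
    rw [hφ, Equiv.apply_symm_apply, Equiv.apply_symm_apply] at h1
    exact h1.2 hj
  rintro y ⟨hy, hyD⟩ y' ⟨hy', hyD'⟩
  rcases bc_enc hit hΦ hε hL hLe hx hy with ⟨h1, h2⟩ | ⟨h1, j, hj, h2⟩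
  · rcases bc_enc hit hΦ hε hL hLe hx hy' with ⟨h1', h2'⟩ | ⟨h1', j', hj', h2'⟩
    · exact φ.symm.injective (hu ⟨key _ h2, hD y hyD⟩ ⟨key _ h2', hD y' hyD'⟩)
    · have h3 := φ.symm.injective (hu ⟨key _ h2, hD y hyD⟩ ⟨key _ h2', henc j' hj'⟩)
      exact absurd (h3 ▸ hj') h1
  · rcases bc_enc hit hΦ hε hL hLe hx hy' with ⟨h1', h2'⟩ | ⟨h1', j', hj', h2'⟩
    · have h3 := φ.symm.injective (hu ⟨key _ h2', hD y' hyD'⟩ ⟨key _ h2, henc j hj⟩)
      exact absurd (h3 ▸ hj) h1'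
    · rw [hDe y hyD h1, hDe y' hyD' h1']

/-- Infections before and after the encounter agree if there are no double lines. -/
theorem inf_enc_iff (hit : Hit Φ ε L e c s₁ s₁') (hΦ : AdmissiblePotential Φ) (hε : 0 < ε)
    (hL : L.Ok Φ ε) (hLe : (L.ins e).Ok Φ ε) (hK : e.2 + L.m c ≤ K)
    (hφ : (encW Φ ε L e c s₁').comap φ = Z.add (MW.lines ls))
    (henc : ∀ x ∈ encD c, φ.symm x ∈ range Sum.inr) {r : ℝ} {y : α ⊕ Unit}
    (hu : (BC ((Z.add (MW.lines ls)).C Φ ε) r (φ.symm y) ∩ range Sum.inr).Subsingleton) :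
    (L.ins e).Inf Φ ε K r y ↔ (Z.add (MW.lines ls)).Inf Φ ε K r (φ.symm y) := by
  have h0 : (Z.add (MW.lines ls)).Inf Φ ε K r (φ.symm y) ↔
      (encW Φ ε L e c s₁').Inf Φ ε K r y := by
    rw [← hφ, MWAlg255.Inf_comap hΦ hε, Equiv.apply_symm_apply]
  rw [h0]
  have hR := hit.repl hΦ hε hL hLe hK
  have h1 := Lines255.infd_iff_all (K := K) (i := y) (t := r) (m := (L.ins e).m) hR.closed
    hR.symm hR.lines hR.pos hR.clean (fun _ _ => ?_)
  · exact h1
  · rintro j ⟨hj, hjD⟩ j' ⟨hj', hjD'⟩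
    have key : ∀ j, j ∈ BC ((encW Φ ε L e c s₁').C Φ ε) r y →
        φ.symm j ∈ BC ((Z.add (MW.lines ls)).C Φ ε) r (φ.symm y) := by
      intro j hj
      have h1 := EquivE416.past_comap hΦ hε (encW Φ ε L e c s₁') φ (t := r) (s := 0)
        (i := φ.symm y) (k := φ.symm j)
      rw [hφ, Equiv.apply_symm_apply, Equiv.apply_symm_apply] at h1
      exact h1.2 hj
    exact φ.symm.injective (hu ⟨key _ hj, henc j hjD⟩ ⟨key _ hj', henc j' hjD'⟩)

/-- **No double lines in `L + e`.** -/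
theorem nde (hit : Hit Φ ε L e c s₁ s₁') (hΦ : AdmissiblePotential Φ) (hε : 0 < ε)
    (hL : L.Ok Φ ε) (hLe : (L.ins e).Ok Φ ε) (hK : e.2 + L.m c ≤ K)
    (h : FamNL Φ ε K T Z ls s)
    (hφ : (encW Φ ε L e c s₁').comap φ = Z.add (MW.lines ls))
    (henc : ∀ x ∈ encD c, φ.symm x ∈ range Sum.inr)
    (hR : RL Φ ε K W (L.ins e) D v) (hsv : s ≤ v)
    (hD : ∀ x ∈ D, φ.symm x ∈ range Sum.inr) (hDe : ∀ x ∈ D, x ∈ encD c → x = Sum.inl c)
    (hm : ∀ x ∈ D, (L.ins e).b x ≤ v → msize (W.C Φ ε) W.m ((L.ins e).b x) x = (L.ins e).m x)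
    (ht0 : 0 ≤ t) (ht : t ≤ s) : ND Φ ε K W (L.ins e) D t := by
  intro i hi hcl
  by_cases hie : i ∈ encD c → s₁' ≤ t
  swap
  · -- before the exit time the past of `c` and `e` stays in the encounter
    push Not at hie
    obtain ⟨hie, hlt⟩ := hie
    rintro y ⟨hy, hyD⟩ y' ⟨hy', hyD'⟩
    have key : ∀ q, q ∈ BC ((L.ins e).C Φ ε) t i → q ∈ encD c := fun q hq =>
      (Lines255.own_past (hit.closed hΦ hε hL hLe) hie (s₀ := t)
        (by rw [encB_of_mem hie]; exact hlt.le) hq).1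
    rw [hDe y hyD (key y hy), hDe y' hyD' (key y' hy')]
  refine sub_of_unique hit hΦ hε hL hLe hφ henc hD hDe hie ?_
  refine MWFam255.past_unique hΦ hε h ht0 ht ?_
  intro v' y hp hv0 r hr hrv hI
  have hrs : r < s := (hrv.trans_le hp.le).trans_le ht
  -- the infection in the world `L + e`
  have hy1 : (L.ins e).Inf Φ ε K r (φ y) := by
    refine (inf_enc_iff hit hΦ hε hL hLe hK hφ henc ?_).2 ?_
    · exact MWFam255.past_unique_lt hΦ hε h hr hrs _
    · rwa [Equiv.symm_apply_apply]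
  -- no double lines at time `r`
  have hnd : (φ y ∈ D → (L.ins e).b (φ y) ≤ r) → ¬ W.Inf Φ ε K r (φ y) →
      (BC ((L.ins e).C Φ ε) r (φ y) ∩ D).Subsingleton := by
    intro _ _
    by_cases hye : φ y ∈ encD c → s₁' ≤ r
    · exact sub_of_unique hit hΦ hε hL hLe hφ henc hD hDe hye
        (MWFam255.past_unique_lt hΦ hε h hr hrs _)
    · push Not at hye
      obtain ⟨hye, hlt⟩ := hye
      rintro q ⟨hq, hqD⟩ q' ⟨hq', hqD'⟩
      have key : ∀ q, q ∈ BC ((L.ins e).C Φ ε) r (φ y) → q ∈ encD c := fun q hq =>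
        (Lines255.own_past (hit.closed hΦ hε hL hLe) hye (s₀ := r)
          (by rw [encB_of_mem hye]; exact hlt.le) hq).1
      rw [hDe q hqD (key q hq), hDe q' hqD' (key q' hq')]
  have hreal : W.Inf Φ ε K r (φ y) := (hR.inf_iff hΦ hε hm (hrs.le.trans hsv) hnd).2 hy1
  have hvis : φ y ∈ D → (L.ins e).b (φ y) ≤ r :=
    hR.born_of_inf hΦ hε (hrs.le.trans hsv) hy1
  -- the past in the world `L + e`
  have hp' : Past ((encW Φ ε L e c s₁').C Φ ε) t i r (φ y) := by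
    have h1 := EquivE416.past_comap hΦ hε (encW Φ ε L e c s₁') φ (t := t) (s := r)
      (i := φ.symm i) (k := y)
    rw [hφ, Equiv.apply_symm_apply] at h1
    exact h1.1 (hp.mono hrv.le)
  have hp2 : Past ((L.ins e).C Φ ε) t i r (φ y) := hp'.mono_rel (hit.lines hΦ hε hL hLe).sub
  have hpast : Past (W.C Φ ε) t i r (φ y) := hR.past_real hΦ hε (ht.trans hsv) hi hp2 hvis
  exact hcl (Infd.of_past hpast hreal)

end nde

end

end Crest.Agent.R122.RealL811
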