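import Crest.Agent.R122.SizeX2_974
import Crest.Agent.R122.NEK_370
import Crest.Agent.R122.InEq2V_263
import Crest.Agent.R122.TopDefs_602

/-!
# Row 122: first-moment no escape at the end of the window (helper602)

* `escMass_le_JE`, `NE_of_JS` : energy-weighted no escape gives no escape of mass.
* `bandMass_le_bandX` : band mass against the weighted band mass of `SizeX2_974`.
* `nek_of_sxb` : `NEK` at every time of the window from `JS` and the geometric bound `SXB`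
  (which only uses the identification at the beginning of the window).
-/

set_option autoImplicit false

open MeasureTheory Set Filter
open scoped ENNReal Topology Classical
open Crest.AnalysisR.Kinetic Crest.Agent.R122.GC311 Crest.Agent.R122.Causal291
  Crest.Agent.R122.Master566 Crest.Agent.R122.EDefs602 Crest.Agent.R122.SizeX974
  Crest.Agent.R122.NEK370 Crest.Agent.R122.EW370 Crest.Agent.R122.Energy410

noncomputable section

namespace Crest.Agent.R122.NEK602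

variable {Φ : Space3 → ℝ} {β T : ℝ} {f₀ : PhasePoint → ℝ} {f : ℝ → PhasePoint → ℝ} {ε : ℝ}
  {K : ℕ} {t : ℝ}

/-- The escaping mass is bounded by the energy of the escaping family. -/
theorem escMass_le_JE (hΦ : AdmissiblePotential Φ) (hε : 0 < ε) (ht : 0 ≤ t) :
    escMass Φ f₀ ε K t ≤ JE Φ f₀ ε K t := by
  rw [Unw410.JE_eq]
  unfold escMass
  refine gcE_mono f₀ ε fun n Z hZ => ?_
  refine mul_le_mul_right ?_ _
  have hfar : ∀ i j : Fin n, i ≠ j → ε ≤ dist (Z i).1 (Z j).1 := fun i j hij =>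
    (hZ i j hij).le
  have h1 := speed_le_Jeng hΦ hε hfar ht (bad Φ ε K Z t)
  have h2 : ((Finset.univ.filter fun i : Fin n => K < (bc Φ ε Z t i).ncard).card : ℝ) ≤
      ∑ i ∈ bad Φ ε K Z t, (1 + ‖(Flow671.flow Φ ε t Z i).2‖) := by
    calc ((Finset.univ.filter fun i : Fin n => K < (bc Φ ε Z t i).ncard).card : ℝ)
        = ∑ _i ∈ bad Φ ε K Z t, (1 : ℝ) := by
          rw [Finset.sum_const, nsmul_eq_mul, mul_one]
          rfl
      _ ≤ _ := Finset.sum_le_sum fun i _ => by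
          have := norm_nonneg (Flow671.flow Φ ε t Z i).2
          linarith
  calc ((Finset.univ.filter fun i : Fin n => K < (bc Φ ε Z t i).ncard).card : ℝ≥0∞)
      = ENNReal.ofReal
        ((Finset.univ.filter fun i : Fin n => K < (bc Φ ε Z t i).ncard).card : ℝ) := by
        rw [ENNReal.ofReal_natCast]
    _ ≤ _ := ENNReal.ofReal_le_ofReal (h2.trans h1)

/-- Energy-weighted no escape gives no escape of mass. -/
theorem NE_of_JS (hΦ : AdmissiblePotential Φ) (ht : 0 ≤ t) (h : JS Φ f₀ t) : NE Φ f₀ t := by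
  intro δ hδ
  obtain ⟨K₀, hK₀⟩ := h δ hδ
  obtain ⟨ε₀, hε₀, h1⟩ := hK₀ K₀ le_rfl
  exact ⟨K₀, ε₀, hε₀, fun ε hε hlt => (escMass_le_JE hΦ hε ht).trans (h1 ε hε hlt)⟩

/-- The band mass is at most the weighted band mass. -/
theorem bandMass_le_bandX (ht : 0 ≤ t) (K₁ K : ℕ) :
    bandMass Φ f₀ ε K₁ K t ≤ bandX Φ f₀ ε K₁ K t := by
  unfold bandMass sizeMass bandX
  refine gcE_mono f₀ ε fun n Z _ => ?_
  refine mul_le_mul_right ?_ _
  rw [cnt_eq]
  refine Finset.sum_le_sum fun i _ => ?_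
  have hcard : (bc Φ ε Z t i).toFinset.card = (bc Φ ε Z t i).ncard := by
    rw [Set.ncard_eq_toFinset_card']
  by_cases h : (bc Φ ε Z t i).ncard ∈ Ioc K₁ K
  · rw [indicator_of_mem h, if_pos (by rw [hcard]; exact h)]
    refine InEq2U263.one_le_eW Z (q := i) ?_
    rw [Set.mem_toFinset]
    exact root_mem_BC ht
  · rw [indicator_of_notMem h]
    exact zero_le

/-- The geometric band bound at a time of the window. -/
theorem band_of_sxb {r C tw te : ℝ} (h0 : 0 ≤ tw) (h : SXB Φ f₀ r C tw te) {s : ℝ}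
    (hs : s ∈ Icc tw te) : Band Φ f₀ s fun K => r ^ K * C := by
  intro K₁ K δ hδ
  obtain ⟨ε₀, hε₀, h1⟩ := h K₁ K δ hδ
  exact ⟨ε₀, hε₀, fun ε hε hlt =>
    (bandMass_le_bandX (h0.trans hs.1) K₁ K).trans (h1 ε hε hlt s hs)⟩

/-- **`NEK` at the times of the window.** -/
theorem nek_of_sxb (hΦ : AdmissiblePotential Φ) (hf : Measurable f₀) {r C tw te : ℝ} (hr : 0 < r)
    (hr1 : r < 1) (hC : 0 ≤ C) (h0 : 0 ≤ tw) (h : SXB Φ f₀ r C tw te) {s : ℝ}
    (hs : s ∈ Icc tw te) (hJ : JS Φ f₀ s) : NEK Φ f₀ s :=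
  NEK_of_geometric hΦ hf (NE_of_JS hΦ (h0.trans hs.1) hJ) hr.le hr1 hC (band_of_sxb h0 h hs)

/-- **`NEK` at the end of the window from the inputs `NGC` (D5) and `RGC` (H12).** -/
theorem exists_nek (hD : KData Φ β T f₀ f) :
    ∃ h₀ : ℝ, 0 < h₀ ∧ ∀ tw ∈ Icc 0 T, ∀ te T' : ℝ, tw ≤ te → te ≤ T' → T' ≤ tw + h₀ →
      GIV566.GIV Φ f₀ f T tw → NGC Φ f₀ te T' → RGC Φ f₀ tw te T' → Top602.JSup Φ f₀ te →
        NEK Φ f₀ te := by
  obtain ⟨h₀, r, C, hh₀, hr, hr1, hC, h⟩ := exists_bandX hD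
  refine ⟨h₀, hh₀, fun tw htw te T' h1 h2 h3 hG hN hR hJ => ?_⟩
  have hte : 0 ≤ te := htw.1.trans h1
  refine nek_of_sxb hD.adm hD.contDiff.continuous.measurable hr hr1 hC htw.1
    (h tw htw te T' ⟨hte.trans h2, h3⟩ hG hN hR) (right_mem_Icc.2 h1) ?_
  exact Small.mono hJ fun _ _ _ =>
    le_iSup₂_of_le (f := fun (s : ℝ) (_ : s ∈ Icc 0 te) => JE Φ f₀ _ _ s) te
      ⟨hte, le_rfl⟩ le_rfl

end Crest.Agent.R122.NEK602
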