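import Crest.Agent.R122.E6Real_811
import Crest.Agent.R122.R6Tree_974

/-!
# World consistency for a test line and a real tree (row 122, E6), helper974

* `RL.ext` : the replacement data hold at every later horizon if all lines have been born.
* `RealAt` : the real cluster `A` with lines `F` in the worlds `Y`, `Y + x`, up to a horizon;
  `w1_realAt` : `W1 (firstT Y F) (θ(Y, x)) (θ(Y + A, x))` from pairwise absence of links of `F + x` in
  `Y` and `RealAt .. s` for all `s` not later than the touch times of the single lines `F`, `x`.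
* `realAt_tree`, `w1_treeAt`, `w1_tree` : `A = treeW`, from `TreeIn`.
* `firstT_le_tree`, `badF_subset_badN_tree` : `badF ⊆ badN` for a real tree.
* `R6.w_Ld`, `R6.badF₁`, `R6.badF₂` : the instances from `Real6` and `E6Hyp`.
-/

set_option autoImplicit false
set_option linter.unusedSectionVars false

open MeasureTheory Set Filter Topology
open scoped ENNReal
open Crest.AnalysisR.Kinetic
open Crest.Agent.R122.Flow671 hiding rel
open Crest.Agent.R122.Loc45 Crest.Agent.R122.Ins45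
open Crest.Agent.R122.Causal291 Crest.Agent.R122.Inf879 Crest.Agent.R122.EDefs602
open Crest.Agent.R122.Lines255 Crest.Agent.R122.MWAlg255 Crest.Agent.R122.Decomp811
open Crest.Agent.R122.Kin796 Crest.Agent.R122.Kin796.CTree Crest.Agent.R122.Tree674
open Crest.Agent.R122.TreeLines335
open Crest.Agent.R122.MWFam255 (FamNL PairNL)
open Crest.Agent.R122.E6Hyp879 (E6Hyp withD)
open Crest.Agent.R122.RealL811 (RL ND DF nd_fam compat_ins touched_lines touched_lines_iff treeW)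
open Crest.Agent.R122.Boost969 (LSt)
open Crest.Agent.R122.Pair292 (Lab)
open Crest.Agent.R122.OneC285 (cfT rt cT)
open Crest.Agent.R122.PairD292

namespace Crest.Agent.R122.RealX974

noncomputable section

open scoped Classical

/-- **Later horizon**: all lines have been born at `v'`. -/
theorem RL.ext {α : Type} [Fintype α] {Φ : Space3 → ℝ} {ε v v' : ℝ} {K : ℕ} {W W' : MW α}
    {D : Set α} (h : RL Φ ε K W W' D v') (hb : ∀ x ∈ D, W'.b x ≤ v') (hv : v' ≤ v) :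
    RL Φ ε K W W' D v where
  ok := h.ok
  ok' := h.ok'
  b0 := h.b0
  le := h.le
  bD x hx := (h.bD x hx).trans hv
  off_b := h.off_b
  off_z := h.off_z
  off_m := h.off_m
  closed s j k _ hj hsj hc := h.closed s j k (hsj.trans (hb j hj)) hj hsj hc
  line x hx _ := h.line x hx (hb x hx)
  mark x hx _ := h.mark x hx (hb x hx)
  clean := h.clean
  cleanD x hx hlt := absurd ((hb x hx).trans hv) (not_le.2 hlt)

section real

variable {ι κ : Type} [Fintype ι] [Fintype κ] {Φ : Space3 → ℝ} {ε T v : ℝ} {K : ℕ}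
  {Y : MW ι} {A : MW κ} {F : κ → ML} {x : ML}

/-- Labels of `Y + F + x`. -/
theorem comap_withD (Y : MW ι) (F : κ → ML) (x : ML) :
    ((Y.add (MW.lines F)).ins x).comap (Equiv.sumAssoc ι κ Unit).symm =
      Y.add (MW.lines (withD F x)) := by
  unfold MW.ins MW.add MW.comap MW.line MW.lines withD
  congr 1 <;> · funext x; rcases x with x | x | x <;> rfl

/-- The real cluster `A` with lines `F` in the worlds `Y`, `Y + x`, up to the horizon `v`. -/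
structure RealAt (Φ : Space3 → ℝ) (ε : ℝ) (K : ℕ) (Y : MW ι) (A : MW κ) (F : κ → ML) (x : ML)
    (v : ℝ) : Prop where
  rl₁ : RL Φ ε K (Y.add A) (Y.add (MW.lines F)) (range Sum.inr) v
  rl₂ : RL Φ ε K ((Y.add A).ins x) ((Y.add (MW.lines F)).ins x) (DF ι κ) v
  m₁ : ∀ y ∈ range (Sum.inr : κ → ι ⊕ κ), (Y.add (MW.lines F)).b y ≤ v →
    msize ((Y.add A).C Φ ε) (Y.add A).m ((Y.add (MW.lines F)).b y) y = (Y.add (MW.lines F)).m y
  m₂ : ∀ y ∈ DF ι κ, ((Y.add (MW.lines F)).ins x).b y ≤ v →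
    msize (((Y.add A).ins x).C Φ ε) ((Y.add A).ins x).m (((Y.add (MW.lines F)).ins x).b y) y =
      ((Y.add (MW.lines F)).ins x).m y

theorem RealAt.compat (hΦ : AdmissiblePotential Φ) (hε : 0 < ε)
    (h : RealAt Φ ε K Y A F x v) :
    Compat ((Y.add A).path Φ ε) ((Y.add (MW.lines F)).path Φ ε) (((Y.add A).ins x).path Φ ε)
      (((Y.add (MW.lines F)).ins x).path Φ ε) (id : ι ⊕ κ → ι ⊕ κ) Sum.inl (range Sum.inr)
      (DF ι κ) (Y.add (MW.lines F)).b ((Y.add (MW.lines F)).ins x).b := by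
  have hD : (Sum.inl : ι ⊕ κ → (ι ⊕ κ) ⊕ Unit) '' range Sum.inr = DF ι κ := by
    ext y
    constructor
    · rintro ⟨_, ⟨k, rfl⟩, rfl⟩
      exact ⟨k, rfl⟩
    · rintro ⟨k, rfl⟩
      exact ⟨_, ⟨k, rfl⟩, rfl⟩
  have hC := compat_ins hΦ hε x h.rl₁.off_z
  rw [hD] at hC
  exact hC

/-- **World consistency of a test line `x` for the real cluster `A`** with lines `F`, up to the first
touch of the single lines `F`. The real cluster is real only up to the touch times. -/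
theorem w1_realAt (hΦ : AdmissiblePotential Φ) (hε : 0 < ε) (hT : 0 ≤ T)
    (okA : (Y.add A).Ok Φ ε) (okx : ((Y.add A).ins x).Ok Φ ε)
    (hok : MW.OkFam Φ ε Y (withD F x)) (hnl : PairNL Φ ε K T Y (withD F x))
    (h : ∀ s, 0 ≤ s → s ≤ T → s ≤ firstT Φ ε K T Y F → s ≤ Y.thetaL Φ ε K T x →
      RealAt Φ ε K Y A F x s) :
    W1 (firstT Φ ε K T Y F) (Y.thetaL Φ ε K T x) ((Y.add A).thetaL Φ ε K T x) := by
  have hYok : Y.Ok Φ ε := hok.base hΦ hε
  have hok' : MW.OkFam Φ ε Y F := MWFam255.okFam_comp hΦ hε hok (E6Hyp879.inlEmb κ Unit)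
  have hnl' : PairNL Φ ε K T Y F := fun j k hjk =>
    hnl (Sum.inl j) (Sum.inl k) fun h => hjk (Sum.inl_injective h)
  have hx : (Y.add (MW.line x)).Ok Φ ε := hok.line hΦ hε (Sum.inr ())
  have hfam : Y.theta Φ ε K T (MW.lines F) = firstT Φ ε K T Y F :=
    MWFam255.theta_lines_eq hΦ hε hT hok hnl (E6Hyp879.inlEmb κ Unit)
  have hW : W1 (firstT Φ ε K T Y F) (Y.thetaL Φ ε K T x)
      ((Y.add (MW.lines F)).thetaL Φ ε K T x) := by
    rw [← hfam]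
    exact MWFam255.w1E_lines_line hΦ hε hT hok hnl (E6Hyp879.inlEmb κ Unit) (Sum.inr ())
      fun _ h => by cases h
  refine W1.of_S (fun hle => ?_) (fun hle => ?_)
  · -- a touch in `Y` is a touch in `Y + A`
    rcases MW.theta_le_or (K := K) (T := T) hΦ hε hYok hx with h3 | h3
    · set s := Y.thetaL Φ ε K T x with hs
      have hs0 : 0 ≤ s := MW.theta_nonneg hT
      have hsT : s ≤ T := h3
      have hR := h s hs0 hsT hle le_rfl
      have h4 : (Y.add (MW.lines F)).thetaL Φ ε K T x ≤ s := (hW.eq hle).le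
      have hf1 : FamNL Φ ε K T Y F s := MWFam255.famNL_of_pair hok' hnl' hs0 hsT fun k =>
        hle.trans (firstT_le Φ ε K T Y F k)
      have hf2 : FamNL Φ ε K T Y (withD F x) s :=
        MWFam255.famNL_of_pair hok hnl hs0 hsT fun k => by
          rcases k with k | u
          · exact hle.trans (firstT_le Φ ε K T Y F k)
          · exact le_rfl
      have hT1 : (Y.add (MW.lines F)).Touched Φ ε K (MW.line x) s :=
        (MW.touched_iff hΦ hε hR.rl₁.ok' hR.rl₂.ok' ⟨hs0, hsT⟩).2 h4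
      have hN₁ : ND Φ ε K (Y.add A) (Y.add (MW.lines F)) (range Sum.inr) s :=
        RealL811.nd_of_famNL hΦ hε hf1 hR.rl₁ le_rfl le_rfl hR.m₁ hs0 le_rfl
      have hN₂ : ND Φ ε K ((Y.add A).ins x) ((Y.add (MW.lines F)).ins x) (DF ι κ) s :=
        nd_fam hΦ hε hf2 (comap_withD Y F x) hR.rl₂ le_rfl (by
          rintro _ ⟨k, rfl⟩
          exact ⟨Sum.inl k, rfl⟩) hR.m₂ hs0 le_rfl
      have hT2 : (Y.add A).Touched Φ ε K (MW.line x) s :=
        (touched_lines_iff hΦ hε hR.rl₁ hR.rl₂ (hR.compat hΦ hε) le_rfl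
          (fun y => hR.rl₁.inf_iff hΦ hε hR.m₁ le_rfl (hN₁ y))
          (fun y => hR.rl₂.inf_iff hΦ hε hR.m₂ le_rfl (hN₂ y))).2 hT1
      exact (MW.touched_iff hΦ hε okA okx ⟨hs0, hsT⟩).1 hT2
    · have h4 : Y.thetaL Φ ε K T x = T + 1 := h3
      rw [h4]
      exact MW.theta_le
  · -- a touch in `Y + A` is a touch in `Y`
    rcases MW.theta_le_or (K := K) (T := T) hΦ hε okA okx with h3 | h3
    · set s := (Y.add A).thetaL Φ ε K T x with hs
      have hs0 : 0 ≤ s := MW.theta_nonneg hT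
      have hsT : s ≤ T := h3
      by_contra hlt
      push Not at hlt
      have hR := h s hs0 hsT hle hlt.le
      have hT1 : (Y.add A).Touched Φ ε K (MW.line x) s :=
        (MW.touched_iff hΦ hε okA okx ⟨hs0, hsT⟩).2 le_rfl
      have hT2 : (Y.add (MW.lines F)).Touched Φ ε K (MW.line x) s :=
        touched_lines hΦ hε hR.rl₁ hR.rl₂ (hR.compat hΦ hε) le_rfl hT1
      have h4 : (Y.add (MW.lines F)).thetaL Φ ε K T x ≤ s :=
        (MW.touched_iff hΦ hε hR.rl₁.ok' hR.rl₂.ok' ⟨hs0, hsT⟩).1 hT2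
      exact absurd ((hW.iff_le hle).1 h4) (not_le.2 hlt)
    · have h4 : (Y.add A).thetaL Φ ε K T x = T + 1 := h3
      rw [h4]
      exact MW.theta_le

end real

/-! ### A real tree -/

section tree

variable {ι : Type} [Fintype ι] {Φ : Space3 → ℝ} {ε T T' v : ℝ} {K : ℕ} {Y : MW ι} {P : CTree}
  {z : PhasePoint × Par P} {x : ML}

/-- The data for `Y + V`, every horizon. -/
theorem rl_tree (hΦ : AdmissiblePotential Φ) (hε : 0 < ε) (hV : Valid Φ ε P T' z.1.2 z.2)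
    (hS : Sep Φ ε P T' z.1 z.2) (hT' : 0 < T') (hv : 0 ≤ v) (hK : P.leaves ≤ K)
    (h : Ins45.TreeIn Φ ε (Y.add (treeW Φ ε P z)) P z Sum.inr)
    (hok : (Y.add (treeW Φ ε P z)).Ok Φ ε)
    (hok' : (Y.add (MW.lines (lineML Φ ε P z))).Ok Φ ε) (hb : ∀ y, 0 ≤ Y.b y) :
    RL Φ ε K (Y.add (treeW Φ ε P z)) (Y.add (MW.lines (lineML Φ ε P z))) (range Sum.inr) v := by
  rcases le_total v T' with h1 | h1
  · exact RealL811.rl_add hΦ hε hV hS h1 hv hK (R6Tree974.toRL h v) hok hok' hb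
  · refine RL.ext (RealL811.rl_add hΦ hε hV hS le_rfl hT'.le hK (R6Tree974.toRL h T') hok hok' hb)
      ?_ h1
    rintro _ ⟨k, rfl⟩
    exact (TreeLines335.rel_lt hε.le hT' hV.2 k).le

/-- The data for `Y + V + x`, every horizon. -/
theorem rl_tree_ins (hΦ : AdmissiblePotential Φ) (hε : 0 < ε) (hV : Valid Φ ε P T' z.1.2 z.2)
    (hS : Sep Φ ε P T' z.1 z.2) (hT' : 0 < T') (hv : 0 ≤ v) (hK : P.leaves ≤ K)
    (h : Ins45.TreeIn Φ ε ((Y.add (treeW Φ ε P z)).ins x) P z fun k => Sum.inl (Sum.inr k))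
    (hok : ((Y.add (treeW Φ ε P z)).ins x).Ok Φ ε)
    (hok' : ((Y.add (MW.lines (lineML Φ ε P z))).ins x).Ok Φ ε) (hb : ∀ y, 0 ≤ Y.b y)
    (hx : 0 ≤ x.1.1) :
    RL Φ ε K ((Y.add (treeW Φ ε P z)).ins x) ((Y.add (MW.lines (lineML Φ ε P z))).ins x)
      (DF ι (Idx P)) v := by
  rcases le_total v T' with h1 | h1
  · exact RealL811.rl_add_add hΦ hε hV hS h1 hv hK (R6Tree974.toRL h v) hok hok' hb fun _ => hx
  · refine RL.ext (RealL811.rl_add_add (B := MW.line x) hΦ hε hV hS le_rfl hT'.le hK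
      (R6Tree974.toRL h T') hok hok' hb fun _ => hx) ?_ h1
    rintro _ ⟨k, rfl⟩
    exact (TreeLines335.rel_lt hε.le hT' hV.2 k).le

/-- Exact marks, `Y + V`. -/
theorem marks_tree (hΦ : AdmissiblePotential Φ) (hε : 0 < ε) (hV : Valid Φ ε P T' z.1.2 z.2)
    (hS : Sep Φ ε P T' z.1 z.2) (hT' : 0 < T')
    (h : Ins45.TreeIn Φ ε (Y.add (treeW Φ ε P z)) P z Sum.inr) :
    ∀ y ∈ range (Sum.inr : Idx P → ι ⊕ Idx P),
      (Y.add (MW.lines (lineML Φ ε P z))).b y ≤ v →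
      msize ((Y.add (treeW Φ ε P z)).C Φ ε) (Y.add (treeW Φ ε P z)).m
        ((Y.add (MW.lines (lineML Φ ε P z))).b y) y = (Y.add (MW.lines (lineML Φ ε P z))).m y := by
  rintro _ ⟨k, rfl⟩ _
  exact RealL811.marks_add hΦ hε hV hS le_rfl (R6Tree974.toRL h T') _ ⟨k, rfl⟩
    (TreeLines335.rel_lt hε.le hT' hV.2 k).le

/-- Exact marks, `Y + V + x`. -/
theorem marks_tree_ins (hΦ : AdmissiblePotential Φ) (hε : 0 < ε)
    (hV : Valid Φ ε P T' z.1.2 z.2) (hS : Sep Φ ε P T' z.1 z.2) (hT' : 0 < T')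
    (h : Ins45.TreeIn Φ ε ((Y.add (treeW Φ ε P z)).ins x) P z fun k => Sum.inl (Sum.inr k)) :
    ∀ y ∈ DF ι (Idx P), ((Y.add (MW.lines (lineML Φ ε P z))).ins x).b y ≤ v →
      msize (((Y.add (treeW Φ ε P z)).ins x).C Φ ε) ((Y.add (treeW Φ ε P z)).ins x).m
        (((Y.add (MW.lines (lineML Φ ε P z))).ins x).b y) y =
          ((Y.add (MW.lines (lineML Φ ε P z))).ins x).m y := by
  rintro _ ⟨k, rfl⟩ _
  exact RealL811.marks_add_add (B := MW.line x) hΦ hε hV hS le_rfl (R6Tree974.toRL h T') _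
    ⟨k, rfl⟩ (TreeLines335.rel_lt hε.le hT' hV.2 k).le

/-- The data of a tree at the horizon `v`, from helper811's `TreeIn` at this horizon. -/
theorem realAt_tree (hΦ : AdmissiblePotential Φ) (hε : 0 < ε)
    (hV : Valid Φ ε P T' z.1.2 z.2) (hS : Sep Φ ε P T' z.1 z.2) (hT' : 0 < T') (hv : 0 ≤ v)
    (hK : P.leaves ≤ K) (hb : ∀ y, 0 ≤ Y.b y) (hx : 0 ≤ x.1.1)
    (h₁ : RealL811.TreeIn Φ ε (Y.add (treeW Φ ε P z)) P z Sum.inr (min v T'))
    (h₂ : RealL811.TreeIn Φ ε ((Y.add (treeW Φ ε P z)).ins x) P z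
      (fun k => Sum.inl (Sum.inr k)) (min v T'))
    (ok₁ : (Y.add (treeW Φ ε P z)).Ok Φ ε) (ok₂ : ((Y.add (treeW Φ ε P z)).ins x).Ok Φ ε)
    (ok₃ : (Y.add (MW.lines (lineML Φ ε P z))).Ok Φ ε)
    (ok₄ : ((Y.add (MW.lines (lineML Φ ε P z))).ins x).Ok Φ ε) :
    RealAt Φ ε K Y (treeW Φ ε P z) (lineML Φ ε P z) x v := by
  have hm : min v T' ≤ T' := min_le_right _ _
  have hm0 : 0 ≤ min v T' := le_min hv hT'.le
  have h1 : RL Φ ε K (Y.add (treeW Φ ε P z)) (Y.add (MW.lines (lineML Φ ε P z)))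
      (range Sum.inr) (min v T') := RealL811.rl_add hΦ hε hV hS hm hm0 hK h₁ ok₁ ok₃ hb
  have h2 : RL Φ ε K ((Y.add (treeW Φ ε P z)).ins x) ((Y.add (MW.lines (lineML Φ ε P z))).ins x)
      (DF ι (Idx P)) (min v T') :=
    RealL811.rl_add_add (B := MW.line x) hΦ hε hV hS hm hm0 hK h₂ ok₂ ok₄ hb fun _ => hx
  have hr : ∀ k : Idx P, rel P z.2 k ≤ v → rel P z.2 k ≤ min v T' := fun k hk =>
    le_min hk (TreeLines335.rel_lt hε.le hT' hV.2 k).le
  have m1 := RealL811.marks_add hΦ hε hV hS hm h₁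
  have m2 := RealL811.marks_add_add (B := MW.line x) hΦ hε hV hS hm h₂
  rcases le_total v T' with hvT | hvT
  · rw [min_eq_left hvT] at h1 h2 m1 m2
    exact ⟨h1, h2, m1, m2⟩
  · rw [min_eq_right hvT] at h1 h2 m1 m2 hr
    have hr' : ∀ k : Idx P, rel P z.2 k ≤ T' := fun k =>
      (TreeLines335.rel_lt hε.le hT' hV.2 k).le
    refine ⟨RL.ext h1 ?_ hvT, RL.ext h2 ?_ hvT, ?_, ?_⟩
    · rintro _ ⟨k, rfl⟩
      exact hr' k
    · rintro _ ⟨k, rfl⟩
      exact hr' k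
    · rintro _ ⟨k, rfl⟩ _
      exact m1 _ ⟨k, rfl⟩ (hr' k)
    · rintro _ ⟨k, rfl⟩ _
      exact m2 _ ⟨k, rfl⟩ (hr' k)

/-- **World consistency of a test line for a tree which is real up to the touch times.** -/
theorem w1_treeAt (hΦ : AdmissiblePotential Φ) (hε : 0 < ε) (hT : 0 ≤ T)
    (hV : Valid Φ ε P T' z.1.2 z.2) (hS : Sep Φ ε P T' z.1 z.2) (hT' : 0 < T')
    (hK : P.leaves ≤ K) (hb : ∀ y, 0 ≤ Y.b y) (hx : 0 ≤ x.1.1)
    (h₁ : ∀ s, 0 ≤ s → s ≤ T → s ≤ firstT Φ ε K T Y (lineML Φ ε P z) →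
      s ≤ Y.thetaL Φ ε K T x → RealL811.TreeIn Φ ε (Y.add (treeW Φ ε P z)) P z Sum.inr (min s T'))
    (h₂ : ∀ s, 0 ≤ s → s ≤ T → s ≤ firstT Φ ε K T Y (lineML Φ ε P z) →
      s ≤ Y.thetaL Φ ε K T x → RealL811.TreeIn Φ ε ((Y.add (treeW Φ ε P z)).ins x) P z
        (fun k => Sum.inl (Sum.inr k)) (min s T'))
    (ok₁ : (Y.add (treeW Φ ε P z)).Ok Φ ε) (ok₂ : ((Y.add (treeW Φ ε P z)).ins x).Ok Φ ε)
    (hok : MW.OkFam Φ ε Y (withD (lineML Φ ε P z) x))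
    (hnl : PairNL Φ ε K T Y (withD (lineML Φ ε P z) x)) :
    W1 (firstT Φ ε K T Y (lineML Φ ε P z)) (Y.thetaL Φ ε K T x)
      ((Y.add (treeW Φ ε P z)).thetaL Φ ε K T x) := by
  have hok' : MW.OkFam Φ ε Y (lineML Φ ε P z) :=
    MWFam255.okFam_comp hΦ hε hok (E6Hyp879.inlEmb (Idx P) Unit)
  have hokx : ((Y.add (MW.lines (lineML Φ ε P z))).ins x).Ok Φ ε :=
    MWFam255.ok_lines_add hΦ hε hok (E6Hyp879.inlEmb (Idx P) Unit)
      (⟨fun _ : Unit => Sum.inr (), fun _ _ _ => rfl⟩ : Unit ↪ Idx P ⊕ Unit)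
      fun _ _ h => by cases h
  exact w1_realAt hΦ hε hT ok₁ ok₂ hok hnl fun s hs0 hsT h3 h4 =>
    realAt_tree hΦ hε hV hS hT' hs0 hK hb hx (h₁ s hs0 hsT h3 h4) (h₂ s hs0 hsT h3 h4) ok₁ ok₂
      (hok'.lines hΦ hε) hokx

/-- **World consistency of a test line for a real tree.** -/
theorem w1_tree (hΦ : AdmissiblePotential Φ) (hε : 0 < ε) (hT : 0 ≤ T)
    (hV : Valid Φ ε P T' z.1.2 z.2) (hS : Sep Φ ε P T' z.1 z.2) (hT' : 0 < T')
    (hK : P.leaves ≤ K) (hb : ∀ y, 0 ≤ Y.b y) (hx : 0 ≤ x.1.1)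
    (h₁ : Ins45.TreeIn Φ ε (Y.add (treeW Φ ε P z)) P z Sum.inr)
    (h₂ : Ins45.TreeIn Φ ε ((Y.add (treeW Φ ε P z)).ins x) P z fun k => Sum.inl (Sum.inr k))
    (ok₁ : (Y.add (treeW Φ ε P z)).Ok Φ ε) (ok₂ : ((Y.add (treeW Φ ε P z)).ins x).Ok Φ ε)
    (hok : MW.OkFam Φ ε Y (withD (lineML Φ ε P z) x))
    (hnl : PairNL Φ ε K T Y (withD (lineML Φ ε P z) x)) :
    W1 (firstT Φ ε K T Y (lineML Φ ε P z)) (Y.thetaL Φ ε K T x)
      ((Y.add (treeW Φ ε P z)).thetaL Φ ε K T x) :=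
  w1_treeAt hΦ hε hT hV hS hT' hK hb hx (fun _ _ _ _ _ => R6Tree974.toRL h₁ _)
    (fun _ _ _ _ _ => R6Tree974.toRL h₂ _) ok₁ ok₂ hok hnl

/-- **The real tree does not touch before the first of its lines.** -/
theorem firstT_le_tree (hΦ : AdmissiblePotential Φ) (hε : 0 < ε) (hT : 0 ≤ T)
    (hV : Valid Φ ε P T' z.1.2 z.2) (hS : Sep Φ ε P T' z.1 z.2) (hT' : 0 < T')
    (hK : P.leaves ≤ K) (hb : ∀ y, 0 ≤ Y.b y)
    (h₁ : Ins45.TreeIn Φ ε (Y.add (treeW Φ ε P z)) P z Sum.inr)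
    (ok₁ : (Y.add (treeW Φ ε P z)).Ok Φ ε)
    (hok : MW.OkFam Φ ε Y (lineML Φ ε P z)) (hnl : PairNL Φ ε K T Y (lineML Φ ε P z)) :
    firstT Φ ε K T Y (lineML Φ ε P z) ≤ Y.theta Φ ε K T (treeW Φ ε P z) := by
  have h := MWFam255.theta_lines_eq hΦ hε hT hok hnl (Function.Embedding.refl (Idx P))
  refine (ge_of_eq h).trans ?_
  exact RealL811.theta_tree_le hΦ hε (hok.base hΦ hε) hb
    (rl_tree hΦ hε hV hS hT' hT hK h₁ ok₁ (hok.lines hΦ hε) hb) le_rfl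

/-- `badF ⊆ badN` for a real tree. -/
theorem badF_subset_badN_tree (hΦ : AdmissiblePotential Φ) (hε : 0 < ε) (hT : 0 ≤ T)
    (hV : Valid Φ ε P T' z.1.2 z.2) (hS : Sep Φ ε P T' z.1 z.2) (hT' : 0 < T')
    (hK : P.leaves ≤ K) (hb : ∀ y, 0 ≤ Y.b y)
    (h₁ : Ins45.TreeIn Φ ε (Y.add (treeW Φ ε P z)) P z Sum.inr)
    (ok₁ : (Y.add (treeW Φ ε P z)).Ok Φ ε)
    (hok : MW.OkFam Φ ε Y (lineML Φ ε P z)) (hnl : PairNL Φ ε K T Y (lineML Φ ε P z)) :
    badF Φ ε K T Y (treeW Φ ε P z) (lineML Φ ε P z) ⊆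
      badN Φ ε K T Y (treeW Φ ε P z) :=
  badF_subset_badN (firstT_le_tree hΦ hε hT hV hS hT' hK hb h₁ ok₁ hok hnl)

end tree

/-! ### From `Real6` -/

section r6

variable {Φ : Space3 → ℝ} {ε te T' : ℝ} {K m : ℕ} {P : CTree} {z : PhasePoint × Par P}
  {w : Config m} {θ : Lab × LSt} {r : Idx P} {e' c' : ML}

/-- **`w_Ld`** of `E6FactsA`. -/
theorem R6.w_Ld (hΦ : AdmissiblePotential Φ) (hε : 0 < ε) (hT : 0 ≤ te) (hK : P.leaves ≤ K)
    (h : Real6 Φ ε K te T' P z w θ)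
    (hE : E6Hyp Φ ε K te (MW.cfg w) (lineML Φ ε P z) r (dL θ) e' c') :
    W1 (firstT Φ ε K te (MW.cfg w) (lineML Φ ε P z)) ((MW.cfg w).thetaL Φ ε K te (dL θ))
      (((MW.cfg w).add (treeW Φ ε P z)).thetaL Φ ε K te (dL θ)) :=
  w1_tree hΦ hε hT h.real.valid h.real.sep (R6Tree974.R6.cT_pos h) hK (fun _ => le_rfl)
    h.okL.d0.le (R6Tree974.R6.in1 hΦ hε h) (R6Tree974.R6.in2' hΦ hε h)
    (R6Tree974.R6.ok1 hΦ hε h) (R6Tree974.R6.ok2' hΦ hε h) hE.ok₁ hE.nl₀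

theorem b_nonneg_ins (h : Real6 Φ ε K te T' P z w θ) :
    ∀ y, 0 ≤ ((MW.cfg w).ins (dL θ)).b y := by
  rintro (y | y)
  · exact le_rfl
  · exact h.okL.d0.le

/-- The set `badF` in the world `w`. -/
theorem R6.badF₁ (hΦ : AdmissiblePotential Φ) (hε : 0 < ε) (hT : 0 ≤ te) (hK : P.leaves ≤ K)
    (h : Real6 Φ ε K te T' P z w θ)
    (hE : E6Hyp Φ ε K te (MW.cfg w) (lineML Φ ε P z) r (dL θ) e' c') :
    badF Φ ε K te (MW.cfg w) (treeW Φ ε P z) (lineML Φ ε P z) ⊆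
      badN Φ ε K te (MW.cfg w) (treeW Φ ε P z) :=
  badF_subset_badN_tree hΦ hε hT h.real.valid h.real.sep (R6Tree974.R6.cT_pos h) hK
    (fun _ => le_rfl) (R6Tree974.R6.in1 hΦ hε h) (R6Tree974.R6.ok1 hΦ hε h)
    (MWFam255.okFam_comp hΦ hε hE.ok₁ (E6Hyp879.inlEmb (Idx P) Unit))
    fun j k hjk => hE.nl₀ (Sum.inl j) (Sum.inl k) fun h => hjk (Sum.inl_injective h)

/-- The set `badF` in the world `w + d`. -/
theorem R6.badF₂ (hΦ : AdmissiblePotential Φ) (hε : 0 < ε) (hT : 0 ≤ te) (hK : P.leaves ≤ K)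
    (h : Real6 Φ ε K te T' P z w θ)
    (hE : E6Hyp Φ ε K te (MW.cfg w) (lineML Φ ε P z) r (dL θ) e' c') :
    badF Φ ε K te ((MW.cfg w).ins (dL θ)) (treeW Φ ε P z) (lineML Φ ε P z) ⊆
      badN Φ ε K te ((MW.cfg w).ins (dL θ)) (treeW Φ ε P z) :=
  badF_subset_badN_tree hΦ hε hT h.real.valid h.real.sep (R6Tree974.R6.cT_pos h) hK
    (b_nonneg_ins h) (R6Tree974.R6.in2 hΦ hε h) (R6Tree974.R6.ok2 hΦ hε h)
    (hE.okE hΦ hε) hE.nl₁

end r6

end

end Crest.Agent.R122.RealX974
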