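import Crest.Agent.R122.LinkVh_335
import Crest.Agent.R122.RealX_974
import Crest.Agent.R122.Line3G_984

/-!
# Test lines touched before the exits (row 122, `StmtLink4`), helper285

* `Real4.tree1`, `Real4.ok1` : the tree in the world `w + V`, from `Real4`.
* `root_late` : off links, the root line of a real tree does not touch `w` before the contact time
  `cT`, if it touches before the exits.
* `nbadE_not` : a test line without links and returns is not in `NbadE`, in the case `Alt4`.
-/

set_option autoImplicit false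
set_option linter.unusedSectionVars false

open MeasureTheory Set Filter Topology
open scoped ENNReal
open Crest.AnalysisR.Kinetic
open Crest.Agent.R122.Flow671 hiding rel
open Crest.Agent.R122.EDefs602
open Crest.Agent.R122.Kin796 Crest.Agent.R122.Kin796.CTree Crest.Agent.R122.Tree674
open Crest.Agent.R122.TreeLines335 Crest.Agent.R122.Relabel674 Crest.Agent.R122.GC311
open Crest.Agent.R122.MWFam255 (PairNL)
open Crest.Agent.R122.E6Hyp879 (withD)
open Crest.Agent.R122.R6Tree974 (gE comap1 cutIn_cfg treeIn_comap toRL)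
open Crest.Agent.R122.LNEv383 (RetC)
open Crest.Agent.R122.OneC285

namespace Crest.Agent.R122.NbadE285

noncomputable section

open scoped Classical

variable {Φ : Space3 → ℝ} {ε te T' : ℝ} {K : ℕ} {P : CTree} {z : PhasePoint × Par P} {m : ℕ}
  {w : Config m} {l x : ML}

/-! ### The tree in `w + V` -/

/-- The tree is real in the world `w + V`. -/
theorem tree1 (hΦ : AdmissiblePotential Φ) (hε : 0 < ε) (h : Real4 Φ ε K te T' P z w l) :
    Ins45.TreeIn Φ ε ((MW.cfg w).add (RealL811.treeW Φ ε P z)) P z Sum.inr := by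
  rw [← comap1]
  exact treeIn_comap ((cutIn_cfg hΦ hε h.excl h.real).treeIn hΦ hε h.pos h.real.valid h.real.sep
    fun i => (TreeLines335.rel_lt hε.le h.pos h.real.valid.2 i).le) hΦ hε (gE P m) fun _ => rfl

/-- The world `w + V` is good. -/
theorem ok1 (hΦ : AdmissiblePotential Φ) (hε : 0 < ε) (h : Real4 Φ ε K te T' P z w l) :
    ((MW.cfg w).add (RealL811.treeW Φ ε P z)).Ok Φ ε := by
  rw [← comap1]
  exact MWFam255.Ok.relabel hΦ hε (Unw410.cfg_ok hΦ hε h.excl) _

/-- The world `w + V + x` is good. -/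
theorem ok1x (hΦ : AdmissiblePotential Φ) (hε : 0 < ε)
    (h : ((MW.cfg (Fin.append (cfT Φ ε P z) w)).ins x).Ok Φ ε) :
    (((MW.cfg w).add (RealL811.treeW Φ ε P z)).ins x).Ok Φ ε := by
  rw [← comap1, EquivE416.ins_comap]
  exact MWFam255.Ok.relabel hΦ hε h _

/-! ### The root line -/

/-- The exits and the root. -/
def eR (P : CTree) : {i : Idx P // i ≠ root P} ⊕ Unit ≃ Idx P :=
  Equiv.ofBijective (Sum.elim Subtype.val fun _ => root P) (by
    constructor
    · rintro (a | a) (b | b) hab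
      · exact congrArg Sum.inl (Subtype.ext hab)
      · exact absurd hab a.2
      · exact absurd hab.symm b.2
      · rfl
    · intro i
      by_cases hi : i = root P
      · exact ⟨Sum.inr (), hi.symm⟩
      · exact ⟨Sum.inl ⟨i, hi⟩, rfl⟩)

/-- Labels of `w + exits + root line`. -/
def gR (ι : Type) (P : CTree) : (ι ⊕ {i : Idx P // i ≠ root P}) ⊕ Unit ≃ ι ⊕ Idx P :=
  (Equiv.sumAssoc ι _ Unit).trans (Equiv.sumCongr (Equiv.refl ι) (eR P))

theorem comapR {ι : Type} (Z : MW ι) (F : Idx P → ML) :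
    (Z.add (MW.lines F)).comap (gR ι P) =
      (Z.add (MW.lines fun i : {i : Idx P // i ≠ root P} => F i)).add (MW.line (F (root P))) := by
  unfold MW.comap MW.add MW.lines MW.line
  congr 1 <;> · funext y; rcases y with (y | y) | y <;> rfl

/-- The root line does not touch before the contact time, if it touches before the exits. -/
theorem root_late (hΦ : AdmissiblePotential Φ) (hε : 0 < ε) (hK : P.leaves ≤ K)
    (h : Real4 Φ ε K te T' P z w l)
    (hok : MW.OkFam Φ ε (MW.cfg w) (lineML Φ ε P z))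
    (hnl : PairNL Φ ε K te (MW.cfg w) (lineML Φ ε P z))
    (hex : ∀ i : Idx P, i ≠ root P → (MW.cfg w).thetaL Φ ε K te (lineML Φ ε P z (root P)) ≤
      (MW.cfg w).thetaL Φ ε K te (lineML Φ ε P z i)) :
    cT ε z l ≤ (MW.cfg w).thetaL Φ ε K te (lineML Φ ε P z (root P)) := by
  by_contra hlt
  rw [not_le] at hlt
  have hte : (0 : ℝ) ≤ te := h.pos.le.trans h.le
  set F := lineML Φ ε P z with hF
  set f : {i : Idx P // i ≠ root P} ↪ Idx P := ⟨Subtype.val, Subtype.val_injective⟩ with hf
  have h2 : Decomp811.W1E Φ ε K te (MW.cfg w) (MW.lines fun i : {i : Idx P // i ≠ root P} => F i)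
      (MW.line (F (root P))) :=
    MWFam255.w1E_lines_line hΦ hε hte hok hnl f (root P) fun i => i.2
  have h1 : (MW.cfg w).thetaL Φ ε K te (F (root P)) ≤
      (MW.cfg w).theta Φ ε K te (MW.lines fun i : {i : Idx P // i ≠ root P} => F i) := by
    have e1 := MWFam255.theta_lines_eq hΦ hε hte hok hnl f
    have e2 : (MW.cfg w).thetaL Φ ε K te (F (root P)) ≤
        Decomp811.firstT Φ ε K te (MW.cfg w) (fun i : {i : Idx P // i ≠ root P} => F i) :=
      Decomp811.le_firstT (by linarith [hlt.trans_le h.le]) fun i => hex i.1 i.2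
    exact e2.trans (ge_of_eq e1)
  have h3 : ((MW.cfg w).add (MW.lines fun i : {i : Idx P // i ≠ root P} => F i)).theta Φ ε K te
      (MW.line (F (root P))) = (MW.cfg w).thetaL Φ ε K te (F (root P)) := h2.eq h1
  have hY : ((MW.cfg w).add (MW.lines fun i : {i : Idx P // i ≠ root P} => F i)).Ok Φ ε :=
    (MWFam255.okFam_comp hΦ hε hok f).lines hΦ hε
  have hYr : (((MW.cfg w).add (MW.lines fun i : {i : Idx P // i ≠ root P} => F i)).add
      (MW.line (F (root P)))).Ok Φ ε := by
    rw [← comapR]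
    exact MWFam255.Ok.relabel hΦ hε (hok.lines hΦ hε) _
  have hmark : (F (root P)).2 = P.leaves := TreeLines335.mk_root P
  obtain ⟨r, hr, y, k, hc⟩ := MW.exists_contact_le_theta
    (A := MW.line (F (root P))) hΦ hε hY hYr hte (K := K) (by rw [h3]; exact hlt.le.trans h.le)
    (by simp only [MW.line, MW.lines, Finset.univ_unique, Finset.sum_singleton]
        rw [hmark]; exact hK)
  have hyu : y = () := rfl
  subst hyu
  rw [← comapR, EquivE416.C_comap hΦ hε] at hc
  have hrT : r ≤ cT ε z l := by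
    have := hr.2
    rw [h3] at this
    exact (this.trans_lt hlt).le
  have h5 : (gR (Fin m) P) (Sum.inr ()) = Sum.inr (root P) := rfl
  rw [h5] at hc
  have h6 := Ins45.root_free hΦ hε h.pos h.excl h.real hrT hc
  rw [← h5] at h6
  have h7 := (gR (Fin m) P).injective h6
  cases h7

/-! ### Test lines -/

/-- **Test lines without links and returns are not in `NbadE`**, if an exit touches before the
contact. -/
theorem nbadE_not (hΦ : AdmissiblePotential Φ) (hε : 0 < ε) (hK : P.leaves ≤ K)
    (hT' : te ≤ T') (h : Real4 Φ ε K te T' P z w l) (hA : Alt4 Φ ε K te P z w l)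
    (hok : MW.OkFam Φ ε (MW.cfg w) (withD (lineML Φ ε P z) x))
    (hnl : PairNL Φ ε K te (MW.cfg w) (withD (lineML Φ ε P z) x))
    (hret : ¬ RetC Φ ε ε K te (MW.cfg w) x (ptube Φ ε P z))
    (hx0 : 0 ≤ x.1.1)
    (hokx : ((MW.cfg (Fin.append (cfT Φ ε P z) w)).ins x).Ok Φ ε) :
    x ∉ NbadE Φ ε K te P z w := by
  rintro ⟨hx1, hx2⟩
  obtain ⟨i₀, hi₀, hle₀⟩ := hA
  have hte : (0 : ℝ) ≤ te := h.pos.le.trans h.le
  have hxc : (MW.cfg w).thetaL Φ ε K te x < cT ε z l := (hx1 i₀ hi₀).trans_le hle₀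
  have hokF : MW.OkFam Φ ε (MW.cfg w) (lineML Φ ε P z) :=
    MWFam255.okFam_comp hΦ hε hok (E6Hyp879.inlEmb (Idx P) Unit)
  have hnlF : PairNL Φ ε K te (MW.cfg w) (lineML Φ ε P z) := fun j k hjk =>
    hnl (Sum.inl j) (Sum.inl k) fun h' => hjk (Sum.inl_injective h')
  -- the root line
  have hroot : (MW.cfg w).thetaL Φ ε K te x ≤
      (MW.cfg w).thetaL Φ ε K te (lineML Φ ε P z (root P)) := by
    by_contra hlt
    rw [not_le] at hlt
    have h1 := root_late hΦ hε hK h hokF hnlF fun i hi => (hlt.trans (hx1 i hi)).le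
    linarith
  have hall : ∀ k, (MW.cfg w).thetaL Φ ε K te x ≤
      (MW.cfg w).thetaL Φ ε K te (lineML Φ ε P z k) := by
    intro k
    by_cases hk : k = root P
    · rw [hk]; exact hroot
    · exact (hx1 k hk).le
  -- separation at time `0`
  have hsep0 : ∀ (k : Idx P) (i : Fin m), (MW.cfg w).b i ≤ 0 →
      ε < dist (((MW.cfg w).add (RealL811.treeW Φ ε P z)).path Φ ε 0 (Sum.inr k)).1
        (((MW.cfg w).add (RealL811.treeW Φ ε P z)).path Φ ε 0 (Sum.inl i)).1 := by
    intro k i _
    rw [MW.path_zero hΦ hε]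
    have h1 := h.perp (eP P k) i
    have h2 : cfT Φ ε P z (eP P k) = lines Φ ε P z.1 z.2 k := R6Tree974.cfT_apply Φ ε P z k
    rw [h2] at h1
    exact h1
  have hkey := LinkVh335.thetaL_le (K := K) (T := te) hΦ hε h.valid h.sep hK (h.le.trans hT') hte
    (fun _ => le_rfl) hx0 (toRL (tree1 hΦ hε h) (cT ε z l)) (ok1 hΦ hε h) (ok1x hΦ hε hokx) hsep0
    hok hnl hret hxc.le (hxc.le.trans h.le) hall
  rw [← comap1, EquivE416.thetaL_comap hΦ hε] at hkey
  exact absurd hx2 (not_lt.2 hkey)

end

end Crest.Agent.R122.NbadE285
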