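import Crest.Agent.R122.LinkVd_879
import Crest.Agent.R122.NbadE_796

/-!
# Test lines which touch `w + d` before the other exits (row 122, H1)

* `okFam_base` : good worlds of a family, one of its lines moved to the base world.
* `R4.ins_le` : from `Real4`: a test line `x` which is unlinked to the other lines of the tree in
  `w + F δ`, whose clean closure in `w + F δ` does not return to the tubes of the tree, and which
  touches `w + F δ` strictly before the other lines of the tree, touches `V ++ w` not later.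
-/

set_option autoImplicit false
set_option linter.unusedSectionVars false

open MeasureTheory Set Filter Topology
open scoped ENNReal
open Crest.AnalysisR.Kinetic
open Crest.Agent.R122.Flow671 hiding rel
open Crest.Agent.R122.Loc45 Crest.Agent.R122.Ins45
open Crest.Agent.R122.Causal291 Crest.Agent.R122.Inf879 Crest.Agent.R122.EDefs602
open Crest.Agent.R122.Lines255 Crest.Agent.R122.MWAlg255
open Crest.Agent.R122.Kin796 Crest.Agent.R122.Kin796.CTree Crest.Agent.R122.Tree674
open Crest.Agent.R122.PathFlow968 Crest.Agent.R122.TreeLines335 Crest.Agent.R122.Relabel674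
open Crest.Agent.R122.GC311
open Crest.Agent.R122.MWFam255 (FamNL PairNL ok_lines_add)
open Crest.Agent.R122.Decomp811 (exF)
open Crest.Agent.R122.E6Hyp879 (withD)
open Crest.Agent.R122.RealL811 (treeW)
open Crest.Agent.R122.LNEv383 (RetC)
open Crest.Agent.R122.OneC285 (lpos cfT rt cT Real4 ptube)
open Crest.Agent.R122.R6Tree974 (gE comap1 treeIn_comap toRL)
open Crest.Agent.R122.NbadX796

namespace Crest.Agent.R122.LinkVd879

noncomputable section

open scoped Classical

/-- Good worlds of a family, the line `δ` moved to the base world. -/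
theorem okFam_base {ι κ : Type} [Fintype ι] [Fintype κ] {Φ : Space3 → ℝ} {ε : ℝ} {Z : MW ι}
    {H : κ → ML} (hΦ : AdmissiblePotential Φ) (hε : 0 < ε) (hok : MW.OkFam Φ ε Z H) (δ : κ) :
    MW.OkFam Φ ε (Z.ins (H δ)) (exF H δ) := by
  intro S
  exact ok_lines_add hΦ hε hok (⟨fun _ : Unit => δ, fun _ _ _ => rfl⟩ : Unit ↪ κ)
    (⟨fun i : S => i.1.1, fun i j h => Subtype.ext (Subtype.ext h)⟩ : S ↪ κ)
    fun _ i h => i.1.2 h.symm

variable {Φ : Space3 → ℝ} {ε te T' : ℝ} {K : ℕ} {P : CTree} {z : PhasePoint × Par P} {m : ℕ}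
  {w : Config m} {l x : ML}

/-- **Core of `TestB.ins` for `Nbad4`.** -/
theorem R4.ins_le (hΦ : AdmissiblePotential Φ) (hε : 0 < ε) (hTT : te ≤ T')
    (h : Real4 Φ ε K te T' P z w l) (hK : P.leaves ≤ K) (hx0 : 0 ≤ x.1.1)
    (hokx : ((MW.cfg (Fin.append (cfT Φ ε P z) w)).ins x).Ok Φ ε)
    (hok : MW.OkFam Φ ε (MW.cfg w) (withD (lineML Φ ε P z) x)) {δ : Idx P}
    (hnl : PairNL Φ ε K te ((MW.cfg w).ins (lineML Φ ε P z δ))
      (exF (withD (lineML Φ ε P z) x) (Sum.inl δ)))
    (hret : ¬ RetC Φ ε ε K te ((MW.cfg w).ins (lineML Φ ε P z δ)) x (ptube Φ ε P z))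
    (hlt : ∀ k, k ≠ δ → ((MW.cfg w).ins (lineML Φ ε P z δ)).thetaL Φ ε K te x <
      ((MW.cfg w).ins (lineML Φ ε P z δ)).thetaL Φ ε K te (lineML Φ ε P z k)) :
    (MW.cfg (Fin.append (cfT Φ ε P z) w)).thetaL Φ ε K te x ≤
      ((MW.cfg w).ins (lineML Φ ε P z δ)).thetaL Φ ε K te x := by
  have hT : 0 ≤ te := h.pos.le.trans h.le
  have hok₁ : MW.OkFam Φ ε ((MW.cfg w).ins (lineML Φ ε P z δ))
      (exF (withD (lineML Φ ε P z) x) (Sum.inl δ)) :=
    okFam_base (H := withD (lineML Φ ε P z) x) hΦ hε hok (Sum.inl δ)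
  set t := ((MW.cfg w).ins (lineML Φ ε P z δ)).thetaL Φ ε K te x with ht
  rcases MW.theta_le_or (K := K) (T := te) hΦ hε (hok₁.base hΦ hε)
    (hok₁.line hΦ hε (lIdx δ)) with hte | hte
  swap
  · have e : t = te + 1 := hte
    rw [e]
    exact MW.theta_le
  have hte' : t ≤ te := hte
  have hokAx : (((MW.cfg w).add (treeW Φ ε P z)).add (MW.line x)).Ok Φ ε := by
    have h3 : ((MW.cfg w).add (treeW Φ ε P z)).add (MW.line x) =
        ((MW.cfg (Fin.append (cfT Φ ε P z) w)).ins x).comap
          (Equiv.sumCongr (gE P m) (Equiv.refl Unit)) := by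
      rw [← comap1]
      exact EquivE416.ins_comap _ x (gE P m)
    rw [h3]
    exact MWFam255.Ok.relabel hΦ hε hokx _
  have key := thetaL_le_ins (Z := MW.cfg w) (T := te) (T' := T') (v := t) (l := x) hΦ hε
    h.valid h.sep hK (hte'.trans hTT) hT (fun _ => le_rfl) hx0 (toRL (R4.in1 hΦ hε h) t)
    (R4.ok1 hΦ hε h) hokAx (fun k i _ => R4.sep0 hΦ hε h k i) hok hok₁ hnl hret le_rfl hte' hlt
  have h4 : ((MW.cfg w).add (treeW Φ ε P z)).thetaL Φ ε K te x =
      (MW.cfg (Fin.append (cfT Φ ε P z) w)).thetaL Φ ε K te x := by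
    rw [← comap1, EquivE416.thetaL_comap hΦ hε]
  rw [h4] at key
  exact key

end

end Crest.Agent.R122.LinkVd879
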