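import Crest.Agent.R122.UnlC_263
import Crest.Agent.R122.Good4One_45

/-!
# The field `unl1` of `Good4` (row 122, H1), helper263

* `relLs` : the lines of the structure, the root line born at its release time (`lineML`).
* `Real4.unl1` : `Good4.unl1` from `E4Hyp` for the family `relLs`, the encounter event `EncEv` and good
  worlds for the family `oneLs`.
-/

set_option autoImplicit false
set_option linter.unusedSectionVars false

open MeasureTheory Set Filter Topology
open scoped ENNReal
open Crest.AnalysisR.Kinetic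
open Crest.Agent.R122.Flow671 hiding rel
open Crest.Agent.R122.Loc45 Crest.Agent.R122.Causal291 Crest.Agent.R122.MWAlg255
open Crest.Agent.R122.Inf879 Crest.Agent.R122.EDefs602 Crest.Agent.R122.Lines255
open Crest.Agent.R122.Kin796 Crest.Agent.R122.Kin796.CTree Crest.Agent.R122.Tree674
open Crest.Agent.R122.PathFlow968 Crest.Agent.R122.TreeLines335 Crest.Agent.R122.Relabel674
open Crest.Agent.R122.GC311 Crest.Agent.R122.Line285 Crest.Agent.R122.Decomp285
open Crest.Agent.R122.Scat818 Crest.Agent.R122.OCout796 Crest.Agent.R122.Ins45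
open Crest.Agent.R122.MWFam255 (okFam_comp)
open Crest.Agent.R122.E4Hyp879
open Crest.Agent.R122.OneC285 (lpos mSet mT Meet clM cfT rt cT cB cD cX oneLs exS Real4)

namespace Crest.Agent.R122.UnlC263

noncomputable section

open scoped Classical

/-- The lines of the structure, the root line born at its release time. -/
def relLs (Φ : Space3 → ℝ) (ε : ℝ) (P : CTree) (z : PhasePoint × Par P) (l : ML) :
    Idx P ⊕ Bool → ML
  | Sum.inl i => lineML Φ ε P z i
  | Sum.inr b => oneLs Φ ε P z l (Sum.inr b)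

/-- The instance used by the general theorems. -/
local instance (priority := 2000) othFintype {α : Type} [Fintype α] (c : α) : Fintype (Oth c) :=
  Subtype.fintype fun k => k ≠ c

variable {Φ : Space3 → ℝ} {ε te T' R : ℝ} {K : ℕ} {P : CTree} {z : PhasePoint × Par P} {m : ℕ}
  {w : Config m} {l : ML}

theorem okSub {ι κ : Type} [Fintype ι] [Fintype κ] (hΦ : AdmissiblePotential Φ) (hε : 0 < ε)
    {Z : MW ι} {ls : κ → ML} {E F : Finset κ}
    (hok : MW.OkFam Φ ε Z (fun x : F => ls x)) (hEF : E ⊆ F) : (Z.add (sub ls E)).Ok Φ ε :=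
  (okFam_comp hΦ hε hok (⟨fun i => ⟨i.1, hEF i.2⟩, fun _ _ h => Subtype.ext
    (congrArg (fun y : F => y.1) h)⟩ : E ↪ F)).lines hΦ hε

/-- **The field `unl1` of `Good4`.** -/
theorem _root_.Crest.Agent.R122.OneC285.Real4.unl1 (h : Real4 Φ ε K te T' P z w l)
    (hΦ : AdmissiblePotential Φ) (hε : 0 < ε) (hK : P.leaves ≤ K) (hE : EncEv Φ ε R P z w l)
    (h4 : E4Hyp Φ ε K te (MW.cfg w) (relLs Φ ε P z l) (exS P)
      (insert (Sum.inl (root P)) (exS P)))
    (hok' : MW.OkFam Φ ε (MW.cfg w)
      (fun x : (insert (Sum.inl (root P)) (exS P) : Finset (Idx P ⊕ Bool)) =>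
        oneLs Φ ε P z l x)) :
    UnlB (thF Φ ε K te (MW.cfg w) (oneLs Φ ε P z l)) (exS P)
      (insert (Sum.inl (root P)) (exS P)) := by
  have hsub : exS P ⊆ insert (Sum.inl (root P)) (exS P) := Finset.subset_insert _ _
  have hOk := okSub hΦ hε hok' hsub
  set Zt := (MW.cfg w).add (MW.lines (lineML Φ ε P z)) with hZt
  have hrest : (rest Zt (Sum.inr (root P))).comap (exE (Fin m) P) =
      (MW.cfg w).add (sub (relLs Φ ε P z l) (exS P)) :=
    rest_exS (P := P) (MW.cfg w) (F := lineML Φ ε P z) (ls := relLs Φ ε P z l) fun _ _ => rfl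
  obtain ⟨hG, hU⟩ := h.goodEnc hΦ hε hE
  have hZ := h.ok_tree hΦ hε hOk
  have hR : (rest Zt (Sum.inr (root P))).Ok Φ ε :=
    ok_of_comap hΦ hε _ hrest (okSub hΦ hε h4.ok hsub)
  have hcl : IsLine Zt (Sum.inr (root P)) (lineML Φ ε P z (root P)) := ⟨rfl, rfl, rfl⟩
  have hm : Zt.m (Sum.inr (root P)) = P.leaves := mk_root P
  have hreb := hG.reb_eq hΦ hε hZ hcl
  rw [hm] at hreb
  have hfree := hU.free hΦ hε hZ hR hG.nonneg_s hG.bc (fun t k ht => hG.free t k ht.le) hG.state_c
  have hcE : (Sum.inl (root P) : Idx P ⊕ Bool) ∉ exS P := fun hc => mem_exS.1 hc rfl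
  have hpos := h.pos
  have hout := hE.pass.outT_pos hε
  have hte : 0 ≤ te := hpos.le.trans h.le
  have hb0 : ∀ k, 0 ≤ (MW.cfg w).b k := fun k => le_refl (0 : ℝ)
  refine unlB_reb' (u := cT ε z l + outT Φ ε (cD ε z l)) hΦ hε hte hcE
    (fun x => Finset.mem_insert) h4 hok' ?_ ?_ hb0 ?_ ?_ ?_ ?_ ?_
  · intro i hi
    rcases i with i | b
    · exact oneLs_exit (mem_exS.1 hi)
    · exact absurd hi inr_not_mem_exS
  · rw [oneLs_root]
    exact hreb.symm
  · intro i hi
    rcases i with i | b
    · exact rel_nonneg hε.le h.real.valid.2 i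
    · exact absurd hi inr_not_mem_exS
  · exact rel_nonneg hε.le h.real.valid.2 (root P)
  · have h1 : rel P z.2 (root P) < cT ε z l := rel_lt hε.le hpos h.real.valid.2 (root P)
    change rel P z.2 (root P) ≤ _
    linarith
  · have h1 : (relLs Φ ε P z l (Sum.inl (root P))).2 = P.leaves := mk_root P
    rw [h1]
    exact hK
  · intro t x ht hc
    have e1 := ins_comap (exE (Fin m) P) hrest (lineML Φ ε P z (root P))
    have hc1 : ((rest Zt (Sum.inr (root P))).ins (lineML Φ ε P z (root P))).C Φ ε t (Sum.inr ())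
        (Sum.inl (exE (Fin m) P x)) := by
      change (((MW.cfg w).add (sub (relLs Φ ε P z l) (exS P))).ins
        (lineML Φ ε P z (root P))).C Φ ε t (Sum.inr ()) (Sum.inl x) at hc
      rw [← e1, C_comap hΦ hε] at hc
      exact hc
    rw [← comap_splitOff hcl, C_comap hΦ hε] at hc1
    exact (exE (Fin m) P x).2 (hfree t _ ht hc1)

end

end Crest.Agent.R122.UnlC263
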