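import Crest.Agent.R122.NbadE_796
import Crest.Agent.R122.UnlC2_263
import Crest.Agent.R122.EncFar_45

/-!
# Test lines and the reborn root (row 122, `Nbad4`), helper263

`h : Real4`, `hE : EncEv`, `σ = cT + outT` the end of the encounter.

* `Real4.noCt_exF`, `Real4.noCt_ins` : the root line has no contact in `w + exits` up to `σ`, labels
  `exS P`; the same for the base world `w + d` and the other exits.
* `Real4.root_le`, `Real4.root_lt` : base world `w`: a time not later than the touch times of the exits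
  and of the reborn root line is not later than the touch time of the root line.
* `Real4.root_le_ins`, `Real4.root_lt_ins` : the same for the base world `w + d`.
* `Real4.testB_base` : the field `base` of `TestB` for `Nbad4`.
-/

set_option autoImplicit false
set_option linter.unusedSectionVars false

open MeasureTheory Set Filter Topology
open scoped ENNReal
open Crest.AnalysisR.Kinetic
open Crest.Agent.R122.Flow671 hiding rel
open Crest.Agent.R122.Loc45 Crest.Agent.R122.Ins45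
open Crest.Agent.R122.Causal291 Crest.Agent.R122.Inf879 Crest.Agent.R122.EDefs602
open Crest.Agent.R122.Lines255 Crest.Agent.R122.MWAlg255
open Crest.Agent.R122.Kin796 Crest.Agent.R122.Kin796.CTree Crest.Agent.R122.Tree674
open Crest.Agent.R122.PathFlow968 Crest.Agent.R122.TreeLines335 Crest.Agent.R122.Relabel674
open Crest.Agent.R122.GC311 Crest.Agent.R122.Line285 Crest.Agent.R122.OCout796
open Crest.Agent.R122.MWFam255 (FamNL PairNL okFam_comp)
open Crest.Agent.R122.E6Hyp879 (withD)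
open Crest.Agent.R122.RealL811 (treeW)
open Crest.Agent.R122.LNEv383 (RetC)
open Crest.Agent.R122.OneC285 (lpos cfT rt cT cD cX Real4 ptube oneLs exS)
open Crest.Agent.R122.R6Tree974 (gE comap1 toRL)
open Crest.Agent.R122.NbadX796

namespace Crest.Agent.R122.NbadR263

noncomputable section

open scoped Classical

variable {Φ : Space3 → ℝ} {ε te T' R : ℝ} {K : ℕ} {P : CTree} {z : PhasePoint × Par P} {m : ℕ}
  {w : Config m} {l x : ML}

/-- Goodness of `w + exits`, from the family of all lines of the tree. -/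
theorem okEx (hΦ : AdmissiblePotential Φ) (hε : 0 < ε)
    (hok : MW.OkFam Φ ε (MW.cfg w) (lineML Φ ε P z)) :
    ((MW.cfg w).add (sub (oneLs Φ ε P z l) (exS P))).Ok Φ ε :=
  ok_exits hΦ hε hok

/-- The root line has no contact in `w + exits` up to the end of the encounter. -/
theorem _root_.Crest.Agent.R122.OneC285.Real4.noCt_exF (h : Real4 Φ ε K te T' P z w l)
    (hΦ : AdmissiblePotential Φ) (hε : 0 < ε)
    (hok : MW.OkFam Φ ε (MW.cfg w) (lineML Φ ε P z)) (hE : EncEv Φ ε R P z w l) :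
    NoCt Φ ε ((MW.cfg w).add (MW.lines fun i : exS P => lineML Φ ε P z (exF P i)))
      (lineML Φ ε P z (root P)) (cT ε z l + outT Φ ε (cD ε z l)) := by
  have h1 := h.noCt_root hΦ hε (okEx (l := l) hΦ hε hok) hE
  rw [sub_oneLs] at h1
  exact h1

/-- The exits without `d`. -/
abbrev ExD (P : CTree) (d : Idx P) : Type := {i : exS P // exF P i ≠ d}

/-- The exits without `d`, as labels of the tree without `d`. -/
def exD (P : CTree) (d : Idx P) : ExD P d ↪ {k : Idx P // k ≠ d} where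
  toFun i := ⟨exF P i.1, i.2⟩
  inj' _ _ hij := Subtype.ext ((exF P).injective (congrArg (fun y : {k : Idx P // k ≠ d} => y.1)
    hij))

theorem exF_surj {i : Idx P} (hi : i ≠ root P) : ∃ x : exS P, exF P x = i :=
  ⟨⟨Sum.inl i, mem_exS.2 hi⟩, rfl⟩

/-- Labels of `(w + d) + (exits without d)` in `w + exits`. -/
def insE (ι : Type) (P : CTree) (d : Idx P) (hd : d ≠ root P) :
    (ι ⊕ Unit) ⊕ ExD P d ≃ ι ⊕ exS P where
  toFun := Sum.elim (Sum.elim Sum.inl fun _ => Sum.inr ⟨Sum.inl d, mem_exS.2 hd⟩)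
    fun i => Sum.inr i.1
  invFun y := match y with
    | Sum.inl i => Sum.inl (Sum.inl i)
    | Sum.inr i => if h : exF P i ≠ d then Sum.inr ⟨i, h⟩ else Sum.inl (Sum.inr ())
  left_inv := by
    rintro ((i | u) | i)
    · rfl
    · change (if h : exF P (⟨Sum.inl d, mem_exS.2 hd⟩ : exS P) ≠ d then _ else _) = _
      rw [dif_neg (by rw [not_not]; rfl)]
    · change (if h : exF P i.1 ≠ d then _ else _) = _
      rw [dif_pos i.2]
  right_inv := by
    rintro (i | i)
    · rfl
    · by_cases hi : exF P i ≠ d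
      · change Sum.elim _ _ (if h : exF P i ≠ d then _ else _) = _
        rw [dif_pos hi]
        rfl
      · change Sum.elim _ _ (if h : exF P i ≠ d then _ else _) = _
        rw [dif_neg hi]
        change Sum.inr (⟨Sum.inl d, mem_exS.2 hd⟩ : exS P) = Sum.inr i
        congr 1
        apply (exF P).injective
        rw [not_not] at hi
        rw [hi]
        rfl

theorem insE_comap {d : Idx P} (hd : d ≠ root P) (w : MW (Fin m)) (F : Idx P → ML) :
    (w.add (MW.lines fun i : exS P => F (exF P i))).comap (insE (Fin m) P d hd) =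
      (w.ins (F d)).add (MW.lines fun i : ExD P d => F (exD P d i).1) := by
  unfold MW.add MW.comap MW.lines MW.ins MW.line MW.add MW.lines
  congr 1 <;> · funext x; rcases x with (x | x) | x <;> rfl

/-- The root line has no contact in `(w + d) + (exits without d)` up to the end of the encounter. -/
theorem _root_.Crest.Agent.R122.OneC285.Real4.noCt_ins (h : Real4 Φ ε K te T' P z w l)
    (hΦ : AdmissiblePotential Φ) (hε : 0 < ε)
    (hok : MW.OkFam Φ ε (MW.cfg w) (lineML Φ ε P z)) (hE : EncEv Φ ε R P z w l) {d : Idx P}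
    (hd : d ≠ root P) :
    NoCt Φ ε (((MW.cfg w).ins (lineML Φ ε P z d)).add
        (MW.lines fun i : ExD P d => lineML Φ ε P z (exD P d i).1))
      (lineML Φ ε P z (root P)) (cT ε z l + outT Φ ε (cD ε z l)) := by
  have h2 := (h.noCt_exF hΦ hε hok hE).comap hΦ hε (insE (Fin m) P d hd)
  rw [insE_comap] at h2
  exact h2

/-- The reborn root line. -/
theorem reb_rt (h : Real4 Φ ε K te T' P z w l)
    (hΦ : AdmissiblePotential Φ) (hε : 0 < ε)
    (hok : MW.OkFam Φ ε (MW.cfg w) (lineML Φ ε P z)) (hE : EncEv Φ ε R P z w l) :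
    reb (lineML Φ ε P z (root P)) (cT ε z l + outT Φ ε (cD ε z l)) =
      oneLs Φ ε P z l (Sum.inl (root P)) :=
  h.reb_root hΦ hε (okEx (l := l) hΦ hε hok) hE

section base

variable (h : Real4 Φ ε K te T' P z w l) (hΦ : AdmissiblePotential Φ) (hε : 0 < ε)
  (hK : P.leaves ≤ K) (hok : MW.OkFam Φ ε (MW.cfg w) (lineML Φ ε P z))
  (hE : EncEv Φ ε R P z w l) {s : ℝ} (h0 : 0 ≤ s) (hsT : s ≤ te)

include h hΦ hε hK hok hE h0 hsT in
theorem _root_.Crest.Agent.R122.OneC285.Real4.root_le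
    (hnl : PairNL Φ ε K te (MW.cfg w) (lineML Φ ε P z))
    (hex : ∀ i, i ≠ root P → s ≤ (MW.cfg w).thetaL Φ ε K te (lineML Φ ε P z i))
    (hs : s ≤ (MW.cfg w).thetaL Φ ε K te (oneLs Φ ε P z l (Sum.inl (root P)))) :
    s ≤ (MW.cfg w).thetaL Φ ε K te (lineML Φ ε P z (root P)) := by
  rw [← reb_rt h hΦ hε hok hE] at hs
  exact le_thetaL_of_reb hΦ hε hok hnl (exF P) (r := root P) exF_ne (fun _ => le_rfl)
    ((mk_le P (root P)).trans hK) (h.noCt_exF hΦ hε hok hE) h0 hsT
    (fun i => hex _ (exF_ne i)) hs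

include h hΦ hε hK hok hE h0 hsT in
theorem _root_.Crest.Agent.R122.OneC285.Real4.root_lt
    (hnl : PairNL Φ ε K te (MW.cfg w) (lineML Φ ε P z))
    (hex : ∀ i, i ≠ root P → s ≤ (MW.cfg w).thetaL Φ ε K te (lineML Φ ε P z i))
    (hs : s < (MW.cfg w).thetaL Φ ε K te (oneLs Φ ε P z l (Sum.inl (root P)))) :
    s < (MW.cfg w).thetaL Φ ε K te (lineML Φ ε P z (root P)) := by
  rw [← reb_rt h hΦ hε hok hE] at hs
  exact lt_thetaL_of_reb hΦ hε hok hnl (exF P) (r := root P) exF_ne (fun _ => le_rfl)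
    ((mk_le P (root P)).trans hK) (h.noCt_exF hΦ hε hok hE) h0 hsT
    (fun i => hex _ (exF_ne i)) hs

include h hΦ hε hK hok hE h0 hsT in
theorem _root_.Crest.Agent.R122.OneC285.Real4.root_le_ins {d : Idx P} (hd : d ≠ root P)
    (hokd : MW.OkFam Φ ε ((MW.cfg w).ins (lineML Φ ε P z d))
      (fun k : {k : Idx P // k ≠ d} => lineML Φ ε P z k))
    (hnl : PairNL Φ ε K te ((MW.cfg w).ins (lineML Φ ε P z d))
      (fun k : {k : Idx P // k ≠ d} => lineML Φ ε P z k))
    (hex : ∀ i, i ≠ root P → i ≠ d →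
      s ≤ ((MW.cfg w).ins (lineML Φ ε P z d)).thetaL Φ ε K te (lineML Φ ε P z i))
    (hs : s ≤ ((MW.cfg w).ins (lineML Φ ε P z d)).thetaL Φ ε K te
      (oneLs Φ ε P z l (Sum.inl (root P)))) :
    s ≤ ((MW.cfg w).ins (lineML Φ ε P z d)).thetaL Φ ε K te (lineML Φ ε P z (root P)) := by
  rw [← reb_rt h hΦ hε hok hE] at hs
  refine le_thetaL_of_reb hΦ hε hokd hnl (exD P d) (r := ⟨root P, fun h => hd h.symm⟩)
    (fun i hi => exF_ne i.1 (congrArg (fun y : {k : Idx P // k ≠ d} => y.1) hi)) ?_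
    ((mk_le P (root P)).trans hK) (h.noCt_ins hΦ hε hok hE hd) h0 hsT
    (fun i => hex _ (exF_ne i.1) i.2) hs
  rintro (y | y)
  · exact le_rfl
  · exact rel_nonneg hε.le h.real.valid.2 d

include h hΦ hε hK hok hE h0 hsT in
theorem _root_.Crest.Agent.R122.OneC285.Real4.root_lt_ins {d : Idx P} (hd : d ≠ root P)
    (hokd : MW.OkFam Φ ε ((MW.cfg w).ins (lineML Φ ε P z d))
      (fun k : {k : Idx P // k ≠ d} => lineML Φ ε P z k))
    (hnl : PairNL Φ ε K te ((MW.cfg w).ins (lineML Φ ε P z d))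
      (fun k : {k : Idx P // k ≠ d} => lineML Φ ε P z k))
    (hex : ∀ i, i ≠ root P → i ≠ d →
      s ≤ ((MW.cfg w).ins (lineML Φ ε P z d)).thetaL Φ ε K te (lineML Φ ε P z i))
    (hs : s < ((MW.cfg w).ins (lineML Φ ε P z d)).thetaL Φ ε K te
      (oneLs Φ ε P z l (Sum.inl (root P)))) :
    s < ((MW.cfg w).ins (lineML Φ ε P z d)).thetaL Φ ε K te (lineML Φ ε P z (root P)) := by
  rw [← reb_rt h hΦ hε hok hE] at hs
  refine lt_thetaL_of_reb hΦ hε hokd hnl (exD P d) (r := ⟨root P, fun h => hd h.symm⟩)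
    (fun i hi => exF_ne i.1 (congrArg (fun y : {k : Idx P // k ≠ d} => y.1) hi)) ?_
    ((mk_le P (root P)).trans hK) (h.noCt_ins hΦ hε hok hE hd) h0 hsT
    (fun i => hex _ (exF_ne i.1) i.2) hs
  rintro (y | y)
  · exact le_rfl
  · exact rel_nonneg hε.le h.real.valid.2 d

end base

/-! ### The field `base` of `TestB` -/

/-- The world `V ++ w` and `w + V`, with a line. -/
theorem ok_treeW (hΦ : AdmissiblePotential Φ) (hε : 0 < ε)
    (hokx : ((MW.cfg (Fin.append (cfT Φ ε P z) w)).ins x).Ok Φ ε) :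
    (((MW.cfg w).add (treeW Φ ε P z)).add (MW.line x)).Ok Φ ε := by
  have h3 : ((MW.cfg w).add (treeW Φ ε P z)).add (MW.line x) =
      ((MW.cfg (Fin.append (cfT Φ ε P z) w)).ins x).comap
        (Equiv.sumCongr (gE P m) (Equiv.refl Unit)) := by
    rw [← comap1]
    exact EquivE416.ins_comap _ x (gE P m)
  rw [h3]
  exact MWFam255.Ok.relabel hΦ hε hokx _

theorem thetaL_treeW (hΦ : AdmissiblePotential Φ) (hε : 0 < ε) :
    ((MW.cfg w).add (treeW Φ ε P z)).thetaL Φ ε K te x =
      (MW.cfg (Fin.append (cfT Φ ε P z) w)).thetaL Φ ε K te x := by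
  rw [← comap1, EquivE416.thetaL_comap hΦ hε]

/-- **The field `base` of `TestB` for `Nbad4`**: a good test line which touches `w` not later than the
exits and the reborn root touches `V ++ w` not later. -/
theorem _root_.Crest.Agent.R122.OneC285.Real4.testB_base (h : Real4 Φ ε K te T' P z w l)
    (hΦ : AdmissiblePotential Φ) (hε : 0 < ε) (hTT : te ≤ T') (hK : P.leaves ≤ K)
    (hE : EncEv Φ ε R P z w l) (hx0 : 0 ≤ x.1.1)
    (hokx : ((MW.cfg (Fin.append (cfT Φ ε P z) w)).ins x).Ok Φ ε)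
    (hok : MW.OkFam Φ ε (MW.cfg w) (withD (lineML Φ ε P z) x))
    (hnl : PairNL Φ ε K te (MW.cfg w) (withD (lineML Φ ε P z) x))
    (hret : ¬ RetC Φ ε ε K te (MW.cfg w) x (ptube Φ ε P z))
    (hex : ∀ i, i ≠ root P → (MW.cfg w).thetaL Φ ε K te x ≤
      (MW.cfg w).thetaL Φ ε K te (lineML Φ ε P z i))
    (hc : (MW.cfg w).thetaL Φ ε K te x ≤
      (MW.cfg w).thetaL Φ ε K te (oneLs Φ ε P z l (Sum.inl (root P)))) :
    (MW.cfg (Fin.append (cfT Φ ε P z) w)).thetaL Φ ε K te x ≤ (MW.cfg w).thetaL Φ ε K te x := by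
  have hT : 0 ≤ te := h.pos.le.trans h.le
  have ht0 : 0 ≤ (MW.cfg w).thetaL Φ ε K te x := MW.theta_nonneg hT
  have hZ : (MW.cfg w).Ok Φ ε := hok.base hΦ hε
  have hZx : ((MW.cfg w).add (MW.line x)).Ok Φ ε := hok.line hΦ hε (Sum.inr ())
  rcases MW.theta_le_or (K := K) (T := te) hΦ hε hZ hZx with hte | hte
  swap
  · have h5 : (MW.cfg w).thetaL Φ ε K te x = te + 1 := hte
    rw [h5]
    exact MW.theta_le
  have hok' : MW.OkFam Φ ε (MW.cfg w) (lineML Φ ε P z) :=
    okFam_comp hΦ hε hok (E6Hyp879.inlEmb (Idx P) Unit)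
  have hnl' : PairNL Φ ε K te (MW.cfg w) (lineML Φ ε P z) := fun j k hjk =>
    hnl (Sum.inl j) (Sum.inl k) fun h => hjk (Sum.inl_injective h)
  have hroot := h.root_le hΦ hε hK hok' hE ht0 hte hnl' hex hc
  have hall : ∀ k, (MW.cfg w).thetaL Φ ε K te x ≤
      (MW.cfg w).thetaL Φ ε K te (lineML Φ ε P z k) := by
    intro k
    by_cases hk : k = root P
    · subst hk
      exact hroot
    · exact hex k hk
  have key := LinkVh335.thetaL_le (Z := MW.cfg w) (T := te) (T' := T')
    (v := (MW.cfg w).thetaL Φ ε K te x) (l := x) hΦ hε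
    h.valid h.sep hK (hte.trans hTT) hT (fun _ => le_rfl) hx0 (toRL (R4.in1 hΦ hε h) _)
    (R4.ok1 hΦ hε h) (ok_treeW hΦ hε hokx) (fun k i _ => R4.sep0 hΦ hε h k i) hok hnl hret
    le_rfl hte hall
  rwa [thetaL_treeW hΦ hε] at key

end

end Crest.Agent.R122.NbadR263
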