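import Crest.Agent.R122.NbadR_263

/-!
# The set `Nbad4` (row 122, H1), helper263

* `Real4.not_mem_nbad4` : a test line `x` is not in `Nbad4` if it is good in the base world `w`
  (`Real4.testB_base`) and if in the base worlds `w + d`, `d` an exit, a touch of `x` strictly before
  the other lines of the tree (root line born at its RELEASE) is seen in `V ++ w` (`hins`).
-/

set_option autoImplicit false
set_option linter.unusedSectionVars false

open MeasureTheory Set Filter Topology
open scoped ENNReal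
open Crest.AnalysisR.Kinetic
open Crest.Agent.R122.Flow671 hiding rel
open Crest.Agent.R122.Loc45 Crest.Agent.R122.Ins45
open Crest.Agent.R122.Causal291 Crest.Agent.R122.Inf879 Crest.Agent.R122.EDefs602
open Crest.Agent.R122.Lines255 Crest.Agent.R122.MWAlg255
open Crest.Agent.R122.Kin796 Crest.Agent.R122.Kin796.CTree Crest.Agent.R122.Tree674
open Crest.Agent.R122.PathFlow968 Crest.Agent.R122.TreeLines335 Crest.Agent.R122.Relabel674
open Crest.Agent.R122.GC311 Crest.Agent.R122.Line285 Crest.Agent.R122.OCout796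
open Crest.Agent.R122.MWFam255 (FamNL PairNL okFam_comp)
open Crest.Agent.R122.E6Hyp879 (withD)
open Crest.Agent.R122.RealL811 (treeW)
open Crest.Agent.R122.LNEv383 (RetC)
open Crest.Agent.R122.OneC285 (lpos cfT rt cT cD cX Real4 ptube oneLs exS Nbad4)

namespace Crest.Agent.R122.NbadR263

noncomputable section

open scoped Classical

variable {Φ : Space3 → ℝ} {ε te T' R : ℝ} {K : ℕ} {P : CTree} {z : PhasePoint × Par P} {m : ℕ}
  {w : Config m} {l x : ML}

/-- **A good test line is not in `Nbad4`.** -/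
theorem _root_.Crest.Agent.R122.OneC285.Real4.not_mem_nbad4 (h : Real4 Φ ε K te T' P z w l)
    (hΦ : AdmissiblePotential Φ) (hε : 0 < ε) (hTT : te ≤ T') (hK : P.leaves ≤ K)
    (hE : EncEv Φ ε R P z w l) (hx0 : 0 ≤ x.1.1)
    (hokx : ((MW.cfg (Fin.append (cfT Φ ε P z) w)).ins x).Ok Φ ε)
    (hok : MW.OkFam Φ ε (MW.cfg w) (withD (lineML Φ ε P z) x))
    (hnl : PairNL Φ ε K te (MW.cfg w) (withD (lineML Φ ε P z) x))
    (hret : ¬ RetC Φ ε ε K te (MW.cfg w) x (ptube Φ ε P z))
    (hokd : ∀ d, d ≠ root P → MW.OkFam Φ ε ((MW.cfg w).ins (lineML Φ ε P z d))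
      (withD (fun k : {k : Idx P // k ≠ d} => lineML Φ ε P z k) x))
    (hnld : ∀ d, d ≠ root P → PairNL Φ ε K te ((MW.cfg w).ins (lineML Φ ε P z d))
      (fun k : {k : Idx P // k ≠ d} => lineML Φ ε P z k))
    (hins : ∀ d, d ≠ root P →
      ((MW.cfg w).ins (lineML Φ ε P z d)).thetaL Φ ε K te x ≤ te →
      (∀ k, k ≠ d → ((MW.cfg w).ins (lineML Φ ε P z d)).thetaL Φ ε K te x <
        ((MW.cfg w).ins (lineML Φ ε P z d)).thetaL Φ ε K te (lineML Φ ε P z k)) →
      (MW.cfg (Fin.append (cfT Φ ε P z) w)).thetaL Φ ε K te x ≤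
        ((MW.cfg w).ins (lineML Φ ε P z d)).thetaL Φ ε K te x) :
    x ∉ Nbad4 Φ ε K te P z w l := by
  have hT : 0 ≤ te := h.pos.le.trans h.le
  have hok' : MW.OkFam Φ ε (MW.cfg w) (lineML Φ ε P z) :=
    okFam_comp hΦ hε hok (E6Hyp879.inlEmb (Idx P) Unit)
  refine not_not_intro ⟨fun hb => ?_, fun d hd hb => ?_⟩
  · -- base world `w`
    rw [thX_empty hΦ hε] at hb ⊢
    have hb' : ∀ a ∈ insert (Sum.inl (root P)) (exS P), (MW.cfg w).thetaL Φ ε K te x ≤
        (MW.cfg w).thetaL Φ ε K te (oneLs Φ ε P z l a) := by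
      intro a ha
      have h1 := hb a ha
      rwa [E4Hyp879.thF_empty hΦ hε] at h1
    refine h.testB_base hΦ hε hTT hK hE hx0 hokx hok hnl hret (fun i hi => ?_)
      (hb' _ (Finset.mem_insert_self _ _))
    have h1 := hb' (Sum.inl i) (Finset.mem_insert_of_mem (mem_exS.2 hi))
    rwa [oneLs_exit hi] at h1
  · -- base world `w + d`
    obtain ⟨d, rfl⟩ : ∃ i, d = Sum.inl i := by
      rcases d with i | b
      · exact ⟨i, rfl⟩
      · exact absurd hd inr_not_mem_exS
    have hdr : d ≠ root P := mem_exS.1 hd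
    rw [thX_singleton hΦ hε, oneLs_exit hdr] at hb ⊢
    have hb' : ∀ a ∈ insert (Sum.inl (root P)) (exS P), a ≠ Sum.inl d →
        ((MW.cfg w).ins (lineML Φ ε P z d)).thetaL Φ ε K te x <
        ((MW.cfg w).ins (lineML Φ ε P z d)).thetaL Φ ε K te (oneLs Φ ε P z l a) := by
      intro a ha had
      have h1 := hb a ha had
      unfold thF at h1
      rwa [thX_singleton hΦ hε, oneLs_exit hdr] at h1
    set t := ((MW.cfg w).ins (lineML Φ ε P z d)).thetaL Φ ε K te x with ht
    have ht0 : 0 ≤ t := MW.theta_nonneg hT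
    have hYx : (((MW.cfg w).ins (lineML Φ ε P z d)).add (MW.line x)).Ok Φ ε :=
      (hokd d hdr).line hΦ hε (Sum.inr ())
    rcases MW.theta_le_or (K := K) (T := te) hΦ hε ((hokd d hdr).base hΦ hε) hYx with hte | hte
    swap
    · have h5 : t = te + 1 := hte
      rw [h5]
      exact MW.theta_le
    have hex : ∀ i, i ≠ root P → i ≠ d → t <
        ((MW.cfg w).ins (lineML Φ ε P z d)).thetaL Φ ε K te (lineML Φ ε P z i) := by
      intro i hi hid
      have h1 := hb' (Sum.inl i) (Finset.mem_insert_of_mem (mem_exS.2 hi))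
        (fun h' => hid (Sum.inl_injective h'))
      rwa [oneLs_exit hi] at h1
    have hokd' : MW.OkFam Φ ε ((MW.cfg w).ins (lineML Φ ε P z d))
        (fun k : {k : Idx P // k ≠ d} => lineML Φ ε P z k) :=
      okFam_comp hΦ hε (hokd d hdr) (E6Hyp879.inlEmb {k : Idx P // k ≠ d} Unit)
    have hroot := h.root_lt_ins hΦ hε hK hok' hE ht0 hte hdr hokd' (hnld d hdr)
      (fun i hi hid => (hex i hi hid).le)
      (hb' _ (Finset.mem_insert_self _ _) fun h' => hdr (Sum.inl_injective h').symm)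
    refine hins d hdr hte fun k hk => ?_
    by_cases hkr : k = root P
    · subst hkr
      exact hroot
    · exact hex k hkr hk

end

end Crest.Agent.R122.NbadR263
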