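import Crest.Agent.R122.LNS3d_968
import Crest.Agent.R122.GxDet_365
import Crest.Agent.R122.LNNear8_383
import Crest.Agent.R122.Real6P_796

/-!
# Row 122, LINK6 (helper674): the field `nl2` of helper796's `Slots6G`

* `nl2_det'` : helper968's `nl2_det`, the encounter ends before the horizon (hypothesis).
* `gNull_nl2` : **the field `nl2`**, from the gateway and `PairAlt`.
-/

set_option autoImplicit false
set_option linter.unusedSectionVars false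

open MeasureTheory Set Filter Topology
open Crest.AnalysisR.Kinetic
open Crest.Agent.R122.Flow671 hiding rel
open Crest.Agent.R122.Loc45 Crest.Agent.R122.Ins45
open Crest.Agent.R122.VL581 Crest.Agent.R122.VL581.VSys Crest.Agent.R122.VLInst442
open Crest.Agent.R122.LN304 Crest.Agent.R122.LNg410 Crest.Agent.R122.LNPart424
open Crest.Agent.R122.Kin796 Crest.Agent.R122.Kin796.CTree Crest.Agent.R122.Tree674
open Crest.Agent.R122.PathFlow968 Crest.Agent.R122.TreeLines335 Crest.Agent.R122.EDefs602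
open Crest.Agent.R122.LNTree410 Crest.Agent.R122.PWGlue491 Crest.Agent.R122.Inf879
open Crest.Agent.R122.LNGraft410 Crest.Agent.R122.LNEv968 Crest.Agent.R122.PWInst442
open Crest.Agent.R122.OCout796 Crest.Agent.R122.Scat818 Crest.Agent.R122.StrG491
open Crest.Agent.R122.MWFam255 Crest.Agent.R122.LNEv818 Crest.Agent.R122.LNS674
open Crest.Agent.R122.OneC285 (cT cB cD cX)
open Crest.Agent.R122.E6Hyp879 (plus withD)
open Crest.Agent.R122.Decomp811 (exF)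
open scoped Classical ENNReal

noncomputable section

namespace Crest.Agent.R122.Nl2G674

section det

open Crest.Agent.R122.LNS968

variable {σ : Type} [Fintype σ] {n : ℕ} {Φ : Space3 → ℝ} {T te tc ε c ℓ ς : ℝ} {b : σ → ℝ}
  {V : σ → PhasePoint} {w : Config n} {R : ℝ → Fin n ⊕ σ → Fin n ⊕ σ → Prop}
  {cl : Fin n ⊕ σ → Finset (Fin n ⊕ σ)} {bE : Fin n ⊕ σ → ℝ} {π : Finset (Fin n ⊕ σ)}
  {x y : σ} {d e : ML} {P : CTree} {z : PhasePoint × Par P} {g : Idx P ↪ σ}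

/-- helper968's `nl2_det`, the encounter ends before the horizon. -/
theorem nl2_det' (H : PTree (gsys Φ T ε n b) c (Sum.elim w V) R π cl bE (Sum.inr x) (Sum.inr y) d.1
      e tc P z (g.trans (strE n σ)))
    (hπ : ∀ j : Fin n ⊕ σ, (j ∈ π ∨ j ∈ part (g.trans (strE n σ))) ↔ j ∈ pS n σ)
    (hpe : w ∈ PairExcluded ε n) (hΦ : AdmissiblePotential Φ) (hε : 0 < ε)
    (hT0 : 0 ≤ T) (hte : te ≤ T) (hc : 1 ≤ c) {T' Te T₁ ρ : ℝ} (hρ : 2 * (ρ * ε) ≤ ς)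
    (hT : T ≤ T') (hTe : T' ≤ Te) (hT₁ : Te < T₁) {K m N₁ : ℕ} {A₀ : Finset σ} (hA : A₀.Nonempty)
    (hN : 4 * (Fintype.card σ + 2 * K * (m + 2)) ≤ N₁)
    (hB : ¬ LN2.BadGas Φ T' c ρ ς ε N₁ 1 A₀ b V w)
    (hBH : ¬ BH167.BadHitGas (BH167.bpos Φ T₁ Te) Φ T' c 1 ε N₁ N₁ 1 A₀ b V w)
    (hR : ¬ Gate424.RunS Φ ε T K m b V w) (hpass : CDpass Φ (cD ε z e))
    (hle : cT ε z e + outT Φ ε (cD ε z e) ≤ T)
    (hok : MW.OkFam Φ ε (MW.cfg w) (withD (fun i => lineML Φ ε P z i) d))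
    (hok2 : MW.OkFam Φ ε ((MW.cfg w).ins d) (fam6 Φ ε P z e))
    (hBd : PW365.NoB Φ ε (MW.cfg w) d)
    (hBo : ∀ k, PW365.NoB Φ ε (MW.cfg w) (out6 Φ ε P z e k)) :
    PairNL Φ ε K te ((MW.cfg w).ins d) (fam6 Φ ε P z e) := by
  have hTL := LNS3a304.tlA H hπ hpe hΦ hε hc hT hA (N := N₁) (by omega) hB
  have h6 : In6 Φ T ε c (ρ * ε) ς b V w R π cl bE x y d e tc P z g :=
    { hΦ := hΦ
      hε := hε
      hC := hc
      pt := H
      full := fun j => (hπ j).symm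
      tl := hTL
      hℓς := hρ
      pass := hpass
      le := hle
      pe := hpe }
  have h1 := LNS3a304.one0 H hπ hpe hΦ hε hc
  have E1 := LNS3a304.exits1 H hπ hpe hΦ hε hc hρ hTL hte hok
  have E6' := h6.exits (t₀ := te) hte (hok2.base hΦ hε)
    (hok.base hΦ hε) (fun k => by
      have h3 := hok2.line hΦ hε (Sum.inr k)
      cases k <;> exact h3) hBd hBo
  have hX1 := h1.ctx hΦ hε hc hρ hT hA hB
  have hX6 := h6.one.ctx hΦ hε hc hρ hT hA hB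
  refine h6.nl2 hte (N := Fintype.card σ + 2 * K * (m + 2)) (N₁ := N₁) (hok2.base hΦ hε)
    (fun k => hok2.line hΦ hε k) hX6.nb (by omega) fun k => ?_
  rcases k with i | k
  · refine (h1.reachAll_or_run E1 hT0 hte hX1 i.1 (fun β => ?_) (by omega)).resolve_left hR
    cases β
    · exact (h1.wd hΦ hε hT0 hc hρ hT hTe hT₁ hA hBH E1.gd0).bh
    · exact (h1.wd hΦ hε hT0 hc hρ hT hTe hT₁ hA hBH (E1.gd1 i.1)).bh
  · have h2 := (h6.one.reachAll_or_run E6' hT0 hte hX6 k (fun β => by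
      cases β
      · exact (h6.one.wd hΦ hε hT0 hc hρ hT hTe hT₁ hA hBH E6'.gd0).bh
      · exact (h6.one.wd hΦ hε hT0 hc hρ hT hTe hT₁ hA hBH (E6'.gd1 k)).bh)
      (by omega)).resolve_left hR
    cases k <;> exact h2

end det

section gate

open Crest.Agent.R122.Link6796 Crest.Agent.R122.LNEv383
open Crest.Agent.R122.Boost969 (LSt)
open Crest.Agent.R122.Pair292 (Lab)
open Crest.Agent.R122.PairD292
open Crest.Agent.R122.Gate424 Crest.Agent.R122.Gate973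
open Crest.Agent.R122.GateOsP424 (osB osZ)
open Crest.Agent.R122.PairRep581 (Shp ShpOk osP)
open Crest.Agent.R122.OPX973 (OPX anT)
open Crest.Agent.R122.PTreeOf331 (iT iS)
open Crest.Agent.R122.GC311

variable {Φ : Space3 → ℝ} {f₀ : PhasePoint → ℝ} {bg γ β tx T' : ℝ} {ρ : Space3 → ℝ≥0∞}
  {gl : ℝ → ℝ} {rm : ℝ≥0∞} {P : CTree} {S : Shp} {K : ℕ} {Q : EPar} {c : ℝ}

/-- helper796's `PairAlt` in the form of helper383's gate. -/
theorem pairAltE_of (h : PairAlt Φ f₀ Q T' K P S c) : PairAltE Φ f₀ Q T' K P S c := by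
  obtain ⟨B, Ht, hB, hH, h⟩ := h
  refine ⟨B, Ht, hB, hH, fun r hr ς hς => ?_⟩
  obtain ⟨ε₁, h0, h1⟩ := h r hr ς hς
  refine ⟨ε₁, h0, fun ε hε hlt n q w hw hG => ?_⟩
  obtain ⟨R, hG⟩ := hG
  have hPK : P.leaves ≤ K := (Nat.le_add_left _ _).trans hG.gd.small
  rcases h1 ε hε hlt () n q w hw ⟨hG.gd.real.ct, hG.gd.real.okL⟩ hG.gd with h2 | h2 | h2
  · obtain ⟨Rc, cl, bD, x, y, h3, -, -⟩ := h2.pair
    exact Or.inr (Or.inr ⟨Rc, cl, bD, x, y, h3⟩)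
  · exact Or.inl h2
  · exact Or.inr (Or.inl h2)

/-- The deterministic alternatives of the field `nl2`. -/
theorem nl2_alt {R r ς ε c : ℝ} {n m N : ℕ} {q : (PhasePoint × Par P) × S.Θ} {w : Config n}
    (hΦ : AdmissiblePotential Φ) (hε : 0 < ε) (hT0 : 0 ≤ T') (hlt : Q.te < T') (hc : 1 ≤ c)
    (hr : 2 * (r * ε) ≤ ς)
    (hN : 4 * (Fintype.card (Idx P ⊕ S.κ) + 2 * K * (m + 2)) ≤ N) (hw : w ∈ PairExcluded ε n)
    (hG : Gx6 Φ ε R K Q T' P q.1 w (S.th ε q.2)) (hO : Ok6 Φ ε P q.1 w (S.th ε q.2))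
    (h2 : ¬ Nl2 Φ ε K Q.te P q.1 w (S.th ε q.2)) (hP : PTreeQ Φ T' Q.te ε c P S n w q) :
    RunS Φ ε T' K m (osB P S ε q) (osZ Φ P S ε q) w ∨
      LN2.BadGas Φ T' c r ς ε N 1 (anT P S) (osB P S ε q) (osZ Φ P S ε q) w ∨
      BH167.BadHitGas (BH167.bpos Φ (T' + 1) T') Φ T' c 1 ε N N 1 (anT P S) (osB P S ε q)
        (osZ Φ P S ε q) w := by
  obtain ⟨Rc, π, cl, β', x, y, H, hπ⟩ := hP
  by_contra hcon
  rw [not_or, not_or] at hcon
  obtain ⟨hR, hB, hBH⟩ := hcon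
  refine h2 ?_
  exact nl2_det' H hπ hw hΦ hε hT0 hlt.le hc hr le_rfl le_rfl (lt_add_one T') anT_nonempty hN hB
    hBH hR hG.enc.pass ((GxDet365.out_le_te hε hG).trans hlt.le) hO.ok₁ hO.ok₂
    (GxDet365.noB_d hΦ hε hG) (fun k => by
      cases k
      · exact GxDet365.noB_out hΦ hε hG (some true)
      · exact GxDet365.noB_out hΦ hε hG (some false))

/-- **The field `nl2` of `Slots6G`.** -/
theorem gNull_nl2 (h : OPX Φ f₀ bg γ β T' tx ρ S gl rm) (hlt : Q.te < T') (hc : 1 ≤ c)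
    (hPA : PairAlt Φ f₀ Q T' K P S c) : ∀ R : ℝ, 0 ≤ R →
    GNull f₀ (osP Φ f₀ Q.te T' K P S) (fun ε _ _ q w =>
      Gx6 Φ ε R K Q T' P q.1 w (S.th ε q.2) ∧ Ok6 Φ ε P q.1 w (S.th ε q.2) ∧
        Nl0 Φ ε K Q.te P q.1 w (S.th ε q.2) ∧ Nl1 Φ ε K Q.te P q.1 w (S.th ε q.2) ∧
        ¬ Nl2 Φ ε K Q.te P q.1 w (S.th ε q.2)) := fun R _ =>
  gNull_of_pair h hlt (pairAltE_of hPA) (R := R) K
    (E := fun ε n q w => Gx6 Φ ε R K Q T' P q.1 w (S.th ε q.2) ∧ Ok6 Φ ε P q.1 w (S.th ε q.2) ∧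
        Nl0 Φ ε K Q.te P q.1 w (S.th ε q.2) ∧ Nl1 Φ ε K Q.te P q.1 w (S.th ε q.2) ∧
        ¬ Nl2 Φ ε K Q.te P q.1 w (S.th ε q.2)) (fun _ _ _ _ h => h.1)
    fun L => ⟨4 * (Fintype.card (Idx P ⊕ S.κ) + 2 * K * (L + 2)),
      fun _ _ _ _ _ hε hrς _ _ _ hw hE hP => nl2_alt h.adm hε h.T_pos.le hlt hc hrς le_rfl hw
        hE.1 hE.2.1 hE.2.2.2.2 hP⟩

end gate

end Crest.Agent.R122.Nl2G674

end
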