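import Crest.Agent.R122.LNNear9_383

/-!
# Row 122, LINK6 (helper796): the fields `nl0`, `nl1` of `Slots6G`
-/

set_option autoImplicit false
set_option linter.unusedSectionVars false
set_option maxHeartbeats 400000

open MeasureTheory Set Filter Topology
open scoped ENNReal
open Crest.AnalysisR.Kinetic
open Crest.Agent.R122.GC311 Crest.Agent.R122.EDefs602
open Crest.Agent.R122.Kin796 Crest.Agent.R122.Kin796.CTree Crest.Agent.R122.Tree674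
open Crest.Agent.R122.TreeLines335 Crest.Agent.R122.MWFam255
open Crest.Agent.R122.E6Hyp879 (withD)
open Crest.Agent.R122.Link6796
open Crest.Agent.R122.Gate424 Crest.Agent.R122.Gate973
open Crest.Agent.R122.PairD292
open Crest.Agent.R122.GateOsP424 (osB osZ)
open Crest.Agent.R122.PairRep581 (Shp ShpOk osP)
open Crest.Agent.R122.OPX973 (OPX anT)
open Crest.Agent.R122.LNEv383
open scoped Classical

noncomputable section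

namespace Crest.Agent.R122.NlF796

variable {Φ : Space3 → ℝ} {f₀ : PhasePoint → ℝ} {bg γ β te T' : ℝ} {ρ : Space3 → ℝ≥0∞}
  {gl : ℝ → ℝ} {rm : ℝ≥0∞} {P : CTree} {S : Shp} {K : ℕ} {Q : EPar}

/-- The deterministic alternatives of `nl0`, `nl1`. -/
theorem nl_det {r ς ε c : ℝ} {n m N : ℕ} {q : (PhasePoint × Par P) × S.Θ} {w : Config n}
    (hΦ : AdmissiblePotential Φ) (hε : 0 < ε) (hT0 : 0 ≤ T') (hlt : Q.te < T') (hc : 1 ≤ c)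
    (hr : 2 * (r * ε) ≤ ς)
    (hN : (Fintype.card (Idx P ⊕ S.κ) + 2 * K * (m + 2)) +
      (Fintype.card (Idx P ⊕ S.κ) + 2 * K * (m + 2)) ≤ N) (hw : w ∈ PairExcluded ε n)
    (hO : Ok6 Φ ε P q.1 w (S.th ε q.2)) (hP : PTreeQ Φ T' Q.te ε c P S n w q)
    (hE : ¬ Nl0 Φ ε K Q.te P q.1 w (S.th ε q.2) ∨ ¬ Nl1 Φ ε K Q.te P q.1 w (S.th ε q.2)) :
    RunS Φ ε T' K m (osB P S ε q) (osZ Φ P S ε q) w ∨
      LN2.BadGas Φ T' c r ς ε N 1 (anT P S) (osB P S ε q) (osZ Φ P S ε q) w ∨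
      BH167.BadHitGas (BH167.bpos Φ (T' + 1) T') Φ T' c 1 ε N N 1 (anT P S) (osB P S ε q)
        (osZ Φ P S ε q) w := by
  obtain ⟨Rc, π, cl, β', x, y, H, hπ⟩ := hP
  by_contra hcon
  push Not at hcon
  obtain ⟨hR, hB, hBH⟩ := hcon
  rcases hE with hE | hE
  · exact hE (LNS3a304.nl0_det H hπ hw hΦ hε hT0 hlt.le hc hr (T' := T') (Te := T')
      (T₁ := T' + 1) le_rfl le_rfl (lt_add_one T') anT_nonempty hN hB hBH hR hO.ok₁)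
  · exact hE (LNS3a304.nl1_det H hπ hw hΦ hε hT0 hlt.le hc hr (T' := T') (Te := T')
      (T₁ := T' + 1) le_rfl le_rfl (lt_add_one T') anT_nonempty hN hB hBH hR hO.ok₁)

theorem gNull_nl (h : OPX Φ f₀ bg γ β T' te ρ S gl rm) (hlt : Q.te < T')
    (hPA : PairAlt Φ f₀ Q T' K P S 1) (R : ℝ) :
    GNull f₀ (osP Φ f₀ Q.te T' K P S) (fun ε _ _ q w =>
      Gx6 Φ ε R K Q T' P q.1 w (S.th ε q.2) ∧ Ok6 Φ ε P q.1 w (S.th ε q.2) ∧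
        (¬ Nl0 Φ ε K Q.te P q.1 w (S.th ε q.2) ∨ ¬ Nl1 Φ ε K Q.te P q.1 w (S.th ε q.2))) :=
  gNull_of_pairAlt h hlt hPA (R := R) K
    (E := fun ε _ q w => Gx6 Φ ε R K Q T' P q.1 w (S.th ε q.2) ∧ Ok6 Φ ε P q.1 w (S.th ε q.2) ∧
        (¬ Nl0 Φ ε K Q.te P q.1 w (S.th ε q.2) ∨ ¬ Nl1 Φ ε K Q.te P q.1 w (S.th ε q.2)))
    (fun _ _ _ _ h => h.1) fun L => ⟨_, fun _ _ _ _ _ hε hrς _ _ _ hw hE hP =>
      nl_det h.adm hε h.T_pos.le hlt le_rfl hrς le_rfl hw hE.2.1 hP hE.2.2 (m := L)⟩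

/-- **The field `nl0` of `Slots6G`.** -/
theorem slot_nl0 (h : OPX Φ f₀ bg γ β T' te ρ S gl rm) (hlt : Q.te < T')
    (hPA : PairAlt Φ f₀ Q T' K P S 1) (R : ℝ) (_hR : 0 ≤ R) :
    GNull f₀ (osP Φ f₀ Q.te T' K P S) (fun ε _ _ q w =>
      Gx6 Φ ε R K Q T' P q.1 w (S.th ε q.2) ∧ Ok6 Φ ε P q.1 w (S.th ε q.2) ∧
        ¬ Nl0 Φ ε K Q.te P q.1 w (S.th ε q.2)) :=
  (gNull_nl h hlt hPA R).mono' fun _ _ _ _ _ hE => ⟨hE.1, hE.2.1, Or.inl hE.2.2⟩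

/-- **The field `nl1` of `Slots6G`.** -/
theorem slot_nl1 (h : OPX Φ f₀ bg γ β T' te ρ S gl rm) (hlt : Q.te < T')
    (hPA : PairAlt Φ f₀ Q T' K P S 1) (R : ℝ) (_hR : 0 ≤ R) :
    GNull f₀ (osP Φ f₀ Q.te T' K P S) (fun ε _ _ q w =>
      Gx6 Φ ε R K Q T' P q.1 w (S.th ε q.2) ∧ Ok6 Φ ε P q.1 w (S.th ε q.2) ∧
        Nl0 Φ ε K Q.te P q.1 w (S.th ε q.2) ∧ ¬ Nl1 Φ ε K Q.te P q.1 w (S.th ε q.2)) :=
  (gNull_nl h hlt hPA R).mono' fun _ _ _ _ _ hE => ⟨hE.1, hE.2.1, Or.inr hE.2.2.2⟩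

end Crest.Agent.R122.NlF796

end
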