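import Crest.Agent.R122.MWFam3_255
import Crest.Agent.R122.Lines3_255

/-!
# No clean particle has two unlinked lines in its past (row 122, block A9/A8)

`FamNL Φ ε K T Z ls s` : the family `ls` inserted in `Z`; `s ≤ T`, no line has touched `Z` before `s`
and no two lines are linked in `Z` up to and including `s`. World `W = Z.add (MW.lines ls)`.

* `Col Z ls k u x` : the label `x` of `W` is the line `k` or a particle of `Z` in the clean closure
  of the line `k` at time `u`.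
* `col_disjoint`, `col_contact` : different colours are disjoint and not in contact.
* `col_of_past` : if `x` has the line `k` in its past at time `u ≤ s`, then `x` has colour `k`
  (at `u = s`: if its past is clean before).
* `past_unique_lt` : for `u < s` every particle has at most one line in its past.
* `noDouble` : helper255's `NoDouble` on `[0, s]` for a real world replaced by its exit lines.

After the first touch this is false in general.
-/

set_option autoImplicit false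
set_option linter.unusedSectionVars false

open MeasureTheory Set Filter Topology
open Crest.AnalysisR.Kinetic
open Crest.Agent.R122.EDefs602 Crest.Agent.R122.MWAlg255 Crest.Agent.R122.CausalGen291
open Crest.Agent.R122.Inf879
open Crest.Agent.R122.Causal291 (Past BC)

namespace Crest.Agent.R122.MWFam255

noncomputable section

variable {Φ : Space3 → ℝ} {ε T s u : ℝ} {K : ℕ} {ι κ : Type} [Fintype ι] [Fintype κ]

/-- The family is inserted in `Z`; no touch before `s`, no link up to and including `s`. -/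
structure FamNL (Φ : Space3 → ℝ) (ε : ℝ) (K : ℕ) (T : ℝ) (Z : MW ι) (ls : κ → ML) (s : ℝ) :
    Prop where
  ok : MW.OkFam Φ ε Z ls
  s0 : 0 ≤ s
  sT : s ≤ T
  le : ∀ k, s ≤ Z.thetaL Φ ε K T (ls k)
  nl : ∀ j k, j ≠ k → ¬ Z.LINK Φ ε K (MW.line (ls j)) (MW.line (ls k)) s

theorem famNL_of_pair {Z : MW ι} {ls : κ → ML} (hok : MW.OkFam Φ ε Z ls)
    (h : PairNL Φ ε K T Z ls) (s0 : 0 ≤ s) (sT : s ≤ T)
    (le : ∀ k, s ≤ Z.thetaL Φ ε K T (ls k)) : FamNL Φ ε K T Z ls s :=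
  ⟨hok, s0, sT, le, fun j k hjk => h j k hjk s s0 sT (le j) (le k)⟩

variable {Z : MW ι} {ls : κ → ML}

theorem FamNL.mono (h : FamNL Φ ε K T Z ls s) (hu0 : 0 ≤ u) (hus : u ≤ s) :
    FamNL Φ ε K T Z ls u :=
  ⟨h.ok, hu0, hus.trans h.sT, fun k => hus.trans (h.le k), fun j k hjk hl =>
    h.nl j k hjk (hl.mono hus)⟩

/-- The relabelling of the whole family. -/
def univEquiv (κ : Type) [Fintype κ] : κ ≃ (Finset.univ : Finset κ) :=
  (Equiv.subtypeUnivEquiv (fun x => Finset.mem_univ x)).symm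

theorem lines_eq (ls : κ → ML) : MW.lines ls = (sub ls Finset.univ).comap (univEquiv κ) := rfl

theorem path_lines (hΦ : AdmissiblePotential Φ) (hε : 0 < ε) (x : ι ⊕ κ) :
    (Z.add (MW.lines ls)).path Φ ε u x = (Z.add (sub ls Finset.univ)).path Φ ε u
      (Equiv.sumCongr (Equiv.refl ι) (univEquiv κ) x) := by
  rw [lines_eq, add_comap_right, path_comap hΦ hε]

theorem FamNL.core (hΦ : AdmissiblePotential Φ) (hε : 0 < ε) (h : FamNL Φ ε K T Z ls s) :
    s ≤ Z.theta Φ ε K T (MW.lines ls) := by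
  classical
  rw [← theta_sub_univ hΦ hε]
  exact (fam_core hΦ hε (okF_of_okFam hΦ hε h.ok) h.s0 h.sT Finset.univ (fun k _ => h.le k)
    fun j _ k _ hjk => h.nl j k hjk).1

/-- State of a line. -/
theorem FamNL.path_inr (hΦ : AdmissiblePotential Φ) (hε : 0 < ε) (h : FamNL Φ ε K T Z ls s)
    (hu : u ∈ Icc 0 s) (k : κ) : (Z.add (MW.lines ls)).path Φ ε u (Sum.inr k) =
      (Z.add (MW.line (ls k))).path Φ ε u (Sum.inr ()) := by
  classical
  rw [path_lines hΦ hε]
  exact (fam_core2 hΦ hε (okF_of_okFam hΦ hε h.ok) h.s0 h.sT Finset.univ (fun k _ => h.le k)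
    (fun j _ k _ hjk => h.nl j k hjk) hu).2.1 k (Finset.mem_univ k)

/-- State of a particle of `Z` in the clean closure of the line `k`. -/
theorem FamNL.path_inl (hΦ : AdmissiblePotential Φ) (hε : 0 < ε) (h : FamNL Φ ε K T Z ls s)
    (hu : u ∈ Icc 0 s) {k : κ} {i : ι} (hi : CF Φ ε K Z (MW.line (ls k)) u i) :
    (Z.add (MW.lines ls)).path Φ ε u (Sum.inl i) =
      (Z.add (MW.line (ls k))).path Φ ε u (Sum.inl i) := by
  classical
  rw [path_lines hΦ hε]
  exact (fam_core2 hΦ hε (okF_of_okFam hΦ hε h.ok) h.s0 h.sT Finset.univ (fun k _ => h.le k)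
    (fun j _ k _ hjk => h.nl j k hjk) hu).2.2 k (Finset.mem_univ k) i hi

theorem cf_lines_iff (hΦ : AdmissiblePotential Φ) (hε : 0 < ε) (h : FamNL Φ ε K T Z ls s)
    (hu : u ∈ Icc 0 s) (i : ι) :
    CF Φ ε K Z (MW.lines ls) u i ↔ ∃ k, CF Φ ε K Z (MW.line (ls k)) u i := by
  classical
  rw [lines_eq, cf_comap hΦ hε]
  rw [(fam_core2 hΦ hε (okF_of_okFam hΦ hε h.ok) h.s0 h.sT Finset.univ (fun k _ => h.le k)
    (fun j _ k _ hjk => h.nl j k hjk) hu).1 i]
  simp

/-- Before the touch time the full influence is the clean closure. -/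
theorem cf_of_fut_lt (hΦ : AdmissiblePotential Φ) (hε : 0 < ε) {κ' : Type} [Fintype κ']
    {A : MW κ'} (hZ : Z.Ok Φ ε) (hA : (Z.add A).Ok Φ ε) (hu0 : 0 ≤ u) (huT : u ≤ T)
    (h : u < Z.theta Φ ε K T A) {i : ι} (hi : Z.Fut Φ ε A u i) : CF Φ ε K Z A u i :=
  cf_of_fut hΦ hε hZ hA hu0
    (fun ht => absurd ((MW.touched_iff hΦ hε hZ hA ⟨hu0, huT⟩).1 ht) (not_le.2 h)) hi

/-- Closed end: a particle outside the clean closure has the same state. -/
theorem path_of_not_cf (hΦ : AdmissiblePotential Φ) (hε : 0 < ε) {κ' : Type} [Fintype κ']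
    {A : MW κ'} (hZ : Z.Ok Φ ε) (hA : (Z.add A).Ok Φ ε) (hsT : s ≤ T)
    (h : s ≤ Z.theta Φ ε K T A) (hu : u ∈ Icc 0 s) {i : ι} (hi : ¬ CF Φ ε K Z A u i) :
    Z.path Φ ε u i = (Z.add A).path Φ ε u (Sum.inl i) := by
  refine agree_of_not_fut_lt ((MW.com_add Z A).pair hΦ hε hZ hA T) ⟨hu.1, hu.2.trans hsT⟩ ?_ ?_
  · change Z.path Φ ε 0 i = (Z.add A).path Φ ε 0 (Sum.inl i)
    rw [MW.path_zero hΦ hε, MW.path_zero hΦ hε]
    rfl
  · intro v hv0 hvu hv
    exact hi ((cf_of_fut_lt hΦ hε hZ hA hv0 ((hvu.le.trans hu.2).trans hsT)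
      ((hvu.trans_le hu.2).trans_le h) hv).mono hvu.le)

/-! ### Colours -/

/-- The label `x` is the line `k` or in its clean closure. -/
def Col (Φ : Space3 → ℝ) (ε : ℝ) (K : ℕ) (Z : MW ι) (ls : κ → ML) (k : κ) (u : ℝ)
    (x : ι ⊕ κ) : Prop :=
  x = Sum.inr k ∨ ∃ i, x = Sum.inl i ∧ CF Φ ε K Z (MW.line (ls k)) u i

/-- Forget which line. -/
def proj (x : ι ⊕ κ) : ι ⊕ Unit := Sum.map id (fun _ => ()) x

theorem Col.mono {k : κ} {x : ι ⊕ κ} {u' : ℝ} (h : Col Φ ε K Z ls k u x) (hu : u ≤ u') :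
    Col Φ ε K Z ls k u' x := by
  rcases h with h | ⟨i, h, hi⟩
  · exact Or.inl h
  · exact Or.inr ⟨i, h, hi.mono hu⟩

theorem Col.path (hΦ : AdmissiblePotential Φ) (hε : 0 < ε) (h : FamNL Φ ε K T Z ls s)
    (hu : u ∈ Icc 0 s) {k : κ} {x : ι ⊕ κ} (hx : Col Φ ε K Z ls k u x) :
    (Z.add (MW.lines ls)).path Φ ε u x = (Z.add (MW.line (ls k))).path Φ ε u (proj x) := by
  rcases hx with rfl | ⟨i, rfl, hi⟩
  · exact h.path_inr hΦ hε hu k
  · exact h.path_inl hΦ hε hu hi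

theorem Col.b {k : κ} {x : ι ⊕ κ} (hx : Col Φ ε K Z ls k u x) :
    (Z.add (MW.lines ls)).b x = (Z.add (MW.line (ls k))).b (proj x) := by
  rcases hx with rfl | ⟨i, rfl, hi⟩ <;> rfl

theorem Col.ci {k : κ} {x : ι ⊕ κ} (hx : Col Φ ε K Z ls k u x) :
    CI Φ ε K Z (MW.line (ls k)) u (proj x) := by
  rcases hx with rfl | ⟨i, rfl, hi⟩
  · exact ci_inr
  · exact ci_inl hi

/-- Different colours are disjoint. -/
theorem col_disjoint (h : FamNL Φ ε K T Z ls s)
    (hu : u ∈ Icc 0 s) {j k : κ} {x : ι ⊕ κ} (hj : Col Φ ε K Z ls j u x)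
    (hk : Col Φ ε K Z ls k u x) : j = k := by
  by_contra hjk
  rcases hj with rfl | ⟨i, rfl, hi⟩
  · rcases hk with hk | ⟨i', hk, _⟩
    · exact hjk (Sum.inr_injective hk)
    · cases hk
  · rcases hk with hk | ⟨i', hk, hi'⟩
    · cases hk
    · rw [← Sum.inl_injective hk] at hi'
      exact h.nl j k hjk (link_iff.2 ⟨u, hu, Or.inl ⟨i, hi, hi'⟩⟩)

/-- Different colours are not in contact. -/
theorem col_contact (hΦ : AdmissiblePotential Φ) (hε : 0 < ε) (h : FamNL Φ ε K T Z ls s)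
    (hu : u ∈ Icc 0 s) {j k : κ} {x y : ι ⊕ κ} (hj : Col Φ ε K Z ls j u x)
    (hk : Col Φ ε K Z ls k u y) (hc : (Z.add (MW.lines ls)).C Φ ε u x y) : j = k := by
  by_contra hjk
  have hxy : x ≠ y := by
    rintro rfl
    exact hjk (col_disjoint h hu hj hk)
  obtain ⟨h1, h2, h3, h4⟩ := hc
  refine h.nl j k hjk (link_iff.2 ⟨u, hu, Or.inr ⟨proj x, proj y, hj.ci, hk.ci, ?_, ?_, ?_, ?_⟩⟩)
  · rw [← hj.b]; exact h1
  · rw [← hk.b]; exact h2
  · rw [← hj.b, ← hk.b]
    rcases h3 with h3 | h3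
    · exact absurd h3 hxy
    · exact Or.inr h3
  · rw [← hj.path hΦ hε h hu, ← hk.path hΦ hε h hu]
    exact h4

/-- A particle without colour has its state in `Z`, and in `Z` plus any single line. -/
theorem path_no_col (hΦ : AdmissiblePotential Φ) (hε : 0 < ε) (h : FamNL Φ ε K T Z ls s)
    (hu : u ∈ Icc 0 s) {x : ι ⊕ κ} (hx : ∀ j, ¬ Col Φ ε K Z ls j u x) :
    ∃ i, x = Sum.inl i ∧ (Z.add (MW.lines ls)).path Φ ε u x = Z.path Φ ε u i ∧
      ∀ k, (Z.add (MW.line (ls k))).path Φ ε u (Sum.inl i) = Z.path Φ ε u i := by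
  have hok := okF_of_okFam hΦ hε h.ok
  rcases x with i | j
  · have hi : ∀ k, ¬ CF Φ ε K Z (MW.line (ls k)) u i := fun k hk => hx k (Or.inr ⟨i, rfl, hk⟩)
    refine ⟨i, rfl, ?_, fun k => ?_⟩
    · refine (path_of_not_cf hΦ hε hok.z (h.ok.lines hΦ hε) h.sT (h.core hΦ hε) hu ?_).symm
      rw [cf_lines_iff hΦ hε h hu]
      rintro ⟨k, hk⟩
      exact hi k hk
    · exact (path_of_not_cf hΦ hε hok.z (h.ok.line hΦ hε k) h.sT (h.le k) hu (hi k)).symm
  · exact absurd (Or.inl rfl) (hx j)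

/-- **Step.** A particle in contact with a particle of colour `k` has colour `k`: before `s`, or if
it was not infected before. -/
theorem col_step (hΦ : AdmissiblePotential Φ) (hε : 0 < ε) (h : FamNL Φ ε K T Z ls s)
    (hu : u ∈ Icc 0 s) {k : κ} {x y : ι ⊕ κ} (hy : Col Φ ε K Z ls k u y)
    (hc : (Z.add (MW.lines ls)).C Φ ε u x y)
    (hcl : u < s ∨ ∀ r, 0 ≤ r → r < u → ¬ (Z.add (MW.lines ls)).Inf Φ ε K r x) :
    Col Φ ε K Z ls k u x := by
  by_cases hx : ∃ j, Col Φ ε K Z ls j u x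
  · obtain ⟨j, hj⟩ := hx
    have := col_contact hΦ hε h hu hj hy hc
    exact this ▸ hj
  push Not at hx
  have hok := okF_of_okFam hΦ hε h.ok
  have hZ := hok.z
  have hA := h.ok.line hΦ hε k
  obtain ⟨i, rfl, hp, hpk⟩ := path_no_col hΦ hε h hu hx
  obtain ⟨h1, h2, h3, h4⟩ := hc
  -- the contact in the world with the line `k`
  have hck : (Z.add (MW.line (ls k))).C Φ ε u (proj y) (Sum.inl i) := by
    refine ⟨?_, h1, ?_, ?_⟩
    · rw [← hy.b]; exact h2
    · rw [← hy.b]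
      rcases h3 with h3 | h3 | h3
      · left
        rw [← h3]
        rfl
      · exact Or.inr (Or.inr h3)
      · exact Or.inr (Or.inl h3)
    · rw [← hy.path hΦ hε h hu, hpk k, ← hp, dist_comm]
      exact h4
  refine Or.inr ⟨i, rfl, ?_⟩
  rcases hcl with hlt | hcl
  · refine cf_of_fut_lt hΦ hε hZ hA hu.1 (hu.2.trans h.sT) (hlt.trans_le (h.le k)) ?_
    rcases hy with rfl | ⟨i', rfl, hi'⟩
    · exact .new₂ (Sum.inr ()) (by rintro ⟨l, hl⟩; cases hl) hck hu.1 le_rfl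
    · exact .chain₂ hi'.fut hck le_rfl
  · have hclean : CleanB 0 (Z.Inf Φ ε K) ((Z.add (MW.line (ls k))).Inf Φ ε K) id Sum.inl u i := by
      intro r hr hru
      have hrs : r < s := hru.trans_le hu.2
      have hrT : r ∈ Icc 0 T := ⟨hr, hrs.le.trans h.sT⟩
      have e1 := MW.inf_iff_of_lt_theta hΦ hε hZ (h.ok.lines hΦ hε) hrT
        (hrs.trans_le (h.core hΦ hε)) i
      have e2 := MW.inf_iff_of_lt_theta hΦ hε hZ hA hrT (hrs.trans_le (h.le k)) i
      have h0 : ¬ Z.Inf Φ ε K r i := fun h' => hcl r hr hru (e1.1 h')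
      exact ⟨h0, fun h' => h0 (e2.2 h')⟩
    rcases hy with rfl | ⟨i', rfl, hi'⟩
    · exact .new₂ (Sum.inr ()) (by rintro ⟨l, hl⟩; cases hl) hck hu.1 le_rfl hclean
    · exact .chain₂ hi' hck le_rfl hclean

/-- **Past and colour.** -/
theorem col_of_past (hΦ : AdmissiblePotential Φ) (hε : 0 < ε) (h : FamNL Φ ε K T Z ls s)
    (hus : u ≤ s) {x : ι ⊕ κ}
    (hcl : u < s ∨ ∀ v y, Past ((Z.add (MW.lines ls)).C Φ ε) u x v y → 0 ≤ v →
      ∀ r, 0 ≤ r → r < v → ¬ (Z.add (MW.lines ls)).Inf Φ ε K r y)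
    {k : κ} {v : ℝ} {y : ι ⊕ κ} (hp : Past ((Z.add (MW.lines ls)).C Φ ε) u x v y) (hv : 0 ≤ v)
    (hy : Col Φ ε K Z ls k v y) : Col Φ ε K Z ls k u x := by
  induction hp with
  | root hvu => exact hy.mono hvu
  | @step v v' j y hj hc hvv ih =>
    have hv' : 0 ≤ v' := hv.trans hvv
    refine ih hv' ?_
    refine col_step hΦ hε h ⟨hv', hj.le.trans hus⟩ (hy.mono hvv) hc ?_
    rcases hcl with hlt | hcl
    · exact Or.inl (hj.le.trans_lt hlt)
    · exact Or.inr fun r hr hrv => hcl v' j hj hv' r hr hrv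

/-- Before `s` every particle has at most one line in its past. -/
theorem past_unique_lt (hΦ : AdmissiblePotential Φ) (hε : 0 < ε) (h : FamNL Φ ε K T Z ls s)
    (hu0 : 0 ≤ u) (hus : u < s) (x : ι ⊕ κ) :
    (BC ((Z.add (MW.lines ls)).C Φ ε) u x ∩ range Sum.inr).Subsingleton := by
  rintro _ ⟨hj, j, rfl⟩ _ ⟨hk, k, rfl⟩
  have h1 := col_of_past hΦ hε h hus.le (Or.inl hus) hj le_rfl (Or.inl rfl : Col Φ ε K Z ls j 0 _)
  have h2 := col_of_past hΦ hε h hus.le (Or.inl hus) hk le_rfl (Or.inl rfl : Col Φ ε K Z ls k 0 _)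
  rw [col_disjoint h ⟨hu0, hus.le⟩ h1 h2]

/-- At `s` the same for a particle with a past which is clean before. -/
theorem past_unique (hΦ : AdmissiblePotential Φ) (hε : 0 < ε) (h : FamNL Φ ε K T Z ls s)
    (hu0 : 0 ≤ u) (hus : u ≤ s) {x : ι ⊕ κ}
    (hcl : ∀ v y, Past ((Z.add (MW.lines ls)).C Φ ε) u x v y → 0 ≤ v →
      ∀ r, 0 ≤ r → r < v → ¬ (Z.add (MW.lines ls)).Inf Φ ε K r y) :
    (BC ((Z.add (MW.lines ls)).C Φ ε) u x ∩ range Sum.inr).Subsingleton := by
  rintro _ ⟨hj, j, rfl⟩ _ ⟨hk, k, rfl⟩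
  have h1 := col_of_past hΦ hε h hus (Or.inr hcl) hj le_rfl (Or.inl rfl : Col Φ ε K Z ls j 0 _)
  have h2 := col_of_past hΦ hε h hus (Or.inr hcl) hk le_rfl (Or.inl rfl : Col Φ ε K Z ls k 0 _)
  rw [col_disjoint h ⟨hu0, hus⟩ h1 h2]

/-! ### `NoDouble` -/

/-- **`NoDouble` up to the first touch**: `C` real world, `C' = (Z + lines).C`, the family `D`
replaced by its exit lines is the set of all lines (or a part of it). -/
theorem noDouble (hΦ : AdmissiblePotential Φ) (hε : 0 < ε) (h : FamNL Φ ε K T Z ls s)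
    {C : ℝ → (ι ⊕ κ) → (ι ⊕ κ) → Prop} {m : (ι ⊕ κ) → ℕ} {D : Set (ι ⊕ κ)} {σ : (ι ⊕ κ) → ℝ}
    (hD : D ⊆ range Sum.inr)
    (hR : Lines255.Repl C ((Z.add (MW.lines ls)).C Φ ε) m D σ K)
    (hm : ∀ x, Lines255.lmark C m D σ x = (Z.add (MW.lines ls)).m x) :
    Lines255.NoDouble C ((Z.add (MW.lines ls)).C Φ ε) m D σ K 0 s := by
  have hm' : Lines255.lmark C m D σ = (Z.add (MW.lines ls)).m := funext hm
  intro t ht i hi hcl
  refine (past_unique hΦ hε h ht.1 ht.2 ?_).anti (inter_subset_inter_right _ hD)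
  intro v y hp hv0 r hr hrv hI
  have hrs : r < s := (hrv.trans_le hp.le).trans_le ht.2
  -- at time `r` the infections agree
  have hI' : Infd ((Z.add (MW.lines ls)).C Φ ε) (Lines255.lmark C m D σ) K r y := by
    rw [hm']
    exact hI
  have hreal : Infd C m K r y :=
    (Lines255.infd_iff_all hR.closed hR.symm hR.lines hR.pos hR.clean fun _ _ =>
      (past_unique_lt hΦ hε h hr hrs y).anti (inter_subset_inter_right _ hD)).2 hI'
  -- `y` is visible at time `r`
  have hvis : y ∈ D → σ y ≤ r := by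
    intro hy
    by_contra hlt
    push Not at hlt
    have h1 : msize ((Z.add (MW.lines ls)).C Φ ε) (Lines255.lmark C m D σ) r y ≤
        Lines255.lmark C m D σ y := Lines255.msize_unborn hR.lines hy hlt
    rw [Lines255.lmark_of_mem hy] at h1
    exact absurd (h1.trans (hR.clean y hy)) (not_le.2 hI')
  have hp' : Past ((Z.add (MW.lines ls)).C Φ ε) t i r y := hp.mono hrv.le
  have hpast : Past C t i r y :=
    (Lines255.past_iff hR.closed hR.symm hR.lines hi).2 (Or.inl ⟨hp', hvis⟩)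
  exact hcl (Infd.of_past hpast hreal)

end

end Crest.Agent.R122.MWFam255
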