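import Mathlib

/-!
# Non-singularity of maps evaluated at an implicitly defined time (row 122, helper942, for 151)

`R (c, X)`, `H (c, X)` locally Lipschitz, `H` strictly increasing in `c` at a definite rate: then the
set of values `R (c, X)` over the points with `H (c, X) = 0` and `X` in a null set is null.
-/

set_option autoImplicit false

open MeasureTheory Set Filter Topology
open scoped NNReal ENNReal

namespace Crest.Agent.R122.NonSing942

variable {E E' : Type*} [NormedAddCommGroup E] [NormedSpace ℝ E] [FiniteDimensional ℝ E]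
  [MeasurableSpace E] [BorelSpace E]
  [NormedAddCommGroup E'] [NormedSpace ℝ E'] [FiniteDimensional ℝ E']
  [MeasurableSpace E'] [BorelSpace E']

/-- Lipschitz images of null sets are null, between spaces of the same dimension. -/
theorem image_null {μ : Measure E} [μ.IsAddHaarMeasure] {ν : Measure E'} [ν.IsAddHaarMeasure]
    (hd : Module.finrank ℝ E' = Module.finrank ℝ E) {S : Set E} (hS : μ S = 0) {g : E → E'}
    {K : ℝ≥0} (hg : LipschitzOnWith K g S) : ν (g '' S) = 0 := by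
  have h1 : (μH[(Module.finrank ℝ E : ℝ)] : Measure E) S = 0 := by
    have hac : (μH[(Module.finrank ℝ E : ℝ)] : Measure E) ≪ μ :=
      Measure.absolutelyContinuous_isAddHaarMeasure _ _
    exact hac hS
  have h2 : (μH[(Module.finrank ℝ E : ℝ)] : Measure E') (g '' S) = 0 := by
    have := hg.hausdorffMeasure_image_le (d := (Module.finrank ℝ E : ℝ)) (by positivity)
    rw [h1, mul_zero] at this
    exact le_antisymm this bot_le
  rw [← hd] at h2
  have hac : ν ≪ (μH[(Module.finrank ℝ E' : ℝ)] : Measure E') :=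
    Measure.absolutelyContinuous_isAddHaarMeasure _ _
  exact hac h2

/-- **Lemma NS, global form.**  `V ⊆ ℝ × E` is a set on which `R` and `H` are Lipschitz and `H` is
increasing in the first variable at rate at least `m`. -/
theorem null_of_lipschitzOn {μ : Measure E} [μ.IsAddHaarMeasure] {ν : Measure E'}
    [ν.IsAddHaarMeasure] (hd : Module.finrank ℝ E' = Module.finrank ℝ E)
    {N : Set E} (hN : μ N = 0) {I : Set ℝ} {D : Set E} {R : ℝ × E → E'} {H : ℝ × E → ℝ}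
    {K K' : ℝ≥0} {m : ℝ} (hm : 0 < m)
    (hR : LipschitzOnWith K R (I ×ˢ D)) (hH : LipschitzOnWith K' H (I ×ˢ D))
    (hmono : ∀ X ∈ D, ∀ c ∈ I, ∀ c' ∈ I, c < c' → m * (c' - c) ≤ H (c', X) - H (c, X)) :
    ν {y | ∃ p : ℝ × E, p ∈ I ×ˢ D ∧ p.2 ∈ N ∧ H p = 0 ∧ R p = y} = 0 := by
  classical
  set S : Set E := {X | X ∈ N ∧ X ∈ D ∧ ∃ c ∈ I, H (c, X) = 0} with hS
  have hSN : μ S = 0 := measure_mono_null (fun X hX => hX.1) hN
  -- the implicit time
  set τ : E → ℝ := fun X => if h : ∃ c ∈ I, H (c, X) = 0 then h.choose else 0 with hτ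
  have hτI : ∀ X ∈ S, τ X ∈ I ∧ H (τ X, X) = 0 := by
    intro X hX
    have h := hX.2.2
    simp only [hτ, dif_pos h]
    exact h.choose_spec
  have huniq : ∀ X ∈ D, ∀ c ∈ I, ∀ c' ∈ I, H (c, X) = 0 → H (c', X) = 0 → c = c' := by
    intro X hX c hc c' hc' h h'
    rcases lt_trichotomy c c' with hlt | heq | hgt
    · have := hmono X hX c hc c' hc' hlt
      rw [h, h'] at this
      nlinarith
    · exact heq
    · have := hmono X hX c' hc' c hc hgt
      rw [h, h'] at this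
      nlinarith
  -- the time is Lipschitz
  have hkey : ∀ X ∈ S, ∀ X' ∈ S, τ X < τ X' → m * (τ X' - τ X) ≤ K' * dist X X' := by
    intro X hX X' hX' hlt
    have h1 := hmono X hX.2.1 _ (hτI X hX).1 _ (hτI X' hX').1 hlt
    have h2 := hH.dist_le_mul (τ X', X) ⟨(hτI X' hX').1, hX.2.1⟩ (τ X', X')
      ⟨(hτI X' hX').1, hX'.2.1⟩
    rw [(hτI X hX).2, sub_zero] at h1
    rw [(hτI X' hX').2, Prod.dist_eq, dist_self, max_eq_right dist_nonneg, Real.dist_eq,
      sub_zero] at h2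
    exact h1.trans ((le_abs_self _).trans h2)
  have hτL : ∀ X ∈ S, ∀ X' ∈ S, dist (τ X) (τ X') ≤ (K' / m) * dist X X' := by
    intro X hX X' hX'
    rw [div_mul_eq_mul_div, le_div_iff₀ hm, Real.dist_eq]
    rcases lt_trichotomy (τ X) (τ X') with hlt | heq | hgt
    · rw [abs_of_neg (by linarith)]
      have := hkey X hX X' hX' hlt
      linarith
    · rw [heq, sub_self, abs_zero, zero_mul]
      positivity
    · rw [abs_of_pos (by linarith)]
      have := hkey X' hX' X hX hgt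
      rw [dist_comm X' X] at this
      linarith
  have hA : 0 ≤ (K : ℝ) * ((K' : ℝ) / m + 1) := by positivity
  have hg : LipschitzOnWith ⟨(K : ℝ) * ((K' : ℝ) / m + 1), hA⟩ (fun X => R (τ X, X)) S := by
    refine LipschitzOnWith.of_dist_le_mul fun X hX X' hX' => ?_
    change _ ≤ (K : ℝ) * ((K' : ℝ) / m + 1) * _
    have h1 := hR.dist_le_mul (τ X, X) ⟨(hτI X hX).1, hX.2.1⟩ (τ X', X')
      ⟨(hτI X' hX').1, hX'.2.1⟩
    refine h1.trans ?_
    have h2 : dist ((τ X, X) : ℝ × E) (τ X', X') ≤ ((K' : ℝ) / m + 1) * dist X X' := by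
      rw [Prod.dist_eq]
      refine max_le ?_ ?_
      · refine (hτL X hX X' hX').trans ?_
        nlinarith [dist_nonneg (x := X) (y := X')]
      · change dist X X' ≤ _
        have : 0 ≤ (K' : ℝ) / m := by positivity
        nlinarith [dist_nonneg (x := X) (y := X')]
    have h3 : (K : ℝ) * dist ((τ X, X) : ℝ × E) (τ X', X')
        ≤ K * (((K' : ℝ) / m + 1) * dist X X') := by gcongr
    exact h3.trans (le_of_eq (by ring))
  have himg := image_null (μ := μ) (ν := ν) hd hSN hg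
  refine measure_mono_null ?_ himg
  rintro y ⟨⟨c, X⟩, ⟨hc, hX⟩, hXN, hH0, rfl⟩
  have hXS : X ∈ S := ⟨hXN, hX, c, hc, hH0⟩
  refine ⟨X, hXS, ?_⟩
  have : τ X = c := huniq X hX _ (hτI X hXS).1 c hc (hτI X hXS).2 hH0
  change R (τ X, X) = R (c, X)
  rw [this]

/-- **Lemma NS, local form.**  Every point of `P` has a neighbourhood on which `R`, `H` are
Lipschitz and `H` increases in the first variable at a positive rate. -/
theorem null_of_local {μ : Measure E} [μ.IsAddHaarMeasure] {ν : Measure E'}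
    [ν.IsAddHaarMeasure] (hd : Module.finrank ℝ E' = Module.finrank ℝ E)
    {N : Set E} (hN : μ N = 0) {P : Set (ℝ × E)} {R : ℝ × E → E'} {H : ℝ × E → ℝ}
    (hR : ∀ p ∈ P, ∃ K : ℝ≥0, ∃ V ∈ 𝓝 p, LipschitzOnWith K R V)
    (hH : ∀ p ∈ P, ∃ K : ℝ≥0, ∃ V ∈ 𝓝 p, LipschitzOnWith K H V)
    (hmono : ∀ p ∈ P, ∃ m : ℝ, 0 < m ∧ ∃ V ∈ 𝓝 p, ∀ X c c', (c, X) ∈ V → (c', X) ∈ V → c < c' →
      m * (c' - c) ≤ H (c', X) - H (c, X)) :
    ν {y | ∃ p ∈ P, p.2 ∈ N ∧ H p = 0 ∧ R p = y} = 0 := by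
  classical
  have hloc : ∀ p ∈ P, ∃ W ∈ 𝓝[P] p,
      ν {y | ∃ q ∈ W, q.2 ∈ N ∧ H q = 0 ∧ R q = y} = 0 := by
    intro p hp
    obtain ⟨K, V₁, hV₁, hR₁⟩ := hR p hp
    obtain ⟨K', V₂, hV₂, hH₂⟩ := hH p hp
    obtain ⟨m, hm, V₃, hV₃, hm₃⟩ := hmono p hp
    have hV : V₁ ∩ V₂ ∩ V₃ ∈ 𝓝 p := inter_mem (inter_mem hV₁ hV₂) hV₃
    obtain ⟨I, hI, D, hD, hsub⟩ := mem_nhds_prod_iff.1 hV
    refine ⟨I ×ˢ D, mem_nhdsWithin_of_mem_nhds (prod_mem_nhds hI hD), ?_⟩
    exact null_of_lipschitzOn hd hN hm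
      (hR₁.mono fun q hq => (hsub hq).1.1) (hH₂.mono fun q hq => (hsub hq).1.2)
      (fun X hX c hc c' hc' hlt => hm₃ X c c' (hsub ⟨hc, hX⟩).2 (hsub ⟨hc', hX⟩).2 hlt)
  choose! W hW hWn using hloc
  obtain ⟨t, htP, htc, hcov⟩ := TopologicalSpace.countable_cover_nhdsWithin hW
  have hn : ν (⋃ p ∈ t, {y | ∃ q ∈ W p, q.2 ∈ N ∧ H q = 0 ∧ R q = y}) = 0 := by
    rw [measure_biUnion_null_iff htc]
    exact fun p hp => hWn p (htP hp)
  refine measure_mono_null ?_ hn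
  rintro y ⟨q, hq, hqN, hq0, rfl⟩
  obtain ⟨p, hp, hqp⟩ := mem_iUnion₂.1 (hcov hq)
  exact mem_iUnion₂.2 ⟨p, hp, q, hqp, hqN, hq0, rfl⟩

/-- The monotonicity hypothesis from a derivative which is positive and continuous at the point. -/
theorem exists_mono_of_hasDerivAt {E : Type*} [TopologicalSpace E] {H H' : ℝ × E → ℝ} {p : ℝ × E}
    (hd : ∀ᶠ q in 𝓝 p, HasDerivAt (fun c => H (c, q.2)) (H' q) q.1)
    (hc : ContinuousAt H' p) (hpos : 0 < H' p) :
    ∃ m : ℝ, 0 < m ∧ ∃ V ∈ 𝓝 p, ∀ X c c', (c, X) ∈ V → (c', X) ∈ V → c < c' →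
      m * (c' - c) ≤ H (c', X) - H (c, X) := by
  refine ⟨H' p / 2, by positivity, ?_⟩
  have h1 : ∀ᶠ q in 𝓝 p, H' p / 2 < H' q :=
    hc.eventually (lt_mem_nhds (by linarith))
  obtain ⟨U, hU, D, hD, hsub⟩ := mem_nhds_prod_iff.1 (inter_mem hd h1)
  obtain ⟨δ, hδ, hball⟩ := Metric.mem_nhds_iff.1 hU
  refine ⟨Metric.ball p.1 δ ×ˢ D, prod_mem_nhds (Metric.ball_mem_nhds _ hδ) hD, ?_⟩
  rintro X c c' ⟨hc1, hX⟩ ⟨hc2, -⟩ hlt
  have hconv : Convex ℝ (Metric.ball p.1 δ) := convex_ball _ _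
  have hmem : ∀ s ∈ Metric.ball p.1 δ, HasDerivAt (fun c => H (c, X)) (H' (s, X)) s ∧
      H' p / 2 < H' (s, X) := fun s hs => by
    have := hsub (show (s, X) ∈ U ×ˢ D from ⟨hball hs, hX⟩)
    exact ⟨this.1, this.2⟩
  have := hconv.mul_sub_le_image_sub_of_le_deriv (f := fun c => H (c, X)) (C := H' p / 2)
    (fun s hs => (hmem s hs).1.continuousAt.continuousWithinAt)
    (fun s hs => by
      rw [Metric.isOpen_ball.interior_eq] at hs
      exact (hmem s hs).1.differentiableAt.differentiableWithinAt)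
    (fun s hs => by
      rw [Metric.isOpen_ball.interior_eq] at hs
      rw [(hmem s hs).1.deriv]
      exact (hmem s hs).2.le)
    c hc1 c' hc2 hlt.le
  exact this

/-- **Lemma NS, derivative form**: `R`, `H` locally Lipschitz near the points of `P`, `H`
differentiable in the first variable with a derivative `H'` which is continuous and positive at the
points of `P`. -/
theorem null_of_hasDerivAt {μ : Measure E} [μ.IsAddHaarMeasure] {ν : Measure E'}
    [ν.IsAddHaarMeasure] (hd : Module.finrank ℝ E' = Module.finrank ℝ E)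
    {N : Set E} (hN : μ N = 0) {P : Set (ℝ × E)} {R : ℝ × E → E'} {H H' : ℝ × E → ℝ}
    (hR : ∀ p ∈ P, ∃ K : ℝ≥0, ∃ V ∈ 𝓝 p, LipschitzOnWith K R V)
    (hH : ∀ p ∈ P, ∃ K : ℝ≥0, ∃ V ∈ 𝓝 p, LipschitzOnWith K H V)
    (hd' : ∀ p ∈ P, ∀ᶠ q in 𝓝 p, HasDerivAt (fun c => H (c, q.2)) (H' q) q.1)
    (hc : ∀ p ∈ P, ContinuousAt H' p) (hpos : ∀ p ∈ P, 0 < H' p) :
    ν {y | ∃ p ∈ P, p.2 ∈ N ∧ H p = 0 ∧ R p = y} = 0 :=
  null_of_local hd hN hR hH fun p hp => exists_mono_of_hasDerivAt (hd' p hp) (hc p hp) (hpos p hp)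

/-- The same for maps which are only defined on (locally Lipschitz relative to) an open set. -/
theorem null_of_hasDerivAt_on {μ : Measure E} [μ.IsAddHaarMeasure] {ν : Measure E'}
    [ν.IsAddHaarMeasure] (hd : Module.finrank ℝ E' = Module.finrank ℝ E)
    {N : Set E} (hN : μ N = 0) {P W : Set (ℝ × E)} (hW : IsOpen W) (hPW : P ⊆ W)
    {R : ℝ × E → E'} {H H' : ℝ × E → ℝ}
    (hR : LocallyLipschitzOn W R) (hH : LocallyLipschitzOn W H)
    (hd' : ∀ q ∈ W, HasDerivAt (fun c => H (c, q.2)) (H' q) q.1)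
    (hc : ContinuousOn H' W) (hpos : ∀ p ∈ P, 0 < H' p) :
    ν {y | ∃ p ∈ P, p.2 ∈ N ∧ H p = 0 ∧ R p = y} = 0 := by
  refine null_of_hasDerivAt hd hN (H' := H') ?_ ?_ ?_ ?_ hpos
  · intro p hp
    obtain ⟨K, V, hV, hK⟩ := hR (hPW hp)
    rw [hW.nhdsWithin_eq (hPW hp)] at hV
    exact ⟨K, V, hV, hK⟩
  · intro p hp
    obtain ⟨K, V, hV, hK⟩ := hH (hPW hp)
    rw [hW.nhdsWithin_eq (hPW hp)] at hV
    exact ⟨K, V, hV, hK⟩
  · intro p hp
    filter_upwards [hW.mem_nhds (hPW hp)] with q hq using hd' q hq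
  · intro p hp
    exact hc.continuousAt (hW.mem_nhds (hPW hp))

/-- **Lemma NS in the form consumed by 151**: `f : E → E₂` arbitrary (not measurable); at every
`x ∈ D` there is a time `c₀` and locally Lipschitz `R`, `H` near `(c₀, f x)`, `H` increasing in the
time, with `R (c₀, f x) = x` and `H (c₀, f x) = 0`.  Then preimages of null sets are null in `D`. -/
theorem null_preimage_of_local {E E₂ : Type*} [NormedAddCommGroup E] [NormedSpace ℝ E]
    [FiniteDimensional ℝ E] [MeasurableSpace E] [BorelSpace E]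
    [NormedAddCommGroup E₂] [NormedSpace ℝ E₂]
    [FiniteDimensional ℝ E₂] [MeasurableSpace E₂] [BorelSpace E₂]
    (μ : Measure E) [μ.IsAddHaarMeasure] (μ₂ : Measure E₂) [μ₂.IsAddHaarMeasure]
    (hdim : Module.finrank ℝ E = Module.finrank ℝ E₂)
    {f : E → E₂} {D : Set E} {R : ℝ × E₂ → E} {H : ℝ × E₂ → ℝ}
    (h : ∀ x ∈ D, ∃ c₀ r L m : ℝ, 0 < r ∧ 0 < m ∧
      (∀ p ∈ Metric.ball ((c₀, f x) : ℝ × E₂) r, ∀ p₂ ∈ Metric.ball ((c₀, f x) : ℝ × E₂) r,
        dist (R p) (R p₂) ≤ L * dist p p₂) ∧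
      (∀ p ∈ Metric.ball ((c₀, f x) : ℝ × E₂) r, ∀ p₂ ∈ Metric.ball ((c₀, f x) : ℝ × E₂) r,
        |H p - H p₂| ≤ L * dist p p₂) ∧
      (∀ c c₂ : ℝ, ∀ y : E₂, (c, y) ∈ Metric.ball ((c₀, f x) : ℝ × E₂) r →
        (c₂, y) ∈ Metric.ball ((c₀, f x) : ℝ × E₂) r → c ≤ c₂ →
        m * (c₂ - c) ≤ H (c₂, y) - H (c, y)) ∧
      R (c₀, f x) = x ∧ H (c₀, f x) = 0)
    {N : Set E₂} (hN : μ₂ N = 0) : μ {x | x ∈ D ∧ f x ∈ N} = 0 := by
  classical
  choose! c r L m hr hm hR hH hmono hRx hHx using h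
  set P : Set (ℝ × E₂) := {p | ∃ x ∈ D, p = (c x, f x)} with hP
  have key := null_of_local (μ := μ₂) (ν := μ) hdim hN (P := P) (R := R) (H := H) ?_ ?_ ?_
  · refine measure_mono_null ?_ key
    rintro x ⟨hx, hxN⟩
    exact ⟨(c x, f x), ⟨x, hx, rfl⟩, hxN, hHx x hx, hRx x hx⟩
  · rintro p ⟨x, hx, rfl⟩
    refine ⟨(L x).toNNReal, _, Metric.ball_mem_nhds _ (hr x hx), LipschitzOnWith.of_dist_le_mul ?_⟩
    intro p hp p₂ hp₂
    refine (hR x hx p hp p₂ hp₂).trans (mul_le_mul_of_nonneg_right ?_ dist_nonneg)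
    exact Real.le_coe_toNNReal _
  · rintro p ⟨x, hx, rfl⟩
    refine ⟨(L x).toNNReal, _, Metric.ball_mem_nhds _ (hr x hx), LipschitzOnWith.of_dist_le_mul ?_⟩
    intro p hp p₂ hp₂
    rw [Real.dist_eq]
    refine (hH x hx p hp p₂ hp₂).trans (mul_le_mul_of_nonneg_right ?_ dist_nonneg)
    exact Real.le_coe_toNNReal _
  · rintro p ⟨x, hx, rfl⟩
    refine ⟨m x, hm x hx, _, Metric.ball_mem_nhds _ (hr x hx), ?_⟩
    intro X a b ha hb hlt
    exact hmono x hx a b X ha hb hlt.le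

end Crest.Agent.R122.NonSing942
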