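import Crest.Agent.R122.PMBind_85
import Crest.Agent.R122.PairStepK_85
import Crest.Agent.R122.BaseAll_350
import Crest.Agent.R122.GIVChild_383
import Crest.Agent.R122.PairReal_998

/-!
# Row 122, inequality 3 (helper85): the base law is in the class

* `sumP m₀ a` : sum over the trees with at most `m₀` leaves and the ordered pairs (exit, other line).
* `px_base` : a translation invariant law on labels which is below the sum of the structure
  integrals `strI` (helper307) of the pairs born before `te` is in the class, with a constant which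
  depends on `m₀` only (from `base_dom` of helper350).
-/

set_option autoImplicit false
set_option linter.unusedSectionVars false

open MeasureTheory ProbabilityTheory Set Filter
open scoped ENNReal Classical Topology
open Crest.AnalysisR.Kinetic
open Crest.Agent.R122.Kin796 Crest.Agent.R122.Kin796.CTree Crest.Agent.R122.Tree674
open Crest.Agent.R122.GC311 Crest.Agent.R122.EDefs602 Crest.Agent.R122.TreeLines335
open Crest.Agent.R122.OneC285 Crest.Agent.R122.Nu0566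
open Crest.Agent.R122.Boost969 (LSt)
open Crest.Agent.R122.Pair292 (Lab PPar PX shP)
open Crest.Agent.R122.Mark307 (BPar IsPP Aux DomS strI thL sigB)

noncomputable section

namespace Crest.Agent.R122.NuLBase85

variable {Φ : Space3 → ℝ} {f₀ : PhasePoint → ℝ} {ε te T' : ℝ} {K : ℕ} {P : CTree}

/-- No structures with more than `K` leaves. -/
theorem strI_eq_zero {g : ℝ} {ρ : ℝ≥0∞} (hK : K < P.leaves)
    (h : (Idx P ⊕ Bool → ML) → ℝ≥0∞) : strI Φ f₀ ε K g ρ te T' P h = 0 := by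
  have h0 : ∀ l : ML, smI K P l = 0 := fun l => if_neg (by omega)
  unfold strI
  refine mul_eq_zero_of_right (activity ε) ?_
  refine (lintegral_congr (g := fun _ => (0 : ℝ≥0∞)) fun z => ?_).trans lintegral_zero
  by_cases hz : Valid Φ ε P T' z.1.2 z.2
  · rw [indicator_of_mem (show z ∈ {z : PhasePoint × Par P | Valid Φ ε P T' z.1.2 z.2} from hz)]
    simp [h0]
  · exact indicator_of_notMem
      (show z ∉ {z : PhasePoint × Par P | Valid Φ ε P T' z.1.2 z.2} from hz) _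

/-- pairs born before `te` -/
def early (te : ℝ) : Set (Lab × LSt) := {p | p.1.1.1.1 ≤ te ∧ p.2.1 ≤ te}

theorem measurableSet_early (te : ℝ) : MeasurableSet (early te) := by
  have h1 : MeasurableSet {p : Lab × LSt | p.1.1.1.1 ≤ te} :=
    measurableSet_le (by fun_prop) measurable_const
  have h2 : MeasurableSet {p : Lab × LSt | p.2.1 ≤ te} :=
    measurableSet_le (by fun_prop) measurable_const
  exact h1.inter h2

/-- Sum over the trees with at most `m₀` leaves and the ordered pairs (exit, other line). -/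
def sumP {α : Type} [AddCommMonoid α] (m₀ : ℕ)
    (a : ∀ P : CTree, Idx P ⊕ Bool → Idx P ⊕ Bool → α) : α :=
  ∑ P ∈ GIVStep383.trees m₀, ∑ x ∈ exS P, ∑ y ∈ Finset.univ.erase x, a P x y

theorem px_sumP {Pp : PPar} {m₀ : ℕ}
    {Ξ ν : ∀ P : CTree, Idx P ⊕ Bool → Idx P ⊕ Bool → Measure (Lab × LSt)}
    {c : ∀ P : CTree, Idx P ⊕ Bool → Idx P ⊕ Bool → ℝ≥0∞} (h : ∀ P x y, PX Pp (Ξ P x y) (ν P x y)
      (c P x y)) : PX Pp (sumP m₀ Ξ) (sumP m₀ ν) (sumP m₀ c) :=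
  PairSrc969.PX.finsum _ fun P _ => PairSrc969.PX.finsum _ fun x _ =>
    PairSrc969.PX.finsum _ fun y _ => h P x y

theorem aux_sumP {m₀ : ℕ} {ν : ∀ P : CTree, Idx P ⊕ Bool → Idx P ⊕ Bool → Measure (Lab × LSt)}
    (h : ∀ P x y, Aux ε (ν P x y)) : Aux ε (sumP m₀ ν) :=
  Aux.finsum _ fun P _ => Aux.finsum _ fun x _ => Aux.finsum _ fun y _ => h P x y

theorem lintegral_sumP {m₀ : ℕ}
    (ν : ∀ P : CTree, Idx P ⊕ Bool → Idx P ⊕ Bool → Measure (Lab × LSt)) (F : Lab × LSt → ℝ≥0∞) :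
    ∫⁻ p, F p ∂(sumP m₀ ν) = sumP m₀ fun P x y => ∫⁻ p, F p ∂(ν P x y) := by
  unfold sumP
  rw [lintegral_finsetSum_measure]
  refine Finset.sum_congr rfl fun P _ => ?_
  rw [lintegral_finsetSum_measure]
  refine Finset.sum_congr rfl fun x _ => ?_
  rw [lintegral_finsetSum_measure]

theorem sumP_ne_top {m₀ : ℕ} {c : ∀ P : CTree, Idx P ⊕ Bool → Idx P ⊕ Bool → ℝ≥0∞}
    (h : ∀ P x y, c P x y ≠ ∞) : sumP m₀ c ≠ ∞ :=
  ENNReal.sum_ne_top.2 fun P _ => ENNReal.sum_ne_top.2 fun x _ => ENNReal.sum_ne_top.2 fun y _ =>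
    h P x y

/-- Integrals of a measure dominated on all functions. -/
theorem le_of_lintegral_le {α : Type*} [MeasurableSpace α] {μ ν : Measure α}
    (h : ∀ F : α → ℝ≥0∞, Measurable F → ∫⁻ x, F x ∂μ ≤ ∫⁻ x, F x ∂ν) : μ ≤ ν := by
  refine Measure.le_intro fun s hs _ => ?_
  have := h (s.indicator 1) (measurable_one.indicator hs)
  rwa [lintegral_indicator_one hs, lintegral_indicator_one hs] at this

/-- **The base law is in the class**, with a constant which depends on `m₀` only. -/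
theorem px_base (hΦ : AdmissiblePotential Φ) {B : BPar} (hB : B.Ok) (hρ : B.ρ * B.lam₁ < 1)
    {b : ℝ} (hb : B.bs < b) (Cf : ℝ) (m₀ : ℕ) : ∃ c₀ : ℝ≥0∞, c₀ ≠ ∞ ∧
      ∀ ε T' te : ℝ, 0 < ε → ε ≤ 1 → 0 < te → te ≤ T' →
      T' ≤ B.T → ∀ K : ℕ, ∀ Pp : PPar, IsPP B te K Pp → ∀ g : ℝ, B.b₀ ≤ g →
      ∀ f₀ : PhasePoint → ℝ, (∀ z, f₀ z ≤ Cf * Real.exp (-(b * ‖z.2‖ ^ 2))) →
      ∀ nuL : Measure (Lab × LSt), SFinite nuL → (∀ a : Space3, nuL.map (shP a) = nuL) →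
      (∀ F : Lab × LSt → ℝ≥0∞, Measurable F → ∫⁻ p, F p ∂nuL ≤
        sumP m₀ fun P x y => strI Φ f₀ ε K g B.ρ te T' P fun L =>
          (early te).indicator F (thL P x y L)) →
      ∃ Ξ : Measure (Lab × LSt), PX Pp Ξ nuL c₀ ∧ Aux ε nuL := by
  have hBD' : ∀ (P : CTree) (x y : Idx P ⊕ Bool), ∃ c : ℝ≥0∞, c ≠ ∞ ∧ (x ∈ exS P → y ≠ x →
      ∀ ε T' te : ℝ, 0 < ε → ε ≤ 1 → 0 < te → te ≤ T' → T' ≤ B.T →
      ∀ K : ℕ, P.leaves ≤ K → ∀ Pp : PPar, IsPP B te K Pp → ∀ g : ℝ, B.b₀ ≤ g →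
      ∀ f₀ : PhasePoint → ℝ, (∀ z, f₀ z ≤ Cf * Real.exp (-(b * ‖z.2‖ ^ 2))) →
      ∃ Ξ ν : Measure (Lab × LSt), PX Pp Ξ ν c ∧ Aux ε ν ∧
        ∀ F : Lab × LSt → ℝ≥0∞, Measurable F →
          (∀ p, ¬ (p.1.1.1.1 ≤ te ∧ p.2.1 ≤ te) → F p = 0) →
          strI Φ f₀ ε K g B.ρ te T' P (fun L => F (thL P x y L)) ≤ ∫⁻ p, F p ∂ν) := by
    intro P x y
    by_cases hxy : x ∈ exS P ∧ y ≠ x
    · obtain ⟨c, hc, h⟩ := BaseAll350.base_dom hΦ hB hρ hb Cf hxy.1 hxy.2
      exact ⟨c, hc, fun _ _ => h⟩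
    · exact ⟨0, ENNReal.zero_ne_top, fun h h' => absurd ⟨h, h'⟩ hxy⟩
  choose c hc hD using hBD'
  refine ⟨sumP m₀ c, sumP_ne_top hc, ?_⟩
  intro ε T' te hε hε1 hte hT' hTB K Pp hPp g hg f₀ hf₀ nuL hs htr hle
  have key : ∀ (P : CTree) (x y : Idx P ⊕ Bool), ∃ Ξ ν : Measure (Lab × LSt),
      PX Pp Ξ ν (c P x y) ∧ Aux ε ν ∧ (x ∈ exS P → y ≠ x → ∀ F : Lab × LSt → ℝ≥0∞,
        Measurable F → (∀ p, ¬ (p.1.1.1.1 ≤ te ∧ p.2.1 ≤ te) → F p = 0) →
        strI Φ f₀ ε K g B.ρ te T' P (fun L => F (thL P x y L)) ≤ ∫⁻ p, F p ∂ν) := by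
    intro P x y
    by_cases hxy : x ∈ exS P ∧ y ≠ x ∧ P.leaves ≤ K
    · obtain ⟨Ξ, ν, h1, h2, h3⟩ := hD P x y hxy.1 hxy.2.1 ε T' te hε hε1 hte hT' hTB K hxy.2.2 Pp
        hPp g hg f₀ hf₀
      exact ⟨Ξ, ν, h1, h2, fun _ _ => h3⟩
    · refine ⟨0, 0, PairSrc969.PX.zero.mono_c zero_le, Aux.zero, fun hx hy F _ _ => ?_⟩
      have hK : K < P.leaves := by
        by_contra hc
        exact hxy ⟨hx, hy, not_lt.1 hc⟩
      rw [strI_eq_zero hK]
      exact zero_le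
  choose Ξ ν hX hA hF using key
  have hle' : nuL ≤ sumP m₀ ν := by
    refine le_of_lintegral_le fun F hFm => (hle F hFm).trans ?_
    rw [lintegral_sumP]
    unfold sumP
    refine Finset.sum_le_sum fun P _ => Finset.sum_le_sum fun x hx => Finset.sum_le_sum
      fun y hy => ?_
    have h1 := hF P x y hx (Finset.ne_of_mem_erase hy) ((early te).indicator F)
      (hFm.indicator (measurableSet_early te))
      fun p hp => indicator_of_notMem (show p ∉ early te from hp) _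
    exact h1.trans (lintegral_mono fun p => indicator_le_self _ _ p)
  exact ⟨sumP m₀ Ξ, PairReal998.PX.mono (px_sumP hX) hle' hs htr,
    (aux_sumP hA).mono (Measure.absolutelyContinuous_of_le hle')⟩

end Crest.Agent.R122.NuLBase85

end
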