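import Crest.Agent.R122.NuPhys_998

/-!
# Base pair law: pinned exponential moment (row 122, block H4), helper998

`pin_mP` : `∫ chi (time-0 position of the test line) * expW β (zE) dmP ≤ M`, uniformly in `ε > 0`.
-/

set_option autoImplicit false
set_option linter.unusedSectionVars false
set_option maxHeartbeats 400000

open MeasureTheory Set Filter
open scoped ENNReal Classical Topology
open Crest.AnalysisR.Kinetic
open Crest.Agent.R122.Kin796 Crest.Agent.R122.Kin796.CTree Crest.Agent.R122.Tree674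
open Crest.Agent.R122.GC311 Crest.Agent.R122.EDefs602 Crest.Agent.R122.TreeLines335
open Crest.Agent.R122.OneC285 Crest.Agent.R122.Disc416
open Crest.Agent.R122.Boost969 (LSt)
open Crest.Agent.R122.Pair292 (Lab shL shM shP)
open Crest.Agent.R122.Nu0566 (oneLsM oneLsM_of_adm measurable_oneLsM strD measurable_strD strM goodS)
open Crest.Agent.R122.LN2 (expW chi measurable_chi lintegral_chi measurable_expW)
open Crest.Agent.R122.TreeDom974 (domG le_domG lintegral_domG_ne_top measurable_domG)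

noncomputable section

namespace Crest.Agent.R122.NuL735

variable {Φ : Space3 → ℝ} {ε : ℝ} {K : ℕ} {P : CTree}

theorem wG_mul (γ β : ℝ) (v : Space3) :
    wG γ v * ENNReal.ofReal (Real.exp (β * ‖v‖ ^ 2)) = wG (γ - β) v := by
  unfold wG
  rw [← ENNReal.ofReal_mul (Real.exp_pos _).le, ← Real.exp_add]
  congr 2
  ring

/-- Velocity weights of a good structure. -/
theorem dS_expW_le (hΦ : AdmissiblePotential Φ) (N : NPar) {β : ℝ} (hβ : β < N.b) (P : CTree) :
    ∃ (M : ℝ≥0∞) (C b' : ℝ), M ≠ ∞ ∧ 0 ≤ C ∧ 0 < b' ∧ ∀ (ε : ℝ) (K : ℕ) (q : Th P), 0 ≤ ε →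
      dS Φ ε K N P q * expW β (zE Φ ε q) * ENNReal.ofReal (1 + ‖q.1.1.2‖) ≤
        {q : Th P | (q.1, (lnO q.2).1) ∈ OneC423.ctSet Φ ε N.te P}.indicator (fun q =>
          M * (domG C b' N.T' P q.1.1.2 q.1.2 *
            (wG (N.γe - β) q.2.1.2 * markW N.ρ K q.2.2))) q := by
  set δ : ℝ := (N.b - β) / 3 with hδ
  have hδ0 : 0 < δ := by
    rw [hδ]
    linarith
  set k : PhasePoint → ℝ≥0∞ := fun z => ENNReal.ofReal (gP N.Cf N.b z) *
    (ENNReal.ofReal (Real.exp (β * ‖z.2‖ ^ 2)) * ENNReal.ofReal (Real.exp (δ * ‖z.2‖ ^ 2))) with hk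
  have hkb : ∀ z, k z ≤ ENNReal.ofReal (max N.Cf 0 * Real.exp (-(2 * δ) * ‖z.2‖ ^ 2)) := by
    intro z
    rw [hk]
    simp only
    rw [← ENNReal.ofReal_mul (Real.exp_pos _).le, ← ENNReal.ofReal_mul' (by positivity)]
    refine ENNReal.ofReal_le_ofReal ?_
    unfold gP
    have e1 : N.Cf * Real.exp (-(N.b * ‖z.2‖ ^ 2)) *
        (Real.exp (β * ‖z.2‖ ^ 2) * Real.exp (δ * ‖z.2‖ ^ 2)) =
        N.Cf * Real.exp (-(2 * δ) * ‖z.2‖ ^ 2) := by
      rw [mul_assoc, ← Real.exp_add, ← Real.exp_add]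
      congr 2
      rw [hδ]
      ring
    rw [e1]
    exact mul_le_mul_of_nonneg_right (le_max_left _ _) (Real.exp_pos _).le
  obtain ⟨C, hC, hdom⟩ := le_domG hΦ (le_max_right N.Cf 0) (show δ < 2 * δ by linarith) hkb P
  refine ⟨ENNReal.ofReal (2 * Real.exp (1 / δ)), C, δ, ENNReal.ofReal_ne_top, hC, hδ0,
    fun ε K q hε => ?_⟩
  by_cases hg : (q.1, lnO q.2) ∈ goodS Φ ε N.te N.T' K P
  swap
  · rw [dS_of_not_good hg, zero_mul, zero_mul]
    exact zero_le
  have hA : Adm Φ P q.1.1.2 q.1.2 := hg.1.1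
  rw [indicator_of_mem (show q ∈ {q : Th P | (q.1, (lnO q.2).1) ∈ OneC423.ctSet Φ ε N.te P}
    from hg.2.1)]
  have hd := hdom ε N.T' N.T' q.1.1 q.1.2 hε le_rfl hg.1
  have e1 : dS Φ ε K N P q = wt Φ P q.1.1.2 q.1.2 *
      ((∏ i, ENNReal.ofReal (gP N.Cf N.b (lines Φ ε P q.1.1 q.1.2 i))) *
        (wG N.γe q.2.1.2 * markW N.ρ K q.2.2)) := by
    unfold dS strD
    rw [indicator_of_mem hg, wtM_of_adm hA, ToTree335.pfM_of_adm hA]
    rfl
  have e2 : expW β (zE Φ ε q) =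
      (∏ i, ENNReal.ofReal (Real.exp (β * ‖(lines Φ ε P q.1.1 q.1.2 i).2‖ ^ 2))) *
        ENNReal.ofReal (Real.exp (β * ‖q.2.1.2‖ ^ 2)) := by
    unfold expW
    rw [Fintype.prod_sum_type, Fintype.prod_unique (ι := Unit)]
    congr 1
    refine Finset.prod_congr rfl fun i _ => ?_
    show ENNReal.ofReal (Real.exp (β * ‖(linesE Φ ε q.1 i).2‖ ^ 2)) = _
    rw [linesE_of_adm hA]
  have e3 : ENNReal.ofReal (1 + ‖q.1.1.2‖) ≤ ENNReal.ofReal (2 * Real.exp (1 / δ)) *
      ∏ i, ENNReal.ofReal (Real.exp (δ * ‖(lines Φ ε P q.1.1 q.1.2 i).2‖ ^ 2)) := by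
    refine PairRep581.one_add_le_expW hδ0 ?_
    have h3 := DomForest998.fin_sq_le (Φ := Φ) hΦ ε (ℓ := q.1.1) hA (root P)
    rwa [PathFlow968.fin_root] at h3
  have e4 : (∏ i, k (lines Φ ε P q.1.1 q.1.2 i)) =
      (∏ i, ENNReal.ofReal (gP N.Cf N.b (lines Φ ε P q.1.1 q.1.2 i))) *
      ((∏ i, ENNReal.ofReal (Real.exp (β * ‖(lines Φ ε P q.1.1 q.1.2 i).2‖ ^ 2))) *
        ∏ i, ENNReal.ofReal (Real.exp (δ * ‖(lines Φ ε P q.1.1 q.1.2 i).2‖ ^ 2))) := by
    rw [← Finset.prod_mul_distrib, ← Finset.prod_mul_distrib]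
  rw [e1, e2]
  set A := ∏ i, ENNReal.ofReal (gP N.Cf N.b (lines Φ ε P q.1.1 q.1.2 i))
  set B := ∏ i, ENNReal.ofReal (Real.exp (β * ‖(lines Φ ε P q.1.1 q.1.2 i).2‖ ^ 2))
  set D := ∏ i, ENNReal.ofReal (Real.exp (δ * ‖(lines Φ ε P q.1.1 q.1.2 i).2‖ ^ 2))
  calc wt Φ P q.1.1.2 q.1.2 * (A * (wG N.γe q.2.1.2 * markW N.ρ K q.2.2)) *
        (B * ENNReal.ofReal (Real.exp (β * ‖q.2.1.2‖ ^ 2))) * ENNReal.ofReal (1 + ‖q.1.1.2‖)
      ≤ wt Φ P q.1.1.2 q.1.2 * (A * (wG N.γe q.2.1.2 * markW N.ρ K q.2.2)) *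
        (B * ENNReal.ofReal (Real.exp (β * ‖q.2.1.2‖ ^ 2))) *
        (ENNReal.ofReal (2 * Real.exp (1 / δ)) * D) := mul_le_mul_right e3 _
    _ = ENNReal.ofReal (2 * Real.exp (1 / δ)) * ((wt Φ P q.1.1.2 q.1.2 * (A * (B * D))) *
        ((wG N.γe q.2.1.2 * ENNReal.ofReal (Real.exp (β * ‖q.2.1.2‖ ^ 2))) *
          markW N.ρ K q.2.2)) := by ring
    _ ≤ _ := by
        rw [wG_mul, ← e4]
        gcongr

/-- The contact condition depends on the relative position only. -/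
theorem ct_shift (te : ℝ) (P : CTree) (x y : Space3) (u v : Space3) (p : Par P) (n : ℕ) :
    ((((x, u), p), (lnO ((y, v), n)).1) : (PhasePoint × Par P) × (ℝ × PhasePoint)) ∈
        OneC423.ctSet Φ ε te P ↔
      ((((0, u), p), shL (y - x) ((0, (0, v)) : LSt)) :
        (PhasePoint × Par P) × (ℝ × PhasePoint)) ∈ OneC423.ctSet Φ ε te P := by
  have h1 : OneC423.relL (x, u) (lnO ((y, v), n)).1 =
      OneC423.relL ((0, u) : PhasePoint) (shL (y - x) ((0, (0, v)) : LSt)) := by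
    unfold OneC423.relL lnO shL back
    refine Prod.ext ?_ rfl
    simp
  unfold OneC423.ctSet
  show (_ ∧ _ ∧ _ ∧ _ ∧ _) ↔ (_ ∧ _ ∧ _ ∧ _ ∧ _)
  simp only [h1]
  rfl

/-- Volume of the positions of the root with contact. -/
theorem ct_root_volume (hΦ : AdmissiblePotential Φ) (hε : 0 < ε) (te : ℝ) (P : CTree)
    (y : Space3) (u v : Space3) (p : Par P) (n : ℕ) :
    ∫⁻ x : Space3, {q : Th P | (q.1, (lnO q.2).1) ∈ OneC423.ctSet Φ ε te P}.indicator
      (1 : Th P → ℝ≥0∞) (((x, u), p), ((y, v), n)) ≤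
      ENNReal.ofReal (ε ^ 2) * (ENNReal.ofReal ‖v - u‖ * PairRep581.ctC te) := by
  have h0 := PairRep581.ct_volume (te := te) (P := P) hΦ hε (z := ((0, u), p))
    (e := ((0, (0, v)) : LSt)) le_rfl
  refine le_trans (le_of_eq ?_) h0
  rw [← lintegral_sub_left_eq_self (fun a : Space3 =>
    {a : Space3 | ((((0, u), p) : PhasePoint × Par P), shL a ((0, (0, v)) : LSt)) ∈
      OneC423.ctSet Φ ε te P}.indicator (1 : Space3 → ℝ≥0∞) a) y]
  refine lintegral_congr fun x => ?_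
  by_cases hc : ((((x, u), p), (lnO ((y, v), n)).1) :
      (PhasePoint × Par P) × (ℝ × PhasePoint)) ∈ OneC423.ctSet Φ ε te P
  · rw [indicator_of_mem (show (((x, u), p), ((y, v), n)) ∈
        {q : Th P | (q.1, (lnO q.2).1) ∈ OneC423.ctSet Φ ε te P} from hc),
      indicator_of_mem (show y - x ∈ {a : Space3 | ((((0, u), p) : PhasePoint × Par P),
        shL a ((0, (0, v)) : LSt)) ∈ OneC423.ctSet Φ ε te P} from
        (ct_shift te P x y u v p n).1 hc)]
    rfl
  · rw [indicator_of_notMem (show (((x, u), p), ((y, v), n)) ∉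
        {q : Th P | (q.1, (lnO q.2).1) ∈ OneC423.ctSet Φ ε te P} from hc),
      indicator_of_notMem (show y - x ∉ {a : Space3 | ((((0, u), p) : PhasePoint × Par P),
        shL a ((0, (0, v)) : LSt)) ∈ OneC423.ctSet Φ ε te P} from
        fun h => hc ((ct_shift te P x y u v p n).2 h))]

theorem measurableSet_ctT (hΦ : AdmissiblePotential Φ) (ε te : ℝ) (P : CTree) :
    MeasurableSet {q : Th P | (q.1, (lnO q.2).1) ∈ OneC423.ctSet Φ ε te P} := by
  have h1 : Measurable fun q : Th P => (q.1, (lnO q.2).1) :=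
    measurable_fst.prodMk ((measurable_lnO.comp measurable_snd).fst)
  exact h1 (OneC423.measurableSet_ctSet hΦ ε te P)

/-- **Mass of the contacts**, the test line fixed. -/
theorem ct_mass (hΦ : AdmissiblePotential Φ) (hε : 0 < ε) (te : ℝ) (P : CTree)
    {g : Space3 × Par P → ℝ≥0∞} (hg : Measurable g) (r : PhasePoint × ℕ) :
    ∫⁻ z : PhasePoint × Par P, {q : Th P | (q.1, (lnO q.2).1) ∈ OneC423.ctSet Φ ε te P}.indicator
      (1 : Th P → ℝ≥0∞) (z, r) * (g (z.1.2, z.2) * (ENNReal.ofReal (1 + ‖z.1.2‖))⁻¹) ≤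
      ENNReal.ofReal (ε ^ 2) * PairRep581.ctC te * ENNReal.ofReal (1 + ‖r.1.2‖) *
        ∫⁻ q : Space3 × Par P, g q := by
  obtain ⟨⟨y, v⟩, n⟩ := r
  have hct := measurableSet_ctT hΦ ε te P
  set I : Th P → ℝ≥0∞ :=
    {q : Th P | (q.1, (lnO q.2).1) ∈ OneC423.ctSet Φ ε te P}.indicator (1 : Th P → ℝ≥0∞) with hI
  have hIm : Measurable I := measurable_one.indicator hct
  have hinv : Measurable fun q : Space3 × Par P => g q * (ENNReal.ofReal (1 + ‖q.1‖))⁻¹ :=
    hg.mul ((measurable_const.add measurable_fst.norm).ennreal_ofReal.inv)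
  have hF : Measurable fun z : PhasePoint × Par P => I (z, ((y, v), n)) *
      (g (z.1.2, z.2) * (ENNReal.ofReal (1 + ‖z.1.2‖))⁻¹) :=
    (hIm.comp (measurable_id.prodMk measurable_const)).mul
      (hinv.comp (measurable_fst.snd.prodMk measurable_snd))
  have hv1 : (volume : Measure (PhasePoint × Par P)) =
      (volume : Measure PhasePoint).prod (volume : Measure (Par P)) := rfl
  have hv2 : (volume : Measure (Space3 × Par P)) =
      (volume : Measure Space3).prod (volume : Measure (Par P)) := rfl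
  rw [hv1, hv2, lintegral_prod_symm _ hF.aemeasurable, lintegral_prod_symm _ hg.aemeasurable]
  have hgp : Measurable fun p : Par P => ∫⁻ u : Space3, g (u, p) := hg.lintegral_prod_left'
  rw [← lintegral_const_mul _ hgp]
  refine lintegral_mono fun p => ?_
  have hFp : Measurable fun ℓ : PhasePoint => I ((ℓ, p), ((y, v), n)) *
      (g (ℓ.2, p) * (ENNReal.ofReal (1 + ‖ℓ.2‖))⁻¹) :=
    hF.comp (measurable_id.prodMk measurable_const)
  show ∫⁻ ℓ : PhasePoint, I ((ℓ, p), ((y, v), n)) *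
      (g (ℓ.2, p) * (ENNReal.ofReal (1 + ‖ℓ.2‖))⁻¹) ≤ _
  have hgu : Measurable fun u : Space3 => g (u, p) :=
    hg.comp (measurable_id.prodMk measurable_const)
  rw [Pair292.lintegral_phase hFp, ← lintegral_const_mul _ hgu]
  refine lintegral_mono fun u => ?_
  have hIx : Measurable fun x : Space3 => I (((x, u), p), ((y, v), n)) :=
    hIm.comp (by fun_prop)
  show ∫⁻ x : Space3, I (((x, u), p), ((y, v), n)) *
      (g (u, p) * (ENNReal.ofReal (1 + ‖u‖))⁻¹) ≤ _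
  rw [lintegral_mul_const _ hIx]
  have h0 : ENNReal.ofReal (1 + ‖u‖) ≠ 0 := by
    rw [Ne, ENNReal.ofReal_eq_zero, not_le]
    positivity
  calc (∫⁻ x : Space3, I (((x, u), p), ((y, v), n))) * (g (u, p) * (ENNReal.ofReal (1 + ‖u‖))⁻¹)
      ≤ (ENNReal.ofReal (ε ^ 2) * (ENNReal.ofReal ‖v - u‖ * PairRep581.ctC te)) *
        (g (u, p) * (ENNReal.ofReal (1 + ‖u‖))⁻¹) :=
        mul_le_mul_left (ct_root_volume hΦ hε te P y u v p n) _
    _ ≤ (ENNReal.ofReal (ε ^ 2) * ((ENNReal.ofReal (1 + ‖v‖) * ENNReal.ofReal (1 + ‖u‖)) *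
        PairRep581.ctC te)) * (g (u, p) * (ENNReal.ofReal (1 + ‖u‖))⁻¹) := by
        gcongr
        exact PairRep581.rel_le u v
    _ = ENNReal.ofReal (ε ^ 2) * PairRep581.ctC te * ENNReal.ofReal (1 + ‖v‖) *
        g (u, p) * (ENNReal.ofReal (1 + ‖u‖) * (ENNReal.ofReal (1 + ‖u‖))⁻¹) := by ring
    _ = _ := by
        rw [ENNReal.mul_inv_cancel h0 ENNReal.ofReal_ne_top, mul_one]

/-- Integral of the weights of the test line. -/
theorem line_mass_ne_top {γ : ℝ} (hγ : 0 < γ) {ρ : ℝ≥0∞} (hρ : ρ ≠ ∞) (K : ℕ) :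
    ∫⁻ r : PhasePoint × ℕ, chi r.1.1 * (wG γ r.1.2 * markW ρ K r.2) *
      ENNReal.ofReal (1 + ‖r.1.2‖) ∂((volume : Measure PhasePoint).prod Measure.count) ≠ ∞ := by
  have hw : Measurable fun v : Space3 => wG γ v * ENNReal.ofReal (1 + ‖v‖) := by
    unfold wG
    fun_prop
  have e1 : ∀ r : PhasePoint × ℕ, chi r.1.1 * (wG γ r.1.2 * markW ρ K r.2) *
      ENNReal.ofReal (1 + ‖r.1.2‖) =
      (chi r.1.1 * (wG γ r.1.2 * ENNReal.ofReal (1 + ‖r.1.2‖))) * markW ρ K r.2 := by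
    intro r
    ring
  simp only [e1]
  have hm : Measurable fun c : PhasePoint => chi c.1 * (wG γ c.2 * ENNReal.ofReal (1 + ‖c.2‖)) :=
    (measurable_chi.comp measurable_fst).mul (hw.comp measurable_snd)
  rw [lintegral_prod_mul (f := fun c : PhasePoint =>
      chi c.1 * (wG γ c.2 * ENNReal.ofReal (1 + ‖c.2‖))) (g := fun n : ℕ => markW ρ K n)
    hm.aemeasurable (measurable_of_countable _).aemeasurable, lintegral_count]
  refine ENNReal.mul_ne_top ?_ (LN2.sum_markW_ne_top hρ K)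
  have hv : (volume : Measure PhasePoint) =
      (volume : Measure Space3).prod (volume : Measure Space3) := rfl
  rw [hv, lintegral_prod_mul (f := chi) (g := fun v : Space3 =>
    wG γ v * ENNReal.ofReal (1 + ‖v‖)) measurable_chi.aemeasurable hw.aemeasurable,
    lintegral_chi, one_mul]
  refine ne_top_of_le_ne_top (Unw410.gI_lt_top hγ).ne (lintegral_mono fun v => ?_)
  unfold wG
  refine mul_le_mul_right (le_of_eq ?_) _
  rw [ENNReal.ofReal_add zero_le_one (norm_nonneg _), ENNReal.ofReal_one]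

/-- **Pinned exponential moment of the base law.** -/
theorem pin_mP (hΦ : AdmissiblePotential Φ) (K : ℕ) (N : NPar) {β : ℝ} (hβ : β < N.b)
    (hβγ : β < N.γe) (hρ : N.ρ ≠ ∞) (P : CTree) (x y : Idx P ⊕ Bool) :
    ∃ M : ℝ≥0∞, M ≠ ∞ ∧ ∀ ε : ℝ, 0 < ε →
      ∫⁻ q, chi (zE Φ ε q (Sum.inr ())).1 * expW β (zE Φ ε q) ∂(mP Φ ε K N P x y) ≤ M := by
  obtain ⟨M₀, C, b', hM₀, hC, hb', hle⟩ := dS_expW_le hΦ N hβ P
  have hline := line_mass_ne_top (sub_pos.2 hβγ) hρ K
  set Ml := ∫⁻ r : PhasePoint × ℕ, chi r.1.1 * (wG (N.γe - β) r.1.2 * markW N.ρ K r.2) *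
      ENNReal.ofReal (1 + ‖r.1.2‖) ∂((volume : Measure PhasePoint).prod Measure.count) with hMl
  have hdomG := lintegral_domG_ne_top hC hb' N.T' P
  have hmG := measurable_domG hC b' N.T' P
  set G : ℝ≥0∞ := ∫⁻ z : Space3 × Par P, domG C b' N.T' P z.1 z.2 with hG
  refine ⟨M₀ * (PairRep581.ctC N.te * G * Ml), ENNReal.mul_ne_top hM₀ (ENNReal.mul_ne_top
    (ENNReal.mul_ne_top (PairRep581.ctC_ne_top _) hdomG) hline), fun ε hε => ?_⟩
  have hct := measurableSet_ctT hΦ ε N.te P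
  set I : Th P → ℝ≥0∞ :=
    {q : Th P | (q.1, (lnO q.2).1) ∈ OneC423.ctSet Φ ε N.te P}.indicator (1 : Th P → ℝ≥0∞)
    with hI
  have hIm : Measurable I := measurable_one.indicator hct
  have hmz := measurable_zE (P := P) hΦ ε
  have hexp : Measurable fun q : Th P => expW β (zE Φ ε q) := (measurable_expW β).comp hmz
  have hF : Measurable fun q : Th P => chi (zE Φ ε q (Sum.inr ())).1 * expW β (zE Φ ε q) :=
    (measurable_chi.comp ((measurable_pi_apply _).comp hmz).fst).mul hexp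
  -- integrand
  have hpt : ∀ q : Th P, dS Φ ε K N P q * (chi (zE Φ ε q (Sum.inr ())).1 * expW β (zE Φ ε q)) ≤
      (M₀ * (chi q.2.1.1 * (wG (N.γe - β) q.2.1.2 * markW N.ρ K q.2.2))) *
        (I q * (domG C b' N.T' P q.1.1.2 q.1.2 * (ENNReal.ofReal (1 + ‖q.1.1.2‖))⁻¹)) := by
    intro q
    have h0 : ENNReal.ofReal (1 + ‖q.1.1.2‖) ≠ 0 := by
      rw [Ne, ENNReal.ofReal_eq_zero, not_le]
      positivity
    have h1 := hle ε K q hε.le
    have h2 : dS Φ ε K N P q * expW β (zE Φ ε q) ≤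
        ({q : Th P | (q.1, (lnO q.2).1) ∈ OneC423.ctSet Φ ε N.te P}.indicator (fun q =>
          M₀ * (domG C b' N.T' P q.1.1.2 q.1.2 *
            (wG (N.γe - β) q.2.1.2 * markW N.ρ K q.2.2))) q) *
          (ENNReal.ofReal (1 + ‖q.1.1.2‖))⁻¹ := by
      rw [← div_eq_mul_inv, ENNReal.le_div_iff_mul_le (Or.inl h0) (Or.inl ENNReal.ofReal_ne_top)]
      exact h1
    have h3 : ({q : Th P | (q.1, (lnO q.2).1) ∈ OneC423.ctSet Φ ε N.te P}.indicator (fun q =>
          M₀ * (domG C b' N.T' P q.1.1.2 q.1.2 *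
            (wG (N.γe - β) q.2.1.2 * markW N.ρ K q.2.2))) q) =
        I q * (M₀ * (domG C b' N.T' P q.1.1.2 q.1.2 *
            (wG (N.γe - β) q.2.1.2 * markW N.ρ K q.2.2))) := by
      by_cases hq : q ∈ {q : Th P | (q.1, (lnO q.2).1) ∈ OneC423.ctSet Φ ε N.te P}
      · rw [hI, indicator_of_mem hq, indicator_of_mem hq, Pi.one_apply, one_mul]
      · rw [hI, indicator_of_notMem hq, indicator_of_notMem hq, zero_mul]
    rw [h3] at h2
    have e1 : zE Φ ε q (Sum.inr ()) = q.2.1 := rfl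
    rw [e1]
    calc dS Φ ε K N P q * (chi q.2.1.1 * expW β (zE Φ ε q))
        = chi q.2.1.1 * (dS Φ ε K N P q * expW β (zE Φ ε q)) := by ring
      _ ≤ chi q.2.1.1 * (I q * (M₀ * (domG C b' N.T' P q.1.1.2 q.1.2 *
            (wG (N.γe - β) q.2.1.2 * markW N.ρ K q.2.2))) *
            (ENNReal.ofReal (1 + ‖q.1.1.2‖))⁻¹) := mul_le_mul_right h2 _
      _ = _ := by ring
  have hwm : Measurable fun r : PhasePoint × ℕ =>
      M₀ * (chi r.1.1 * (wG (N.γe - β) r.1.2 * markW N.ρ K r.2)) := by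
    refine Measurable.const_mul ?_ _
    refine (measurable_chi.comp measurable_fst.fst).mul ?_
    have h1 : Measurable fun v : Space3 => wG (N.γe - β) v := by
      unfold wG
      fun_prop
    exact (h1.comp measurable_fst.snd).mul
      ((measurable_of_countable fun n : ℕ => markW N.ρ K n).comp measurable_snd)
  have hin : Measurable fun q : Th P => I q * (domG C b' N.T' P q.1.1.2 q.1.2 *
      (ENNReal.ofReal (1 + ‖q.1.1.2‖))⁻¹) := by
    refine hIm.mul ?_
    refine (hmG.comp (measurable_fst.fst.snd.prodMk measurable_fst.snd)).mul ?_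
    exact ((measurable_const.add measurable_fst.fst.snd.norm).ennreal_ofReal.inv)
  calc ∫⁻ q, chi (zE Φ ε q (Sum.inr ())).1 * expW β (zE Φ ε q) ∂(mP Φ ε K N P x y)
      ≤ ∫⁻ q, chi (zE Φ ε q (Sum.inr ())).1 * expW β (zE Φ ε q) ∂(mS Φ ε K N P) :=
        lintegral_mono' Measure.restrict_le_self le_rfl
    _ = activity ε * ∫⁻ q, dS Φ ε K N P q *
          (chi (zE Φ ε q (Sum.inr ())).1 * expW β (zE Φ ε q)) ∂(refM P) := lintegral_mS hΦ N hF
    _ ≤ activity ε * ∫⁻ q, (M₀ * (chi q.2.1.1 *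
          (wG (N.γe - β) q.2.1.2 * markW N.ρ K q.2.2))) *
        (I q * (domG C b' N.T' P q.1.1.2 q.1.2 * (ENNReal.ofReal (1 + ‖q.1.1.2‖))⁻¹))
          ∂(refM P) := mul_le_mul_right (lintegral_mono hpt) _
    _ = activity ε * ∫⁻ r : PhasePoint × ℕ, (M₀ * (chi r.1.1 *
          (wG (N.γe - β) r.1.2 * markW N.ρ K r.2))) *
        (∫⁻ z : PhasePoint × Par P, I (z, r) * (domG C b' N.T' P z.1.2 z.2 *
          (ENNReal.ofReal (1 + ‖z.1.2‖))⁻¹))
          ∂((volume : Measure PhasePoint).prod Measure.count) := by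
        congr 1
        unfold refM
        have hm : Measurable fun q : Th P => (M₀ * (chi q.2.1.1 *
            (wG (N.γe - β) q.2.1.2 * markW N.ρ K q.2.2))) *
            (I q * (domG C b' N.T' P q.1.1.2 q.1.2 * (ENNReal.ofReal (1 + ‖q.1.1.2‖))⁻¹)) :=
          (hwm.comp measurable_snd).mul hin
        rw [lintegral_prod_symm _ hm.aemeasurable]
        refine lintegral_congr fun r => ?_
        have hr : Measurable fun z : PhasePoint × Par P => I (z, r) *
            (domG C b' N.T' P z.1.2 z.2 * (ENNReal.ofReal (1 + ‖z.1.2‖))⁻¹) :=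
          hin.comp (f := fun z : PhasePoint × Par P => (z, r))
            (measurable_id.prodMk measurable_const)
        exact lintegral_const_mul
          (M₀ * (chi r.1.1 * (wG (N.γe - β) r.1.2 * markW N.ρ K r.2))) hr
    _ ≤ activity ε * ∫⁻ r : PhasePoint × ℕ, (M₀ * (chi r.1.1 *
          (wG (N.γe - β) r.1.2 * markW N.ρ K r.2))) *
        (ENNReal.ofReal (ε ^ 2) * PairRep581.ctC N.te * ENNReal.ofReal (1 + ‖r.1.2‖) * G)
          ∂((volume : Measure PhasePoint).prod Measure.count) := by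
        refine mul_le_mul_right (lintegral_mono fun r => mul_le_mul_right ?_ _) _
        exact ct_mass hΦ hε N.te P (g := fun z => domG C b' N.T' P z.1 z.2) hmG r
    _ = activity ε * ∫⁻ r : PhasePoint × ℕ, (M₀ * (ENNReal.ofReal (ε ^ 2) *
          PairRep581.ctC N.te * G)) * (chi r.1.1 * (wG (N.γe - β) r.1.2 * markW N.ρ K r.2) *
          ENNReal.ofReal (1 + ‖r.1.2‖)) ∂((volume : Measure PhasePoint).prod Measure.count) := by
        congr 1
        refine lintegral_congr fun r => ?_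
        ring
    _ = (activity ε * ENNReal.ofReal (ε ^ 2)) * (M₀ * (PairRep581.ctC N.te * G * Ml)) := by
        rw [lintegral_const_mul' _ _ (ENNReal.mul_ne_top hM₀ (ENNReal.mul_ne_top
          (ENNReal.mul_ne_top ENNReal.ofReal_ne_top (PairRep581.ctC_ne_top _)) hdomG)), ← hMl]
        ring
    _ = M₀ * (PairRep581.ctC N.te * G * Ml) := by
        rw [LN2.activity_mul hε, one_mul]

end Crest.Agent.R122.NuL735

end
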