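import Crest.Agent.R122.ErrFin_815
import Crest.Agent.R122.ErrBBind_823
import Crest.Agent.R122.LnNClose_291

/-!
# Row 122 (helper815): the null errors of the spread terms in the windows, closed

* `tlNull` : **the test lines which are not good for the tree are null** (`TLNullIn`), from `KData`.
* `errBFamIn_of` : `ErrBFamIn` from the deterministic statement `ErrBAlt` of helper823.
* `nullAB_of` : `NullAB` of helper814 in the windows, from `ErrBAlt`.
-/

set_option autoImplicit false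
set_option linter.unusedSectionVars false

open MeasureTheory Set Filter
open scoped ENNReal Topology
open Crest.AnalysisR.Kinetic
open Crest.Agent.R122.EDefs602 Crest.Agent.R122.GC311 Crest.Agent.R122.Master566
open Crest.Agent.R122.Top602

noncomputable section

namespace Crest.Agent.R122.ErrAB815

open scoped Classical

variable {Φ : Space3 → ℝ} {f₀ : PhasePoint → ℝ} {f : ℝ → PhasePoint → ℝ} {β T : ℝ}

/-- **The test lines which are not good for the tree are null**, all windows. -/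
theorem tlNull (hD : KData Φ β T f₀ f) : TLNullIn Φ f₀ T :=
  tlNullIn_of hD (fun te hte => LnN291.okXae hD.adm hte.le te)
    fun _ hte => LnN291.tlDet hD.adm hte le_rfl

/-- `ErrBFamIn` from the deterministic statement for two lines. -/
theorem errBFamIn_of (hD : KData Φ β T f₀ f)
    (halt : ∀ (g1 : ℝ) (r1 : ℝ≥0∞) (γ : ℝ → ℝ) (ρ : ℝ≥0∞), LinePar g1 r1 T γ ρ →
      ∀ L tw te : ℝ, te ≤ T → ∀ K : ℕ, ∃ (T₁ : ℝ) (Kr : ℕ), 0 ≤ T₁ ∧
        ErrB823.ErrBAlt Φ T T₁ (epar γ ρ L tw te) K Kr) : ErrBFamIn Φ f₀ T := by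
  refine ⟨1, one_pos, 1, one_pos, 0, zero_lt_one, fun _ _ _ γ ρ hl h L tw te _ hw K => ?_⟩
  obtain ⟨g, hc⟩ := ctx_of hD hl (hw.nonneg.trans hw.le) hw.le_T hw.le_T
  obtain ⟨T₁, Kr, h1, h2⟩ := halt 1 0 γ ρ hl L tw te hw.le_T K
  exact ErrB823.errBFam_of_alt (Q := epar γ ρ L tw te) hc (Gate973.classNull hD.adm hD.T_pos) h1 h2

/-- **Both errors in the windows**, from the deterministic statement for two lines. -/
theorem nullAB_of (hD : KData Φ β T f₀ f)
    (halt : ∀ (g1 : ℝ) (r1 : ℝ≥0∞) (γ : ℝ → ℝ) (ρ : ℝ≥0∞), LinePar g1 r1 T γ ρ →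
      ∀ L tw te : ℝ, te ≤ T → ∀ K : ℕ, ∃ (T₁ : ℝ) (Kr : ℕ), 0 ≤ T₁ ∧
        ErrB823.ErrBAlt Φ T T₁ (epar γ ρ L tw te) K Kr) :
    InHL T fun _ γ ρ => EvW T fun _ L tw te => IH Φ f₀ f T γ ρ tw → ∀ T' : ℝ,
      H5Top814.NullAB Φ f₀ (epar γ ρ L tw te) T' :=
  nullABIn hD (tlNull hD) (errBFamIn_of hD halt)

end Crest.Agent.R122.ErrAB815

end
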