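import Crest.Agent.R122.ErrBAlt_522
import Crest.Agent.R122.NullABFin_815
import Crest.Agent.R122.I3Fin_478

/-!
# Row 122 (helper522): the null errors of the spread terms in the windows, closed

* `nullAB` : `NullAB` of helper814 in all short windows, from `KData` alone.
* `nullABIn` : helper478's input `NullABIn`.
* `i3In_of_two` : inequality 3 from `Link4In` and `Base3In`.
-/

set_option autoImplicit false
set_option linter.unusedSectionVars false

open MeasureTheory Set Filter
open scoped ENNReal Topology
open Crest.AnalysisR.Kinetic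
open Crest.Agent.R122.EDefs602 Crest.Agent.R122.GC311 Crest.Agent.R122.Master566
open Crest.Agent.R122.Top602

noncomputable section

namespace Crest.Agent.R122.NullAB522

variable {Φ : Space3 → ℝ} {f₀ : PhasePoint → ℝ} {f : ℝ → PhasePoint → ℝ} {β T : ℝ}

theorem nullAB (hD : KData Φ β T f₀ f) :
    InHL T fun _ γ ρ => EvW T fun _ L tw te => IH Φ f₀ f T γ ρ tw → ∀ T' : ℝ,
      H5Top814.NullAB Φ f₀ (epar γ ρ L tw te) T' :=
  ErrAB815.nullAB_of hD fun _ _ γ ρ _ L tw te hte K =>
    ⟨T + 1, K, by linarith [hD.T_pos], ErrBAlt522.errBAlt (Q := epar γ ρ L tw te) hD.adm hte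
      (by linarith) K⟩

/-- **The null errors of the spread terms**, from `KData` alone. -/
theorem nullABIn (hD : KData Φ β T f₀ f) : I3Step478.NullABIn Φ f₀ f T :=
  I3Fin478.nullABIn_of (nullAB hD)

/-- **Inequality 3 from two inputs.** -/
theorem i3In_of_two (hD : KData Φ β T f₀ f) (hL : Ineq1815.Link4In Φ f₀ f T)
    (hB : I3Fin478.Base3In Φ β f₀ f T) : I3In Φ f₀ f T :=
  I3Fin478.i3In_of_open hD hL (nullABIn hD) hB

end Crest.Agent.R122.NullAB522

end
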