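import Crest.Agent.R122.PairOk3_735
import Crest.Agent.R122.PairBirth2_664
import Crest.Agent.R122.GateOS2_495
import Crest.Agent.R122.StdB_495
import Crest.Agent.R122.ShpOkN_998
import Crest.Agent.R122.PairB_307
import Crest.Agent.R122.PairStepK_85
import Crest.Agent.R122.Link6F_796
import Crest.Agent.R122.LinkENB_581

/-!
# Null facts of the continued pair laws, assembly (row 122, inequality 3, 13i), helper837

* `auxK_K3`, `okAE_K3`, `sig_K3` : the worlds are good, the turning time is before the birth of the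
  second line, for all the laws `bindN ν (K3 ..) j`.
* `bad_K3` : `NullFacts.bad` of all continuations, from the pair links.
* `linkE_of_rep` : the pair links from the gateway form over the shapes.
* `nullFacts_K3` : `NullFacts` of all continuations, one functional `bd`, from the gateway forms over
  the shapes `itS` (functional `F` without measurability).
* `badNB_K3`, `null6_K3` : the same from helper581's `LinkENB` and helper796's `Slots6G`, with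
  the functional `bd6` of LINK6.
-/

set_option autoImplicit false
set_option linter.unusedSectionVars false

open MeasureTheory ProbabilityTheory Set Filter Topology
open scoped ENNReal Classical
open Crest.AnalysisR.Kinetic
open Crest.Agent.R122.GC311 Crest.Agent.R122.EDefs602
open Crest.Agent.R122.Kin796 Crest.Agent.R122.Kin796.CTree Crest.Agent.R122.Tree674
open Crest.Agent.R122.Boost969 (LSt SprL)
open Crest.Agent.R122.Pair292 hiding ML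
open Crest.Agent.R122.PairD292 Crest.Agent.R122.PairBad515 Crest.Agent.R122.PairOk735
open Crest.Agent.R122.StepK85
open Crest.Agent.R122.Gate424 Crest.Agent.R122.Gate973 Crest.Agent.R122.PairRep581
open Crest.Agent.R122.GateOS2495
open Crest.Agent.R122.StrN998 (itS)

noncomputable section

namespace Crest.Agent.R122.NullSkel837

variable {Φ : Space3 → ℝ} {f₀ : PhasePoint → ℝ} {ε b₀ te : ℝ}

/-! ### Good worlds -/

theorem outO_fst (k : Option Bool) (s : ℝ) (y : Space3) (q : OCout796.CD) :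
    (outO Φ ε k s y q).1 = s + OCout796.outT Φ ε q := by
  rcases k with _ | (_ | _) <;> rfl

theorem auxK_K3 (hΦ : AdmissiblePotential Φ) (hε : 0 ≤ ε) {q : ℕ → ℝ≥0∞} (hq : ∀ m, q m ≠ ∞) :
    AuxK (K3 Φ ε b₀ te q) := by
  have h : ∀ k : Option Bool, AuxK (KO Φ ε b₀ te q k) := fun k =>
    auxK_stO hΦ hε (outMap_outO hΦ ε k) (outO_fst k) b₀ te (outF k) hq
  exact (h none).add ((h (some false)).add (h (some true)))

/-- **Good worlds for all continuations.** -/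
theorem okAE_K3 (hΦ : AdmissiblePotential Φ) (hε : 0 < ε) {K : ℕ} {P : PPar}
    {Ξ ν : Measure (Lab × LSt)} {c : ℝ≥0∞} (h : PX P Ξ ν c) {q : ℕ → ℝ≥0∞} (hq : ∀ m, q m ≠ ∞)
    {Kd : Kernel (Lab × LSt) (Lab × LSt)} {r₀ : ℝ≥0∞} (hK : StepK P (K3 Φ ε b₀ te q) Kd r₀)
    (ha : Mark307.Aux ε ν) (j : ℕ) : OkAE Φ ε K (bindN ν (K3 Φ ε b₀ te q) j) := by
  refine (okAE'_bindN hΦ hε h hK (auxK_K3 hΦ hε.le hq) ?_ ha.na ha.sb j).okAE
  filter_upwards [ha.sg] with θ hθ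
  exact hθ.2

/-- **Turning times of all continuations.** -/
theorem sig_K3 (hΦ : AdmissiblePotential Φ) (hε : 0 < ε) {ν : Measure (Lab × LSt)}
    {q : ℕ → ℝ≥0∞} (hq : ∀ m, q m ≠ ∞) (ha : Mark307.Aux ε ν) (j : ℕ) :
    ∀ᵐ θ : Lab × LSt ∂(bindN ν (K3 Φ ε b₀ te q) j), sig θ.1 ≤ θ.2.1 := by
  have h0 : ∀ᵐ θ : Lab × LSt ∂ν, sig θ.1 ≤ (eL θ).1.1 := by
    filter_upwards [ha.sg] with θ hθ
    exact hθ.2
  cases j with
  | zero => exact h0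
  | succ j =>
    filter_upwards [(auxS_bindN (auxK_K3 (b₀ := b₀) (te := te) hΦ hε.le hq) h0 j).sg] with θ hθ
    exact hθ.le

/-- The turning times stay nonnegative. -/
theorem sig0_bind {κ : Kernel (Lab × LSt) (Lab × LSt)} (hκ : AuxK κ) {ν : Measure (Lab × LSt)}
    (h : ∀ᵐ θ : Lab × LSt ∂ν, 0 ≤ sig θ.1) : ∀ᵐ θ : Lab × LSt ∂(ν.bind κ), 0 ≤ sig θ.1 := by
  have hm : MeasurableSet {θ : Lab × LSt | ¬ 0 ≤ sig θ.1} :=
    (measurableSet_le measurable_const (measurable_sig.comp measurable_fst)).compl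
  rw [ae_iff, Measure.bind_apply hm (Kernel.aemeasurable κ)]
  refine lintegral_eq_zero_of_ae_eq_zero ?_
  filter_upwards [h] with p hp
  show κ p {θ : Lab × LSt | ¬ 0 ≤ sig θ.1} = 0
  rw [← ae_iff (p := fun θ : Lab × LSt => 0 ≤ sig θ.1)]
  filter_upwards [hκ p] with p' hp'
  rw [hp'.2.1]
  exact hp

/-- **Turning times of all continuations**, the literal hypothesis of `Step6`. -/
theorem sig6_K3 (hΦ : AdmissiblePotential Φ) (hε : 0 < ε) {ν : Measure (Lab × LSt)}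
    {q : ℕ → ℝ≥0∞} (hq : ∀ m, q m ≠ ∞) (ha : Mark307.Aux ε ν) (j : ℕ) :
    ∀ᵐ θ : Lab × LSt ∂(bindN ν (K3 Φ ε b₀ te q) j), 0 ≤ sig θ.1 ∧ sig θ.1 ≤ θ.2.1 := by
  have h0 : ∀ᵐ θ : Lab × LSt ∂(bindN ν (K3 Φ ε b₀ te q) j), 0 ≤ sig θ.1 := by
    induction j with
    | zero =>
      filter_upwards [ha.sg] with θ hθ
      exact hθ.1
    | succ j ih => exact sig0_bind (auxK_K3 hΦ hε.le hq) ih
  filter_upwards [h0, sig_K3 (b₀ := b₀) (te := te) hΦ hε hq ha j] with θ h1 h2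
  exact ⟨h1, h2⟩

/-! ### Bad first contacts -/

variable {Q : EPar} {T' : ℝ} {q : ℕ → ℕ → ℝ≥0∞} {PP : ℕ → PPar}

/-- The law of the `j`-th continuation. -/
abbrev nuJ (Φ : Space3 → ℝ) (b₀ te : ℝ) (q : ℕ → ℕ → ℝ≥0∞) (ν : ℕ → ℝ → Measure (Lab × LSt))
    (j K : ℕ) (ε : ℝ) : Measure (Lab × LSt) := bindN (ν K ε) (K3 Φ ε b₀ te (q K)) j

/-- **The pair links from the gateway form.** -/
theorem linkE_of_rep (hf : Measurable f₀) {ι : ℕ → Type} [∀ K, Fintype (ι K)]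
    {ν : ℕ → ℝ → Measure (Lab × LSt)} {S : ∀ K, ι K → Shp} (h : ∀ K, Rep (ν K) (S K))
    (hE : ∀ K s, GNull f₀ (S K s).mI
      (fun ε _ _ x w => LinkE Φ ε K Q w ((S K s).th ε x))) :
    Null fun K ε => gcE f₀ ε fun _ w => ∫⁻ θ, (if LinkE Φ ε K Q w θ then 1 else 0) ∂(ν K ε) :=
  null_of_rep_E hf h (E := fun K ε _ w θ => LinkE Φ ε K Q w θ) hE

/-- **`NullFacts.bad` of all continuations.** -/
theorem bad_K3 (hΦ : AdmissiblePotential Φ) (hf : Measurable f₀)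
    (h1 : ∫⁻ z, ENNReal.ofReal (f₀ z) ≤ 1) (hPP : PPOk Q PP) {γ₀ : ℝ} (hγp : 0 < γ₀)
    (hγ : Measurable Q.γ) (hγ₀ : ∀ τ ∈ Ioc 0 Q.te, γ₀ ≤ Q.γ τ) (hρ : Q.ρ < 1)
    {Kd : ℕ → ℝ → Kernel (Lab × LSt) (Lab × LSt)} {r₀ : ℝ≥0∞} (hr₀ : r₀ ≠ ∞)
    (hK : ∀ K ε, 0 < ε → StepK (PP K) (K3 Φ ε b₀ Q.te (q K)) (Kd K ε) r₀)
    {Ξ ν : ℕ → ℝ → Measure (Lab × LSt)} {c : ℝ≥0∞} (hc : c ≠ ∞)
    (hPX : ∀ K ε, 0 < ε → PX (PP K) (Ξ K ε) (ν K ε) c) (j : ℕ)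
    (hL : Null fun K ε => gcE f₀ ε fun _ w =>
      ∫⁻ θ, (if LinkE Φ ε K Q w θ then 1 else 0) ∂(nuJ Φ b₀ Q.te q ν j K ε)) :
    Null fun K ε => BAD Φ f₀ ε K Q (nuJ Φ b₀ Q.te q ν j K ε) :=
  PairBirth664.bad_null_px hΦ hf h1 hPP hγp hγ hγ₀ hρ (c := fun _ => r₀ ^ j * c)
    (fun _ => ENNReal.mul_ne_top (ENNReal.pow_ne_top hr₀) hc)
    (fun K ε hε _ => ⟨_, (hPX K ε hε).bindN (hK K ε hε) j⟩) hL

/-! ### All null facts -/

/-- **`NullFacts` of all continuations**, one functional `bd`, from the gateway forms over the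
shapes. -/
theorem nullFacts_K3 (hΦ : AdmissiblePotential Φ) (hf : Measurable f₀)
    (h1 : ∫⁻ z, ENNReal.ofReal (f₀ z) ≤ 1) (hPP : PPOk Q PP) {γ₀ : ℝ} (hγp : 0 < γ₀)
    (hγ : Measurable Q.γ) (hγ₀ : ∀ τ ∈ Ioc 0 Q.te, γ₀ ≤ Q.γ τ) (hρ : Q.ρ < 1)
    (hq : ∀ K m, q K m ≠ ∞)
    {Kd : ℕ → ℝ → Kernel (Lab × LSt) (Lab × LSt)} {r₀ : ℝ≥0∞} (hr₀ : r₀ ≠ ∞)
    (hK : ∀ K ε, 0 < ε → StepK (PP K) (K3 Φ ε b₀ Q.te (q K)) (Kd K ε) r₀)
    {Ξ ν : ℕ → ℝ → Measure (Lab × LSt)} {c : ℝ≥0∞} (hc : c ≠ ∞)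
    (hPX : ∀ K ε, 0 < ε → PX (PP K) (Ξ K ε) (ν K ε) c)
    (hA : ∀ K ε, 0 < ε → Mark307.Aux ε (ν K ε))
    {ι : ℕ → Type} [∀ K, Fintype (ι K)] {S : ∀ K, ι K → Shp} {γs βs : ℝ} {ρs : Space3 → ℝ≥0∞}
    (hR : ∀ K, Rep (ν K) (S K)) (hS : ∀ K s, ShpOk γs βs ρs (S K s))
    (hB : ∀ K s, StandardBorelSpace (S K s).Θ)
    (hL : ∀ j K s, GNull f₀ (itS (S K s) Φ b₀ Q.te (q K) j).mI
      (fun ε _ _ x w => LinkE Φ ε K Q w ((itS (S K s) Φ b₀ Q.te (q K) j).th ε x)))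
    {F : ℕ → ℝ → SF2}
    (hF : ∀ j K P s, P.leaves ≤ K →
      FNull f₀ (osP Φ f₀ Q.te T' K P (itS (S K s) Φ b₀ Q.te (q K) j))
        (pullS Φ Q.te T' K (F K) P (itS (S K s) Φ b₀ Q.te (q K) j))) :
    ∃ bd : ℕ → ℝ → SF2,
      (∀ (K : ℕ) (ε : ℝ), 0 < ε → ∀ P : CTree, P.leaves ≤ K →
        ∀ z (m : ℕ) (w : Config m) (θ : Lab × LSt), w ∈ PairExcluded ε m →
          Valid Φ ε P T' z.1.2 z.2 → (z, θ.2) ∈ OneC423.ctSet Φ ε Q.te P → OkL K θ →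
          F K ε P z m w θ ≤ bd K ε P z m w θ) ∧
      ∀ j, NullFacts Φ f₀ Q T' bd (nuJ Φ b₀ Q.te q ν j) := by
  have hRj : ∀ j K, Rep (nuJ Φ b₀ Q.te q ν j K) (fun s => itS (S K s) Φ b₀ Q.te (q K) j) :=
    fun j K => StrN998.rep_itS_D (γ := fun _ => γs) (β := fun _ => βs) (hR K) (hS K) hΦ (hq K) j
  refine nullFacts_fam hΦ hf (J := ℕ) (ι := fun _ K => ι K) hRj
    (fun j K s => ?_) (F := F) (fun j K P s hP => hF j K P s hP)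
    (fun j K ε hε => okAE_K3 hΦ hε (hPX K ε hε) (hq K) (hK K ε hε) (hA K ε hε) j)
    fun j => bad_K3 hΦ hf h1 hPP hγp hγ hγ₀ hρ hr₀ hK hc hPX j
      (linkE_of_rep hf (hRj j) fun K s => hL j K s)
  have := hB K s
  exact StdB495.standardBorel_th j

/-- **The pair links from the gateway form**, second line not reborn near the gas (helper581's
`LinkENB`). -/
theorem linkENB_of_rep (hf : Measurable f₀) {ι : ℕ → Type} [∀ K, Fintype (ι K)]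
    {ν : ℕ → ℝ → Measure (Lab × LSt)} {S : ∀ K, ι K → Shp} (h : ∀ K, Rep (ν K) (S K))
    (hE : ∀ K s, GNull f₀ (S K s).mI
      (fun ε _ _ x w => LinkENB Φ ε K Q w ((S K s).th ε x))) :
    Null fun K ε => gcE f₀ ε fun _ w => ∫⁻ θ, (if LinkENB Φ ε K Q w θ then 1 else 0) ∂(ν K ε) :=
  null_of_rep_E hf h (E := fun K ε _ w θ => LinkENB Φ ε K Q w θ) hE

/-- **`NullFacts.bad` of all continuations** from `LinkENB` over the shapes. -/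
theorem badNB_K3 (hΦ : AdmissiblePotential Φ) (hf : Measurable f₀)
    (h1 : ∫⁻ z, ENNReal.ofReal (f₀ z) ≤ 1) (hPP : PPOk Q PP) {γ₀ : ℝ} (hγp : 0 < γ₀)
    (hγ : Measurable Q.γ) (hγ₀ : ∀ τ ∈ Ioc 0 Q.te, γ₀ ≤ Q.γ τ) (hρ : Q.ρ < 1)
    (hq : ∀ K m, q K m ≠ ∞)
    {Kd : ℕ → ℝ → Kernel (Lab × LSt) (Lab × LSt)} {r₀ : ℝ≥0∞} (hr₀ : r₀ ≠ ∞)
    (hK : ∀ K ε, 0 < ε → StepK (PP K) (K3 Φ ε b₀ Q.te (q K)) (Kd K ε) r₀)
    {Ξ ν : ℕ → ℝ → Measure (Lab × LSt)} {c : ℝ≥0∞} (hc : c ≠ ∞)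
    (hPX : ∀ K ε, 0 < ε → PX (PP K) (Ξ K ε) (ν K ε) c)
    {ι : ℕ → Type} [∀ K, Fintype (ι K)] {S : ∀ K, ι K → Shp} {γs βs : ℝ} {ρs : Space3 → ℝ≥0∞}
    (hR : ∀ K, Rep (ν K) (S K)) (hS : ∀ K s, ShpOk γs βs ρs (S K s)) (j : ℕ)
    (hL : ∀ K s, GNull f₀ (itS (S K s) Φ b₀ Q.te (q K) j).mI
      (fun ε _ _ x w => LinkENB Φ ε K Q w ((itS (S K s) Φ b₀ Q.te (q K) j).th ε x))) :
    Null fun K ε => BAD Φ f₀ ε K Q (nuJ Φ b₀ Q.te q ν j K ε) := by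
  have hcj : ∀ K : ℕ, (fun _ : ℕ => r₀ ^ j * c) K ≠ ∞ := fun _ =>
    ENNReal.mul_ne_top (ENNReal.pow_ne_top hr₀) hc
  have hPXj : ∀ (K : ℕ) (ε : ℝ), 0 < ε → ε ≤ 1 →
      ∃ Ξ, PX (PP K) Ξ (nuJ Φ b₀ Q.te q ν j K ε) (r₀ ^ j * c) := fun K ε hε _ =>
    ⟨_, (hPX K ε hε).bindN (hK K ε hε) j⟩
  exact bad_K3 hΦ hf h1 hPP hγp hγ hγ₀ hρ hr₀ hK hc hPX j
    (linkE_null_of_nb hΦ hf h1 hPP hγp hγ hγ₀ hρ hcj hPXj
      (linkENB_of_rep hf (fun K => StrN998.rep_itS_D (γ := fun _ => γs) (β := fun _ => βs) (hR K)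
        (hS K) hΦ (hq K) j) hL))

/-- **`NullFacts` of all continuations, with the functional `bd6` of LINK6** (helper796's `link6F`), from
the gateway facts over the shapes `itS`. -/
theorem null6_K3 (hΦ : AdmissiblePotential Φ) {A : Space3 → ℝ≥0∞} {C b g0 : ℝ}
    (hF₀ : Third741.FOk f₀ A C b) (hQ : Third741.QOk Q g0) (hρ : Q.ρ < 1) (hPP : PPOk Q PP)
    (hq : ∀ K m, q K m ≠ ∞)
    {Kd : ℕ → ℝ → Kernel (Lab × LSt) (Lab × LSt)} {r₀ : ℝ≥0∞} (hr₀ : r₀ ≠ ∞)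
    (hK : ∀ K ε, 0 < ε → StepK (PP K) (K3 Φ ε b₀ Q.te (q K)) (Kd K ε) r₀)
    {Ξ ν : ℕ → ℝ → Measure (Lab × LSt)} {c : ℝ≥0∞} (hc : c ≠ ∞)
    (hPX : ∀ K ε, 0 < ε → PX (PP K) (Ξ K ε) (ν K ε) c)
    (hA : ∀ K ε, 0 < ε → Mark307.Aux ε (ν K ε))
    {ι : ℕ → Type} [∀ K, Fintype (ι K)] {S : ∀ K, ι K → Shp} {γs βs : ℝ} {ρs : Space3 → ℝ≥0∞}
    (hR : ∀ K, Rep (ν K) (S K)) (hS : ∀ K s, ShpOk γs βs ρs (S K s))
    (hB : ∀ K s, StandardBorelSpace (S K s).Θ)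
    (hL : ∀ j K s, GNull f₀ (itS (S K s) Φ b₀ Q.te (q K) j).mI
      (fun ε _ _ x w => LinkENB Φ ε K Q w ((itS (S K s) Φ b₀ Q.te (q K) j).th ε x)))
    (hF : ∀ j K P s, P.leaves ≤ K →
      Link6796.Slots6G Φ f₀ Q T' K P (itS (S K s) Φ b₀ Q.te (q K) j)) :
    ∃ bd : ℕ → ℝ → SF2,
      (∀ (K : ℕ) (ε : ℝ), 0 < ε → ∀ (P : CTree) (z : PhasePoint × Par P) (m : ℕ)
        (w : Config m) (θ : Lab × LSt), (eL θ).2 + P.leaves ≤ K → Real6 Φ ε K Q.te T' P z w θ →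
        GIV566.unhit Φ ε (OneC285.ptube Φ ε P z) Q.tw w →
        Pt6811.bd6 Φ Q slk K ε P z m w θ ≤ bd K ε P z m w θ) ∧
      ∀ j, NullFacts Φ f₀ Q T' bd (nuJ Φ b₀ Q.te q ν j) := by
  have hRj : ∀ j K, Rep (nuJ Φ b₀ Q.te q ν j K) (fun s => itS (S K s) Φ b₀ Q.te (q K) j) :=
    fun j K => StrN998.rep_itS_D (γ := fun _ => γs) (β := fun _ => βs) (hR K) (hS K) hΦ (hq K) j
  have hPXj : ∀ j K ε, 0 < ε → PX (PP K) (bindN (Ξ K ε) (Kd K ε) j)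
      (nuJ Φ b₀ Q.te q ν j K ε) (r₀ ^ j * c) := fun j K ε hε => (hPX K ε hε).bindN (hK K ε hε) j
  refine Link6796.link6F hΦ hF₀ hQ hPP (J := ℕ) (ι := fun _ K => ι K)
    (Ξ := fun j K ε => bindN (Ξ K ε) (Kd K ε) j) hRj (fun j K s => ?_)
    (fun j K ε hε => (hPXj j K ε hε).sfν) (c := fun j => r₀ ^ j * c)
    (fun j => ENNReal.mul_ne_top (ENNReal.pow_ne_top hr₀) hc) (ε₁ := fun _ => 1)
    (fun _ => one_pos) (fun j K ε hε _ => hPXj j K ε hε) (fun j K P s hP => hF j K P s hP)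
    (fun j K ε hε => okAE_K3 hΦ hε (hPX K ε hε) (hq K) (hK K ε hε) (hA K ε hε) j)
    fun j => badNB_K3 hΦ hF₀.meas hF₀.mass hPP hQ.g0_pos hQ.γ_meas hQ.γ_ge hρ hq hr₀ hK hc hPX
      hR hS j (hL j)
  have := hB K s
  exact StdB495.standardBorel_th j

end Crest.Agent.R122.NullSkel837

end
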