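import Crest.Agent.R122.OSTN_434
import Crest.Agent.R122.GateOS_973
import Crest.Agent.R122.XShape_692
import Crest.Agent.R122.TLGate_311

/-!
# The capped gateway for contact structures and an independent line (row 122, H1/H11)

Structure = tree + test line in contact (`osM`, labels `Idx P ⊕ Unit`), independent line
`x ~ lineM`. 692's alternatives `SAlt`, `XAlt`, `JAlt`.

* `dom_osL`, `badF_osL` : (tree, line) and an independent line: two groups.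
* `gLe_xRun`, `badF_x`, `gNull_xHit` : the independent line alone.
* `fNull_os_cap`, `osNull_cap_of_alt` : **the gateway**.
-/

set_option autoImplicit false
set_option linter.unusedSectionVars false

open MeasureTheory Set Filter Topology
open scoped ENNReal Classical
open Crest.AnalysisR.Kinetic
open Crest.Agent.R122.Kin796 Crest.Agent.R122.Kin796.CTree Crest.Agent.R122.Tree674
open Crest.Agent.R122.GC311 Crest.Agent.R122.EDefs602 Crest.Agent.R122.OneC285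
open Crest.Agent.R122.LinkM547 Crest.Agent.R122.LN2
open Crest.Agent.R122.Gate424 Crest.Agent.R122.Gate973 Crest.Agent.R122.OSMeas984
open Crest.Agent.R122.OneC423 Crest.Agent.R122.LinkAsm984 Crest.Agent.R122.GateOS434
open Crest.Agent.R122.X692

noncomputable section

namespace Crest.Agent.R122.GateOS434

variable {Φ : Space3 → ℝ} {f₀ : PhasePoint → ℝ} {Q : EPar}

/-- **(tree, test line) and an independent line**: two groups. -/
theorem dom_osL (hΦ : AdmissiblePotential Φ) (hf : Measurable f₀) {γ : ℝ} {ρ : Space3 → ℝ≥0∞}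
    {C : ℝ≥0∞} (he : Env f₀ γ ρ C) {ε : ℝ} (hε : 0 < ε) (hγm : Measurable Q.γ)
    (hg : ∀ τ ∈ Ioc (0 : ℝ) Q.te, γ ≤ Q.γ τ) (K Kx : ℕ) (T' : ℝ) (P : CTree) :
    Dom γ ρ ε 2 ((((Finset.univ : Finset (Idx P)).disjSum (∅ : Finset Unit))).map
        Function.Embedding.inl)
      (C ^ Fintype.card (Idx P) * (∑' n : ℕ, markW Q.ρ K n) * ∑' n : ℕ, markW Q.ρ Kx n)
      (prodΛ (osΛ Q.te P) (lineΛ Q.te))
      ((osM Φ f₀ ε K Q T' (volume.restrict (Ioc 0 Q.te)) P).prod (lineM Q.γ Q.ρ Kx Q.te))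
      (fun θ => bx (osB P θ.1) θ.2.1.1)
      (fun θ => zx (osZ Φ ε P θ.1) (back θ.2.1)) := by
  have h := Dom.prod he.meas (dom_os hΦ hf he hε hγm hg K T' P)
    (dom_line (γ := γ) (ρ := ρ) hg hγm Q.ρ Kx ε) (by
      have := card_idx_pos P
      rw [Fintype.card_sum, Fintype.card_unit]
      omega) le_rfl
  rw [Finset.disjSum_empty] at h
  exact h

section gate

variable {b g0 : ℝ}

/-- **Bad partitions of (tree, test line), an independent line and the gas.** -/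
theorem badF_osL (hΦ : AdmissiblePotential Φ) (hb : 0 < b) (hf : Measurable f₀)
    (H : HasSummableGaussianBound b (fun x v => f₀ (x, v)))
    (h1 : ∫⁻ z, ENNReal.ofReal (f₀ z) ≤ 1) (hg0 : 0 < g0) (hγ : Measurable Q.γ)
    (hg : ∀ τ ∈ Ioc (0 : ℝ) Q.te, g0 ≤ Q.γ τ) (hρ : Q.ρ ≠ ∞) (K Kx : ℕ) (P : CTree) (T' : ℝ)
    {T : ℝ} (hT : 0 < T) (C : ℝ) (N : ℕ) :
    BadF (I := Unit) f₀ (fun ε _ => (osM Φ f₀ ε K Q T' (volume.restrict (Ioc 0 Q.te)) P).prod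
        (lineM Q.γ Q.ρ Kx Q.te))
      (fun R ς ε _ _ θ w => BadGas Φ T C R ς ε N 2
        ((((Finset.univ : Finset (Idx P)).disjSum (∅ : Finset Unit))).map
          Function.Embedding.inl) (bx (osB P θ.1) θ.2.1.1) (zx (osZ Φ ε P θ.1) (back θ.2.1))
            w) := by
  set γ : ℝ := min b g0 with hγd
  have hγ0 : 0 < γ := lt_min hb hg0
  obtain ⟨ρ, C₀, he⟩ := exists_env (le_refl b) H
  have he' : Env f₀ γ ρ C₀ := env_anti he (min_le_left _ _)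
  have hs : 2 ≤ Fintype.card ((Idx P ⊕ Unit) ⊕ Unit) := by
    have := card_idx_pos P
    rw [Fintype.card_sum, Fintype.card_sum, Fintype.card_unit]
    omega
  exact badF_badGas (m := fun ε _ => (osM Φ f₀ ε K Q T' (volume.restrict (Ioc 0 Q.te)) P).prod
      (lineM Q.γ Q.ρ Kx Q.te))
    (classNull hΦ hT) hf h1 he' hγ0 C N hs
    ((((Finset.univ : Finset (Idx P)).disjSum (∅ : Finset Unit))).map Function.Embedding.inl)
    (c := C₀ ^ Fintype.card (Idx P) * (∑' n : ℕ, markW Q.ρ K n) * ∑' n : ℕ, markW Q.ρ Kx n)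
    (ENNReal.mul_ne_top (ENNReal.mul_ne_top (ENNReal.pow_ne_top he.fin) (sum_markW_ne_top hρ K))
      (sum_markW_ne_top hρ Kx)) (prodΛ (osΛ Q.te P) (lineΛ Q.te))
    (b := fun _ _ θ => bx (osB P θ.1) θ.2.1.1)
    (z := fun ε _ θ => zx (osZ Φ ε P θ.1) (back θ.2.1)) (fun _ _ => inferInstance)
    fun ε _ hε => dom_osL hΦ hf he' hε hγ (fun τ hτ => (min_le_right _ _).trans (hg τ hτ)) K Kx T' P

/-! ### The independent line alone -/

/-- Runs from the independent line. -/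
theorem gLe_xRun (hΦ : AdmissiblePotential Φ) (hb : 0 < b) (hf : Measurable f₀)
    (H : HasSummableGaussianBound b (fun x v => f₀ (x, v)))
    (h1 : ∫⁻ z, ENNReal.ofReal (f₀ z) ≤ 1) (hg0 : 0 < g0) (hγ : Measurable Q.γ)
    (hg : ∀ τ ∈ Ioc (0 : ℝ) Q.te, g0 ≤ Q.γ τ) (hρ : Q.ρ ≠ ∞) (Kx K₂ : ℕ)
    {t T : ℝ} (hT : 0 ≤ T) (ht : t ≤ T) (hte : Q.te ≤ T) {δ : ℝ≥0∞} (hδ : 0 < δ) :
    ∃ L₀ : ℕ, ∀ L, L₀ ≤ L → GLe (I := Unit) f₀ (fun _ _ => lineM Q.γ Q.ρ Kx Q.te)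
      (fun ε _ _ x w => Run Φ ε t K₂ L (MW.line x) () w) δ := by
  set β : ℝ := min (b / 4) (g0 / 2) with hβ
  have hβ0 : 0 < β := lt_min (by positivity) (by positivity)
  have hβ1 : β ≤ b / 4 := min_le_left _ _
  have hβ2 : β ≤ g0 / 2 := min_le_right _ _
  obtain ⟨env, A, hA, hE⟩ := exists_envB (β := β) (b := b) (by linarith) H
  exact gLe_runX (I := Unit) hΦ hβ0 (by linarith : β < g0) hte hT hA
    K₂ hf h1 hE hγ hg hρ Kx (t := fun _ => t) (fun _ => ht) hδ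

/-- Bad clusters of the independent line. -/
theorem badF_x (hΦ : AdmissiblePotential Φ) (hb : 0 < b) (hf : Measurable f₀)
    (H : HasSummableGaussianBound b (fun x v => f₀ (x, v)))
    (h1 : ∫⁻ z, ENNReal.ofReal (f₀ z) ≤ 1) (hg0 : 0 < g0) (hγ : Measurable Q.γ)
    (hg : ∀ τ ∈ Ioc (0 : ℝ) Q.te, g0 ≤ Q.γ τ) (hρ : Q.ρ ≠ ∞) (Kx : ℕ)
    {T : ℝ} (hT : 0 < T) (C : ℝ) (N : ℕ) :
    BadF (I := Unit) f₀ (fun _ _ => lineM Q.γ Q.ρ Kx Q.te)
      (fun R ς ε _ _ x w => BadGas Φ T C R ς ε N 1 (∅ : Finset Unit) (fun _ => x.1.1)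
        (fun _ => back x.1) w) := by
  set γ : ℝ := min b g0 with hγd
  have hγ0 : 0 < γ := lt_min hb hg0
  obtain ⟨ρ, C₀, he⟩ := exists_env (le_refl b) H
  have he' : Env f₀ γ ρ C₀ := env_anti he (min_le_left _ _)
  exact badF_badX (I := Unit) (classNull hΦ hT) hf h1 he' hγ0 C N hγ
    (fun τ hτ => (min_le_right _ _).trans (hg τ hτ)) hρ Kx

/-- Bad hits of the independent line. -/
theorem gNull_xHit (hΦ : AdmissiblePotential Φ) (hb : 0 < b) (hf : Measurable f₀)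
    (H : HasSummableGaussianBound b (fun x v => f₀ (x, v)))
    (h1 : ∫⁻ z, ENNReal.ofReal (f₀ z) ≤ 1) (hg0 : 0 < g0) (hγ : Measurable Q.γ)
    (hg : ∀ τ ∈ Ioc (0 : ℝ) Q.te, g0 ≤ Q.γ τ) (hρ : Q.ρ ≠ ∞) (Kx : ℕ)
    {T T₁ : ℝ} (hT : 0 ≤ T) (te : ℝ) (hT₁ : 0 ≤ T₁) (C R : ℝ) (N N' : ℕ) :
    GNull (I := Unit) f₀ (fun _ _ => lineM Q.γ Q.ρ Kx Q.te)
      (fun ε _ _ x w => BH167.BadHitGasN (BH167.bpos Φ T₁ te) Φ T C R ε N N' 1 (∅ : Finset Unit)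
        (fun _ => x.1.1) (fun _ => back x.1) w) := by
  set γ : ℝ := min b g0 with hγd
  have hγ0 : 0 < γ := lt_min hb hg0
  obtain ⟨ρ, C₀, he⟩ := exists_env (le_refl b) H
  have he' : Env f₀ γ ρ C₀ := env_anti he (min_le_left _ _)
  exact BH167.gNull_badPosN (I := Unit) (m := fun _ _ => lineM Q.γ Q.ρ Kx Q.te)
    hΦ hT te hT₁ hf h1 he' hγ0 C R N N' (s := 1) le_rfl ∅ (c := ∑' n : ℕ, markW Q.ρ Kx n)
    (sum_markW_ne_top hρ Kx) (lineΛ Q.te) (b := fun _ _ x _ => x.1.1)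
    (z := fun _ _ x _ => back x.1) (fun _ _ => inferInstance) fun ε _ _ =>
      dom_line (fun τ hτ => (min_le_right _ _).trans (hg τ hτ)) hγ Q.ρ Kx ε

/-! ### The gateway -/

/-- **The capped gateway for (tree, test line) and an independent line**, one tree. -/
theorem fNull_os_cap (hΦ : AdmissiblePotential Φ) (hb : 0 < b) (hf : Measurable f₀)
    (H : HasSummableGaussianBound b (fun x v => f₀ (x, v)))
    (h1 : ∫⁻ z, ENNReal.ofReal (f₀ z) ≤ 1) (hg0 : 0 < g0) (hγ : Measurable Q.γ)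
    (hg : ∀ τ ∈ Ioc (0 : ℝ) Q.te, g0 ≤ Q.γ τ) (hρ : Q.ρ ≠ ∞) (K Kx K₂ : ℕ) (P : CTree) (T' : ℝ)
    {t T T₁ : ℝ} (hT : 0 < T) (ht : t ≤ T) (hte : Q.te ≤ T) (hT₁ : 0 ≤ T₁)
    {E : ℝ → (n : ℕ) → (PhasePoint × Par P) × ML → ML → Config n → Prop}
    {HS : ℕ → ℝ → (n : ℕ) → (PhasePoint × Par P) × ML → Config n → Prop}
    {HX : ℕ → ℝ → (n : ℕ) → ML → Config n → Prop}
    {HJ : ℕ → ℝ → (n : ℕ) → ((PhasePoint × Par P) × ML) × ML → Config n → Prop}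
    (hdet : ∀ L : ℕ, ∃ (N : ℕ) (C : ℝ), ∀ R > 0, ∀ ς > 0, ∃ ε₁ : ℝ, 0 < ε₁ ∧ ∀ ε : ℝ, 0 < ε →
      ε < ε₁ → ∀ n θ x (w : Config n), w ∈ PairExcluded ε n → E ε n θ x w →
        (SAlt Φ T T₁ t C R ς ε K₂ L N (Finset.univ.disjSum ∅) (osB P θ) (osZ Φ ε P θ) w ∨
          HS L ε n θ w) ∨
        (XAlt Φ T T₁ t C R ς ε K₂ L N x w ∨ HX L ε n x w) ∨
        (JAlt Φ T C R ς ε N (Finset.univ.disjSum ∅) (osB P θ) (osZ Φ ε P θ) x w ∨
          HJ L ε n (θ, x) w))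
    (hHS : ∀ L, GNull (I := Unit) f₀
      (fun ε _ => osM Φ f₀ ε K Q T' (volume.restrict (Ioc 0 Q.te)) P)
      (fun ε _ n θ w => HS L ε n θ w))
    (hHX : ∀ L, GNull (I := Unit) f₀ (fun _ _ => lineM Q.γ Q.ρ Kx Q.te)
      (fun ε _ n x w => HX L ε n x w))
    (hHJ : ∀ L, GNull (I := Unit) f₀
      (fun ε _ => (osM Φ f₀ ε K Q T' (volume.restrict (Ioc 0 Q.te)) P).prod
        (lineM Q.γ Q.ρ Kx Q.te)) (fun ε _ n p w => HJ L ε n p w)) :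
    FNull f₀ (fun ε (_ : Unit) => osM Φ f₀ ε K Q T' (volume.restrict (Ioc 0 Q.te)) P)
      (fun ε _ n θ w => min 1 (lineM Q.γ Q.ρ Kx Q.te {x | E ε n θ x w})) := by
  obtain ⟨M, hMt, hM⟩ := exists_osM_mass (Φ := Φ) hΦ hf hb H K hγ hρ hg0 hg P T'
  refine fNull_cap_of_det (I := Unit)
    (m := fun ε _ => osM Φ f₀ ε K Q T' (volume.restrict (Ioc 0 Q.te)) P)
    (ν := fun _ _ => lineM Q.γ Q.ρ Kx Q.te) (E := fun ε _ n θ x w => E ε n θ x w)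
    (RS := fun L ε _ _ θ w => RunS Φ ε t K₂ L (osB P θ) (osZ Φ ε P θ) w)
    (HS := fun L ε _ n θ w => HS L ε n θ w)
    (RX := fun L ε _ _ x w => Run Φ ε t K₂ L (MW.line x) () w)
    (HX := fun L ε _ n x w => HX L ε n x w) (HJ := fun L ε _ n p w => HJ L ε n p w) hf
    (fun _ _ => inferInstance) (fun _ _ => inferInstance) hMt (fun ε _ hε => hM ε hε)
    (fun L => ?_) (fun δ hδ => gLe_osRun hΦ hb hf H h1 hg0 hγ hg hρ K K₂ P T' hT.le ht hδ)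
    (fun δ hδ => gLe_xRun hΦ hb hf H h1 hg0 hγ hg hρ Kx K₂ hT.le ht hte hδ) hHS hHX hHJ
  obtain ⟨N, C, hd⟩ := hdet L
  refine ⟨_, _, _, (badF_os hΦ hb hf H h1 hg0 hγ hg hρ K P T' hT C N).or hf
    (BadF.of_gNull (gNull_osHit hΦ hb hf H h1 hg0 hγ hg hρ K P T' hT.le T hT₁ C 1 N N)),
    (badF_x hΦ hb hf H h1 hg0 hγ hg hρ Kx hT C N).or hf
      (BadF.of_gNull (gNull_xHit hΦ hb hf H h1 hg0 hγ hg hρ Kx hT.le T hT₁ C 1 N N)),
    badF_osL hΦ hb hf H h1 hg0 hγ hg hρ K Kx P T' hT C N, fun R hR ς hς => ?_⟩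
  obtain ⟨ε₁, h0, hd⟩ := hd R hR ς hς
  refine ⟨ε₁, h0, fun ε hε hlt _ n θ x w hw hE => ?_⟩
  rcases hd ε hε hlt n θ x w hw hE with (h | h) | (h | h) | (h | h)
  · rcases h with h | h | h
    · exact Or.inl (Or.inl h)
    · exact Or.inl (Or.inr (Or.inl (Or.inl h)))
    · exact Or.inl (Or.inr (Or.inl (Or.inr h)))
  · exact Or.inl (Or.inr (Or.inr h))
  · rcases h with h | h | h
    · exact Or.inr (Or.inl (Or.inl h))
    · exact Or.inr (Or.inl (Or.inr (Or.inl (Or.inl h))))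
    · exact Or.inr (Or.inl (Or.inr (Or.inl (Or.inr h))))
  · exact Or.inr (Or.inl (Or.inr (Or.inr h)))
  · exact Or.inr (Or.inr (Or.inl h))
  · exact Or.inr (Or.inr (Or.inr h))

/-- **The capped gateway for the one-contact structures**, in the form of 984's slots. `HS`: null
structure events, `HX`: null line events, `HJ`: null joint events (a.e. facts). -/
theorem osNull_cap_of_alt (hΦ : AdmissiblePotential Φ) (hb : 0 < b) (hf : Measurable f₀)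
    (H : HasSummableGaussianBound b (fun x v => f₀ (x, v)))
    (h1 : ∫⁻ z, ENNReal.ofReal (f₀ z) ≤ 1) (hg0 : 0 < g0) (hγ : Measurable Q.γ)
    (hg : ∀ τ ∈ Ioc (0 : ℝ) Q.te, g0 ≤ Q.γ τ) (hρ : Q.ρ ≠ ∞) (K Kx K₂ : ℕ) (T' : ℝ)
    {t T T₁ : ℝ} (hT : 0 < T) (ht : t ≤ T) (hte : Q.te ≤ T) (hT₁ : 0 ≤ T₁)
    {lk : ℝ → (P : CTree) → PhasePoint × Par P → (m : ℕ) → Config m → ML → Set ML}
    {HS : ℕ → ℝ → (P : CTree) → PhasePoint × Par P → (m : ℕ) → Config m → ML → Prop}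
    {HX : ℕ → ℝ → (m : ℕ) → ML → Config m → Prop}
    {HJ : ℕ → ℝ → (P : CTree) → PhasePoint × Par P → (m : ℕ) → Config m → ML → ML → Prop}
    (hdet : ∀ P : CTree, P.leaves ≤ K → ∀ L : ℕ, ∃ (N : ℕ) (C : ℝ), ∀ R > 0, ∀ ς > 0,
      ∃ ε₁ : ℝ, 0 < ε₁ ∧ ∀ ε : ℝ, 0 < ε → ε < ε₁ → ∀ (z : PhasePoint × Par P) (m : ℕ)
        (w : Config m) (l x : ML), Gd4 Φ ε K Q T' P z w l → x ∈ lk ε P z m w l →
        (SAlt Φ T T₁ t C R ς ε K₂ L N (Finset.univ.disjSum ∅) (osB P (z, l))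
          (osZ Φ ε P (z, l)) w ∨ HS L ε P z m w l) ∨
        (XAlt Φ T T₁ t C R ς ε K₂ L N x w ∨ HX L ε m x w) ∨
        (JAlt Φ T C R ς ε N (Finset.univ.disjSum ∅) (osB P (z, l)) (osZ Φ ε P (z, l)) x w ∨
          HJ L ε P z m w l x))
    (hHS : ∀ L, ∀ P : CTree, P.leaves ≤ K → GNull (I := Unit) f₀
      (fun ε _ => osM Φ f₀ ε K Q T' (volume.restrict (Ioc 0 Q.te)) P)
      (fun ε _ n θ w => Gd4 Φ ε K Q T' P θ.1 w θ.2 ∧ HS L ε P θ.1 n w θ.2))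
    (hHX : ∀ L, GNull (I := Unit) f₀ (fun _ _ => lineM Q.γ Q.ρ Kx Q.te)
      (fun ε _ n x w => HX L ε n x w))
    (hHJ : ∀ L, ∀ P : CTree, P.leaves ≤ K → GNull (I := Unit) f₀
      (fun ε _ => (osM Φ f₀ ε K Q T' (volume.restrict (Ioc 0 Q.te)) P).prod
        (lineM Q.γ Q.ρ Kx Q.te)) (fun ε _ n p w => Gd4 Φ ε K Q T' P p.1.1 w p.1.2 ∧
          HJ L ε P p.1.1 n w p.1.2 p.2)) :
    OSNull Φ f₀ K Q T' (fun ε P z m w l =>
      min 1 (lineM Q.γ Q.ρ Kx Q.te (lk ε P z m w l))) := by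
  have key : OSNull Φ f₀ K Q T' (fun ε P z m w l =>
      min 1 (lineM Q.γ Q.ρ Kx Q.te {x | Gd4 Φ ε K Q T' P z w l ∧ x ∈ lk ε P z m w l})) := by
    refine osNull_of_fNull hΦ hf hγ K T' (F := fun ε P z m w l =>
      min 1 (lineM Q.γ Q.ρ Kx Q.te {x | Gd4 Φ ε K Q T' P z w l ∧ x ∈ lk ε P z m w l}))
      fun P hP => ?_
    refine fNull_os_cap (E := fun ε n θ x w => Gd4 Φ ε K Q T' P θ.1 w θ.2 ∧
        x ∈ lk ε P θ.1 n w θ.2)
      (HS := fun L ε n θ w => Gd4 Φ ε K Q T' P θ.1 w θ.2 ∧ HS L ε P θ.1 n w θ.2)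
      (HX := fun L ε n x w => HX L ε n x w)
      (HJ := fun L ε n p w => Gd4 Φ ε K Q T' P p.1.1 w p.1.2 ∧ HJ L ε P p.1.1 n w p.1.2 p.2)
      hΦ hb hf H h1 hg0 hγ hg hρ K Kx K₂ P T' hT ht hte hT₁ (fun L => ?_)
      (fun L => hHS L P hP) hHX (fun L => hHJ L P hP)
    obtain ⟨N, C, hd⟩ := hdet P hP L
    refine ⟨N, C, fun R hR ς hς => ?_⟩
    obtain ⟨ε₁, h0, hd⟩ := hd R hR ς hς
    refine ⟨ε₁, h0, fun ε hε hlt n θ x w _ hE => ?_⟩
    rcases hd ε hε hlt θ.1 n w θ.2 x hE.1 hE.2 with (h | h) | h | (h | h)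
    · exact Or.inl (Or.inl h)
    · exact Or.inl (Or.inr ⟨hE.1, h⟩)
    · exact Or.inr (Or.inl h)
    · exact Or.inr (Or.inr (Or.inl h))
    · exact Or.inr (Or.inr (Or.inr ⟨hE.1, h⟩))
  refine key.congr fun ε _ P z m w l hG => ?_
  refine min_le_min le_rfl (measure_mono fun x hx => ⟨hG, hx⟩)

end gate

end Crest.Agent.R122.GateOS434

end
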