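import Crest.Agent.R122.OSTree_434
import Crest.Agent.R122.LinkSel_984
import Crest.Agent.R122.GateCap_973

/-!
# Outputs of the gateways as null functionals of contact structures (row 122, H1)

* `exists_osM_mass` : the mass of `osM` is bounded, uniformly in `ε`.
* `osNull_zw`, `osNull_zw_of_gNull` : functionals / events of `(z, w)` only, null over 522's `treeQ`.
* `CapDet`, `osNull_cap` : capped measures of independent lines (973's `fNull_cap_of_det`).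
* `osNull_one_cap` : `if A then 1 else min 1 (lineM ..)`.
-/

set_option autoImplicit false
set_option linter.unusedSectionVars false

open MeasureTheory Set Filter Topology
open scoped ENNReal Classical
open Crest.AnalysisR.Kinetic
open Crest.Agent.R122.Kin796 Crest.Agent.R122.Kin796.CTree Crest.Agent.R122.Tree674
open Crest.Agent.R122.GC311 Crest.Agent.R122.EDefs602 Crest.Agent.R122.OneC285
open Crest.Agent.R122.Gate424 Crest.Agent.R122.Gate973 Crest.Agent.R122.OSMeas984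
open Crest.Agent.R122.OneC423 Crest.Agent.R122.GateT522 Crest.Agent.R122.InEq2
open Crest.Agent.R122.LinkAsm984 Crest.Agent.R122.GateOS434

noncomputable section

namespace Crest.Agent.R122.GateOS434

variable {Φ : Space3 → ℝ} {f₀ : PhasePoint → ℝ} {Q : EPar} {T' : ℝ}

/-- **The mass of the contact structures is bounded.** -/
theorem exists_osM_mass (hΦ : AdmissiblePotential Φ) (hf : Measurable f₀) {b : ℝ} (hb : 0 < b)
    (H : HasSummableGaussianBound b (fun x v => f₀ (x, v))) (K : ℕ)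
    (hγm : Measurable Q.γ) (hρ : Q.ρ ≠ ∞) {g : ℝ} (hg0 : 0 < g)
    (hg : ∀ τ ∈ Ioc 0 Q.te, g ≤ Q.γ τ) (P : CTree) (T' : ℝ) :
    ∃ M : ℝ≥0∞, M ≠ ∞ ∧ ∀ ε : ℝ, 0 < ε →
      osM Φ f₀ ε K Q T' (volume.restrict (Ioc 0 Q.te)) P univ ≤ M := by
  obtain ⟨M, hM, h⟩ := exists_moment_expW hΦ hf H hb P T'
  set A : ℝ≥0∞ := ENNReal.ofReal (Q.te ^ 2) * ((∑' n : ℕ, markW Q.ρ K n) * kL g) with hA
  have hmk : ∑' n : ℕ, markW Q.ρ K n ≠ ∞ := Third741.tsum_markW_ne_top hρ K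
  have hAt : A ≠ ∞ := ENNReal.mul_ne_top ENNReal.ofReal_ne_top
    (ENNReal.mul_ne_top hmk (kL_ne_top hg0))
  refine ⟨A * (2 * M), ENNReal.mul_ne_top hAt (ENNReal.mul_ne_top (by norm_num) hM),
    fun ε hε => ?_⟩
  have h1 := osM_fst_le (Φ := Φ) (f₀ := f₀) (T' := T') (P := P) (G := fun _ => 1) hΦ hε K hγm hρ hg
    measurable_const
  rw [lintegral_one] at h1
  refine h1.trans (mul_le_mul' le_rfl ?_)
  have h2 := h ε T' hε le_rfl
  have e0 : ∫⁻ z, LN2.expW 0 (linesM Φ ε P z.1 z.2) ∂(treeQ Φ f₀ ε P T') =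
      ∫⁻ z, wQ Φ ε P z * 1 ∂(LN2.treeM Φ f₀ ε P T') := by
    rw [← lintegral_treeQ hΦ P T' measurable_const]
    refine lintegral_congr fun z => ?_
    unfold LN2.expW
    simp
  have hm1 : Measurable fun z : PhasePoint × Par P => ENNReal.ofReal (1 + ‖z.1.2‖) * 1 :=
    (((measurable_fst.snd.norm).const_add 1).ennreal_ofReal).mul measurable_const
  have hm3 : Measurable fun z : PhasePoint × Par P => wQ Φ ε P z * 1 :=
    (measurable_wQ hΦ P).mul measurable_const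
  have hm2 : Measurable fun z : PhasePoint × Par P => 2 * (wQ Φ ε P z * 1) := hm3.const_mul 2
  have h3 : ∫⁻ z, ENNReal.ofReal (1 + ‖z.1.2‖) * 1 ∂(LN2.treeM Φ f₀ ε P T') ≤
      ∫⁻ z, 2 * (wQ Φ ε P z * 1) ∂(LN2.treeM Φ f₀ ε P T') := by
    rw [LN2.lintegral_treeM hΦ hf ε P T' hm1, LN2.lintegral_treeM hΦ hf ε P T' hm2]
    refine lintegral_mono fun z => ?_
    by_cases hz : z ∈ {z : PhasePoint × Par P | Valid Φ ε P T' z.1.2 z.2}
    · rw [indicator_of_mem hz, indicator_of_mem hz]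
      refine mul_le_mul' le_rfl (mul_le_mul' le_rfl ?_)
      rw [mul_one, mul_one]
      exact one_add_root_le hΦ ε hz.1
    · rw [indicator_of_notMem hz, indicator_of_notMem hz]
  refine h3.trans ?_
  rw [lintegral_const_mul _ hm3, ← e0]
  exact mul_le_mul' le_rfl h2

/-- **Functionals of `(z, w)` only.** -/
theorem osNull_zw (hΦ : AdmissiblePotential Φ) (hf : Measurable f₀) (hγm : Measurable Q.γ)
    (hρ : Q.ρ ≠ ∞) {g : ℝ} (hg0 : 0 < g) (hg : ∀ τ ∈ Ioc 0 Q.te, g ≤ Q.γ τ) (K : ℕ) (T' : ℝ)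
    {F : ℝ → (P : CTree) → PhasePoint × Par P → (n : ℕ) → Config n → ℝ≥0∞}
    (h : ∀ P : CTree, P.leaves ≤ K → FNull f₀ (fun ε (_ : Unit) => treeQ Φ f₀ ε P T')
      (fun ε _ n z w => F ε P z n w)) :
    OSNull Φ f₀ K Q T' (fun ε P z m w _ => F ε P z m w) :=
  osNull_of_fNull hΦ hf hγm K T' (F := fun ε P z m w _ => F ε P z m w) fun P hP =>
    fNull_os_of_tree hΦ hf K hγm hρ hg0 hg (h P hP)

/-- **Events of `(z, w)` only.** -/
theorem osNull_zw_of_gNull (hΦ : AdmissiblePotential Φ) (hf : Measurable f₀)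
    (hγm : Measurable Q.γ) (hρ : Q.ρ ≠ ∞) {g : ℝ} (hg0 : 0 < g)
    (hg : ∀ τ ∈ Ioc 0 Q.te, g ≤ Q.γ τ) (K : ℕ) (T' : ℝ)
    {E : ℝ → (P : CTree) → PhasePoint × Par P → (n : ℕ) → Config n → Prop}
    (h : ∀ P : CTree, P.leaves ≤ K → GNull f₀ (fun ε (_ : Unit) => treeQ Φ f₀ ε P T')
      (fun ε _ n z w => E ε P z n w)) :
    OSNull Φ f₀ K Q T' (fun ε P z m w _ => if E ε P z m w then 1 else 0) :=
  osNull_zw hΦ hf hγm hρ hg0 hg K T' (F := fun ε P z m w => if E ε P z m w then 1 else 0)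
    fun P hP => FNull.ofE (h P hP)

/-- The hypotheses of the capped gateway (973's `fNull_cap_of_det`) for a structure `m` and an
independent variable `ν` (one index). -/
structure CapDet {Θ X : Type} [MeasurableSpace Θ] [MeasurableSpace X] (f₀ : PhasePoint → ℝ)
    (m : ℝ → Measure Θ) (ν : ℝ → Measure X) (E : ℝ → (n : ℕ) → Θ → X → Config n → Prop)
    (RS HS : ℕ → ℝ → (n : ℕ) → Θ → Config n → Prop)
    (RX HX : ℕ → ℝ → (n : ℕ) → X → Config n → Prop)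
    (HJ : ℕ → ℝ → (n : ℕ) → Θ × X → Config n → Prop) : Prop where
  det : ∀ L : ℕ, ∃ (BS : ℝ → ℝ → ℝ → Unit → (n : ℕ) → Θ → Config n → Prop)
    (BX : ℝ → ℝ → ℝ → Unit → (n : ℕ) → X → Config n → Prop)
    (BJ : ℝ → ℝ → ℝ → Unit → (n : ℕ) → Θ × X → Config n → Prop),
    BadF f₀ (fun ε _ => m ε) BS ∧ BadF f₀ (fun ε _ => ν ε) BX ∧
    BadF f₀ (fun ε _ => (m ε).prod (ν ε)) BJ ∧
    ∀ R > 0, ∀ ς > 0, ∃ ε₁ : ℝ, 0 < ε₁ ∧ ∀ ε : ℝ, 0 < ε → ε < ε₁ →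
      ∀ n θ x (w : Config n), w ∈ PairExcluded ε n → E ε n θ x w →
      (RS L ε n θ w ∨ BS R ς ε () n θ w ∨ HS L ε n θ w) ∨
      (RX L ε n x w ∨ BX R ς ε () n x w ∨ HX L ε n x w) ∨
      (BJ R ς ε () n (θ, x) w ∨ HJ L ε n (θ, x) w)
  runS : ∀ δ : ℝ≥0∞, 0 < δ → ∃ L₀ : ℕ, ∀ L, L₀ ≤ L →
    GLe f₀ (fun ε (_ : Unit) => m ε) (fun ε _ => RS L ε) δ
  runX : ∀ δ : ℝ≥0∞, 0 < δ → ∃ L₀ : ℕ, ∀ L, L₀ ≤ L →
    GLe f₀ (fun ε (_ : Unit) => ν ε) (fun ε _ => RX L ε) δ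
  hitS : ∀ L, GNull f₀ (fun ε (_ : Unit) => m ε) (fun ε _ => HS L ε)
  hitX : ∀ L, GNull f₀ (fun ε (_ : Unit) => ν ε) (fun ε _ => HX L ε)
  hitJ : ∀ L, GNull f₀ (fun ε (_ : Unit) => (m ε).prod (ν ε)) (fun ε _ => HJ L ε)

theorem CapDet.fNull {Θ X : Type} [MeasurableSpace Θ] [MeasurableSpace X]
    {m : ℝ → Measure Θ} {ν : ℝ → Measure X} {E : ℝ → (n : ℕ) → Θ → X → Config n → Prop}
    {RS HS : ℕ → ℝ → (n : ℕ) → Θ → Config n → Prop}
    {RX HX : ℕ → ℝ → (n : ℕ) → X → Config n → Prop}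
    {HJ : ℕ → ℝ → (n : ℕ) → Θ × X → Config n → Prop}
    (h : CapDet f₀ m ν E RS HS RX HX HJ) (hf : Measurable f₀) (hm : ∀ ε, SFinite (m ε))
    (hν : ∀ ε, SFinite (ν ε)) {M : ℝ≥0∞} (hMt : M ≠ ∞) (hM : ∀ ε, 0 < ε → m ε univ ≤ M) :
    FNull f₀ (fun ε (_ : Unit) => m ε) (fun ε _ n θ w => min 1 ((ν ε) {x | E ε n θ x w})) := by
  refine fNull_cap_of_det (I := Unit) (m := fun ε _ => m ε) (ν := fun ε _ => ν ε)
    (E := fun ε _ => E ε) (RS := fun L ε _ => RS L ε) (HS := fun L ε _ => HS L ε)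
    (RX := fun L ε _ => RX L ε) (HX := fun L ε _ => HX L ε) (HJ := fun L ε _ => HJ L ε) hf
    (fun ε _ => hm ε) (fun ε _ => hν ε) hMt (fun ε _ hε => hM ε hε) (fun L => ?_) h.runS h.runX
    h.hitS h.hitX h.hitJ
  obtain ⟨BS, BX, BJ, h1, h2, h3, h4⟩ := h.det L
  refine ⟨BS, BX, BJ, h1, h2, h3, fun R hR ς hς => ?_⟩
  obtain ⟨ε₁, h5, h6⟩ := h4 R hR ς hς
  exact ⟨ε₁, h5, fun ε hε hlt _ n θ x w hw hE => h6 ε hε hlt n θ x w hw hE⟩

/-- **Capped measure of bad independent lines.** -/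
theorem osNull_cap (hΦ : AdmissiblePotential Φ) (hf : Measurable f₀) {b : ℝ} (hb : 0 < b)
    (H : HasSummableGaussianBound b (fun x v => f₀ (x, v))) (hγm : Measurable Q.γ)
    (hρ : Q.ρ ≠ ∞) {g : ℝ} (hg0 : 0 < g) (hg : ∀ τ ∈ Ioc 0 Q.te, g ≤ Q.γ τ) (K Kx : ℕ) (T' tx : ℝ)
    {E : ℝ → (P : CTree) → PhasePoint × Par P → (n : ℕ) → Config n → ML → ML → Prop}
    {RS HS : (P : CTree) → ℕ → ℝ → (n : ℕ) → (PhasePoint × Par P) × ML → Config n → Prop}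
    {RX HX : (P : CTree) → ℕ → ℝ → (n : ℕ) → ML → Config n → Prop}
    {HJ : (P : CTree) → ℕ → ℝ → (n : ℕ) → ((PhasePoint × Par P) × ML) × ML → Config n → Prop}
    (h : ∀ P : CTree, P.leaves ≤ K →
      CapDet f₀ (fun ε => osM Φ f₀ ε K Q T' (volume.restrict (Ioc 0 Q.te)) P)
        (fun _ => lineM Q.γ Q.ρ Kx tx) (fun ε n θ x w => E ε P θ.1 n w θ.2 x)
        (RS P) (HS P) (RX P) (HX P) (HJ P)) :
    OSNull Φ f₀ K Q T' (fun ε P z m w l =>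
      min 1 (lineM Q.γ Q.ρ Kx tx {x | E ε P z m w l x})) := by
  refine osNull_of_fNull hΦ hf hγm K T' (F := fun ε P z m w l =>
      min 1 (lineM Q.γ Q.ρ Kx tx {x | E ε P z m w l x})) fun P hP => ?_
  obtain ⟨M, hMt, hM⟩ := exists_osM_mass (Φ := Φ) hΦ hf hb H K hγm hρ hg0 hg P T'
  exact (h P hP).fNull hf (fun _ => inferInstance) (fun _ => inferInstance) hMt hM

end Crest.Agent.R122.GateOS434

end
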