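import Crest.Agent.R122.VLClass2_973

/-!
# Row 122, H11/F3 (helper973): LN2 in class form, sequence form with an obstacle

`class_null_seq` : from `VC` and `VL`; along `ε_k → 0`, births `b_k → b`, tubes `S_k → S` generic,
`R_k → ∞`, `ς_k → 0`: the measurable majorant `badQ` of the bad partitions has mass
`o (ε_k ^ (2 (m - s)))`.
-/

set_option autoImplicit false
set_option linter.unusedSectionVars false

open MeasureTheory Set Filter Topology
open Crest.AnalysisR.Kinetic
open Crest.Agent.R122.Ins45 Crest.Agent.R122.GIV566 Crest.Agent.R122.VL581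
open scoped Classical ENNReal NNReal

noncomputable section

namespace Crest.Agent.R122.VLMeas973

variable {J κ : Type} [Fintype J]

/-- The obstacle label of a pulled back system. -/
def pullO {J' : Type} (o : Option J) (e : J' ↪ J) : Option J' :=
  if h : ∃ j, o = some (e j) then some h.choose else none

theorem pull_o_eq {J' : Type} [Fintype J'] (M : VSys J κ) (e : J' ↪ J) :
    (pull M e).o = pullO M.o e := by
  unfold pull pullO
  by_cases h : ∃ j, M.o = some (e j)
  · simp only [dif_pos h]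
  · simp only [dif_neg h]

/-- Masses of the parts which are not tree-like from `VL`, along a sequence. -/
theorem tendsto_dP {Φ : Space3 → ℝ} (hVL : VL Φ) [Fintype κ] {β T C : ℝ} (hβ : 0 < β) (hT : 0 < T)
    {M : ℕ → VSys J κ} {o : Option J} {b : J → ℝ} {S : Tubes κ} {R ς : ℕ → ℝ}
    (hM : ∀ k, (M k).Φ = Φ ∧ (M k).T = T ∧ (M k).o = o ∧ 0 < (M k).ε)
    (hε : Tendsto (fun k => (M k).ε) atTop (𝓝 0))
    (hb : ∀ i, Tendsto (fun k => (M k).b i) atTop (𝓝 (b i)))
    (hconv : TubeConv T (fun k => (M k).S) S) (hgen : Generic T S)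
    (hR : Tendsto R atTop atTop) (hς : Tendsto ς atTop (𝓝 0))
    (A : Finset J) {ρ : Space3 → ℝ≥0∞} (hρ : Measurable ρ) (hρf : ∫⁻ x, ρ x < ∞) (P : Finset J) :
    ∃ η : ℕ → ℝ≥0∞, Tendsto η atTop (𝓝 0) ∧ ∀ᶠ k in atTop,
      dP (M k) C (R k * (M k).ε) (ς k) β ρ A P ≤
        η k * ENNReal.ofReal ((M k).ε ^ 2) ^ (P.card - 1) := by
  by_cases h : ∃ x : P, x.1 ∈ A
  · have hR' : Tendsto (fun k => R k / 2) atTop atTop := hR.atTop_div_const two_pos
    have key := hVL P κ β T C hβ hT (fun k => pull (M k) (sub P)) (pullO o (sub P))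
      (fun j => b (sub P j)) S (fun k => R k / 2) ς (rt o A P h)
      (fun k => ⟨(hM k).1, (hM k).2.1, by rw [pull_o_eq, (hM k).2.2.1], (hM k).2.2.2⟩) hε
      (fun j => hb _) hconv hgen hR' hς (fun j hj => by
        refine rt_obs h j ?_
        have h2 := (pull_o (M 0) (sub P) j).1
        rw [pull_o_eq, (hM 0).2.2.1] at h2
        exact h2 hj) ρ hρ hρf
    refine ⟨_, key, ?_⟩
    filter_upwards [hR.eventually_gt_atTop 0] with k hk
    have hεk := (hM k).2.2.2
    have h1 : wP β ρ (M k).o A P = wgt β ρ (rt o A P h) := by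
      funext z
      unfold wP
      rw [dif_pos h, (hM k).2.2.1]
    have hx0 : ENNReal.ofReal ((M k).ε ^ (2 * (Fintype.card P - 1))) ≠ 0 := by
      rw [Ne, ENNReal.ofReal_eq_zero, not_le]
      positivity
    unfold dP
    rw [h1, ← ofReal_pow_two_mul]
    rw [show P.card = Fintype.card P from (Fintype.card_coe P).symm]
    have h5 : ∀ I : ℝ≥0∞, ((ENNReal.ofReal ((M k).ε ^ (2 * (Fintype.card P - 1))))⁻¹ * I) *
        ENNReal.ofReal ((M k).ε ^ (2 * (Fintype.card P - 1))) = I := fun I => by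
      rw [mul_right_comm, ENNReal.inv_mul_cancel hx0 ENNReal.ofReal_ne_top, one_mul]
    refine le_trans ?_ (le_of_eq (h5 _).symm)
    refine lintegral_mono fun z => ?_
    refine indicator_le_indicator_of_subset (fun z hz => ?_) (fun _ => bot_le) z
    refine ⟨hz.1, fun h2 => hz.2 ?_⟩
    refine tlq_of_treeLike ?_ h2
    exact mul_lt_mul_of_pos_right (by linarith) hεk
  · refine ⟨fun _ => 0, tendsto_const_nhds, Eventually.of_forall fun k => ?_⟩
    unfold dP
    have h1 : wP β ρ (M k).o A P = fun _ => 0 := by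
      funext z
      unfold wP
      rw [dif_neg h]
    rw [h1]
    simp

/-- **LN2 in class form, sequence form with an obstacle.** -/
theorem class_null_seq {Φ : Space3 → ℝ} (hΦ : AdmissiblePotential Φ) (hVC : VC Φ) (hVL : VL Φ)
    [Fintype κ] {β T C : ℝ} (hβ : 0 < β) (hT : 0 < T)
    {M : ℕ → VSys J κ} {o : Option J} {b : J → ℝ} {S : Tubes κ} {R ς : ℕ → ℝ}
    (hM : ∀ k, (M k).Φ = Φ ∧ (M k).T = T ∧ (M k).o = o ∧ 0 < (M k).ε)
    (hε : Tendsto (fun k => (M k).ε) atTop (𝓝 0))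
    (hb : ∀ i, Tendsto (fun k => (M k).b i) atTop (𝓝 (b i)))
    (hconv : TubeConv T (fun k => (M k).S) S) (hgen : Generic T S)
    (hR : Tendsto R atTop atTop) (hς : Tendsto ς atTop (𝓝 0)) {s : ℕ} (hs : s ≤ Fintype.card J)
    {A : Finset J} (ho : ∀ j, o = some j → j ∈ A)
    {ρ : Space3 → ℝ≥0∞} (hρ : Measurable ρ) (hρ1 : ∀ x, ρ x ≤ 1) (hρf : ∫⁻ x, ρ x < ∞) :
    (∀ᶠ k in atTop, Good (M k)) ∧
    Tendsto (fun k => (ENNReal.ofReal ((M k).ε ^ 2) ^ (Fintype.card J - s))⁻¹ *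
      ∫⁻ Z, (badQ (M k) C (R k * (M k).ε) (ς k) s A).indicator (wA β ρ A) Z) atTop (𝓝 0) := by
  obtain ⟨L, hL, -⟩ := hconv.lip
  have hgood : ∀ᶠ k in atTop, Good (M k) := by
    filter_upwards [hL] with k hk
    refine ⟨by rw [(hM k).1]; exact hΦ, (hM k).2.2.2, by rw [(hM k).2.1]; exact hT.le, fun i => ?_⟩
    rw [(hM k).2.1]
    exact (hk i).continuousOn
  refine ⟨hgood, ?_⟩
  obtain ⟨K, hK⟩ := exists_aP_bound (J := J) (κ := κ) (C := C) (T := T) hVC hβ L
  choose η hη hηle using fun P : Finset J => tendsto_dP (C := C) hVL hβ hT hM hε hb hconv hgen hR hς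
    A hρ hρf P
  set B : ℝ≥0∞ := K * ∫⁻ x, ρ x with hB
  have hBf : B ≠ ∞ := ENNReal.mul_ne_top ENNReal.coe_ne_top hρf.ne
  set N : ℝ≥0∞ := (Fintype.card (Finpartition (Finset.univ : Finset J)) : ℝ≥0∞) with hN
  have hcf : N * (B + 1) ^ Fintype.card J ≠ ∞ :=
    ENNReal.mul_ne_top (ENNReal.natCast_ne_top _)
      (ENNReal.pow_ne_top (ENNReal.add_ne_top.2 ⟨hBf, ENNReal.one_ne_top⟩))
  have hx : Tendsto (fun k => ENNReal.ofReal ((M k).ε ^ 2)) atTop (𝓝 0) := by
    have h : Continuous fun ε : ℝ => ENNReal.ofReal (ε ^ 2) :=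
      ENNReal.continuous_ofReal.comp (continuous_pow 2)
    have h2 : Tendsto (fun k => ENNReal.ofReal ((M k).ε ^ 2)) atTop
        (𝓝 (ENNReal.ofReal ((0 : ℝ) ^ 2))) := (h.tendsto 0).comp hε
    simpa using h2
  have hsum : Tendsto (fun k => ∑ P, η P k) atTop (𝓝 0) := by
    have := tendsto_finsetSum Finset.univ fun P _ => hη P
    simpa using this
  have hlim : Tendsto (fun k => N * (B + 1) ^ Fintype.card J *
      (ENNReal.ofReal ((M k).ε ^ 2) + Fintype.card J * ∑ P, η P k)) atTop (𝓝 0) := by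
    have h1 := ENNReal.Tendsto.const_mul (a := (Fintype.card J : ℝ≥0∞)) hsum
      (Or.inr (ENNReal.natCast_ne_top _))
    have h2 := ENNReal.Tendsto.const_mul (a := N * (B + 1) ^ Fintype.card J) (hx.add h1)
      (Or.inr hcf)
    simpa using h2
  refine tendsto_of_tendsto_of_tendsto_of_le_of_le' tendsto_const_nhds hlim
    (Eventually.of_forall fun _ => bot_le) ?_
  filter_upwards [hgood, hL, eventually_all.2 hηle,
    hx.eventually_le_const (zero_lt_one' ℝ≥0∞),
    hε.eventually_le_const (zero_lt_one' ℝ)] with k hg hLk hηk hxk hεk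
  have hpos := (hM k).2.2.2
  have h3 := lintegral_badQ_le' (M := M k) hg (C := C) (ℓ := R k * (M k).ε) (ς := ς k) hs (A := A)
    (β := β) hρ hρ1 (fun j hj => ho j ((hM k).2.2.1 ▸ hj)) (x := ENNReal.ofReal ((M k).ε ^ 2))
    (B := B) (η := ∑ P, η P k) hxk
    (fun P => hK (M k) (hM k).1 (hM k).2.1 hpos hεk hLk A ρ hρ P)
    (fun P => (hηk P).trans (by
      gcongr
      exact Finset.single_le_sum (f := fun P => η P k) (fun _ _ => bot_le) (Finset.mem_univ P)))
  have hx0 : ENNReal.ofReal ((M k).ε ^ 2) ^ (Fintype.card J - s) ≠ 0 := by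
    refine pow_ne_zero _ ?_
    rw [Ne, ENNReal.ofReal_eq_zero, not_le]
    positivity
  have hxT : ENNReal.ofReal ((M k).ε ^ 2) ^ (Fintype.card J - s) ≠ ∞ :=
    ENNReal.pow_ne_top ENNReal.ofReal_ne_top
  calc _ ≤ (ENNReal.ofReal ((M k).ε ^ 2) ^ (Fintype.card J - s))⁻¹ *
        ((N * (B + 1) ^ Fintype.card J * (ENNReal.ofReal ((M k).ε ^ 2) +
          Fintype.card J * ∑ P, η P k)) *
          ENNReal.ofReal ((M k).ε ^ 2) ^ (Fintype.card J - s)) := by gcongr
    _ = (N * (B + 1) ^ Fintype.card J * (ENNReal.ofReal ((M k).ε ^ 2) +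
          Fintype.card J * ∑ P, η P k)) * ((ENNReal.ofReal ((M k).ε ^ 2) ^ (Fintype.card J - s))⁻¹ *
          ENNReal.ofReal ((M k).ε ^ 2) ^ (Fintype.card J - s)) := by ring
    _ = _ := by rw [ENNReal.inv_mul_cancel hx0 hxT, mul_one]

end Crest.Agent.R122.VLMeas973
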