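import Crest.Agent.R122.F3Fin_370
import Crest.Agent.R122.VLClassSeq_973
import Crest.Agent.R122.LN2Inst_473

/-!
# Gas level of `ObNull`: one loop through the obstacle (row 122, helper317)

* `obs` : virtual system of `k` gas particles, the particles of a tree and the obstacle (last label);
* `conn_congr_obs`, `treeLike_congr_obs` : the velocity coordinate of the obstacle is a dummy;
* `ObBad` : some `Y ⊆ w` with at most `N` particles, together with the tree and the obstacle, is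
  connected and not tree-like;
* `ob_gas` : the mass of `ObBad` (`activity * ∫ dx`) tends to zero along converging generic sequences
  of tube families.
-/

set_option autoImplicit false
set_option linter.unusedSectionVars false

open MeasureTheory Set Filter
open scoped Classical ENNReal NNReal Topology
open Crest.AnalysisR.Kinetic

noncomputable section

namespace Crest.Agent.R122.ObGas317

open GC311 Flow671 Causal291 GIV566 Kin796 Kin796.CTree Tree674 VL581 VLMeas973 LN2 ToTree335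
  EDefs602 LinkGas473

/-! ### The dummy velocity of the obstacle -/

section dummy

variable {J κ : Type} [Fintype J] {M : VSys J κ} {Z Z' : J → PhasePoint}

/-- The configurations agree up to the velocity of the obstacle. -/
def AgO (M : VSys J κ) (Z Z' : J → PhasePoint) : Prop :=
  (∀ j, M.o ≠ some j → Z j = Z' j) ∧ ∀ j, (Z j).1 = (Z' j).1

theorem AgO.symm (h : AgO M Z Z') : AgO M Z' Z := ⟨fun j hj => (h.1 j hj).symm, fun j => (h.2 j).symm⟩

theorem st_congr (h : AgO M Z Z') (A : Finset J) (t : ℝ) {i : J} (hi : M.o ≠ some i) :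
    M.st A t Z i = M.st A t Z' i := by
  unfold VSys.st
  have hm : ∀ j : M.mem A t, Z j = Z' j := fun j => by
    have := j.2
    unfold VSys.mem at this
    rw [Finset.mem_filter] at this
    exact h.1 j this.2.1
  have hfun : (fun j : M.mem A t => ((Z j).1 - (Z j).2, (Z j).2)) =
      fun j : M.mem A t => ((Z' j).1 - (Z' j).2, (Z' j).2) := by
    funext j
    rw [hm j]
  rw [hfun, h.1 i hi]

theorem ok_congr (h : AgO M Z Z') (A : Finset J) (t : ℝ) : M.ok A t Z ↔ M.ok A t Z' := by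
  unfold VSys.ok
  refine forall₃_congr fun i _ hi => forall₄_congr fun _ j _ hj => ?_
  rw [st_congr h A _ hi, st_congr h A _ hj]

theorem pos_congr (h : AgO M Z Z') (A : Finset J) (k : κ) (t : ℝ) (i : J) :
    M.pos A k t Z i = M.pos A k t Z' i := by
  unfold VSys.pos
  by_cases hi : M.o = some i
  · rw [if_pos hi, if_pos hi, h.2 i]
  · rw [if_neg hi, if_neg hi, st_congr h A t hi]

theorem ct_congr (h : AgO M Z Z') (C : ℝ) (A : Finset J) (k : κ) (i : J) (B : Finset J) (l : κ)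
    (j : J) (t : ℝ) : M.Ct C A k i B l j t Z ↔ M.Ct C A k i B l j t Z' := by
  unfold VSys.Ct
  rw [ok_congr h, ok_congr h, pos_congr h, pos_congr h]

theorem vct_congr (h : AgO M Z Z') (C : ℝ) (P : Finset J) (i j : J) (t : ℝ) :
    M.VCt C P i j t Z ↔ M.VCt C P i j t Z' := by
  unfold VSys.VCt
  simp only [ct_congr h]

theorem conn_congr (h : AgO M Z Z') (C : ℝ) (P : Finset J) : M.Conn C P Z ↔ M.Conn C P Z' := by
  unfold VSys.Conn
  simp only [vct_congr h]

theorem treeLike_congr (h : AgO M Z Z') (C ℓ ς : ℝ) (P : Finset J) :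
    M.TreeLike C ℓ ς P Z ↔ M.TreeLike C ℓ ς P Z' := by
  unfold VSys.TreeLike
  simp only [vct_congr h, ok_congr h]

/-- Connected and not tree-like: a bad partition with one part. -/
theorem badPart_of [Nonempty J] {C ℓ ς : ℝ} (h1 : M.Conn C Finset.univ Z)
    (h2 : ¬ M.TreeLike C ℓ ς Finset.univ Z) : M.BadPart C ℓ ς 1 Finset.univ Z := by
  have hne : (Finset.univ : Finset J) ≠ ⊥ := Finset.univ_nonempty.ne_empty
  refine ⟨Finpartition.indiscrete hne, ?_, Or.inr ⟨?_, ?_⟩⟩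
  · intro P hP
    rw [Finpartition.indiscrete_parts, Finset.mem_singleton] at hP
    subst hP
    obtain ⟨x⟩ := ‹Nonempty J›
    exact ⟨h1, x, Finset.mem_univ x, Finset.mem_univ x⟩
  · rw [Finpartition.indiscrete_parts, Finset.card_singleton]
  · refine ⟨Finset.univ, ?_, ?_⟩
    · rw [Finpartition.indiscrete_parts, Finset.mem_singleton]
    · rw [tlp_univ]
      exact h2

end dummy

/-! ### The system with the obstacle -/

/-- `k` gas particles, the particles of a tree, and the obstacle (last label); births `0`. -/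
def obs (Φ : Space3 → ℝ) (T ε : ℝ) {ι : Type} (S : Tubes ι) (k : ℕ) (P : CTree) :
    VSys (Fin k ⊕ (Idx P ⊕ Unit)) ι :=
  ⟨Φ, T, ε, fun _ => 0, some (Sum.inr (Sum.inr ())), S⟩

/-- States: the gas particles, the lines of the tree, the obstacle at `x`. -/
def obZ (Φ : Space3 → ℝ) (ε : ℝ) {k : ℕ} (V : Config k) (P : CTree) (z : PhasePoint × Par P)
    (y : PhasePoint) : Fin k ⊕ (Idx P ⊕ Unit) → PhasePoint :=
  Sum.elim V (Sum.elim (lines Φ ε P z.1 z.2) fun _ => y)

/-- Some `Y ⊆ w` of at most `N` particles forms with the tree and the obstacle a connected and not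
tree-like system. -/
def ObBad (Φ : Space3 → ℝ) (T ε : ℝ) {ι : Type} (S : Tubes ι) (C R ς : ℝ) (N : ℕ) (P : CTree)
    (x : Space3) (z : PhasePoint × Par P) {m : ℕ} (w : Config m) : Prop :=
  ∃ k ≤ N, ∃ e : Fin k ↪ Fin m,
    (obs Φ T ε S k P).Conn C Finset.univ (obZ Φ ε (fun i => w (e i)) P z (x, 0)) ∧
    ¬ (obs Φ T ε S k P).TreeLike C (R * ε) ς Finset.univ (obZ Φ ε (fun i => w (e i)) P z (x, 0))

theorem agO_obs {Φ : Space3 → ℝ} {T ε : ℝ} {ι : Type} {S : Tubes ι} {k : ℕ} {P : CTree}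
    (V : Config k) (z : PhasePoint × Par P) (x : Space3) (v v' : Space3) :
    AgO (obs Φ T ε S k P) (obZ Φ ε V P z (x, v)) (obZ Φ ε V P z (x, v')) := by
  refine ⟨?_, ?_⟩
  · rintro (j | j | j) hj
    · rfl
    · rfl
    · exact absurd rfl hj
  · rintro (j | j | j) <;> rfl

/-- Tube families on a shorter horizon. -/
theorem tubeConv_mono {T t : ℝ} (htT : t ≤ T) {ι : Type} {Sk : ℕ → Tubes ι} {S : Tubes ι}
    (h : TubeConv T Sk S) : TubeConv t Sk S := by
  have hsub : Icc 0 t ⊆ Icc 0 T := Icc_subset_Icc_right htT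
  obtain ⟨M, hM, hM'⟩ := h.lip
  refine ⟨⟨M, ?_, fun i => (hM' i).mono hsub⟩, fun i => (h.curves i).mono hsub, h.active, ?_⟩
  · filter_upwards [hM] with k hk i
    exact (hk i).mono hsub
  · obtain ⟨B, hB, hv⟩ := h.vel
    exact ⟨B, hB, fun s hs hsB i hi => hv s ⟨hs.1, hs.2.trans_le htT⟩ hsB i hi⟩

theorem generic_mono {T t : ℝ} (htT : t ≤ T) {ι : Type} {S : Tubes ι} (h : Generic T S) :
    Generic t S := fun i j hij =>
  (h i j hij).subset fun _ hs => ⟨⟨hs.1.1, hs.1.2.trans (min_le_min_right _ htT)⟩, hs.2⟩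

/-! ### The law of the structure -/

section law

variable {Φ : Space3 → ℝ} {f₀ : PhasePoint → ℝ} {γ : ℝ} {ρ : Space3 → ℝ≥0∞} {C : ℝ≥0∞}

/-- Law of the state of the obstacle: `x` in a ball, dummy velocity with a Gaussian weight. -/
def obM (γ R : ℝ) : Measure PhasePoint :=
  (volume : Measure PhasePoint).withDensity fun y =>
    (Metric.closedBall (0 : Space3) R).indicator (fun _ => 1) y.1 * wG γ y.2

theorem measurable_obD (γ R : ℝ) : Measurable fun y : PhasePoint =>
    (Metric.closedBall (0 : Space3) R).indicator (fun _ => (1 : ℝ≥0∞)) y.1 * wG γ y.2 :=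
  ((measurable_const.indicator Metric.isClosed_closedBall.measurableSet).comp measurable_fst).mul
    (measurable_wG'.comp measurable_snd)

instance (γ R : ℝ) : SFinite (obM γ R) := by unfold obM; infer_instance

/-- The law of the obstacle is dominated. -/
theorem dom_ob (hρ : Measurable ρ) {R : ℝ}
    (hρR : ∀ x ∈ Metric.closedBall (0 : Space3) R, 1 ≤ ρ x) (ε : ℝ) :
    Dom γ ρ ε 1 (Finset.univ : Finset Unit) 1 (Measure.dirac fun _ : Unit => (0 : ℝ)) (obM γ R)
      (fun _ _ => 0) (fun y _ => y) where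
  mb := measurable_const
  mz := measurable_pi_iff.2 fun _ => measurable_id
  le F hF := by
    set b0 : Unit → ℝ := fun _ => 0 with hb0
    have hF0 : Measurable fun z : Unit → PhasePoint => F (b0, z) :=
      hF.comp (measurable_const.prodMk measurable_id)
    have hG : Measurable fun z : Unit → PhasePoint => wgtA γ ρ Finset.univ z * F (b0, z) :=
      (measurable_wgtA hρ _).mul hF0
    have hout : Measurable fun b : Unit → ℝ => ∫⁻ z, wgtA γ ρ Finset.univ z * F (b, z) := by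
      have h1 : Measurable fun p : (Unit → ℝ) × (Unit → PhasePoint) =>
          wgtA γ ρ Finset.univ p.2 * F p := ((measurable_wgtA hρ _).comp measurable_snd).mul hF
      exact h1.lintegral_prod_right'
    have hF1 : Measurable fun y : PhasePoint => F (b0, fun _ => y) :=
      hF0.comp (measurable_pi_iff.2 fun _ => measurable_id)
    rw [lintegral_dirac' _ hout, lintegral_unit _ hG]
    unfold obM
    rw [lintegral_withDensity_eq_lintegral_mul _ (measurable_obD γ R) hF1]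
    simp only [Fintype.card_unit, tsub_self, pow_zero, one_mul]
    refine lintegral_mono fun y => ?_
    simp only [Pi.mul_apply]
    refine mul_le_mul_left ?_ _
    unfold wgtA
    rw [Finset.prod_const, Finset.prod_const, Finset.card_univ, Fintype.card_unit, pow_one,
      pow_one]
    refine mul_le_mul_left ?_ _
    by_cases hy : y.1 ∈ Metric.closedBall (0 : Space3) R
    · rw [indicator_of_mem hy]
      exact hρR _ hy
    · rw [indicator_of_notMem hy]
      exact bot_le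

/-- Gaussian mass. -/
def gG (γ : ℝ) : ℝ≥0∞ := ∫⁻ v : Space3, wG γ v

theorem gG_ne_top (hγ : 0 < γ) : gG γ ≠ ∞ := (lintegral_gaussian_lt_top hγ).ne

theorem gG_ne_zero (γ : ℝ) : gG γ ≠ 0 := by
  unfold gG
  rw [Ne, lintegral_eq_zero_iff measurable_wG']
  intro h
  have h2 : ∀ᵐ v : Space3, False := by
    filter_upwards [h] with v hv
    have hv' : wG γ v = 0 := hv
    unfold wG at hv'
    rw [ENNReal.ofReal_eq_zero] at hv'
    exact absurd hv' (not_le.2 (Real.exp_pos _))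
  rw [Filter.eventually_false_iff_eq_bot, ae_eq_bot] at h2
  exact NeZero.ne (volume : Measure Space3) h2

theorem lintegral_obM {R : ℝ} {G : PhasePoint → ℝ≥0∞} (hG : Measurable G) :
    ∫⁻ y, G y ∂(obM γ R) =
      ∫⁻ x in Metric.closedBall (0 : Space3) R, ∫⁻ v : Space3, wG γ v * G (x, v) := by
  unfold obM
  rw [lintegral_withDensity_eq_lintegral_mul _ (measurable_obD γ R) hG]
  have hm : Measurable fun y : PhasePoint =>
      ((Metric.closedBall (0 : Space3) R).indicator (fun _ => (1 : ℝ≥0∞)) y.1 * wG γ y.2) * G y :=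
    (measurable_obD γ R).mul hG
  change ∫⁻ y, ((Metric.closedBall (0 : Space3) R).indicator (fun _ => (1 : ℝ≥0∞)) y.1 *
    wG γ y.2) * G y ∂((volume : Measure Space3).prod (volume : Measure Space3)) = _
  rw [lintegral_prod _ hm.aemeasurable,
    ← lintegral_indicator Metric.isClosed_closedBall.measurableSet]
  refine lintegral_congr fun x => ?_
  by_cases hx : x ∈ Metric.closedBall (0 : Space3) R
  · simp only [indicator_of_mem hx, one_mul]
  · simp only [indicator_of_notMem hx, zero_mul, lintegral_zero]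

/-- One group from two groups: multiply by the activity. -/
theorem Dom.act {κ : Type} [Fintype κ] {s : ℕ} {A₀ : Finset κ} {c : ℝ≥0∞}
    {Λ : Measure (κ → ℝ)} {Θ : Type} [MeasurableSpace Θ] {m : Measure Θ} {b : Θ → κ → ℝ}
    {z : Θ → κ → PhasePoint} {ε : ℝ} (hε : 0 < ε) (h : Dom γ ρ ε (s + 1) A₀ c Λ m b z)
    (hs : s + 1 ≤ Fintype.card κ) : Dom γ ρ ε s A₀ c Λ (activity ε • m) b z where
  mb := h.mb
  mz := h.mz
  le F hF := by
    have h1 : Fintype.card κ - s = (Fintype.card κ - (s + 1)) + 1 := by omega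
    have h2 : ENNReal.ofReal (ε ^ 2) * activity ε = 1 := by
      rw [mul_comm]
      exact Relabel674.activity_mul hε
    rw [lintegral_smul_measure, h1, pow_succ, smul_eq_mul]
    calc ENNReal.ofReal (ε ^ 2) ^ (Fintype.card κ - (s + 1)) * ENNReal.ofReal (ε ^ 2) *
          (activity ε * ∫⁻ θ, F (b θ, z θ) ∂m)
        = (ENNReal.ofReal (ε ^ 2) * activity ε) *
            (ENNReal.ofReal (ε ^ 2) ^ (Fintype.card κ - (s + 1)) * ∫⁻ θ, F (b θ, z θ) ∂m) := by
          ring
      _ ≤ _ := by rw [h2, one_mul]; exact h.le F hF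

end law

/-! ### The theorem -/

section main

variable {Φ : Space3 → ℝ} {f₀ : PhasePoint → ℝ} {γ : ℝ} {ρ : Space3 → ℝ≥0∞} {C₀ : ℝ≥0∞}

/-- Births and states of the structure. -/
def stB (P : CTree) : (PhasePoint × Par P) × PhasePoint → Idx P ⊕ Unit → ℝ :=
  fun _ => Sum.elim (fun _ => 0) fun _ => 0

def stZ (Φ : Space3 → ℝ) (ε : ℝ) (P : CTree) :
    (PhasePoint × Par P) × PhasePoint → Idx P ⊕ Unit → PhasePoint :=
  fun θ => Sum.elim (linesM Φ ε P θ.1.1 θ.1.2) fun _ => θ.2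

theorem measurable_stZ (hΦ : AdmissiblePotential Φ) (ε : ℝ) (P : CTree) :
    Measurable (stZ Φ ε P) := by
  have h1 : Measurable fun θ : (PhasePoint × Par P) × PhasePoint =>
      linesM Φ ε P θ.1.1 θ.1.2 := (measurable_linesM hΦ ε P).comp measurable_fst
  have h2 : Measurable fun (θ : (PhasePoint × Par P) × PhasePoint) (_ : Unit) => θ.2 :=
    measurable_pi_iff.2 fun _ => measurable_snd
  exact measurable_sumElim.comp (h1.prodMk h2)

/-- The law of the structure (tree, obstacle). -/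
def stM (Φ : Space3 → ℝ) (f₀ : PhasePoint → ℝ) (γ ε R t : ℝ) (P : CTree) :
    Measure ((PhasePoint × Par P) × PhasePoint) :=
  (treeM Φ f₀ ε P t).prod (obM γ R)

instance (γ ε R t : ℝ) (P : CTree) : SFinite (stM Φ f₀ γ ε R t P) := by
  unfold stM; infer_instance

theorem dom_st (hΦ : AdmissiblePotential Φ) (hf : Measurable f₀) (he : Env f₀ γ ρ C₀) {ε : ℝ}
    (hε : 0 < ε) {R : ℝ} (hρR : ∀ x ∈ Metric.closedBall (0 : Space3) R, 1 ≤ ρ x) (t : ℝ)
    (P : CTree) :
    Dom γ ρ ε 1 ((Finset.univ : Finset (Idx P)).disjSum (Finset.univ : Finset Unit))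
      (C₀ ^ Fintype.card (Idx P) * 1)
      (prodΛ (Measure.dirac fun _ : Idx P => (0 : ℝ)) (Measure.dirac fun _ : Unit => (0 : ℝ)))
      (activity ε • stM Φ f₀ γ ε R t P) (stB P) (stZ Φ ε P) := by
  have hc : 1 ≤ Fintype.card (Idx P) := Fintype.card_pos_iff.2 ⟨Tree674.root P⟩
  have h := Dom.prod he.meas (dom_tree hΦ hf he hε P t) (dom_ob (γ := γ) he.meas hρR ε) hc
    (by simp)
  exact Dom.act hε h (by rw [Fintype.card_sum, Fintype.card_unit]; omega)

/-- The bad sets. -/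
def obE (Φ : Space3 → ℝ) (t ε : ℝ) {ι : Type} (S : Tubes ι) (C ℓ ς : ℝ) (P : CTree) (k : ℕ) :
    Set ((Fin k ⊕ (Idx P ⊕ Unit) → ℝ) × (Fin k ⊕ (Idx P ⊕ Unit) → PhasePoint)) :=
  Prod.snd ⁻¹' badQ (obs Φ t ε S k P) C ℓ ς 1 Finset.univ

/-- Indicator of the bad set. -/
def obχ (Φ : Space3 → ℝ) (t ε : ℝ) {ι : Type} (S : Tubes ι) (C ℓ ς : ℝ) (N : ℕ) (P : CTree)
    (θ : (PhasePoint × Par P) × PhasePoint) (m : ℕ) (w : Config m) : ℝ≥0∞ :=
  (gSet N (obE Φ t ε S C ℓ ς P) m).indicator 1 (w, stB P θ, stZ Φ ε P θ)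

theorem measurableSet_obE {t ε : ℝ} {ι : Type} [Finite ι] {S : Tubes ι} {P : CTree}
    (hM : ∀ k, Good (obs Φ t ε S k P)) (C ℓ ς : ℝ) (k : ℕ) :
    MeasurableSet (obE Φ t ε S C ℓ ς P k) :=
  measurable_snd (measurableSet_badQ' (hM k) C ℓ ς 1 Finset.univ)

theorem measurable_obχ (hΦ : AdmissiblePotential Φ) {t ε : ℝ} {ι : Type} [Finite ι]
    {S : Tubes ι} {P : CTree} (hM : ∀ k, Good (obs Φ t ε S k P)) (C ℓ ς : ℝ) (N m : ℕ) :
    Measurable fun q : ((PhasePoint × Par P) × PhasePoint) × Config m =>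
      obχ Φ t ε S C ℓ ς N P q.1 m q.2 := by
  have h1 : Measurable fun q : ((PhasePoint × Par P) × PhasePoint) × Config m =>
      (q.2, stB P q.1, stZ Φ ε P q.1) :=
    measurable_snd.prodMk (measurable_const.prodMk ((measurable_stZ hΦ ε P).comp measurable_fst))
  have h2 : Measurable ((gSet N (obE Φ t ε S C ℓ ς P) m).indicator
      (1 : Config m × (Idx P ⊕ Unit → ℝ) × (Idx P ⊕ Unit → PhasePoint) → ℝ≥0∞)) :=
    measurable_one.indicator (measurableSet_gSet (measurableSet_obE hM C ℓ ς) m)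
  exact h2.comp h1

/-- Average over the dummy velocity. -/
def avO (γ : ℝ) {P : CTree} (χ : (PhasePoint × Par P) × PhasePoint → (m : ℕ) → Config m → ℝ≥0∞)
    (x : Space3) (z : PhasePoint × Par P) (m : ℕ) (w : Config m) : ℝ≥0∞ :=
  (gG γ)⁻¹ * ∫⁻ v : Space3, wG γ v * χ (z, (x, v)) m w

theorem measurable_avO {P : CTree}
    {χ : (PhasePoint × Par P) × PhasePoint → (m : ℕ) → Config m → ℝ≥0∞}
    (hχ : ∀ m, Measurable fun q : ((PhasePoint × Par P) × PhasePoint) × Config m => χ q.1 m q.2)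
    (m : ℕ) :
    Measurable fun q : (Space3 × (PhasePoint × Par P)) × Config m => avO γ χ q.1.1 q.1.2 m q.2 := by
  refine Measurable.const_mul ?_ _
  have h1 : Measurable fun p : ((Space3 × (PhasePoint × Par P)) × Config m) × Space3 =>
      wG γ p.2 * χ (p.1.1.2, (p.1.1.1, p.2)) m p.1.2 := by
    refine (measurable_wG'.comp measurable_snd).mul ?_
    have h2 : Measurable fun p : ((Space3 × (PhasePoint × Par P)) × Config m) × Space3 =>
        ((p.1.1.2, (p.1.1.1, p.2)), p.1.2) :=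
      (measurable_fst.fst.snd.prodMk (measurable_fst.fst.fst.prodMk measurable_snd)).prodMk
        measurable_fst.snd
    exact (hχ m).comp h2
  exact h1.lintegral_prod_right'

/-- The mass of the average over the dummy velocity. -/
theorem mass_avO (hΦ : AdmissiblePotential Φ) (hf : Measurable f₀) {t ε : ℝ}
    {P : CTree} {χ : (PhasePoint × Par P) × PhasePoint → (m : ℕ) → Config m → ℝ≥0∞}
    (hχ : ∀ m, Measurable fun q : ((PhasePoint × Par P) × PhasePoint) × Config m => χ q.1 m q.2)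
    (R : ℝ) :
    ∫⁻ x in Metric.closedBall (0 : Space3) R, F3Fin370.tI Φ f₀ ε t P (avO γ χ x) =
      (gG γ)⁻¹ * gcE f₀ ε (fun n w => ∫⁻ θ, χ θ n w ∂(stM Φ f₀ γ ε R t P)) := by
  have hG0 : (gG γ)⁻¹ ≠ ∞ := ENNReal.inv_ne_top.2 (gG_ne_zero γ)
  set Ψ : (PhasePoint × Par P) × PhasePoint → ℝ≥0∞ := fun θ =>
    gcE f₀ ε fun m w => χ θ m w with hΨ
  have hΨm : Measurable Ψ := measurable_gcE_par hf hχ
  -- inner expectation
  have e1 : ∀ (x : Space3) (z : PhasePoint × Par P),
      gcE f₀ ε (fun m w => avO γ χ x z m w) =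
        (gG γ)⁻¹ * ∫⁻ v : Space3, wG γ v * Ψ (z, (x, v)) := by
    intro x z
    have hm2 : ∀ m, Measurable fun p : Space3 × Config m =>
        wG γ p.1 * χ (z, (x, p.1)) m p.2 := by
      intro m
      refine (measurable_wG'.comp measurable_fst).mul ?_
      have h2 : Measurable fun p : Space3 × Config m =>
          (((z, (x, p.1)) : (PhasePoint × Par P) × PhasePoint), p.2) :=
        (measurable_const.prodMk (measurable_const.prodMk measurable_fst)).prodMk measurable_snd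
      exact (hχ m).comp h2
    unfold avO
    rw [gcE_const_mul f₀ ε hG0]
    congr 1
    rw [← lintegral_gcE_swap hf ε (volume : Measure Space3)
      (F := fun m v w => wG γ v * χ (z, (x, v)) m w) hm2]
    refine lintegral_congr fun v => ?_
    exact gcE_const_mul f₀ ε (by unfold wG; exact ENNReal.ofReal_ne_top) _
  have hinner : Measurable fun p : Space3 × (PhasePoint × Par P) =>
      (gG γ)⁻¹ * ∫⁻ v : Space3, wG γ v * Ψ (p.2, (p.1, v)) := by
    refine Measurable.const_mul ?_ _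
    have h2 : Measurable fun q : (Space3 × (PhasePoint × Par P)) × Space3 =>
        wG γ q.2 * Ψ (q.1.2, (q.1.1, q.2)) :=
      (measurable_wG'.comp measurable_snd).mul (hΨm.comp
        (measurable_fst.snd.prodMk (measurable_fst.fst.prodMk measurable_snd)))
    exact h2.lintegral_prod_right'
  have e2 : ∀ x : Space3, F3Fin370.tI Φ f₀ ε t P (avO γ χ x) =
      ∫⁻ z, ((gG γ)⁻¹ * ∫⁻ v : Space3, wG γ v * Ψ (z, (x, v))) ∂(treeM Φ f₀ ε P t) := by
    intro x
    rw [lintegral_treeM hΦ hf ε P t (G := fun z => (gG γ)⁻¹ * ∫⁻ v : Space3, wG γ v *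
      Ψ (z, (x, v))) (hinner.comp (measurable_const.prodMk measurable_id))]
    unfold F3Fin370.tI
    refine lintegral_congr fun z => ?_
    by_cases hz : Valid Φ ε P t z.1.2 z.2
    · rw [indicator_of_mem (show z ∈ {z : PhasePoint × Par P | Valid Φ ε P t z.1.2 z.2} from hz),
        indicator_of_mem (show z ∈ {z : PhasePoint × Par P | Valid Φ ε P t z.1.2 z.2} from hz),
        e1]
    · rw [indicator_of_notMem
        (show z ∉ {z : PhasePoint × Par P | Valid Φ ε P t z.1.2 z.2} from hz),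
        indicator_of_notMem
        (show z ∉ {z : PhasePoint × Par P | Valid Φ ε P t z.1.2 z.2} from hz)]
  simp only [e2]
  rw [lintegral_lintegral_swap hinner.aemeasurable]
  have e4 : ∫⁻ θ, Ψ θ ∂(stM Φ f₀ γ ε R t P) =
      gcE f₀ ε (fun n w => ∫⁻ θ, χ θ n w ∂(stM Φ f₀ γ ε R t P)) :=
    lintegral_gcE_swap hf ε (stM Φ f₀ γ ε R t P) (F := fun m θ w => χ θ m w) hχ
  rw [← e4]
  unfold stM
  rw [lintegral_prod _ hΨm.aemeasurable, ← lintegral_const_mul' _ _ hG0]
  refine lintegral_congr fun z => ?_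
  rw [lintegral_const_mul' _ _ hG0,
    lintegral_obM (G := fun y => Ψ (z, y)) (hΨm.comp (measurable_const.prodMk measurable_id))]

/-- The majorant. -/
def obH (Φ : Space3 → ℝ) (γ t ε : ℝ) {ι : Type} (S : Tubes ι) (C ℓ ς : ℝ) (N : ℕ) (P : CTree) :
    Space3 → PhasePoint × Par P → (m : ℕ) → Config m → ℝ≥0∞ :=
  avO γ (obχ Φ t ε S C ℓ ς N P)

theorem one_le_obH (hγ : 0 < γ) {t ε : ℝ} {ι : Type} [Finite ι] {S : Tubes ι} {C R ς : ℝ} {N : ℕ}
    {P : CTree} (hM : ∀ k, Good (obs Φ t ε S k P)) {x : Space3} {z : PhasePoint × Par P}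
    (hz : Adm Φ P z.1.2 z.2) {m : ℕ} {w : Config m} (h : ObBad Φ t ε S C R ς N P x z w) :
    1 ≤ obH Φ γ t ε S C (R * ε) ς N P x z m w := by
  obtain ⟨k, hk, e, h1, h2⟩ := h
  have hmem : ∀ v : Space3, obχ Φ t ε S C (R * ε) ς N P (z, (x, v)) m w = 1 := by
    intro v
    unfold obχ
    refine indicator_of_mem ?_ _
    refine ⟨k, hk, e, ?_⟩
    show (Sum.elim (fun i => w (e i)) (stZ Φ ε P (z, (x, v))) :
      Fin k ⊕ (Idx P ⊕ Unit) → PhasePoint) ∈ badQ (obs Φ t ε S k P) C (R * ε) ς 1 Finset.univ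
    have hst : (Sum.elim (fun i => w (e i)) (stZ Φ ε P (z, (x, v))) :
        Fin k ⊕ (Idx P ⊕ Unit) → PhasePoint) = obZ Φ ε (fun i => w (e i)) P z (x, v) := by
      unfold stZ obZ
      rw [linesM_of_adm ε hz]
    rw [hst]
    refine badPart_subset (hM k) ?_
    have hag := agO_obs (Φ := Φ) (T := t) (ε := ε) (S := S) (P := P) (fun i => w (e i)) z x 0 v
    exact badPart_of ((conn_congr hag _ _).1 h1) fun h3 => h2 ((treeLike_congr hag _ _ _ _).2 h3)
  unfold obH avO
  simp only [hmem, mul_one]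
  exact (ENNReal.inv_mul_cancel (gG_ne_zero γ) (gG_ne_top hγ)).ge

/-- The mass of the majorant. -/
theorem mass_obH (hΦ : AdmissiblePotential Φ) (hf : Measurable f₀) {t ε : ℝ}
    {ι : Type} [Finite ι] {S : Tubes ι} {P : CTree} (hM : ∀ k, Good (obs Φ t ε S k P))
    (C ℓ ς R : ℝ) (N : ℕ) :
    activity ε * ∫⁻ x in Metric.closedBall (0 : Space3) R,
        F3Fin370.tI Φ f₀ ε t P (obH Φ γ t ε S C ℓ ς N P x) =
      (gG γ)⁻¹ * gcE f₀ ε (fun n w => (activity ε • stM Φ f₀ γ ε R t P)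
        {θ | (w, stB P θ, stZ Φ ε P θ) ∈ gSet N (obE Φ t ε S C ℓ ς P) n}) := by
  have hact : activity ε ≠ ∞ := ENNReal.ofReal_ne_top
  unfold obH
  rw [mass_avO hΦ hf (measurable_obχ hΦ hM C ℓ ς N)]
  have e5 : gcE f₀ ε (fun n w => ∫⁻ θ, obχ Φ t ε S C ℓ ς N P θ n w ∂(stM Φ f₀ γ ε R t P)) =
      gcE f₀ ε (fun n w => (stM Φ f₀ γ ε R t P)
        {θ | (w, stB P θ, stZ Φ ε P θ) ∈ gSet N (obE Φ t ε S C ℓ ς P) n}) := by
    refine gcE_congr f₀ ε fun n w _ => ?_
    have hset : MeasurableSet {θ : (PhasePoint × Par P) × PhasePoint |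
        (w, stB P θ, stZ Φ ε P θ) ∈ gSet N (obE Φ t ε S C ℓ ς P) n} := by
      have h1 : Measurable fun θ : (PhasePoint × Par P) × PhasePoint =>
          (w, stB P θ, stZ Φ ε P θ) :=
        measurable_const.prodMk (measurable_const.prodMk (measurable_stZ hΦ ε P))
      exact h1 (measurableSet_gSet (measurableSet_obE hM C ℓ ς) n)
    rw [← lintegral_indicator_one hset]
    rfl
  rw [e5]
  simp only [Measure.smul_apply, smul_eq_mul]
  rw [gcE_const_mul f₀ ε hact]
  ring

theorem good_obs (hΦ : AdmissiblePotential Φ) {t ε : ℝ} (ht : 0 ≤ t) (hε : 0 < ε) {ι : Type}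
    {S : Tubes ι} {L : ℝ≥0} (hS : ∀ i, LipschitzOnWith L (S.c i) (Icc 0 t)) (k : ℕ) (P : CTree) :
    Good (obs Φ t ε S k P) := ⟨hΦ, hε, ht, fun i => (hS i).continuousOn⟩

/-- Weights: `wA` of `VLClass_973` is `wgtA` of `LN2Gas_473`. -/
theorem wA_eq_wgtA {J : Type} [Fintype J] (A : Finset J) : wA γ ρ A = wgtA γ ρ A := by
  funext Z
  unfold wA wgtA
  congr 1
  refine Finset.prod_congr rfl fun j _ => ?_
  rw [wG_eq]
  rfl

theorem anch_univ (k : ℕ) (P : CTree) :
    anch k ((Finset.univ : Finset (Idx P)).disjSum (Finset.univ : Finset Unit)) =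
      (Finset.univ : Finset (Fin k ⊕ (Idx P ⊕ Unit))) := by
  ext j
  rcases j with j | j | j <;> simp [anch]

/-- An environment with density one on a ball. -/
theorem exists_env_ball (hb : HasSummableGaussianBound γ (fun x v => f₀ (x, v)))
    (R : ℝ) : ∃ (ρ : Space3 → ℝ≥0∞) (C₀ : ℝ≥0∞), Env f₀ γ ρ C₀ ∧
      ∀ x ∈ Metric.closedBall (0 : Space3) R, 1 ≤ ρ x := by
  obtain ⟨ρ, C₀, he⟩ := exists_env (le_refl γ) hb
  have hball : MeasurableSet (Metric.closedBall (0 : Space3) R) :=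
    Metric.isClosed_closedBall.measurableSet
  set ρ' : Space3 → ℝ≥0∞ := fun x =>
    min 1 (ρ x + (Metric.closedBall (0 : Space3) R).indicator (fun _ => 1) x) with hρ'
  have hm : Measurable ρ' :=
    measurable_const.min (he.meas.add (measurable_const.indicator hball))
  refine ⟨ρ', C₀, ⟨hm, fun x => min_le_left _ _, ?_, he.fin, fun z => ?_⟩, fun x hx => ?_⟩
  · calc ∫⁻ x, ρ' x ≤ ∫⁻ x, (ρ x + (Metric.closedBall (0 : Space3) R).indicator (fun _ => 1) x) :=
          lintegral_mono fun x => min_le_right _ _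
      _ = (∫⁻ x, ρ x) + ∫⁻ x, (Metric.closedBall (0 : Space3) R).indicator (fun _ => 1) x :=
          lintegral_add_left he.meas _
      _ < ∞ := by
          rw [lintegral_indicator hball, setLIntegral_const, one_mul]
          exact ENNReal.add_lt_top.2 ⟨he.int,
            (isCompact_closedBall (0 : Space3) R).measure_lt_top (μ := volume)⟩
  · refine (he.le z).trans (mul_le_mul_right (mul_le_mul_left ?_ _) _)
    exact le_min (he.le_one _) le_self_add
  · simp only [hρ', indicator_of_mem hx]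
    exact le_min le_rfl le_add_self

/-- **Gas level of the obstacle**: along converging generic sequences of tube families, one loop
through the obstacle is negligible. -/
theorem ob_gas (hΦ : AdmissiblePotential Φ) (hVC : VC Φ) (hVL : VL Φ) (hf : Measurable f₀)
    (h1 : ∫⁻ z, ENNReal.ofReal (f₀ z) ≤ 1) (hγ : 0 < γ)
    (hb : HasSummableGaussianBound γ (fun x v => f₀ (x, v))) {T t : ℝ} (ht : 0 < t) (htT : t ≤ T)
    {ι : Type} [Fintype ι] {Sk : ℕ → Tubes ι} {S : Tubes ι} {εk Rk ςk : ℕ → ℝ}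
    (hε : ∀ k, 0 < εk k) (hε0 : Tendsto εk atTop (𝓝 0)) (hconv : TubeConv T Sk S)
    (hgen : Generic T S) (hR : Tendsto Rk atTop atTop) (hς : Tendsto ςk atTop (𝓝 0))
    (P : CTree) (N : ℕ) (C R : ℝ) {δ : ℝ} (hδ : 0 < δ) :
    ∀ᶠ n in atTop, ∃ H : Space3 → PhasePoint × Par P → (m : ℕ) → Config m → ℝ≥0∞,
      (∀ m, Measurable fun q : (Space3 × (PhasePoint × Par P)) × Config m =>
        H q.1.1 q.1.2 m q.2) ∧
      (∀ (x : Space3) (z : PhasePoint × Par P) (m : ℕ) (w : Config m), Adm Φ P z.1.2 z.2 →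
        ObBad Φ t (εk n) (Sk n) C (Rk n) (ςk n) N P x z w → 1 ≤ H x z m w) ∧
      activity (εk n) * ∫⁻ x in Metric.closedBall (0 : Space3) R,
        F3Fin370.tI Φ f₀ (εk n) t P (H x) ≤ ENNReal.ofReal δ := by
  obtain ⟨ρ, C₀, he, hρR⟩ := exists_env_ball hb R
  have hconv' := tubeConv_mono htT hconv
  obtain ⟨L, hL, -⟩ := hconv'.lip
  set Λ : Measure (Idx P ⊕ Unit → ℝ) := prodΛ (Measure.dirac fun _ : Idx P => (0 : ℝ))
    (Measure.dirac fun _ : Unit => (0 : ℝ)) with hΛ
  set c : ℝ≥0∞ := C₀ ^ Fintype.card (Idx P) * 1 with hc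
  have hct : c ≠ ∞ := ENNReal.mul_ne_top (ENNReal.pow_ne_top he.fin) ENNReal.one_ne_top
  set K0 : ℝ≥0∞ := (gG γ)⁻¹ * (c * Λ Set.univ * ∑ k ∈ Finset.range (N + 1), C₀ ^ k) with hK0
  have hK0t : K0 ≠ ∞ := by
    refine ENNReal.mul_ne_top (ENNReal.inv_ne_top.2 (gG_ne_zero γ)) ?_
    refine ENNReal.mul_ne_top (ENNReal.mul_ne_top hct (measure_ne_top Λ _)) ?_
    exact ENNReal.sum_ne_top.2 fun k _ => ENNReal.pow_ne_top he.fin
  have hK1 : K0 + 1 ≠ 0 := by simp
  have hK1t : K0 + 1 ≠ ∞ := ENNReal.add_ne_top.2 ⟨hK0t, ENNReal.one_ne_top⟩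
  set δ' : ℝ≥0∞ := ENNReal.ofReal δ / (K0 + 1) with hδ'
  have hδ'0 : 0 < δ' := ENNReal.div_pos (ENNReal.ofReal_pos.2 hδ).ne' hK1t
  -- the class statements
  have hcls : ∀ k : ℕ, ∀ᶠ n in atTop,
      ∫⁻ Z, (badQ (obs Φ t (εk n) (Sk n) k P) C (Rk n * εk n) (ςk n) 1 Finset.univ).indicator
        (wgtA γ ρ Finset.univ) Z ≤
      δ' * ENNReal.ofReal (εk n ^ 2) ^ (Fintype.card (Fin k ⊕ (Idx P ⊕ Unit)) - 1) := by
    intro k
    have hcard : 1 ≤ Fintype.card (Fin k ⊕ (Idx P ⊕ Unit)) :=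
      Fintype.card_pos_iff.2 ⟨Sum.inr (Sum.inr ())⟩
    obtain ⟨-, h3⟩ := class_null_seq (J := Fin k ⊕ (Idx P ⊕ Unit)) (κ := ι) (C := C) hΦ hVC hVL
      hγ ht (M := fun n => obs Φ t (εk n) (Sk n) k P) (o := some (Sum.inr (Sum.inr ())))
      (b := fun _ => 0) (S := S) (R := Rk) (ς := ςk)
      (fun n => ⟨rfl, rfl, rfl, hε n⟩) hε0 (fun i => tendsto_const_nhds) hconv'
      (generic_mono htT hgen) hR hς hcard (A := Finset.univ) (fun j _ => Finset.mem_univ j)
      (ρ := ρ) he.meas he.le_one he.int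
    filter_upwards [h3.eventually (ge_mem_nhds hδ'0)] with n hn
    have hpos := hε n
    have hx0 : ENNReal.ofReal (εk n ^ 2) ^ (Fintype.card (Fin k ⊕ (Idx P ⊕ Unit)) - 1) ≠ 0 := by
      refine pow_ne_zero _ ?_
      rw [Ne, ENNReal.ofReal_eq_zero, not_le]
      positivity
    have hxT : ENNReal.ofReal (εk n ^ 2) ^ (Fintype.card (Fin k ⊕ (Idx P ⊕ Unit)) - 1) ≠ ∞ :=
      ENNReal.pow_ne_top ENNReal.ofReal_ne_top
    rw [wA_eq_wgtA] at hn
    have hn' : (ENNReal.ofReal (εk n ^ 2) ^ (Fintype.card (Fin k ⊕ (Idx P ⊕ Unit)) - 1))⁻¹ *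
        ∫⁻ Z, (badQ (obs Φ t (εk n) (Sk n) k P) C (Rk n * εk n) (ςk n) 1 Finset.univ).indicator
          (wgtA γ ρ Finset.univ) Z ≤ δ' := hn
    calc ∫⁻ Z, (badQ (obs Φ t (εk n) (Sk n) k P) C (Rk n * εk n) (ςk n) 1
          Finset.univ).indicator (wgtA γ ρ Finset.univ) Z
        = (ENNReal.ofReal (εk n ^ 2) ^ (Fintype.card (Fin k ⊕ (Idx P ⊕ Unit)) - 1) *
            (ENNReal.ofReal (εk n ^ 2) ^ (Fintype.card (Fin k ⊕ (Idx P ⊕ Unit)) - 1))⁻¹) *
            ∫⁻ Z, (badQ (obs Φ t (εk n) (Sk n) k P) C (Rk n * εk n) (ςk n) 1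
              Finset.univ).indicator (wgtA γ ρ Finset.univ) Z := by
          rw [ENNReal.mul_inv_cancel hx0 hxT, one_mul]
      _ = ENNReal.ofReal (εk n ^ 2) ^ (Fintype.card (Fin k ⊕ (Idx P ⊕ Unit)) - 1) *
            ((ENNReal.ofReal (εk n ^ 2) ^ (Fintype.card (Fin k ⊕ (Idx P ⊕ Unit)) - 1))⁻¹ *
            ∫⁻ Z, (badQ (obs Φ t (εk n) (Sk n) k P) C (Rk n * εk n) (ςk n) 1
              Finset.univ).indicator (wgtA γ ρ Finset.univ) Z) := by rw [mul_assoc]
      _ ≤ ENNReal.ofReal (εk n ^ 2) ^ (Fintype.card (Fin k ⊕ (Idx P ⊕ Unit)) - 1) * δ' :=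
          mul_le_mul_right hn' _
      _ = _ := mul_comm _ _
  have hall : ∀ᶠ n in atTop, ∀ k ∈ Finset.range (N + 1),
      ∫⁻ Z, (badQ (obs Φ t (εk n) (Sk n) k P) C (Rk n * εk n) (ςk n) 1 Finset.univ).indicator
        (wgtA γ ρ Finset.univ) Z ≤
      δ' * ENNReal.ofReal (εk n ^ 2) ^ (Fintype.card (Fin k ⊕ (Idx P ⊕ Unit)) - 1) :=
    (Filter.eventually_all_finset _).2 fun k _ => hcls k
  filter_upwards [hall, hL] with n hn hLn
  have hM : ∀ k, Good (obs Φ t (εk n) (Sk n) k P) := fun k => good_obs hΦ ht.le (hε n) hLn k P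
  refine ⟨obH Φ γ t (εk n) (Sk n) C (Rk n * εk n) (ςk n) N P,
    measurable_avO (measurable_obχ hΦ hM C _ _ N), fun x z m w hz h => one_le_obH hγ hM hz h, ?_⟩
  rw [mass_obH hΦ hf hM]
  have hdom := dom_st (f₀ := f₀) hΦ hf he (hε n) hρR t P
  have hcardκ : 1 ≤ Fintype.card (Idx P ⊕ Unit) := Fintype.card_pos_iff.2 ⟨Sum.inr ()⟩
  have hmass := gas_mass_le hf h1 he (hε n) N
    ((Finset.univ : Finset (Idx P)).disjSum (Finset.univ : Finset Unit))
    (E := obE Φ t (εk n) (Sk n) C (Rk n * εk n) (ςk n) P)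
    (measurableSet_obE hM C _ _) (δ := δ') (fun k hk b => by
      have h3 := hn k (Finset.mem_range.2 (Nat.lt_succ_of_le hk))
      rw [anch_univ]
      have h4 : Fintype.card (Fin k ⊕ (Idx P ⊕ Unit)) - 1 =
          k + (Fintype.card (Idx P ⊕ Unit) - 1) := by
        rw [Fintype.card_sum, Fintype.card_fin]; omega
      rw [h4] at h3
      exact h3) hct Λ hdom
  calc (gG γ)⁻¹ * gcE f₀ (εk n) (fun m w => (activity (εk n) • stM Φ f₀ γ (εk n) R t P)
        {θ | (w, stB P θ, stZ Φ (εk n) P θ) ∈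
          gSet N (obE Φ t (εk n) (Sk n) C (Rk n * εk n) (ςk n) P) m})
      ≤ (gG γ)⁻¹ * (c * Λ Set.univ * (δ' * ∑ k ∈ Finset.range (N + 1), C₀ ^ k)) :=
        mul_le_mul_right hmass _
    _ = K0 * δ' := by rw [hK0]; ring
    _ ≤ (K0 + 1) * δ' := mul_le_mul_left le_self_add _
    _ ≤ ENNReal.ofReal δ := by rw [hδ']; exact ENNReal.mul_div_le

end main

end Crest.Agent.R122.ObGas317
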