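import Crest.Agent.R122.F3Fin_370
import Crest.Agent.R122.LN2Main_473
import Crest.Agent.R122.VLClassSeq_973
import Crest.Agent.R122.QExitB_814

/-!
# Gas level with an obstacle (row 122, helper370), F3

* `osys` : `k` gas particles, a structure, an obstacle node; all births `0`.
* `ObBad` : some `Y ⊆ w`, `|Y| ≤ N`, is connected and not tree-like together with the structure and
  the obstacle.
* `ob_gas` : measurable majorant of `ObBad` along a converging generic sequence, small mass for every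
  dominated structure.
* `obNull_of_bad` : the second half of `F3Null`.
-/

set_option autoImplicit false
set_option linter.unusedSectionVars false
open MeasureTheory Set Filter
open scoped Classical ENNReal Topology
open Crest.AnalysisR.Kinetic
open Crest.Agent.R122.GC311 Crest.Agent.R122.Kin796 Crest.Agent.R122.Kin796.CTree
open Crest.Agent.R122.Tree674 Crest.Agent.R122.VL581 Crest.Agent.R122.LinkGas473
open Crest.Agent.R122.VLMeas973 Crest.Agent.R122.LN2 Crest.Agent.R122.GIV566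
open Crest.Agent.R122.ToTree335 Crest.Agent.R122.F3Fin370
noncomputable section

namespace Crest.Agent.R122.ObGas370

/-! ### The bad event -/

section defs

/-- The virtual system of `k` gas particles, a structure and an obstacle, births `0`. -/
def osys (Φ : Space3 → ℝ) (T ε : ℝ) {ι : Type} (S : Tubes ι) (k : ℕ) (κ : Type) :
    VSys (Fin k ⊕ (κ ⊕ Unit)) ι :=
  ⟨Φ, T, ε, fun _ => 0, some (Sum.inr (Sum.inr ())), S⟩

/-- Some `Y ⊆ w`, `|Y| ≤ N`, is connected and not tree-like together with the structure `z` and the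
obstacle at `y`. -/
def ObBad (Φ : Space3 → ℝ) (T C ε : ℝ) (N : ℕ) {ι : Type} (S : Tubes ι) {κ : Type} [Fintype κ]
    (z : κ → PhasePoint) (y : PhasePoint) {n : ℕ} (w : Config n) : Prop :=
  ∃ k ≤ N, ∃ g : Fin k ↪ Fin n,
    (osys Φ T ε S k κ).Conn C Finset.univ (Sum.elim (fun i => w (g i)) (Sum.elim z fun _ => y)) ∧
    ∀ ℓ ς, ¬ (osys Φ T ε S k κ).TreeLike C ℓ ς Finset.univ
      (Sum.elim (fun i => w (g i)) (Sum.elim z fun _ => y))

end defs

/-- One part which is connected and not tree-like is a bad partition. -/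
theorem badPart_one {J κ : Type} [Fintype J] [Nonempty J] {M : VSys J κ} {C ℓ ς : ℝ} {A : Finset J}
    {Z : J → PhasePoint} (hA : A.Nonempty) (hC : M.Conn C Finset.univ Z)
    (hT : ¬ M.TreeLike C ℓ ς Finset.univ Z) : M.BadPart C ℓ ς 1 A Z := by
  have hne : (Finset.univ : Finset J) ≠ ⊥ := Finset.univ_nonempty.ne_empty
  refine ⟨Finpartition.indiscrete hne, ?_, Or.inr ⟨?_, Finset.univ, ?_, ?_⟩⟩
  · intro P hP
    rw [Finpartition.indiscrete_parts, Finset.mem_singleton] at hP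
    subst hP
    obtain ⟨x, hx⟩ := hA
    exact ⟨hC, x, Finset.mem_univ _, hx⟩
  · rw [Finpartition.indiscrete_parts, Finset.card_singleton]
  · rw [Finpartition.indiscrete_parts]
    exact Finset.mem_singleton_self _
  · rw [tlp_univ]
    exact hT

section gas

variable {Φ : Space3 → ℝ} {f₀ : PhasePoint → ℝ} {T γ : ℝ} {ρ : Space3 → ℝ≥0∞} {C₀ : ℝ≥0∞}
variable {κ ι : Type} [Fintype κ] [Fintype ι]

/-- **LN2 at gas level with an obstacle.** -/
theorem ob_gas (hΦ : AdmissiblePotential Φ) (hVC : VC Φ) (hVL : VL Φ) (hf : Measurable f₀)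
    (h1 : ∫⁻ z, ENNReal.ofReal (f₀ z) ≤ 1) (he : Env f₀ γ ρ C₀) (hγ : 0 < γ) (hT : 0 < T)
    {Sk : ℕ → Tubes ι} {S : Tubes ι} {εk : ℕ → ℝ} (hε : ∀ k, 0 < εk k)
    (hε0 : Tendsto εk atTop (𝓝 0)) (hconv : TubeConv T Sk S) (hgen : Generic T S)
    (C : ℝ) (N : ℕ) {c : ℝ≥0∞} (hc : c ≠ ∞) (Λ : Measure (κ ⊕ Unit → ℝ)) [IsFiniteMeasure Λ]
    {δ : ℝ≥0∞} (hδ : 0 < δ) :
    ∀ᶠ n in atTop, ∃ G : (m : ℕ) → Set (Config m × (κ ⊕ Unit → ℝ) × (κ ⊕ Unit → PhasePoint)),
      (∀ m, MeasurableSet (G m)) ∧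
      (∀ m (w : Config m) b (z : κ → PhasePoint) y,
        ObBad Φ T C (εk n) N (Sk n) z y w → (w, b, Sum.elim z fun _ => y) ∈ G m) ∧
      ∀ (Θ : Type) [MeasurableSpace Θ] (m : Measure Θ) [SFinite m] (b : Θ → κ ⊕ Unit → ℝ)
        (z : Θ → κ ⊕ Unit → PhasePoint), Dom γ ρ (εk n) 1 Finset.univ c Λ m b z →
        gcE f₀ (εk n) (fun n w => m {θ | (w, b θ, z θ) ∈ G n}) ≤ δ := by
  set K : ℝ≥0∞ := c * Λ univ * ∑ k ∈ Finset.range (N + 1), C₀ ^ k with hK
  have hKt : K ≠ ∞ := by
    refine ENNReal.mul_ne_top (ENNReal.mul_ne_top hc (measure_ne_top Λ _)) ?_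
    exact ENNReal.sum_ne_top.2 fun k _ => ENNReal.pow_ne_top he.fin
  have hK0 : K + 1 ≠ 0 := by simp
  have hKt' : K + 1 ≠ ∞ := ENNReal.add_ne_top.2 ⟨hKt, ENNReal.one_ne_top⟩
  set δ' : ℝ≥0∞ := δ / (K + 1) with hδ'
  have hδ'0 : 0 < δ' := ENNReal.div_pos hδ.ne' hKt'
  set Rn : ℕ → ℝ := fun n => n with hRn
  set ςn : ℕ → ℝ := fun n => 1 / ((n : ℝ) + 1) with hςn
  have hRt : Tendsto Rn atTop atTop := tendsto_natCast_atTop_atTop
  have hςt : Tendsto ςn atTop (𝓝 0) := tendsto_one_div_add_atTop_nhds_zero_nat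
  have hobs : ∀ k : ℕ, ∀ j : Fin k ⊕ (κ ⊕ Unit), some (Sum.inr (Sum.inr ())) = some j →
      j ∈ anch k (Finset.univ : Finset (κ ⊕ Unit)) := by
    intro k j hj
    rw [Option.some.injEq] at hj
    subst hj
    exact Finset.inr_mem_disjSum.2 (Finset.mem_univ _)
  have hcardpos : 1 ≤ Fintype.card (κ ⊕ Unit) := Fintype.card_pos
  have key : ∀ k : ℕ, (∀ᶠ n in atTop, Good (osys Φ T (εk n) (Sk n) k κ)) ∧
      ∀ᶠ n in atTop, (ENNReal.ofReal ((εk n) ^ 2) ^ (Fintype.card (Fin k ⊕ (κ ⊕ Unit)) - 1))⁻¹ *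
        ∫⁻ Z, (badQ (osys Φ T (εk n) (Sk n) k κ) C (Rn n * εk n) (ςn n) 1
          (anch k Finset.univ)).indicator (wA γ ρ (anch k Finset.univ)) Z ≤ δ' := by
    intro k
    have h := class_null_seq (J := Fin k ⊕ (κ ⊕ Unit)) (κ := ι) (T := T) (C := C) hΦ hVC hVL hγ hT
      (M := fun n => osys Φ T (εk n) (Sk n) k κ) (o := some (Sum.inr (Sum.inr ())))
      (b := fun _ => 0) (S := S) (R := Rn) (ς := ςn)
      (fun n => ⟨rfl, rfl, rfl, hε n⟩) hε0 (fun i => tendsto_const_nhds) hconv hgen hRt hςt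
      (s := 1) (by rw [Fintype.card_sum]; omega) (A := anch k Finset.univ) (hobs k)
      he.meas he.le_one he.int
    exact ⟨h.1, h.2.eventually_le_const hδ'0⟩
  have hall1 := (Finset.eventually_all (Finset.range (N + 1))).2 fun k _ => (key k).1
  have hall2 := (Finset.eventually_all (Finset.range (N + 1))).2 fun k _ => (key k).2
  filter_upwards [hall1, hall2] with n hn1 hn2
  set E : (k : ℕ) → Set ((Fin k ⊕ (κ ⊕ Unit) → ℝ) × (Fin k ⊕ (κ ⊕ Unit) → PhasePoint)) :=
    fun k => if k ≤ N then {q | q.2 ∈ badQ (osys Φ T (εk n) (Sk n) k κ) C (Rn n * εk n) (ςn n) 1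
      (anch k Finset.univ)} else ∅ with hE
  have hEm : ∀ k, MeasurableSet (E k) := by
    intro k
    by_cases hk : k ≤ N
    · simp only [hE, if_pos hk]
      exact measurable_snd (measurableSet_badQ' (hn1 k (Finset.mem_range.2 (Nat.lt_succ_of_le hk)))
        C _ _ 1 _)
    · simp only [hE, if_neg hk]
      exact MeasurableSet.empty
  refine ⟨gSet N E, measurableSet_gSet hEm, ?_, ?_⟩
  · rintro m w b z y ⟨k, hk, g, hC, hTL⟩
    refine ⟨k, hk, g, ?_⟩
    simp only [hE, if_pos hk]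
    refine badPart_subset (hn1 k (Finset.mem_range.2 (Nat.lt_succ_of_le hk))) ?_
    have : Nonempty (Fin k ⊕ (κ ⊕ Unit)) := ⟨Sum.inr (Sum.inr ())⟩
    exact badPart_one ⟨_, hobs k _ rfl⟩ hC (hTL _ _)
  · intro Θ _ m _ b z hdom
    have hD : ∀ k ≤ N, ∀ b : Fin k ⊕ (κ ⊕ Unit) → ℝ,
        ∫⁻ Z, {Z | (b, Z) ∈ E k}.indicator (wgtA γ ρ (anch k Finset.univ)) Z ≤
          δ' * ENNReal.ofReal ((εk n) ^ 2) ^ (k + (Fintype.card (κ ⊕ Unit) - 1)) := by
      intro k hk b
      have h2 := hn2 k (Finset.mem_range.2 (Nat.lt_succ_of_le hk))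
      have h3 : Fintype.card (Fin k ⊕ (κ ⊕ Unit)) - 1 = k + (Fintype.card (κ ⊕ Unit) - 1) := by
        rw [Fintype.card_sum, Fintype.card_fin]; omega
      rw [h3] at h2
      have h4 : wgtA γ ρ (anch k Finset.univ) =
          wA γ ρ (anch k (Finset.univ : Finset (κ ⊕ Unit))) := by
        funext Z
        unfold wgtA wA gv
        simp only [wG_eq]
      have h5 : {Z | (b, Z) ∈ E k} = badQ (osys Φ T (εk n) (Sk n) k κ) C (Rn n * εk n) (ςn n) 1
          (anch k Finset.univ) := by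
        simp only [hE, if_pos hk]
        rfl
      rw [h4, h5]
      have hx0 : ENNReal.ofReal ((εk n) ^ 2) ^ (k + (Fintype.card (κ ⊕ Unit) - 1)) ≠ 0 := by
        refine pow_ne_zero _ ?_
        rw [Ne, ENNReal.ofReal_eq_zero, not_le]
        have := hε n
        positivity
      have hxt : ENNReal.ofReal ((εk n) ^ 2) ^ (k + (Fintype.card (κ ⊕ Unit) - 1)) ≠ ∞ :=
        ENNReal.pow_ne_top ENNReal.ofReal_ne_top
      exact ((ENNReal.inv_mul_le_iff hx0 hxt).1 h2).trans (le_of_eq (mul_comm _ _))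
    calc gcE f₀ (εk n) (fun n w => m {θ | (w, b θ, z θ) ∈ gSet N E n})
        ≤ c * Λ univ * (δ' * ∑ k ∈ Finset.range (N + 1), C₀ ^ k) :=
          gas_mass_le hf h1 he (hε n) N Finset.univ hEm hD hc Λ hdom
      _ = K * δ' := by rw [hK]; ring
      _ ≤ (K + 1) * δ' := by gcongr; exact le_self_add
      _ = δ := by rw [hδ', ENNReal.mul_div_cancel hK0 hKt']

end gas

/-! ### Structures -/

section struct

variable {Φ : Space3 → ℝ} {f₀ : PhasePoint → ℝ} {γ R ε t : ℝ} {ρ : Space3 → ℝ≥0∞} {C₀ : ℝ≥0∞}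

/-- Law of the obstacle: position in a ball, Gaussian dummy velocity. -/
def obD (γ R : ℝ) (y : PhasePoint) : ℝ≥0∞ :=
  (Metric.closedBall (0 : Space3) R).indicator 1 y.1 * wG γ y.2

theorem measurable_obD : Measurable (obD γ R) := by
  unfold obD
  refine Measurable.mul ?_ (measurable_wG'.comp measurable_snd)
  exact (measurable_one.indicator Metric.isClosed_closedBall.measurableSet).comp measurable_fst

def obM (γ R : ℝ) : Measure PhasePoint := (volume : Measure PhasePoint).withDensity (obD γ R)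

instance : SFinite (obM γ R) := by unfold obM; infer_instance

theorem lintegral_obM {F : PhasePoint → ℝ≥0∞} (hF : Measurable F) :
    ∫⁻ y, F y ∂(obM γ R) = ∫⁻ x in Metric.closedBall (0 : Space3) R, ∫⁻ u, wG γ u * F (x, u) := by
  have hm : Measurable fun y : PhasePoint => obD γ R y * F y := measurable_obD.mul hF
  have h1 : ∫⁻ y, F y ∂(obM γ R) = ∫⁻ y : Space3 × Space3, obD γ R y * F y := by
    unfold obM
    rw [lintegral_withDensity_eq_lintegral_mul _ measurable_obD hF]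
    rfl
  rw [h1]
  change ∫⁻ y, obD γ R y * F y ∂((volume : Measure Space3).prod (volume : Measure Space3)) = _
  rw [lintegral_prod _ hm.aemeasurable, ← lintegral_indicator
    Metric.isClosed_closedBall.measurableSet]
  refine lintegral_congr fun x => ?_
  by_cases hx : x ∈ Metric.closedBall (0 : Space3) R
  · rw [indicator_of_mem hx]
    refine lintegral_congr fun u => ?_
    simp only [obD, indicator_of_mem hx, Pi.one_apply, one_mul]
  · rw [indicator_of_notMem hx]
    simp only [obD, indicator_of_notMem hx, zero_mul, lintegral_zero]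

theorem dom_ob (hρ : Measurable ρ) (h : ∀ x ∈ Metric.closedBall (0 : Space3) R, 1 ≤ ρ x) :
    Dom γ ρ ε 1 (Finset.univ : Finset Unit) 1 (Measure.dirac fun _ : Unit => (0 : ℝ)) (obM γ R)
      (fun _ _ => 0) (fun y _ => y) where
  mb := measurable_const
  mz := measurable_pi_iff.2 fun _ => measurable_id
  le F hF := by
    have e0 : Fintype.card Unit - 1 = 0 := rfl
    have hF0 : Measurable fun z : Unit → PhasePoint => F ((fun _ => 0), z) :=
      hF.comp (measurable_const.prodMk measurable_id)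
    have hout : Measurable fun b : Unit → ℝ => ∫⁻ z, wgtA γ ρ Finset.univ z * F (b, z) := by
      have h1 : Measurable fun p : (Unit → ℝ) × (Unit → PhasePoint) =>
          wgtA γ ρ Finset.univ p.2 * F p := ((measurable_wgtA hρ _).comp measurable_snd).mul hF
      exact h1.lintegral_prod_right'
    rw [e0, pow_zero, one_mul, one_mul, lintegral_dirac' _ hout]
    have hFy : Measurable fun y : PhasePoint => F ((fun _ => 0), fun _ => y) :=
      hF.comp (measurable_const.prodMk (measurable_pi_iff.2 fun _ => measurable_id))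
    have h1 : ∫⁻ y, F ((fun _ => 0), fun _ => y) ∂(obM γ R) =
        ∫⁻ y : PhasePoint, obD γ R y * F ((fun _ => 0), fun _ => y) := by
      unfold obM
      rw [lintegral_withDensity_eq_lintegral_mul _ measurable_obD hFy]
      rfl
    refine h1.le.trans ?_
    rw [lintegral_unit (fun z => wgtA γ ρ Finset.univ z * F ((fun _ => 0), z))
      ((measurable_wgtA hρ _).mul hF0)]
    refine lintegral_mono fun y => mul_le_mul_left ?_ _
    unfold obD wgtA
    simp only [Finset.univ_unique, Finset.prod_singleton]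
    refine mul_le_mul_left ?_ _
    by_cases hx : y.1 ∈ Metric.closedBall (0 : Space3) R
    · rw [indicator_of_mem hx]
      exact h _ hx
    · rw [indicator_of_notMem hx]
      exact bot_le

/-- An activity instead of a group. -/
theorem dom_act {κ : Type} [Fintype κ] {s : ℕ} {A₀ : Finset κ} {c : ℝ≥0∞} {Λ : Measure (κ → ℝ)}
    {Θ : Type} [MeasurableSpace Θ] {m : Measure Θ} {b : Θ → κ → ℝ} {z : Θ → κ → PhasePoint}
    (hε : 0 < ε) (h : Dom γ ρ ε (s + 1) A₀ c Λ m b z) (hs : s + 1 ≤ Fintype.card κ) :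
    Dom γ ρ ε s A₀ c Λ (activity ε • m) b z where
  mb := h.mb
  mz := h.mz
  le F hF := by
    have h1 : ENNReal.ofReal (ε ^ 2) ^ (Fintype.card κ - s) * activity ε =
        ENNReal.ofReal (ε ^ 2) ^ (Fintype.card κ - (s + 1)) := by
      have h2 : Fintype.card κ - s = (Fintype.card κ - (s + 1)) + 1 := by omega
      rw [h2, pow_succ, mul_assoc]
      have h3 := activity_pow_mul_pow hε 1
      rw [pow_one, pow_one, mul_comm] at h3
      rw [h3, mul_one]
    rw [lintegral_smul_measure, smul_eq_mul, ← mul_assoc, h1]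
    exact h.le F hF

/-- The tree with the obstacle. -/
theorem dom_tree_ob (hΦ : AdmissiblePotential Φ) (hf : Measurable f₀) (he : Env f₀ γ ρ C₀)
    (hε : 0 < ε) (hR : ∀ x ∈ Metric.closedBall (0 : Space3) R, 1 ≤ ρ x) (P : CTree) :
    Dom γ ρ ε 1 (Finset.univ : Finset (Idx P ⊕ Unit)) (C₀ ^ Fintype.card (Idx P) * 1)
      (prodΛ (Measure.dirac fun _ : Idx P => (0 : ℝ)) (Measure.dirac fun _ : Unit => (0 : ℝ)))
      (activity ε • (treeM Φ f₀ ε P t).prod (obM γ R)) (fun _ => Sum.elim (fun _ => 0) fun _ => 0)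
      (fun θ => Sum.elim (linesM Φ ε P θ.1.1 θ.1.2) fun _ => θ.2) := by
  have hc1 : 1 ≤ Fintype.card (Idx P) := Fintype.card_pos_iff.2 ⟨root P⟩
  have h := Dom.prod (s₁ := 1) (s₂ := 1) he.meas (dom_tree hΦ hf he hε P t)
    (dom_ob (γ := γ) (R := R) (ε := ε) he.meas hR) hc1 le_rfl
  have h2 := dom_act hε h (by rw [Fintype.card_sum, Fintype.card_unit]; omega)
  have hA : (Finset.univ : Finset (Idx P)).disjSum (Finset.univ : Finset Unit) =
      (Finset.univ : Finset (Idx P ⊕ Unit)) := by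
    ext x
    rcases x with x | x <;> simp
  rw [hA] at h2
  exact h2

end struct

/-! ### The second half of `F3Null` -/

section final

variable {Φ : Space3 → ℝ} {f₀ : PhasePoint → ℝ} {γ T t : ℝ} {ρ : Space3 → ℝ≥0∞} {C₀ : ℝ≥0∞}

/-- The density `wG` has a positive finite mass. -/
theorem wG_mass (hγ : 0 < γ) : (∫⁻ u : Space3, wG γ u) ≠ 0 ∧ (∫⁻ u : Space3, wG γ u) ≠ ∞ := by
  refine ⟨?_, (QExit814.lintegral_wG_lt_top hγ).ne⟩
  rw [Ne, lintegral_eq_zero_iff measurable_wG']
  intro h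
  have h2 : ∀ᵐ u : Space3, False := by
    filter_upwards [h] with u hu
    have h3 : wG γ u = 0 := hu
    unfold wG at h3
    rw [ENNReal.ofReal_eq_zero] at h3
    exact absurd h3 (not_le.2 (Real.exp_pos _))
  rw [ae_iff] at h2
  simp at h2

/-- Larger density of the anchors. -/
theorem env_max (he : Env f₀ γ ρ C₀) (R : ℝ) :
    Env f₀ γ (fun x => max (ρ x) ((Metric.closedBall (0 : Space3) R).indicator 1 x)) C₀ where
  meas := he.meas.max (measurable_one.indicator Metric.isClosed_closedBall.measurableSet)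
  le_one x := max_le (he.le_one x) (by
    by_cases hx : x ∈ Metric.closedBall (0 : Space3) R
    · rw [indicator_of_mem hx]; exact le_rfl
    · rw [indicator_of_notMem hx]; exact bot_le)
  int := by
    refine lt_of_le_of_lt (lintegral_mono fun x => max_le_add_of_nonneg bot_le bot_le) ?_
    rw [lintegral_add_left he.meas]
    refine ENNReal.add_lt_top.2 ⟨he.int, ?_⟩
    rw [lintegral_indicator_one Metric.isClosed_closedBall.measurableSet]
    exact (isCompact_closedBall _ _).measure_lt_top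
  fin := he.fin
  le z := (he.le z).trans (by gcongr; exact le_max_left _ _)

/-- Indicator of membership as a function. -/
def chi {α : Type*} (G : Set α) (a : α) : ℝ≥0∞ := if a ∈ G then 1 else 0

theorem measurable_chi {α : Type*} [MeasurableSpace α] {G : Set α} (hG : MeasurableSet G) :
    Measurable (chi G) := Measurable.ite hG measurable_const measurable_const

section chi

variable {ε R : ℝ} {P : CTree}

/-- The states of the structure tree + obstacle. -/
def stT (Φ : Space3 → ℝ) (ε : ℝ) (P : CTree) (z : PhasePoint × Par P) (y : PhasePoint) :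
    Idx P ⊕ Unit → PhasePoint := Sum.elim (linesM Φ ε P z.1 z.2) fun _ => y

theorem measurable_stT (hΦ : AdmissiblePotential Φ) (ε : ℝ) (P : CTree) :
    Measurable fun q : (PhasePoint × Par P) × PhasePoint => stT Φ ε P q.1 q.2 := by
  have h1 : Measurable fun q : (PhasePoint × Par P) × PhasePoint =>
      ((linesM Φ ε P q.1.1 q.1.2, fun _ => q.2) :
        (Idx P → PhasePoint) × (Unit → PhasePoint)) :=
    ((measurable_linesM hΦ ε P).comp measurable_fst).prodMk
      (measurable_pi_iff.2 fun _ => measurable_snd)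
  exact measurable_sumElim.comp h1

/-- The indicator of the majorant. -/
def chiP (Φ : Space3 → ℝ) (ε : ℝ) (P : CTree)
    (G : (m : ℕ) → Set (Config m × (Idx P ⊕ Unit → ℝ) × (Idx P ⊕ Unit → PhasePoint)))
    (z : PhasePoint × Par P) (y : PhasePoint) (m : ℕ) (w : Config m) : ℝ≥0∞ :=
  chi (G m) (w, Sum.elim (fun _ => 0) (fun _ => 0), stT Φ ε P z y)

variable {G : (m : ℕ) → Set (Config m × (Idx P ⊕ Unit → ℝ) × (Idx P ⊕ Unit → PhasePoint))}

theorem measurable_chiP (hΦ : AdmissiblePotential Φ) (hG : ∀ m, MeasurableSet (G m)) (m : ℕ) :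
    Measurable fun q : ((PhasePoint × Par P) × PhasePoint) × Config m =>
      chiP Φ ε P G q.1.1 q.1.2 m q.2 :=
  (measurable_chi (hG m)).comp (measurable_snd.prodMk (measurable_const.prodMk
    ((measurable_stT hΦ ε P).comp measurable_fst)))

/-- The majorant: average over the dummy velocity. -/
def HH (γ : ℝ) (Φ : Space3 → ℝ) (ε : ℝ) (P : CTree)
    (G : (m : ℕ) → Set (Config m × (Idx P ⊕ Unit → ℝ) × (Idx P ⊕ Unit → PhasePoint)))
    (x : Space3) (z : PhasePoint × Par P) (m : ℕ) (w : Config m) : ℝ≥0∞ :=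
  (∫⁻ u : Space3, wG γ u)⁻¹ * ∫⁻ u : Space3, wG γ u * chiP Φ ε P G z (x, u) m w

theorem measurable_HH (hΦ : AdmissiblePotential Φ) (hG : ∀ m, MeasurableSet (G m)) (m : ℕ) :
    Measurable fun q : (Space3 × (PhasePoint × Par P)) × Config m =>
      HH γ Φ ε P G q.1.1 q.1.2 m q.2 := by
  have h : Measurable fun q : ((Space3 × (PhasePoint × Par P)) × Config m) × Space3 =>
      wG γ q.2 * chiP Φ ε P G q.1.1.2 (q.1.1.1, q.2) m q.1.2 :=
    (measurable_wG'.comp measurable_snd).mul ((measurable_chiP hΦ hG m).comp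
      (((measurable_fst.fst.snd).prodMk (measurable_fst.fst.fst.prodMk measurable_snd)).prodMk
        measurable_fst.snd))
  exact (h.lintegral_prod_right').const_mul _

/-- Conditional expectation of the indicator. -/
def JJ (f₀ : PhasePoint → ℝ) (Φ : Space3 → ℝ) (ε : ℝ) (P : CTree)
    (G : (m : ℕ) → Set (Config m × (Idx P ⊕ Unit → ℝ) × (Idx P ⊕ Unit → PhasePoint)))
    (q : (PhasePoint × Par P) × PhasePoint) : ℝ≥0∞ := gcE f₀ ε fun m w => chiP Φ ε P G q.1 q.2 m w

theorem measurable_JJ (hΦ : AdmissiblePotential Φ) (hf : Measurable f₀)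
    (hG : ∀ m, MeasurableSet (G m)) : Measurable (JJ f₀ Φ ε P G) := by
  have h := measurable_gcE_par (ε := ε) (Ω := (PhasePoint × Par P) × PhasePoint) hf
    (F := fun (q : (PhasePoint × Par P) × PhasePoint) m w => chiP Φ ε P G q.1 q.2 m w)
    (fun m => measurable_chiP hΦ hG m)
  exact h

theorem gcE_HH (hΦ : AdmissiblePotential Φ) (hf : Measurable f₀) (hγ : 0 < γ)
    (hG : ∀ m, MeasurableSet (G m)) (x : Space3) (z : PhasePoint × Par P) :
    gcE f₀ ε (fun m w => HH γ Φ ε P G x z m w) =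
      (∫⁻ u : Space3, wG γ u)⁻¹ * ∫⁻ u : Space3, wG γ u * JJ f₀ Φ ε P G (z, (x, u)) := by
  unfold HH
  rw [gcE_const_mul f₀ ε (ENNReal.inv_ne_top.2 (wG_mass hγ).1)]
  congr 1
  have hF : ∀ m, Measurable (Function.uncurry fun (u : Space3) (w : Config m) =>
      wG γ u * chiP Φ ε P G z (x, u) m w) := fun m =>
    (measurable_wG'.comp measurable_fst).mul ((measurable_chiP hΦ hG m).comp
      ((measurable_const.prodMk (measurable_const.prodMk measurable_fst)).prodMk
        measurable_snd))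
  rw [← lintegral_gcE_swap hf ε (volume : Measure Space3)
    (F := fun m u w => wG γ u * chiP Φ ε P G z (x, u) m w) hF]
  refine lintegral_congr fun u => ?_
  exact gcE_const_mul f₀ ε (by unfold wG; exact ENNReal.ofReal_ne_top) _

theorem gcE_measure (hΦ : AdmissiblePotential Φ) (hf : Measurable f₀)
    (hG : ∀ m, MeasurableSet (G m)) :
    gcE f₀ ε (fun m w => (activity ε • (treeM Φ f₀ ε P t).prod (obM γ R))
        {θ | (w, (Sum.elim (fun _ => 0) (fun _ => 0) : Idx P ⊕ Unit → ℝ),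
          stT Φ ε P θ.1 θ.2) ∈ G m}) =
      activity ε * ∫⁻ z, (∫⁻ y, JJ f₀ Φ ε P G (z, y) ∂(obM γ R)) ∂(treeM Φ f₀ ε P t) := by
  have hset : ∀ m (w : Config m), MeasurableSet
      {θ : (PhasePoint × Par P) × PhasePoint | (w,
        (Sum.elim (fun _ => 0) (fun _ => 0) : Idx P ⊕ Unit → ℝ), stT Φ ε P θ.1 θ.2) ∈ G m} :=
    fun m w => (measurable_const.prodMk (measurable_const.prodMk (measurable_stT hΦ ε P))) (hG m)
  have e1 : ∀ m (w : Config m), (activity ε • (treeM Φ f₀ ε P t).prod (obM γ R))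
      {θ | (w, (Sum.elim (fun _ => 0) (fun _ => 0) : Idx P ⊕ Unit → ℝ),
        stT Φ ε P θ.1 θ.2) ∈ G m} =
      activity ε * ∫⁻ θ, chiP Φ ε P G θ.1 θ.2 m w ∂((treeM Φ f₀ ε P t).prod (obM γ R)) := by
    intro m w
    rw [Measure.smul_apply, smul_eq_mul, ← lintegral_indicator_one (hset m w)]
    congr 1
  simp only [e1]
  rw [gcE_const_mul f₀ ε (activity_ne_top ε),
    ← lintegral_gcE_swap hf ε ((treeM Φ f₀ ε P t).prod (obM γ R))
      (F := fun m θ w => chiP Φ ε P G θ.1 θ.2 m w) (measurable_chiP hΦ hG)]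
  congr 1
  exact lintegral_prod _ (measurable_JJ hΦ hf hG).aemeasurable

theorem mass_HH (hΦ : AdmissiblePotential Φ) (hf : Measurable f₀) (hγ : 0 < γ)
    (hG : ∀ m, MeasurableSet (G m)) :
    ∫⁻ x in Metric.closedBall (0 : Space3) R, tI Φ f₀ ε t P (HH γ Φ ε P G x) =
      (∫⁻ u : Space3, wG γ u)⁻¹ *
        ∫⁻ z, (∫⁻ y, JJ f₀ Φ ε P G (z, y) ∂(obM γ R)) ∂(treeM Φ f₀ ε P t) := by
  have hJm := measurable_JJ (ε := ε) (P := P) hΦ hf hG
  have hJx : Measurable fun q : (Space3 × (PhasePoint × Par P)) × Space3 =>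
      wG γ q.2 * JJ f₀ Φ ε P G (q.1.2, (q.1.1, q.2)) :=
    (measurable_wG'.comp measurable_snd).mul (hJm.comp
      (measurable_fst.snd.prodMk (measurable_fst.fst.prodMk measurable_snd)))
  have hin : Measurable fun q : Space3 × (PhasePoint × Par P) =>
      ∫⁻ u : Space3, wG γ u * JJ f₀ Φ ε P G (q.2, (q.1, u)) := hJx.lintegral_prod_right'
  have hL2 : ∀ x, tI Φ f₀ ε t P (HH γ Φ ε P G x) = (∫⁻ u : Space3, wG γ u)⁻¹ *
      ∫⁻ z, (∫⁻ u : Space3, wG γ u * JJ f₀ Φ ε P G (z, (x, u))) ∂(treeM Φ f₀ ε P t) := by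
    intro x
    have hxm : Measurable fun z : PhasePoint × Par P =>
        ∫⁻ u : Space3, wG γ u * JJ f₀ Φ ε P G (z, (x, u)) := by
      have h := hin.comp (measurable_prodMk_left (x := x) (β := PhasePoint × Par P))
      exact h
    rw [← lintegral_const_mul _ hxm, lintegral_treeM hΦ hf ε P t (hxm.const_mul _)]
    unfold tI
    refine lintegral_congr fun z => ?_
    by_cases hz : z ∈ {z : PhasePoint × Par P | Valid Φ ε P t z.1.2 z.2}
    · rw [indicator_of_mem hz, indicator_of_mem hz, gcE_HH hΦ hf hγ hG]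
    · rw [indicator_of_notMem hz, indicator_of_notMem hz]
  simp only [hL2]
  have hout : Measurable fun x : Space3 =>
      ∫⁻ z, (∫⁻ u : Space3, wG γ u * JJ f₀ Φ ε P G (z, (x, u))) ∂(treeM Φ f₀ ε P t) :=
    hin.lintegral_prod_right'
  rw [lintegral_const_mul _ hout]
  congr 1
  rw [lintegral_lintegral_swap hin.aemeasurable]
  refine lintegral_congr fun z => ?_
  have h := hJm.comp (measurable_prodMk_left (x := z) (β := PhasePoint))
  exact (lintegral_obM h).symm

end chi

/-- **Second half of `F3Null`.** -/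
theorem obNull_of_bad (hΦ : AdmissiblePotential Φ) (hVC : VC Φ) (hVL : VL Φ) (hf : Measurable f₀)
    (h1 : ∫⁻ z, ENNReal.ofReal (f₀ z) ≤ 1) (he : Env f₀ γ ρ C₀) (hγ : 0 < γ) (hT : 0 < T)
    (P : CTree) (K : ℕ) (X : ℝ → PhasePoint × Par P → (m : ℕ) → Config m → Prop) (C : ℝ) (N : ℕ)
    (hdet : ∀ᶠ ε in 𝓝[>] (0 : ℝ), ∀ (ι : Type) [Fintype ι] (S : Tubes ι) (x : Space3) z m
      (w : Config m), Excl Φ ε P z w → ObEv Φ ε K t (S.shift x) P z w → ¬ X ε z m w →
        ∀ u, ObBad Φ T C ε N S (lines Φ ε P z.1 z.2) (x, u) w) :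
    ∀ (ι : Type) [Fintype ι] (Sk : ℕ → Tubes ι) (S : Tubes ι) (εk : ℕ → ℝ),
      (∀ k, 0 < εk k) → Tendsto εk atTop (𝓝 0) → TubeConv T Sk S → Generic T S →
      (∀ n i, Continuous ((Sk n).c i)) → ∀ (R δ' : ℝ), 0 < δ' → ∀ᶠ n in atTop,
        ∃ H : Space3 → PhasePoint × Par P → (m : ℕ) → Config m → ℝ≥0∞,
          (∀ m, Measurable fun q : (Space3 × (PhasePoint × Par P)) × Config m =>
            H q.1.1 q.1.2 m q.2) ∧
          (∀ x ∈ Metric.closedBall (0 : Space3) R, ∀ z m (w : Config m), Excl Φ (εk n) P z w →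
            ObEv Φ (εk n) K t ((Sk n).shift x) P z w → ¬ X (εk n) z m w → 1 ≤ H x z m w) ∧
          activity (εk n) * ∫⁻ x in Metric.closedBall (0 : Space3) R, tI Φ f₀ (εk n) t P (H x) ≤
            ENNReal.ofReal δ' := by
  intro ι _ Sk S εk hε hε0 hconv hgen hcont R δ' hδ'
  obtain ⟨hm0, hmt⟩ := wG_mass hγ
  have heR := env_max he R
  have hR : ∀ x ∈ Metric.closedBall (0 : Space3) R,
      1 ≤ max (ρ x) ((Metric.closedBall (0 : Space3) R).indicator 1 x) := fun x hx => by
    refine le_trans ?_ (le_max_right _ _)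
    rw [indicator_of_mem hx]
    exact le_rfl
  have hc : C₀ ^ Fintype.card (Idx P) * 1 ≠ ∞ := by
    rw [mul_one]; exact ENNReal.pow_ne_top he.fin
  have hδM : 0 < (∫⁻ u : Space3, wG γ u) * ENNReal.ofReal δ' :=
    ENNReal.mul_pos hm0 (ENNReal.ofReal_pos.2 hδ').ne'
  have hgas := ob_gas (κ := Idx P) hΦ hVC hVL hf h1 heR hγ hT hε hε0 hconv hgen C N hc
    (prodΛ (Measure.dirac fun _ : Idx P => (0 : ℝ)) (Measure.dirac fun _ : Unit => (0 : ℝ))) hδM
  have hε0' : Tendsto εk atTop (𝓝[>] 0) := tendsto_nhdsWithin_iff.2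
    ⟨hε0, Eventually.of_forall fun n => hε n⟩
  filter_upwards [hgas, hε0'.eventually hdet] with n hn hdn
  obtain ⟨G, hGm, hGb, hGd⟩ := hn
  refine ⟨HH γ Φ (εk n) P G, measurable_HH hΦ hGm, ?_, ?_⟩
  · intro x hx z m w hex hev hX
    have hadm : Adm Φ P z.1.2 z.2 := by
      obtain ⟨σ, _, hF, _⟩ := hev
      exact hF.valid.1
    have hin : ∀ u, chiP Φ (εk n) P G z (x, u) m w = 1 := by
      intro u
      have hb := hdn ι (Sk n) x z m w hex hev hX u
      have hmem := hGb m w (Sum.elim (fun _ => 0) (fun _ => 0)) (lines Φ (εk n) P z.1 z.2) (x, u) hb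
      rw [← linesM_of_adm (εk n) hadm] at hmem
      unfold chiP chi stT
      rw [if_pos hmem]
    unfold HH
    simp only [hin, mul_one]
    rw [ENNReal.inv_mul_cancel hm0 hmt]
  · -- the mass
    have hd := hGd ((PhasePoint × Par P) × PhasePoint)
      (activity (εk n) • (treeM Φ f₀ (εk n) P t).prod (obM γ R))
      (fun _ => Sum.elim (fun _ => 0) fun _ => 0)
      (fun θ => stT Φ (εk n) P θ.1 θ.2)
      (dom_tree_ob hΦ hf heR (hε n) hR P)
    rw [gcE_measure hΦ hf hGm] at hd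
    rw [mass_HH hΦ hf hγ hGm]
    calc activity (εk n) * ((∫⁻ u : Space3, wG γ u)⁻¹ *
          ∫⁻ z, (∫⁻ y, JJ f₀ Φ (εk n) P G (z, y) ∂(obM γ R)) ∂(treeM Φ f₀ (εk n) P t))
        = (∫⁻ u : Space3, wG γ u)⁻¹ * (activity (εk n) *
          ∫⁻ z, (∫⁻ y, JJ f₀ Φ (εk n) P G (z, y) ∂(obM γ R)) ∂(treeM Φ f₀ (εk n) P t)) := by ring
      _ ≤ (∫⁻ u : Space3, wG γ u)⁻¹ * ((∫⁻ u : Space3, wG γ u) * ENNReal.ofReal δ') :=
          mul_le_mul_right hd _
      _ = ENNReal.ofReal δ' := by rw [← mul_assoc, ENNReal.inv_mul_cancel hm0 hmt, one_mul]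

end final

end Crest.Agent.R122.ObGas370
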