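import Crest.Agent.R122.MotE4_167
import Crest.Agent.R122.TransD3_151
import Crest.Agent.R122.OkRoot_663
import Crest.Agent.R122.GoodOf_263

/-!
# Good worlds of inequality 1 (row 122), helper167

* `GoodP`, `ae_goodP` : `ae_okFamD` (151), one family at a time.
* `okFam_of_sub` : `MW.OkFam` on a finset from all its sub-finsets.
* `ok2_of`, `ok1_of` : the families `{l', c'} ∪ exits` and `{c} ∪ exits` of a real one-contact
  structure whose encounter is a passage.
* `ae_okE4` : almost every `(z, w, l)`, every s-finite law of the birth of `l`.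
* `os_eq_zero` : structure integrals of a.e. vanishing functionals.
-/

set_option autoImplicit false
set_option linter.unusedSectionVars false

open MeasureTheory Set Filter Topology
open scoped ENNReal NNReal
open Crest.AnalysisR.Kinetic
open Crest.Agent.R122.Flow671 hiding rel
open Crest.Agent.R122.Loc45 Crest.Agent.R122.Ins45
open Crest.Agent.R122.Simul984 Crest.Agent.R122.Inf879 Crest.Agent.R122.EDefs602
open Crest.Agent.R122.MWAlg255
open Crest.Agent.R122.Kin796 Crest.Agent.R122.Kin796.CTree Crest.Agent.R122.Tree674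
open Crest.Agent.R122.PathFlow968 Crest.Agent.R122.TreeLines335 Crest.Agent.R122.Relabel674
open Crest.Agent.R122.GC311
open Crest.Agent.R122.Scat818 Crest.Agent.R122.OCout796
open Crest.Agent.R122.OneC285 (lpos mSet mT Meet clM cfT rt cT cB cD cX oneLs exS Real4 OS)
open Crest.Agent.R122.TransOk151

namespace Crest.Agent.R122.OkE167

noncomputable section

open scoped Classical

variable {Φ : Space3 → ℝ} {ε : ℝ}

/-! ### One family at a time -/

section fam

variable {α ω : Type} [Fintype α] [Fintype ω]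

/-- The conclusion of the transfer theorem with deaths at the states `p`, one family at a time. -/
def GoodP (Φ : Space3 → ℝ) (ε : ℝ) (bα : α → ℝ) (bω : ω → ℝ)
    (p : (α → PhasePoint) × (ω → PhasePoint)) : Prop :=
  ∀ (d : α → ℝ) (T : ℝ) (X : ℝ → α → PhasePoint), 0 ≤ T → DWorld Φ ε bα d 0 T X →
    X 0 = p.1 → RelD ε bα d T X →
    ∀ (κ : Type) [Fintype κ] (j : κ → α) (ls : κ → ML) (W : MW ω), Function.Injective j →
    (∀ x, d (j x) ≤ T) → (∀ x, (ls x).1 = (d (j x), X (d (j x)) (j x))) →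
    W.b = bω → W.z = p.2 → SepB ε (W.add (MW.lines ls)) →
    (W.add (MW.lines ls)).Ok Φ ε ∧ ∀ t ∈ Icc 0 T, ∀ a : α, t ≤ d a →
      (∀ y : ω, (X t a).1 ≠ ((W.add (MW.lines ls)).path Φ ε t (Sum.inl y)).1) ∧
      ∀ x : κ, j x ≠ a → d (j x) ≤ t →
        (X t a).1 ≠ ((W.add (MW.lines ls)).path Φ ε t (Sum.inr x)).1

theorem ae_goodP (hΦ : AdmissiblePotential Φ) (hε : 0 < ε) (bα : α → ℝ) (bω : ω → ℝ)
    (hbω : ∀ x, 0 ≤ bω x) :
    ∀ᵐ p ∂((volume : Measure (α → PhasePoint)).prod (volume : Measure (ω → PhasePoint))),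
      GoodP Φ ε bα bω p := by
  filter_upwards [ae_okFamD (α := α) hΦ hε bα bω hbω] with p hp d T X hT hX h0 hR κ _ j ls W hj
    hjT hls hWb hWz hSep
  obtain ⟨h1, h2⟩ := hp d T X hT hX h0 hR κ j ls W hj hjT hls hWb hWz hSep
  let e : ω ⊕ κ ≃ ω ⊕ (Finset.univ : Finset κ) := Equiv.sumCongr (Equiv.refl ω)
    { toFun := fun x => ⟨x, Finset.mem_univ x⟩
      invFun := fun x => x.1
      left_inv := fun _ => rfl
      right_inv := fun _ => rfl }
  have he : (W.add (sub ls Finset.univ)).comap e = W.add (MW.lines ls) := by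
    unfold sub MW.comap MW.add MW.lines
    congr 1 <;> · funext x; rcases x with x | x <;> rfl
  have hpath : ∀ t x, (W.add (MW.lines ls)).path Φ ε t x =
      (W.add (sub ls Finset.univ)).path Φ ε t (e x) := by
    intro t x
    rw [← he]
    exact MWAlg255.path_comap hΦ hε _ e t x
  refine ⟨?_, fun t ht a hta => ?_⟩
  · rw [← he]
    exact (h1 Finset.univ).comap hΦ hε e
  · obtain ⟨h3, h4⟩ := h2 Finset.univ t ht a hta
    refine ⟨fun y => ?_, fun x hx hxt => ?_⟩
    · rw [hpath]
      exact h3 y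
    · rw [hpath]
      exact h4 ⟨x, Finset.mem_univ x⟩ hx hxt

/-- `MW.OkFam` on a finset from all its sub-finsets. -/
theorem okFam_of_sub (hΦ : AdmissiblePotential Φ) (hε : 0 < ε) {κ : Type} [Fintype κ] {Z : MW ω}
    {ls : κ → ML} {F : Finset κ} (h : ∀ S ⊆ F, (Z.add (sub ls S)).Ok Φ ε) :
    MW.OkFam Φ ε Z (fun x : F => ls x) := by
  intro S
  have h1 := h (S.map (Function.Embedding.subtype _)) (fun x hx => by
    obtain ⟨y, _, rfl⟩ := Finset.mem_map.1 hx
    exact y.2)
  have h2 : Z.add (sub (fun x : F => ls x) S) =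
      (Z.add (sub ls (S.map (Function.Embedding.subtype _)))).comap
      (Equiv.sumCongr (Equiv.refl ω) (Equiv.ofBijective
        (fun i : S => (⟨i.1.1, Finset.mem_map_of_mem (Function.Embedding.subtype _) i.2⟩ :
          (S.map (Function.Embedding.subtype _) : Finset κ)))
      ⟨fun i j h => Subtype.ext (Subtype.ext (congrArg (fun y :
          (S.map (Function.Embedding.subtype _) : Finset κ) => y.1) h)), fun ⟨k, hk⟩ => by
        obtain ⟨i, hi, rfl⟩ := Finset.mem_map.1 hk
        exact ⟨⟨i, hi⟩, rfl⟩⟩)) := by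
    rw [← MWFam255.add_comap_right]
    rfl
  rw [h2]
  exact h1.comap hΦ hε _

end fam

/-! ### The families of inequality 1 -/

section e4

variable {te T' : ℝ} {K : ℕ} {P : CTree} {z : PhasePoint × Par P} {m : ℕ} {w : Config m} {l : ML}

/-- `StartSep` is symmetric. -/
theorem _root_.Crest.Agent.R122.TransOk151.StartSep.symm {z z' : PhasePoint}
    (h : StartSep ε z z') : StartSep ε z' z := by
  rcases h with h | ⟨h, h'⟩
  · exact Or.inl (by rwa [dist_comm])
  · refine Or.inr ⟨by rwa [dist_comm], ?_⟩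
    rw [← neg_sub z.1 z'.1, ← neg_sub z.2 z'.2, inner_neg_neg]
    exact h'

variable (h : Real4 Φ ε K te T' P z w l)

include h in
theorem lt_tO (hε : 0 < ε) (hq : CDpass Φ (cD ε z l)) : cT ε z l < tO Φ ε z l := by
  have := hq.outT_pos hε
  unfold tO
  linarith

include h in
/-- The released lines, in terms of the motion. -/
theorem exit_fst (hΦ : AdmissiblePotential Φ) (hε : 0 < ε) {i : Idx P} (hi : i ≠ root P) :
    (oneLs Φ ε P z l (Sum.inl i)).1 = (dT P z.2 (tO Φ ε z l) i,
      flow Φ ε (dT P z.2 (tO Φ ε z l) i) (lines Φ ε P z.1 z.2) i) := by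
  rw [oneLs_exit hi, dT_exit hi]
  exact TransTree942.lineML_fst hΦ hε h.pos h.real.valid h.real.sep i

include h in
theorem exit_startSep (hΦ : AdmissiblePotential Φ) (hε : 0 < ε) {i k : Idx P} (hi : i ≠ root P)
    (hk : k ≠ root P) (hik : i ≠ k)
    (hb : (oneLs Φ ε P z l (Sum.inl i)).1.1 = (oneLs Φ ε P z l (Sum.inl k)).1.1) :
    StartSep ε (oneLs Φ ε P z l (Sum.inl i)).1.2 (oneLs Φ ε P z l (Sum.inl k)).1.2 := by
  rw [oneLs_exit hi, oneLs_exit hk] at *
  exact TransTree942.startSep_lineML hΦ hε h.pos h.real.valid h.real.sep hik hb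

include h in
theorem exit_birth_lt (hε : 0 < ε) {i : Idx P} (hi : i ≠ root P) :
    (oneLs Φ ε P z l (Sum.inl i)).1.1 < cT ε z l := by
  rw [oneLs_exit hi]
  exact rel_lt hε.le h.pos h.real.valid.2 i

include h in
theorem exit_birth_pos (hε : 0 < ε) {i : Idx P} (hi : i ≠ root P) :
    0 < (oneLs Φ ε P z l (Sum.inl i)).1.1 := by
  rw [oneLs_exit hi]
  exact TreeLines335.rel_pos hε.le h.real.valid.2 i hi

/-- The particle of a line of `{l', c'} ∪ exits`. -/
def jE (P : CTree) : Idx P ⊕ Bool → Idx P ⊕ Unit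
  | Sum.inl i => Sum.inl i
  | Sum.inr false => Sum.inr ()
  | Sum.inr true => Sum.inl (root P)

include h in
/-- **The family `{l', c'} ∪ exits`.** -/
theorem ok2_of (hΦ : AdmissiblePotential Φ) (hε : 0 < ε) (hq : CDpass Φ (cD ε z l))
    (hG : ∀ r : ℚ, GoodP Φ ε (bE P r) (fun _ : Fin m => 0)
      (Sum.elim (lines Φ ε P z.1 z.2) (fun _ : Unit => back l.1), w)) :
    MW.OkFam Φ ε (MW.cfg w)
      (fun x : (insert (Sum.inr false) (insert (Sum.inr true) (exS P)) :
        Finset (Idx P ⊕ Bool)) => oneLs Φ ε P z l x) := by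
  have hs := h.pos
  have hO := lt_tO h hε hq
  refine okFam_of_sub hΦ hε fun S hS => ?_
  obtain ⟨r, hr1, hr2⟩ := exists_rat_btwn h.lt
  have hmem : ∀ x : S, (∃ i, x.1 = Sum.inl i ∧ i ≠ root P) ∨ x.1 = Sum.inr false ∨
      x.1 = Sum.inr true := by
    rintro ⟨x, hx⟩
    rcases x with i | b
    · left
      refine ⟨i, rfl, ?_⟩
      rcases Finset.mem_insert.1 (hS hx) with h1 | h1
      · cases h1
      rcases Finset.mem_insert.1 h1 with h2 | h2
      · cases h2
      · exact mem_exS.1 h2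
    · cases b
      · exact Or.inr (Or.inl rfl)
      · exact Or.inr (Or.inr rfl)
  have hd : ∀ x : S, dE Φ ε P z l (jE P x.1) ≤ tO Φ ε z l := by
    intro x
    rcases hmem x with ⟨i, h1, h2⟩ | h1 | h1
    · rw [h1]
      show dT P z.2 _ i ≤ _
      rw [dT_exit h2]
      exact ((rel_lt hε.le hs h.real.valid.2 i).trans hO).le
    · rw [h1]
      exact le_rfl
    · rw [h1]
      exact (dT_root P z.2 _).le
  have hls : ∀ x : S, (oneLs Φ ε P z l x).1 = (dE Φ ε P z l (jE P x.1),
      XE Φ ε P z l (dE Φ ε P z l (jE P x.1)) (jE P x.1)) := by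
    intro x
    rcases hmem x with ⟨i, h1, h2⟩ | h1 | h1
    · rw [h1, exit_fst h hΦ hε h2]
      have h3 : dT P z.2 (tO Φ ε z l) i ≤ cT ε z l := by
        rw [dT_exit h2]
        exact (rel_lt hε.le hs h.real.valid.2 i).le
      have h4 : dE Φ ε P z l (jE P (Sum.inl i)) = dT P z.2 (tO Φ ε z l) i := rfl
      rw [h4, XE_le h3]
      rfl
    · rw [h1]
      have h4 : dE Φ ε P z l (jE P (Sum.inr false)) = tO Φ ε z l := rfl
      rw [h4]
      refine Prod.ext rfl ?_
      show _ = XE Φ ε P z l (tO Φ ε z l) (Sum.inr ())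
      rw [XE_line h hΦ hε hq hO.le]
      exact (encPL_exit hε.ne').symm
    · rw [h1]
      have h4 : dE Φ ε P z l (jE P (Sum.inr true)) = tO Φ ε z l := dT_root P z.2 _
      rw [h4]
      refine Prod.ext rfl ?_
      show _ = XE Φ ε P z l (tO Φ ε z l) (Sum.inl (root P))
      rw [XE_root h hΦ hε hq hO.le]
      exact (encPC_exit hε.ne').symm
  have hj : Function.Injective fun x : S => jE P x.1 := by
    intro x y hxy
    have hxy' : jE P x.1 = jE P y.1 := hxy
    refine Subtype.ext ?_
    rcases hmem x with ⟨i, h1, h2⟩ | h1 | h1 <;> rcases hmem y with ⟨k, h3, h4⟩ | h3 | h3 <;>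
      rw [h1, h3] at hxy' <;> rw [h1, h3]
    · exact congrArg Sum.inl (Sum.inl_injective hxy')
    · exact absurd hxy' (by simp [jE])
    · exact absurd (Sum.inl_injective hxy') h2
    · exact absurd hxy' (by simp [jE])
    · exact absurd hxy' (by simp [jE])
    · exact absurd (Sum.inl_injective hxy').symm h4
    · exact absurd hxy' (by simp [jE])
  have hE := exit_enc (s := cT ε z l) (y := cX ε z l) hΦ hε hq
  have hb1 : (oneLs Φ ε P z l (Sum.inr false)).1.1 = tO Φ ε z l := rfl
  have hb2 : (oneLs Φ ε P z l (Sum.inr true)).1.1 = tO Φ ε z l := rfl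
  have hst : StartSep ε (oneLs Φ ε P z l (Sum.inr false)).1.2
      (oneLs Φ ε P z l (Sum.inr true)).1.2 := by
    refine Or.inr ?_
    rw [encPL_exit hε.ne', encPC_exit hε.ne'] at hE
    exact hE
  refine (hG r (dE Φ ε P z l) (tO Φ ε z l) (XE Φ ε P z l) (hs.trans hO).le
    (dworld_E4 h hΦ hε hq hr1.le hr2.le) (XE_zero h hΦ hε) (relD_E4 h hΦ hε hq hr2.le) S
    (fun x => jE P x.1) (fun x => oneLs Φ ε P z l x) (MW.cfg w) hj hd hls rfl rfl
    (sepB_add_lines (sepB_cfg h.exw) (fun x y hxy hb => ?_) fun i x hb => ?_)).1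
  · rcases hmem x with ⟨i, h1, h2⟩ | h1 | h1 <;> rcases hmem y with ⟨k, h3, h4⟩ | h3 | h3 <;>
      rw [h1, h3] at hb <;> rw [h1, h3]
    · exact exit_startSep h hΦ hε h2 h4 (fun h5 => hxy (Subtype.ext (by rw [h1, h3, h5]))) hb
    · have := exit_birth_lt h hε h2
      rw [hb, hb1] at this
      exact absurd this (not_lt.2 hO.le)
    · have := exit_birth_lt h hε h2
      rw [hb, hb2] at this
      exact absurd this (not_lt.2 hO.le)
    · have := exit_birth_lt h hε h4
      rw [← hb, hb1] at this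
      exact absurd this (not_lt.2 hO.le)
    · exact absurd (Subtype.ext (h1.trans h3.symm)) hxy
    · exact hst
    · have := exit_birth_lt h hε h4
      rw [← hb, hb2] at this
      exact absurd this (not_lt.2 hO.le)
    · exact hst.symm
    · exact absurd (Subtype.ext (h1.trans h3.symm)) hxy
  · have hb' : (0 : ℝ) = (oneLs Φ ε P z l x).1.1 := hb
    rcases hmem x with ⟨i, h1, h2⟩ | h1 | h1
    · rw [h1] at hb'
      exact absurd hb' (exit_birth_pos h hε h2).ne
    · rw [h1, hb1] at hb'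
      exact absurd hb' (hs.trans hO).ne
    · rw [h1, hb2] at hb'
      exact absurd hb' (hs.trans hO).ne

/-- The particle of an exit. -/
def jX (P : CTree) (x : Idx P ⊕ Bool) : Idx P := Sum.elim id (fun _ => root P) x

include h in
/-- **The family `{c} ∪ exits`.** -/
theorem ok1_of (hΦ : AdmissiblePotential Φ) (hε : 0 < ε) (hq : CDpass Φ (cD ε z l))
    (hG : GoodP Φ ε (fun _ : Idx P => 0) (fun _ : Fin m => 0) (lines Φ ε P z.1 z.2, w)) :
    MW.OkFam Φ ε (MW.cfg w)
      (fun x : (insert (Sum.inl (root P)) (exS P) : Finset (Idx P ⊕ Bool)) =>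
        oneLs Φ ε P z l x) := by
  have hs := h.pos
  have hO := lt_tO h hε hq
  set T := tO Φ ε z l with hT
  -- the exits
  have key : ∀ S ⊆ exS P, ((MW.cfg w).add (sub (oneLs Φ ε P z l) S)).Ok Φ ε ∧
      ∀ x, (((MW.cfg w).add (sub (oneLs Φ ε P z l) S)).path Φ ε T x).1 ≠ (onLine z.1 T).1 := by
    intro S hS
    have hmem : ∀ x : S, ∃ i, x.1 = Sum.inl i ∧ i ≠ root P := by
      rintro ⟨x, hx⟩
      rcases x with i | b
      · exact ⟨i, rfl, mem_exS.1 (hS hx)⟩
      · exact absurd (hS hx) inr_not_mem_exS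
    have hdx : ∀ x : S, dT P z.2 (T + 1) (jX P x.1) < cT ε z l := by
      intro x
      obtain ⟨i, h1, h2⟩ := hmem x
      rw [h1]
      show dT P z.2 (T + 1) i < _
      rw [dT_exit h2]
      exact rel_lt hε.le hs h.real.valid.2 i
    have hls : ∀ x : S, (oneLs Φ ε P z l x).1 = (dT P z.2 (T + 1) (jX P x.1),
        XT Φ ε P (cT ε z l) z.1 z.2 (dT P z.2 (T + 1) (jX P x.1)) (jX P x.1)) := by
      intro x
      rw [XT_le (hdx x).le]
      obtain ⟨i, h1, h2⟩ := hmem x
      rw [h1, exit_fst h hΦ hε h2]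
      show _ = (dT P z.2 (T + 1) i, flow Φ ε (dT P z.2 (T + 1) i) (lines Φ ε P z.1 z.2) i)
      rw [dT_exit h2, dT_exit h2]
    have hj : Function.Injective fun x : S => jX P x.1 := by
      intro x y hxy
      have hxy' : jX P x.1 = jX P y.1 := hxy
      obtain ⟨i, h1, h2⟩ := hmem x
      obtain ⟨k, h3, h4⟩ := hmem y
      rw [h1, h3] at hxy'
      exact Subtype.ext (by rw [h1, h3]; exact congrArg Sum.inl hxy')
    obtain ⟨h1, h2⟩ := hG (dT P z.2 (T + 1)) T (XT Φ ε P (cT ε z l) z.1 z.2) (hs.trans hO).le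
      (dworld_E1 hΦ hε hs h.real.valid h.real.sep hO.le (by linarith))
      (XT_zero hΦ hε hs) (relD_E1 hΦ hε hs h.real.valid h.real.sep hO.le (by linarith)) S
      (fun x => jX P x.1) (fun x => oneLs Φ ε P z l x) (MW.cfg w) hj
      (fun x => ((hdx x).trans hO).le) hls rfl rfl
      (sepB_add_lines (sepB_cfg h.exw) (fun x y hxy hb => by
        obtain ⟨i, h3, h4⟩ := hmem x
        obtain ⟨k, h5, h6⟩ := hmem y
        rw [h3, h5] at hb ⊢
        exact exit_startSep h hΦ hε h4 h6 (fun h7 => hxy (Subtype.ext (by rw [h3, h5, h7]))) hb)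
        fun i x hb => by
          obtain ⟨i, h3, h4⟩ := hmem x
          have hb' : (0 : ℝ) = (oneLs Φ ε P z l x).1.1 := hb
          rw [h3] at hb'
          exact absurd hb' (exit_birth_pos h hε h4).ne)
    refine ⟨h1, ?_⟩
    obtain ⟨h3, h4⟩ := h2 T ⟨(hs.trans hO).le, le_rfl⟩ (root P) (by
      rw [dT_root]; linarith)
    rw [XT_root hΦ hε hs h.real.valid h.real.sep hO.le] at h3 h4
    rintro (x | x)
    · exact (h3 x).symm
    · refine (h4 x ?_ ((hdx x).trans hO).le).symm
      obtain ⟨i, h5, h6⟩ := hmem x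
      rw [h5]
      exact h6
  refine okFam_of_sub hΦ hε fun S hS => ?_
  by_cases hr : Sum.inl (root P) ∈ S
  · set S₀ := S.erase (Sum.inl (root P)) with hS₀
    have hS₀' : S₀ ⊆ exS P := fun x hx =>
      (Finset.mem_insert.1 (hS (Finset.mem_of_mem_erase hx))).resolve_left
        (Finset.ne_of_mem_erase hx)
    have hSi : S = insert (Sum.inl (root P)) S₀ := (Finset.insert_erase hr).symm
    obtain ⟨h1, h2⟩ := key S₀ hS₀'
    have hc : (oneLs Φ ε P z l (Sum.inl (root P))).1 = (T, onLine z.1 T) := by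
      rw [oneLs_root]
      refine Prod.ext rfl (Prod.ext ?_ rfl)
      show z.1.1 + cT ε z l • z.1.2 + outT Φ ε (cD ε z l) • z.1.2 = z.1.1 + T • z.1.2
      rw [hT, tO, add_smul, add_assoc]
    have h3 : (((MW.cfg w).add (sub (oneLs Φ ε P z l) S₀)).ins
        (oneLs Φ ε P z l (Sum.inl (root P)))).Ok Φ ε := by
      refine ok_add_last hΦ hε h1 ?_ (hs.trans hO) (fun k => ?_) ?_ ?_ ?_
      · rintro (x | x)
        · exact le_rfl
        · have hx := hS₀' x.2
          rcases x with ⟨i | b, hxS⟩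
          · exact (exit_birth_pos h hε (mem_exS.1 hx)).le
          · exact absurd hx inr_not_mem_exS
      · show (oneLs Φ ε P z l (Sum.inl (root P))).1.1 = T
        rw [hc]
      · rintro (x | x)
        · exact hs.trans hO
        · have hx := hS₀' x.2
          rcases x with ⟨i | b, hxS⟩
          · exact (exit_birth_lt h hε (mem_exS.1 hx)).trans hO
          · exact absurd hx inr_not_mem_exS
      · exact fun k k' hkk' => absurd (Subsingleton.elim k k') hkk'
      · intro x k
        have h4 : (lineAt 0 ((MW.line (oneLs Φ ε P z l (Sum.inl (root P)))).z k) T) =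
            onLine z.1 T := by
          show lineAt 0 (back (oneLs Φ ε P z l (Sum.inl (root P))).1) T = _
          rw [hc, back_eq, lineAt_lineAt, lineAt_self]
        rw [h4]
        exact h2 x
    have h5 : ((MW.cfg w).add (sub (oneLs Φ ε P z l) (insert (Sum.inl (root P)) S₀))).comap
        ((Equiv.sumAssoc (Fin m) S₀ Unit).trans (Equiv.sumCongr (Equiv.refl (Fin m))
          (insertEquiv (Finset.notMem_erase _ _)))) =
        ((MW.cfg w).add (sub (oneLs Φ ε P z l) S₀)).ins
          (oneLs Φ ε P z l (Sum.inl (root P))) := by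
      unfold MW.ins MW.comap MW.add
      congr 1 <;> · funext x; rcases x with (x | x) | x <;> rfl
    rw [hSi]
    refine MW.Ok.of_comap hΦ hε ((Equiv.sumAssoc (Fin m) S₀ Unit).trans
      (Equiv.sumCongr (Equiv.refl (Fin m)) (insertEquiv (Finset.notMem_erase _ _)))) ?_
    rw [h5]
    exact h3
  · exact (key S fun x hx => (Finset.mem_insert.1 (hS hx)).resolve_left
      fun h' => hr (h' ▸ hx)).1

end e4

end

end Crest.Agent.R122.OkE167
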