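import Crest.Agent.R122.StrG_491
import Crest.Agent.R122.TransD3_151

/-!
# Row 122 (helper307): the motion of the classes of a tree-like structure

Motion with births and deaths in the sense of helper151 (`DWorld`, `RelD`): `Str M c Z R π cl bD E`
(helper491), `α` a family of labels which is a union of classes, births `0`, positive exit times
`bD`; the state of the label `i` is its state in the isolated world of its class.

* `MotH` : the hypotheses: every exit of a class is a transversal separation (`exit`), a contact of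
  two classes happens after the exit of one of the partners (`cross`).
* `MotH.far` : labels of different classes do not touch before their exits.
* `MotH.dworld`, `MotH.relD`, `MotH.startSep`.
-/

set_option autoImplicit false
set_option linter.unusedSectionVars false

open MeasureTheory Set Filter Topology
open scoped NNReal ENNReal
open Crest.AnalysisR.Kinetic
open Crest.Agent.R122.Flow671 hiding rel
open Crest.Agent.R122.Loc45 Crest.Agent.R122.Ins45
open Crest.Agent.R122.VL581 Crest.Agent.R122.VL581.VSys Crest.Agent.R122.VLInst442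
open Crest.Agent.R122.LNInst491 Crest.Agent.R122.LN304 Crest.Agent.R122.LNg410
open Crest.Agent.R122.LNGraft410 Crest.Agent.R122.LNEv968 Crest.Agent.R122.PWInst442
open Crest.Agent.R122.StrG491 Crest.Agent.R122.TransOk151
open scoped Classical

noncomputable section

namespace Crest.Agent.R122.StrMain307

variable {J κ : Type} [Fintype J] {M : VSys J κ} {Z : J → PhasePoint}
variable {c ℓ ς : ℝ} {R : ℝ → J → J → Prop} {π E : Finset J} {cl : J → Finset J} {bD : J → ℝ}
variable {α : Type} [Fintype α]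

/-- Hypotheses: a tree-like structure, a family `e` of labels which is a union of classes of exits,
births `0`, positive exit times, transversal exits, contacts of different classes after one of the
exits. -/
structure MotH (M : VSys J κ) (c ℓ ς : ℝ) (Z : J → PhasePoint) (R : ℝ → J → J → Prop)
    (π : Finset J) (cl : J → Finset J) (bD : J → ℝ) (E : Finset J) (e : α ↪ J) : Prop where
  hΦ : AdmissiblePotential M.Φ
  hε : 0 < M.ε
  hc : 1 ≤ c
  hℓς : 2 * ℓ ≤ ς
  str : Str M c Z R π cl bD E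
  tl : TL M c ℓ ς π Z
  ofE : ∀ i, ∃ a ∈ E, e i ∈ cl a
  all : ∀ i, ∀ k ∈ cl (e i), k ∈ range e
  birth : ∀ i, M.bb (e i) = 0
  pos : ∀ i, 0 < bD (e i)
  exit : ∀ i, i ∈ cl i → bD i ≤ M.T → bD i = M.bb i ∨ ∃ k ∈ cl i, k ≠ i ∧ M.bb k ≤ bD i ∧
    dist (M.st (cl i) (bD i) Z i).1 (M.st (cl i) (bD i) Z k).1 = M.ε ∧
    0 < inner ℝ ((M.st (cl i) (bD i) Z i).1 - (M.st (cl i) (bD i) Z k).1)
      ((M.st (cl i) (bD i) Z i).2 - (M.st (cl i) (bD i) Z k).2)
  cross : ∀ r i j, R r i j → cl i ≠ cl j → bD i ≤ r ∨ bD j ≤ r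

namespace MotH

variable {e : α ↪ J} (h : MotH M c ℓ ς Z R π cl bD E e)
include h

theorem self (i : α) : e i ∈ cl (e i) := by
  obtain ⟨a, _, ha⟩ := h.ofE i
  exact h.str.cov.mem (e i) (by rw [h.str.cov.eq a (e i) ha]; exact ⟨_, ha⟩)

theorem cls (i : α) : Cls M Z (cl (e i)) bD := by
  obtain ⟨a, haE, ha⟩ := h.ofE i
  rw [h.str.cov.eq a (e i) ha]
  exact h.str.cls a haE

theorem memπ (i : α) : e i ∈ π := h.str.sub _ (h.self i)

theorem eqc {i : α} {k : J} (hk : k ∈ cl (e i)) : cl k = cl (e i) := h.str.cov.eq _ _ hk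

theorem obs (i : α) : M.o ≠ some (e i) := (h.cls i).obs _ (h.self i)

/-- Contacts of labels of the family are virtual contacts. -/
theorem vct [Nonempty κ] {i j : α} {t : ℝ} (ht : t ≤ M.T)
    (hd : dist (M.st (cl (e i)) t Z (e i)).1 (M.st (cl (e j)) t Z (e j)).1 ≤ M.ε) :
    M.VCt c π (e i) (e j) t Z :=
  vct_st h.hc h.hε (h.str.sub _) (h.str.sub _) (h.self i) (h.self j)
    (ok_anti ht (h.cls i).ok) (ok_anti ht (h.cls j).ok) (h.obs i) (h.obs j) hd

/-- The exit of a label of the family. -/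
theorem exit' (i : α) (hi : bD (e i) ≤ M.T) : ∃ p : α, e p ∈ cl (e i) ∧ p ≠ i ∧
    dist (M.st (cl (e i)) (bD (e i)) Z (e i)).1 (M.st (cl (e i)) (bD (e i)) Z (e p)).1 = M.ε ∧
    0 < inner ℝ ((M.st (cl (e i)) (bD (e i)) Z (e i)).1 -
      (M.st (cl (e i)) (bD (e i)) Z (e p)).1)
      ((M.st (cl (e i)) (bD (e i)) Z (e i)).2 - (M.st (cl (e i)) (bD (e i)) Z (e p)).2) := by
  rcases h.exit (e i) (h.self i) hi with h1 | ⟨k, hk, hki, _, h2, h3⟩
  · rw [h.birth i] at h1
    exact absurd h1 (h.pos i).ne'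
  · obtain ⟨p, rfl⟩ := h.all i k hk
    exact ⟨p, hk, fun h' => hki (by rw [h']), h2, h3⟩

/-- The exit partner is not released before. -/
theorem le_of_exit {i p : α} (hp : e p ∈ cl (e i)) (hpi : p ≠ i) (hi : bD (e i) ≤ M.T)
    (hd : dist (M.st (cl (e i)) (bD (e i)) Z (e i)).1
      (M.st (cl (e i)) (bD (e i)) Z (e p)).1 ≤ M.ε) : bD (e i) ≤ bD (e p) := by
  by_contra hcon
  have h1 := (h.cls i).exit (e p) hp (bD (e i)) (not_le.1 hcon) hi (e i) (h.self i)
    (fun h' => hpi (e.injective h').symm) (by rw [h.birth i]; exact (h.pos i).le)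
  rw [dist_comm] at h1
  exact absurd hd (not_le.2 h1)

/-- **Third contacts**: at the exit time of `i` the label `i` touches only its exit partner. -/
theorem third [Nonempty κ] {i p j : α} (hp : e p ∈ cl (e i)) (hpi : p ≠ i)
    (hi : bD (e i) ≤ M.T) (hd : dist (M.st (cl (e i)) (bD (e i)) Z (e i)).1
      (M.st (cl (e i)) (bD (e i)) Z (e p)).1 ≤ M.ε) {t r : ℝ} (ht : t ∈ Icc 0 M.T)
    (hr : r ∈ Icc 0 M.T) (htb : t ≤ bD (e i)) (hbr : bD (e i) ≤ r) (hji : j ≠ i)
    (hv : M.VCt c π (e i) (e j) t Z) (hv' : M.VCt c π (e i) (e j) r Z) : j = p := by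
  have hcn := h.str.conn
  have hb : bD (e i) ∈ Icc 0 M.T := ⟨(h.pos i).le, hi⟩
  have hv'' : M.VCt c π (e i) (e p) (bD (e i)) Z := by
    refine h.vct hi ?_
    rw [h.eqc hp]
    exact hd
  have h5 := h.tl.2.sep (conn_iff.1 hcn) h.hℓς (h.memπ i) (h.memπ j)
    (fun h' => hji (e.injective h').symm) (h.memπ i) (h.memπ p)
    (fun h' => hpi (e.injective h').symm) (t := t) (t' := r) (t'' := bD (e i))
    ⟨ht, hv⟩ ⟨hr, hv'⟩ ⟨hb, hv''⟩ htb hbr
  rcases h5 with ⟨_, h5⟩ | ⟨h5, _⟩
  · exact e.injective h5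
  · exact absurd (e.injective h5).symm hpi

theorem no_cross_left [Nonempty κ] {i j : α} (hc : cl (e i) ≠ cl (e j)) {t r : ℝ}
    (ht : t ∈ Icc 0 M.T) (hr : r ∈ Icc 0 M.T) (hti : bD (e i) ≤ M.T → t ≤ bD (e i))
    (hv : M.VCt c π (e i) (e j) t Z) (hv' : M.VCt c π (e i) (e j) r Z)
    (hbr : bD (e i) ≤ r) : False := by
  have hi : bD (e i) ≤ M.T := hbr.trans hr.2
  have hji : j ≠ i := fun h' => hc (by rw [h'])
  obtain ⟨p, hp, hpi, hd, _⟩ := h.exit' i hi
  have h1 := h.third hp hpi hi hd.le ht hr (hti hi) hbr hji hv hv'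
  rw [← h1] at hp
  exact hc (h.eqc hp).symm

/-- **Labels of different classes do not touch before their exits.** -/
theorem far [Nonempty κ] {i j : α} (hc : cl (e i) ≠ cl (e j)) {t : ℝ} (ht : t ∈ Icc 0 M.T)
    (hti : bD (e i) ≤ M.T → t ≤ bD (e i)) (htj : bD (e j) ≤ M.T → t ≤ bD (e j)) :
    M.ε < dist (M.st (cl (e i)) t Z (e i)).1 (M.st (cl (e j)) t Z (e j)).1 := by
  by_contra hcon
  rw [not_lt] at hcon
  have hij : e j ≠ e i := fun h' => hc (by rw [h'])
  have hv := h.vct ht.2 hcon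
  have hv2 : M.VCt c π (e j) (e i) t Z := vct_symm hv
  obtain ⟨r, hr, hR, _⟩ := window h.str.fam h.tl h.str.conn subset_rfl h.hℓς (h.memπ i)
    (h.memπ j) hij ht hv
  have hw := h.str.fam.vct r hr (e i) (h.memπ i) (e j) (h.memπ j) hij.symm hR
  rcases h.cross r (e i) (e j) hR hc with h1 | h1
  · exact h.no_cross_left hc ht hr hti hv hw h1
  · exact h.no_cross_left hc.symm ht hr htj hv2 (vct_symm hw) h1

/-- Deaths: the exit times. -/
theorem dth_iff (i : α) {t : ℝ} (ht : t ≤ M.T) :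
    t < dth {i : α | bD (e i) ≤ M.T} (fun i => bD (e i)) M.T i ↔
      (bD (e i) ≤ M.T → t < bD (e i)) := by
  by_cases hi : bD (e i) ≤ M.T
  · rw [dth_mem (S := {i : α | bD (e i) ≤ M.T}) hi]
    exact ⟨fun h _ => h, fun h => h hi⟩
  · rw [dth_not_mem (S := {i : α | bD (e i) ≤ M.T}) hi]
    exact ⟨fun _ h => absurd h hi, fun _ => by linarith⟩

theorem dth_iff' (i : α) {t : ℝ} (ht : t ≤ M.T) :
    t ≤ dth {i : α | bD (e i) ≤ M.T} (fun i => bD (e i)) M.T i ↔
      (bD (e i) ≤ M.T → t ≤ bD (e i)) := by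
  by_cases hi : bD (e i) ≤ M.T
  · rw [dth_mem (S := {i : α | bD (e i) ≤ M.T}) hi]
    exact ⟨fun h _ => h, fun h => h hi⟩
  · rw [dth_not_mem (S := {i : α | bD (e i) ≤ M.T}) hi]
    exact ⟨fun _ h => absurd h hi, fun _ => by linarith⟩

theorem le_of_dth {i : α} (hi : dth {i : α | bD (e i) ≤ M.T} (fun i => bD (e i)) M.T i ≤ M.T) :
    bD (e i) ≤ M.T ∧ dth {i : α | bD (e i) ≤ M.T} (fun i => bD (e i)) M.T i = bD (e i) := by
  by_cases h' : bD (e i) ≤ M.T
  · exact ⟨h', dth_mem (S := {i : α | bD (e i) ≤ M.T}) h'⟩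
  · rw [dth_not_mem (S := {i : α | bD (e i) ≤ M.T}) h'] at hi
    linarith

/-- In one class, the released labels are at distance at least `ε` from the others. -/
theorem dead_far [Nonempty κ] {i j : α} (hj : e j ∈ cl (e i)) (hij : i ≠ j) {t : ℝ}
    (ht : t ∈ Icc 0 M.T) (hd : bD (e j) ≤ t) :
    M.ε ≤ dist (M.st (cl (e i)) t Z (e i)).1 (M.st (cl (e i)) t Z (e j)).1 := by
  have hjT : bD (e j) ≤ M.T := hd.trans ht.2
  rcases hd.lt_or_eq with h1 | h1
  · have h2 := (h.cls i).exit (e j) hj t h1 ht.2 (e i) (h.self i)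
      (fun h' => hij (e.injective h')) (by rw [h.birth i]; exact ht.1)
    rw [dist_comm]
    exact h2.le
  · by_contra hcon
    rw [not_le] at hcon
    obtain ⟨p, hp, hpj, hd', _⟩ := h.exit' j hjT
    have hcj : cl (e j) = cl (e i) := h.eqc hj
    rw [hcj] at hp hd'
    have h3 : i = p := by
      refine h.third (i := j) (p := p) (j := i) (t := t) (r := t) (by rw [hcj]; exact hp) hpj hjT
        (by rw [hcj]; exact hd'.le) ht ht h1.ge h1.le hij ?_ ?_
      · exact vct_symm (h.vct ht.2 (by rw [hcj]; exact hcon.le))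
      · exact vct_symm (h.vct ht.2 (by rw [hcj]; exact hcon.le))
    subst h3
    rw [← h1, dist_comm] at hcon
    exact absurd hd' hcon.ne

/-- **The motion with deaths at the exit times.** -/
theorem dworld [Nonempty κ] : DWorld M.Φ M.ε (fun _ : α => 0)
    (dth {i : α | bD (e i) ≤ M.T} (fun i => bD (e i)) M.T) 0 M.T
    (fun t i => M.st (cl (e i)) t Z (e i)) where
  cont i := by
    have h1 := (st_lworld h.hΦ h.hε (h.cls i).ok 0).cont
    exact ((continuousOn_pi.1 h1) (e i)).mono (Icc_subset_Icc le_rfl (min_le_left _ _))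
  der t ht htT i hi := by
    have h1 := hasDerivWithinAt_pi.1 ((st_lworld h.hΦ h.hε (h.cls i).ok 0).der t ⟨ht, htT⟩) (e i)
    have hba : ∀ k, ba M (cl (e i)) M.T k ≤ t ↔ k ∈ cl (e i) := by
      intro k
      rw [ba_le_iff M htT]
      constructor
      · exact fun h' => h'.1.1
      · intro hk
        refine ⟨⟨hk, (h.cls i).obs k hk⟩, ?_⟩
        obtain ⟨p, rfl⟩ := h.all i k hk
        rw [h.birth p]
        exact ht
    have h2 : bf M.Φ M.ε (ba M (cl (e i)) M.T) t (M.st (cl (e i)) t Z) (e i) =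
        bfd M.Φ M.ε (fun _ : α => 0) (dth {i : α | bD (e i) ≤ M.T} (fun i => bD (e i)) M.T) t
          (fun i => M.st (cl (e i)) t Z (e i)) i := by
      unfold bf bfd
      simp only [hba, if_pos (h.self i), if_pos ht]
      congr 2
      have h3 : ∑ k : J, (if k ∈ cl (e i) then gradient M.Φ ((1 / M.ε) •
          ((M.st (cl (e i)) t Z (e i)).1 - (M.st (cl (e i)) t Z k).1)) else 0) =
          ∑ k ∈ Finset.univ.map e, (if k ∈ cl (e i) then gradient M.Φ ((1 / M.ε) •
            ((M.st (cl (e i)) t Z (e i)).1 - (M.st (cl (e i)) t Z k).1)) else 0) := by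
        symm
        refine Finset.sum_subset (Finset.subset_univ _) fun k _ hk => if_neg fun hk' => hk ?_
        obtain ⟨p, rfl⟩ := h.all i k hk'
        simp
      rw [h3, Finset.sum_map]
      refine Finset.sum_congr rfl fun j _ => ?_
      have hti := (h.dth_iff i htT.le).1 hi
      by_cases hj : e j ∈ cl (e i)
      · rw [if_pos hj]
        by_cases hd : t < dth {i : α | bD (e i) ≤ M.T} (fun i => bD (e i)) M.T j
        · rw [if_pos ⟨ht, hd⟩, h.eqc hj]
        · rw [if_neg fun h' => hd h'.2]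
          have hdj : bD (e j) ≤ t := by
            by_contra hcon
            exact hd ((h.dth_iff j htT.le).2 fun _ => not_le.1 hcon)
          have hij : i ≠ j := by
            rintro rfl
            exact absurd (hti (hdj.trans htT.le)) (not_lt.2 hdj)
          exact grad_far h.hΦ h.hε (h.dead_far hj hij ⟨ht, htT.le⟩ hdj)
      · rw [if_neg hj]
        split_ifs with hd
        · have htj := (h.dth_iff j htT.le).1 hd.2
          have hc : cl (e i) ≠ cl (e j) := fun h' => hj (h' ▸ h.self j)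
          exact (grad_far h.hΦ h.hε (h.far hc ⟨ht, htT.le⟩ (fun h' => (hti h').le)
            fun h' => (htj h').le).le).symm
        · rfl
    rw [← h2]
    exact h1
  dom t ht htT := by
    by_cases hC : ContDiff ℝ 2 M.Φ
    · exact Or.inl hC
    · refine Or.inr fun i j hij _ hi _ hj => ?_
      have hti := (h.dth_iff i htT.le).1 hi
      have htj := (h.dth_iff j htT.le).1 hj
      by_cases hc : cl (e i) = cl (e j)
      · have h1 := ((st_lworld h.hΦ h.hε (h.cls i).ok 0).dom t ⟨ht, htT⟩).resolve_left hC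
        have hjc : e j ∈ cl (e i) := by rw [hc]; exact h.self j
        have h2 := h1 (e i) (e j) (fun h' => hij (e.injective h'))
          ((ba_le_iff M htT).2 ⟨⟨h.self i, h.obs i⟩, by rw [h.birth i]; exact ht⟩)
          ((ba_le_iff M htT).2 ⟨⟨hjc, h.obs j⟩, by rw [h.birth j]; exact ht⟩)
        show (M.st (cl (e i)) t Z (e i)).1 ≠ (M.st (cl (e j)) t Z (e j)).1
        rw [← hc]
        exact h2
      · intro h'
        have h3 := h.far hc ⟨ht, htT.le⟩ (fun h' => (hti h').le) fun h' => (htj h').le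
        have h4 : dist (M.st (cl (e i)) t Z (e i)).1 (M.st (cl (e j)) t Z (e j)).1 = 0 := by
          have h5 : (M.st (cl (e i)) t Z (e i)).1 = (M.st (cl (e j)) t Z (e j)).1 := h'
          rw [h5, dist_self]
        rw [h4] at h3
        exact absurd h3 (not_lt.2 h.hε.le)

/-- **Release data.** -/
theorem relD [Nonempty κ] : RelD M.ε (fun _ : α => 0)
    (dth {i : α | bD (e i) ≤ M.T} (fun i => bD (e i)) M.T) M.T
    (fun t i => M.st (cl (e i)) t Z (e i)) where
  pos i hi := by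
    rw [(h.le_of_dth hi).2]
    exact h.pos i
  born i hi := by
    rw [(h.le_of_dth hi).2]
    exact (h.pos i).le
  exit i hi := by
    obtain ⟨hiT, hie⟩ := h.le_of_dth hi
    obtain ⟨p, hp, hpi, hd, hin⟩ := h.exit' i hiT
    rw [hie]
    refine ⟨p, hpi, (h.pos i).le, ?_, ?_, ?_⟩
    · exact (h.dth_iff' p hiT).2 fun _ => h.le_of_exit hp hpi hiT hd.le
    · rw [h.eqc hp]
      exact hd
    · rw [h.eqc hp]
      exact hin

/-- **Labels released at the same time separate at once.** -/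
theorem startSep [Nonempty κ] {i j : α} (hij : i ≠ j) (hi : bD (e i) ≤ M.T)
    (hb : bD (e j) = bD (e i)) : StartSep M.ε (M.st (cl (e i)) (bD (e i)) Z (e i))
      (M.st (cl (e j)) (bD (e j)) Z (e j)) := by
  by_cases hd : M.ε < dist (M.st (cl (e i)) (bD (e i)) Z (e i)).1
      (M.st (cl (e j)) (bD (e j)) Z (e j)).1
  · exact Or.inl hd
  · rw [not_lt, hb] at hd
    rw [hb]
    have ht : bD (e i) ∈ Icc 0 M.T := ⟨(h.pos i).le, hi⟩
    obtain ⟨p, hp, hpi, hd', hin⟩ := h.exit' i hi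
    have h1 := h.third hp hpi hi hd'.le ht ht le_rfl le_rfl hij.symm (h.vct hi hd) (h.vct hi hd)
    rw [h1, h.eqc hp]
    exact Or.inr ⟨hd', hin⟩

/-- The states at time `0`. -/
theorem zero : (fun i => M.st (cl (e i)) 0 Z (e i)) = fun i => Z (e i) := by
  funext i
  rw [st_nonpos M le_rfl Z]
  unfold VLInst442.fl
  simp

end MotH

/-- **Main theorem**, for a finite set `A` of labels, a union of classes of exits. -/
theorem motion [Nonempty κ] (hΦ : AdmissiblePotential M.Φ) (hε : 0 < M.ε) (hc : 1 ≤ c)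
    (hℓς : 2 * ℓ ≤ ς) (hstr : Str M c Z R π cl bD E) (htl : TL M c ℓ ς π Z) {A : Finset J}
    (hE : ∀ i ∈ A, ∃ a ∈ E, i ∈ cl a) (hA : ∀ i ∈ A, cl i ⊆ A) (hb : ∀ i ∈ A, M.bb i = 0)
    (hp : ∀ i ∈ A, 0 < bD i)
    (hexit : ∀ i, i ∈ cl i → bD i ≤ M.T → bD i = M.bb i ∨ ∃ k ∈ cl i, k ≠ i ∧ M.bb k ≤ bD i ∧
      dist (M.st (cl i) (bD i) Z i).1 (M.st (cl i) (bD i) Z k).1 = M.ε ∧
      0 < inner ℝ ((M.st (cl i) (bD i) Z i).1 - (M.st (cl i) (bD i) Z k).1)
        ((M.st (cl i) (bD i) Z i).2 - (M.st (cl i) (bD i) Z k).2))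
    (hcross : ∀ r i j, R r i j → cl i ≠ cl j → bD i ≤ r ∨ bD j ≤ r) :
    DWorld M.Φ M.ε (fun _ : A => 0) (dth {i : A | bD i ≤ M.T} (fun i : A => bD i) M.T) 0 M.T
      (fun t (i : A) => M.st (cl i) t Z i) ∧
    RelD M.ε (fun _ : A => 0) (dth {i : A | bD i ≤ M.T} (fun i : A => bD i) M.T) M.T
      (fun t (i : A) => M.st (cl i) t Z i) ∧
    ((fun i : A => M.st (cl i) 0 Z i) = fun i : A => Z i) ∧
    (∀ i j : A, i ≠ j → bD i ≤ M.T → bD j = bD i →
      StartSep M.ε (M.st (cl i) (bD i) Z i) (M.st (cl j) (bD j) Z j)) ∧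
    (∀ i j : A, cl i ≠ cl j → ∀ t ∈ Icc 0 M.T, (bD i ≤ M.T → t ≤ bD i) →
      (bD j ≤ M.T → t ≤ bD j) → M.ε < dist (M.st (cl i) t Z i).1 (M.st (cl j) t Z j).1) := by
  have h : MotH M c ℓ ς Z R π cl bD E (Function.Embedding.subtype fun i => i ∈ A) :=
    { hΦ := hΦ
      hε := hε
      hc := hc
      hℓς := hℓς
      str := hstr
      tl := htl
      ofE := fun i => hE i i.2
      all := fun i k hk => ⟨⟨k, hA i i.2 hk⟩, rfl⟩
      birth := fun i => hb i i.2
      pos := fun i => hp i i.2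
      exit := hexit
      cross := hcross }
  exact ⟨h.dworld, h.relD, h.zero, fun i j hij hi hj => h.startSep hij hi hj,
    fun i j hc' t ht hi hj => h.far hc' ht hi hj⟩

end Crest.Agent.R122.StrMain307

end
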