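import Crest.Agent.R122.E6Str_491
import Crest.Agent.R122.TransD3_151
import Crest.Agent.R122.TransTree_942

/-!
# Motions of structures (row 122, OkFam of inequality 3), helper151

`Mot M Z R cl bD y` : invariants of the structures of `StrG_491`, `y` = active label.

* `exit` : at its exit time a label is at distance exactly `ε` from a partner of its class and moves
  away from it, or it is born at its exit time.
* `cross` : a contact of two labels of different classes takes place after the exit of one of them,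
  which is not the active label.

* `Mot.of_tree`, `Mot.single`, `Mot.join`, `Mot.graft`.
* `Str.far` : labels of different classes which have not left their classes are far.
* `Str.motion` : the classes, with deaths at the exit times, are one motion (`DWorld`, `RelD`).
* `Str.startSep` : labels released at the same time.
-/

set_option autoImplicit false
set_option linter.unusedSectionVars false

open MeasureTheory Set Filter Topology
open scoped NNReal ENNReal
open Crest.AnalysisR.Kinetic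
open Crest.Agent.R122.Flow671 hiding rel
open Crest.Agent.R122.Loc45 Crest.Agent.R122.Ins45
open Crest.Agent.R122.VL581 Crest.Agent.R122.VL581.VSys Crest.Agent.R122.VLInst442
open Crest.Agent.R122.LNInst491 Crest.Agent.R122.LN304 Crest.Agent.R122.LNg410
open Crest.Agent.R122.Kin796 Crest.Agent.R122.Kin796.CTree Crest.Agent.R122.Tree674
open Crest.Agent.R122.PathFlow968 Crest.Agent.R122.TreeLines335 Crest.Agent.R122.EDefs602
open Crest.Agent.R122.LNTree410 Crest.Agent.R122.PWGlue491 Crest.Agent.R122.Inf879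
open Crest.Agent.R122.LNGraft410 Crest.Agent.R122.LNEv968 Crest.Agent.R122.PWInst442
open Crest.Agent.R122.OCout796 Crest.Agent.R122.Scat818
open Crest.Agent.R122.OneC285 (cT cB cD cX)
open Crest.Agent.R122.StrG491 Crest.Agent.R122.TransOk151
open scoped Classical

noncomputable section

namespace Crest.Agent.R122.StrMot151

variable {J κ : Type} [Fintype J] {M : VSys J κ} {Z : J → PhasePoint}
variable {c : ℝ} {R R₁ R₂ : ℝ → J → J → Prop} {π π₁ π₂ S : Finset J} {cl cl₁ cl₂ : J → Finset J}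
  {bD : J → ℝ} {E E₁ E₂ : Finset J} {x y a : J} {s ℓ ς : ℝ} {p : Space3} {q : CD}

/-- Two states at distance exactly `ε` moving away from each other. -/
def Sepa (ε : ℝ) (z z' : PhasePoint) : Prop :=
  dist z.1 z'.1 = ε ∧ 0 < inner ℝ (z.1 - z'.1) (z.2 - z'.2)

theorem Sepa.symm {ε : ℝ} {z z' : PhasePoint} (h : Sepa ε z z') : Sepa ε z' z := by
  refine ⟨by rw [dist_comm]; exact h.1, ?_⟩
  rw [← neg_sub, ← neg_sub z.2, inner_neg_neg]
  exact h.2

/-- Invariants of a structure; `y` = active label. -/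
structure Mot (M : VSys J κ) (Z : J → PhasePoint) (R : ℝ → J → J → Prop) (cl : J → Finset J)
    (bD : J → ℝ) (y : J) : Prop where
  exit : ∀ i ∈ cl i, bD i ≤ M.T → bD i = M.bb i ∨ ∃ k ∈ cl i, k ≠ i ∧ M.bb k ≤ bD i ∧
    Sepa M.ε (M.st (cl i) (bD i) Z i) (M.st (cl i) (bD i) Z k)
  cross : ∀ r i j, R r i j → cl i ≠ cl j → (i ≠ y ∧ bD i ≤ r) ∨ (j ≠ y ∧ bD j ≤ r)

/-! ### Basic structures -/

/-- One class. -/
theorem Mot.of_one_class {S : Finset J} (hex : ∀ i ∈ S, bD i ≤ M.T → bD i = M.bb i ∨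
    ∃ k ∈ S, k ≠ i ∧ M.bb k ≤ bD i ∧ Sepa M.ε (M.st S (bD i) Z i) (M.st S (bD i) Z k)) :
    Mot M Z (RC M Z S) (clOf S) bD y where
  exit i hi hT := by
    have hi' := (mem_clOf.1 hi).1
    rw [clOf_mem hi']
    exact hex i hi' hT
  cross r i j hr hne := by
    exfalso
    apply hne
    rw [clOf_mem hr.1, clOf_mem hr.2.1]

/-- A single label. -/
theorem Mot.single {l : J} (hb : bD l = M.bb l) : Mot M Z (RC M Z {l}) (clOf {l}) bD y :=
  Mot.of_one_class fun i hi _ => by
    rw [Finset.mem_singleton] at hi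
    subst hi
    exact Or.inl hb

/-- A tree. -/
theorem Mot.of_tree (hΦ : AdmissiblePotential M.Φ) (hε : 0 < M.ε) (hT : 0 < M.T) {P : CTree}
    {ℓ : PhasePoint} {p : Par P} {e : Idx P ↪ J} (h : TreeIn M Z M.T P ℓ p e)
    (hb : ∀ i, bD (e i) = rel P p i) :
    Mot M Z (RC M Z (part e)) (clOf (part e)) bD y :=
  Mot.of_one_class fun i hi _ => by
    obtain ⟨x, rfl⟩ := mem_part.1 hi
    by_cases hP : P = leaf
    · left
      rw [hb, h.bb]
      subst hP
      rfl
    · right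
      obtain ⟨k, hk, hE⟩ := TransTree942.exit_path hΦ hε P M.T ℓ p h.valid x (Or.inr hP)
      have h0 : rel P p x ∈ Icc 0 M.T := ⟨rel_nonneg hε.le h.valid.2 x,
        (rel_lt hε.le hT h.valid.2 x).le⟩
      refine ⟨e k, mem_part_self k, fun h' => hk (e.injective h'), by rw [hb, h.bb]; exact h0.1, ?_⟩
      rw [hb, h.st_tree hΦ hε h0, h.st_tree hΦ hε h0]
      exact hE

/-! ### Encounters -/

/-- The two partners of an encounter at its end. -/
theorem sepa_exit {Φ : Space3 → ℝ} {ε : ℝ} (hΦ : AdmissiblePotential Φ) (hε : 0 < ε) {y : Space3}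
    (hq : CDpass Φ q) : Sepa ε (encPL Φ ε s y q (s + outT Φ ε q))
      (encPC Φ ε s y q (s + outT Φ ε q)) := by
  refine ⟨hq.dist_exit hε, ?_⟩
  have h1 := encPL_sub_encPC (Φ := Φ) (ε := ε) (s := s) (y := y) (q := q) (s + outT Φ ε q)
  have h2 : (encPL Φ ε s y q (s + outT Φ ε q)).2 - (encPC Φ ε s y q (s + outT Φ ε q)).2 =
      (encR Φ ε s q (s + outT Φ ε q)).2 := by
    unfold encPL encPC
    simp only
    module
  rw [h1, h2, encR_exit hε.ne', real_inner_smul_left]
  have h3 := hq.hasExit.inner_pos hΦ (reg_entrance Φ hq.ok.1 hq.ok.2)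
  exact mul_pos hε h3

/-- **Encounter, separate classes.** -/
theorem Mot.join (hm : Meet M c Z R₁ R₂ π₁ π₂ cl₁ cl₂ bD E₁ E₂ y a s) (hs : bD y ≤ s)
    {y' : J} (hy' : y' ∉ π₁) (h₁ : Mot M Z R₁ cl₁ bD y) (h₂ : Mot M Z R₂ cl₂ bD y') :
    Mot M Z (joinR R₁ R₂ y a s) (clSep cl₁ cl₂) bD y' where
  exit i hi hT := by
    rcases hm.mem_clSep hi with ⟨h1, h2, -⟩ | ⟨h1, h2, -⟩
    · rw [hm.cl₁_of h2]
      exact h₁.exit i h1 hT
    · rw [hm.cl₂_of h2]
      exact h₂.exit i h1 hT
  cross r i j hR hne := by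
    rcases hR with hR | hR | ⟨hrs, ⟨hi, hj⟩ | ⟨hi, hj⟩⟩
    · obtain ⟨h1, h2⟩ := hm.s₁.supp r i j hR
      rw [hm.cl₁_of h1, hm.cl₁_of h2] at hne
      rcases h₁.cross r i j hR hne with h3 | h3
      · exact Or.inl ⟨fun h => hy' (h ▸ h1), h3.2⟩
      · exact Or.inr ⟨fun h => hy' (h ▸ h2), h3.2⟩
    · obtain ⟨h1, h2⟩ := hm.s₂.supp r i j hR
      rw [hm.cl₂_of h1, hm.cl₂_of h2] at hne
      exact h₂.cross r i j hR hne
    · left
      rw [hi, hrs]
      exact ⟨fun h => hy' (h ▸ hm.yπ), hs⟩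
    · right
      rw [hj, hrs]
      exact ⟨fun h => hy' (h ▸ hm.yπ), hs⟩

section graft

variable [Nonempty κ] (hC : 1 ≤ c) (hΦ : AdmissiblePotential M.Φ) (hε : 0 < M.ε)
  (h : StrG491.Enc M c Z R₁ R₂ π₁ π₂ cl₁ cl₂ bD E₁ E₂ y a s p q)
  (hT : TL M c ℓ ς (π₁ ∪ π₂) Z) (hℓς : 2 * ℓ ≤ ς) (hp : CDpass M.Φ q)
  (hle : s + outT M.Φ M.ε q ≤ M.T)
include hC hΦ hε h hT hℓς hp hle

/-- Exit data of the merged class. -/
theorem graft_exit (h₁ : ∀ i ∈ cl₁ y, bD i ≤ M.T → bD i = M.bb i ∨ ∃ k ∈ cl₁ y, k ≠ i ∧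
      M.bb k ≤ bD i ∧ Sepa M.ε (M.st (cl₁ y) (bD i) Z i) (M.st (cl₁ y) (bD i) Z k))
    (h₂ : ∀ i ∈ cl₂ a, bD i ≤ M.T → bD i = M.bb i ∨ ∃ k ∈ cl₂ a, k ≠ i ∧
      M.bb k ≤ bD i ∧ Sepa M.ε (M.st (cl₂ a) (bD i) Z i) (M.st (cl₂ a) (bD i) Z k))
    {i : J} (hi : i ∈ cl₁ y ∪ cl₂ a) (hiT : grafted M.Φ M.ε bD y a s q i ≤ M.T) :
    grafted M.Φ M.ε bD y a s q i = M.bb i ∨ ∃ k ∈ cl₁ y ∪ cl₂ a, k ≠ i ∧
      M.bb k ≤ grafted M.Φ M.ε bD y a s q i ∧
      Sepa M.ε (M.st (cl₁ y ∪ cl₂ a) (grafted M.Φ M.ε bD y a s q i) Z i)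
        (M.st (cl₁ y ∪ cl₂ a) (grafted M.Φ M.ε bD y a s q i) Z k) := by
  have hG := h.graftH
  have hTL := h.tl hC hε hT
  have hac : s ≤ s + outT M.Φ M.ε q := (lt_add_of_pos_right s (hp.outT_pos hε)).le
  obtain ⟨e1, e2⟩ := hG.st_pair hε hC hTL hℓς hΦ hac hle
  by_cases hia : i = y
  · subst hia
    have hg : grafted M.Φ M.ε bD i a s q i = s + outT M.Φ M.ε q := if_pos (Or.inl rfl)
    rw [hg]
    refine Or.inr ⟨a, Finset.mem_union_right _ hG.hc, hG.symm_ne.symm, hG.bbc.le.trans hac, ?_⟩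
    rw [e1, e2]
    exact sepa_exit hΦ hε hp
  by_cases hic : i = a
  · subst hic
    have hg : grafted M.Φ M.ε bD y i s q i = s + outT M.Φ M.ε q := if_pos (Or.inr rfl)
    rw [hg]
    refine Or.inr ⟨y, Finset.mem_union_left _ hG.ha, hG.symm_ne, hG.bba.le.trans hac, ?_⟩
    rw [e1, e2]
    exact (sepa_exit hΦ hε hp).symm
  have hg : grafted M.Φ M.ε bD y a s q i = bD i := if_neg fun h' => h'.elim hia hic
  rw [hg] at hiT ⊢
  rcases Finset.mem_union.1 hi with hi' | hi'
  · rcases h₁ i hi' hiT with h3 | ⟨k, hk, hki, hbk, hd⟩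
    · exact Or.inl h3
    · refine Or.inr ⟨k, Finset.mem_union_left _ hk, hki, hbk, ?_⟩
      rw [hG.st₁ hε hC hTL hℓς hΦ hi' hia hiT]
      rcases le_or_gt (bD i) s with hs | hs
      · rw [(hG.st_early hε hC hTL hℓς hΦ hs).1 k hk]
        exact hd
      · have hka : k ≠ y := by
          rintro rfl
          have h4 := hd.1
          rw [dist_comm] at h4
          exact absurd (hG.cls₁.exit k hk (bD i) (hG.lta.trans hs) hiT i hi' hia
            (hG.cls₁.bb_le i hi')) (not_lt.2 h4.le)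
        rw [hG.st₁ hε hC hTL hℓς hΦ hk hka hiT]
        exact hd
  · rcases h₂ i hi' hiT with h3 | ⟨k, hk, hki, hbk, hd⟩
    · exact Or.inl h3
    · refine Or.inr ⟨k, Finset.mem_union_right _ hk, hki, hbk, ?_⟩
      rw [hG.st₂ hε hC hTL hℓς hΦ hi' hic hiT]
      rcases le_or_gt (bD i) s with hs | hs
      · rw [(hG.st_early hε hC hTL hℓς hΦ hs).2 k hk]
        exact hd
      · have hkc : k ≠ a := by
          rintro rfl
          have h4 := hd.1
          rw [dist_comm] at h4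
          exact absurd (hG.cls₂.exit k hk (bD i) (hG.ltc.trans hs) hiT i hi' hic
            (hG.cls₂.bb_le i hi')) (not_lt.2 h4.le)
        rw [hG.st₂ hε hC hTL hℓς hΦ hk hkc hiT]
        exact hd

/-- **Encounter with outgoing lines.** -/
theorem Mot.graft (h₁ : Mot M Z R₁ cl₁ bD y) (h₂ : Mot M Z R₂ cl₂ bD a) {y' : J}
    (hy' : y' = y ∨ y' = a) :
    Mot M Z (joinR R₁ R₂ y a s) (clMrg cl₁ cl₂ y a) (grafted M.Φ M.ε bD y a s q) y' where
  exit i hi hT' := by
    have hm := h.meet hε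
    by_cases hx : i ∈ cl₁ y ∪ cl₂ a
    · rw [h.clMrg_mem hx]
      refine graft_exit hC hΦ hε h hT hℓς hp hle (fun k hk hkT => ?_) (fun k hk hkT => ?_) hx hT'
      · have h3 := h.s₁.cov.eq y k hk
        have h4 := h₁.exit k (h3 ▸ hk) hkT
        rwa [h3] at h4
      · have h3 := h.s₂.cov.eq a k hk
        have h4 := h₂.exit k (h3 ▸ hk) hkT
        rwa [h3] at h4
    · rw [h.clMrg_not hx] at hi ⊢
      have hg : grafted M.Φ M.ε bD y a s q i = bD i := by
        refine StrG491.Enc.grafted_of_ne (fun h3 => hx ?_) fun h3 => hx ?_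
        · rw [h3]
          exact Finset.mem_union_left _ (h.s₁.mem y h.hy)
        · rw [h3]
          exact Finset.mem_union_right _ (h.s₂.mem a h.ha)
      rw [hg] at hT' ⊢
      rcases hm.mem_clSep hi with ⟨h1, h2, -⟩ | ⟨h1, h2, -⟩
      · rw [hm.cl₁_of h2]
        exact h₁.exit i h1 hT'
      · rw [hm.cl₂_of h2]
        exact h₂.exit i h1 hT'
  cross r i j hR hne := by
    have hm := h.meet hε
    have hyπ := hm.yπ
    have haπ := hm.aπ
    have key₁ : ∀ k ∈ π₁, k ≠ y → k ≠ y' ∧ grafted M.Φ M.ε bD y a s q k = bD k := by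
      intro k hk hky
      have hka : k ≠ a := fun h' => hm.not₂ hk (h' ▸ haπ)
      refine ⟨?_, StrG491.Enc.grafted_of_ne hky hka⟩
      rcases hy' with rfl | rfl
      · exact hky
      · exact hka
    have key₂ : ∀ k ∈ π₂, k ≠ a → k ≠ y' ∧ grafted M.Φ M.ε bD y a s q k = bD k := by
      intro k hk hka
      have hky : k ≠ y := fun h' => hm.not₁ hk (h' ▸ hyπ)
      refine ⟨?_, StrG491.Enc.grafted_of_ne hky hka⟩
      rcases hy' with rfl | rfl
      · exact hky
      · exact hka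
    rcases hR with hR | hR | ⟨hrs, ⟨hi, hj⟩ | ⟨hi, hj⟩⟩
    · obtain ⟨h1, h2⟩ := h.s₁.supp r i j hR
      have hne' : cl₁ i ≠ cl₁ j := by
        intro heq
        apply hne
        by_cases hi : i ∈ cl₁ y ∪ cl₂ a
        · have hi' : i ∈ cl₁ y := (Finset.mem_union.1 hi).resolve_right fun h' =>
            hm.not₂ h1 (h.s₂.sub a h')
          have h3 := h.s₁.cov.eq y i hi'
          have h4 : j ∈ cl₁ y := by
            rw [← h3, heq]
            exact h.s₁.cov.mem j ⟨i, by rw [← heq, h3]; exact hi'⟩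
          rw [h.clMrg_mem hi, h.clMrg_mem (Finset.mem_union_left _ h4)]
        · by_cases hj : j ∈ cl₁ y ∪ cl₂ a
          · have hj' : j ∈ cl₁ y := (Finset.mem_union.1 hj).resolve_right fun h' =>
              hm.not₂ h2 (h.s₂.sub a h')
            have h3 := h.s₁.cov.eq y j hj'
            have h4 : i ∈ cl₁ y := by
              rw [← h3, ← heq]
              exact h.s₁.cov.mem i ⟨j, by rw [heq, h3]; exact hj'⟩
            exact absurd (Finset.mem_union_left _ h4) hi
          · rw [h.clMrg_not hi, h.clMrg_not hj, hm.cl₁_of h1, hm.cl₁_of h2, heq]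
      rcases h₁.cross r i j hR hne' with h3 | h3
      · have h4 := key₁ i h1 h3.1
        exact Or.inl ⟨h4.1, by rw [h4.2]; exact h3.2⟩
      · have h4 := key₁ j h2 h3.1
        exact Or.inr ⟨h4.1, by rw [h4.2]; exact h3.2⟩
    · obtain ⟨h1, h2⟩ := h.s₂.supp r i j hR
      have hne' : cl₂ i ≠ cl₂ j := by
        intro heq
        apply hne
        by_cases hi : i ∈ cl₁ y ∪ cl₂ a
        · have hi' : i ∈ cl₂ a := (Finset.mem_union.1 hi).resolve_left fun h' =>
            hm.not₁ h1 (h.s₁.sub y h')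
          have h3 := h.s₂.cov.eq a i hi'
          have h4 : j ∈ cl₂ a := by
            rw [← h3, heq]
            exact h.s₂.cov.mem j ⟨i, by rw [← heq, h3]; exact hi'⟩
          rw [h.clMrg_mem hi, h.clMrg_mem (Finset.mem_union_right _ h4)]
        · by_cases hj : j ∈ cl₁ y ∪ cl₂ a
          · have hj' : j ∈ cl₂ a := (Finset.mem_union.1 hj).resolve_left fun h' =>
              hm.not₁ h2 (h.s₁.sub y h')
            have h3 := h.s₂.cov.eq a j hj'
            have h4 : i ∈ cl₂ a := by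
              rw [← h3, ← heq]
              exact h.s₂.cov.mem i ⟨j, by rw [heq, h3]; exact hj'⟩
            exact absurd (Finset.mem_union_right _ h4) hi
          · rw [h.clMrg_not hi, h.clMrg_not hj, hm.cl₂_of h1, hm.cl₂_of h2, heq]
      rcases h₂.cross r i j hR hne' with h3 | h3
      · have h4 := key₂ i h1 h3.1
        exact Or.inl ⟨h4.1, by rw [h4.2]; exact h3.2⟩
      · have h4 := key₂ j h2 h3.1
        exact Or.inr ⟨h4.1, by rw [h4.2]; exact h3.2⟩
    · exfalso
      apply hne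
      rw [hi, hj, h.clMrg_mem (Finset.mem_union_left _ (h.s₁.mem y h.hy)),
        h.clMrg_mem (Finset.mem_union_right _ (h.s₂.mem a h.ha))]
    · exfalso
      apply hne
      rw [hi, hj, h.clMrg_mem (Finset.mem_union_left _ (h.s₁.mem y h.hy)),
        h.clMrg_mem (Finset.mem_union_right _ (h.s₂.mem a h.ha))]

end graft

/-! ### The motion -/

/-- Deaths: the exit times before the horizon. -/
def dE (M : VSys J κ) (bD : J → ℝ) (i : J) : ℝ := if bD i ≤ M.T then bD i else M.T + 1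

theorem dE_of_le {i : J} (h : bD i ≤ M.T) : dE M bD i = bD i := if_pos h

theorem dE_of_lt {i : J} (h : M.T < bD i) : dE M bD i = M.T + 1 := if_neg (not_le.2 h)

theorem dE_le {i : J} (h : dE M bD i ≤ M.T) : bD i ≤ M.T := by
  by_contra hcon
  rw [dE_of_lt (not_le.1 hcon)] at h
  linarith

section motion

variable [Nonempty κ] (hC : 1 ≤ c) (hΦ : AdmissiblePotential M.Φ) (hε : 0 < M.ε)
  (h : Str M c Z R π cl bD E) (hm : Mot M Z R cl bD y) (hT : TL M c ℓ ς π Z) (hℓς : 2 * ℓ ≤ ς)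
include hC hΦ hε h hm hT hℓς

omit hm hT hℓς hΦ in
/-- A contact is a virtual contact. -/
theorem vct_cl {i j : J} {t : ℝ} (htT : t ≤ M.T) (hi : i ∈ cl i) (hj : j ∈ cl j)
    (hd : dist (M.st (cl i) t Z i).1 (M.st (cl j) t Z j).1 ≤ M.ε) : M.VCt c π i j t Z :=
  vct_st hC hε (h.sub i) (h.sub j) hi hj (ok_anti htT (h.cov.ok i)) (ok_anti htT (h.cov.ok j))
    (h.cov.obs i i hi) (h.cov.obs j j hj) hd

/-- **Labels of different classes are far** before their exits. -/
theorem far {i j : J} (hi : i ∈ cl i) (hj : j ∈ cl j) (hij : cl i ≠ cl j) (hbi : M.bb i < bD i)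
    (hbj : M.bb j < bD j) {t : ℝ} (h0 : 0 ≤ t) (htT : t ≤ M.T) (hti : bD i ≤ M.T → t ≤ bD i)
    (htj : bD j ≤ M.T → t ≤ bD j) :
    M.ε < dist (M.st (cl i) t Z i).1 (M.st (cl j) t Z j).1 := by
  -- the exit of `i` separates `t` and the contact of the family
  have key : ∀ {i j : J} (_ : i ∈ cl i) (_ : j ∈ cl j), cl i ≠ cl j → M.bb i < bD i →
      (bD i ≤ M.T → t ≤ bD i) → M.VCt c π i j t Z → ∀ r ∈ Icc 0 M.T,
      R r i j → bD i ≤ r → False := by
    intro i j hi hj hij hbi hti hv r hr hR hir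
    have hne : i ≠ j := fun h' => hij (by rw [h'])
    have hiπ := h.sub i hi
    have hjπ := h.sub j hj
    have hiT : bD i ≤ M.T := hir.trans hr.2
    have h00 : 0 ≤ bD i := (bb_nonneg M i).trans hbi.le
    rcases hm.exit i hi hiT with h1 | ⟨k, hk, hki, hbk, hd⟩
    · exact hbi.ne' h1
    · have hck : cl k = cl i := h.cov.eq i k hk
      have hk' : k ∈ cl k := by rw [hck]; exact hk
      have h2 : M.VCt c π i k (bD i) Z := vct_cl hC hε h hiT hi hk' (by
        rw [hck]
        exact hd.1.le)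
      have h3 := tl_between hT.2 h.conn hℓς hiπ hjπ hne hiπ (h.sub i hk) hki.symm ⟨h0, htT⟩ hv hr
        (h.fam.vct r hr i hiπ j hjπ hne hR) ⟨h00, hiT⟩ h2 (hti hiT) hir
      rcases h3 with h3 | h3
      · exact hij (by rw [h3.2, hck])
      · exact hki h3.1.symm
  by_contra hcon
  have hne : i ≠ j := fun h' => hij (by rw [h'])
  have hiπ := h.sub i hi
  have hjπ := h.sub j hj
  have hv := vct_cl hC hε h htT hi hj (not_lt.1 hcon)
  have hv' := vct_symm hv
  have h1 := tl_mem_of_family hT.2 h.fam.conn (fun i hi j hj hij hF => by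
    obtain ⟨r, hr, hR⟩ := hF
    exact ⟨r, hr, h.fam.vct r hr i hi j hj hij hR⟩) hiπ hjπ hne ⟨h0, htT⟩ hv
  have h2 : ∃ r ∈ Icc 0 M.T, R r i j := by
    rcases h1 with ⟨r, hr, hR⟩ | ⟨r, hr, hR⟩
    · exact ⟨r, hr, hR⟩
    · exact ⟨r, hr, h.fam.symm r j i hR⟩
  obtain ⟨r, hr, hR⟩ := h2
  rcases hm.cross r i j hR hij with h3 | h3
  · exact key hi hj hij hbi hti hv r hr hR h3.2
  · exact key hj hi hij.symm hbj htj hv' r hr (h.fam.symm r i j hR) h3.2

variable {A : Finset J} (hA : ∀ i ∈ A, ∃ e ∈ E, i ∈ cl e ∧ cl e ⊆ A)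
  (hb : ∀ i ∈ A, M.bb i = 0) (hpos : ∀ i ∈ A, 0 < bD i)
include hA

omit hC hΦ hε hm hT hℓς in
theorem cl_A {i : J} (hi : i ∈ A) : i ∈ cl i ∧ cl i ⊆ A ∧ Cls M Z (cl i) bD := by
  obtain ⟨e, he, h1, h2⟩ := hA i hi
  have h3 : cl i = cl e := h.cov.eq e i h1
  rw [h3]
  exact ⟨h1, h2, h.cls e he⟩

omit hC hm hT hℓς in
/-- Right continuity of the positions. -/
theorem cwa {i k : J} (hi : i ∈ A) (hk : k ∈ cl i) {t : ℝ} (h0 : 0 ≤ t) (htT : t < M.T) :
    ContinuousWithinAt (fun s => (M.st (cl i) s Z k).1) (Icc t M.T) t := by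
  have h1 : ContinuousOn (fun s => M.st (cl i) s Z k) (Icc t M.T) :=
    ((cl_A h hA hi).2.2.lworld hΦ hε t).cont_apply (⟨k, hk⟩ : (cl i : Finset J))
  exact (h1 t ⟨le_rfl, htT.le⟩).fst

omit hC hm hT hℓς in
/-- From the exit time on a label is at distance at least `ε` from its class. -/
theorem le_dist_exit {i k : J} (hi : i ∈ A) (hk : k ∈ cl i) (hki : k ≠ i) {t : ℝ} (h0 : 0 ≤ t)
    (htT : t < M.T) (hit : bD i ≤ t) (hbk : M.bb k ≤ t) :
    M.ε ≤ dist (M.st (cl i) t Z i).1 (M.st (cl i) t Z k).1 := by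
  obtain ⟨h1, -, h3⟩ := cl_A h hA hi
  refine le_dist_of_frequently htT (x := fun s => (M.st (cl i) s Z i).1)
    (y := fun s => (M.st (cl i) s Z k).1) (cwa hΦ hε h hA hi h1 h0 htT)
    (cwa hΦ hε h hA hi hk h0 htT) (Eventually.frequently ?_)
  filter_upwards [Ioo_mem_nhdsGT htT] with s hs
  exact (h3.exit i h1 s (hit.trans_lt hs.1) hs.2.le k hk hki (hbk.trans hs.1.le)).le

include hb hpos

omit hC hm hT hℓς in
/-- At the exit time too. -/
theorem le_dist_exit' {i k : J} (hi : i ∈ A) (hk : k ∈ cl i) (hki : k ≠ i) {t : ℝ} 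
    (htT : t ≤ M.T) (hit : bD i < t) :
    M.ε < dist (M.st (cl i) t Z i).1 (M.st (cl i) t Z k).1 := by
  obtain ⟨h1, h2, h3⟩ := cl_A h hA hi
  exact h3.exit i h1 t hit htT k hk hki (by
    rw [hb k (h2 hk)]
    exact ((hpos i hi).trans hit).le)

/-- **The classes, with deaths at the exit times, are one motion.** -/
theorem motion : DWorld M.Φ M.ε (fun _ : A => (0 : ℝ)) (fun i : A => dE M bD i) 0 M.T
    (fun t i => M.st (cl i) t Z i) where
  cont i := by
    obtain ⟨h1, -, h3⟩ := cl_A h hA i.2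
    have h4 : ContinuousOn (fun s => M.st (cl i) s Z i) (Icc 0 M.T) :=
      (h3.lworld hΦ hε 0).cont_apply (⟨i, h1⟩ : (cl i : Finset J))
    exact h4.mono (Icc_subset_Icc le_rfl (min_le_left _ _))
  der t h0 htT i hi := by
    obtain ⟨h1, h2, h3⟩ := cl_A h hA i.2
    have h4 := (hasDerivWithinAt_pi.1 ((h3.lworld hΦ hε 0).der t ⟨h0, htT⟩))
      (⟨i, h1⟩ : (cl i : Finset J))
    refine h4.congr_deriv ?_
    unfold bf bfd
    refine Prod.ext rfl ?_
    simp only
    have hbi : M.bb (i : J) ≤ t := by rw [hb i i.2]; exact h0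
    rw [if_pos hbi, if_pos h0]
    congr 1
    have e1 : (∑ j : (cl i : Finset J), if M.bb (j : J) ≤ t then
        gradient M.Φ ((1 / M.ε) • ((M.st (cl i) t Z i).1 - (M.st (cl i) t Z j).1)) else 0) =
        ∑ j ∈ cl (i : J), gradient M.Φ ((1 / M.ε) • ((M.st (cl i) t Z i).1 -
          (M.st (cl i) t Z j).1)) := by
      rw [← Finset.sum_coe_sort (cl (i : J))]
      refine Finset.sum_congr rfl fun j _ => if_pos ?_
      rw [hb j (h2 j.2)]
      exact h0
    have e2 : (∑ j : A, if (0 : ℝ) ≤ t ∧ t < dE M bD j then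
        gradient M.Φ ((1 / M.ε) • ((M.st (cl i) t Z i).1 - (M.st (cl j) t Z j).1)) else 0) =
        ∑ j ∈ A, if (0 : ℝ) ≤ t ∧ t < dE M bD j then
        gradient M.Φ ((1 / M.ε) • ((M.st (cl i) t Z i).1 - (M.st (cl j) t Z j).1)) else 0 :=
      Finset.sum_coe_sort A fun j => if (0 : ℝ) ≤ t ∧ t < dE M bD j then
        gradient M.Φ ((1 / M.ε) • ((M.st (cl i) t Z i).1 - (M.st (cl j) t Z j).1)) else 0
    show (∑ j : (cl i : Finset J), if M.bb (j : J) ≤ t then
        gradient M.Φ ((1 / M.ε) • ((M.st (cl i) t Z i).1 - (M.st (cl i) t Z j).1)) else 0) =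
      ∑ j : A, if (0 : ℝ) ≤ t ∧ t < dE M bD j then
        gradient M.Φ ((1 / M.ε) • ((M.st (cl i) t Z i).1 - (M.st (cl j) t Z j).1)) else 0
    rw [e1, e2]
    refine (Finset.sum_congr rfl fun j hj => ?_).trans
      (Finset.sum_subset h2 fun j hjA hj => ?_)
    · have hjA := h2 hj
      have hcj : cl j = cl (i : J) := h.cov.eq i j hj
      by_cases hd : t < dE M bD j
      · rw [if_pos ⟨h0, hd⟩, hcj]
      · have hd' := not_lt.1 hd
        have h5 : bD j ≤ M.T := dE_le (hd'.trans htT.le)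
        rw [dE_of_le h5] at hd'
        have hij : (i : J) ≠ j := by
          intro h'
          rw [← h'] at hd
          exact hd hi
        rw [if_neg fun h' => hd h'.2]
        refine grad_far hΦ hε ?_
        have h6 := le_dist_exit hΦ hε h hA hjA (k := (i : J)) (by rw [hcj]; exact h1) hij h0 htT hd'
          hbi
        rwa [hcj, dist_comm] at h6
    · by_cases hd : t < dE M bD j
      · rw [if_pos ⟨h0, hd⟩]
        obtain ⟨g1, g2, g3⟩ := cl_A h hA hjA
        refine grad_far hΦ hε (far hC hΦ hε h hm hT hℓς h1 g1 (fun h' => hj (h' ▸ g1)) ?_ ?_ h0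
          htT.le (fun h' => ?_) fun h' => ?_).le
        · rw [hb i i.2]
          exact hpos i i.2
        · rw [hb j hjA]
          exact hpos j hjA
        · rw [dE_of_le h'] at hi
          exact hi.le
        · rw [dE_of_le h'] at hd
          exact hd.le
      · rw [if_neg fun h' => hd h'.2]
  dom t h0 htT := by
    by_cases hcd : ContDiff ℝ 2 M.Φ
    · exact Or.inl hcd
    · refine Or.inr fun i j hij _ hi _ hj => ?_
      obtain ⟨h1, h2, h3⟩ := cl_A h hA i.2
      obtain ⟨g1, g2, g3⟩ := cl_A h hA j.2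
      have hij' : (i : J) ≠ j := fun h' => hij (Subtype.ext h')
      by_cases hc : cl (i : J) = cl (j : J)
      · have h4 := ((h3.lworld hΦ hε 0).dom t ⟨h0, htT⟩).resolve_left hcd
          (⟨i, h1⟩ : (cl i : Finset J)) ⟨j, by rw [hc]; exact g1⟩
          (fun h' => hij' (congrArg (fun k : (cl (i : J) : Finset J) => (k : J)) h'))
          (by show M.bb (i : J) ≤ t; rw [hb i i.2]; exact h0)
          (by show M.bb (j : J) ≤ t; rw [hb j j.2]; exact h0)
        show (M.st (cl i) t Z i).1 ≠ (M.st (cl j) t Z j).1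
        rw [← hc]
        exact h4
      · intro heq
        have h4 := far hC hΦ hε h hm hT hℓς h1 g1 hc (by rw [hb i i.2]; exact hpos i i.2)
          (by rw [hb j j.2]; exact hpos j j.2) h0 htT.le (fun h' => by
            rw [dE_of_le h'] at hi
            exact hi.le) (fun h' => by
            rw [dE_of_le h'] at hj
            exact hj.le)
        have heq' : (M.st (cl i) t Z i).1 = (M.st (cl j) t Z j).1 := heq
        rw [heq', dist_self] at h4
        exact absurd h4 (not_lt.2 hε.le)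

/-- **Release data.** -/
theorem relD : RelD M.ε (fun _ : A => (0 : ℝ)) (fun i : A => dE M bD i) M.T
    (fun t i => M.st (cl i) t Z i) where
  pos i hi := by
    have h1 := dE_le hi
    show 0 < dE M bD i
    rw [dE_of_le h1]
    exact hpos i i.2
  born i hi := by
    have h1 := dE_le hi
    show 0 ≤ dE M bD i
    rw [dE_of_le h1]
    exact (hpos i i.2).le
  exit i hi := by
    have hiT := dE_le hi
    obtain ⟨h1, h2, h3⟩ := cl_A h hA i.2
    rcases hm.exit i h1 hiT with h4 | ⟨k, hk, hki, hbk, hd⟩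
    · rw [hb i i.2] at h4
      exact absurd h4 (hpos i i.2).ne'
    · have hkA := h2 hk
      have hck : cl k = cl (i : J) := h.cov.eq i k hk
      refine ⟨⟨k, hkA⟩, fun h' => hki (congrArg Subtype.val h'), ?_, ?_, ?_, ?_⟩
      · show 0 ≤ dE M bD i
        rw [dE_of_le hiT]
        exact (hpos i i.2).le
      · show dE M bD i ≤ dE M bD k
        by_cases hkT : bD k ≤ M.T
        · rw [dE_of_le hiT, dE_of_le hkT]
          by_contra hcon
          have hcon' := not_le.1 hcon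
          have h5 := le_dist_exit' hΦ hε h hA hb hpos hkA (k := (i : J)) (by rw [hck]; exact h1)
            hki.symm hiT hcon'
          rw [hck, dist_comm, hd.1] at h5
          exact absurd h5 (lt_irrefl _)
        · rw [dE_of_le hiT, dE_of_lt (not_le.1 hkT)]
          linarith
      · show dist (M.st (cl i) (dE M bD i) Z i).1 (M.st (cl k) (dE M bD i) Z k).1 = M.ε
        rw [dE_of_le hiT, hck]
        exact hd.1
      · show 0 < inner ℝ ((M.st (cl i) (dE M bD i) Z i).1 - (M.st (cl k) (dE M bD i) Z k).1)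
          ((M.st (cl i) (dE M bD i) Z i).2 - (M.st (cl k) (dE M bD i) Z k).2)
        rw [dE_of_le hiT, hck]
        exact hd.2

/-- **Labels released at the same time separate at once.** -/
theorem startSep {i j : J} (hi : i ∈ A) (hj : j ∈ A) (hij : i ≠ j) (hiT : bD i ≤ M.T)
    (heq : bD i = bD j) :
    StartSep M.ε (M.st (cl i) (bD i) Z i) (M.st (cl j) (bD j) Z j) := by
  obtain ⟨h1, h2, h3⟩ := cl_A h hA hi
  obtain ⟨g1, g2, g3⟩ := cl_A h hA hj
  have h0 : 0 ≤ bD i := (hpos i hi).le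
  by_cases hc : cl i = cl j
  · rcases lt_or_ge M.ε (dist (M.st (cl i) (bD i) Z i).1 (M.st (cl j) (bD i) Z j).1) with h4 | h4
    · rw [← heq]
      exact Or.inl h4
    · rw [← heq]
      have hv := vct_cl hC hε h hiT h1 g1 h4
      rcases hm.exit i h1 hiT with h5 | ⟨k, hk, hki, hbk, hd⟩
      · rw [hb i hi] at h5
        exact absurd h5 (hpos i hi).ne'
      · have hck : cl k = cl i := h.cov.eq i k hk
        have hv' : M.VCt c π i k (bD i) Z := vct_cl hC hε h hiT h1 (by rw [hck]; exact hk) (by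
          rw [hck]
          exact hd.1.le)
        have h6 := tl_between hT.2 h.conn hℓς (h.sub i h1) (h.sub j g1) hij (h.sub i h1)
          (h.sub i hk) hki.symm ⟨h0, hiT⟩ hv ⟨h0, hiT⟩ hv ⟨h0, hiT⟩ hv' le_rfl le_rfl
        rcases h6 with h6 | h6
        · rw [h6.2, hck]
          exact Or.inr hd
        · exact absurd h6.1.symm hki
  · left
    rw [← heq]
    exact far hC hΦ hε h hm hT hℓς h1 g1 hc (by rw [hb i hi]; exact hpos i hi)
      (by rw [hb j hj]; exact hpos j hj) h0 hiT (fun _ => le_rfl) fun _ => heq.le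

end motion

end Crest.Agent.R122.StrMot151
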