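import Crest.Agent.R122.E6Str_491
import Crest.Agent.R122.StrMain_307
import Crest.Agent.R122.StrMotG_307
import Crest.Agent.R122.StrPos_307
import Crest.Agent.R122.StrMot_151
import Crest.Agent.R122.OkNull_424
import Crest.Agent.R122.OkRoot_663
import Crest.Agent.R122.OkE4_167
import Crest.Agent.R122.LKok_416

/-!
# Good worlds of the tree and the first line of a pair structure (row 122, E6), helper370

* `okFam_of_motion` : released lines of a structure in a world of independent particles, from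
  helper307's `motion` and `OkD`.
* `ok1_of`, `ok1_leaf` : the lines of the tree and the first line `d` (pair structure of helper491 whose
  second line meets the root), base world `W` of independent particles.
-/

set_option autoImplicit false
set_option linter.unusedSectionVars false

open MeasureTheory Set Filter Topology
open scoped NNReal ENNReal
open Crest.AnalysisR.Kinetic
open Crest.Agent.R122.Flow671 hiding rel
open Crest.Agent.R122.Loc45 Crest.Agent.R122.Ins45
open Crest.Agent.R122.EDefs602 Crest.Agent.R122.GC311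
open Crest.Agent.R122.Kin796 Crest.Agent.R122.Kin796.CTree Crest.Agent.R122.Tree674
open Crest.Agent.R122.VL581 Crest.Agent.R122.VL581.VSys Crest.Agent.R122.VLInst442
open Crest.Agent.R122.LNInst491 Crest.Agent.R122.LN304 Crest.Agent.R122.LNg410
open Crest.Agent.R122.LNGraft410 Crest.Agent.R122.LNEv968 Crest.Agent.R122.PWInst442
open Crest.Agent.R122.PathFlow968 Crest.Agent.R122.TreeLines335
open Crest.Agent.R122.LNTree410 Crest.Agent.R122.PWGlue491 Crest.Agent.R122.Inf879
open Crest.Agent.R122.OCout796 Crest.Agent.R122.Scat818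
open Crest.Agent.R122.StrG491 Crest.Agent.R122.TransOk151
open Crest.Agent.R122.OneC285 (cT cB cD cX)
open Crest.Agent.R122.E6Hyp879 (withD)
open Crest.Agent.R122.OkNull424 (OkD)
open scoped Classical

noncomputable section

namespace Crest.Agent.R122.Ok1P370

variable {J κ : Type} [Fintype J] {M : VSys J κ} {Z : J → PhasePoint}
variable {c ℓ ς : ℝ} {R : ℝ → J → J → Prop} {π E : Finset J} {cl : J → Finset J} {bD : J → ℝ}

/-- **Released lines of a structure** in a world of independent particles. -/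
theorem okFam_of_motion [Nonempty κ] (hΦ : AdmissiblePotential M.Φ) (hε : 0 < M.ε) (hc : 1 ≤ c)
    (hT0 : 0 ≤ M.T) (hℓς : 2 * ℓ ≤ ς) (hstr : Str M c Z R π cl bD E) (htl : TL M c ℓ ς π Z)
    {A : Finset J} (hE : ∀ i ∈ A, ∃ a ∈ E, i ∈ cl a) (hA : ∀ i ∈ A, cl i ⊆ A)
    (hb : ∀ i ∈ A, M.bb i = 0) (hp : ∀ i ∈ A, 0 < bD i)
    (hexit : ∀ i, i ∈ cl i → bD i ≤ M.T → bD i = M.bb i ∨ ∃ k ∈ cl i, k ≠ i ∧ M.bb k ≤ bD i ∧
      dist (M.st (cl i) (bD i) Z i).1 (M.st (cl i) (bD i) Z k).1 = M.ε ∧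
      0 < inner ℝ ((M.st (cl i) (bD i) Z i).1 - (M.st (cl i) (bD i) Z k).1)
        ((M.st (cl i) (bD i) Z i).2 - (M.st (cl i) (bD i) Z k).2))
    (hcross : ∀ r i j, R r i j → cl i ≠ cl j → bD i ≤ r ∨ bD j ≤ r)
    {ω : Type} [Fintype ω] {W : MW ω} (hOk : OkD M.Φ M.ε W.b (fun a : A => Z a) W.z)
    (hW : SepB M.ε W) {ξ : Type} [Fintype ξ] {j : ξ → J} (hjA : ∀ x, j x ∈ A)
    (hj : Function.Injective j) {ls : ξ → ML} (hjT : ∀ x, bD (j x) ≤ M.T)
    (hls : ∀ x, (ls x).1 = (bD (j x), M.st (cl (j x)) (bD (j x)) Z (j x)))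
    (hWl : ∀ i x, W.b i = bD (j x) → StartSep M.ε (lineAt 0 (W.z i) (W.b i)) (ls x).1.2) :
    MW.OkFam M.Φ M.ε W ls := by
  obtain ⟨h1, h2, h3, h4, -⟩ := StrMain307.motion hΦ hε hc hℓς hstr htl hE hA hb hp hexit hcross
  have hd : ∀ x, dth {i : A | bD i ≤ M.T} (fun i : A => bD i) M.T ⟨j x, hjA x⟩ = bD (j x) :=
    fun x => dth_mem (S := {i : A | bD i ≤ M.T}) (hjT x)
  refine (hOk _ M.T (fun t (i : A) => M.st (cl i) t Z i) hT0 h1 h3 h2 ξ
    (fun x => ⟨j x, hjA x⟩) ls W (fun x y h => hj (congrArg Subtype.val h))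
    (fun x => ?_) (fun x => ?_) rfl rfl ?_).1
  · rw [hd x]
    exact hjT x
  · rw [hd x]
    exact hls x
  · refine sepB_add_lines hW (fun x y hxy hb' => ?_) fun i x hb' => hWl i x ?_
    · rw [hls x, hls y] at hb' ⊢
      exact h4 ⟨j x, hjA x⟩ ⟨j y, hjA y⟩ (fun h => hxy (hj (congrArg Subtype.val h))) (hjT x)
        hb'.symm
    · rw [hb', hls x]

/-- **The first line of a pair structure** in a world of independent particles. -/
theorem okd_pair {x y : J} {d e : ℝ × PhasePoint} [Nonempty κ]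
    (h : Pair M c Z R π cl bD x y d e) (hC : 1 ≤ c) (hΦ : AdmissiblePotential M.Φ)
    (hε : 0 < M.ε) (hT0 : 0 < M.T) (hT : TL M c ℓ ς π Z) (hℓς : 2 * ℓ ≤ ς)
    (hex : StrMain307.ExitT M Z cl bD) (hcr : StrMain307.CrossT R cl bD y)
    (hb : ∀ k ∈ π, M.bb k = 0) (hd0 : 0 < d.1) (hdT : d.1 ≤ M.T)
    {ω : Type} [Fintype ω] {W : MW ω} (hW : SepB M.ε W)
    (hOk : OkD M.Φ M.ε W.b (fun a : cl x => Z a) W.z) {l : ML} (hl : l.1 = d)
    (hWl : ∀ i, W.b i = l.1.1 → StartSep M.ε (lineAt 0 (W.z i) (W.b i)) l.1.2) :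
    MW.OkFam M.Φ M.ε W (fun _ : Unit => l) := by
  have hbT : bD x = l.1.1 := by
    rw [hl]
    exact h.bx.symm
  refine okFam_of_motion hΦ hε hC hT0.le hℓς h.str hT
    (A := cl x) (fun i hi => ⟨x, h.hx, hi⟩) (fun i hi => ?_)
    (fun i hi => hb i (h.str.sub x hi)) (fun i hi => ?_) hex
    (fun r i j hR hij => hcr.weak r i j hR hij) hOk hW
    (j := fun _ : Unit => x) ?_ ?_ (ls := fun _ => l) ?_ ?_ ?_
  · rw [h.str.cov.eq x i hi]
  · refine StrMain307.cls_pos_of_last (h.str.cls x h.hx)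
      (fun k hk => hb k (h.str.sub x hk)) hT0 (h.str.mem x h.hx) ?_ ?_ i hi
    · rw [hbT, hl]
      exact hd0
    · rw [hbT, hl]
      exact hdT
  · exact fun _ => h.str.mem x h.hx
  · exact fun _ _ _ => rfl
  · intro k
    rw [hbT, hl]
    exact hdT
  · intro k
    refine Prod.ext hbT.symm ?_
    show l.1.2 = M.st (cl x) (bD x) Z x
    rw [hl, ← h.bx]
    exact (h.lx hdT).symm
  · intro i k hik
    exact hWl i (by rw [hik, hbT])

/-! ### The second line meets the root of a tree -/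

section ptree

variable {x y : J} {d : ℝ × PhasePoint} {e : ML} {te : ℝ} {P : CTree} {z : PhasePoint × Par P}
  {eP : Idx P ↪ J}

/-- Contacts of labels of the two sides: the connecting contact is after the exit of `y`. -/
theorem cross0 (h : PTree M c Z R π cl bD x y d e te P z eP) [Nonempty κ] (hC : 1 ≤ c)
    (hΦ : AdmissiblePotential M.Φ) (hε : 0 < M.ε) (hcr : StrMain307.CrossT R cl bD y) (r : ℝ)
    (i j : J) (hR : joinR R (RC M Z (part eP)) y (eP (root P)) (cT M.ε z e) r i j)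
    (hij : clSep cl (clOf (part eP)) i ≠ clSep cl (clOf (part eP)) j) : bD i ≤ r ∨ bD j ≤ r := by
  have hh := h.hit hC hΦ hε
  have hm := (hh.enc hΦ hε).meet hε
  exact (StrMain307.CrossT.join hm hcr (StrMain307.CrossT.of_cls (part eP) bD (eP (root P)))
    (Or.inl ⟨rfl, h.pr.bY.trans h.lt_cT.le⟩)).weak r i j hR hij

/-- Transversal exits, separate classes. -/
theorem exit0 (h : PTree M c Z R π cl bD x y d e te P z eP) [Nonempty κ] (hC : 1 ≤ c)
    (hΦ : AdmissiblePotential M.Φ) (hε : 0 < M.ε) (hex : StrMain307.ExitT M Z cl bD) :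
    StrMain307.ExitT M Z (clSep cl (clOf (part eP))) bD := by
  have hh := h.hit hC hΦ hε
  have hm := (hh.enc hΦ hε).meet hε
  refine StrMain307.ExitT.join hm hex ?_
  have h1 := StrMot151.Mot.of_tree (bD := bD) (y := y) hΦ hε h.T_pos h.tree h.bP
  exact fun i hi hiT => h1.exit i hi hiT

/-- **The lines of the tree and `d`**, a tree with two leaves. -/
theorem ok1_of [Nonempty κ] (h : PTree M c Z R π cl bD x y d e te P z eP) (hC : 1 ≤ c)
    (hΦ : AdmissiblePotential M.Φ) (hε : 0 < M.ε) (hT : TL M c ℓ ς (π ∪ part eP) Z)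
    (hℓς : 2 * ℓ ≤ ς) (hex : StrMain307.ExitT M Z cl bD) (hcr : StrMain307.CrossT R cl bD y)
    (hb : ∀ k ∈ π, M.bb k = 0) (hd0 : 0 < d.1) (hdT : d.1 ≤ M.T) (hP : P ≠ leaf)
    {ω : Type} [Fintype ω] {W : MW ω} (hW : SepB M.ε W)
    (hOk : OkD M.Φ M.ε W.b (fun a : (cl x ∪ part eP : Finset J) => Z a) W.z) {l : ML}
    (hl : l.1 = d)
    (hWl : ∀ i k, W.b i = (withD (lineML M.Φ M.ε P z) l k).1.1 →
      StartSep M.ε (lineAt 0 (W.z i) (W.b i)) (withD (lineML M.Φ M.ε P z) l k).1.2) :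
    MW.OkFam M.Φ M.ε W (withD (lineML M.Φ M.ε P z) l) := by
  have hh := h.hit hC hΦ hε
  have hm := (hh.enc hΦ hε).meet hε
  have hx1 : clSep cl (clOf (part eP)) x = cl x := hm.cl₁_of h.pr.xπ
  have hP1 : ∀ i ∈ part eP, clSep cl (clOf (part eP)) i = part eP := fun i hi => by
    rw [hm.cl₂_of hi, clOf_mem hi]
  have hc1 : ∀ i ∈ cl x, clSep cl (clOf (part eP)) i = cl x := fun i hi => by
    rw [hm.cl₁_of (h.pr.str.sub x hi), h.pr.str.cov.eq x i hi]
  have hbT : ∀ k, bD (Sum.elim (⇑eP) (fun _ : Unit => x) k) =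
      (withD (lineML M.Φ M.ε P z) l k).1.1 := by
    rintro (k | k)
    · exact h.bP k
    · show bD x = l.1.1
      rw [hl]
      exact h.pr.bx.symm
  refine okFam_of_motion hΦ hε hC h.T_pos.le hℓς (h.str0 hC hΦ hε) hT
    (A := cl x ∪ part eP) (fun i hi => ?_) (fun i hi => ?_) (fun i hi => ?_) (fun i hi => ?_)
    (exit0 h hC hΦ hε hex) (cross0 h hC hΦ hε hcr) hOk hW
    (j := Sum.elim (⇑eP) (fun _ : Unit => x)) ?_ ?_ (ls := withD (lineML M.Φ M.ε P z) l) ?_ ?_ ?_
  · rcases Finset.mem_union.1 hi with hi | hi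
    · exact ⟨x, Finset.mem_union_left _ (Finset.mem_singleton_self x), by rw [hx1]; exact hi⟩
    · exact ⟨i, Finset.mem_union_right _ hi, by rw [hP1 i hi]; exact hi⟩
  · rcases Finset.mem_union.1 hi with hi | hi
    · rw [hc1 i hi]
      exact Finset.subset_union_left
    · rw [hP1 i hi]
      exact Finset.subset_union_right
  · rcases Finset.mem_union.1 hi with hi | hi
    · exact hb i (h.pr.str.sub x hi)
    · obtain ⟨k, rfl⟩ := mem_part.1 hi
      exact h.tree.bb k
  · rcases Finset.mem_union.1 hi with hi | hi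
    · exact StrMain307.pos_x h hb hd0 hdT i hi
    · exact StrMain307.pos_P h hΦ hε hP i hi
  · rintro (k | k)
    · exact Finset.mem_union_right _ (mem_part_self k)
    · exact Finset.mem_union_left _ (h.pr.str.mem x h.pr.hx)
  · have hne : ∀ k : Idx P, eP k ≠ x := fun k h' =>
      Finset.disjoint_left.1 h.dj h.pr.xπ (h' ▸ mem_part_self k)
    rintro (k | k) (k' | k') hk
    · exact congrArg Sum.inl (eP.injective hk)
    · exact absurd hk (hne k)
    · exact absurd hk.symm (hne k')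
    · rfl
  · intro k
    rw [hbT]
    rcases k with k | k
    · exact ((h.rel_lt hε k).trans h.cT_lt).le
    · show l.1.1 ≤ M.T
      rw [hl]
      exact hdT
  · intro k
    refine Prod.ext (hbT k).symm ?_
    rcases k with k | k
    · show (lineML M.Φ M.ε P z k).1.2 = M.st (clSep cl (clOf (part eP)) (eP k)) (bD (eP k)) Z (eP k)
      rw [hP1 _ (mem_part_self k), h.bP]
      exact (h.st_rel hΦ hε k).symm
    · show l.1.2 = M.st (clSep cl (clOf (part eP)) x) (bD x) Z x
      rw [hx1, hl, ← h.pr.bx]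
      exact (h.pr.lx hdT).symm
  · intro i k hik
    refine hWl i k ?_
    rw [hik, hbT]

/-- **The line `d`** in any world of independent particles. -/
theorem okd_of [Nonempty κ] (h : PTree M c Z R π cl bD x y d e te P z eP) (hC : 1 ≤ c)
    (hΦ : AdmissiblePotential M.Φ) (hε : 0 < M.ε) (hT : TL M c ℓ ς (π ∪ part eP) Z)
    (hℓς : 2 * ℓ ≤ ς) (hex : StrMain307.ExitT M Z cl bD) (hcr : StrMain307.CrossT R cl bD y)
    (hb : ∀ k ∈ π, M.bb k = 0) (hd0 : 0 < d.1) (hdT : d.1 ≤ M.T)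
    {ω : Type} [Fintype ω] {W : MW ω} (hW : SepB M.ε W)
    (hOk : OkD M.Φ M.ε W.b (fun a : cl x => Z a) W.z) {l : ML} (hl : l.1 = d)
    (hWl : ∀ i, W.b i = l.1.1 → StartSep M.ε (lineAt 0 (W.z i) (W.b i)) l.1.2) :
    MW.OkFam M.Φ M.ε W (fun _ : Unit => l) := by
  have hh := h.hit hC hΦ hε
  have hm := (hh.enc hΦ hε).meet hε
  have hx1 : clSep cl (clOf (part eP)) x = cl x := hm.cl₁_of h.pr.xπ
  have hc1 : ∀ i ∈ cl x, clSep cl (clOf (part eP)) i = cl x := fun i hi => by
    rw [hm.cl₁_of (h.pr.str.sub x hi), h.pr.str.cov.eq x i hi]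
  have hbT : bD x = l.1.1 := by
    rw [hl]
    exact h.pr.bx.symm
  refine okFam_of_motion hΦ hε hC h.T_pos.le hℓς (h.str0 hC hΦ hε) hT
    (A := cl x) (fun i hi => ?_) (fun i hi => ?_) (fun i hi => ?_) (fun i hi => ?_)
    (exit0 h hC hΦ hε hex) (cross0 h hC hΦ hε hcr) hOk hW
    (j := fun _ : Unit => x) ?_ ?_ (ls := fun _ => l) ?_ ?_ ?_
  · exact ⟨x, Finset.mem_union_left _ (Finset.mem_singleton_self x), by rw [hx1]; exact hi⟩
  · rw [hc1 i hi]
  · exact hb i (h.pr.str.sub x hi)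
  · exact StrMain307.pos_x h hb hd0 hdT i hi
  · exact fun _ => h.pr.str.mem x h.pr.hx
  · exact fun _ _ _ => rfl
  · intro k
    rw [hbT, hl]
    exact hdT
  · intro k
    refine Prod.ext hbT.symm ?_
    show l.1.2 = M.st (clSep cl (clOf (part eP)) x) (bD x) Z x
    rw [hx1, hl, ← h.pr.bx]
    exact (h.pr.lx hdT).symm
  · intro i k hik
    exact hWl i (by rw [hik, hbT])

end ptree

/-! ### Trees with one leaf -/

/-- The family of the root line of a leaf and `d`, from the worlds with and without the root. -/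
theorem okFam_leafD {Φ : Space3 → ℝ} {ε : ℝ} (hΦ : AdmissiblePotential Φ) (hε : 0 < ε) {ω : Type}
    [Fintype ω] {W : MW ω} {z : PhasePoint × Par leaf} {l : ML}
    (h1 : MW.OkFam Φ ε W (fun _ : Unit => l))
    (h2 : MW.OkFam Φ ε (W.ins (lineML Φ ε leaf z (root leaf))) (fun _ : Unit => l)) :
    MW.OkFam Φ ε W (withD (lineML Φ ε leaf z) l) := by
  have h3 := LKok416.okFam_snoc hΦ hε h1 h2
  have h4 := MWFam255.okFam_comp hΦ hε h3
    (⟨Sum.elim (fun _ : Idx leaf => Sum.inr ()) (fun _ : Unit => Sum.inl ()), by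
      rintro (i | i) (j | j) hij
      · exact congrArg Sum.inl (Subsingleton.elim (α := Unit) i j)
      · cases hij
      · cases hij
      · rfl⟩ : Idx leaf ⊕ Unit ↪ Unit ⊕ Unit)
  convert h4 using 1
  funext k
  rcases k with k | k
  · show lineML Φ ε leaf z k = lineML Φ ε leaf z (root leaf)
    rw [Subsingleton.elim (α := Unit) k (root leaf)]
  · rfl

end Crest.Agent.R122.Ok1P370

end
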