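import Crest.Agent.R122.OkNull_424
import Crest.Agent.R122.XSplit_692
import Crest.Agent.R122.LNS1_674
import Crest.Agent.R122.PassAE_416

/-!
# Row 122 (helper424): the slot `ok` of inequality 3, part which is not pointwise

* `OkDAll`, `OkDG` : the transfer property `OkD` for all families of labels of (tree, structure), small
  system and system over the gas; they hold almost surely (`gNull_okD`, `gNull_okDG`).
* `tl_or_bad` : a connected structure is tree-like, or `BadGas`.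
* `gNull_of_okD` : the gateway: `OkDG`, passage, tree-like.
-/

set_option autoImplicit false
set_option linter.unusedSectionVars false

open MeasureTheory Set Filter Topology
open scoped Classical ENNReal
open Crest.AnalysisR.Kinetic
open Crest.Agent.R122.GC311 Crest.Agent.R122.Kin796 Crest.Agent.R122.Kin796.CTree
open Crest.Agent.R122.Tree674 Crest.Agent.R122.EDefs602
open Crest.Agent.R122.Gate424 Crest.Agent.R122.Gate973 Crest.Agent.R122.LN2
open Crest.Agent.R122.TransOk151 Crest.Agent.R122.GateOsP424 Crest.Agent.R122.OkNull424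
open Crest.Agent.R122.VL581 Crest.Agent.R122.VL581.VSys Crest.Agent.R122.LN304
open Crest.Agent.R122.LNPart424 (gsys)
open Crest.Agent.R122.LNS674 (pS)
open Crest.Agent.R122.OneC285 (cD)
open Crest.Agent.R122.PairD292 (eL)
open Crest.Agent.R122.OCout796 Crest.Agent.R122.Ins45
open Crest.Agent.R122.PairRep581 (Shp ShpOk osP)

noncomputable section

namespace Crest.Agent.R122.OkGate424

variable {Φ : Space3 → ℝ} {f₀ : PhasePoint → ℝ} {te T' γ β : ℝ} {ρ : Space3 → ℝ≥0∞} {C : ℝ≥0∞}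
  {K : ℕ} {P : CTree} {S : Shp}

/-! ### The transfer property -/

/-- The transfer property of all families of labels of (tree, structure). -/
def OkDAll (Φ : Space3 → ℝ) (P : CTree) (S : Shp) (ε : ℝ) {n : ℕ}
    (q : (PhasePoint × Par P) × S.Θ) (w : Config n) : Prop :=
  ∀ A : Finset (Idx P ⊕ S.κ), OkD Φ ε (fun _ : Fin n => 0) (fun a : A => osZ Φ P S ε q a) w

/-- **The transfer property holds almost surely.** -/
theorem gNull_okD (hΦ : AdmissiblePotential Φ) (hf : Measurable f₀) (he : Env f₀ γ ρ C)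
    (hS : ShpOk γ β ρ S) (te T' : ℝ) (K : ℕ) (P : CTree) :
    GNull f₀ (osP Φ f₀ te T' K P S) (fun ε _ _ q w => ¬ OkDAll Φ P S ε q w) := by
  refine PairRep581.gNull_of_ae hf (fun ε i => sf_osP hS ε i) fun ε hε i n => ?_
  filter_upwards [ae_okD_osP (Φ := Φ) (f₀ := f₀) hΦ hf he hS hε te T' K P n] with q hq _ h
  exact h hq

/-- The transfer property of all families of labels of (tree, structure), in the system over the
gas. -/
def OkDG (Φ : Space3 → ℝ) (P : CTree) (S : Shp) (ε : ℝ) {n : ℕ}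
    (q : (PhasePoint × Par P) × S.Θ) (w : Config n) : Prop :=
  ∀ A : Finset (Fin n ⊕ (Idx P ⊕ S.κ)), A ⊆ pS n (Idx P ⊕ S.κ) →
    OkD Φ ε (fun _ : Fin n => 0)
      (fun a : A => (Sum.elim w (osZ Φ P S ε q) : Fin n ⊕ (Idx P ⊕ S.κ) → PhasePoint) a) w

/-- `OkD` of a finite family of labels of a dominated structure. -/
theorem ae_okD_emb {α κ Θ ω : Type} [Fintype α] [Fintype κ] [MeasurableSpace Θ] [Fintype ω]
    (hΦ : AdmissiblePotential Φ) {ε : ℝ} (hε : 0 < ε) {s : ℕ} {A₀ : Finset κ} {c : ℝ≥0∞}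
    {Λ : Measure (κ → ℝ)} {m : Measure Θ} [SFinite m]
    {b : Θ → κ → ℝ} {z : Θ → κ → PhasePoint} (h : Dom γ ρ ε s A₀ c Λ m b z) (bω : ω → ℝ)
    (hbω : ∀ x, 0 ≤ bω x) {e : α → κ} (he : Function.Injective e) :
    ∀ᵐ q ∂(m.prod (volume : Measure (ω → PhasePoint))),
      OkD Φ ε bω (fun a : α => z q.1 (e a)) q.2 :=
  ae_of_dom_prod (Q := fun V w => OkD Φ ε bω (fun a : α => V (e a)) w) h hε
    (ae_comp he (Q := fun U w => OkD Φ ε bω U w) (ae_okD hΦ hε bω hbω))

/-- **The transfer property over the gas holds almost surely.** -/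
theorem ae_okDG (hΦ : AdmissiblePotential Φ) (hf : Measurable f₀) (he : Env f₀ γ ρ C)
    (hS : ShpOk γ β ρ S) {ε : ℝ} (hε : 0 < ε) (te T' : ℝ) (K : ℕ) (P : CTree) (n : ℕ) :
    ∀ᵐ q ∂((osP Φ f₀ te T' K P S ε ()).prod (volume : Measure (Config n))),
      OkDG Φ P S ε q.1 q.2 := by
  obtain ⟨c, Λ, -, -, hd⟩ := dom_osP hΦ hf he hS te T' K P
  have := sf_osP (Φ := Φ) (f₀ := f₀) (te := te) (T' := T') (K := K) (P := P) hS ε ()
  unfold OkDG
  rw [ae_all_iff]
  intro A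
  by_cases hA : A ⊆ pS n (Idx P ⊕ S.κ)
  swap
  · exact Eventually.of_forall fun q h => absurd h hA
  have hk : ∀ a : A, ∃ k, (a : Fin n ⊕ (Idx P ⊕ S.κ)) = Sum.inr k := by
    intro a
    obtain ⟨k, -, hk⟩ := Finset.mem_map.1 (hA a.2)
    exact ⟨k, hk.symm⟩
  choose e he' using hk
  have hinj : Function.Injective e := by
    intro a a' h
    refine Subtype.ext ?_
    rw [he' a, he' a', h]
  filter_upwards [ae_okD_emb (Φ := Φ) hΦ hε (hd ε hε ()) (fun _ : Fin n => 0) (fun _ => le_rfl)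
    hinj] with q hq _
  have h1 : (fun a : A => (Sum.elim q.2 (osZ Φ P S ε q.1) :
      Fin n ⊕ (Idx P ⊕ S.κ) → PhasePoint) a) = fun a : A => osZ Φ P S ε q.1 (e a) := by
    funext a
    show (Sum.elim q.2 (osZ Φ P S ε q.1) : Fin n ⊕ (Idx P ⊕ S.κ) → PhasePoint) a = _
    rw [he' a]
    rfl
  rw [h1]
  exact hq

theorem gNull_okDG (hΦ : AdmissiblePotential Φ) (hf : Measurable f₀) (he : Env f₀ γ ρ C)
    (hS : ShpOk γ β ρ S) (te T' : ℝ) (K : ℕ) (P : CTree) :
    GNull f₀ (osP Φ f₀ te T' K P S) (fun ε _ _ q w => ¬ OkDG Φ P S ε q w) := by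
  refine PairRep581.gNull_of_ae hf (fun ε i => sf_osP hS ε i) fun ε hε i n => ?_
  filter_upwards [ae_okDG (Φ := Φ) (f₀ := f₀) hΦ hf he hS hε te T' K P n] with q hq _ h
  exact h hq

/-! ### Tree-like structures -/

/-- **A connected structure is tree-like, or `BadGas`.** -/
theorem tl_or_bad {σ : Type} [Fintype σ] {T c ς ε R : ℝ} {n N : ℕ} {b : σ → ℝ}
    {V : σ → PhasePoint} {w : Config n} (hΦ : AdmissiblePotential Φ) (hε : 0 < ε)
    (hcn : (gsys Φ T ε n b).Conn c (pS n σ) (Sum.elim w V)) {A₀ : Finset σ} (hA : A₀.Nonempty)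
    (hN : Fintype.card σ ≤ N) :
    TL (gsys Φ T ε n b) c (R * ε) ς (pS n σ) (Sum.elim w V) ∨ BadGas Φ T c R ς ε N 1 A₀ b V w := by
  by_cases h : TL (gsys Φ T ε n b) c (R * ε) ς (pS n σ) (Sum.elim w V)
  · exact Or.inl h
  · refine Or.inr (X692.badGasW_one hΦ hε hcn (fun y => ?_) ?_ (Or.inl hA) (Or.inr ⟨rfl, h⟩)).badGas
    · exact Finset.mem_map_of_mem _ (Finset.mem_univ y)
    · rw [Finset.card_map, Finset.card_univ]
      exact hN

/-! ### The gateway -/

section gate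

variable {T : ℝ} (hΦ : AdmissiblePotential Φ) (hf : Measurable f₀)
  (h1 : ∫⁻ z, ENNReal.ofReal (f₀ z) ≤ 1) (he : Env f₀ γ ρ C) (hγ : 0 < γ) (hS : ShpOk γ β ρ S)
include hΦ hf h1 he hγ hS

/-- **The gateway for good worlds.** `B` : families of bad events, `Ht` : null events. In all other
cases: the transfer property holds, the contact is a passage, the structure is connected; the event
has to be impossible if the structure is tree-like. -/
theorem gNull_of_okD (hCN : VLMeas973.ClassNull Φ T) (te T' : ℝ) (K : ℕ) (P : CTree) (c : ℝ)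
    {E : ℝ → Unit → (n : ℕ) → ((PhasePoint × Par P) × S.Θ) → Config n → Prop}
    {B : ℝ → ℝ → ℝ → Unit → (n : ℕ) → ((PhasePoint × Par P) × S.Θ) → Config n → Prop}
    {Ht : ℝ → Unit → (n : ℕ) → ((PhasePoint × Par P) × S.Θ) → Config n → Prop}
    (hB : BadF f₀ (osP Φ f₀ te T' K P S) B) (hH : GNull f₀ (osP Φ f₀ te T' K P S) Ht)
    (hdet : ∀ R > 0, ∀ ς > 0, ∃ ε₁ : ℝ, 0 < ε₁ ∧ ∀ ε : ℝ, 0 < ε → ε < ε₁ → ∀ i n q (w : Config n),
      w ∈ PairExcluded ε n → E ε i n q w → OkDG Φ P S ε q w →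
      CDpass Φ (cD ε q.1 (eL (S.th ε q.2))) → B R ς ε i n q w ∨ Ht ε i n q w ∨
      (gsys Φ T ε n (osB P S ε q)).Conn c (pS n (Idx P ⊕ S.κ)) (Sum.elim w (osZ Φ P S ε q)) ∧
        ¬ TL (gsys Φ T ε n (osB P S ε q)) c (R * ε) ς (pS n (Idx P ⊕ S.κ))
          (Sum.elim w (osZ Φ P S ε q))) :
    GNull f₀ (osP Φ f₀ te T' K P S) E := by
  refine gNull_of_fam hf (m := osP Φ f₀ te T' K P S) (Rn := fun _ _ _ _ _ _ => False)
    (Ht := fun _ ε i n q w => (¬ OkDG Φ P S ε q w ∨ ¬ CDpass Φ (cD ε q.1 (eL (S.th ε q.2)))) ∨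
      Ht ε i n q w)
    (fun L => ⟨_, (badF_osP hΦ hf h1 he hγ hS hCN te T' K P c
      (Fintype.card (Idx P ⊕ S.κ))).or hf hB, ?_⟩) (fun δ hδ => ⟨0, fun L _ => ?_⟩) fun L => ?_
  · intro R hR ς hς
    obtain ⟨ε₁, hε₁, hd⟩ := hdet R hR ς hς
    refine ⟨ε₁, hε₁, fun ε hε hlt i n q w hw hE => Or.inr ?_⟩
    by_cases hk : OkDG Φ P S ε q w
    swap
    · exact Or.inr (Or.inl (Or.inl hk))
    by_cases hp : CDpass Φ (cD ε q.1 (eL (S.th ε q.2)))
    swap
    · exact Or.inr (Or.inl (Or.inr hp))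
    rcases hd ε hε hlt i n q w hw hE hk hp with h | h | ⟨hcn, hT⟩
    · exact Or.inl (Or.inr h)
    · exact Or.inr (Or.inr h)
    · rcases tl_or_bad (R := R) (ς := ς) (A₀ := Finset.univ.disjSum ∅) hΦ hε hcn
        ⟨Sum.inl (root P), Finset.inl_mem_disjSum.2 (Finset.mem_univ _)⟩ le_rfl with h | h
      · exact absurd h hT
      · exact Or.inl (Or.inl h)
  · exact (GLe.zero f₀ _).mono bot_le ⟨1, one_pos, fun _ _ _ _ _ _ _ _ h => h⟩
  · exact ((gNull_okDG hΦ hf he hS te T' K P).or hf (PassAE416.gNull_pass hS hΦ hf)).or hf hH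

end gate

end Crest.Agent.R122.OkGate424

end
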