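import Crest.Agent.R122.Ok2P_410
import Crest.Agent.R122.OkGate_424
import Crest.Agent.R122.PTreeG_331
import Crest.Agent.R122.Real6P_796

/-!
# Row 122 (helper410): the outgoing lines of the structures of inequality 3 give good worlds

`LevD` (helper796) at `q`, labels over the gas (helper331), transfer property `OkDG` (helper424).

* `lev_big` : the pair structure, the contact tree and the motion over the gas.
* `lev_conn` : the structure is connected.
* `lev_ok₂` : `Ok6.ok₂`.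
* `lev_ok₁` : `Ok6.ok₁`, tree with at least two leaves.
* `gNull_ok₂` : the field `ok`, second half, from `PairAlt`.
-/

set_option autoImplicit false
set_option linter.unusedSectionVars false

open MeasureTheory Set Filter Topology
open scoped NNReal ENNReal
open Crest.AnalysisR.Kinetic
open Crest.Agent.R122.Loc45 Crest.Agent.R122.Ins45
open Crest.Agent.R122.VL581 Crest.Agent.R122.VL581.VSys Crest.Agent.R122.VLInst442
open Crest.Agent.R122.Kin796 Crest.Agent.R122.Kin796.CTree Crest.Agent.R122.Tree674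
open Crest.Agent.R122.TreeLines335 Crest.Agent.R122.EDefs602
open Crest.Agent.R122.LNTree410 Crest.Agent.R122.LNGraft410 Crest.Agent.R122.LNEv968
open Crest.Agent.R122.PWInst442 Crest.Agent.R122.LNBridge968 Crest.Agent.R122.LNEmb410
open Crest.Agent.R122.StrG491 Crest.Agent.R122.OCout796 Crest.Agent.R122.LNPart424
open Crest.Agent.R122.LNS674 Crest.Agent.R122.LN304
open Crest.Agent.R122.OneC285 (cT cB cD cX)
open Crest.Agent.R122.GateOsP424 (osB osZ)
open Crest.Agent.R122.PairRep581 (Shp ShpOk ctOk ctOkS osP)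
open Crest.Agent.R122.PTreeOf331 Crest.Agent.R122.StrMain307 Crest.Agent.R122.StrMot2_151
open Crest.Agent.R122.OkGate424 Crest.Agent.R122.OkNull424 Crest.Agent.R122.Link6796
open Crest.Agent.R122.PairD292 Crest.Agent.R122.TransOk151 Crest.Agent.R122.E6Hyp879
open Crest.Agent.R122.GC311 Crest.Agent.R122.Gate424 Crest.Agent.R122.Gate973
open Crest.Agent.R122.LN2 (Env)
open Crest.Agent.R122.Decomp811 (exF)
open scoped Classical

noncomputable section

namespace Crest.Agent.R122.Ok2P410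

variable {Φ : Space3 → ℝ} {T ε c ℓ ς te : ℝ} {K n : ℕ} {P : CTree} {S : Shp}
  {q : (PhasePoint × Par P) × S.Θ} {w : Config n}

section lev

variable (hΦ : AdmissiblePotential Φ) (hε : 0 < ε) (hte : te < T)
  (hL : LevD Φ T ε c ℓ ς te K P S q)
include hΦ hε hte hL

/-- **The pair structure, the contact tree and the motion over the gas.** -/
theorem lev_big (w : Config n) :
    ∃ (R : ℝ → Fin n ⊕ (Idx P ⊕ S.κ) → Fin n ⊕ (Idx P ⊕ S.κ) → Prop)
      (π : Finset (Fin n ⊕ (Idx P ⊕ S.κ)))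
      (cl : Fin n ⊕ (Idx P ⊕ S.κ) → Finset (Fin n ⊕ (Idx P ⊕ S.κ)))
      (bD : Fin n ⊕ (Idx P ⊕ S.κ) → ℝ) (x y : Fin n ⊕ (Idx P ⊕ S.κ))
      (eP : Idx P ↪ Fin n ⊕ (Idx P ⊕ S.κ)),
      PTree (gsys Φ T ε n (osB P S ε q)) c (Sum.elim w (osZ Φ P S ε q)) R π cl bD x y
        (dL (S.th ε q.2)).1 (eL (S.th ε q.2)) te P q.1 eP ∧
      (∀ inst : DecidableEq (Fin n ⊕ (Idx P ⊕ S.κ)),
        @Union.union _ (@Finset.instUnion _ inst) π (part eP) = pS n (Idx P ⊕ S.κ)) ∧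
      PT (gsys Φ T ε n (osB P S ε q)) (Sum.elim w (osZ Φ P S ε q)) R cl bD y := by
  obtain ⟨R, cl, bD, x, y, h1, h2, h3⟩ := hL.pair
  have hpt : PT (VLMeas973.vsys Φ T ε (S.b ε q.2)) (S.z ε q.2) R cl bD y := ⟨h2, h3⟩
  have hpt1 : PT (VLMeas973.vsys Φ T ε (osB P S ε q)) (osZ Φ P S ε q) (mapR (iS P S.κ) R)
      (mapCl (iS P S.κ) cl) (bE P q.1 bD) (iS P S.κ y) :=
    PT.map (M := VLMeas973.vsys Φ T ε (osB P S ε q)) (M' := VLMeas973.vsys Φ T ε (S.b ε q.2))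
      (Z := osZ Φ P S ε q) (e := iS P S.κ) (pull_inr _) hΦ hε h1.str (fun _ _ => rfl) hpt
  have hP1 := ptree_osP hΦ hε h1 hL.valid hL.sep hL.ct.1 hte hL.pass.ok
  have hpt2 : PT (gsys Φ T ε n (osB P S ε q)) (Sum.elim w (osZ Φ P S ε q))
      (bigR n (mapR (iS P S.κ) R)) (bigCl n (mapCl (iS P S.κ) cl)) (bigB n (bE P q.1 bD))
      (strE n (Idx P ⊕ S.κ) (iS P S.κ y)) :=
    PT.map (M := gsys Φ T ε n (osB P S ε q)) (M' := VLMeas973.vsys Φ T ε (osB P S ε q))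
      (Z := Sum.elim w (osZ Φ P S ε q)) (e := strE n (Idx P ⊕ S.κ)) (pull_str _) hΦ hε hP1.pr.str
      (fun _ _ => rfl) hpt1
  exact ⟨_, _, _, _, _, _, _, ptreeG_osP hΦ hε h1 hL.valid hL.sep hL.ct.1 hte hL.pass.ok w,
    fun _ => unionG, hpt2⟩

/-- **The structure is connected.** -/
theorem lev_conn (hC : 1 ≤ c) (w : Config n) :
    (gsys Φ T ε n (osB P S ε q)).Conn c (pS n (Idx P ⊕ S.κ)) (Sum.elim w (osZ Φ P S ε q)) := by
  obtain ⟨R, π, cl, bD, x, y, eP, h1, h2, -⟩ := lev_big hΦ hε hte hL w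
  have h3 := (h1.str0 hC hΦ hε).conn
  rw [h2] at h3
  exact h3

omit hΦ hε hte in
theorem lev_bb (hb : ∀ i, S.b ε q.2 i = 0) (k : Fin n ⊕ (Idx P ⊕ S.κ)) :
    (gsys Φ T ε n (osB P S ε q)).bb k = 0 := by
  have h1 : (gsys Φ T ε n (osB P S ε q)).b k = 0 := by
    rcases k with k | (k | k)
    · rfl
    · rfl
    · exact hb k
  unfold VSys.bb
  rw [h1]
  exact max_self 0

variable (hC : 1 ≤ c) (hℓς : 2 * ℓ ≤ ς) (hw : w ∈ PairExcluded ε n)
  (hdT : (dL (S.th ε q.2)).1.1 ≤ T) (hG : OkDG Φ P S ε q w)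
  (hTL : TL (gsys Φ T ε n (osB P S ε q)) c ℓ ς (pS n (Idx P ⊕ S.κ))
    (Sum.elim w (osZ Φ P S ε q)))
include hC hℓς hw hdT hG hTL

/-- **`Ok6.ok₂`.** -/
theorem lev_ok₂ (hlT : te + 2 * ℓ < T) :
    MW.OkFam Φ ε ((MW.cfg w).ins (dL (S.th ε q.2)))
      (plus (exF (lineML Φ ε P q.1) (root P)) (outL6 Φ ε P q.1 (eL (S.th ε q.2)) (some false))
        (outL6 Φ ε P q.1 (eL (S.th ε q.2)) (some true))) := by
  obtain ⟨R, π, cl, bD, x, y, eP, h1, h2, h3⟩ := lev_big hΦ hε hte hL w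
  have hT : ∀ inst : DecidableEq (Fin n ⊕ (Idx P ⊕ S.κ)), TL (gsys Φ T ε n (osB P S ε q)) c ℓ ς
      (@Union.union _ (@Finset.instUnion _ inst) π (part eP))
      (Sum.elim w (osZ Φ P S ε q)) := by
    intro inst
    rw [h2]
    exact hTL
  have hlt : cT ε q.1 (eL (S.th ε q.2)) + 2 * ℓ < T := by
    have h4 : cT ε q.1 (eL (S.th ε q.2)) ≤ te := h1.cT_le
    linarith
  obtain ⟨hp, hout⟩ := ((h1.hit hC hΦ hε).enc hΦ hε).pass_of hC hΦ hε (hT _) hℓς hlt
  have hle : cT ε q.1 (eL (S.th ε q.2)) + outT Φ ε (cD ε q.1 (eL (S.th ε q.2))) ≤ T :=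
    ((add_le_add_iff_left _).2 hout).trans hlt.le
  have hd0 : 0 < (dL (S.th ε q.2)).1.1 := hL.ct.2.d0
  have hok := ok₂_world h1 h3 hC hΦ hε (fun k _ => lev_bb hL hL.b0 k) hd0 hdT (hT _) hℓς hp hle
    (bω := fun _ : Fin n => 0) (V := w) (fun A hA => hG A (by rwa [h2] at hA))
    (W := MW.cfg w) rfl rfl (sepB_cfg hw) (fun i v hv => ?_)
  · exact LKok416.okFam_insD hΦ hε hok
  · exfalso
    have hv' : (0 : ℝ) = (withD (plus (exF (lineML Φ ε P q.1) (root P))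
        (outL6 Φ ε P q.1 (eL (S.th ε q.2)) (some false))
        (outL6 Φ ε P q.1 (eL (S.th ε q.2)) (some true))) (dL (S.th ε q.2)) v).1.1 := hv
    have hpos : 0 < cT ε q.1 (eL (S.th ε q.2)) + outT Φ ε (cD ε q.1 (eL (S.th ε q.2))) :=
      h1.cT_pos.trans (lt_add_of_pos_right _ (hp.outT_pos hε))
    rcases v with (i | (_ | _)) | i
    · have h5 : 0 < rel P q.1.2 i.1 :=
        TransTree942.rel_pos' hε hL.valid (Or.inl i.2)
      exact absurd hv' h5.ne
    · exact absurd hv' hpos.ne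
    · exact absurd hv' hpos.ne
    · exact absurd hv' hd0.ne

/-- **`Ok6.ok₁`**, tree with at least two leaves. -/
theorem lev_ok₁ (hP : P ≠ leaf) :
    MW.OkFam Φ ε (MW.cfg w) (withD (lineML Φ ε P q.1) (dL (S.th ε q.2))) := by
  obtain ⟨R, π, cl, bD, x, y, eP, h1, h2, h3⟩ := lev_big hΦ hε hte hL w
  have hT : ∀ inst : DecidableEq (Fin n ⊕ (Idx P ⊕ S.κ)), TL (gsys Φ T ε n (osB P S ε q)) c ℓ ς
      (@Union.union _ (@Finset.instUnion _ inst) π (part eP))
      (Sum.elim w (osZ Φ P S ε q)) := by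
    intro inst
    rw [h2]
    exact hTL
  have hd0 : 0 < (dL (S.th ε q.2)).1.1 := hL.ct.2.d0
  refine ok₁_world h1 h3 hC hΦ hε (fun k _ => lev_bb hL hL.b0 k) hd0 hdT hP (hT _) hℓς
    (bω := fun _ : Fin n => 0) (V := w) (fun A hA => hG A (by rwa [h2] at hA))
    (W := MW.cfg w) rfl rfl (sepB_cfg hw) (fun i v hv => ?_)
  exfalso
  have hv' : (0 : ℝ) = (withD (lineML Φ ε P q.1) (dL (S.th ε q.2)) v).1.1 := hv
  rcases v with i | i
  · have h5 : 0 < rel P q.1.2 i := TransTree942.rel_pos' hε hL.valid (Or.inr hP)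
    exact absurd hv' h5.ne
  · exact absurd hv' hd0.ne

end lev

end Crest.Agent.R122.Ok2P410

end
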