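import Crest.Agent.R122.GoodXOk_663
import Crest.Agent.R122.LKok_416

/-!
# Row 122 (helper942): good worlds with two independent lines

* `ae_lineV2` : almost every pair of lines, from almost every pair of states at fixed births, marks.
* `ae_two_fix` : trees, gas and two lines with fixed births.
* `ae_okX6` : for almost every tree, gas, line `x`, line `d`: `OkX6` (the lines of the tree and `d` in
  `w + x`; `d` in `w + V + x`).
-/

set_option autoImplicit false
set_option linter.unusedSectionVars false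

open MeasureTheory Set Filter Topology
open scoped ENNReal
open Crest.AnalysisR.Kinetic
open Crest.Agent.R122.Flow671 hiding rel
open Crest.Agent.R122.Loc45 Crest.Agent.R122.Causal291 Crest.Agent.R122.Ins45
open Crest.Agent.R122.Inf879 Crest.Agent.R122.GC311 Crest.Agent.R122.EDefs602
open Crest.Agent.R122.Kin796 Crest.Agent.R122.Kin796.CTree Crest.Agent.R122.Disc416
open Crest.Agent.R122.Tree674 Crest.Agent.R122.PathFlow968 Crest.Agent.R122.TreeLines335
open Crest.Agent.R122.LNTree410 Crest.Agent.R122.TransOk151 Crest.Agent.R122.RtG302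
open Crest.Agent.R122.MeasE416 Crest.Agent.R122.MWAlg255 Crest.Agent.R122.LineMeas994
open Crest.Agent.R122.E6Hyp879 (withD)
open Crest.Agent.R122.InEq2T (PerpT)
open Crest.Agent.R122.AllOk663
open Crest.Agent.R122.LKok416 (OkX6)

noncomputable section

open scoped Classical

namespace Crest.Agent.R122.OkInd942

variable {Φ : Space3 → ℝ} {ε : ℝ}

/-! ### Measure theory -/

/-- Exchange of the last two coordinates. -/
theorem mp_swapR {A B C : Type*} [MeasurableSpace A] [MeasurableSpace B] [MeasurableSpace C]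
    (μ : Measure A) (ν : Measure B) (κ : Measure C) [SFinite μ] [SFinite ν] [SFinite κ] :
    MeasurePreserving (fun q : (A × B) × C => ((q.1.1, q.2), q.1.2)) ((μ.prod ν).prod κ)
      ((μ.prod κ).prod ν) := by
  have m1 := measurePreserving_prodAssoc μ ν κ
  have m2 := (MeasurePreserving.id μ).prod (Measure.measurePreserving_swap (μ := ν) (ν := κ))
  have m3 := (measurePreserving_prodAssoc μ κ ν).symm
  exact m3.comp (m2.comp m1)

/-- Almost every pair of lines, from almost every pair of states at fixed births and marks. -/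
theorem ae_lineV2 {A : Type*} [MeasurableSpace A] {μ : Measure A} [SFinite μ] {T T' : ℝ}
    {G : Set ((A × ML) × ML)} (hG : MeasurableSet G)
    (h : ∀ τ ∈ Ioc 0 T, ∀ n : ℕ, ∀ τ' ∈ Ioc 0 T', ∀ n' : ℕ,
      ∀ᵐ q ∂((μ.prod (volume : Measure PhasePoint)).prod (volume : Measure PhasePoint)),
        ((q.1.1, ((τ, q.1.2), n)), ((τ', q.2), n')) ∈ G) :
    ∀ᵐ q ∂((μ.prod (lineV T)).prod (lineV T')), q ∈ G := by
  have : SFinite (lineV T) := by unfold lineV; infer_instance
  have : SFinite (lineV T') := by unfold lineV; infer_instance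
  refine ae_lineV hG fun τ' hτ' n' => ?_
  have hG2 : MeasurableSet {q : (A × PhasePoint) × ML |
      ((q.1.1, q.2), ((τ', q.1.2), n')) ∈ G} :=
    hG.preimage ((measurable_fst.fst.prodMk measurable_snd).prodMk
      ((measurable_const.prodMk measurable_fst.snd).prodMk measurable_const))
  have h2 := ae_lineV (A := A × PhasePoint) (μ := μ.prod (volume : Measure PhasePoint)) (T := T)
    hG2 fun τ hτ n => (mp_swapR μ (volume : Measure PhasePoint)
      (volume : Measure PhasePoint)).quasiMeasurePreserving.ae (h τ hτ n τ' hτ' n')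
  exact (mp_swapR μ (lineV T) (volume : Measure PhasePoint)).quasiMeasurePreserving.ae h2

/-! ### Two lines with fixed births -/

section tree

variable {P : CTree} {T : ℝ} {m : ℕ}

/-- The gas and two lines. -/
theorem sepB_line2 {n : ℕ} {w : Config n} (hw : w ∈ PairExcluded ε n) {l l' : ML}
    (hl : 0 < l.1.1) (hl' : 0 < l'.1.1) (hne : l.1.1 ≠ l'.1.1) :
    SepB ε (((MW.cfg w).ins l).ins l') :=
  sepB_add_lines (sepB_line hw hl) (fun x y hxy => absurd (Subsingleton.elim x y) hxy) (by
    rintro (i | i) x h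
    · exact absurd (show (0 : ℝ) = l'.1.1 from h) hl'.ne
    · exact absurd (show l.1.1 = l'.1.1 from h) hne)

/-- States of the gas and of two lines at time `0`. -/
theorem mp_gasLine2 {ι : Type*} [Fintype ι] {A : Type*} [MeasurableSpace A] (μ : Measure A)
    [SFinite μ] (τ τ' : ℝ) :
    MeasurePreserving (fun q : ((A × (ι → PhasePoint)) × PhasePoint) × PhasePoint =>
      ((q.1.1.1, Sum.elim (Sum.elim q.1.1.2 fun _ => back (τ, q.1.2))
        fun _ => back (τ', q.2)) : A × ((ι ⊕ Unit) ⊕ Unit → PhasePoint)))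
      (((μ.prod (volume : Measure (ι → PhasePoint))).prod (volume : Measure PhasePoint)).prod
        (volume : Measure PhasePoint))
      (μ.prod (volume : Measure ((ι ⊕ Unit) ⊕ Unit → PhasePoint))) := by
  have m1 := (measurePreserving_prodAssoc μ (volume : Measure (ι → PhasePoint))
    (volume : Measure PhasePoint)).prod (MeasurePreserving.id (volume : Measure PhasePoint))
  have m2 := measurePreserving_prodAssoc μ
    ((volume : Measure (ι → PhasePoint)).prod (volume : Measure PhasePoint))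
    (volume : Measure PhasePoint)
  have m3 := (MeasurePreserving.id μ).prod ((measurePreserving_gasLine (ι := ι) τ).prod
    (MeasurePreserving.id (volume : Measure PhasePoint)))
  have m4 := (MeasurePreserving.id μ).prod (measurePreserving_gasLine (ι := ι ⊕ Unit) τ')
  exact m4.comp (m3.comp (m2.comp m1))

/-- Trees which are not leaves, fixed births and marks of the lines. -/
theorem ae_two_node (hΦ : AdmissiblePotential Φ) (hε : 0 < ε) (hP : P ≠ leaf) (T : ℝ) (m : ℕ)
    {τ τ' : ℝ} (hτ : 0 < τ) (hτ' : 0 < τ') (hne : τ ≠ τ') (n n' : ℕ) :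
    ∀ᵐ q ∂(((volume : Measure ((PhasePoint × Par P) × Config m)).prod
      (volume : Measure PhasePoint)).prod (volume : Measure PhasePoint)),
      Valid Φ ε P T q.1.1.1.1.2 q.1.1.1.2 →
      Sep Φ ε P T q.1.1.1.1 q.1.1.1.2 → q.1.1.2 ∈ PairExcluded ε m →
      (∀ i, rel P q.1.1.1.2 i ≠ τ) → (∀ i, rel P q.1.1.1.2 i ≠ τ') →
        MW.OkFam Φ ε (((MW.cfg q.1.1.2).ins ((τ, q.1.2), n)).ins ((τ', q.2), n'))
          (lineML Φ ε P q.1.1.1) := by
  have h := ae_okFam (α := Idx P) (ω := (Fin m ⊕ Unit) ⊕ Unit) hΦ hε (fun _ => 0)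
    (Sum.elim (Sum.elim (fun _ => 0) fun _ => τ) fun _ => τ')
    (by rintro ((i | i) | i); exacts [le_rfl, hτ.le, hτ'.le])
  have h' := ae_tree_prod hΦ hε P T h
  have mp := mp_gasLine2 (ι := Fin m) (volume : Measure (PhasePoint × Par P)) τ τ'
  filter_upwards [mp.quasiMeasurePreserving.ae h'] with q hq hv hs hw hrel hrel'
  have hr := fun i => rel_mem hε.le hP hv.2 i
  have hT : 0 ≤ T := ((hr (root P)).1.trans (hr (root P)).2).le
  have hD : lines Φ ε P q.1.1.1.1 q.1.1.1.2 ∈ Dom Φ (Idx P) := lines_mem_Dom hε hT hv.2 hs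
  refine hq hv (rel P q.1.1.1.2) T (fun t => flow Φ ε t (lines Φ ε P q.1.1.1.1 q.1.1.1.2))
    (World.bworld (world_flow hΦ hε hD) fun _ => le_rfl) (Flow671.flow_zero hΦ hε _) (Idx P) id
    (lineML Φ ε P q.1.1.1) (((MW.cfg q.1.1.2).ins ((τ, q.1.2), n)).ins ((τ', q.2), n'))
    Function.injective_id (AllOk663.rel_tree hΦ hε hv hs fun h => absurd h hP)
    (fun x => AllOk663.lineML_fst hΦ hε hv hs x (hr x).1.le (hr x).2.le) ?_ ?_ ?_
  · funext x
    rcases x with (x | x) | x <;> rfl
  · funext x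
    rcases x with (x | x) | x <;> rfl
  · refine sepB_add_lines (sepB_line2 hw hτ hτ' hne)
      (fun x y hxy h => AllOk663.startSep_tree hε hv hs hxy h) ?_
    rintro ((i | i) | i) x h
    · exact absurd (show (0 : ℝ) = rel P q.1.1.1.2 x from h) (hr x).1.ne
    · exact absurd (show τ = rel P q.1.1.1.2 x from h) (hrel x).symm
    · exact absurd (show τ' = rel P q.1.1.1.2 x from h) (hrel' x).symm

/-- The real world with two lines, fixed births and marks. -/
theorem ae_okr2 (hΦ : AdmissiblePotential Φ) (hε : 0 < ε) (P : CTree) {T : ℝ} (hT : 0 ≤ T) (m : ℕ)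
    {τ τ' : ℝ} (hτ : 0 < τ) (hτ' : 0 < τ') (hne : τ ≠ τ') (n n' : ℕ) :
    ∀ᵐ q ∂(((volume : Measure ((PhasePoint × Par P) × Config m)).prod
      (volume : Measure PhasePoint)).prod (volume : Measure PhasePoint)),
      Valid Φ ε P T q.1.1.1.1.2 q.1.1.1.2 →
      Sep Φ ε P T q.1.1.1.1 q.1.1.1.2 → q.1.1.2 ∈ PairExcluded ε m →
      (∀ x i, ε < dist (lines Φ ε P q.1.1.1.1 q.1.1.1.2 x).1 (q.1.1.2 i).1) →
        ((((MW.cfg q.1.1.2).add (RealL811.treeW Φ ε P q.1.1.1)).ins ((τ, q.1.2), n)).add
          (MW.line ((τ', q.2), n'))).Ok Φ ε := by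
  have h := ae_ok_births (ι := ((Fin m ⊕ Idx P) ⊕ Unit) ⊕ Unit) hΦ hε
    (Sum.elim (Sum.elim (fun _ => 0) fun _ => τ) fun _ => τ')
    (by rintro ((i | i) | i); exacts [le_rfl, hτ.le, hτ'.le])
  -- `(V, ((w, x), d))`
  have mp1 : MeasurePreserving
      (fun q : (Idx P → PhasePoint) × ((Config m × PhasePoint) × PhasePoint) =>
      (Sum.elim (Sum.elim (Sum.elim q.2.1.1 q.1) fun _ => back (τ, q.2.1.2))
        fun _ => back (τ', q.2.2) : ((Fin m ⊕ Idx P) ⊕ Unit) ⊕ Unit → PhasePoint))
      ((volume : Measure (Idx P → PhasePoint)).prod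
        (((volume : Measure (Config m)).prod (volume : Measure PhasePoint)).prod
          (volume : Measure PhasePoint))) volume := by
    have m1 := (measurePreserving_prodAssoc (volume : Measure (Idx P → PhasePoint))
      ((volume : Measure (Config m)).prod (volume : Measure PhasePoint))
      (volume : Measure PhasePoint)).symm
    have m1' := (measurePreserving_prodAssoc (volume : Measure (Idx P → PhasePoint))
      (volume : Measure (Config m)) (volume : Measure PhasePoint)).symm.prod
      (MeasurePreserving.id (volume : Measure PhasePoint))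
    have m2 := ((Measure.measurePreserving_swap (μ := (volume : Measure (Idx P → PhasePoint)))
      (ν := (volume : Measure (Config m)))).prod
        (MeasurePreserving.id (volume : Measure PhasePoint))).prod
          (MeasurePreserving.id (volume : Measure PhasePoint))
    have m3 := ((volume_measurePreserving_sumPiEquivProdPi_symm
      (fun _ : Fin m ⊕ Idx P => PhasePoint)).prod
        (MeasurePreserving.id (volume : Measure PhasePoint))).prod
          (MeasurePreserving.id (volume : Measure PhasePoint))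
    have m4 := (measurePreserving_gasLine (ι := Fin m ⊕ Idx P) τ).prod
      (MeasurePreserving.id (volume : Measure PhasePoint))
    have m5 := measurePreserving_gasLine (ι := (Fin m ⊕ Idx P) ⊕ Unit) τ'
    exact m5.comp (m4.comp (m3.comp (m2.comp (m1'.comp m1))))
  have h1 := mp1.quasiMeasurePreserving.ae h
  have h2 := ae_tree_prod hΦ hε P T h1
  have mp2 : MeasurePreserving (fun q : (((PhasePoint × Par P) × Config m) × PhasePoint) ×
      PhasePoint => ((q.1.1.1, ((q.1.1.2, q.1.2), q.2)) :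
        (PhasePoint × Par P) × ((Config m × PhasePoint) × PhasePoint)))
      (((volume : Measure ((PhasePoint × Par P) × Config m)).prod
        (volume : Measure PhasePoint)).prod (volume : Measure PhasePoint))
      ((volume : Measure (PhasePoint × Par P)).prod
        (((volume : Measure (Config m)).prod (volume : Measure PhasePoint)).prod
          (volume : Measure PhasePoint))) := by
    have m1 := (measurePreserving_prodAssoc (volume : Measure (PhasePoint × Par P))
      (volume : Measure (Config m)) (volume : Measure PhasePoint)).prod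
        (MeasurePreserving.id (volume : Measure PhasePoint))
    have m2 := measurePreserving_prodAssoc (volume : Measure (PhasePoint × Par P))
      ((volume : Measure (Config m)).prod (volume : Measure PhasePoint))
      (volume : Measure PhasePoint)
    exact m2.comp m1
  filter_upwards [mp2.quasiMeasurePreserving.ae h2] with q hq hv hs hw hp
  have hS0 : ∀ i j : Idx P, i ≠ j →
      ε < dist (lines Φ ε P q.1.1.1.1 q.1.1.1.2 i).1 (lines Φ ε P q.1.1.1.1 q.1.1.1.2 j).1 :=
    fun i j hij => Excl302.lines_excl hT hv hs hij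
  refine hq hv _ ?_ ?_ ?_
  · funext x
    rcases x with ((x | x) | x) | x <;> rfl
  · funext x
    rcases x with ((x | x) | x) | x <;> rfl
  · have e : ∀ z : PhasePoint, (lineAt 0 z 0).1 = z.1 := fun z => by simp [lineAt]
    refine sepB_add_lines (sepB_add_lines ?_
      (fun x y hxy => absurd (Subsingleton.elim x y) hxy) ?_)
      (fun x y hxy => absurd (Subsingleton.elim x y) hxy) ?_
    · rintro (i | i) (j | j) hij _ <;> left
      · show ε < dist (lineAt 0 (q.1.1.2 i) 0).1 (lineAt 0 (q.1.1.2 j) 0).1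
        rw [e, e]
        exact hw i j fun h => hij (by rw [h])
      · show ε < dist (lineAt 0 (q.1.1.2 i) 0).1
          (lineAt 0 (lines Φ ε P q.1.1.1.1 q.1.1.1.2 j) 0).1
        rw [e, e, dist_comm]
        exact hp j i
      · show ε < dist (lineAt 0 (lines Φ ε P q.1.1.1.1 q.1.1.1.2 i) 0).1
          (lineAt 0 (q.1.1.2 j) 0).1
        rw [e, e]
        exact hp i j
      · show ε < dist (lineAt 0 (lines Φ ε P q.1.1.1.1 q.1.1.1.2 i) 0).1
          (lineAt 0 (lines Φ ε P q.1.1.1.1 q.1.1.1.2 j) 0).1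
        rw [e, e]
        exact hS0 i j fun h => hij (by rw [h])
    · rintro (i | i) x h
      · exact absurd (show (0 : ℝ) = τ from h) hτ.ne
      · exact absurd (show (0 : ℝ) = τ from h) hτ.ne
    · rintro ((i | i) | i) x h
      · exact absurd (show (0 : ℝ) = τ' from h) hτ'.ne
      · exact absurd (show (0 : ℝ) = τ' from h) hτ'.ne
      · exact absurd (show τ = τ' from h) hne

/-- The gas and two lines, fixed births and marks. -/
theorem ae_ok_cfg_line2 (hΦ : AdmissiblePotential Φ) (hε : 0 < ε) (P : CTree) (m : ℕ)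
    {τ τ' : ℝ} (hτ : 0 < τ) (hτ' : 0 < τ') (hne : τ ≠ τ') (n n' : ℕ) :
    ∀ᵐ q ∂(((volume : Measure ((PhasePoint × Par P) × Config m)).prod
      (volume : Measure PhasePoint)).prod (volume : Measure PhasePoint)),
      q.1.1.2 ∈ PairExcluded ε m →
        (((MW.cfg q.1.1.2).ins ((τ, q.1.2), n)).ins ((τ', q.2), n')).Ok Φ ε := by
  have h := ae_ok_births (ι := (Fin m ⊕ Unit) ⊕ Unit) hΦ hε
    (Sum.elim (Sum.elim (fun _ => 0) fun _ => τ) fun _ => τ')
    (by rintro ((i | i) | i); exacts [le_rfl, hτ.le, hτ'.le])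
  have mp := mp_gasLine2 (ι := Fin m) (volume : Measure (PhasePoint × Par P)) τ τ'
  have h1 := (Measure.quasiMeasurePreserving_snd.comp mp.quasiMeasurePreserving).ae h
  filter_upwards [h1] with q hq hw
  refine hq _ ?_ ?_ (sepB_line2 hw hτ hτ' hne)
  · funext x
    rcases x with (x | x) | x <;> rfl
  · funext x
    rcases x with (x | x) | x <;> rfl

/-- Leaves, fixed births and marks of the lines. -/
theorem ae_two_leaf (hΦ : AdmissiblePotential Φ) (hε : 0 < ε) (m : ℕ) {τ τ' : ℝ} (hτ : 0 < τ)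
    (hτ' : 0 < τ') (hne : τ ≠ τ') (n n' : ℕ) :
    ∀ᵐ q ∂(((volume : Measure ((PhasePoint × Par leaf) × Config m)).prod
      (volume : Measure PhasePoint)).prod (volume : Measure PhasePoint)),
      q.1.1.2 ∈ PairExcluded ε m →
      (∀ x i, ε < dist (lines Φ ε leaf q.1.1.1.1 q.1.1.1.2 x).1 (q.1.1.2 i).1) →
        MW.OkFam Φ ε (((MW.cfg q.1.1.2).ins ((τ, q.1.2), n)).ins ((τ', q.2), n'))
          (lineML Φ ε leaf q.1.1.1) := by
  filter_upwards [ae_okr2 hΦ hε leaf (le_refl (0 : ℝ)) m hτ hτ' hne n n',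
    ae_ok_cfg_line2 hΦ hε leaf m hτ hτ' hne n n'] with q h1 h2 hw hp S
  have h3 := h1 valid_leaf (fun i j hij => absurd (Subsingleton.elim (α := Unit) i j) hij) hw hp
  have h4 := h2 hw
  by_cases hS : (() : Idx leaf) ∈ S
  · let E : ((Fin m ⊕ Unit) ⊕ Unit) ⊕ S ≃ ((Fin m ⊕ Idx leaf) ⊕ Unit) ⊕ Unit :=
      { toFun := fun x => match x with
          | Sum.inl (Sum.inl (Sum.inl i)) => Sum.inl (Sum.inl (Sum.inl i))
          | Sum.inl (Sum.inl (Sum.inr _)) => Sum.inl (Sum.inr ())
          | Sum.inl (Sum.inr _) => Sum.inr ()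
          | Sum.inr k => Sum.inl (Sum.inl (Sum.inr k.1))
        invFun := fun x => match x with
          | Sum.inl (Sum.inl (Sum.inl i)) => Sum.inl (Sum.inl (Sum.inl i))
          | Sum.inl (Sum.inl (Sum.inr _)) => Sum.inr ⟨(), hS⟩
          | Sum.inl (Sum.inr _) => Sum.inl (Sum.inl (Sum.inr ()))
          | Sum.inr _ => Sum.inl (Sum.inr ())
        left_inv := by rintro (((i | u) | u) | k) <;> rfl
        right_inv := by rintro (((i | u) | u) | k) <;> rfl }
    have he : ((((MW.cfg q.1.1.2).add (RealL811.treeW Φ ε leaf q.1.1.1)).ins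
        ((τ, q.1.2), n)).add (MW.line ((τ', q.2), n'))).comap E =
        (((MW.cfg q.1.1.2).ins ((τ, q.1.2), n)).ins ((τ', q.2), n')).add
          (sub (lineML Φ ε leaf q.1.1.1) S) := by
      have e0 : ∀ x : Idx leaf, back (lineML Φ ε leaf q.1.1.1 x).1 =
          lines Φ ε leaf q.1.1.1.1 q.1.1.1.2 x := by
        intro x
        simp [back, lineML, TreeLines335.rel, onLine, fin, lines]
      unfold MW.ins sub MW.comap MW.add MW.line MW.lines RealL811.treeW
      congr 1
      · funext x; rcases x with ((x | x) | x) | x <;> rfl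
      · funext x
        rcases x with ((x | x) | x) | x
        · rfl
        · rfl
        · rfl
        · exact (e0 x.1).symm
      · funext x; rcases x with ((x | x) | x) | x <;> rfl
    rw [← he]
    exact h3.comap hΦ hε E
  · have hempty : IsEmpty S := ⟨fun x => hS x.2⟩
    rw [add_empty_comap]
    exact h4.comap hΦ hε _

/-- **Two lines, fixed births and marks.** -/
theorem ae_two_fix (hΦ : AdmissiblePotential Φ) (hε : 0 < ε) (P : CTree) {T : ℝ} (hT : 0 ≤ T)
    (m : ℕ) {τ τ' : ℝ} (hτ : 0 < τ) (hτ' : 0 < τ') (hne : τ ≠ τ') (n n' : ℕ) :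
    ∀ᵐ q ∂(((volume : Measure ((PhasePoint × Par P) × Config m)).prod
      (volume : Measure PhasePoint)).prod (volume : Measure PhasePoint)),
      Valid Φ ε P T q.1.1.1.1.2 q.1.1.1.2 →
      Sep Φ ε P T q.1.1.1.1 q.1.1.1.2 → q.1.1.2 ∈ PairExcluded ε m →
      (∀ x i, ε < dist (lines Φ ε P q.1.1.1.1 q.1.1.1.2 x).1 (q.1.1.2 i).1) →
      (∀ i, rel P q.1.1.1.2 i ≠ τ) → (∀ i, rel P q.1.1.1.2 i ≠ τ') →
        MW.OkFam Φ ε (((MW.cfg q.1.1.2).ins ((τ, q.1.2), n)).ins ((τ', q.2), n'))
          (lineML Φ ε P q.1.1.1) ∧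
        ((((MW.cfg q.1.1.2).add (RealL811.treeW Φ ε P q.1.1.1)).ins ((τ, q.1.2), n)).add
          (MW.line ((τ', q.2), n'))).Ok Φ ε := by
  have h1 : ∀ᵐ q ∂(((volume : Measure ((PhasePoint × Par P) × Config m)).prod
      (volume : Measure PhasePoint)).prod (volume : Measure PhasePoint)),
      Valid Φ ε P T q.1.1.1.1.2 q.1.1.1.2 →
      Sep Φ ε P T q.1.1.1.1 q.1.1.1.2 → q.1.1.2 ∈ PairExcluded ε m →
      (∀ x i, ε < dist (lines Φ ε P q.1.1.1.1 q.1.1.1.2 x).1 (q.1.1.2 i).1) →
      (∀ i, rel P q.1.1.1.2 i ≠ τ) → (∀ i, rel P q.1.1.1.2 i ≠ τ') →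
        MW.OkFam Φ ε (((MW.cfg q.1.1.2).ins ((τ, q.1.2), n)).ins ((τ', q.2), n'))
          (lineML Φ ε P q.1.1.1) := by
    by_cases hP : P = leaf
    · subst hP
      filter_upwards [ae_two_leaf hΦ hε m hτ hτ' hne n n'] with q hq _ _ hw hp _ _
      exact hq hw hp
    · filter_upwards [ae_two_node hΦ hε hP T m hτ hτ' hne n n'] with q hq hv hs hw _ hr hr'
      exact hq hv hs hw hr hr'
  filter_upwards [h1, ae_okr2 hΦ hε P hT m hτ hτ' hne n n'] with q h1 h2 hv hs hw hp hr hr'
  exact ⟨h1 hv hs hw hp hr hr', h2 hv hs hw hp⟩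

/-! ### Almost every pair of lines -/

/-- A gas and a tree which do not overlap. -/
def okT (Φ : Space3 → ℝ) (ε T : ℝ) (P : CTree) (m : ℕ) :
    Set ((PhasePoint × Par P) × Config m) := {a | (Valid Φ ε P T a.1.1.2 a.1.2 ∧
    Sep Φ ε P T a.1.1 a.1.2) ∧ a.2 ∈ PairExcluded ε m ∧ PerpT Φ ε P a.1 a.2}

theorem measurableSet_okT (hΦ : AdmissiblePotential Φ) (hε : 0 < ε) (T : ℝ) (P : CTree) (m : ℕ) :
    MeasurableSet (okT Φ ε T P m) := by
  refine ((measurableSet_validSep hΦ hε P T).preimage measurable_fst).inter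
    (((measurableSet_pairExcluded ε m).preimage measurable_snd).inter ?_)
  have e : {a : (PhasePoint × Par P) × Config m | PerpT Φ ε P a.1 a.2} =
      ⋂ x : Idx P, ⋂ i : Fin m, {a | ε < dist (linesM Φ ε P a.1.1 a.1.2 x).1 (a.2 i).1} := by
    ext a
    simp only [PerpT, mem_ofPred_eq, mem_iInter]
  show MeasurableSet {a : (PhasePoint × Par P) × Config m | PerpT Φ ε P a.1 a.2}
  rw [e]
  refine MeasurableSet.iInter fun x => MeasurableSet.iInter fun i => ?_
  have f1 : Measurable fun a : (PhasePoint × Par P) × Config m =>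
      (linesM Φ ε P a.1.1 a.1.2 x).1 :=
    (((measurable_pi_apply x).comp (measurable_linesM hΦ ε P)).comp measurable_fst).fst
  have f2 : Measurable fun a : (PhasePoint × Par P) × Config m => (a.2 i).1 :=
    ((measurable_pi_apply i).comp measurable_snd).fst
  exact measurableSet_lt measurable_const (f1.dist f2)

/-- Births of two lines are different, almost surely. -/
theorem ae_births_ne {A : Type*} [MeasurableSpace A] (μ : Measure A) [SFinite μ] (te te' : ℝ) :
    ∀ᵐ q ∂((μ.prod (lineV te)).prod (lineV te')), q.1.2.1.1 ≠ q.2.1.1 := by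
  have : SFinite (lineV te) := by unfold lineV; infer_instance
  have : SFinite (lineV te') := by unfold lineV; infer_instance
  have hm : MeasurableSet {q : (A × ML) × ML | q.1.2.1.1 = q.2.1.1} :=
    measurableSet_eq_fun measurable_fst.snd.fst.fst measurable_snd.fst.fst
  have h0 : ((μ.prod (lineV te)).prod (lineV te')) {q | q.1.2.1.1 = q.2.1.1} = 0 := by
    rw [Measure.measure_prod_null hm]
    refine Eventually.of_forall fun a => ?_
    have h1 : ∀ᵐ τ ∂(volume.restrict (Ioc (0 : ℝ) te')), a.2.1.1 ≠ τ := by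
      refine ae_restrict_of_ae ?_
      rw [ae_iff]
      simp
    have h2 : ∀ᵐ x ∂((volume.restrict (Ioc (0 : ℝ) te')).prod (volume : Measure PhasePoint)),
        a.2.1.1 ≠ x.1 := Measure.quasiMeasurePreserving_fst.ae h1
    have h3 : ∀ᵐ l ∂(lineV te'), a.2.1.1 ≠ l.1.1 := Measure.quasiMeasurePreserving_fst.ae h2
    rw [ae_iff] at h3
    simpa using h3
  filter_upwards [compl_mem_ae_iff.2 h0] with q hq
  exact hq

/-- **The two families, for almost every tree, gas and pair of lines.** -/
theorem ae_two (hΦ : AdmissiblePotential Φ) (hε : 0 < ε) (P : CTree) {T : ℝ} (hT : 0 ≤ T)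
    (m : ℕ) (te te' : ℝ) :
    ∀ᵐ q ∂(((volume : Measure ((PhasePoint × Par P) × Config m)).prod (lineV te)).prod
      (lineV te')), Valid Φ ε P T q.1.1.1.1.2 q.1.1.1.2 →
      Sep Φ ε P T q.1.1.1.1 q.1.1.1.2 → q.1.1.2 ∈ PairExcluded ε m →
      PerpT Φ ε P q.1.1.1 q.1.1.2 →
        MW.OkFam Φ ε (((MW.cfg q.1.1.2).ins q.1.2).ins q.2) (lineML Φ ε P q.1.1.1) ∧
        ((((MW.cfg q.1.1.2).add (RealL811.treeW Φ ε P q.1.1.1)).ins q.1.2).add
          (MW.line q.2)).Ok Φ ε := by
  have : SFinite (lineV te) := by unfold lineV; infer_instance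
  have : SFinite (lineV te') := by unfold lineV; infer_instance
  set G : Set ((((PhasePoint × Par P) × Config m) × ML) × ML) := {q |
    q.1.1 ∈ okT Φ ε T P m → (∀ i, rel P q.1.1.1.2 i ≠ q.1.2.1.1) →
    (∀ i, rel P q.1.1.1.2 i ≠ q.2.1.1) → q.1.2.1.1 ≠ q.2.1.1 →
      (∀ S : Finset (Idx P), ((((MW.cfg q.1.1.2).ins q.1.2).ins q.2).add
        (sub (lineMM Φ ε P q.1.1.1) S)).Ok Φ ε) ∧
      ((((MW.cfg q.1.1.2).add (InEq2T.treeW Φ ε P q.1.1.1)).ins q.1.2).add
        (MW.line q.2)).Ok Φ ε} with hG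
  have hrelm : ∀ (f : (((PhasePoint × Par P) × Config m) × ML) × ML → ℝ), Measurable f →
      MeasurableSet {q : (((PhasePoint × Par P) × Config m) × ML) × ML |
        ∀ i, rel P q.1.1.1.2 i ≠ f q} := by
    intro f hf
    have e : {q : (((PhasePoint × Par P) × Config m) × ML) × ML |
        ∀ i, rel P q.1.1.1.2 i ≠ f q} = ⋂ i, {q | rel P q.1.1.1.2 i = f q}ᶜ := by
      ext q
      simp only [mem_ofPred_eq, mem_iInter, mem_compl_iff]
    rw [e]
    exact MeasurableSet.iInter fun i => (measurableSet_eq_fun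
      ((measurable_rel P i).comp measurable_fst.fst.fst.snd) hf).compl
  have hcfg : MeasW fun q : (((PhasePoint × Par P) × Config m) × ML) × ML =>
      MW.cfg q.1.1.2 := MeasW.cfg measurable_fst.fst.snd
  have hGm : MeasurableSet G := by
    refine ((measurableSet_okT hΦ hε T P m).preimage measurable_fst.fst).imp
      (MeasurableSet.imp (hrelm _ measurable_fst.snd.fst.fst) (MeasurableSet.imp
        (hrelm _ measurable_snd.fst.fst) (MeasurableSet.imp (measurableSet_eq_fun
          measurable_fst.snd.fst.fst measurable_snd.fst.fst).compl (MeasurableSet.inter ?_ ?_))))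
    · have e : {q : (((PhasePoint × Par P) × Config m) × ML) × ML | ∀ S : Finset (Idx P),
          ((((MW.cfg q.1.1.2).ins q.1.2).ins q.2).add
            (sub (lineMM Φ ε P q.1.1.1) S)).Ok Φ ε} =
          ⋂ S : Finset (Idx P), {q : (((PhasePoint × Par P) × Config m) × ML) × ML |
            ((((MW.cfg q.1.1.2).ins q.1.2).ins q.2).add
              (sub (lineMM Φ ε P q.1.1.1) S)).Ok Φ ε} := by
        ext q
        simp only [mem_ofPred_eq, mem_iInter]
      show MeasurableSet {q : (((PhasePoint × Par P) × Config m) × ML) × ML |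
        ∀ S : Finset (Idx P), ((((MW.cfg q.1.1.2).ins q.1.2).ins q.2).add
            (sub (lineMM Φ ε P q.1.1.1) S)).Ok Φ ε}
      rw [e]
      refine MeasurableSet.iInter fun S => MeasPair522.measurableSet_ok hΦ hε ?_
      refine ((hcfg.ins measurable_fst.snd).ins measurable_snd).add (MeasW.lines fun k => ?_)
      exact (measurable_lineMM hΦ ε P k.1).comp measurable_fst.fst.fst
    · refine MeasPair522.measurableSet_ok hΦ hε ?_
      exact ((hcfg.add ((InEq2T.measW_treeW hΦ ε P).comp measurable_fst.fst.fst)).ins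
        measurable_fst.snd).add (MeasW.line measurable_snd)
  have hlines : ∀ a : (PhasePoint × Par P) × Config m, a ∈ okT Φ ε T P m →
      linesM Φ ε P a.1.1 a.1.2 = lines Φ ε P a.1.1 a.1.2 := fun a ha => linesM_of_adm ε ha.1.1.1
  have hMM : ∀ a : (PhasePoint × Par P) × Config m, a ∈ okT Φ ε T P m →
      lineMM Φ ε P a.1 = lineML Φ ε P a.1 := fun a ha => by
    funext i
    exact lineMM_of_adm ε ha.1.1.1 i
  have htW : ∀ a : (PhasePoint × Par P) × Config m, a ∈ okT Φ ε T P m →
      InEq2T.treeW Φ ε P a.1 = RealL811.treeW Φ ε P a.1 := fun a ha => by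
    unfold InEq2T.treeW RealL811.treeW
    rw [hlines a ha]
  have h1 : ∀ᵐ q ∂(((volume : Measure ((PhasePoint × Par P) × Config m)).prod (lineV te)).prod
      (lineV te')), q ∈ G := by
    refine ae_lineV2 hGm fun τ hτ n τ' hτ' n' => ?_
    by_cases hne : τ = τ'
    · refine Eventually.of_forall fun q _ _ _ hc => ?_
      exact absurd hne hc
    filter_upwards [ae_two_fix hΦ hε P hT m hτ.1 hτ'.1 hne n n'] with q hq hD hrel hrel' _
    have hD' : q.1.1 ∈ okT Φ ε T P m := hD
    obtain ⟨h2, h3⟩ := hq hD'.1.1 hD'.1.2 hD'.2.1 (fun x i => by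
      have := hD'.2.2 x i
      rwa [hlines _ hD'] at this) hrel hrel'
    constructor
    · intro S
      show ((((MW.cfg q.1.1.2).ins ((τ, q.1.2), n)).ins ((τ', q.2), n')).add
        (sub (lineMM Φ ε P q.1.1.1) S)).Ok Φ ε
      rw [hMM _ hD']
      exact h2 S
    · show ((((MW.cfg q.1.1.2).add (InEq2T.treeW Φ ε P q.1.1.1)).ins ((τ, q.1.2), n)).add
        (MW.line ((τ', q.2), n'))).Ok Φ ε
      rw [htW _ hD']
      exact h3
  have hr1 := (Measure.quasiMeasurePreserving_fst
    (μ := (volume : Measure ((PhasePoint × Par P) × Config m)).prod (lineV te))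
    (ν := lineV te')).ae (ae_rel_ne P m te)
  have hr2 : ∀ᵐ q ∂(((volume : Measure ((PhasePoint × Par P) × Config m)).prod
      (lineV te)).prod (lineV te')), ∀ i, rel P q.1.1.1.2 i ≠ q.2.1.1 := by
    have h4 := (Measure.quasiMeasurePreserving_fst
      (μ := (volume : Measure ((PhasePoint × Par P) × Config m)).prod (lineV te'))
      (ν := lineV te)).ae (ae_rel_ne P m te')
    exact (mp_swapR (volume : Measure ((PhasePoint × Par P) × Config m)) (lineV te)
      (lineV te')).quasiMeasurePreserving.ae h4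
  filter_upwards [h1, hr1, hr2, ae_births_ne (volume : Measure ((PhasePoint × Par P) × Config m))
    te te'] with q hq hr hr' hne hv hs hw hp
  have hqD : q.1.1 ∈ okT Φ ε T P m := ⟨⟨hv, hs⟩, hw, hp⟩
  obtain ⟨h2, h3⟩ := hq hqD hr hr' hne
  rw [htW _ hqD] at h3
  refine ⟨fun S => ?_, h3⟩
  have h4 := h2 S
  rwa [hMM _ hqD] at h4

/-- **`OkX6`** for almost every tree, gas, line `x` and line `d`. -/
theorem ae_okX6 (hΦ : AdmissiblePotential Φ) (hε : 0 < ε) (P : CTree) {T : ℝ} (hT : 0 ≤ T)
    (m : ℕ) (te te' : ℝ) :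
    ∀ᵐ q ∂(((volume : Measure ((PhasePoint × Par P) × Config m)).prod (lineV te)).prod
      (lineV te')), Valid Φ ε P T q.1.1.1.1.2 q.1.1.1.2 →
      Sep Φ ε P T q.1.1.1.1 q.1.1.1.2 → q.1.1.2 ∈ PairExcluded ε m →
      PerpT Φ ε P q.1.1.1 q.1.1.2 →
        MW.OkFam Φ ε (MW.cfg q.1.1.2) (withD (lineML Φ ε P q.1.1.1) q.2) ∧
        OkX6 Φ ε (MW.cfg q.1.1.2) P q.1.1.1 q.2 q.1.2 := by
  have : SFinite (lineV te) := by unfold lineV; infer_instance
  have : SFinite (lineV te') := by unfold lineV; infer_instance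
  have h1 := (Measure.quasiMeasurePreserving_fst
    (μ := (volume : Measure ((PhasePoint × Par P) × Config m)).prod (lineV te))
    (ν := lineV te')).ae (ae_goodX_lineV hΦ hε P hT m te)
  have h2 : ∀ᵐ q ∂(((volume : Measure ((PhasePoint × Par P) × Config m)).prod
      (lineV te)).prod (lineV te')), Valid Φ ε P T q.1.1.1.1.2 q.1.1.1.2 →
      Sep Φ ε P T q.1.1.1.1 q.1.1.1.2 → q.1.1.2 ∈ PairExcluded ε m →
      PerpT Φ ε P q.1.1.1 q.1.1.2 →
        MW.OkFam Φ ε (MW.cfg q.1.1.2) (withD (lineML Φ ε P q.1.1.1) q.2) := by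
    have h4 := (Measure.quasiMeasurePreserving_fst
      (μ := (volume : Measure ((PhasePoint × Par P) × Config m)).prod (lineV te'))
      (ν := lineV te)).ae (ae_goodX_lineV hΦ hε P hT m te')
    filter_upwards [(mp_swapR (volume : Measure ((PhasePoint × Par P) × Config m)) (lineV te)
      (lineV te')).quasiMeasurePreserving.ae h4] with q hq hv hs hw hp
    exact (hq hv hs hw hp).1
  filter_upwards [h1, h2, ae_two hΦ hε P hT m te te'] with q h1 h2 h3 hv hs hw hp
  obtain ⟨h11, h12⟩ := h1 hv hs hw hp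
  obtain ⟨h31, h32⟩ := h3 hv hs hw hp
  refine ⟨h2 hv hs hw hp, okFam_withD hΦ hε (LKok416.okFam_insD hΦ hε h11) h31, fun S => ?_⟩
  -- the real world with `x`, and with `d`
  by_cases hS : (() : Unit) ∈ S
  · let E : ((Fin m ⊕ Idx P) ⊕ Unit) ⊕ S ≃ ((Fin m ⊕ Idx P) ⊕ Unit) ⊕ Unit :=
      Equiv.sumCongr (Equiv.refl _)
        { toFun := fun _ => ()
          invFun := fun _ => ⟨(), hS⟩
          left_inv := fun k => Subtype.ext rfl
          right_inv := fun _ => rfl }
    have he : ((((MW.cfg q.1.1.2).add (RealL811.treeW Φ ε P q.1.1.1)).ins q.1.2).add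
        (MW.line q.2)).comap E =
        (((MW.cfg q.1.1.2).add (RealL811.treeW Φ ε P q.1.1.1)).ins q.1.2).add
          (sub (fun _ : Unit => q.2) S) := by
      unfold sub MW.comap MW.add MW.line MW.lines
      congr 1 <;> · funext x; rcases x with x | x <;> rfl
    rw [← he]
    exact h32.comap hΦ hε E
  · have hempty : IsEmpty S := ⟨fun x => hS x.2⟩
    rw [add_empty_comap]
    exact h12.comap hΦ hε _

end tree

end Crest.Agent.R122.OkInd942

end
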