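import Crest.Agent.R122.ErrBFin_823
import Crest.Agent.R122.OkInd_942

/-!
# Row 122 (helper823): the world with two independent lines is good; `errB` is null

* `ae_ok_two_fix`, `ae_ok_two_V`, `okTwo` : for almost every gas and pair of lines.
* `null_errB_of_kdata'` : `Null (fun K ε => H5994.errB Φ f₀ ε K (epar γ ρ L tw te))`, from `KData`.
-/

set_option autoImplicit false
set_option linter.unusedSectionVars false

open MeasureTheory Set Filter Topology
open scoped ENNReal
open Crest.AnalysisR.Kinetic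
open Crest.Agent.R122.GC311 Crest.Agent.R122.EDefs602 Crest.Agent.R122.MeasE416
open Crest.Agent.R122.AllOk663 Crest.Agent.R122.OkInd942 Crest.Agent.R122.Ins45
open Crest.Agent.R122.TransOk151

noncomputable section

namespace Crest.Agent.R122.ErrB823

variable {Φ : Space3 → ℝ} {f₀ : PhasePoint → ℝ} {ε : ℝ}

/-- Fixed births and marks. -/
theorem ae_ok_two_fix (hΦ : AdmissiblePotential Φ) (hε : 0 < ε) (n : ℕ) {τ τ' : ℝ} (hτ : 0 < τ)
    (hτ' : 0 < τ') (hne : τ ≠ τ') (k k' : ℕ) :
    ∀ᵐ q ∂(((volume : Measure (Config n)).prod (volume : Measure PhasePoint)).prod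
      (volume : Measure PhasePoint)), q.1.1 ∈ PairExcluded ε n →
        (((MW.cfg q.1.1).ins ((τ, q.1.2), k)).ins ((τ', q.2), k')).Ok Φ ε := by
  have h := ae_ok_births (ι := (Fin n ⊕ Unit) ⊕ Unit) hΦ hε
    (Sum.elim (Sum.elim (fun _ => 0) fun _ => τ) fun _ => τ')
    (by rintro ((i | i) | i); exacts [le_rfl, hτ.le, hτ'.le])
  have m1 := (measurePreserving_gasLine (ι := Fin n) τ).prod
    (MeasurePreserving.id (volume : Measure PhasePoint))
  have m2 := measurePreserving_gasLine (ι := Fin n ⊕ Unit) τ'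
  have mp := m2.comp m1
  filter_upwards [mp.quasiMeasurePreserving.ae h] with q hq hw
  refine hq _ ?_ ?_ (sepB_line2 hw hτ hτ' hne)
  · funext x
    rcases x with (x | x) | x <;> rfl
  · funext x
    rcases x with (x | x) | x <;> rfl

/-- Almost every gas and pair of lines. -/
theorem ae_ok_two_V (hΦ : AdmissiblePotential Φ) (hε : 0 < ε) (n : ℕ) (te te' : ℝ) :
    ∀ᵐ q ∂(((volume : Measure (Config n)).prod (lineV te)).prod (lineV te')),
      q.1.1 ∈ PairExcluded ε n → (((MW.cfg q.1.1).ins q.1.2).ins q.2).Ok Φ ε := by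
  have hG : MeasurableSet {q : (Config n × ML) × ML | q.1.1 ∈ PairExcluded ε n →
      q.1.2.1.1 ≠ q.2.1.1 → (((MW.cfg q.1.1).ins q.1.2).ins q.2).Ok Φ ε} := by
    have h1 : MeasurableSet {q : (Config n × ML) × ML | q.1.1 ∈ PairExcluded ε n} :=
      (measurableSet_pairExcluded ε n).preimage measurable_fst.fst
    have h2 : MeasurableSet {q : (Config n × ML) × ML | q.1.2.1.1 = q.2.1.1} :=
      measurableSet_eq_fun measurable_fst.snd.fst.fst measurable_snd.fst.fst
    have h3 : MeasurableSet {q : (Config n × ML) × ML |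
        (((MW.cfg q.1.1).ins q.1.2).ins q.2).Ok Φ ε} :=
      MeasPair522.measurableSet_ok hΦ hε
        (((MeasW.cfg measurable_fst.fst).ins measurable_fst.snd).ins measurable_snd)
    have e : {q : (Config n × ML) × ML | q.1.1 ∈ PairExcluded ε n →
        q.1.2.1.1 ≠ q.2.1.1 → (((MW.cfg q.1.1).ins q.1.2).ins q.2).Ok Φ ε} =
        {q : (Config n × ML) × ML | q.1.1 ∈ PairExcluded ε n}ᶜ ∪
          ({q : (Config n × ML) × ML | q.1.2.1.1 = q.2.1.1} ∪
          {q : (Config n × ML) × ML | (((MW.cfg q.1.1).ins q.1.2).ins q.2).Ok Φ ε}) := by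
      ext q
      simp only [mem_union, mem_compl_iff, mem_ofPred_eq]
      tauto
    rw [e]
    exact h1.compl.union (h2.union h3)
  have h1 := ae_lineV2 (μ := (volume : Measure (Config n))) (T := te) (T' := te') hG
    fun τ hτ k τ' hτ' k' => by
      by_cases hne : τ = τ'
      · exact Eventually.of_forall fun q _ h => absurd hne h
      · filter_upwards [ae_ok_two_fix hΦ hε n hτ.1 hτ'.1 hne k k'] with q hq hw _
        exact hq hw
  filter_upwards [h1, ae_births_ne (volume : Measure (Config n)) te te'] with q hq hne hw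
  exact hq hw hne

/-- **The world with two independent lines is good, almost surely.** -/
theorem okTwo (hΦ : AdmissiblePotential Φ) (γ : ℝ → ℝ) (ρ : ℝ≥0∞) (te : ℝ) : OkTwo Φ γ ρ te := by
  intro ε hε K n
  have hsf : SFinite (lineV te) := by unfold lineV; infer_instance
  have h1 := ae_ok_two_V hΦ hε n te te
  -- `((d, x), w)` from `((w, d), x)`
  have m1 : MeasurePreserving (fun q : (ML × ML) × Config n => ((q.2, q.1.1), q.1.2))
      (((lineV te).prod (lineV te)).prod (volume : Measure (Config n)))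
      (((volume : Measure (Config n)).prod (lineV te)).prod (lineV te)) := by
    have a1 := Measure.measurePreserving_swap (μ := (lineV te).prod (lineV te))
      (ν := (volume : Measure (Config n)))
    have a2 := (measurePreserving_prodAssoc (volume : Measure (Config n)) (lineV te)
      (lineV te)).symm
    exact a2.comp a1
  have h2 : ∀ᵐ p ∂(((lineV te).prod (lineV te)).prod (volume : Measure (Config n))),
      p.2 ∈ PairExcluded ε n → (((MW.cfg p.2).ins p.1.1).ins p.1.2).Ok Φ ε :=
    m1.quasiMeasurePreserving.ae h1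
  have h3 : ((lineM γ ρ K te).prod (lineM γ ρ K te)).prod (volume : Measure (Config n)) ≪
      ((lineV te).prod (lineV te)).prod (volume : Measure (Config n)) :=
    (EBasic602.lineM_absolutelyContinuous.prod EBasic602.lineM_absolutelyContinuous).prod
      Measure.AbsolutelyContinuous.rfl
  exact h3.ae_le h2

/-- The deterministic statement, empty windows included. -/
theorem errBAlt'_all (hΦ : AdmissiblePotential Φ) {T T₁ : ℝ} {Q : EPar} (hteT : Q.te ≤ T)
    (hT₁ : T < T₁) (K : ℕ) : ErrBAlt' Φ T T₁ Q K K := by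
  rcases le_or_gt Q.te 0 with hte | hte
  swap
  · exact errBAlt' hΦ hte hteT hT₁ K
  have h1 : lineM Q.γ Q.ρ K Q.te = 0 := by
    have h2 : lineV Q.te = 0 := by
      unfold lineV
      rw [Ioc_eq_empty (not_lt.2 hte), Measure.restrict_empty, Measure.zero_prod,
        Measure.zero_prod]
    unfold lineM
    rw [h2]
    simp
  intro L
  refine ⟨0, 1, fun R _ ς _ => ⟨1, 1, one_pos, one_pos, fun ε _ _ n w _ => ?_⟩⟩
  rw [h1]
  simp

/-- **The alternatives of `errB`, for the data of the theorem** (helper815's `ErrBFamIn`). -/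
theorem errBFam_of_kdata {β T : ℝ} {f : ℝ → PhasePoint → ℝ} (hD : Master566.KData Φ β T f₀ f)
    {g1 : ℝ} {r1 : ℝ≥0∞} {γ : ℝ → ℝ} {ρ : ℝ≥0∞} (hl : Top602.LinePar g1 r1 T γ ρ)
    {L tw te h : ℝ} (hw : Top602.Win h T tw te) (K : ℕ) :
    ErrBFam Φ f₀ (Top602.epar γ ρ L tw te) K := by
  obtain ⟨hγ, γ₀, hγp, hγ₀⟩ := Direct658.exists_rate hl
  have hb := hD.beta_pos
  have hctx : TL311.Ctx Φ f₀ β T te (min γ₀ β) γ ρ := by
    refine ⟨hD.adm, hD.contDiff.continuous, hD.gaussian, (Q1815.lintegral_mass hD).le,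
      hD.T_pos.le, hw.le_T, lt_min hγp hb, min_le_right _ _, fun τ hτ => ?_, hγ,
      (hl.hi.trans_le le_top).ne⟩
    exact (min_le_left _ _).trans (hγ₀ τ (hτ.2.trans hw.le_T))
  exact errBFam_of_alt' (Q := Top602.epar γ ρ L tw te) hctx
    (Gate973.classNull hD.adm hD.T_pos) (okTwo hD.adm γ ρ te) (T₁ := T + 1)
    (by linarith [hD.T_pos])
    (errBAlt'_all hD.adm (Q := Top602.epar γ ρ L tw te) hw.le_T (lt_add_one T) K)

/-- **`errB` is null for the data of the theorem.** -/
theorem null_errB_of_kdata' {β T : ℝ} {f : ℝ → PhasePoint → ℝ} (hD : Master566.KData Φ β T f₀ f)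
    {g1 : ℝ} {r1 : ℝ≥0∞} {γ : ℝ → ℝ} {ρ : ℝ≥0∞} (hl : Top602.LinePar g1 r1 T γ ρ)
    {L tw te h : ℝ} (hw : Top602.Win h T tw te) :
    Null fun K ε => H5994.errB Φ f₀ ε K (Top602.epar γ ρ L tw te) :=
  null_errB_of_okTwo hD hl hw (okTwo hD.adm γ ρ te)

end Crest.Agent.R122.ErrB823

end
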