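import Crest.Agent.R122.Ok1P_370
import Crest.Agent.R122.Real6P_796
import Crest.Agent.R122.StrMot2_151

/-!
# World facts of inequality 3 from the level data (row 122, LINK6, slots `ok` and `lk`), helper370

`LevD` (helper796) and the joint tree-likeness of tree and structure; worlds of independent particles.

* `okd_lev` : the first line `d`.
* `okF_lev` : the lines of the tree and `d` (tree with two leaves).
* `ok1_lev` : `ok₁` of `Ok6`; `okX6_lev` : `LKok416.OkX6` of a test line `x`.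
-/

set_option autoImplicit false
set_option linter.unusedSectionVars false

open MeasureTheory Set Filter Topology
open scoped Classical ENNReal
open Crest.AnalysisR.Kinetic
open Crest.Agent.R122.GC311 Crest.Agent.R122.EDefs602
open Crest.Agent.R122.Kin796 Crest.Agent.R122.Kin796.CTree Crest.Agent.R122.Tree674
open Crest.Agent.R122.TreeLines335
open Crest.Agent.R122.Gate424 Crest.Agent.R122.Gate973
open Crest.Agent.R122.Scat818 Crest.Agent.R122.OCout796 Crest.Agent.R122.Ins45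
open Crest.Agent.R122.Boost969 (LSt)
open Crest.Agent.R122.Pair292 (Lab)
open Crest.Agent.R122.OneC285 (cT cB cD cX cfT)
open Crest.Agent.R122.VL581 Crest.Agent.R122.VL581.VSys
open Crest.Agent.R122.LN304 Crest.Agent.R122.LNg410 Crest.Agent.R122.LNTree410
open Crest.Agent.R122.StrG491 Crest.Agent.R122.StrMain307
open Crest.Agent.R122.LNBridge968 Crest.Agent.R122.LNEmb410 Crest.Agent.R122.LNEv968
open Crest.Agent.R122.GateOsP424 Crest.Agent.R122.PTreeOf331
open Crest.Agent.R122.PairD292 Crest.Agent.R122.PairRep581 Crest.Agent.R122.Link6796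
open Crest.Agent.R122.TransOk151 (SepB StartSep)
open Crest.Agent.R122.OkNull424 (OkD)
open Crest.Agent.R122.E6Hyp879 (withD)
open Crest.Agent.R122.Ok1P370

noncomputable section

namespace Crest.Agent.R122.OkX6P370

variable {Φ : Space3 → ℝ} {T ε c ℓ ς te T' : ℝ} {K : ℕ} {P : CTree} {S : Shp}
  {q : (PhasePoint × Par P) × S.Θ} {n : ℕ} {w : Config n}

/-! ### Released lines in a world -/

/-- **The first line** in a world of independent particles. -/
theorem okd_lev (hΦ : AdmissiblePotential Φ) (hε : 0 < ε) (hc : 1 ≤ c) (hT0 : 0 < T)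
    (hℓς : 2 * ℓ ≤ ς) (h : LevD Φ T ε c ℓ ς te K P S q) (hdT : (dL (S.th ε q.2)).1.1 ≤ T)
    {ω : Type} [Fintype ω] {W : MW ω} (hW : SepB ε W)
    (hOk : ∀ A : Finset S.κ, OkD Φ ε W.b (fun a : A => S.z ε q.2 a) W.z)
    (hWl : ∀ i, W.b i ≠ (dL (S.th ε q.2)).1.1) :
    MW.OkFam Φ ε W (fun _ : Unit => dL (S.th ε q.2)) := by
  obtain ⟨R, cl, bD, x, y, h1, h2, h3⟩ := h.pair
  exact okd_pair (M := sysS Φ T ε S q.2) (W := W) h1 hc hΦ hε hT0 h.tl hℓς h2 h3
    (fun k _ => by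
      show max (S.b ε q.2 k) 0 = 0
      rw [h.b0 k]
      exact max_self 0) h.ct.2.d0 hdT hW (hOk (cl x)) rfl fun i hi => absurd hi (hWl i)

/-- **The lines of the tree and the first line**, a tree with two leaves. -/
theorem okF_lev (hΦ : AdmissiblePotential Φ) (hε : 0 < ε) (hc : 1 ≤ c) (hte : te < T)
    (hℓς : 2 * ℓ ≤ ς) (h : LevD Φ T ε c ℓ ς te K P S q) (hdT : (dL (S.th ε q.2)).1.1 ≤ T)
    (hTL : TL (sysP Φ T ε P S q) c ℓ ς Finset.univ (osZ Φ P S ε q)) (hP : P ≠ leaf)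
    {ω : Type} [Fintype ω] {W : MW ω} (hW : SepB ε W)
    (hOk : ∀ A : Finset (Idx P ⊕ S.κ), OkD Φ ε W.b (fun a : A => osZ Φ P S ε q a) W.z)
    (hWd : ∀ i, W.b i ≠ (dL (S.th ε q.2)).1.1) (hWl : ∀ i k, W.b i ≠ rel P q.1.2 k) :
    MW.OkFam Φ ε W (withD (lineML Φ ε P q.1) (dL (S.th ε q.2))) := by
  obtain ⟨R, cl, bD, x, y, h1, h2, h3, h4⟩ := h.ptree hΦ hε hte
  have h5 : StrMot2_151.PT (sysP Φ T ε P S q) (osZ Φ P S ε q) (mapR (iS P S.κ) R)
      (mapCl (iS P S.κ) cl) (bE P q.1 bD) (Sum.inr y) :=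
    StrMot2_151.PT.map (M := sysP Φ T ε P S q) (M' := sysS Φ T ε S q.2)
      (Z := osZ Φ P S ε q) (e := iS P S.κ) (bD := bE P q.1 bD) (z := y) (pull_inr _) hΦ hε h2.str
      (fun _ _ => rfl) ⟨h3, h4⟩
  have hTL' : ∀ inst : DecidableEq (Idx P ⊕ S.κ), TL (sysP Φ T ε P S q) c ℓ ς
      (@Union.union _ (@Finset.instUnion _ inst) (Finset.univ.map (iS P S.κ))
        (part (iT P S.κ))) (osZ Φ P S ε q) := fun inst => by
    have := @union_eq S.κ _ P inst
    rw [this]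
    exact hTL
  have h6 := ok1_of (M := sysP Φ T ε P S q) (W := W) h1 hc hΦ hε (hTL' _)
  refine h6 hℓς h5.exit h5.cross
    (fun k hk => ?_) h.ct.2.d0 hdT hP hW (hOk _) rfl fun i k hik => ?_
  · obtain ⟨k, -, rfl⟩ := Finset.mem_map.1 hk
    show max (S.b ε q.2 k) 0 = 0
    rw [h.b0 k]
    exact max_self 0
  · rcases k with k | k
    · exact absurd hik (hWl i k)
    · exact absurd hik (hWd i)

/-- The first line, from the labels of tree and structure. -/
theorem okd_levJ (hΦ : AdmissiblePotential Φ) (hε : 0 < ε) (hc : 1 ≤ c) (hte : te < T)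
    (hℓς : 2 * ℓ ≤ ς) (h : LevD Φ T ε c ℓ ς te K P S q) (hdT : (dL (S.th ε q.2)).1.1 ≤ T)
    (hTL : TL (sysP Φ T ε P S q) c ℓ ς Finset.univ (osZ Φ P S ε q))
    {ω : Type} [Fintype ω] {W : MW ω} (hW : SepB ε W)
    (hOk : ∀ A : Finset (Idx P ⊕ S.κ), OkD Φ ε W.b (fun a : A => osZ Φ P S ε q a) W.z)
    (hWd : ∀ i, W.b i ≠ (dL (S.th ε q.2)).1.1) :
    MW.OkFam Φ ε W (fun _ : Unit => dL (S.th ε q.2)) := by
  obtain ⟨R, cl, bD, x, y, h1, h2, h3, h4⟩ := h.ptree hΦ hε hte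
  have h5 : StrMot2_151.PT (sysP Φ T ε P S q) (osZ Φ P S ε q) (mapR (iS P S.κ) R)
      (mapCl (iS P S.κ) cl) (bE P q.1 bD) (Sum.inr y) :=
    StrMot2_151.PT.map (M := sysP Φ T ε P S q) (M' := sysS Φ T ε S q.2)
      (Z := osZ Φ P S ε q) (e := iS P S.κ) (bD := bE P q.1 bD) (z := y) (pull_inr _) hΦ hε h2.str
      (fun _ _ => rfl) ⟨h3, h4⟩
  have hTL' : ∀ inst : DecidableEq (Idx P ⊕ S.κ), TL (sysP Φ T ε P S q) c ℓ ς
      (@Union.union _ (@Finset.instUnion _ inst) (Finset.univ.map (iS P S.κ))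
        (part (iT P S.κ))) (osZ Φ P S ε q) := fun inst => by
    have := @union_eq S.κ _ P inst
    rw [this]
    exact hTL
  have h6 := okd_of (M := sysP Φ T ε P S q) (W := W) h1 hc hΦ hε (hTL' _)
  refine h6 hℓς h5.exit h5.cross (fun k hk => ?_) h.ct.2.d0 hdT hW (hOk _) rfl
    fun i hik => absurd hik (hWd i)
  obtain ⟨k, -, rfl⟩ := Finset.mem_map.1 hk
  show max (S.b ε q.2 k) 0 = 0
  rw [h.b0 k]
  exact max_self 0

/-! ### Separated births -/

theorem sepB_add0 {ω β : Type} {W : MW ω} {V : MW β} (hW : SepB ε W) (hV0 : ∀ i, V.b i = 0)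
    (hV : ∀ i j, i ≠ j → ε < dist (V.z i).1 (V.z j).1)
    (hWV : ∀ i j, W.b i = 0 → ε < dist (W.z i).1 (V.z j).1) : SepB ε (W.add V) := by
  have e : ∀ z : PhasePoint, (lineAt 0 z 0).1 = z.1 := fun z => by simp [lineAt]
  rintro (i | i) (j | j) hij hb
  · exact hW i j (fun h => hij (by rw [h])) hb
  · have hb' : W.b i = V.b j := hb
    rw [hV0] at hb'
    refine Or.inl ?_
    show ε < dist (lineAt 0 (W.z i) (W.b i)).1 (lineAt 0 (V.z j) (V.b j)).1
    rw [hV0, hb', e, e]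
    exact hWV i j hb'
  · have hb' : V.b i = W.b j := hb
    rw [hV0] at hb'
    refine Or.inl ?_
    show ε < dist (lineAt 0 (V.z i) (V.b i)).1 (lineAt 0 (W.z j) (W.b j)).1
    rw [hV0, ← hb', e, e, dist_comm]
    exact hWV j i hb'.symm
  · refine Or.inl ?_
    show ε < dist (lineAt 0 (V.z i) (V.b i)).1 (lineAt 0 (V.z j) (V.b j)).1
    rw [hV0, hV0, e, e]
    exact hV i j fun h => hij (by rw [h])

theorem sepB_ins {ω : Type} {W : MW ω} (hW : SepB ε W) {x : ML} (hx : ∀ i, W.b i ≠ x.1.1) :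
    SepB ε (W.ins x) := by
  rintro (i | i) (j | j) hij hb
  · exact hW i j (fun h => hij (by rw [h])) hb
  · exact absurd hb (hx i)
  · exact absurd (Eq.symm hb) (hx j)
  · exact absurd rfl hij

/-- The world of a leaf. -/
theorem treeW_leaf (z : PhasePoint × Par leaf) :
    RealL811.treeW Φ ε leaf z = MW.line (lineML Φ ε leaf z (root leaf)) := by
  unfold RealL811.treeW MW.line MW.lines
  congr 1
  funext i
  show z.1 = back (lineML Φ ε leaf z (root leaf)).1
  refine Prod.ext ?_ ?_ <;> simp [back, lineML, TreeLines335.rel, onLine, PathFlow968.fin]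

theorem rel_pos_lev (hΦ : AdmissiblePotential Φ) (hε : 0 < ε) (hte : te < T)
    (h : LevD Φ T ε c ℓ ς te K P S q) (hP : P ≠ leaf) (k : Idx P) : 0 < rel P q.1.2 k := by
  obtain ⟨R, cl, bD, x, y, h1, h2, h3, h4⟩ := h.ptree hΦ hε hte
  exact pos_P (M := sysP Φ T ε P S q) h1 hΦ hε hP (iT P S.κ k) (mem_part.2 ⟨k, rfl⟩)

theorem lines_sep
    (hex : cfT Φ ε P q.1 ∈ PairExcluded ε P.leaves) (i j : Idx P) (hij : i ≠ j) :
    ε < dist (Tree674.lines Φ ε P q.1.1 q.1.2 i).1 (Tree674.lines Φ ε P q.1.1 q.1.2 j).1 := by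
  rw [← R6Tree974.cfT_apply, ← R6Tree974.cfT_apply]
  exact hex _ _ fun h' => hij ((Relabel674.eP P).injective h')

theorem lines_perp (hp : Perp ε (cfT Φ ε P q.1) w) (i : Idx P) (j : Fin n) :
    ε < dist (Tree674.lines Φ ε P q.1.1 q.1.2 i).1 (w j).1 := by
  rw [← R6Tree974.cfT_apply]
  exact hp _ _

/-! ### The world of the gas -/

/-- **`ok₁` of `Ok6`.** -/
theorem ok1_lev (hΦ : AdmissiblePotential Φ) (hε : 0 < ε) (hc : 1 ≤ c) (hte : te < T)
    (hℓς : 2 * ℓ ≤ ς) (h : LevD Φ T ε c ℓ ς te K P S q) (hdT : (dL (S.th ε q.2)).1.1 ≤ T)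
    (hTL : TL (sysP Φ T ε P S q) c ℓ ς Finset.univ (osZ Φ P S ε q))
    (hw : w ∈ PairExcluded ε n) (hp : Perp ε (cfT Φ ε P q.1) w)
    (hO1 : ∀ A : Finset (Idx P ⊕ S.κ),
      OkD Φ ε (fun _ : Fin n => 0) (fun a : A => osZ Φ P S ε q a) w)
    (hO2 : P = leaf → ∀ A : Finset S.κ, OkD Φ ε (fun _ : Fin n ⊕ Idx P => 0)
      (fun a : A => S.z ε q.2 a) (Sum.elim w (linesM Φ ε P q.1.1 q.1.2))) :
    MW.OkFam Φ ε (MW.cfg w) (withD (lineML Φ ε P q.1) (dL (S.th ε q.2))) := by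
  have hd0 := h.ct.2.d0
  have hW := TransOk151.sepB_cfg hw
  by_cases hP : P = leaf
  · subst hP
    have hT0 : 0 < T := by
      obtain ⟨R, cl, bD, x, y, h1, -⟩ := h.ptree hΦ hε hte
      exact h1.T_pos
    refine okFam_leafD hΦ hε (okd_levJ hΦ hε hc hte hℓς h hdT hTL hW hO1 fun i => hd0.ne) ?_
    have e1 : (MW.cfg w).ins (lineML Φ ε leaf q.1 (root leaf)) =
        (MW.cfg w).add (RealL811.treeW Φ ε leaf q.1) := by
      rw [treeW_leaf]
      rfl
    have eb : ((MW.cfg w).add (RealL811.treeW Φ ε leaf q.1)).b =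
        fun _ : Fin n ⊕ Idx leaf => 0 := by
      funext i
      rcases i with i | i <;> rfl
    have ez : ((MW.cfg w).add (RealL811.treeW Φ ε leaf q.1)).z =
        Sum.elim w (linesM Φ ε leaf q.1.1 q.1.2) := by
      rw [linesM_of_adm ε h.valid.1]
      rfl
    rw [e1]
    refine okd_lev hΦ hε hc hT0 hℓς h hdT ?_ (fun A => ?_) fun i => ?_
    · exact sepB_add0 hW (fun _ => rfl)
        (fun i j hij => absurd (Subsingleton.elim (α := Unit) i j) hij) fun i j _ => by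
        rw [dist_comm]
        exact lines_perp hp j i
    · rw [eb, ez]
      exact hO2 rfl A
    · rw [eb]
      exact hd0.ne
  · exact okF_lev hΦ hε hc hte hℓς h hdT hTL hP hW hO1 (fun i => hd0.ne)
      fun i k => (rel_pos_lev hΦ hε hte h hP k).ne

/-! ### The world of the gas and a test line -/

/-- **The world facts of a test line** (helper416's `OkX6`, over the gas). -/
theorem okX6_lev (hΦ : AdmissiblePotential Φ) (hε : 0 < ε) (hc : 1 ≤ c) (hte : te < T)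
    (hℓς : 2 * ℓ ≤ ς) (h : LevD Φ T ε c ℓ ς te K P S q) (hdT : (dL (S.th ε q.2)).1.1 ≤ T)
    (hTL : TL (sysP Φ T ε P S q) c ℓ ς Finset.univ (osZ Φ P S ε q))
    (hw : w ∈ PairExcluded ε n) (hex : cfT Φ ε P q.1 ∈ PairExcluded ε P.leaves)
    (hp : Perp ε (cfT Φ ε P q.1) w) {x : ML} (hx0 : 0 < x.1.1)
    (hxr : ∀ i, rel P q.1.2 i ≠ x.1.1) (hxd : (dL (S.th ε q.2)).1.1 ≠ x.1.1)
    (hO1 : ∀ A : Finset (Idx P ⊕ S.κ),
      OkD Φ ε (Sum.elim (fun _ : Fin n => 0) (fun _ : Unit => x.1.1))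
        (fun a : A => osZ Φ P S ε q a) (Sum.elim w (fun _ => back x.1)))
    (hO2 : ∀ A : Finset S.κ,
      OkD Φ ε (Sum.elim (fun _ : Fin n ⊕ Idx P => 0) (fun _ : Unit => x.1.1))
        (fun a : A => S.z ε q.2 a)
        (Sum.elim (Sum.elim w (linesM Φ ε P q.1.1 q.1.2)) (fun _ => back x.1))) :
    LKok416.OkX6 Φ ε (MW.cfg w) P q.1 (dL (S.th ε q.2)) x := by
  have hd0 := h.ct.2.d0
  have hW := TransOk151.sepB_cfg hw
  have hWx : SepB ε ((MW.cfg w).ins x) := sepB_ins hW fun i => hx0.ne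
  have hT0 : 0 < T := by
    obtain ⟨R, cl, bD, x, y, h1, -⟩ := h.ptree hΦ hε hte
    exact h1.T_pos
  have hreal : MW.OkFam Φ ε (((MW.cfg w).add (RealL811.treeW Φ ε P q.1)).ins x)
      (fun _ : Unit => dL (S.th ε q.2)) := by
    have eb : (((MW.cfg w).add (RealL811.treeW Φ ε P q.1)).ins x).b =
        Sum.elim (fun _ : Fin n ⊕ Idx P => 0) (fun _ : Unit => x.1.1) := by
      funext i
      rcases i with (i | i) | i <;> rfl
    have ez : (((MW.cfg w).add (RealL811.treeW Φ ε P q.1)).ins x).z =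
        Sum.elim (Sum.elim w (linesM Φ ε P q.1.1 q.1.2)) (fun _ => back x.1) := by
      rw [linesM_of_adm ε h.valid.1]
      rfl
    have hWt : SepB ε ((MW.cfg w).add (RealL811.treeW Φ ε P q.1)) := by
      refine sepB_add0 (W := MW.cfg w) (V := RealL811.treeW Φ ε P q.1) hW (fun _ => rfl)
        (fun i j hij => lines_sep hex i j hij) fun i j _ => ?_
      rw [dist_comm]
      exact lines_perp hp j i
    have hb0 : ∀ i, ((MW.cfg w).add (RealL811.treeW Φ ε P q.1)).b i ≠ x.1.1 := by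
      rintro (i | i)
      · exact hx0.ne
      · exact hx0.ne
    refine okd_lev hΦ hε hc hT0 hℓς h hdT (sepB_ins hWt hb0) (fun A => ?_) fun i => ?_
    · rw [eb, ez]
      exact hO2 A
    · rw [eb]
      rcases i with i | i
      · exact hd0.ne
      · exact hxd.symm
  refine ⟨?_, hreal⟩
  have hWd : ∀ i, ((MW.cfg w).ins x).b i ≠ (dL (S.th ε q.2)).1.1 := by
    rintro (i | i)
    · exact hd0.ne
    · exact hxd.symm
  by_cases hP : P = leaf
  · subst hP
    have e1 : (MW.cfg w).ins (lineML Φ ε leaf q.1 (root leaf)) =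
        (MW.cfg w).add (RealL811.treeW Φ ε leaf q.1) := by
      rw [treeW_leaf]
      rfl
    refine okFam_leafD hΦ hε (okd_levJ hΦ hε hc hte hℓς h hdT hTL hWx hO1 hWd) ?_
    refine LKok416.okFam_swap hΦ hε ?_
    rw [e1]
    exact hreal
  · refine okF_lev hΦ hε hc hte hℓς h hdT hTL hP hWx hO1 hWd fun i k => ?_
    rcases i with i | i
    · exact (rel_pos_lev hΦ hε hte h hP k).ne
    · exact (hxr k).symm

end Crest.Agent.R122.OkX6P370

end
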