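import Crest.Agent.R122.GoodXOk_663
import Crest.Agent.R122.TLBind_311

/-!
# Row 122 (helper663): the input `OkXae` of `TLBind_311`

* `okXae` : the lines of a tree and an independent line can be inserted together in the gas, and the
  real world with the line is good, almost everywhere.
-/

set_option autoImplicit false
set_option linter.unusedSectionVars false

open MeasureTheory Set Filter Topology
open scoped ENNReal
open Crest.AnalysisR.Kinetic
open Crest.Agent.R122.EDefs602
open Crest.Agent.R122.Kin796 Crest.Agent.R122.Kin796.CTree Crest.Agent.R122.Disc416
open Crest.Agent.R122.Tree674 Crest.Agent.R122.PathFlow968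

noncomputable section

open scoped Classical

namespace Crest.Agent.R122.AllOk663

variable {Φ : Space3 → ℝ}

/-- **`OkXae`.** -/
theorem okXae (hΦ : AdmissiblePotential Φ) (T' te : ℝ) : TL311.OkXae Φ T' te := by
  intro P ε hε n
  -- rearrangement `((z, l), w) ↦ ((z, w), l)`
  have mp : MeasurePreserving (fun p : ((PhasePoint × Par P) × ML) × Config n =>
      ((p.1.1, p.2), p.1.2))
      (((volume : Measure (PhasePoint × Par P)).prod (lineV te)).prod
        (volume : Measure (Config n)))
      ((volume : Measure ((PhasePoint × Par P) × Config n)).prod (lineV te)) := by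
    have m1 := measurePreserving_prodAssoc (volume : Measure (PhasePoint × Par P)) (lineV te)
      (volume : Measure (Config n))
    have m2 := (MeasurePreserving.id (volume : Measure (PhasePoint × Par P))).prod
      (Measure.measurePreserving_swap (μ := lineV te) (ν := (volume : Measure (Config n))))
    have m3 := (measurePreserving_prodAssoc (volume : Measure (PhasePoint × Par P))
      (volume : Measure (Config n)) (lineV te)).symm
    exact m3.comp (m2.comp m1)
  rcases le_or_gt 0 T' with hT | hT
  · exact mp.quasiMeasurePreserving.ae (ae_goodX_lineV hΦ hε P hT n te)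
  · cases P with
    | leaf =>
      filter_upwards [mp.quasiMeasurePreserving.ae (ae_goodX_lineV hΦ hε leaf (le_refl (0 : ℝ)) n te)]
        with p hp _ _ hw hpe
      exact hp valid_leaf (fun i j hij => absurd (Subsingleton.elim (α := Unit) i j) hij) hw hpe
    | node l r =>
      refine Eventually.of_forall fun p hv => ?_
      have h1 := hv.2.1
      have h2 := hv.2.2.1
      have h3 := PathFlow968.sin_le hε.le (Φ := Φ) p.1.1.1.2 p.1.1.2.1
      linarith

end Crest.Agent.R122.AllOk663

end
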