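import Crest.Agent.R122.OneC_423
import Crest.Agent.R122.EMDefs_602
import Crest.Agent.R122.Q1Data_815

/-!
# Statement (NS) of the one-contact step in the windows (row 122, board H1)

* `stmtNS_win` : with the constants of the kinetic bounds; all windows of length at most `h₀`.
* `stmtNS_evW` : for line parameters `LinePar g1 r1 T γ ρ` there is one constant such that, for all
  short windows at whose beginning the induction hypothesis holds, `OneC285.StmtNS` is true.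
-/

set_option autoImplicit false

open MeasureTheory Set Filter Topology
open scoped ENNReal
open Crest.AnalysisR.Kinetic
open Crest.Agent.R122.EDefs602 Crest.Agent.R122.Master566 Crest.Agent.R122.Top602
open Crest.Agent.R122.Q1815 Crest.Agent.R122.OneC285

noncomputable section

namespace Crest.Agent.R122.OneNS423

variable {Φ : Space3 → ℝ} {β T : ℝ} {f₀ : PhasePoint → ℝ} {f : ℝ → PhasePoint → ℝ}

/-- **(NS) for all windows**, with the constants of the kinetic bounds. -/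
theorem stmtNS_win (hD : KData Φ β T f₀ f) {h₀ kap lam C b : ℝ}
    (hK : Seg814.KinC Φ T f h₀ kap lam C b) (hkap : kap ≤ β) :
    ∃ g1 : ℝ, 0 < g1 ∧ ∃ r1 : ℝ≥0∞, r1 < 1 ∧
      ∀ (γ : ℝ → ℝ) (ρ : ℝ≥0∞), LinePar g1 r1 T γ ρ → ∃ CN : ℝ≥0∞, CN ≠ ∞ ∧
        ∀ h L tw te : ℝ, Win h T tw te → te ≤ tw + h₀ → GIV566.GIV Φ f₀ f T tw →
          ∀ T' : ℝ, StmtNS Φ f₀ (epar γ ρ L tw te) T' CN := by
  obtain ⟨-, hkap0, hlam, -, hb, -⟩ := id hK
  set lam₁ : ℝ := (1 + lam) / 2 with hlam₁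
  have h1 : 1 < lam₁ := by rw [hlam₁]; linarith
  have h1' : 0 < lam₁ := by linarith
  have h2 : lam₁ < lam := by rw [hlam₁]; linarith
  have hlam0 : 0 < lam := by linarith
  obtain ⟨M, -, hM⟩ := exists_wtA_le Φ h1 hkap0
  have hr : lam₁ / lam < 1 := (div_lt_one hlam0).2 h2
  have hr0 : 0 < lam₁ / lam := by positivity
  refine ⟨b, hb, ENNReal.ofReal ((1 + lam₁ / lam) / 2), ?_, ?_⟩
  · rw [← ENNReal.ofReal_one]
    exact (ENNReal.ofReal_lt_ofReal_iff one_pos).2 (by linarith)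
  intro γ ρ hl
  obtain ⟨γ₀, hγ₀, hlow⟩ := hl.lower
  have hρ : ENNReal.ofReal (lam₁ / lam) < ρ :=
    lt_of_lt_of_le ((ENNReal.ofReal_lt_ofReal_iff (by positivity)).2 (by linarith)) hl.lo
  refine ⟨CN lam lam₁ C γ₀ M ρ, CN_ne_top hγ₀ hρ hl.hi, ?_⟩
  intro h L tw te hw hte hG T'
  have htw : tw ∈ Icc 0 T := ⟨hw.nonneg, hw.le.trans hw.le_T⟩
  have X : Ctx Φ β T f₀ f T tw := Ctx.of_kdata hD htw hG hD.T_pos
  have hup : ∀ τ ∈ Ioc (0 : ℝ) te, γ τ ≤ b := by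
    obtain ⟨g0, κ, hκ, hγ, -, hg⟩ := hl.lin
    intro τ hτ
    rw [hγ]
    have := mul_nonneg hκ.le hτ.1.le
    show g0 - κ * τ ≤ b
    linarith
  exact stmtNS (Q := epar γ ρ L tw te) X hK (by linarith [hD.beta_pos]) h1' h2.le
    (fun P s ℓ p => hM P s ℓ p) hte hw.le_T hl.measurable hγ₀
    (fun τ hτ => hlow τ (hτ.2.trans hw.le_T)) hup hρ hl.hi T'

/-- **(NS) in the window form of section E.** -/
theorem stmtNS_evW (hD : KData Φ β T f₀ f) : ∃ g1 : ℝ, 0 < g1 ∧ ∃ r1 : ℝ≥0∞, r1 < 1 ∧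
    ∀ (γ : ℝ → ℝ) (ρ : ℝ≥0∞), LinePar g1 r1 T γ ρ → ∃ C : ℝ≥0∞, C ≠ ∞ ∧
      EvW T fun _ L tw te => IH Φ f₀ f T γ ρ tw →
        ∀ T' : ℝ, StmtNS Φ f₀ (epar γ ρ L tw te) T' C := by
  obtain ⟨h₀, kap, lam, C, b, hK, hkap⟩ := exists_kinC_kdata hD
  obtain ⟨g1, hg1, r1, hr1, H⟩ := stmtNS_win hD hK hkap
  refine ⟨g1, hg1, r1, hr1, fun γ ρ hl => ?_⟩
  obtain ⟨C', hC', H'⟩ := H γ ρ hl
  refine ⟨C', hC', h₀, hK.1, 1, ?_⟩
  intro h L tw te _ hh _ _ hw hIH T'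
  exact H' h L tw te hw (hw.short.trans (by linarith)) hIH.giv T'

end Crest.Agent.R122.OneNS423

end
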