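import Crest.Agent.R122.Rebirth_45
import Crest.Agent.R122.CtB_879

/-!
# One contact (row 122, block INS, helper45), part 1: geometry

* `BWorld.agree_sum`: two groups which keep distance larger than `ε` before the time `s` are
  independent up to the time `s`.
-/

set_option autoImplicit false
set_option linter.unusedSectionVars false

open MeasureTheory Set Filter Topology
open scoped NNReal
open Crest.AnalysisR.Kinetic
open Crest.Agent.R122.Flow671 Crest.Agent.R122.Loc45
open Crest.Agent.R122.Causal291 Crest.Agent.R122.Inf879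

namespace Crest.Agent.R122.Ins45

noncomputable section

variable {Φ : Space3 → ℝ} {ε : ℝ} {ι κ μ : Type*} [Fintype ι] [Fintype κ] [Fintype μ]

/-- Strict distance of alive particles persists. -/
theorem eventually_far {b₁ b₂ : ℝ} {x₁ x₂ : ℝ → Space3} {t₀ t : ℝ} (ht : t₀ ≤ t)
    (h₁ : ContinuousOn x₁ (Ici t₀)) (h₂ : ContinuousOn x₂ (Ici t₀))
    (h : b₁ ≤ t → b₂ ≤ t → ε < dist (x₁ t) (x₂ t)) :
    ∀ᶠ s in 𝓝[≥] t, b₁ ≤ s → b₂ ≤ s → ε < dist (x₁ s) (x₂ s) := by
  by_cases hb₁ : b₁ ≤ t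
  · by_cases hb₂ : b₂ ≤ t
    · have h3 : ContinuousWithinAt (fun s => dist (x₁ s) (x₂ s)) (Ici t) t :=
        ((h₁ t ht).mono (Ici_subset_Ici.2 ht)).dist ((h₂ t ht).mono (Ici_subset_Ici.2 ht))
      exact (h3.eventually (lt_mem_nhds (h hb₁ hb₂))).mono fun s hs _ _ => hs
    · push Not at hb₂
      filter_upwards [Ico_mem_nhdsGE hb₂] with s hs _ h4
      exact absurd hs.2 (not_lt.2 h4)
  · push Not at hb₁
    filter_upwards [Ico_mem_nhdsGE hb₁] with s hs h4 _
    exact absurd hs.2 (not_lt.2 h4)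

/-- **Two groups which do not come within `ε` of each other before `s` are independent up to `s`.** -/
theorem BWorld.agree_sum (hΦ : AdmissiblePotential Φ) (hε : 0 < ε) {b : μ → ℝ} {t₀ : ℝ}
    {X : ℝ → ι → PhasePoint} {Y : ℝ → κ → PhasePoint} {W : ℝ → μ → PhasePoint}
    {e : ι → μ} {f : κ → μ} (he : Function.Injective e) (hf : Function.Injective f)
    (hcov : ∀ x, x ∈ range e ∨ x ∈ range f)
    (hW : BWorld Φ ε b t₀ W) (hX : BWorld Φ ε (fun i => b (e i)) t₀ X)
    (hY : BWorld Φ ε (fun j => b (f j)) t₀ Y)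
    (h0X : ∀ i, W t₀ (e i) = X t₀ i) (h0Y : ∀ j, W t₀ (f j) = Y t₀ j) {s : ℝ}
    (hfar : ∀ t ∈ Ico t₀ s, ∀ i j, b (e i) ≤ t → b (f j) ≤ t →
      ε < dist (X t i).1 (Y t j).1) :
    ∀ t ∈ Icc t₀ s, (∀ i, W t (e i) = X t i) ∧ (∀ j, W t (f j) = Y t j) := by
  set E : Set ℝ := {t | (∀ i, W t (e i) = X t i) ∧ (∀ j, W t (f j) = Y t j)} with hE
  have hmain : Icc t₀ s ⊆ E := by
    refine IsClosed.Icc_subset_of_forall_exists_gt ?_ ⟨h0X, h0Y⟩ ?_
    · have h1 : E ∩ Icc t₀ s = (⋂ i, {t | t ∈ Icc t₀ s ∧ W t (e i) = X t i}) ∩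
          (⋂ j, {t | t ∈ Icc t₀ s ∧ W t (f j) = Y t j}) ∩ Icc t₀ s := by
        ext t
        simp only [hE, mem_inter_iff, mem_iInter, mem_ofPred_eq]
        constructor
        · rintro ⟨⟨h1, h2⟩, h3⟩
          exact ⟨⟨fun i => ⟨h3, h1 i⟩, fun j => ⟨h3, h2 j⟩⟩, h3⟩
        · rintro ⟨⟨h1, h2⟩, h3⟩
          exact ⟨⟨fun i => (h1 i).2, fun j => (h2 j).2⟩, h3⟩
      rw [h1]
      refine ((isClosed_iInter fun i => ?_).inter (isClosed_iInter fun j => ?_)).inter isClosed_Icc
      · have h2 : {t | t ∈ Icc t₀ s ∧ W t (e i) = X t i} = Icc t₀ s ∩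
            (fun t => (W t (e i), X t i)) ⁻¹' {p : PhasePoint × PhasePoint | p.1 = p.2} := rfl
        rw [h2]
        refine ContinuousOn.preimage_isClosed_of_isClosed ?_ isClosed_Icc
          (isClosed_eq continuous_fst continuous_snd)
        exact ((hW.cont_apply (e i)).mono Icc_subset_Ici_self).prodMk
          ((hX.cont_apply i).mono Icc_subset_Ici_self)
      · have h2 : {t | t ∈ Icc t₀ s ∧ W t (f j) = Y t j} = Icc t₀ s ∩
            (fun t => (W t (f j), Y t j)) ⁻¹' {p : PhasePoint × PhasePoint | p.1 = p.2} := rfl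
        rw [h2]
        refine ContinuousOn.preimage_isClosed_of_isClosed ?_ isClosed_Icc
          (isClosed_eq continuous_fst continuous_snd)
        exact ((hW.cont_apply (f j)).mono Icc_subset_Ici_self).prodMk
          ((hY.cont_apply j).mono Icc_subset_Ici_self)
    · rintro t ⟨⟨hX1, hY1⟩, ht⟩ y hy
      have hXW : ∀ᶠ u in 𝓝[≥] t, ∀ i j, b (e i) ≤ u → b (f j) ≤ u →
          ε < dist (X u i).1 (W u (f j)).1 := by
        rw [eventually_all]
        intro i
        rw [eventually_all]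
        intro j
        refine eventually_far ht.1 (hX.cont_pos i) (hW.cont_pos (f j)) fun h1 h2 => ?_
        rw [hY1 j]
        exact hfar t ht i j h1 h2
      have hYW : ∀ᶠ u in 𝓝[≥] t, ∀ i j, b (e i) ≤ u → b (f j) ≤ u →
          ε < dist (W u (e i)).1 (Y u j).1 := by
        rw [eventually_all]
        intro i
        rw [eventually_all]
        intro j
        refine eventually_far ht.1 (hW.cont_pos (e i)) (hY.cont_pos j) fun h1 h2 => ?_
        rw [hX1 i]
        exact hfar t ht i j h1 h2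
      obtain ⟨u, hu, hu'⟩ := mem_nhdsGE_iff_exists_Ico_subset.1 (hXW.and hYW)
      set T := min u y with hT
      have htT : t < T := lt_min hu hy
      have hsub : ∀ v ∈ Ico t T, (∀ i j, b (e i) ≤ v → b (f j) ≤ v →
          ε < dist (X v i).1 (W v (f j)).1) ∧ (∀ i j, b (e i) ≤ v → b (f j) ≤ v →
          ε < dist (W v (e i)).1 (Y v j).1) :=
        fun v hv => hu' ⟨hv.1, hv.2.trans_le (min_le_left _ _)⟩
      have k1 := BWorld.agree hΦ hε hX hW (μ := ι) (e := id) (f := e) Function.injective_id he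
        (S := univ) (A := ∅) (a := t) (T := T) ht.1 ht.1 (fun _ _ _ _ => Iff.rfl)
        (fun _ h => absurd h (notMem_empty _)) (fun m _ => (hX1 m).symm)
        (fun _ _ _ _ _ k _ h => absurd rfl (h k (Or.inl (mem_univ k))))
        (fun v hv m _ hm k hk hne => by
          rcases hcov k with ⟨m', rfl⟩ | ⟨j, rfl⟩
          · exact absurd rfl (hne m' (Or.inl (mem_univ m')))
          · exact ((hsub v hv).1 m j hm hk).le)
      have k2 := BWorld.agree hΦ hε hY hW (μ := κ) (e := id) (f := f) Function.injective_id hf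
        (S := univ) (A := ∅) (a := t) (T := T) ht.1 ht.1 (fun _ _ _ _ => Iff.rfl)
        (fun _ h => absurd h (notMem_empty _)) (fun m _ => (hY1 m).symm)
        (fun _ _ _ _ _ k _ h => absurd rfl (h k (Or.inl (mem_univ k))))
        (fun v hv m _ hm k hk hne => by
          rcases hcov k with ⟨i, rfl⟩ | ⟨m', rfl⟩
          · rw [dist_comm]
            exact ((hsub v hv).2 i m hk hm).le
          · exact absurd rfl (hne m' (Or.inl (mem_univ m'))))
      exact ⟨T, ⟨fun i => (k1 i (mem_univ i) T ⟨htT.le, le_rfl⟩).symm,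
        fun j => (k2 j (mem_univ j) T ⟨htT.le, le_rfl⟩).symm⟩, htT, min_le_right _ _⟩
  exact fun t ht => hmain ht

end

end Crest.Agent.R122.Ins45
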