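import Crest.Agent.R122.Third_741
import Crest.Agent.R122.OneCDefs_285
import Crest.Agent.R122.GIVChild_383
import Crest.Agent.R122.TreeLim_974
import Crest.Agent.R122.EBasic_602

/-!
# Structure integrals of bad encounters (row 122, GAP-E)

* `entT_lineAt`, `entB_lineAt` : contact data of `lineAt`.
* `OS_le` : a structure functional which depends on the line only through the contact time, the
  velocity and the impact parameter.
* `third_OS_le` : third particle near the encounter.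
-/

set_option autoImplicit false

open MeasureTheory Set Filter Topology
open scoped ENNReal
open Crest.AnalysisR.Kinetic
open Crest.Agent.R122.Kin796 Crest.Agent.R122.Kin796.CTree Crest.Agent.R122.Tree674
open Crest.Agent.R122.Disc416 Crest.Agent.R122.Flux663 Crest.Agent.R122.OC663 Crest.Agent.R122.EDefs602
open Crest.Agent.R122.GC311 Crest.Agent.R122.Flow671 Crest.Agent.R122.Loc45 Crest.Agent.R122.Mom974
open Crest.Agent.R122.OneC423 Crest.Agent.R122.TreeDom974 Crest.Agent.R122.OneC285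

noncomputable section

namespace Crest.Agent.R122.Third741

variable {Φ : Space3 → ℝ} {f₀ : PhasePoint → ℝ} {ε : ℝ}

/-! ### Contact data -/

theorem rel_lineAt (s : ℝ) (ℓ : PhasePoint) (τ : ℝ) (v b : Space3) (n : ℕ) :
    relL ℓ (lineAt ε s ℓ τ v b n).1 =
      (ε • entrancePoint b (v - ℓ.2) - s • (v - ℓ.2), v - ℓ.2) := by
  unfold relL lineAt back
  refine Prod.ext ?_ rfl
  simp only [sub_smul, smul_sub]
  abel

theorem tline_ent {g b : Space3} (hg : g ≠ 0) (hb : inner ℝ b g = 0) (s : ℝ) :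
    tline (ε • entrancePoint b g - s • g, g) = -(ε * (Real.sqrt (1 - ‖b‖ ^ 2) / ‖g‖) + s) := by
  have h0 : ‖g‖ ^ 2 ≠ 0 := by positivity
  unfold tline entrancePoint
  simp only [inner_sub_left, inner_smul_left, hb, real_inner_self_eq_norm_sq, conj_trivial]
  field_simp
  ring

theorem bline_ent {g b : Space3} (hg : g ≠ 0) (hb : inner ℝ b g = 0) (s : ℝ) :
    bline (ε • entrancePoint b g - s • g, g) = ε • b := by
  unfold bline
  rw [tline_ent hg hb]
  unfold entrancePoint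
  simp only [neg_smul, sub_neg_eq_add, add_smul, smul_sub, smul_smul]
  abel

theorem entT_ent (hε : 0 < ε) {g b : Space3} (hg : g ≠ 0) (hb : b ∈ impactDisc g) (s : ℝ) :
    entT ε (ε • entrancePoint b g - s • g, g) = s := by
  unfold entT
  rw [tline_ent hg hb.1, bline_ent hg hb.1]
  simp only
  have h1 : ε ^ 2 - ‖ε • b‖ ^ 2 = ε ^ 2 * (1 - ‖b‖ ^ 2) := by
    rw [norm_smul, Real.norm_eq_abs, abs_of_pos hε]
    ring
  rw [h1, Real.sqrt_mul (by positivity), Real.sqrt_sq hε.le]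
  ring

theorem entB_ent (hε : 0 < ε) {g b : Space3} (hg : g ≠ 0) (hb : b ∈ impactDisc g) (s : ℝ) :
    entB ε (ε • entrancePoint b g - s • g, g) = b := by
  unfold entB
  rw [bline_ent hg hb.1, smul_smul, inv_mul_cancel₀ hε.ne', one_smul]

theorem cT_lineAt (hε : 0 < ε) {P : CTree} {z : PhasePoint × Par P} {v b : Space3}
    (hg : v - z.1.2 ≠ 0) (hb : b ∈ impactDisc (v - z.1.2)) (s τ : ℝ) (n : ℕ) :
    cT ε z (lineAt ε s z.1 τ v b n) = s := by
  unfold cT
  rw [rel_lineAt]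
  exact entT_ent hε hg hb s

theorem cB_lineAt (hε : 0 < ε) {P : CTree} {z : PhasePoint × Par P} {v b : Space3}
    (hg : v - z.1.2 ≠ 0) (hb : b ∈ impactDisc (v - z.1.2)) (s τ : ℝ) (n : ℕ) :
    cB ε z (lineAt ε s z.1 τ v b n) = b := by
  unfold cB
  rw [rel_lineAt]
  exact entB_ent hε hg hb s

theorem markW_ne_top {ρ : ℝ≥0∞} (hρ : ρ ≠ ∞) (K n : ℕ) : markW ρ K n ≠ ∞ := by
  unfold markW
  split_ifs
  · exact ENNReal.pow_ne_top hρ
  · exact ENNReal.zero_ne_top

/-- The contact kernel of a functional of the contact time, velocity and impact parameter. -/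
theorem ctInt_data (hε : 0 < ε) {P : CTree} (z : PhasePoint × Par P) (s τ : ℝ) (γ : ℝ → ℝ)
    {ρ : ℝ≥0∞} (hρ : ρ ≠ ∞) (K : ℕ) (g : ℝ → Space3 → Space3 → ℝ≥0∞) :
    ctInt ε s z.1 τ (fun l => lineD γ ρ K l * g (cT ε z l) l.1.2.2 (cB ε z l)) =
      (∑' n : ℕ, markW ρ K n) * ∫⁻ v : Space3, ENNReal.ofReal ‖v - z.1.2‖ *
        (wG (γ τ) v * ∫⁻ b in impactDisc (v - z.1.2), g s v b ∂μHE[2]) := by
  unfold ctInt
  rw [← ENNReal.tsum_mul_right]
  refine tsum_congr fun n => ?_
  have hmt : markW ρ K n ≠ ∞ := markW_ne_top hρ K n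
  have hwt : ∀ v : Space3, wG (γ τ) v ≠ ∞ := fun v => ENNReal.ofReal_ne_top
  have h1 : ∀ v : Space3, ENNReal.ofReal ‖v - z.1.2‖ * ∫⁻ b in impactDisc (v - z.1.2),
      lineD γ ρ K (lineAt ε s z.1 τ v b n) * g (cT ε z (lineAt ε s z.1 τ v b n))
        (lineAt ε s z.1 τ v b n).1.2.2 (cB ε z (lineAt ε s z.1 τ v b n)) ∂μHE[2] =
      markW ρ K n * (ENNReal.ofReal ‖v - z.1.2‖ *
        (wG (γ τ) v * ∫⁻ b in impactDisc (v - z.1.2), g s v b ∂μHE[2])) := by
    intro v
    by_cases hg : v - z.1.2 = 0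
    · simp [hg]
    · have h2 : ∫⁻ b in impactDisc (v - z.1.2),
          lineD γ ρ K (lineAt ε s z.1 τ v b n) * g (cT ε z (lineAt ε s z.1 τ v b n))
          (lineAt ε s z.1 τ v b n).1.2.2 (cB ε z (lineAt ε s z.1 τ v b n)) ∂μHE[2] =
          ∫⁻ b in impactDisc (v - z.1.2), (wG (γ τ) v * markW ρ K n) * g s v b ∂μHE[2] := by
        refine setLIntegral_congr_fun (measurableSet_impactDisc _) fun b hb => ?_
        rw [cT_lineAt hε hg hb, cB_lineAt hε hg hb]
        rfl
      rw [h2, lintegral_const_mul' _ _ (ENNReal.mul_ne_top (hwt v) hmt)]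
      ring
  simp only [h1]
  rw [lintegral_const_mul' _ _ hmt]

/-! ### Majorants of the tree integrand -/

theorem exists_majorant {γ : ℝ} (hb : HasSummableGaussianBound γ (fun x v => f₀ (x, v))) :
    ∃ (A : Space3 → ℝ≥0∞) (C : ℝ), 0 ≤ C ∧ Measurable A ∧ ∫⁻ x, A x ≠ ∞ ∧
      (∀ x, A x ≤ ENNReal.ofReal C) ∧ ∀ z : PhasePoint, ENNReal.ofReal (f₀ z) ≤
        A z.1 * ENNReal.ofReal (Real.exp (-γ * ‖z.2‖ ^ 2)) := by
  obtain ⟨M, hM, hb⟩ := hb
  have hnn : ∀ k, 0 ≤ M k := by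
    intro k
    refine le_trans ?_ (hb k (latticePoint k) 0 (by simp))
    positivity
  have hmk : ∀ k : Fin 3 → ℤ, Measurable ((Metric.closedBall (latticePoint k) 1).indicator
      fun _ => ENNReal.ofReal (M k)) := fun k =>
    measurable_const.indicator Metric.isClosed_closedBall.measurableSet
  have hfin : ∑' k, ENNReal.ofReal (M k) ≠ ∞ := by
    rw [← ENNReal.ofReal_tsum_of_nonneg hnn hM]
    exact ENNReal.ofReal_ne_top
  refine ⟨fun x => ∑' k : Fin 3 → ℤ, (Metric.closedBall (latticePoint k) 1).indicator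
    (fun _ => ENNReal.ofReal (M k)) x, ∑' k, M k, tsum_nonneg hnn, Measurable.tsum hmk, ?_,
    fun x => ?_, fun z => ?_⟩
  · rw [lintegral_tsum fun k => (hmk k).aemeasurable]
    have hv : ∀ k : Fin 3 → ℤ, volume (Metric.closedBall (latticePoint k) 1) = Sweep815.c3 := by
      intro k
      rw [Sweep815.vol_closedBall]
      simp
    simp_rw [lintegral_indicator Metric.isClosed_closedBall.measurableSet, lintegral_const,
      Measure.restrict_apply_univ, hv]
    rw [ENNReal.tsum_mul_right]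
    exact ENNReal.mul_ne_top hfin ENNReal.ofReal_ne_top
  · rw [ENNReal.ofReal_tsum_of_nonneg hnn hM]
    exact ENNReal.tsum_le_tsum fun k => indicator_le_self' (fun _ _ => zero_le) x
  · obtain ⟨k, hk⟩ := exists_lattice_near z.1
    have hmem : z.1 ∈ Metric.closedBall (latticePoint k) 1 := Metric.mem_closedBall.2 hk
    refine le_trans ?_ (mul_le_mul' (ENNReal.le_tsum k) le_rfl)
    rw [indicator_of_mem hmem, ← ENNReal.ofReal_mul (hnn k)]
    refine ENNReal.ofReal_le_ofReal ?_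
    have h1 := hb k z.1 z.2 hk
    have h2 : Real.exp (-γ * ‖z.2‖ ^ 2) = (Real.exp (γ * ‖z.2‖ ^ 2))⁻¹ := by
      rw [← Real.exp_neg]; congr 1; ring
    rw [h2, ← div_eq_mul_inv, le_div_iff₀ (Real.exp_pos _), mul_comm]
    exact (mul_le_mul_of_nonneg_left (le_abs_self _) (Real.exp_pos _).le).trans h1

/-- Majorant of a position and a velocity. -/
structure MajF (f₀ : PhasePoint → ℝ) (A : Space3 → ℝ≥0∞) (C b : ℝ) : Prop where
  C_nonneg : 0 ≤ C
  meas : Measurable A
  fin : ∫⁻ x, A x ≠ ∞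
  le_C : ∀ x, A x ≤ ENNReal.ofReal C
  le : ∀ z : PhasePoint, ENNReal.ofReal (f₀ z) ≤
    A z.1 * ENNReal.ofReal (Real.exp (-b * ‖z.2‖ ^ 2))

theorem wt_pf_le (hΦ : AdmissiblePotential Φ) {A : Space3 → ℝ≥0∞} {C b b' : ℝ}
    (h : MajF f₀ A C b) (hbb : b' < b) (P : CTree) :
    ∃ C' : ℝ, 0 ≤ C' ∧ ∀ (ε T T' : ℝ) (z : PhasePoint × Par P), 0 ≤ ε → T' ≤ T →
      Valid Φ ε P T' z.1.2 z.2 →
      wt Φ P z.1.2 z.2 * ToTree335.pf Φ f₀ ε P z ≤ domG C' b' T P z.1.2 z.2 ∧
      wt Φ P z.1.2 z.2 * ToTree335.pf Φ f₀ ε P z ≤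
        A (lines Φ ε P z.1 z.2 (root P)).1 * domG C' b' T P z.1.2 z.2 := by
  classical
  set k : PhasePoint → ℝ≥0∞ := fun z => ENNReal.ofReal ((C + 1) * Real.exp (-b * ‖z.2‖ ^ 2))
    with hk
  have hC := h.C_nonneg
  have hek : ∀ z : PhasePoint, ENNReal.ofReal (Real.exp (-b * ‖z.2‖ ^ 2)) ≤ k z := by
    intro z
    refine ENNReal.ofReal_le_ofReal ?_
    nlinarith [Real.exp_pos (-b * ‖z.2‖ ^ 2)]
  have hfk : ∀ z : PhasePoint, ENNReal.ofReal (f₀ z) ≤ k z := by
    intro z
    refine (h.le z).trans ((mul_le_mul' (h.le_C _) le_rfl).trans ?_)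
    rw [← ENNReal.ofReal_mul hC]
    refine ENNReal.ofReal_le_ofReal ?_
    nlinarith [Real.exp_pos (-b * ‖z.2‖ ^ 2)]
  obtain ⟨C', hC', hle⟩ := le_domG hΦ (C := C + 1) (b := b) (b' := b') (by linarith) hbb (k := k)
    (fun z => le_rfl) P
  refine ⟨C', hC', fun ε T T' z hε hT hV => ?_⟩
  have h1 := hle ε T T' z.1 z.2 hε hT hV
  have hpf : ToTree335.pf Φ f₀ ε P z ≤ ∏ i, k (lines Φ ε P z.1 z.2 i) :=
    Finset.prod_le_prod' fun i _ => hfk _
  refine ⟨(mul_le_mul' le_rfl hpf).trans h1, ?_⟩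
  have hpf' : ToTree335.pf Φ f₀ ε P z ≤
      A (lines Φ ε P z.1 z.2 (root P)).1 * ∏ i, k (lines Φ ε P z.1 z.2 i) := by
    unfold ToTree335.pf
    rw [← Finset.mul_prod_erase Finset.univ _ (Finset.mem_univ (root P)),
      ← Finset.mul_prod_erase Finset.univ (fun i => k (lines Φ ε P z.1 z.2 i))
        (Finset.mem_univ (root P)), ← mul_assoc]
    refine mul_le_mul' ((h.le _).trans (mul_le_mul' le_rfl (hek _))) ?_
    exact Finset.prod_le_prod' fun i _ => hfk _
  calc wt Φ P z.1.2 z.2 * ToTree335.pf Φ f₀ ε P z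
      ≤ wt Φ P z.1.2 z.2 * (A (lines Φ ε P z.1 z.2 (root P)).1 *
          ∏ i, k (lines Φ ε P z.1 z.2 i)) := mul_le_mul' le_rfl hpf'
    _ = A (lines Φ ε P z.1 z.2 (root P)).1 * (wt Φ P z.1.2 z.2 *
          ∏ i, k (lines Φ ε P z.1 z.2 i)) := by ring
    _ ≤ _ := mul_le_mul' le_rfl h1

/-- Constants of the tree majorant. -/
structure MajT (Φ : Space3 → ℝ) (f₀ : PhasePoint → ℝ) (A : Space3 → ℝ≥0∞) (C' b' : ℝ)
    (P : CTree) : Prop where
  C_nonneg : 0 ≤ C'
  b_pos : 0 < b'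
  meas : Measurable A
  fin : ∫⁻ x, A x ≠ ∞
  le_dom : ∀ (ε T T' : ℝ) (z : PhasePoint × Par P), 0 ≤ ε → T' ≤ T →
    Valid Φ ε P T' z.1.2 z.2 →
    wt Φ P z.1.2 z.2 * ToTree335.pf Φ f₀ ε P z ≤ domG C' b' T P z.1.2 z.2
  le_A : ∀ (ε T T' : ℝ) (z : PhasePoint × Par P), 0 ≤ ε → T' ≤ T →
    Valid Φ ε P T' z.1.2 z.2 →
    wt Φ P z.1.2 z.2 * ToTree335.pf Φ f₀ ε P z ≤
      A (lines Φ ε P z.1 z.2 (root P)).1 * domG C' b' T P z.1.2 z.2

theorem MajF.tree (hΦ : AdmissiblePotential Φ) {A : Space3 → ℝ≥0∞} {C b b' : ℝ}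
    (h : MajF f₀ A C b) (hb' : 0 < b') (hbb : b' < b) (P : CTree) :
    ∃ C' : ℝ, MajT Φ f₀ A C' b' P := by
  obtain ⟨C', hC', hle⟩ := wt_pf_le hΦ h hbb P
  exact ⟨C', hC', hb', h.meas, h.fin, fun ε T T' z hε hT hV => (hle ε T T' z hε hT hV).1,
    fun ε T T' z hε hT hV => (hle ε T T' z hε hT hV).2⟩

variable {A : Space3 → ℝ≥0∞} {C' b' : ℝ} {P : CTree}

/-- Tree integral, position of the root inside. -/
theorem MajT.lintegral_x (h : MajT Φ f₀ A C' b' P) (hε : 0 ≤ ε) (T' : ℝ)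
    {F : PhasePoint × Par P → ℝ≥0∞} (hF : Measurable F) :
    ∫⁻ z : PhasePoint × Par P, {z : PhasePoint × Par P | Valid Φ ε P T' z.1.2 z.2}.indicator
      (fun z => wt Φ P z.1.2 z.2 * (ToTree335.pf Φ f₀ ε P z * F z)) z ≤
      ∫⁻ q : Space3 × Par P, domG C' b' T' P q.1 q.2 * ∫⁻ x : Space3, F ((x, q.1), q.2) := by
  have hd : Measurable fun z : PhasePoint × Par P => domG C' b' T' P z.1.2 z.2 :=
    (measurable_domG h.C_nonneg b' T' P).comp (measurable_fst.snd.prodMk measurable_snd)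
  calc ∫⁻ z : PhasePoint × Par P, {z : PhasePoint × Par P | Valid Φ ε P T' z.1.2 z.2}.indicator
        (fun z => wt Φ P z.1.2 z.2 * (ToTree335.pf Φ f₀ ε P z * F z)) z
      ≤ ∫⁻ z : PhasePoint × Par P, domG C' b' T' P z.1.2 z.2 * F z := by
        refine lintegral_mono fun z => ?_
        by_cases hz : z ∈ {z : PhasePoint × Par P | Valid Φ ε P T' z.1.2 z.2}
        · rw [indicator_of_mem hz, ← mul_assoc]
          exact mul_le_mul' (h.le_dom ε T' T' z hε le_rfl hz) le_rfl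
        · rw [indicator_of_notMem hz]
          exact zero_le
    _ = _ := by
        rw [TreeLim974.lintegral_split P (G := fun z => domG C' b' T' P z.1.2 z.2 * F z)
          (hd.mul hF)]
        refine lintegral_congr fun q => ?_
        have hFq : Measurable fun x : Space3 => F ((x, q.1), q.2) :=
          hF.comp (f := fun x : Space3 => (((x, q.1), q.2) : PhasePoint × Par P)) (by fun_prop)
        simp only
        rw [lintegral_const_mul _ hFq]

/-- Tree integral of a functional which does not depend on the position of the root. -/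
theorem MajT.lintegral_u (hΦ : AdmissiblePotential Φ) (h : MajT Φ f₀ A C' b' P) (hε : 0 ≤ ε)
    (T' : ℝ) {F : Space3 × Par P → ℝ≥0∞} (hF : Measurable F) :
    ∫⁻ z : PhasePoint × Par P, {z : PhasePoint × Par P | Valid Φ ε P T' z.1.2 z.2}.indicator
      (fun z => wt Φ P z.1.2 z.2 * (ToTree335.pf Φ f₀ ε P z * F (z.1.2, z.2))) z ≤
      (∫⁻ x, A x) * ∫⁻ q : Space3 × Par P, domG C' b' T' P q.1 q.2 * F q := by
  have hVm : MeasurableSet {z : PhasePoint × Par P | Valid Φ ε P T' z.1.2 z.2} :=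
    measurableSet_valid hΦ ε P T'
  have hd : Measurable fun z : PhasePoint × Par P => domG C' b' T' P z.1.2 z.2 :=
    (measurable_domG h.C_nonneg b' T' P).comp (measurable_fst.snd.prodMk measurable_snd)
  have hFz : Measurable fun z : PhasePoint × Par P => F (z.1.2, z.2) :=
    hF.comp (measurable_fst.snd.prodMk measurable_snd)
  have hAm : Measurable fun z : PhasePoint × Par P => A (linesM Φ ε P z.1 z.2 (root P)).1 :=
    h.meas.comp (measurable_fst.comp ((measurable_pi_apply (root P)).comp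
      (measurable_linesM hΦ ε P)))
  set G : PhasePoint × Par P → ℝ≥0∞ :=
    {z : PhasePoint × Par P | Valid Φ ε P T' z.1.2 z.2}.indicator
      (fun z => A (linesM Φ ε P z.1 z.2 (root P)).1 * (domG C' b' T' P z.1.2 z.2 *
        F (z.1.2, z.2))) with hG
  have hGm : Measurable G := (hAm.mul (hd.mul hFz)).indicator hVm
  calc ∫⁻ z : PhasePoint × Par P, {z : PhasePoint × Par P | Valid Φ ε P T' z.1.2 z.2}.indicator
        (fun z => wt Φ P z.1.2 z.2 * (ToTree335.pf Φ f₀ ε P z * F (z.1.2, z.2))) z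
      ≤ ∫⁻ z : PhasePoint × Par P, G z := by
        refine lintegral_mono fun z => ?_
        by_cases hz : z ∈ {z : PhasePoint × Par P | Valid Φ ε P T' z.1.2 z.2}
        · rw [hG, indicator_of_mem hz, indicator_of_mem hz, ← mul_assoc, ← mul_assoc,
            linesM_of_adm ε hz.1]
          exact mul_le_mul' (h.le_A ε T' T' z hε le_rfl hz) le_rfl
        · rw [indicator_of_notMem hz]
          exact zero_le
    _ = ∫⁻ q : Space3 × Par P, ∫⁻ x : Space3, G ((x, q.1), q.2) :=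
        TreeLim974.lintegral_split P hGm
    _ ≤ ∫⁻ q : Space3 × Par P, (∫⁻ x, A x) * (domG C' b' T' P q.1 q.2 * F q) := by
        refine lintegral_mono fun q => ?_
        by_cases hq : Valid Φ ε P T' q.1 q.2
        · have e1 : ∀ x : Space3, G ((x, q.1), q.2) =
              A (x + (lines Φ ε P (0, q.1) q.2 (root P)).1) *
                (domG C' b' T' P q.1 q.2 * F q) := by
            intro x
            rw [hG, indicator_of_mem (show (((x, q.1), q.2) : PhasePoint × Par P) ∈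
              {z : PhasePoint × Par P | Valid Φ ε P T' z.1.2 z.2} from hq),
              linesM_of_adm ε hq.1, Hid424.lines_shift, add_comm x]
          have hAc : Measurable fun x : Space3 =>
              A (x + (lines Φ ε P (0, q.1) q.2 (root P)).1) :=
            h.meas.comp (measurable_id.add_const _)
          simp only [e1]
          rw [lintegral_mul_const _ hAc,
            lintegral_add_right_eq_self (μ := (volume : Measure Space3)) A]
        · have e1 : ∀ x : Space3, G ((x, q.1), q.2) = 0 := by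
            intro x
            rw [hG, indicator_of_notMem (show (((x, q.1), q.2) : PhasePoint × Par P) ∉
              {z : PhasePoint × Par P | Valid Φ ε P T' z.1.2 z.2} from hq)]
          simp only [e1, lintegral_zero]
          exact zero_le
    _ = _ := by
        have hdF : Measurable fun q : Space3 × Par P => domG C' b' T' P q.1 q.2 * F q :=
          (measurable_domG h.C_nonneg b' T' P).mul hF
        rw [lintegral_const_mul _ hdF]

/-! ### Structure integrals in entrance coordinates -/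

theorem tsum_markW_ne_top {ρ : ℝ≥0∞} (hρ : ρ ≠ ∞) (K : ℕ) : ∑' n : ℕ, markW ρ K n ≠ ∞ := by
  rw [tsum_eq_sum (s := Finset.range (K + 1)) (fun n hn => by
    unfold markW
    rw [if_neg]
    intro h
    exact hn (Finset.mem_range.2 (by omega)))]
  exact ENNReal.sum_ne_top.2 fun n _ => markW_ne_top hρ K n

/-- Functionals of the tree, the gas, the contact time, the velocity and the impact parameter. -/
abbrev CF : Type := (P : CTree) → PhasePoint × Par P → (m : ℕ) → Config m → ℝ → Space3 → Space3 →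
  ℝ≥0∞

/-- Joint measurability. -/
def MeasCF (g : CF) : Prop := ∀ (P : CTree) (m : ℕ), Measurable
  fun q : ((PhasePoint × Par P) × Config m) × (ℝ × (Space3 × Space3)) =>
    g P q.1.1 m q.1.2 q.2.1 q.2.2.1 q.2.2.2

/-- The structure functional of `g`, small trees. -/
def sfOf (ε : ℝ) (K : ℕ) (g : CF) : SF := fun P z m w l =>
  if P.leaves ≤ K then g P z m w (cT ε z l) l.1.2.2 (cB ε z l) else 0

theorem measurable_cT (ε : ℝ) (P : CTree) :
    Measurable fun q : (PhasePoint × Par P) × ML => cT ε q.1 q.2 := by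
  unfold cT
  exact (measurable_entT ε).comp (measurable_relL.comp
    (f := fun q : (PhasePoint × Par P) × ML => (q.1.1, q.2.1)) (by fun_prop))

theorem measurable_cB (ε : ℝ) (P : CTree) :
    Measurable fun q : (PhasePoint × Par P) × ML => cB ε q.1 q.2 := by
  unfold cB
  exact (measurable_entB ε).comp (measurable_relL.comp
    (f := fun q : (PhasePoint × Par P) × ML => (q.1.1, q.2.1)) (by fun_prop))

theorem measSF_sfOf (ε : ℝ) (K : ℕ) {g : CF} (hg : MeasCF g) : MeasSF (sfOf ε K g) := by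
  intro P m
  unfold sfOf
  by_cases hP : P.leaves ≤ K
  · simp only [if_pos hP]
    have h1 : Measurable fun q : (PhasePoint × Par P) × (Config m × ML) => cT ε q.1 q.2.2 :=
      (measurable_cT ε P).comp (f := fun q : (PhasePoint × Par P) × (Config m × ML) =>
        (q.1, q.2.2)) (measurable_fst.prodMk (measurable_snd.comp measurable_snd))
    have h2 : Measurable fun q : (PhasePoint × Par P) × (Config m × ML) => cB ε q.1 q.2.2 :=
      (measurable_cB ε P).comp (f := fun q : (PhasePoint × Par P) × (Config m × ML) =>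
        (q.1, q.2.2)) (measurable_fst.prodMk (measurable_snd.comp measurable_snd))
    have h3 : Measurable fun q : (PhasePoint × Par P) × (Config m × ML) => (q.1, q.2.1) :=
      measurable_fst.prodMk (measurable_fst.comp measurable_snd)
    have h4 : Measurable fun q : (PhasePoint × Par P) × (Config m × ML) => q.2.2.1.2.2 :=
      measurable_snd.comp (measurable_snd.comp (measurable_fst.comp
        (measurable_snd.comp measurable_snd)))
    exact (hg P m).comp (f := fun q : (PhasePoint × Par P) × (Config m × ML) =>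
      ((q.1, q.2.1), (cT ε q.1 q.2.2, (q.2.2.1.2.2, cB ε q.1 q.2.2))))
      (h3.prodMk (h1.prodMk (h4.prodMk h2)))
  · simp only [if_neg hP]
    exact measurable_const

/-- The flux integrand. -/
def fluxG (te g0 : ℝ) (g : CF) (P : CTree) (z : PhasePoint × Par P) (m : ℕ) (w : Config m) :
    ℝ≥0∞ :=
  ∫⁻ s in Ioc 0 te, ∫⁻ v : Space3, ENNReal.ofReal ‖v - z.1.2‖ *
    (wG g0 v * ∫⁻ b in impactDisc (v - z.1.2), g P z m w s v b ∂μHE[2])

theorem OS_le (hΦ : AdmissiblePotential Φ) (hε : 0 < ε) {K : ℕ} {Q : EPar} {T' g0 : ℝ}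
    (hρ : Q.ρ ≠ ∞) (hγm : Measurable Q.γ) (hγ : ∀ τ ∈ Ioc 0 Q.te, g0 ≤ Q.γ τ)
    {κ : Measure ℝ} [IsFiniteMeasure κ] (hκ : ∀ᵐ τ ∂κ, τ ∈ Ioc 0 Q.te)
    {g : CF} (hg : MeasCF g) {H : SF} (hH : ∀ P z m w l, H P z m w l ≤ sfOf ε K g P z m w l) :
    OS Φ f₀ ε K Q T' κ H ≤ κ univ * (∑' n : ℕ, markW Q.ρ K n) *
      ∑ P ∈ GIVStep383.trees K, ∫⁻ z : PhasePoint × Par P,
        {z : PhasePoint × Par P | Valid Φ ε P T' z.1.2 z.2}.indicator
          (fun z => wt Φ P z.1.2 z.2 * (ToTree335.pf Φ f₀ ε P z *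
            gcE f₀ ε (fun m w => fluxG Q.te g0 g P z m w))) z := by
  set S : ℝ≥0∞ := ∑' n : ℕ, markW Q.ρ K n with hS
  have hSt : S ≠ ∞ := tsum_markW_ne_top hρ K
  set c : ℝ≥0∞ := ENNReal.ofReal (ε ^ 2) * (κ univ * S) with hc
  have hct : c ≠ ∞ := ENNReal.mul_ne_top ENNReal.ofReal_ne_top
    (ENNReal.mul_ne_top (measure_ne_top _ _) hSt)
  -- the inner integral
  have hin : ∀ (P : CTree) (z : PhasePoint × Par P) (m : ℕ) (w : Config m), P.leaves ≤ K →
      ∫⁻ l, {l : ML | (z, l.1) ∈ ctSet Φ ε Q.te P}.indicator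
        (fun l => lineD Q.γ Q.ρ K l * H P z m w l) l ∂(baseM κ) ≤
      c * fluxG Q.te g0 g P z m w := by
    intro P z m w hP
    have hgm : Measurable fun l : ML => g P z m w (cT ε z l) l.1.2.2 (cB ε z l) := by
      have h1 : Measurable fun l : ML => cT ε z l :=
        (measurable_cT ε P).comp (f := fun l : ML => (z, l))
          (measurable_const.prodMk measurable_id)
      have h2 : Measurable fun l : ML => cB ε z l :=
        (measurable_cB ε P).comp (f := fun l : ML => (z, l))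
          (measurable_const.prodMk measurable_id)
      have h3 : Measurable fun l : ML => l.1.2.2 :=
        measurable_snd.comp (measurable_snd.comp measurable_fst)
      have h4 : Measurable fun _ : ML => (z, w) := measurable_const
      exact (hg P m).comp (f := fun l : ML => ((z, w), (cT ε z l, (l.1.2.2, cB ε z l))))
        (h4.prodMk (h1.prodMk (h3.prodMk h2)))
    calc ∫⁻ l, {l : ML | (z, l.1) ∈ ctSet Φ ε Q.te P}.indicator
          (fun l => lineD Q.γ Q.ρ K l * H P z m w l) l ∂(baseM κ)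
        ≤ ∫⁻ l, {l : ML | (z, l.1) ∈ ctSet Φ ε Q.te P}.indicator
          (fun l => lineD Q.γ Q.ρ K l * g P z m w (cT ε z l) l.1.2.2 (cB ε z l)) l
            ∂(baseM κ) := by
          refine lintegral_mono fun l => indicator_le_indicator ?_
          refine mul_le_mul' le_rfl ((hH P z m w l).trans (le_of_eq ?_))
          unfold sfOf
          rw [if_pos hP]
      _ = ENNReal.ofReal (ε ^ 2) * ∫⁻ τ, (∫⁻ s in Ioc τ Q.te,
          {s | s ≤ Q.te ∧ Valid Φ ε P s z.1.2 z.2}.indicator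
            (fun s => ctInt ε s z.1 τ (fun l => lineD Q.γ Q.ρ K l *
              g P z m w (cT ε z l) l.1.2.2 (cB ε z l))) s) ∂κ :=
          lintegral_ct hΦ hε z κ ((EBasic602.measurable_lineD hγm).mul hgm)
      _ ≤ ENNReal.ofReal (ε ^ 2) * ∫⁻ _τ, S * fluxG Q.te g0 g P z m w ∂κ := by
          refine mul_le_mul' le_rfl (lintegral_mono_ae ?_)
          filter_upwards [hκ] with τ hτ
          calc ∫⁻ s in Ioc τ Q.te, {s | s ≤ Q.te ∧ Valid Φ ε P s z.1.2 z.2}.indicator
                (fun s => ctInt ε s z.1 τ (fun l => lineD Q.γ Q.ρ K l *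
                  g P z m w (cT ε z l) l.1.2.2 (cB ε z l))) s
              ≤ ∫⁻ s in Ioc τ Q.te, S * ∫⁻ v : Space3, ENNReal.ofReal ‖v - z.1.2‖ *
                (wG g0 v * ∫⁻ b in impactDisc (v - z.1.2), g P z m w s v b ∂μHE[2]) := by
                refine lintegral_mono fun s => ?_
                refine (indicator_le_self' (fun _ _ => zero_le) s).trans ?_
                simp only
                rw [ctInt_data hε z s τ Q.γ hρ K (fun s v b => g P z m w s v b)]
                refine mul_le_mul' le_rfl (lintegral_mono fun v => mul_le_mul' le_rfl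
                  (mul_le_mul' ?_ le_rfl))
                exact Kin796.wG_anti (hγ τ hτ) v
            _ ≤ ∫⁻ s in Ioc 0 Q.te, S * ∫⁻ v : Space3, ENNReal.ofReal ‖v - z.1.2‖ *
                (wG g0 v * ∫⁻ b in impactDisc (v - z.1.2), g P z m w s v b ∂μHE[2]) :=
                lintegral_mono_set (Ioc_subset_Ioc_left hτ.1.le)
            _ = S * fluxG Q.te g0 g P z m w := lintegral_const_mul' _ _ hSt
      _ = c * fluxG Q.te g0 g P z m w := by
          rw [lintegral_const, hc]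
          ring
  unfold OS
  -- sum over the trees
  have hP0 : ∀ P : CTree, P ∉ GIVStep383.trees K →
      ∫⁻ z : PhasePoint × Par P, {z : PhasePoint × Par P | Valid Φ ε P T' z.1.2 z.2}.indicator
      (fun z => wt Φ P z.1.2 z.2 * (ToTree335.pf Φ f₀ ε P z *
        gcE f₀ ε (fun m w => ∫⁻ l, {l : ML | (z, l.1) ∈ ctSet Φ ε Q.te P}.indicator
          (fun l => lineD Q.γ Q.ρ K l * H P z m w l) l ∂(baseM κ)))) z = 0 := by
    intro P hP
    have hP' : ¬ P.leaves ≤ K := fun h => hP (GIVStep383.mem_trees.2 h)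
    have h0 : ∀ (z : PhasePoint × Par P) (m : ℕ) (w : Config m) (l : ML), H P z m w l = 0 := by
      intro z m w l
      have h1 := hH P z m w l
      unfold sfOf at h1
      rw [if_neg hP'] at h1
      exact le_antisymm h1 zero_le
    simp only [h0, mul_zero, indicator_zero, lintegral_zero, gcE_zero]
  rw [tsum_eq_sum (s := GIVStep383.trees K) (fun P hP => hP0 P hP)]
  calc activity ε * ∑ P ∈ GIVStep383.trees K, ∫⁻ z : PhasePoint × Par P,
        {z : PhasePoint × Par P | Valid Φ ε P T' z.1.2 z.2}.indicator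
          (fun z => wt Φ P z.1.2 z.2 * (ToTree335.pf Φ f₀ ε P z *
            gcE f₀ ε (fun m w => ∫⁻ l, {l : ML | (z, l.1) ∈ ctSet Φ ε Q.te P}.indicator
              (fun l => lineD Q.γ Q.ρ K l * H P z m w l) l ∂(baseM κ)))) z
      ≤ activity ε * ∑ P ∈ GIVStep383.trees K, c * ∫⁻ z : PhasePoint × Par P,
        {z : PhasePoint × Par P | Valid Φ ε P T' z.1.2 z.2}.indicator
          (fun z => wt Φ P z.1.2 z.2 * (ToTree335.pf Φ f₀ ε P z *
            gcE f₀ ε (fun m w => fluxG Q.te g0 g P z m w))) z := by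
        refine mul_le_mul' le_rfl (Finset.sum_le_sum fun P hP => ?_)
        rw [← lintegral_const_mul' _ _ hct]
        refine lintegral_mono fun z => ?_
        by_cases hz : z ∈ {z : PhasePoint × Par P | Valid Φ ε P T' z.1.2 z.2}
        · rw [indicator_of_mem hz, indicator_of_mem hz]
          have h2 : gcE f₀ ε (fun m w => ∫⁻ l, {l : ML | (z, l.1) ∈ ctSet Φ ε Q.te P}.indicator
              (fun l => lineD Q.γ Q.ρ K l * H P z m w l) l ∂(baseM κ)) ≤
              c * gcE f₀ ε (fun m w => fluxG Q.te g0 g P z m w) := by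
            rw [← gcE_const_mul f₀ ε hct]
            exact gcE_mono f₀ ε fun m w _ => hin P z m w (GIVStep383.mem_trees.1 hP)
          refine (mul_le_mul' le_rfl (mul_le_mul' le_rfl h2)).trans (le_of_eq ?_)
          ring
        · rw [indicator_of_notMem hz, indicator_of_notMem hz]
          exact zero_le
    _ = (activity ε * ENNReal.ofReal ε ^ 2) * (κ univ * S *
          ∑ P ∈ GIVStep383.trees K, ∫⁻ z : PhasePoint × Par P,
        {z : PhasePoint × Par P | Valid Φ ε P T' z.1.2 z.2}.indicator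
          (fun z => wt Φ P z.1.2 z.2 * (ToTree335.pf Φ f₀ ε P z *
            gcE f₀ ε (fun m w => fluxG Q.te g0 g P z m w))) z) := by
        rw [← Finset.mul_sum, hc, ENNReal.ofReal_pow hε.le]
        ring
    _ = _ := by rw [activity_mul_sq hε, one_mul]

/-! ### Third particle near the encounter -/

/-- Third particle: some particle of `w` is `a (1 + |v| + |u|)`-close to the root at some time of
`[s - a, s + a]`. -/
def thirdG (Φ : Space3 → ℝ) (ε a : ℝ) : CF := fun _P z _m w s v _b =>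
  nearI Φ ε w s a (a * (1 + ‖v‖ + ‖z.1.2‖)) (z.1.1 + s • z.1.2)

theorem measCF_thirdG (hΦ : AdmissiblePotential Φ) (hε : 0 < ε) (a : ℝ) :
    MeasCF (thirdG Φ ε a) := by
  intro P m
  unfold thirdG
  have hu : Measurable fun q : ((PhasePoint × Par P) × Config m) × (ℝ × (Space3 × Space3)) =>
      q.1.1.1.2 := measurable_snd.comp (measurable_fst.comp (measurable_fst.comp measurable_fst))
  have hx : Measurable fun q : ((PhasePoint × Par P) × Config m) × (ℝ × (Space3 × Space3)) =>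
      q.1.1.1.1 := measurable_fst.comp (measurable_fst.comp (measurable_fst.comp measurable_fst))
  have hs : Measurable fun q : ((PhasePoint × Par P) × Config m) × (ℝ × (Space3 × Space3)) =>
      q.2.1 := measurable_fst.comp measurable_snd
  have hv : Measurable fun q : ((PhasePoint × Par P) × Config m) × (ℝ × (Space3 × Space3)) =>
      q.2.2.1 := measurable_fst.comp (measurable_snd.comp measurable_snd)
  have hw : Measurable fun q : ((PhasePoint × Par P) × Config m) × (ℝ × (Space3 × Space3)) =>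
      q.1.2 := measurable_snd.comp measurable_fst
  exact (measurable_nearI hΦ hε a m).comp (f := fun q : ((PhasePoint × Par P) × Config m) ×
    (ℝ × (Space3 × Space3)) => (q.1.2, (q.2.1, (a * (1 + ‖q.2.2.1‖ + ‖q.1.1.1.2‖),
      q.1.1.1.1 + q.2.1 • q.1.1.1.2))))
    (hw.prodMk (hs.prodMk ((((hv.norm.const_add 1).add hu.norm).const_mul a).prodMk
      (hx.add (hs.smul hu)))))

theorem norm_mul_disc_const (g : Space3) (c d : ℝ≥0∞) :
    ENNReal.ofReal ‖g‖ * (c * ∫⁻ _b in impactDisc g, d ∂μHE[2]) =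
      ENNReal.ofReal Real.pi * (ENNReal.ofReal ‖g‖ * (c * d)) := by
  by_cases hg : g = 0
  · simp [hg]
  · rw [setLIntegral_const, measure_impactDisc hg]
    ring

theorem fluxG_third (te g0 a : ℝ) (P : CTree) (z : PhasePoint × Par P) (m : ℕ)
    (w : Config m) :
    fluxG te g0 (thirdG Φ ε a) P z m w = ENNReal.ofReal Real.pi *
      ∫⁻ s in Ioc 0 te, ∫⁻ v : Space3, nfI Φ ε a z.1.2 (wG g0) w z.1.1 s v := by
  unfold fluxG thirdG nfI
  rw [← lintegral_const_mul' _ _ ENNReal.ofReal_ne_top]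
  refine lintegral_congr fun s => ?_
  rw [← lintegral_const_mul' _ _ ENNReal.ofReal_ne_top]
  refine lintegral_congr fun v => ?_
  exact norm_mul_disc_const _ _ _

theorem measurable_wG1 (g0 : ℝ) : Measurable fun v : Space3 => wG g0 v := by
  unfold wG
  fun_prop

theorem mom4_wG_ne_top {g0 : ℝ} (hg : 0 < g0) : mom4 (fun v => wG g0 v) ≠ ∞ := by
  have h1 := (Boltz814.integrable_one_add_pow_mul_gauss hg 4).lintegral_lt_top
  refine ne_of_lt (lt_of_eq_of_lt (lintegral_congr fun v => ?_) h1)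
  unfold wG
  rw [← ENNReal.ofReal_mul (Real.exp_pos _).le, mul_comm, neg_mul]

theorem lintegral_domG_pow_ne_top {C b : ℝ} (hC : 0 ≤ C) (hb : 0 < b) (T : ℝ) (P : CTree)
    (k : ℕ) :
    ∫⁻ z : Space3 × Par P, domG C b T P z.1 z.2 * ENNReal.ofReal ((1 + ‖z.1‖) ^ k) ≠ ∞ := by
  have hvol : (volume : Measure (Space3 × Par P)) =
      (volume : Measure Space3).prod (volume : Measure (Par P)) := rfl
  have hm : Measurable fun z : Space3 × Par P => domG C b T P z.1 z.2 *
      ENNReal.ofReal ((1 + ‖z.1‖) ^ k) := (measurable_domG hC b T P).mul (by fun_prop)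
  rw [hvol, lintegral_prod _ hm.aemeasurable]
  have h2 : ∀ v : Space3, ∫⁻ p : Par P, domG C b T P v p * ENNReal.ofReal ((1 + ‖v‖) ^ k) =
      ENNReal.ofReal (C * ((1 + ‖v‖) ^ k * Real.exp (-b * ‖v‖ ^ 2))) *
        ∫⁻ p : Par P, domP b T P p := by
    intro v
    rw [lintegral_mul_const' _ _ ENNReal.ofReal_ne_top, lintegral_domG hC]
    rw [show C * ((1 + ‖v‖) ^ k * Real.exp (-b * ‖v‖ ^ 2)) =
      (C * Real.exp (-b * ‖v‖ ^ 2)) * (1 + ‖v‖) ^ k by ring,
      ENNReal.ofReal_mul (by positivity : 0 ≤ C * Real.exp (-b * ‖v‖ ^ 2))]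
    ring
  simp only [h2]
  have h1 : Measurable fun v : Space3 =>
      ENNReal.ofReal (C * ((1 + ‖v‖) ^ k * Real.exp (-b * ‖v‖ ^ 2))) := by
    fun_prop
  rw [lintegral_mul_const _ h1]
  exact ENNReal.mul_ne_top
    ((Boltz814.integrable_one_add_pow_mul_gauss hb k).const_mul C).lintegral_lt_top.ne
    (lintegral_domP_ne_top hb T P)

/-- Standing hypotheses on the initial density. -/
structure FOk (f₀ : PhasePoint → ℝ) (A : Space3 → ℝ≥0∞) (C b : ℝ) : Prop where
  meas : Measurable f₀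
  mass : ∫⁻ z, ENNReal.ofReal (f₀ z) ≤ 1
  b_pos : 0 < b
  maj : MajF f₀ A C b
  mom : ∫⁻ z, ENNReal.ofReal (f₀ z) * ENNReal.ofReal (1 + ‖z.2‖ ^ 2) ≠ ∞

/-- Standing hypotheses on the parameters. -/
structure QOk (Q : EPar) (g0 : ℝ) : Prop where
  ρ_ne : Q.ρ ≠ ∞
  γ_meas : Measurable Q.γ
  g0_pos : 0 < g0
  γ_ge : ∀ τ ∈ Ioc 0 Q.te, g0 ≤ Q.γ τ

/-- Integral over the position of the root, third particle. -/
theorem lintegral_third_x (hΦ : AdmissiblePotential Φ) {A : Space3 → ℝ≥0∞} {C b g0 : ℝ}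
    (hF : FOk f₀ A C b) (hg0 : 0 < g0) (hε : 0 < ε) {a : ℝ} (ha : 0 < a) (te : ℝ) (P : CTree)
    (q : Space3 × Par P) :
    ∫⁻ x : Space3, gcE f₀ ε (fun m w => fluxG te g0 (thirdG Φ ε a) P ((x, q.1), q.2) m w) ≤
      ENNReal.ofReal Real.pi * (40 * Sweep815.c3 * ENNReal.ofReal te * ENNReal.ofReal a ^ 3 *
        ENNReal.ofReal ((1 + ‖q.1‖) ^ 4) * mom4 (fun v => wG g0 v) *
          (ENNReal.ofReal (1 + 2 * stabB Φ) * (activity ε *
            ∫⁻ z, ENNReal.ofReal (f₀ z) * ENNReal.ofReal (1 + ‖z.2‖ ^ 2)))) := by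
  have e1 : ∀ x : Space3,
      gcE f₀ ε (fun m w => fluxG te g0 (thirdG Φ ε a) P ((x, q.1), q.2) m w) =
      ENNReal.ofReal Real.pi * gcE f₀ ε (fun _ w => ∫⁻ s in Ioc 0 te, ∫⁻ v : Space3,
        nfI Φ ε a q.1 (wG g0) w x s v) := by
    intro x
    simp only [fluxG_third]
    exact gcE_const_mul f₀ ε ENNReal.ofReal_ne_top _
  simp only [e1]
  rw [lintegral_const_mul' _ _ ENNReal.ofReal_ne_top]
  exact mul_le_mul' le_rfl (near_flux_le hΦ hF.meas hF.mass hε ha q.1 (measurable_wG1 g0)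
    (mom4_wG_ne_top hg0))

theorem measurable_gcE_fluxG {g : CF} (hg : MeasCF g) (hf : Measurable f₀) (te g0 : ℝ)
    (P : CTree) :
    Measurable fun z : PhasePoint × Par P => gcE f₀ ε (fun m w => fluxG te g0 g P z m w) := by
  refine ToTree335.measurable_gcE_par hf fun m => ?_
  unfold fluxG
  refine Measurable.lintegral_prod_right' (f := fun q : ((PhasePoint × Par P) × Config m) × ℝ =>
    ∫⁻ v : Space3, ENNReal.ofReal ‖v - q.1.1.1.2‖ * (wG g0 v *
      ∫⁻ b in impactDisc (v - q.1.1.1.2), g P q.1.1 m q.1.2 q.2 v b ∂μHE[2])) ?_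
  refine Measurable.lintegral_prod_right' (f := fun q : (((PhasePoint × Par P) × Config m) × ℝ) ×
    Space3 => ENNReal.ofReal ‖q.2 - q.1.1.1.1.2‖ * (wG g0 q.2 *
      ∫⁻ b in impactDisc (q.2 - q.1.1.1.1.2), g P q.1.1.1 m q.1.1.2 q.1.2 q.2 b ∂μHE[2])) ?_
  have hu : Measurable fun q : (((PhasePoint × Par P) × Config m) × ℝ) × Space3 =>
      q.1.1.1.1.2 := measurable_snd.comp (measurable_fst.comp (measurable_fst.comp
        (measurable_fst.comp measurable_fst)))
  have h1 : Measurable fun q : (((PhasePoint × Par P) × Config m) × ℝ) × Space3 =>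
      ENNReal.ofReal ‖q.2 - q.1.1.1.1.2‖ * ∫⁻ b in impactDisc (q.2 - q.1.1.1.1.2),
        g P q.1.1.1 m q.1.1.2 q.1.2 q.2 b ∂μHE[2] := by
    refine measurable_flux_disc (α := (((PhasePoint × Par P) × Config m) × ℝ) × Space3)
      (γ := fun q => q.2 - q.1.1.1.1.2) (measurable_snd.sub hu)
      (f := fun q b => g P q.1.1.1 m q.1.1.2 q.1.2 q.2 b) ?_
    exact (hg P m).comp (f := fun q : ((((PhasePoint × Par P) × Config m) × ℝ) × Space3) ×
      Space3 => (q.1.1.1, (q.1.1.2, (q.1.2, q.2)))) (by fun_prop)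
  have h2 : (fun q : (((PhasePoint × Par P) × Config m) × ℝ) × Space3 =>
      ENNReal.ofReal ‖q.2 - q.1.1.1.1.2‖ * (wG g0 q.2 *
      ∫⁻ b in impactDisc (q.2 - q.1.1.1.1.2), g P q.1.1.1 m q.1.1.2 q.1.2 q.2 b ∂μHE[2])) =
      fun q => wG g0 q.2 * (ENNReal.ofReal ‖q.2 - q.1.1.1.1.2‖ *
        ∫⁻ b in impactDisc (q.2 - q.1.1.1.1.2), g P q.1.1.1 m q.1.1.2 q.1.2 q.2 b ∂μHE[2]) := by
    funext q
    ring
  rw [h2]
  exact ((measurable_wG1 g0).comp measurable_snd).mul h1

/-- **(3w)** Third particle near the encounter: `O(activity * a³)`. -/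
theorem third_OS_le (hΦ : AdmissiblePotential Φ) {A : Space3 → ℝ≥0∞} {C b g0 : ℝ}
    (hF : FOk f₀ A C b) {Q : EPar} (hQ : QOk Q g0) (K : ℕ) (T' : ℝ) :
    ∃ D : ℝ≥0∞, D ≠ ∞ ∧ ∀ (ε : ℝ), 0 < ε → ∀ (a : ℝ), 0 < a → ∀ (κ : Measure ℝ)
      [IsFiniteMeasure κ], (∀ᵐ τ ∂κ, τ ∈ Ioc 0 Q.te) → ∀ H : SF,
      (∀ P z m w l, H P z m w l ≤ sfOf ε K (thirdG Φ ε a) P z m w l) →
      OS Φ f₀ ε K Q T' κ H ≤ κ univ * D * (activity ε * ENNReal.ofReal a ^ 3) := by
  have hb2 := half_pos hF.b_pos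
  choose C' hC' using fun P : CTree => hF.maj.tree hΦ hb2 (half_lt_self hF.b_pos) P
  set m2 : ℝ≥0∞ := ∫⁻ z, ENNReal.ofReal (f₀ z) * ENNReal.ofReal (1 + ‖z.2‖ ^ 2) with hm2
  set S : ℝ≥0∞ := ∑' n : ℕ, markW Q.ρ K n with hS
  set c1 : ℝ≥0∞ := ENNReal.ofReal Real.pi * (40 * Sweep815.c3 * ENNReal.ofReal Q.te *
    mom4 (fun v => wG g0 v) * (ENNReal.ofReal (1 + 2 * stabB Φ) * m2)) with hc1
  have hSt : S ≠ ∞ := tsum_markW_ne_top hQ.ρ_ne K
  have hc3 : Sweep815.c3 ≠ ∞ := ENNReal.ofReal_ne_top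
  have hc1t : c1 ≠ ∞ := by
    rw [hc1]
    refine ENNReal.mul_ne_top ENNReal.ofReal_ne_top (ENNReal.mul_ne_top (ENNReal.mul_ne_top
      (ENNReal.mul_ne_top (ENNReal.mul_ne_top (by norm_num) hc3) ENNReal.ofReal_ne_top)
      (mom4_wG_ne_top hQ.g0_pos)) (ENNReal.mul_ne_top ENNReal.ofReal_ne_top hF.mom))
  refine ⟨S * ∑ P ∈ GIVStep383.trees K, c1 * ∫⁻ q : Space3 × Par P,
    domG (C' P) (b / 2) T' P q.1 q.2 * ENNReal.ofReal ((1 + ‖q.1‖) ^ 4), ?_, ?_⟩
  · refine ENNReal.mul_ne_top hSt (ENNReal.sum_ne_top.2 fun P _ => ENNReal.mul_ne_top hc1t ?_)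
    exact lintegral_domG_pow_ne_top (hC' P).C_nonneg hb2 T' P 4
  · intro ε hε a ha κ _ hκ H hH
    refine (OS_le hΦ hε hQ.ρ_ne hQ.γ_meas hQ.γ_ge hκ (measCF_thirdG hΦ hε a) hH).trans ?_
    rw [mul_assoc (κ univ), mul_assoc (κ univ), mul_assoc S, Finset.sum_mul]
    refine mul_le_mul' le_rfl (mul_le_mul' le_rfl (Finset.sum_le_sum fun P _ => ?_))
    refine ((hC' P).lintegral_x hε.le T'
      (F := fun z => gcE f₀ ε (fun m w => fluxG Q.te g0 (thirdG Φ ε a) P z m w))
      (measurable_gcE_fluxG (measCF_thirdG hΦ hε a) hF.meas Q.te g0 P)).trans ?_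
    calc ∫⁻ q : Space3 × Par P, domG (C' P) (b / 2) T' P q.1 q.2 * ∫⁻ x : Space3,
          gcE f₀ ε (fun m w => fluxG Q.te g0 (thirdG Φ ε a) P ((x, q.1), q.2) m w)
        ≤ ∫⁻ q : Space3 × Par P, (c1 * (activity ε * ENNReal.ofReal a ^ 3)) *
          (domG (C' P) (b / 2) T' P q.1 q.2 * ENNReal.ofReal ((1 + ‖q.1‖) ^ 4)) := by
          refine lintegral_mono fun q => ?_
          refine (mul_le_mul' le_rfl
            (lintegral_third_x hΦ hF hQ.g0_pos hε ha Q.te P q)).trans (le_of_eq ?_)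
          rw [hc1]
          ring
      _ = (c1 * (activity ε * ENNReal.ofReal a ^ 3)) * ∫⁻ q : Space3 × Par P,
          (domG (C' P) (b / 2) T' P q.1 q.2 * ENNReal.ofReal ((1 + ‖q.1‖) ^ 4)) :=
          lintegral_const_mul' _ _ (ENNReal.mul_ne_top hc1t (ENNReal.mul_ne_top
            (activity_ne_top ε) (ENNReal.pow_ne_top ENNReal.ofReal_ne_top)))
      _ = _ := by ring

end Crest.Agent.R122.Third741
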