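import Crest.Agent.R122.StmtEXW_837
import Crest.Agent.R122.ThirdOS_741
import Crest.Agent.R122.OSCalc_495

/-!
# Row 122 (helper837): exits of the structures whose contact occurs after `tw`

* `ct_flux_w_le` : flux of the test line, contact after `tw`.
* `exWF`, `StmtEXW` : the exits, with the factor `1[tw < cT]`, constant `C (te - tw)`.
* `stmtEXW`, `stmtEXW_win` : proof, constants uniform in windows and horizons.
-/

set_option autoImplicit false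

open MeasureTheory Set Filter Topology
open Crest.AnalysisR.Kinetic
open scoped ENNReal

noncomputable section

open scoped Classical

namespace Crest.Agent.R122.QExit837

open Kin796 Kin796.CTree Disc416 Scat818 Flow671 Flux663 Tree674 Mark307
open Crest.Agent.R122.GIV566 Crest.Agent.R122.TreeLines335 Crest.Agent.R122.QExit814
open Crest.Agent.R122.Hid424 Crest.Agent.R122.RtG302 Crest.Agent.R122.GC311
open Crest.Agent.R122.InEq2 Crest.Agent.R122.ToTree335 Crest.Agent.R122.Boltz814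
open Crest.Agent.R122.EDefs602 Crest.Agent.R122.Master566 Crest.Agent.R122.OneC285
open Crest.Agent.R122.OneC423 Crest.Agent.R122.XC815 Crest.Agent.R122.Top602

variable {Φ : Space3 → ℝ} {f₀ : PhasePoint → ℝ} {f : ℝ → PhasePoint → ℝ} {ε : ℝ}

/-! ### Flux of the test line, contact after `tw` -/

/-- weight of the marks, contact after `tw` -/
def HLW (ε tw : ℝ) (γ : ℝ → ℝ) (ρ : ℝ≥0∞) (K : ℕ) {P : CTree} (z : PhasePoint × Par P)
    (l : EDefs602.ML) : ℝ≥0∞ := lineD γ ρ K l * (if tw < cT ε z l then 1 else 0)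

theorem measurable_HLW (ε tw : ℝ) {γ : ℝ → ℝ} (hγ : Measurable γ) (ρ : ℝ≥0∞) (K : ℕ) {P : CTree}
    (z : PhasePoint × Par P) : Measurable (HLW ε tw γ ρ K z) := by
  unfold HLW
  refine (EBasic602.measurable_lineD hγ).mul ?_
  refine Measurable.ite ?_ measurable_const measurable_const
  have h1 : Measurable fun l : EDefs602.ML => cT ε z l :=
    (Third741.measurable_cT ε P).comp (f := fun l : EDefs602.ML => (z, l))
      (measurable_const.prodMk measurable_id)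
  exact measurableSet_lt measurable_const h1

/-- one velocity and one mark -/
theorem ct_y_w_le (hΦ : AdmissiblePotential Φ) (hε : 0 < ε) {P : CTree}
    (z : PhasePoint × Par P) {te tw τ : ℝ} {γ : ℝ → ℝ} (hγ : Measurable γ) {g0 : ℝ}
    (hg : g0 ≤ γ τ) (ρ : ℝ≥0∞) (K : ℕ) (v : Space3) (n : ℕ) :
    ∫⁻ y : Space3, {l : EDefs602.ML | (z, l.1) ∈ ctSet Φ ε te P}.indicator
      (HLW ε tw γ ρ K z) ((τ, (y, v)), n) ≤
      (ENNReal.ofReal (ε ^ 2) * (ENNReal.ofReal (te - tw) *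
        ENNReal.ofReal Real.pi * ENNReal.ofReal (1 + ‖z.1.2‖)) * markW ρ K n) *
          (wG g0 v * ENNReal.ofReal (1 + ‖v‖)) := by
  rw [lintegral_ct_y hΦ hε z τ v n (measurable_HLW ε tw hγ ρ K z)]
  by_cases hvu : v - z.1.2 = 0
  · rw [hvu, norm_zero, ENNReal.ofReal_zero, zero_mul, mul_zero]
    exact bot_le
  have hin : ∀ s : ℝ, ∫⁻ b in impactDisc (v - z.1.2), HLW ε tw γ ρ K z
      (lineAt ε s z.1 τ v b n) ∂μHE[2] =
      (Ioi tw).indicator (fun _ => wG (γ τ) v * markW ρ K n * ENNReal.ofReal Real.pi) s := by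
    intro s
    have h1 : ∫⁻ b in impactDisc (v - z.1.2), HLW ε tw γ ρ K z
        (lineAt ε s z.1 τ v b n) ∂μHE[2] =
        ∫⁻ _ in impactDisc (v - z.1.2), (wG (γ τ) v * markW ρ K n) *
          (if tw < s then (1 : ℝ≥0∞) else 0) ∂μHE[2] := by
      refine setLIntegral_congr_fun (Disc416.measurableSet_impactDisc _) fun b hb => ?_
      unfold HLW
      rw [Third741.cT_lineAt hε hvu hb]
      rfl
    rw [h1, lintegral_const, Measure.restrict_apply_univ, measure_impactDisc hvu]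
    by_cases hs : tw < s
    · rw [if_pos hs, indicator_of_mem (show s ∈ Ioi tw from hs), mul_one]
    · rw [if_neg hs, indicator_of_notMem (show s ∉ Ioi tw from hs), mul_zero, zero_mul]
  simp only [hin]
  have hvol : ∫⁻ s in {s | τ < s ∧ s ≤ te ∧ Valid Φ ε P s z.1.2 z.2},
      (Ioi tw).indicator (fun _ => wG (γ τ) v * markW ρ K n * ENNReal.ofReal Real.pi) s ≤
      wG (γ τ) v * markW ρ K n * ENNReal.ofReal Real.pi * ENNReal.ofReal (te - tw) := by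
    have h2 : ∫⁻ s in {s | τ < s ∧ s ≤ te ∧ Valid Φ ε P s z.1.2 z.2},
        (Ioi tw).indicator (fun _ => wG (γ τ) v * markW ρ K n * ENNReal.ofReal Real.pi) s ≤
        ∫⁻ s in Iic te,
          (Ioi tw).indicator (fun _ => wG (γ τ) v * markW ρ K n * ENNReal.ofReal Real.pi) s :=
      lintegral_mono_set fun s hs => hs.2.1
    refine h2.trans ?_
    rw [setLIntegral_indicator measurableSet_Ioi, setLIntegral_const,
      show Ioi tw ∩ Iic te = Ioc tw te from rfl, Real.volume_Ioc]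
  have h3 := XC815.norm_sub_le_mul v z.1.2
  have h4 := Kin796.wG_anti hg v
  calc ENNReal.ofReal (ε ^ 2) * (ENNReal.ofReal ‖v - z.1.2‖ *
        ∫⁻ s in {s | τ < s ∧ s ≤ te ∧ Valid Φ ε P s z.1.2 z.2},
          (Ioi tw).indicator (fun _ => wG (γ τ) v * markW ρ K n * ENNReal.ofReal Real.pi) s)
      ≤ ENNReal.ofReal (ε ^ 2) * ((ENNReal.ofReal (1 + ‖v‖) * ENNReal.ofReal (1 + ‖z.1.2‖)) *
        (wG g0 v * markW ρ K n * ENNReal.ofReal Real.pi * ENNReal.ofReal (te - tw))) := by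
        refine mul_le_mul' le_rfl (mul_le_mul' h3 (hvol.trans ?_))
        gcongr
    _ = _ := by ring

/-- **Flux of the test line born at time `τ`, contact after `tw`.** -/
theorem ct_flux_w_le (hΦ : AdmissiblePotential Φ) (hε : 0 < ε) {P : CTree}
    (z : PhasePoint × Par P) {te tw τ : ℝ} {γ : ℝ → ℝ} (hγ : Measurable γ) {g0 : ℝ}
    (hg : g0 ≤ γ τ) (ρ : ℝ≥0∞) (K : ℕ) :
    ∫⁻ l, {l : EDefs602.ML | (z, l.1) ∈ ctSet Φ ε te P}.indicator (HLW ε tw γ ρ K z) l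
        ∂(baseM (Measure.dirac τ)) ≤
      ENNReal.ofReal (ε ^ 2) * (ENNReal.ofReal (te - tw) * ENNReal.ofReal Real.pi * cV g0 *
        (ENNReal.ofReal (1 + ‖z.1.2‖) * ∑' n : ℕ, markW ρ K n)) := by
  have hH : Measurable (HLW ε tw γ ρ K z) := measurable_HLW ε tw hγ ρ K z
  have hms : MeasurableSet {l : EDefs602.ML | (z, l.1) ∈ ctSet Φ ε te P} :=
    (measurable_const.prodMk measurable_fst : Measurable fun l : EDefs602.ML =>
      ((z, l.1) : (PhasePoint × Par P) × (ℝ × PhasePoint))) (measurableSet_ctSet hΦ ε te P)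
  rw [lintegral_baseM _ (hH.indicator hms), lintegral_dirac' _ ?_]
  swap
  · have h2 : ∀ n : ℕ, Measurable fun q : ℝ × (Space3 × Space3) =>
        {l : EDefs602.ML | (z, l.1) ∈ ctSet Φ ε te P}.indicator (HLW ε tw γ ρ K z)
          ((q.1, (q.2.2, q.2.1)), n) := fun n =>
      (hH.indicator hms).comp (by fun_prop : Measurable fun q : ℝ × (Space3 × Space3) =>
        (((q.1, (q.2.2, q.2.1)), n) : EDefs602.ML))
    refine Measurable.tsum fun n => ?_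
    have h3 : Measurable fun q : (ℝ × Space3) × Space3 =>
        {l : EDefs602.ML | (z, l.1) ∈ ctSet Φ ε te P}.indicator (HLW ε tw γ ρ K z)
          ((q.1.1, (q.2, q.1.2)), n) :=
      (h2 n).comp (f := fun q : (ℝ × Space3) × Space3 => (q.1.1, (q.1.2, q.2))) (by fun_prop)
    have h4 : Measurable fun q : ℝ × Space3 => ∫⁻ y : Space3,
        {l : EDefs602.ML | (z, l.1) ∈ ctSet Φ ε te P}.indicator (HLW ε tw γ ρ K z)
          ((q.1, (y, q.2)), n) := h3.lintegral_prod_right'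
    exact h4.lintegral_prod_right'
  have hone : ∀ n : ℕ, ∫⁻ v : Space3, ∫⁻ y : Space3,
      {l : EDefs602.ML | (z, l.1) ∈ ctSet Φ ε te P}.indicator (HLW ε tw γ ρ K z)
        ((τ, (y, v)), n) ≤ (ENNReal.ofReal (ε ^ 2) * (ENNReal.ofReal (te - tw) *
          ENNReal.ofReal Real.pi * cV g0 * ENNReal.ofReal (1 + ‖z.1.2‖))) * markW ρ K n := by
    intro n
    refine (lintegral_mono fun v => ct_y_w_le hΦ hε z (tw := tw) hγ hg ρ K v n).trans
      (le_of_eq ?_)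
    have hm : Measurable fun v : Space3 => wG g0 v * ENNReal.ofReal (1 + ‖v‖) := by
      unfold wG
      fun_prop
    rw [lintegral_const_mul _ hm]
    unfold cV
    ring
  refine (ENNReal.tsum_le_tsum hone).trans (le_of_eq ?_)
  rw [ENNReal.tsum_mul_left]
  ring

/-! ### The exits, contact after `tw` -/

/-- The exits of the structures, contact after `tw`. -/
def HW (Φ : Space3 → ℝ) (ε : ℝ) (K : ℕ) (Q : EPar) (T' : ℝ) (G : LF) : SF :=
  fun P z m w l => (if Sep Φ ε P T' z.1 z.2 then smI K P l else 0) *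
    ((if Q.tw < cT ε z l then 1 else 0) * (uI Φ ε Q.tw P z w *
      ∑ i ∈ Finset.univ.filter (fun i : Idx P => i ≠ root P), G m w (lineML Φ ε P z i)))

/-- The integrand of `StmtEXW` (helper285's text): sizes `≤ m₀`. -/
def exWF (Φ : Space3 → ℝ) (ε : ℝ) (K : ℕ) (tw T' : ℝ) (m₀ : ℕ) (G : LF) : SF := fun P z m w l =>
  (if P.leaves ≤ m₀ ∧ tw < cT ε z l ∧ Sep Φ ε P T' z.1 z.2 then smI K P l else 0) *
    (uI Φ ε tw P z w *
      ∑ i ∈ Finset.univ.filter (fun i : Idx P => i ≠ root P), G m w (lineML Φ ε P z i))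

/-- (EXW) the exits of the small separated trees, contact after `tw` (helper285's text). -/
def StmtEXW (Φ : Space3 → ℝ) (f₀ : PhasePoint → ℝ) (Q : EPar) (T' : ℝ) (m₀ : ℕ) (C : ℝ≥0∞) :
    Prop :=
  ∃ δ : ℕ → ℝ → ℝ≥0∞, Null δ ∧ ∀ (K : ℕ) (ε : ℝ), 0 < ε → ∀ G : LF, MeasLF G →
    (∀ m w l, G m w l ≤ 1) → ∀ τ ∈ Ioc 0 Q.te,
    OS Φ f₀ ε K Q T' (Measure.dirac τ) (exWF Φ ε K Q.tw T' m₀ G) ≤
    C * ENNReal.ofReal (Q.te - Q.tw) *
      gcE f₀ ε (fun m w => ∫⁻ l, G m w l ∂(lineM Q.γ Q.ρ K Q.te)) + δ K ε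

theorem exWF_le_HW {K : ℕ} {Q : EPar} {T' : ℝ} {m₀ : ℕ} {G : LF} (P : CTree)
    (z : PhasePoint × Par P) (m : ℕ) (w : Config m) (l : EDefs602.ML) :
    exWF Φ ε K Q.tw T' m₀ G P z m w l ≤ HW Φ ε K Q T' G P z m w l := by
  unfold exWF HW
  by_cases h : P.leaves ≤ m₀ ∧ Q.tw < cT ε z l ∧ Sep Φ ε P T' z.1 z.2
  · rw [if_pos h, if_pos h.2.2, if_pos h.2.1, one_mul]
  · rw [if_neg h, zero_mul]
    exact bot_le

/-- (EXW), all sizes. -/
def EXWs (Φ : Space3 → ℝ) (f₀ : PhasePoint → ℝ) (Q : EPar) (T' : ℝ) (C : ℝ≥0∞) : Prop :=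
  ∃ δ : ℕ → ℝ → ℝ≥0∞, Null δ ∧ ∀ (K : ℕ) (ε : ℝ), 0 < ε → ∀ G : LF, MeasLF G →
    (∀ m w l, G m w l ≤ 1) → ∀ τ ∈ Ioc 0 Q.te,
    OS Φ f₀ ε K Q T' (Measure.dirac τ) (HW Φ ε K Q T' G) ≤
    C * ENNReal.ofReal (Q.te - Q.tw) *
      gcE f₀ ε (fun m w => ∫⁻ l, G m w l ∂(lineM Q.γ Q.ρ K Q.te)) + δ K ε

/-- majorant after integration of the test line -/
def HTW (Φ : Space3 → ℝ) (ε : ℝ) (K : ℕ) (Q : EPar) (T' : ℝ) (g0 : ℝ) (G : LF)
    (P : CTree) (z : PhasePoint × Par P) (m : ℕ) (w : Config m) : ℝ≥0∞ :=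
  if P.leaves ≤ K ∧ Sep Φ ε P T' z.1 z.2 then
    (cF (Q.te - Q.tw) g0 Q.ρ * ENNReal.ofReal (1 + ‖z.1.2‖)) *
      exG Φ ε Q.tw Q.te G P z m w else 0

theorem exw_inner_le (hΦ : AdmissiblePotential Φ) (hε : 0 < ε) {K : ℕ} {Q : EPar}
    (hγ : Measurable Q.γ) {g0 τ : ℝ} (hg : g0 ≤ Q.γ τ) {T' : ℝ} {G : LF}
    (hG1 : ∀ m w l, G m w l ≤ 1) {P : CTree} (z : PhasePoint × Par P) (m : ℕ) (w : Config m) :
    ∫⁻ l, {l : EDefs602.ML | (z, l.1) ∈ ctSet Φ ε Q.te P}.indicator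
      (fun l => lineD Q.γ Q.ρ K l * HW Φ ε K Q T' G P z m w l) l ∂(baseM (Measure.dirac τ)) ≤
      ENNReal.ofReal (ε ^ 2) * HTW Φ ε K Q T' g0 G P z m w := by
  by_cases hc : Sep Φ ε P T' z.1 z.2 ∧ P.leaves ≤ K
  · obtain ⟨hs, hK⟩ := hc
    have hpt : ∀ l : EDefs602.ML, {l : EDefs602.ML | (z, l.1) ∈ ctSet Φ ε Q.te P}.indicator
        (fun l => lineD Q.γ Q.ρ K l * HW Φ ε K Q T' G P z m w l) l ≤
        {l : EDefs602.ML | (z, l.1) ∈ ctSet Φ ε Q.te P}.indicator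
          (HLW ε Q.tw Q.γ Q.ρ K z) l * exG Φ ε Q.tw Q.te G P z m w := by
      intro l
      by_cases hl : l ∈ {l : EDefs602.ML | (z, l.1) ∈ ctSet Φ ε Q.te P}
      · rw [indicator_of_mem hl, indicator_of_mem hl]
        unfold HLW
        rw [mul_assoc]
        refine mul_le_mul' le_rfl ?_
        unfold HW
        rw [if_pos hs]
        have h1 : smI K P l ≤ 1 := by
          unfold smI
          split_ifs
          · exact le_rfl
          · exact bot_le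
        refine (mul_le_mul' h1 le_rfl).trans ?_
        rw [one_mul]
        refine mul_le_mul' le_rfl (le_of_eq ?_)
        rw [sum_filter_eq]
        unfold exG
        congr 1
        refine Finset.sum_congr rfl fun x _ => ?_
        unfold cutG
        rw [if_pos (show (lineML Φ ε P z x).1.1 ≤ Q.te from rel_le_of_ct hε.le hl x.2)]
      · rw [indicator_of_notMem hl]
        exact bot_le
    refine (lintegral_mono hpt).trans ?_
    rw [lintegral_mul_const' _ _ (exG_ne_top hG1)]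
    have hfl := ct_flux_w_le hΦ hε z (te := Q.te) (tw := Q.tw) hγ hg Q.ρ K
    refine (mul_le_mul' hfl le_rfl).trans ?_
    have h2 : ∑' n : ℕ, markW Q.ρ K n ≤ (1 - Q.ρ)⁻¹ := tsum_markW_le Q.ρ K
    unfold HTW
    rw [if_pos ⟨hK, hs⟩]
    unfold cF
    calc ENNReal.ofReal (ε ^ 2) * (ENNReal.ofReal (Q.te - Q.tw) * ENNReal.ofReal Real.pi *
          cV g0 * (ENNReal.ofReal (1 + ‖z.1.2‖) * ∑' n : ℕ, markW Q.ρ K n)) *
          exG Φ ε Q.tw Q.te G P z m w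
        ≤ ENNReal.ofReal (ε ^ 2) * (ENNReal.ofReal (Q.te - Q.tw) * ENNReal.ofReal Real.pi *
          cV g0 * (ENNReal.ofReal (1 + ‖z.1.2‖) * (1 - Q.ρ)⁻¹)) *
          exG Φ ε Q.tw Q.te G P z m w := by gcongr
      _ = _ := by ring
  · have h0 : ∀ l : EDefs602.ML, {l : EDefs602.ML | (z, l.1) ∈ ctSet Φ ε Q.te P}.indicator
        (fun l => lineD Q.γ Q.ρ K l * HW Φ ε K Q T' G P z m w l) l = 0 := by
      intro l
      by_cases hl : l ∈ {l : EDefs602.ML | (z, l.1) ∈ ctSet Φ ε Q.te P}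
      · rw [indicator_of_mem hl]
        have h1 : HW Φ ε K Q T' G P z m w l = 0 := by
          unfold HW
          by_cases h2 : Sep Φ ε P T' z.1 z.2
          · have h3 : ¬ P.leaves ≤ K := fun h => hc ⟨h2, h⟩
            have h4 : smI K P l = 0 := by
              unfold smI
              rw [if_neg]
              omega
            rw [if_pos h2, h4, zero_mul]
          · rw [if_neg h2, zero_mul]
        rw [h1, mul_zero]
      · rw [indicator_of_notMem hl]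
    simp only [h0, lintegral_zero]
    exact bot_le

/-- **The structure integral of the exits is a tree integral.** -/
theorem os_exw_le_ts (hΦ : AdmissiblePotential Φ) (hε : 0 < ε) {K : ℕ} {Q : EPar}
    (hγ : Measurable Q.γ) {g0 τ : ℝ} (hg : g0 ≤ Q.γ τ) {T' : ℝ} {G : LF}
    (hG1 : ∀ m w l, G m w l ≤ 1) :
    OS Φ f₀ ε K Q T' (Measure.dirac τ) (HW Φ ε K Q T' G) ≤
      InEq2.TS Φ f₀ ε T' (HTW Φ ε K Q T' g0 G) := by
  have hact : activity ε * ENNReal.ofReal (ε ^ 2) = 1 := by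
    unfold activity
    rw [← ENNReal.ofReal_mul (by positivity), inv_mul_cancel₀ (by positivity),
      ENNReal.ofReal_one]
  unfold OS InEq2.TS
  rw [← ENNReal.tsum_mul_left]
  refine ENNReal.tsum_le_tsum fun P => ?_
  rw [← lintegral_const_mul' _ _ (show activity ε ≠ ∞ from ENNReal.ofReal_ne_top)]
  refine lintegral_mono fun z => ?_
  by_cases hV : Valid Φ ε P T' z.1.2 z.2
  · rw [indicator_of_mem (show z ∈ {z : PhasePoint × Par P | Valid Φ ε P T' z.1.2 z.2} from hV),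
      indicator_of_mem (show z ∈ {z : PhasePoint × Par P | Valid Φ ε P T' z.1.2 z.2} from hV)]
    have h1 : gcE f₀ ε (fun m w => ∫⁻ l, {l : EDefs602.ML | (z, l.1) ∈ ctSet Φ ε Q.te P}.indicator
        (fun l => lineD Q.γ Q.ρ K l * HW Φ ε K Q T' G P z m w l) l
          ∂(baseM (Measure.dirac τ))) ≤
        ENNReal.ofReal (ε ^ 2) * gcE f₀ ε (fun m w => HTW Φ ε K Q T' g0 G P z m w) := by
      rw [← gcE_const_mul f₀ ε ENNReal.ofReal_ne_top]
      exact gcE_mono f₀ ε fun m w _ => exw_inner_le hΦ hε hγ hg hG1 z m w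
    calc activity ε * (wt Φ P z.1.2 z.2 * (ToTree335.pf Φ f₀ ε P z * gcE f₀ ε (fun m w =>
          ∫⁻ l, {l : EDefs602.ML | (z, l.1) ∈ ctSet Φ ε Q.te P}.indicator
            (fun l => lineD Q.γ Q.ρ K l * HW Φ ε K Q T' G P z m w l) l
              ∂(baseM (Measure.dirac τ)))))
        ≤ activity ε * (wt Φ P z.1.2 z.2 * (ToTree335.pf Φ f₀ ε P z *
            (ENNReal.ofReal (ε ^ 2) *
              gcE f₀ ε (fun m w => HTW Φ ε K Q T' g0 G P z m w)))) := by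
          gcongr
      _ = (activity ε * ENNReal.ofReal (ε ^ 2)) * (wt Φ P z.1.2 z.2 *
            (ToTree335.pf Φ f₀ ε P z *
              gcE f₀ ε (fun m w => HTW Φ ε K Q T' g0 G P z m w))) := by ring
      _ = _ := by rw [hact, one_mul]
  · rw [indicator_of_notMem (show z ∉ {z : PhasePoint × Par P | Valid Φ ε P T' z.1.2 z.2} from hV),
      mul_zero]
    exact bot_le

theorem cF_eq (t g0 : ℝ) (ρ : ℝ≥0∞) : cF t g0 ρ = ENNReal.ofReal t * cF 1 g0 ρ := by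
  unfold cF
  rw [ENNReal.ofReal_one]
  ring

/-- `StmtEXW` from the form without size cut-off. -/
theorem EXWs.stmt {Q : EPar} {T' : ℝ} {C : ℝ≥0∞} (h : EXWs Φ f₀ Q T' C) (m₀ : ℕ) :
    StmtEXW Φ f₀ Q T' m₀ C := by
  obtain ⟨δ, hδ, h⟩ := h
  exact ⟨δ, hδ, fun K ε hε G hG hG1 τ hτ =>
    (OSCalc495.OS_mono fun P z m w l => exWF_le_HW P z m w l).trans (h K ε hε G hG hG1 τ hτ)⟩

/-- **(EXW)** : the exits, contact after `tw`; constants uniform in the windows, the horizons. -/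
theorem exws {β T : ℝ} (hD : KData Φ β T f₀ f) {h₀ kap lam C b : ℝ}
    (hK : Seg814.KinC Φ T f h₀ kap lam C b) (hkap : kap ≤ β) :
    ∃ g₁ : ℝ, 0 < g₁ ∧ ∃ ρ₁ : ℝ≥0∞, ρ₁ < 1 ∧
      ∀ (γ : ℝ → ℝ) (ρ : ℝ≥0∞), Measurable γ → ρ₁ ≤ ρ → ρ < 1 →
      ∀ g0 : ℝ, 0 < g0 → ∃ C₀ : ℝ≥0∞, C₀ ≠ ∞ ∧
      ∀ (Q : EPar), Q.γ = γ → Q.ρ = ρ → Q.tw ∈ Icc 0 T → GIV566.GIV Φ f₀ f T Q.tw → Q.te ≤ T →
      (∀ τ ∈ Ioc 0 Q.te, g0 ≤ γ τ) →
      ∀ T' : ℝ, 0 < T' → T' ≤ Q.tw + h₀ → (∀ τ ∈ Ioc 0 T', γ τ ≤ g₁) →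
      EXWs Φ f₀ Q T' C₀ := by
  have hΦ := hD.adm
  have hf : Measurable f₀ := hD.contDiff.continuous.measurable
  have hlam : 1 < lam := hK.2.2.1
  have hkap0 : 0 < kap := hK.2.1
  set lam₁ : ℝ := (1 + lam) / 2 with hl₁
  set lam₀ : ℝ := (1 + lam₁) / 2 with hl₀
  have h1 : 1 < lam₁ := by rw [hl₁]; linarith
  have h2 : lam₁ < lam := by rw [hl₁]; linarith
  have h3 : 1 < lam₀ := by rw [hl₀]; linarith
  have h4 : lam₀ < lam₁ := by rw [hl₀]; linarith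
  obtain ⟨g₁, hg₁, ρ₁, hρ₁, C₁, hC₁, hQ⟩ := exists_qx hD hK hkap h1 h2
  obtain ⟨M₀, hM₀, hw⟩ := exists_wQ Φ h3 h4 hkap0
  refine ⟨g₁, hg₁, ρ₁, hρ₁, ?_⟩
  intro γ ρ hγ hρ hρ1 g0 hg0
  set c : ℝ≥0∞ := cF 1 g0 ρ * (2 * M₀) with hc
  have hct : c ≠ ∞ := ENNReal.mul_ne_top (cF_ne_top hg0 hρ1)
    (ENNReal.mul_ne_top (by norm_num) hM₀)
  refine ⟨c * C₁, ENNReal.mul_ne_top hct hC₁, ?_⟩
  intro Q hQγ hQρ htw hG hte hlow T' hT' hT'h hup
  have hδ := fun K => hQ γ ρ hρ Q.tw htw hG T' hT' hT'h hup K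
  choose δ hδ0 hδ1 using hδ
  set o : ℝ≥0∞ := ENNReal.ofReal (Q.te - Q.tw) with ho
  have hMt : c * o ≠ ∞ := ENNReal.mul_ne_top hct ENNReal.ofReal_ne_top
  refine ⟨fun K ε => c * o * δ K ε, ?_, ?_⟩
  · -- nullity
    intro K a ha
    have h := ENNReal.Tendsto.const_mul (a := c * o) (hδ0 K) (Or.inr hMt)
    rw [mul_zero] at h
    have h5 : ∀ᶠ x in 𝓝[>] (0 : ℝ), c * o * δ K x ≤ ENNReal.ofReal a :=
      (h.eventually (gt_mem_nhds (ENNReal.ofReal_pos.2 ha))).mono fun _ h => le_of_lt h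
    rw [eventually_nhdsWithin_iff, Metric.eventually_nhds_iff] at h5
    obtain ⟨η, hη, h6⟩ := h5
    refine ⟨η, hη, fun x hx hxη => h6 ?_ hx⟩
    rw [Real.dist_eq, sub_zero, abs_of_pos hx]
    exact hxη
  · intro K ε hε G hGm hG1 τ hτ
    have hγQ : Measurable Q.γ := by rw [hQγ]; exact hγ
    have hgτ : g0 ≤ Q.γ τ := by rw [hQγ]; exact hlow τ hτ
    have s1 := os_exw_le_ts (f₀ := f₀) hΦ hε (K := K) (T' := T') hγQ hgτ hG1
    have hQX := hδ1 K ε hε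
    have s2 : InEq2.TS Φ f₀ ε T' (HTW Φ ε K Q T' g0 G) ≤ (c * o) *
        (C₁ * gcE f₀ ε (fun m w => ∫⁻ l, cutG Q.te G m w l ∂EDefs602.lineM γ ρ K T') +
          δ K ε) := by
      refine hQX.ts_rel hΦ hf hε (φ := cutG Q.te G) (measLF_cutG hGm)
        (fun m w l => (cutG_le m w l).trans (hG1 m w l)) hMt
        (th := fun P z => cF (Q.te - Q.tw) g0 Q.ρ * (2 * wQ Φ ε P z))
        (fun P => ((measurable_wQ hΦ P).const_mul 2).const_mul _) (fun P z hz => ?_)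
        (b := fun P z => TreeLines335.rel P z.2) (fun P z i => le_rfl) (fun P z m w hz => ?_)
      · have h7 := hw 0 ε T' P z hz
        rw [if_pos (Nat.zero_le _), pow_zero, mul_one] at h7
        have h8 : cF (Q.te - Q.tw) g0 Q.ρ = o * cF 1 g0 ρ := by
          rw [cF_eq, hQρ]
        show cF (Q.te - Q.tw) g0 Q.ρ * (2 * wQ Φ ε P z) ≤ _
        rw [h8]
        calc o * cF 1 g0 ρ * (2 * wQ Φ ε P z) ≤ o * cF 1 g0 ρ * (2 * (M₀ *
              ENNReal.ofReal lam₁ ^ P.size *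
              ENNReal.ofReal (Real.exp (kap * Seg814.eng Φ P z.1.2 z.2)))) := by gcongr
          _ = _ := by rw [hc]; ring
      · unfold HTW
        by_cases hcs : P.leaves ≤ K ∧ Sep Φ ε P T' z.1 z.2
        · rw [if_pos hcs, if_pos hcs]
          exact mul_le_mul' (mul_le_mul' le_rfl (root_le_wQ hΦ hz)) le_rfl
        · rw [if_neg hcs, if_neg hcs]
    refine (s1.trans s2).trans ?_
    rw [mul_add]
    refine add_le_add ?_ le_rfl
    have h9 : gcE f₀ ε (fun m w => ∫⁻ l, cutG Q.te G m w l ∂EDefs602.lineM γ ρ K T') ≤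
        gcE f₀ ε (fun m w => ∫⁻ l, G m w l ∂(lineM Q.γ Q.ρ K Q.te)) := by
      refine gcE_mono f₀ ε fun m w _ => ?_
      rw [hQγ, hQρ]
      exact lintegral_lineM_cut hγ ρ K ((hGm m).comp (measurable_const.prodMk measurable_id))
    calc c * o * (C₁ * gcE f₀ ε (fun m w => ∫⁻ l, cutG Q.te G m w l
          ∂EDefs602.lineM γ ρ K T'))
        ≤ c * o * (C₁ * gcE f₀ ε (fun m w => ∫⁻ l, G m w l ∂(lineM Q.γ Q.ρ K Q.te))) := by
          gcongr
      _ = _ := by ring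

/-- **(EXW)** : `StmtEXW`. -/
theorem stmtEXW {β T : ℝ} (hD : KData Φ β T f₀ f) {h₀ kap lam C b : ℝ}
    (hK : Seg814.KinC Φ T f h₀ kap lam C b) (hkap : kap ≤ β) :
    ∃ g₁ : ℝ, 0 < g₁ ∧ ∃ ρ₁ : ℝ≥0∞, ρ₁ < 1 ∧
      ∀ (γ : ℝ → ℝ) (ρ : ℝ≥0∞), Measurable γ → ρ₁ ≤ ρ → ρ < 1 →
      ∀ g0 : ℝ, 0 < g0 → ∃ C₀ : ℝ≥0∞, C₀ ≠ ∞ ∧
      ∀ (Q : EPar), Q.γ = γ → Q.ρ = ρ → Q.tw ∈ Icc 0 T → GIV566.GIV Φ f₀ f T Q.tw → Q.te ≤ T →
      (∀ τ ∈ Ioc 0 Q.te, g0 ≤ γ τ) →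
      ∀ T' : ℝ, 0 < T' → T' ≤ Q.tw + h₀ → (∀ τ ∈ Ioc 0 T', γ τ ≤ g₁) →
      ∀ m₀ : ℕ, StmtEXW Φ f₀ Q T' m₀ C₀ := by
  obtain ⟨g₁, hg₁, ρ₁, hρ₁, H⟩ := exws hD hK hkap
  refine ⟨g₁, hg₁, ρ₁, hρ₁, fun γ ρ hγ hρ hρ1 g0 hg0 => ?_⟩
  obtain ⟨C₀, hC₀, H'⟩ := H γ ρ hγ hρ hρ1 g0 hg0
  exact ⟨C₀, hC₀, fun Q h1 h2 h3 h4 h5 h6 T' h7 h8 h9 m₀ =>
    (H' Q h1 h2 h3 h4 h5 h6 T' h7 h8 h9).stmt m₀⟩

/-- **(EXW) for all windows.** -/
theorem stmtEXW_win {β T : ℝ} (hD : KData Φ β T f₀ f) {h₀ kap lam C b : ℝ}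
    (hK : Seg814.KinC Φ T f h₀ kap lam C b) (hkap : kap ≤ β) :
    ∃ g1 : ℝ, 0 < g1 ∧ ∃ r1 : ℝ≥0∞, r1 < 1 ∧
      ∀ (γ : ℝ → ℝ) (ρ : ℝ≥0∞), LinePar g1 r1 T γ ρ → ∃ C₀ : ℝ≥0∞, C₀ ≠ ∞ ∧
        ∀ h L tw te : ℝ, Win h T tw te → GIV566.GIV Φ f₀ f T tw →
        ∀ T' : ℝ, 0 < T' → T' ≤ tw + h₀ →
        ∀ m₀ : ℕ, StmtEXW Φ f₀ (epar γ ρ L tw te) T' m₀ C₀ := by
  obtain ⟨g₁, hg₁, ρ₁, hρ₁, H⟩ := stmtEXW hD hK hkap
  refine ⟨g₁, hg₁, ρ₁, hρ₁, fun γ ρ hP => ?_⟩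
  obtain ⟨g0, κ, hκ, hγ, hlow, hup⟩ := hP.lin
  obtain ⟨C₀, hC₀, H'⟩ := H γ ρ (LinePar.measurable hP) hP.lo hP.hi (g0 - κ * T) hlow
  refine ⟨C₀, hC₀, fun h L tw te hW hG T' hT' hT'h m₀ => ?_⟩
  refine H' (epar γ ρ L tw te) rfl rfl ⟨hW.nonneg, hW.le.trans hW.le_T⟩ hG hW.le_T
    (fun τ hτ => ?_) T' hT' hT'h (fun τ hτ => ?_) m₀
  · rw [hγ]
    have h1 : τ ≤ T := hτ.2.trans hW.le_T
    have h2 := mul_le_mul_of_nonneg_left h1 hκ.le
    show g0 - κ * T ≤ g0 - κ * τ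
    linarith
  · rw [hγ]
    have h2 := mul_pos hκ hτ.1
    show g0 - κ * τ ≤ g₁
    linarith

end Crest.Agent.R122.QExit837

end
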