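import Crest.Agent.R122.Triangle_45
import Crest.Agent.R122.Lines2_255

/-!
# One contact (row 122, block A7, helper45), relational part

The world `Z` (relation `C`, index type `ι`) and the world `Z + l` (relation `D`, index type `κ`, with
`e : ι → κ` and the new particle `l`). The line `l` is first in contact at time `s₁` with the particle
`c`, and until `s₁'` the particles `l` and `c` are in contact with nobody else. In both worlds the
past of the encounter is replaced by exit lines: `C'` (in which `c` is born at `s₁`), `D'` (in which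
`l` and `c` are born at `s₁'`). Then

* `Enc.fut`: influence of `l` in `Z` = influence of the difference of `Z₀ + c` and `Z₀ + l' + c'`,
  where `Z₀` is the common part (all particles except `c`).
* `Enc.touched`: a touch of `Z` by `l` is a touch of the pair `(Z₀ + c, Z₀ + l' + c')`.
* `Enc.touched_rev`: the converse.
* `one_contact`: (1.6), `one_contact_rev`: (1.6').
-/

set_option autoImplicit false

open Set Filter Topology

namespace Crest.Agent.R122.Ins45

open Crest.Agent.R122.Causal291 Crest.Agent.R122.CausalGen291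

variable {ι κ : Type} {X : Type*}

/-- Encounter of the inserted particle `l` with `c`. -/
structure Enc (C C' : ℝ → ι → ι → Prop) (D D' : ℝ → κ → κ → Prop) (z z' : ℝ → ι → X)
    (y y' : ℝ → κ → X) (e : ι → κ) (l : κ) (c : ι) (s₁ s₁' : ℝ) : Prop where
  inj : Function.Injective e
  /-- `l` is the only new particle -/
  cov : ∀ x, x = l ∨ x ∈ range e
  new : l ∉ range e
  nonneg : 0 ≤ s₁
  le : s₁ ≤ s₁'
  /-- same initial data -/
  init : ∀ k, z 0 k = y 0 (e k)
  init' : ∀ k, k ≠ c → z' 0 k = y' 0 (e k)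
  /-- the worlds with lines: after `s₁` nothing is hidden in `Z` -/
  vis : ∀ s j k, s₁ < s → C s j k → C' s j k
  /-- after `s₁'` nothing is hidden in `Z + l` -/
  vis₂ : ∀ s x x', s₁' < s → D s x x' → D' s x x'
  /-- after `s₁` nothing is hidden in `Z + l` except `l` and `c` -/
  vis₂' : ∀ s j k, s₁ < s → j ≠ c → k ≠ c → D s (e j) (e k) → D' s (e j) (e k)
  sub : ∀ s j k, C' s j k → C s j k
  sub₂ : ∀ s x x', D' s x x' → D s x x'
  /-- no contact with `l` before `s₁` -/
  before : ∀ s k, 0 ≤ s → D s l (e k) → s₁ ≤ s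
  /-- contact with `c` at `s₁` -/
  hit : D s₁ l (e c)
  /-- isolated encounter -/
  iso_l : ∀ s k, s₁ ≤ s → s ≤ s₁' → D s l (e k) → k = c
  iso_c : ∀ s k, s₁ ≤ s → s ≤ s₁' → D s (e c) (e k) → k = c
  at₁ : ∀ k, C s₁ c k → k = c
  /-- births of `c` (in `Z₀ + c`) and of `c'` (in `Z₀ + l' + c'`) -/
  birth_c : ∀ s k, k ≠ c → C' s c k → s₁ ≤ s
  birth_c' : ∀ s k, k ≠ c → D' s (e c) (e k) → s₁' ≤ s

variable {C C' : ℝ → ι → ι → Prop} {D D' : ℝ → κ → κ → Prop} {z z' : ℝ → ι → X}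
variable {y y' : ℝ → κ → X} {e : ι → κ} {l : κ} {c : ι} {s₁ s₁' : ℝ}

/-- The common part `Z₀`. -/
abbrev Oth (c : ι) : Type := {k : ι // k ≠ c}

/-- Embedding of the common part in `Z + l`. -/
def emb (e : ι → κ) (c : ι) (k : Oth c) : κ := e k

theorem Enc.emb_inj (h : Enc C C' D D' z z' y y' e l c s₁ s₁') :
    Function.Injective (emb e c) := fun _ _ hab => Subtype.ext (h.inj hab)

theorem not_mem_range_val {x : ι} : x ∉ range (Subtype.val : Oth c → ι) ↔ x = c := by
  constructor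
  · intro h
    by_contra hx
    exact h ⟨⟨x, hx⟩, rfl⟩
  · rintro hx ⟨⟨k, hk⟩, hkx⟩
    exact hk (hkx.trans hx)

theorem Enc.not_mem_range_emb (h : Enc C C' D D' z z' y y' e l c s₁ s₁') {x : κ} :
    x ∉ range (emb e c) ↔ x = l ∨ x = e c := by
  constructor
  · intro hx
    rcases h.cov x with h1 | ⟨k, rfl⟩
    · exact Or.inl h1
    · by_cases hk : k = c
      · exact Or.inr (by rw [hk])
      · exact absurd ⟨⟨k, hk⟩, rfl⟩ hx
  · rintro (rfl | rfl) ⟨k, hk⟩
    · exact h.new ⟨k, hk⟩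
    · exact k.2 (h.inj hk)

/-- **Transfer of the influence.** -/
theorem Enc.fut (h : Enc C C' D D' z z' y y' e l c s₁ s₁') {s : ℝ} {k : ι}
    (hk : Fut C z D y id e s k) :
    s₁ ≤ s ∧ (k = c ∨ (s₁ < s ∧ ∀ hkc : k ≠ c,
      Fut C' z' D' y' (Subtype.val : Oth c → ι) (emb e c) s ⟨k, hkc⟩)) := by
  induction hk with
  | @init s k hne _ => exact absurd (h.init k) hne
  | @new₁ s s' k j hj _ _ _ => exact absurd ⟨j, rfl⟩ hj
  | @new₂ s s' k x hx hc h0 hs =>
    have hxl : x = l := (h.cov x).resolve_right hx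
    subst hxl
    have h1 : s₁ ≤ s' := h.before s' k h0 hc
    refine ⟨h1.trans hs, ?_⟩
    by_cases hkc : k = c
    · exact Or.inl hkc
    · have h2 : s₁' < s' := by
        by_contra hle
        exact hkc (h.iso_l s' k h1 (not_lt.1 hle) hc)
      refine Or.inr ⟨h.le.trans_lt (h2.trans_le hs), fun hkc => ?_⟩
      exact .new₂ x ((h.not_mem_range_emb).2 (Or.inl rfl)) (h.vis₂ s' _ _ h2 hc) h0 hs
  | @chain₁ s s' k m hm hc hs ih =>
    have h0 : 0 ≤ s' := hm.nonneg
    refine ⟨ih.1.trans hs, ?_⟩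
    by_cases hkc : k = c
    · exact Or.inl hkc
    refine Or.inr ?_
    rcases ih.2 with rfl | ⟨h2, h3⟩
    · have h4 : s₁ < s' := by
        refine lt_of_le_of_ne ih.1 ?_
        rintro rfl
        exact hkc (h.at₁ k hc)
      exact ⟨h4.trans_le hs, fun hkc => .new₁ m (not_mem_range_val.2 rfl)
        (h.vis s' _ _ h4 hc) h0 hs⟩
    · refine ⟨h2.trans_le hs, fun hkc => ?_⟩
      by_cases hmc : m = c
      · subst hmc
        exact .new₁ m (not_mem_range_val.2 rfl) (h.vis s' _ _ h2 hc) h0 hs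
      · exact .chain₁ (h3 hmc) (h.vis s' _ _ h2 hc) hs
  | @chain₂ s s' k m hm hc hs ih =>
    have h0 : 0 ≤ s' := hm.nonneg
    refine ⟨ih.1.trans hs, ?_⟩
    by_cases hkc : k = c
    · exact Or.inl hkc
    refine Or.inr ?_
    by_cases hmc : m = c
    · subst hmc
      have h4 : s₁' < s' := by
        by_contra hle
        exact hkc (h.iso_c s' k ih.1 (not_lt.1 hle) hc)
      exact ⟨h.le.trans_lt (h4.trans_le hs), fun hkc =>
        .new₂ (e m) ((h.not_mem_range_emb).2 (Or.inr rfl)) (h.vis₂ s' _ _ h4 hc) h0 hs⟩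
    · obtain ⟨h2, h3⟩ := ih.2.resolve_left hmc
      exact ⟨h2.trans_le hs, fun hkc => .chain₂ (h3 hmc) (h.vis₂' s' _ _ h2 hmc hkc hc) hs⟩

/-- The particle `c` is influenced from the time `s₁` on. -/
theorem Enc.fut_c (h : Enc C C' D D' z z' y y' e l c s₁ s₁') {s : ℝ} (hs : s₁ ≤ s) :
    Fut C z D y id e s c :=
  .new₂ l h.new h.hit h.nonneg hs

/-- **Transfer of the influence, converse.** -/
theorem Enc.fut_rev (h : Enc C C' D D' z z' y y' e l c s₁ s₁') {s : ℝ} {k : Oth c}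
    (hk : Fut C' z' D' y' (Subtype.val : Oth c → ι) (emb e c) s k) :
    Fut C z D y id e s k := by
  induction hk with
  | @init s k hne _ => exact absurd (h.init' k k.2) hne
  | @new₁ s s' k j hj hc _ hs =>
    have := not_mem_range_val.1 hj
    subst this
    exact .chain₁ (h.fut_c (h.birth_c s' _ k.2 hc)) (h.sub _ _ _ hc) hs
  | @new₂ s s' k x hx hc h0 hs =>
    rcases (h.not_mem_range_emb).1 hx with rfl | rfl
    · exact .new₂ x h.new (h.sub₂ _ _ _ hc) h0 hs
    · exact .chain₂ (h.fut_c (h.le.trans (h.birth_c' s' _ k.2 hc))) (h.sub₂ _ _ _ hc) hs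
  | @chain₁ s s' k m hm hc hs ih => exact .chain₁ ih (h.sub _ _ _ hc) hs
  | @chain₂ s s' k m hm hc hs ih => exact .chain₂ ih (h.sub₂ _ _ _ hc) hs

variable {P P' : ℝ → ι → Prop} {Q Q' : ℝ → κ → Prop}

/-- **Transfer of touches**: a touch of `Z` by `l` is a touch of the pair
`(Z₀ + c, Z₀ + l' + c')`. -/
theorem Enc.touched (h : Enc C C' D D' z z' y y' e l c s₁ s₁') {s : ℝ}
    (hP : ∀ k, P s k → P' s k) (hQ : ∀ x, Q s x → Q' s x)
    (ht : Touched C z D y id e P Q s) :
    Touched C' z' D' y' (Subtype.val : Oth c → ι) (emb e c) P' Q' s := by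
  rcases ht with ⟨k, hk, hp⟩ | ⟨j, hj, _⟩ | ⟨x, hx, hq⟩
  · by_cases hkc : k = c
    · subst hkc
      rcases hp with hp | hp
      · exact Or.inr (Or.inl ⟨k, not_mem_range_val.2 rfl, hP _ hp⟩)
      · exact Or.inr (Or.inr ⟨e k, (h.not_mem_range_emb).2 (Or.inr rfl), hQ _ hp⟩)
    · obtain ⟨_, h3⟩ := (h.fut hk).2.resolve_left hkc
      exact Or.inl ⟨⟨k, hkc⟩, h3 hkc, hp.imp (hP _) (hQ _)⟩
  · exact absurd ⟨j, rfl⟩ hj
  · have hxl : x = l := (h.cov x).resolve_right hx
    exact Or.inr (Or.inr ⟨x, (h.not_mem_range_emb).2 (Or.inl hxl), hQ _ hq⟩)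

/-- **Transfer of touches, converse.** -/
theorem Enc.touched_rev (h : Enc C C' D D' z z' y y' e l c s₁ s₁') {s : ℝ}
    (hP : ∀ k, P' s k → P s k) (hQ : ∀ x, Q' s x → Q s x)
    (hPc : P s c → s₁ ≤ s) (hQc : Q s (e c) → s₁ ≤ s)
    (ht : Touched C' z' D' y' (Subtype.val : Oth c → ι) (emb e c) P' Q' s) :
    Touched C z D y id e P Q s := by
  rcases ht with ⟨k, hk, hp⟩ | ⟨j, hj, hp⟩ | ⟨x, hx, hq⟩
  · exact Or.inl ⟨k, h.fut_rev hk, hp.imp (hP _) (hQ _)⟩
  · have := not_mem_range_val.1 hj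
    subst this
    exact Or.inl ⟨j, h.fut_c (hPc (hP _ hp)), Or.inl (hP _ hp)⟩
  · rcases (h.not_mem_range_emb).1 hx with rfl | rfl
    · exact Or.inr (Or.inr ⟨x, h.new, hQ _ hq⟩)
    · exact Or.inl ⟨c, h.fut_c (hQc (hQ _ hq)), Or.inr (hQ _ hq)⟩

/-! ### The one-contact lemma -/

section main

variable [Finite ι] [Finite κ]

/-- The world `Z₀` (relation `E`, states `w`) on `Oth c`, and the world `Z₀ + l'` (relation `F`, states
`v`) on the index type `μ` with `f : Oth c → μ` and `g : μ → κ`. -/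
structure Mid {μ : Type} (T : ℝ) (C' : ℝ → ι → ι → Prop) (D' : ℝ → κ → κ → Prop) (z' : ℝ → ι → X)
    (y' : ℝ → κ → X) (E : ℝ → Oth c → Oth c → Prop) (w : ℝ → Oth c → X)
    (F : ℝ → μ → μ → Prop) (v : ℝ → μ → X) (e : ι → κ) (f : Oth c → μ) (g : μ → κ) : Prop where
  comm : ∀ k, g (f k) = emb e c k
  pc : Pair T E w C' z' id (Subtype.val : Oth c → ι)
  pl : Pair T E w F v id f
  plc : Pair T F v D' y' id g
  plc₀ : Pair T E w D' y' id (emb e c)

variable {μ : Type} [Finite μ] {E : ℝ → Oth c → Oth c → Prop} {w : ℝ → Oth c → X}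
variable {F : ℝ → μ → μ → Prop} {v : ℝ → μ → X} {f : Oth c → μ} {g : μ → κ} {T : ℝ}
variable {R : ℝ → Oth c → Prop} {S : ℝ → μ → Prop}

/-- The two triangles which are used. -/
theorem tri_id : Tri (id : Oth c → Oth c) (id : Oth c → Oth c) (id : Oth c → Oth c)
    (id : Oth c → Oth c) := ⟨fun _ => rfl, fun y _ hy => ⟨y, rfl, hy⟩⟩

theorem tri_mid (f : Oth c → μ) : Tri f (id : μ → μ) (id : Oth c → Oth c) f :=
  ⟨fun _ => rfl, fun y _ hy => ⟨y, rfl, hy⟩⟩

/-- **(1.6), touched form.** If `l` touches `Z` at `s`, then `c` touches `Z₀`, or `l'` touches `Z₀`, or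
`c'` touches `Z₀ + l'`, at `s`. -/
theorem one_contact (h : Enc C C' D D' z z' y y' e l c s₁ s₁')
    (hM : Mid T C' D' z' y' E w F v e f g) {s : ℝ} (hs : s ∈ Icc 0 T)
    (hP : ∀ k, P s k → P' s k) (hQ : ∀ x, Q s x → Q' s x)
    (hc₁ : ∀ k, HistEq E w C' z' id (Subtype.val : Oth c → ι) s k → (R s k ↔ P' s k))
    (hc₂ : ∀ k, HistEq E w D' y' id (emb e c) s k → (R s k ↔ Q' s (emb e c k)))
    (hc₃ : ∀ k, HistEq E w F v id f s k → (R s k ↔ S s (f k)))
    (hc₄ : ∀ x, HistEq F v D' y' id g s x → (S s x ↔ Q' s (g x)))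
    (ht : Touched C z D y id e P Q s) :
    Touched E w C' z' id (Subtype.val : Oth c → ι) R P' s ∨ Touched E w F v id f R S s ∨
      Touched F v D' y' id g S Q' s := by
  have h1 := h.touched hP hQ ht
  -- triangle with the middle world `Z₀`
  rcases touched_triangle (a₁ := (Subtype.val : Oth c → ι)) (a₂ := id) (b₂ := id)
    (b₃ := emb e c) (i := id) (j := id) hM.pc.symm hM.plc₀ tri_id hs
    (fun k hk => (hc₁ k hk.symm).symm) (fun k hk => hc₂ k hk) h1 with h2 | h2
  · exact Or.inl h2.symm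
  · -- triangle with the middle world `Z₀ + l'`
    have h3 : Touched E w D' y' (fun k : Oth c => id (id k)) (fun k : Oth c => g (f k)) R Q' s := by
      have : (fun k : Oth c => g (f k)) = emb e c := funext hM.comm
      rw [this]
      exact h2
    rcases touched_triangle (a₁ := (id : Oth c → Oth c)) (a₂ := f) (b₂ := (id : μ → μ))
      (b₃ := g) (i := (id : Oth c → Oth c)) (j := f) hM.pl hM.plc (tri_mid f) hs hc₃ hc₄ h3 with h4 | h4
    · exact Or.inr (Or.inl h4)
    · exact Or.inr (Or.inr h4)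

/-- **(1.6'), first step**: if the influences of `l'` (in `Z₀`) and of `c'` (in `Z₀ + l'`) are disjoint,
then a touch of `Z₀` by `l'` is a touch of `Z₀` by `{l', c'}`. The middle world may be `Z₀ + l'` or
`Z₀ + c'`. -/
theorem touched_pair_of_touched (hM : Mid T C' D' z' y' E w F v e f g) {s : ℝ}
    (hs : s ∈ Icc 0 T)
    (hc₄ : ∀ x, HistEq F v D' y' id g s x → (S s x ↔ Q' s (g x)))
    (hd : ∀ s' ≤ s, ∀ k, Fut E w F v id f s' k → ¬ Fut F v D' y' id g s' (f k))
    (hd' : ∀ x, x ∉ range f → ¬ Fut F v D' y' id g s x)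
    (ht : Touched E w F v id f R S s) : Touched E w D' y' id (emb e c) R Q' s := by
  have h1 := touched_of_unlinked_left (a₁ := (id : Oth c → Oth c)) (a₂ := f) (b₂ := (id : μ → μ))
    (b₃ := g) (i := (id : Oth c → Oth c)) (j := f) hM.pl hM.plc (tri_mid f) hs hd
    Function.surjective_id (fun x hx _ => ⟨x, rfl, hd' x hx⟩) hc₄ ht
  have h2 : (fun k : Oth c => g (f k)) = emb e c := funext hM.comm
  rw [h2] at h1
  exact h1

/-- **(1.6'), touched form.** If the influences of `c` and of `{l', c'}` in `Z₀` are disjoint, then a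
touch of `Z₀` by `{l', c'}` is a touch of `Z` by `l`. -/
theorem one_contact_rev (h : Enc C C' D D' z z' y y' e l c s₁ s₁')
    (hpc : Pair T E w C' z' id (Subtype.val : Oth c → ι))
    (hplc : Pair T E w D' y' id (emb e c)) {s : ℝ} (hs : s ∈ Icc 0 T)
    (hP : ∀ k, P' s k → P s k) (hQ : ∀ x, Q' s x → Q s x)
    (hPc : P s c → s₁ ≤ s) (hQc : Q s (e c) → s₁ ≤ s)
    (hc₁ : ∀ k, HistEq E w C' z' id (Subtype.val : Oth c → ι) s k → (R s k ↔ P' s k))
    (hd : ∀ s' ≤ s, ∀ k, Fut E w C' z' id (Subtype.val : Oth c → ι) s' k →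
      ¬ Fut E w D' y' id (emb e c) s' k)
    (ht : Touched E w D' y' id (emb e c) R Q' s) :
    Touched C z D y id e P Q s := by
  refine h.touched_rev hP hQ hPc hQc ?_
  exact touched_of_unlinked_right (a₁ := (Subtype.val : Oth c → ι)) (a₂ := id) (b₂ := id)
    (b₃ := emb e c) (i := id) (j := id) hpc.symm hplc tri_id hs
    (fun s' hs' k hk => hd s' hs' k hk.symm) Function.surjective_id
    (fun x hx _ => absurd ⟨x, rfl⟩ hx) (fun k hk => (hc₁ k hk.symm).symm) ht

/-- **(1.7), touched form.** If the influences of `c` and of `{l', c'}` in `Z₀` are disjoint, then a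
touch of `Z₀` by `c` is a touch of `Z` by `l`. -/
theorem one_contact_rev_c (h : Enc C C' D D' z z' y y' e l c s₁ s₁')
    (hpc : Pair T E w C' z' id (Subtype.val : Oth c → ι))
    (hplc : Pair T E w D' y' id (emb e c)) {s : ℝ} (hs : s ∈ Icc 0 T)
    (hP : ∀ k, P' s k → P s k) (hQ : ∀ x, Q' s x → Q s x)
    (hPc : P s c → s₁ ≤ s) (hQc : Q s (e c) → s₁ ≤ s)
    (hc₂ : ∀ k, HistEq E w D' y' id (emb e c) s k → (R s k ↔ Q' s (emb e c k)))
    (hd : ∀ s' ≤ s, ∀ k, Fut E w C' z' id (Subtype.val : Oth c → ι) s' k →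
      ¬ Fut E w D' y' id (emb e c) s' k)
    (ht : Touched E w C' z' id (Subtype.val : Oth c → ι) R P' s) :
    Touched C z D y id e P Q s := by
  refine h.touched_rev hP hQ hPc hQc ?_
  exact touched_of_unlinked_left (a₁ := (Subtype.val : Oth c → ι)) (a₂ := id) (b₂ := id)
    (b₃ := emb e c) (i := id) (j := id) hpc.symm hplc tri_id hs
    (fun s' hs' k hk => hd s' hs' k hk.symm) Function.surjective_id
    (fun x hx _ => absurd ⟨x, rfl⟩ hx) (fun k hk => hc₂ k hk) ht.symm

end main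

end Crest.Agent.R122.Ins45
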