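import Crest.Agent.R122.OneContact_45
import Crest.Agent.R122.OneTransfer_45
import Crest.Agent.R122.EInf_879
import Crest.Agent.R122.MWAlg_255
import Crest.Agent.R122.ReplOwn_302
import Crest.Agent.R122.Lines3_255

/-!
# One contact (row 122, block A7, helper45), marked worlds

`Z` is a marked world, `l` a marked line, `c` a particle of `Z` (a line, without contacts before
`s₁`). `MW.Hit`: the first contact of `l` in `Z + l` is with `c` at `s₁`, the encounter lasts until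
`s₁'` and is isolated. `encW`: the world in which `l` and `c` are born at `s₁'` with their outgoing
states and the mark `m_l + m_c`; up to a relabelling it is `Z₀ + l' + c'` with `Z₀ = rest Z c` (all
particles except `c`), `l' = outL`, `c' = outC`.

* `Hit.ok`, `Hit.enc`, `Hit.inf`, `comap_encW`.
* `Hit.touched_iff`: touches of `Z` by `l` = touches of the pair `(Z, encW)` with common part `Z₀`.
* `Hit.one`: **(1.6)** `min (θ(Z₀,c)) (min (θ(Z₀,l')) (θ(Z₀+l',c'))) ≤ θ(Z,l)`.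
-/

set_option autoImplicit false
set_option linter.unusedSectionVars false

open MeasureTheory Set Filter Topology
open scoped ENNReal
open Crest.AnalysisR.Kinetic
open Crest.Agent.R122.Flow671 Crest.Agent.R122.Loc45 Crest.Agent.R122.Causal291
open Crest.Agent.R122.Inf879 Crest.Agent.R122.EDefs602 Crest.Agent.R122.Lines255
open Crest.Agent.R122.Repl302 Crest.Agent.R122.MWAlg255

namespace Crest.Agent.R122.Ins45

noncomputable section

open scoped Classical

variable {ι : Type} [Fintype ι] {Φ : Space3 → ℝ} {ε : ℝ} {Z : MW ι} {l : ML} {c : ι}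
  {s₁ s₁' : ℝ} {K : ℕ}

/-- The family `{l, c}` of the encounter. -/
def encD (c : ι) : Set (ι ⊕ Unit) := {x | x = Sum.inr () ∨ x = Sum.inl c}

/-- Births of the world after the encounter. -/
def encB (Z : MW ι) (l : ML) (c : ι) (s₁' : ℝ) (x : ι ⊕ Unit) : ℝ :=
  if x ∈ encD c then s₁' else (Z.ins l).b x

/-- The world `Z + l` in which `l` and `c` are born at `s₁'`. -/
def encW (Φ : Space3 → ℝ) (ε : ℝ) (Z : MW ι) (l : ML) (c : ι) (s₁' : ℝ) : MW (ι ⊕ Unit) where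
  b := encB Z l c s₁'
  z := rebirthPath (encB Z l c s₁') ((Z.ins l).path Φ ε) 0
  m := lmark ((Z.ins l).C Φ ε) (Z.ins l).m (encD c) (encB Z l c s₁')

/-- The outgoing line `l'`. -/
def outL (Φ : Space3 → ℝ) (ε : ℝ) (Z : MW ι) (l : ML) (c : ι) (s₁' : ℝ) : ML :=
  ((s₁', (Z.ins l).path Φ ε s₁' (Sum.inr ())), l.2 + Z.m c)

/-- The outgoing line `c'`. -/
def outC (Φ : Space3 → ℝ) (ε : ℝ) (Z : MW ι) (l : ML) (c : ι) (s₁' : ℝ) : ML :=
  ((s₁', (Z.ins l).path Φ ε s₁' (Sum.inl c)), l.2 + Z.m c)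

/-- The world without `c`. -/
def rest (Z : MW ι) (c : ι) : MW (Oth c) := Z.comap Subtype.val

/-- The first contact of `l` in `Z + l` is with `c` at time `s₁`; it lasts until `s₁'`, and during
`[s₁, s₁']` the particles `l` and `c` are in contact with nobody else. -/
structure Hit (Φ : Space3 → ℝ) (ε : ℝ) (Z : MW ι) (l : ML) (c : ι) (s₁ s₁' : ℝ) : Prop where
  nonneg : 0 ≤ s₁
  le : s₁ ≤ s₁'
  born : ∀ k, 0 ≤ Z.b k
  bornl : 0 ≤ l.1.1
  /-- `c` has no contact in `Z` up to `s₁` -/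
  free : ∀ s k, s ≤ s₁ → Z.C Φ ε s c k → k = c
  before : ∀ s k, s < s₁ → ¬ (Z.ins l).C Φ ε s (Sum.inr ()) (Sum.inl k)
  hit : (Z.ins l).C Φ ε s₁ (Sum.inr ()) (Sum.inl c)
  hit' : (Z.ins l).C Φ ε s₁' (Sum.inr ()) (Sum.inl c)
  iso_l : ∀ s k, s₁ ≤ s → s ≤ s₁' → (Z.ins l).C Φ ε s (Sum.inr ()) (Sum.inl k) → k = c
  iso_c : ∀ s k, s₁ ≤ s → s ≤ s₁' → (Z.ins l).C Φ ε s (Sum.inl c) (Sum.inl k) → k = c
  /-- `l` and `c` separate after `s₁'` -/
  sep : ∃ δ > 0, ∀ s, s₁' < s → s < s₁' + δ →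
    ε < dist ((Z.ins l).path Φ ε s (Sum.inr ())).1 ((Z.ins l).path Φ ε s (Sum.inl c)).1
  /-- nobody is born at `s₁'` -/
  noborn : ∀ k, k ≠ c → Z.b k ≠ s₁'

theorem mem_encD {x : ι ⊕ Unit} : x ∈ encD c ↔ x = Sum.inr () ∨ x = Sum.inl c := Iff.rfl

theorem inr_mem_encD {u : Unit} : (Sum.inr u : ι ⊕ Unit) ∈ encD c := Or.inl rfl

theorem inl_mem_encD {k : ι} : (Sum.inl k : ι ⊕ Unit) ∈ encD c ↔ k = c := by
  constructor
  · rintro (h | h)
    · cases h
    · exact Sum.inl_injective h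
  · rintro rfl
    exact Or.inr rfl

theorem encB_of_mem {x : ι ⊕ Unit} (h : x ∈ encD c) : encB Z l c s₁' x = s₁' := if_pos h

theorem encB_of_not_mem {x : ι ⊕ Unit} (h : x ∉ encD c) : encB Z l c s₁' x = (Z.ins l).b x :=
  if_neg h

theorem encB_inl {k : ι} (h : k ≠ c) : encB Z l c s₁' (Sum.inl k) = Z.b k :=
  encB_of_not_mem fun h' => h (inl_mem_encD.1 h')

namespace Hit

variable (h : Hit Φ ε Z l c s₁ s₁') (hΦ : AdmissiblePotential Φ) (hε : 0 < ε)
  (hZ : Z.Ok Φ ε) (hZl : (Z.ins l).Ok Φ ε)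

include h in
theorem nonneg' : 0 ≤ s₁' := h.nonneg.trans h.le

include h in
theorem born_ins (x : ι ⊕ Unit) : 0 ≤ (Z.ins l).b x := by
  rcases x with k | u
  · exact h.born k
  · exact h.bornl

include h in
theorem ins_b_le (x : ι ⊕ Unit) : (Z.ins l).b x ≤ encB Z l c s₁' x := by
  by_cases hx : x ∈ encD c
  · rw [encB_of_mem hx]
    rcases hx with rfl | rfl
    · exact (MW.C_born h.hit).trans h.le
    · exact (MW.C_born' h.hit).trans h.le
  · rw [encB_of_not_mem hx]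

include h hΦ hε hZ hZl in
/-- Up to `s₁` the particles of `Z` have the same paths in `Z` and in `Z + l`. -/
theorem agree {t : ℝ} (ht : t ∈ Icc 0 s₁) (k : ι) :
    Z.path Φ ε t k = (Z.ins l).path Φ ε t (Sum.inl k) := by
  refine BWorld.agree_own hΦ hε hZ.bw hZl.bw (e := (id : ι → ι)) (f := Sum.inl)
    Function.injective_id Sum.inl_injective (S := univ) (A := ∅) (a := 0) (T := s₁) le_rfl le_rfl
    (fun _ _ _ _ => Iff.rfl) (fun _ h => absurd h (notMem_empty _)) ?_ ?_ ?_ k (mem_univ k) t ht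
  · intro m _
    rw [MW.path_zero hΦ hε, MW.path_zero hΦ hε]
    rfl
  · intro _ _ _ _ _ j _ hj
    exact absurd rfl (hj j (Or.inl (mem_univ j)))
  · intro r hr m _ hm x hx hne
    rcases x with j | u
    · exact absurd rfl (hne j (Or.inl (mem_univ j)))
    · refine hZl.bw.le_dist_of_not_ctB hr.1 hr.2 hm hx fun r' hr' hc => ?_
      exact h.before r' m hr'.2 (MW.C_symm _ hc)

include h hΦ hε hZ hZl in
/-- Contacts inside `Z` up to `s₁`. -/
theorem contact_iff {t : ℝ} (ht : t ≤ s₁) (j k : ι) :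
    (Z.ins l).C Φ ε t (Sum.inl j) (Sum.inl k) ↔ Z.C Φ ε t j k := by
  rcases lt_or_ge t 0 with h0 | h0
  · exact ⟨fun h' => absurd ((h.born_ins (Sum.inl j)).trans (MW.C_born h')) (not_le.2 h0),
      fun h' => absurd ((h.born j).trans (MW.C_born h')) (not_le.2 h0)⟩
  · refine ctB_congr ⟨fun h' => Sum.inl_injective h', fun h' => by rw [h']⟩ rfl rfl ?_ ?_
    · rw [← h.agree hΦ hε hZ hZl ⟨h0, ht⟩]
    · rw [← h.agree hΦ hε hZ hZl ⟨h0, ht⟩]

include h hΦ hε hZ hZl in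
/-- The family `{l, c}` is closed up to `s₁'`. -/
theorem closed : Closed ((Z.ins l).C Φ ε) (encD c) (encB Z l c s₁') := by
  intro s x y hx hs hc
  have hy : y ∈ encD c := by
    rw [encB_of_mem hx] at hs
    rcases hx with rfl | rfl
    · rcases y with k | u
      · have h1 : s₁ ≤ s := by
          by_contra hlt
          exact h.before s k (not_le.1 hlt) hc
        exact inl_mem_encD.2 (h.iso_l s k h1 hs hc)
      · exact inr_mem_encD
    · rcases y with k | u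
      · rcases le_total s₁ s with h1 | h1
        · exact inl_mem_encD.2 (h.iso_c s k h1 hs hc)
        · exact inl_mem_encD.2 (h.free s k h1 ((h.contact_iff hΦ hε hZ hZl h1 c k).1 hc))
      · exact inr_mem_encD
  rw [encB_of_mem hx] at hs
  exact ⟨hy, by rw [encB_of_mem hy]; exact hs⟩

include h hΦ hε hZ hZl in
theorem bw_lines : BWorld Φ ε (encB Z l c s₁') 0
    (rebirthPath (encB Z l c s₁') ((Z.ins l).path Φ ε)) :=
  bworld_of_closed hΦ hε hZl.bw h.ins_b_le (fun _ hi => encB_of_not_mem hi)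
    (h.closed hΦ hε hZ hZl)

include h hΦ hε hZ hZl in
/-- The path of the world after the encounter. -/
theorem path_eq {t : ℝ} (ht : 0 ≤ t) :
    (encW Φ ε Z l c s₁').path Φ ε t = rebirthPath (encB Z l c s₁') ((Z.ins l).path Φ ε) t :=
  ((h.bw_lines hΦ hε hZ hZl).eq_evo hΦ hε ht).symm

include h hΦ hε hZ hZl in
theorem path_eq_of_le {t : ℝ} {x : ι ⊕ Unit} (ht : 0 ≤ t) (hx : encB Z l c s₁' x ≤ t) :
    (encW Φ ε Z l c s₁').path Φ ε t x = (Z.ins l).path Φ ε t x := by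
  rw [h.path_eq hΦ hε hZ hZl ht, rebirthPath_of_le hx]

include h hΦ hε hZ hZl in
theorem path_eq_inl {t : ℝ} {k : ι} (ht : 0 ≤ t) (hk : k ≠ c) :
    (encW Φ ε Z l c s₁').path Φ ε t (Sum.inl k) = (Z.ins l).path Φ ε t (Sum.inl k) := by
  rw [h.path_eq hΦ hε hZ hZl ht]
  exact hZl.bw.rebirth_eq hΦ hε (encB_of_not_mem fun h' => hk (inl_mem_encD.1 h')) ht

include h in
theorem encB_nonneg (x : ι ⊕ Unit) : 0 ≤ encB Z l c s₁' x := (h.born_ins x).trans (h.ins_b_le x)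

include h hΦ hε hZ hZl in
/-- Contacts of the world after the encounter. -/
theorem C_encW (s : ℝ) (x y : ι ⊕ Unit) : (encW Φ ε Z l c s₁').C Φ ε s x y ↔
    CtB (encB Z l c s₁') (rebirthPath (encB Z l c s₁') ((Z.ins l).path Φ ε)) ε s x y := by
  rcases lt_or_ge s 0 with h0 | h0
  · exact ⟨fun h' => absurd ((h.encB_nonneg x).trans (MW.C_born h')) (not_le.2 h0),
      fun h' => absurd ((h.encB_nonneg x).trans h'.born) (not_le.2 h0)⟩
  · refine ctB_congr Iff.rfl rfl rfl ?_ ?_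
    · rw [h.path_eq hΦ hε hZ hZl h0]
    · rw [h.path_eq hΦ hε hZ hZl h0]

include h hΦ hε hZ hZl in
theorem lines : Lines ((Z.ins l).C Φ ε) ((encW Φ ε Z l c s₁').C Φ ε) (encD c)
    (encB Z l c s₁') := by
  have h1 := lines_ctB (X := (Z.ins l).path Φ ε) (ε := ε) (D := encD c) h.ins_b_le
    (fun _ hi => encB_of_not_mem hi)
  exact ⟨fun s j k hc hj hk => (h.C_encW hΦ hε hZ hZl s j k).2 (h1.of_strict s j k hc hj hk),
    fun s j k hc => h1.sub s j k ((h.C_encW hΦ hε hZ hZl s j k).1 hc),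
    fun s j k hc => h1.left s j k ((h.C_encW hΦ hε hZ hZl s j k).1 hc),
    fun s j k hc => h1.right s j k ((h.C_encW hΦ hε hZ hZl s j k).1 hc)⟩

include h hΦ hε hZ hZl in
/-- The world after the encounter is good. -/
theorem ok : (encW Φ ε Z l c s₁').Ok Φ ε where
  bw := (h.bw_lines hΦ hε hZ hZl).congr fun t ht => h.path_eq hΦ hε hZ hZl ht
  sep := by
    intro x y hxy hb
    have hb' : encB Z l c s₁' x = encB Z l c s₁' y := hb
    have key : ∃ δ > 0, ∀ s, encB Z l c s₁' x < s → s < encB Z l c s₁' x + δ →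
        ε < dist ((Z.ins l).path Φ ε s x).1 ((Z.ins l).path Φ ε s y).1 := by
      by_cases hx : x ∈ encD c
      · by_cases hy : y ∈ encD c
        · obtain ⟨δ, hδ, hs⟩ := h.sep
          refine ⟨δ, hδ, fun s h1 h2 => ?_⟩
          rw [encB_of_mem hx] at h1 h2
          have h3 := hs s h1 h2
          rcases hx with rfl | rfl <;> rcases hy with rfl | rfl
          · exact absurd rfl hxy
          · exact h3
          · rw [dist_comm]; exact h3
          · exact absurd rfl hxy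
        · exfalso
          rcases y with k | u
          · have hk : k ≠ c := fun h' => hy (inl_mem_encD.2 h')
            rw [encB_of_mem hx, encB_inl hk] at hb'
            exact h.noborn k hk hb'.symm
          · exact hy inr_mem_encD
      · by_cases hy : y ∈ encD c
        · exfalso
          rcases x with k | u
          · have hk : k ≠ c := fun h' => hx (inl_mem_encD.2 h')
            rw [encB_of_mem hy, encB_inl hk] at hb'
            exact h.noborn k hk hb'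
          · exact hx inr_mem_encD
        · rw [encB_of_not_mem hx, encB_of_not_mem hy] at hb'
          obtain ⟨δ, hδ, hs⟩ := hZl.sep x y hxy hb'
          refine ⟨δ, hδ, fun s h1 h2 => ?_⟩
          rw [encB_of_not_mem hx] at h1 h2
          exact hs s h1 h2
    obtain ⟨δ, hδ, hs⟩ := key
    refine ⟨δ, hδ, fun s h1 h2 => ?_⟩
    have h1' : encB Z l c s₁' x < s := h1
    have hs0 : 0 ≤ s := (h.encB_nonneg x).trans h1'.le
    rw [h.path_eq_of_le hΦ hε hZ hZl hs0 h1'.le,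
      h.path_eq_of_le hΦ hε hZ hZl hs0 (hb' ▸ h1'.le)]
    exact hs s h1 h2

include h hΦ hε hZ hZl in
/-- **The encounter in the abstract form.** -/
theorem enc : Enc (Z.C Φ ε) (Z.C Φ ε) ((Z.ins l).C Φ ε) ((encW Φ ε Z l c s₁').C Φ ε)
    (Z.path Φ ε) (Z.path Φ ε) ((Z.ins l).path Φ ε) ((encW Φ ε Z l c s₁').path Φ ε)
    Sum.inl (Sum.inr ()) c s₁ s₁' where
  inj := Sum.inl_injective
  cov x := by
    rcases x with k | u
    · exact Or.inr ⟨k, rfl⟩
    · exact Or.inl rfl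
  new := by rintro ⟨k, hk⟩; cases hk
  nonneg := h.nonneg
  le := h.le
  init k := h.agree hΦ hε hZ hZl ⟨le_rfl, h.nonneg⟩ k
  init' k hk := by
    rw [h.path_eq_inl hΦ hε hZ hZl le_rfl hk]
    exact h.agree hΦ hε hZ hZl ⟨le_rfl, h.nonneg⟩ k
  vis _ _ _ _ hc := hc
  vis₂ s x x' hs hc := (h.lines hΦ hε hZ hZl).of_strict s x x' hc
    (fun hx => by rw [encB_of_mem hx]; exact hs) (fun hx => by rw [encB_of_mem hx]; exact hs)
  vis₂' s j k _ hj hk hc := (h.lines hΦ hε hZ hZl).of_strict s _ _ hc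
    (fun hx => absurd (inl_mem_encD.1 hx) hj) (fun hx => absurd (inl_mem_encD.1 hx) hk)
  sub _ _ _ hc := hc
  sub₂ s x x' hc := (h.lines hΦ hε hZ hZl).sub s x x' hc
  before s k _ hc := by
    by_contra hlt
    exact h.before s k (not_le.1 hlt) hc
  hit := h.hit
  iso_l := h.iso_l
  iso_c := h.iso_c
  at₁ k hc := h.free s₁ k le_rfl hc
  birth_c s k hk hc := by
    by_contra hlt
    exact hk (h.free s k (not_le.1 hlt).le hc)
  birth_c' s k _ hc := by
    have h1 := (h.lines hΦ hε hZ hZl).left s _ _ hc (inl_mem_encD.2 rfl)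
    rwa [encB_of_mem (inl_mem_encD.2 rfl)] at h1

include h hΦ hε hZ hZl in
/-- The past of the family at its exit. -/
theorem bc_eq {x : ι ⊕ Unit} (hx : x ∈ encD c) :
    BC ((Z.ins l).C Φ ε) s₁' x = encD c := by
  apply Subset.antisymm
  · intro y hy
    exact (own_past (h.closed hΦ hε hZ hZl) hx (encB_of_mem (Z := Z) (l := l) hx).ge hy).1
  · have h1 : Past ((Z.ins l).C Φ ε) s₁' (Sum.inr ()) 0 (Sum.inl c) :=
      .step (.root le_rfl) h.hit' h.nonneg'
    have h2 : Past ((Z.ins l).C Φ ε) s₁' (Sum.inl c) 0 (Sum.inr ()) :=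
      .step (.root le_rfl) (MW.C_symm _ h.hit') h.nonneg'
    intro y hy
    rcases hx with rfl | rfl <;> rcases hy with rfl | rfl
    · exact root_mem_BC h.nonneg'
    · exact h1
    · exact h2
    · exact root_mem_BC h.nonneg'

include h hΦ hε hZ hZl in
theorem msize_eq {x : ι ⊕ Unit} (hx : x ∈ encD c) :
    msize ((Z.ins l).C Φ ε) (Z.ins l).m s₁' x = l.2 + Z.m c := by
  unfold msize
  rw [h.bc_eq hΦ hε hZ hZl hx, Fintype.sum_sum_type]
  have h1 : ∑ k : ι, (if (Sum.inl k : ι ⊕ Unit) ∈ encD c then (Z.ins l).m (Sum.inl k) else 0) =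
      Z.m c := by
    have h2 : ∀ k : ι, (if (Sum.inl k : ι ⊕ Unit) ∈ encD c then (Z.ins l).m (Sum.inl k) else 0) =
        if k = c then Z.m k else 0 := by
      intro k
      by_cases hk : k = c
      · rw [if_pos (inl_mem_encD.2 hk), if_pos hk]
        rfl
      · rw [if_neg fun h' => hk (inl_mem_encD.1 h'), if_neg hk]
    rw [Finset.sum_congr rfl fun k _ => h2 k, Finset.sum_ite_eq' Finset.univ c Z.m,
      if_pos (Finset.mem_univ c)]
  rw [h1]
  have h3 : ∑ u : Unit, (if (Sum.inr u : ι ⊕ Unit) ∈ encD c then (Z.ins l).m (Sum.inr u) else 0) =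
      l.2 := by
    rw [Fintype.sum_unique, if_pos inr_mem_encD]
    rfl
  rw [h3, add_comm]

include h hΦ hε hZ hZl in
theorem m_of_mem {x : ι ⊕ Unit} (hx : x ∈ encD c) :
    (encW Φ ε Z l c s₁').m x = l.2 + Z.m c := by
  have h1 : (encW Φ ε Z l c s₁').m x =
      lmark ((Z.ins l).C Φ ε) (Z.ins l).m (encD c) (encB Z l c s₁') x := rfl
  rw [h1, lmark_of_mem hx, encB_of_mem hx]
  exact h.msize_eq hΦ hε hZ hZl hx

theorem m_inl {k : ι} (hk : k ≠ c) : (encW Φ ε Z l c s₁').m (Sum.inl k) = Z.m k := by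
  have h1 : (encW Φ ε Z l c s₁').m (Sum.inl k) =
      lmark ((Z.ins l).C Φ ε) (Z.ins l).m (encD c) (encB Z l c s₁') (Sum.inl k) := rfl
  rw [h1, lmark_of_not_mem fun h' => hk (inl_mem_encD.1 h')]
  rfl

include h hΦ hε hZ hZl in
theorem repl (hK : l.2 + Z.m c ≤ K) :
    Repl ((Z.ins l).C Φ ε) ((encW Φ ε Z l c s₁').C Φ ε) (Z.ins l).m (encD c)
      (encB Z l c s₁') K where
  symm _ _ _ hc := MW.C_symm _ hc
  closed := h.closed hΦ hε hZ hZl
  lines := h.lines hΦ hε hZ hZl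
  pos j _ := h.encB_nonneg j
  clean j hj := by
    rw [encB_of_mem hj, h.msize_eq hΦ hε hZ hZl hj]
    exact hK

include h hΦ hε hZ hZl in
/-- Infected in `Z + l` implies infected in the world after the encounter. -/
theorem inf (hK : l.2 + Z.m c ≤ K) {s : ℝ} {x : ι ⊕ Unit} (hx : (Z.ins l).Inf Φ ε K s x) :
    (encW Φ ε Z l c s₁').Inf Φ ε K s x :=
  (h.repl hΦ hε hZ hZl hK).infd_lines hx

/-! ### Touches -/

include h hΦ hε hZ hZl in
/-- A touch of `Z` by `l` is a touch of the pair `(Z₀ + c, Z₀ + l' + c')`. -/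
theorem touched (hK : l.2 + Z.m c ≤ K) {s : ℝ} (ht : Z.Touched Φ ε K (MW.line l) s) :
    CausalGen291.Touched (Z.C Φ ε) (Z.path Φ ε) ((encW Φ ε Z l c s₁').C Φ ε)
      ((encW Φ ε Z l c s₁').path Φ ε) (Subtype.val : Oth c → ι) (emb Sum.inl c)
      (Z.Inf Φ ε K) ((encW Φ ε Z l c s₁').Inf Φ ε K) s :=
  (h.enc hΦ hε hZ hZl).touched (fun _ hk => hk) (fun _ hx => h.inf hΦ hε hZ hZl hK hx) ht

include h hΦ hε hZ hZl in
/-- The converse, if no clean particle of the world after the encounter has both `l'` and `c'` in its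
past. -/
theorem touched_rev (hK : l.2 + Z.m c ≤ K) {s : ℝ} (hs : 0 ≤ s)
    (hN : NoDouble ((Z.ins l).C Φ ε) ((encW Φ ε Z l c s₁').C Φ ε) (Z.ins l).m (encD c)
      (encB Z l c s₁') K 0 s)
    (ht : CausalGen291.Touched (Z.C Φ ε) (Z.path Φ ε) ((encW Φ ε Z l c s₁').C Φ ε)
      ((encW Φ ε Z l c s₁').path Φ ε) (Subtype.val : Oth c → ι) (emb Sum.inl c)
      (Z.Inf Φ ε K) ((encW Φ ε Z l c s₁').Inf Φ ε K) s) :
    Z.Touched Φ ε K (MW.line l) s := by
  have hiff := fun x => (h.repl hΦ hε hZ hZl hK).infd_iff hN (t := s) ⟨hs, le_rfl⟩ x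
  refine (h.enc hΦ hε hZ hZl).touched_rev (fun _ hk => hk) (fun x hx => (hiff x).2 hx) ?_ ?_ ht
  · -- `c` is clean in `Z` up to `s₁`
    intro hc
    by_contra hlt
    push Not at hlt
    have h1 : msize (Z.C Φ ε) Z.m s c = Z.m c :=
      msize_of_no_contact hs fun r _ hr j hj => h.free r j (hr.trans hlt.le) hj
    have h2 : K < msize (Z.C Φ ε) Z.m s c := hc
    omega
  · intro hc
    by_contra hlt
    push Not at hlt
    have h1 : msize ((Z.ins l).C Φ ε) (Z.ins l).m s (Sum.inl c) ≤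
        msize ((Z.ins l).C Φ ε) (Z.ins l).m s₁' (Sum.inl c) :=
      msize_mono (hlt.le.trans h.le) _
    rw [h.msize_eq hΦ hε hZ hZl (inl_mem_encD.2 rfl)] at h1
    have h2 : K < msize ((Z.ins l).C Φ ε) (Z.ins l).m s (Sum.inl c) := hc
    omega

end Hit

/-! ### Relabelling: the world after the encounter is `Z₀ + l' + c'` -/

/-- The labels: `l'` gets the label of `l`, `c'` the label of `c`. -/
def encE (c : ι) : (Oth c ⊕ Unit) ⊕ Unit ≃ ι ⊕ Unit where
  toFun := Sum.elim (Sum.elim (fun k => Sum.inl k.1) fun _ => Sum.inr ()) fun _ => Sum.inl c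
  invFun := Sum.elim (fun k => if hk : k = c then Sum.inr () else Sum.inl (Sum.inl ⟨k, hk⟩))
    fun _ => Sum.inl (Sum.inr ())
  left_inv := by
    rintro ((⟨k, hk⟩ | u) | u)
    · simp [hk]
    · rfl
    · simp
  right_inv := by
    rintro (k | u)
    · by_cases hk : k = c
      · simp [hk]
      · simp [hk]
    · rfl

theorem back_eq_lineAt (τ : ℝ) (z : PhasePoint) : back (τ, z) = lineAt τ z 0 := by
  unfold back lineAt
  refine Prod.ext ?_ rfl
  simp only
  rw [zero_sub, neg_smul, sub_eq_add_neg]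

theorem Hit.comap_encW (h : Hit Φ ε Z l c s₁ s₁') (hΦ : AdmissiblePotential Φ) (hε : 0 < ε)
    (hZ : Z.Ok Φ ε) (hZl : (Z.ins l).Ok Φ ε) :
    (encW Φ ε Z l c s₁').comap (encE c) =
      ((rest Z c).ins (outL Φ ε Z l c s₁')).ins (outC Φ ε Z l c s₁') := by
  have hb : ((encW Φ ε Z l c s₁').comap (encE c)).b =
      (((rest Z c).ins (outL Φ ε Z l c s₁')).ins (outC Φ ε Z l c s₁')).b := by
    funext x
    rcases x with (⟨k, hk⟩ | u) | u
    · exact encB_inl hk
    · exact encB_of_mem inr_mem_encD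
    · exact encB_of_mem (inl_mem_encD.2 rfl)
  have hz : ((encW Φ ε Z l c s₁').comap (encE c)).z =
      (((rest Z c).ins (outL Φ ε Z l c s₁')).ins (outC Φ ε Z l c s₁')).z := by
    funext x
    rcases x with (⟨k, hk⟩ | u) | u
    · change rebirthPath (encB Z l c s₁') ((Z.ins l).path Φ ε) 0 (Sum.inl k) = Z.z k
      rw [hZl.bw.rebirth_eq hΦ hε (encB_of_not_mem fun h' => hk (inl_mem_encD.1 h')) le_rfl,
        MW.path_zero hΦ hε]
      rfl
    · change rebirthPath (encB Z l c s₁') ((Z.ins l).path Φ ε) 0 (Sum.inr ()) =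
        back (s₁', (Z.ins l).path Φ ε s₁' (Sum.inr ()))
      have h1 : encB Z l c s₁' (Sum.inr ()) = s₁' := encB_of_mem inr_mem_encD
      rw [rebirthPath_of_ge (by rw [h1]; exact h.nonneg'), h1, back_eq_lineAt]
    · change rebirthPath (encB Z l c s₁') ((Z.ins l).path Φ ε) 0 (Sum.inl c) =
        back (s₁', (Z.ins l).path Φ ε s₁' (Sum.inl c))
      have h1 : encB Z l c s₁' (Sum.inl c) = s₁' := encB_of_mem (inl_mem_encD.2 rfl)
      rw [rebirthPath_of_ge (by rw [h1]; exact h.nonneg'), h1, back_eq_lineAt]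
  have hm : ((encW Φ ε Z l c s₁').comap (encE c)).m =
      (((rest Z c).ins (outL Φ ε Z l c s₁')).ins (outC Φ ε Z l c s₁')).m := by
    funext x
    rcases x with (⟨k, hk⟩ | u) | u
    · exact Hit.m_inl hk
    · exact h.m_of_mem hΦ hε hZ hZl inr_mem_encD
    · exact h.m_of_mem hΦ hε hZ hZl (inl_mem_encD.2 rfl)
  have key : ∀ {κ : Type} (A B : MW κ), A.b = B.b → A.z = B.z → A.m = B.m → A = B := by
    intro κ A B h1 h2 h3
    cases A
    cases B
    simp only at h1 h2 h3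
    subst h1 h2 h3
    rfl
  exact key _ _ hb hz hm

/-! ### The common parts -/

theorem com_rest (Z : MW ι) (c : ι) :
    MW.Com (rest Z c) Z id (Subtype.val : Oth c → ι) :=
  ⟨Function.injective_id, Subtype.val_injective, fun _ => rfl, fun _ => rfl⟩

namespace Hit

variable (h : Hit Φ ε Z l c s₁ s₁') (hΦ : AdmissiblePotential Φ) (hε : 0 < ε)
  (hZ : Z.Ok Φ ε) (hZl : (Z.ins l).Ok Φ ε)

theorem emb_inj : Function.Injective (emb (Sum.inl : ι → ι ⊕ Unit) c) :=
  fun _ _ hab => Subtype.ext (Sum.inl_injective hab)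

theorem com_rest_encW : MW.Com (rest Z c) (encW Φ ε Z l c s₁') id (emb Sum.inl c) where
  inj₁ := Function.injective_id
  inj₂ := emb_inj
  b k := (encB_inl k.2).symm
  m k := (m_inl k.2).symm

include h hΦ hε hZ hZl in
theorem com_mid : MW.Com ((rest Z c).ins (outL Φ ε Z l c s₁')) (encW Φ ε Z l c s₁') id
    (fun x => encE c (Sum.inl x)) where
  inj₁ := Function.injective_id
  inj₂ _ _ hab := Sum.inl_injective ((encE c).injective hab)
  b x := by
    have := congrArg MW.b (h.comap_encW hΦ hε hZ hZl)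
    exact (congrFun this (Sum.inl x)).symm
  m x := by
    have := congrArg MW.m (h.comap_encW hΦ hε hZ hZl)
    exact (congrFun this (Sum.inl x)).symm

include h hΦ hε hZ hZl in
theorem mid (hR : (rest Z c).Ok Φ ε) (hRl : ((rest Z c).ins (outL Φ ε Z l c s₁')).Ok Φ ε)
    (T : ℝ) : Mid T (Z.C Φ ε) ((encW Φ ε Z l c s₁').C Φ ε) (Z.path Φ ε)
      ((encW Φ ε Z l c s₁').path Φ ε) ((rest Z c).C Φ ε) ((rest Z c).path Φ ε)
      (((rest Z c).ins (outL Φ ε Z l c s₁')).C Φ ε)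
      (((rest Z c).ins (outL Φ ε Z l c s₁')).path Φ ε) Sum.inl Sum.inl
      (fun x => encE c (Sum.inl x)) where
  comm _ := rfl
  pc := (com_rest Z c).pair hΦ hε hR hZ T
  pl := (MW.com_add (rest Z c) (MW.line (outL Φ ε Z l c s₁'))).pair hΦ hε hR hRl T
  plc := (h.com_mid hΦ hε hZ hZl).pair hΦ hε hRl (h.ok hΦ hε hZ hZl) T
  plc₀ := com_rest_encW.pair hΦ hε hR (h.ok hΦ hε hZ hZl) T

end Hit

/-- `Z` is `Z₀ + c`: the line `cl` has the birth, the free extension and the mark of `c`. -/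
structure IsLine (Z : MW ι) (c : ι) (cl : ML) : Prop where
  b : Z.b c = cl.1.1
  z : Z.z c = back cl.1
  m : Z.m c = cl.2

theorem comap_splitOff {cl : ML} (hcl : IsLine Z c cl) :
    Z.comap (splitOff c) = (rest Z c).ins cl := by
  unfold rest MW.ins MW.add MW.comap MW.line MW.lines
  congr 1
  · funext x
    rcases x with x | x
    · rfl
    · exact hcl.b
  · funext x
    rcases x with x | x
    · rfl
    · exact hcl.z
  · funext x
    rcases x with x | x
    · rfl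
    · exact hcl.m

theorem rel_c (hΦ : AdmissiblePotential Φ) (hε : 0 < ε) {cl : ML} (hcl : IsLine Z c cl) :
    Rel ((rest Z c).C Φ ε) ((rest Z c).path Φ ε) (Z.C Φ ε) (Z.path Φ ε) id
      (Subtype.val : Oth c → ι) ((rest Z c).C Φ ε) ((rest Z c).path Φ ε)
      (((rest Z c).ins cl).C Φ ε) (((rest Z c).ins cl).path Φ ε) id Sum.inl
      (Equiv.refl (Oth c)) (Equiv.refl (Oth c)) (splitOff c) where
  c₁ _ _ _ := Iff.rfl
  c₂ s j k := by rw [← comap_splitOff hcl]; exact C_comap hΦ hε Z (splitOff c) s j k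
  s₁ _ _ := rfl
  s₂ s j := by rw [← comap_splitOff hcl]; exact path_comap hΦ hε Z (splitOff c) s j
  m₁ _ := rfl
  m₂ _ := rfl

theorem touched_c_iff (hΦ : AdmissiblePotential Φ) (hε : 0 < ε) {cl : ML}
    (hcl : IsLine Z c cl) {s : ℝ} :
    (rest Z c).Touched Φ ε K (MW.line cl) s ↔
      CausalGen291.Touched ((rest Z c).C Φ ε) ((rest Z c).path Φ ε) (Z.C Φ ε) (Z.path Φ ε) id
        (Subtype.val : Oth c → ι) ((rest Z c).Inf Φ ε K) (Z.Inf Φ ε K) s :=
  (rel_c hΦ hε hcl).touched_iff (fun _ => Iff.rfl) fun j => by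
    change ((rest Z c).ins cl).Inf Φ ε K s j ↔ _
    rw [← comap_splitOff hcl]
    exact Inf_comap hΦ hε K Z (splitOff c) s j

namespace Hit

variable (h : Hit Φ ε Z l c s₁ s₁') (hΦ : AdmissiblePotential Φ) (hε : 0 < ε)
  (hZ : Z.Ok Φ ε) (hZl : (Z.ins l).Ok Φ ε)

include h hΦ hε hZ hZl in
theorem rel_c' : Rel (((rest Z c).ins (outL Φ ε Z l c s₁')).C Φ ε)
    (((rest Z c).ins (outL Φ ε Z l c s₁')).path Φ ε) ((encW Φ ε Z l c s₁').C Φ ε)
    ((encW Φ ε Z l c s₁').path Φ ε) id (fun x => encE c (Sum.inl x))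
    (((rest Z c).ins (outL Φ ε Z l c s₁')).C Φ ε)
    (((rest Z c).ins (outL Φ ε Z l c s₁')).path Φ ε)
    ((((rest Z c).ins (outL Φ ε Z l c s₁')).ins (outC Φ ε Z l c s₁')).C Φ ε)
    ((((rest Z c).ins (outL Φ ε Z l c s₁')).ins (outC Φ ε Z l c s₁')).path Φ ε) id Sum.inl
    (Equiv.refl _) (Equiv.refl _) (encE c) where
  c₁ _ _ _ := Iff.rfl
  c₂ s j k := by rw [← h.comap_encW hΦ hε hZ hZl]; exact C_comap hΦ hε _ (encE c) s j k
  s₁ _ _ := rfl
  s₂ s j := by rw [← h.comap_encW hΦ hε hZ hZl]; exact path_comap hΦ hε _ (encE c) s j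
  m₁ _ := rfl
  m₂ _ := rfl

include h hΦ hε hZ hZl in
theorem touched_c'_iff {s : ℝ} :
    ((rest Z c).ins (outL Φ ε Z l c s₁')).Touched Φ ε K (MW.line (outC Φ ε Z l c s₁')) s ↔
      CausalGen291.Touched (((rest Z c).ins (outL Φ ε Z l c s₁')).C Φ ε)
        (((rest Z c).ins (outL Φ ε Z l c s₁')).path Φ ε) ((encW Φ ε Z l c s₁').C Φ ε)
        ((encW Φ ε Z l c s₁').path Φ ε) id (fun x => encE c (Sum.inl x))
        (((rest Z c).ins (outL Φ ε Z l c s₁')).Inf Φ ε K) ((encW Φ ε Z l c s₁').Inf Φ ε K) s :=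
  (h.rel_c' hΦ hε hZ hZl).touched_iff (fun _ => Iff.rfl) fun j => by
    change (((rest Z c).ins (outL Φ ε Z l c s₁')).ins (outC Φ ε Z l c s₁')).Inf Φ ε K s j ↔ _
    rw [← h.comap_encW hΦ hε hZ hZl]
    exact Inf_comap hΦ hε K _ (encE c) s j

include h hΦ hε hZ hZl in
/-- **(1.6), touched form.** -/
theorem one_touched (hR : (rest Z c).Ok Φ ε)
    (hRl : ((rest Z c).ins (outL Φ ε Z l c s₁')).Ok Φ ε) (hK : l.2 + Z.m c ≤ K) {cl : ML}
    (hcl : IsLine Z c cl) {s : ℝ} (hs : 0 ≤ s) (ht : Z.Touched Φ ε K (MW.line l) s) :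
    (rest Z c).Touched Φ ε K (MW.line cl) s ∨
      (rest Z c).Touched Φ ε K (MW.line (outL Φ ε Z l c s₁')) s ∨
      ((rest Z c).ins (outL Φ ε Z l c s₁')).Touched Φ ε K (MW.line (outC Φ ε Z l c s₁')) s := by
  rw [touched_c_iff hΦ hε hcl, h.touched_c'_iff hΦ hε hZ hZl]
  exact one_contact (h.enc hΦ hε hZ hZl) (h.mid hΦ hε hZ hZl hR hRl s) ⟨hs, le_rfl⟩
    (fun _ hk => hk) (fun _ hx => h.inf hΦ hε hZ hZl hK hx)
    (fun _ hk => (com_rest Z c).coh hk) (fun _ hk => com_rest_encW.coh hk)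
    (fun _ hk => (MW.com_add (rest Z c) (MW.line (outL Φ ε Z l c s₁'))).coh hk)
    (fun _ hk => (h.com_mid hΦ hε hZ hZl).coh hk) ht

include h hΦ hε hZ hZl in
/-- **(1.6), the one-contact lemma.** -/
theorem one (hR : (rest Z c).Ok Φ ε)
    (hRl : ((rest Z c).ins (outL Φ ε Z l c s₁')).Ok Φ ε) (hK : l.2 + Z.m c ≤ K) {cl : ML}
    (hcl : IsLine Z c cl) (T : ℝ) :
    min ((rest Z c).thetaL Φ ε K T cl) (min ((rest Z c).thetaL Φ ε K T (outL Φ ε Z l c s₁'))
      (((rest Z c).ins (outL Φ ε Z l c s₁')).thetaL Φ ε K T (outC Φ ε Z l c s₁'))) ≤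
        Z.thetaL Φ ε K T l := by
  by_cases hex : ∃ s ∈ Icc 0 T, Z.Touched Φ ε K (MW.line l) s
  · have h1 : Z.thetaL Φ ε K T l = sInf {s | s ∈ Icc 0 T ∧ Z.Touched Φ ε K (MW.line l) s} := by
      unfold MW.thetaL MW.theta CausalGen291.theta
      exact if_pos hex
    rw [h1]
    obtain ⟨s, hs, hs'⟩ := hex
    refine le_csInf ⟨s, hs, hs'⟩ ?_
    rintro r ⟨hr, hr'⟩
    rcases h.one_touched hΦ hε hZ hZl hR hRl hK hcl hr.1 hr' with h2 | h2 | h2
    · exact (min_le_left _ _).trans (MW.theta_le_of_touched hr h2)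
    · exact (min_le_right _ _).trans ((min_le_left _ _).trans (MW.theta_le_of_touched hr h2))
    · exact (min_le_right _ _).trans ((min_le_right _ _).trans (MW.theta_le_of_touched hr h2))
  · push Not at hex
    have h1 : Z.thetaL Φ ε K T l = T + 1 := MW.theta_eq_of_not_touched hex
    rw [h1]
    exact (min_le_left _ _).trans MW.theta_le

end Hit

/-! ### With other labels for `Z₀` -/

theorem thetaL_relabel {ι₀ : Type} [Fintype ι₀] (hΦ : AdmissiblePotential Φ) (hε : 0 < ε)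
    {W : MW ι} {Z₀ : MW ι₀} (a : ι₀ ≃ ι) (hZ₀ : W.comap a = Z₀) (T : ℝ) (l : ML) :
    Z₀.thetaL Φ ε K T l = W.thetaL Φ ε K T l := by
  rw [← hZ₀]
  exact theta_comap_left hΦ hε K T W (MW.line l) a

theorem ins_comap {ι₀ : Type} {W : MW ι} {Z₀ : MW ι₀} (a : ι₀ ≃ ι) (hZ₀ : W.comap a = Z₀)
    (l : ML) : (W.ins l).comap (Equiv.sumCongr a (Equiv.refl Unit)) = Z₀.ins l := by
  rw [← hZ₀]
  exact (add_comap W (MW.line l) a (Equiv.refl Unit)).symm

theorem ok_comap {ι₀ : Type} [Fintype ι₀] (hΦ : AdmissiblePotential Φ) (hε : 0 < ε)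
    {W : MW ι} (hW : W.Ok Φ ε) (a : ι₀ ≃ ι) : (W.comap a).Ok Φ ε where
  bw := (hW.bw.equiv a).congr fun t _ => funext fun i => path_comap hΦ hε W a t i
  sep x y hxy hb := by
    obtain ⟨δ, hδ, hs⟩ := hW.sep (a x) (a y) (fun h' => hxy (a.injective h')) hb
    refine ⟨δ, hδ, fun s h1 h2 => ?_⟩
    rw [path_comap hΦ hε, path_comap hΦ hε]
    exact hs s h1 h2

theorem ok_of_comap {ι₀ : Type} [Fintype ι₀] (hΦ : AdmissiblePotential Φ) (hε : 0 < ε)
    {W : MW ι} {Z₀ : MW ι₀} (a : ι₀ ≃ ι) (hZ₀ : W.comap a = Z₀) (h : Z₀.Ok Φ ε) : W.Ok Φ ε := by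
  have h1 : Z₀.comap a.symm = W := by
    rw [← hZ₀]
    unfold MW.comap
    simp only [Equiv.apply_symm_apply]
  rw [← h1]
  exact ok_comap hΦ hε h a.symm

namespace Hit

variable (h : Hit Φ ε Z l c s₁ s₁') (hΦ : AdmissiblePotential Φ) (hε : 0 < ε)
  (hZ : Z.Ok Φ ε) (hZl : (Z.ins l).Ok Φ ε)

include h hΦ hε hZ hZl in
/-- **(1.6)** with other labels for `Z₀`. -/
theorem one' {ι₀ : Type} [Fintype ι₀] {Z₀ : MW ι₀} (a : ι₀ ≃ Oth c)
    (hZ₀ : (rest Z c).comap a = Z₀) (hR : Z₀.Ok Φ ε)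
    (hRl : (Z₀.ins (outL Φ ε Z l c s₁')).Ok Φ ε) (hK : l.2 + Z.m c ≤ K) {cl : ML}
    (hcl : IsLine Z c cl) (T : ℝ) :
    min (Z₀.thetaL Φ ε K T cl) (min (Z₀.thetaL Φ ε K T (outL Φ ε Z l c s₁'))
      ((Z₀.ins (outL Φ ε Z l c s₁')).thetaL Φ ε K T (outC Φ ε Z l c s₁'))) ≤
        Z.thetaL Φ ε K T l := by
  have h1 := h.one hΦ hε hZ hZl (ok_of_comap hΦ hε a hZ₀ hR)
    (ok_of_comap hΦ hε _ (ins_comap a hZ₀ (outL Φ ε Z l c s₁')) hRl) hK hcl T
  rw [thetaL_relabel hΦ hε a hZ₀, thetaL_relabel hΦ hε a hZ₀,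
    thetaL_relabel hΦ hε _ (ins_comap a hZ₀ (outL Φ ε Z l c s₁'))]
  exact h1

end Hit

/-- Labels for `Z = (w + lines F) + d`, `c` the line `r` of the family: `Z₀ = (w + d) + lines
(F without r)`. -/
def famE (ι κ : Type) (r : κ) :
    (ι ⊕ Unit) ⊕ {k : κ // k ≠ r} ≃ Oth (Sum.inl (Sum.inr r) : (ι ⊕ κ) ⊕ Unit) where
  toFun := Sum.elim (Sum.elim (fun i => ⟨Sum.inl (Sum.inl i), by simp⟩)
    fun u => ⟨Sum.inr u, by simp⟩) fun k => ⟨Sum.inl (Sum.inr k.1), fun h => k.2 (by simpa using h)⟩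
  invFun x := match x with
    | ⟨Sum.inl (Sum.inl i), _⟩ => Sum.inl (Sum.inl i)
    | ⟨Sum.inl (Sum.inr k), hk⟩ => Sum.inr ⟨k, fun h => hk (by rw [h])⟩
    | ⟨Sum.inr u, _⟩ => Sum.inl (Sum.inr u)
  left_inv := by
    rintro ((i | u) | k) <;> rfl
  right_inv := by
    rintro ⟨(i | k) | u, hx⟩ <;> rfl

theorem rest_fam {κ : Type} (w : MW ι) (F : κ → ML) (r : κ) (d : ML) :
    (rest ((w.add (MW.lines F)).ins d) (Sum.inl (Sum.inr r))).comap (famE ι κ r) =
      (w.ins d).add (MW.lines fun k : {k : κ // k ≠ r} => F k) := by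
  unfold rest MW.ins MW.add MW.comap MW.line MW.lines
  congr 1 <;> · funext x; rcases x with (x | x) | x <;> rfl

/-- **(1.6) for E6**: `e` hits the root line `r` of the family `F` in the world `(w + lines F) + d`. -/
theorem Hit.one_fam {κ : Type} [Fintype κ] {w : MW ι} {F : κ → ML} {r : κ} {d e : ML}
    (h : Hit Φ ε ((w.add (MW.lines F)).ins d) e (Sum.inl (Sum.inr r)) s₁ s₁')
    (hΦ : AdmissiblePotential Φ) (hε : 0 < ε) (hZ : ((w.add (MW.lines F)).ins d).Ok Φ ε)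
    (hZl : (((w.add (MW.lines F)).ins d).ins e).Ok Φ ε) {Z₀ : MW ((ι ⊕ Unit) ⊕ {k : κ // k ≠ r})}
    (hZ₀ : Z₀ = (w.ins d).add (MW.lines fun k : {k : κ // k ≠ r} => F k)) (hR : Z₀.Ok Φ ε)
    (hRl : (Z₀.ins (outL Φ ε ((w.add (MW.lines F)).ins d) e (Sum.inl (Sum.inr r)) s₁')).Ok Φ ε)
    (hK : e.2 + (F r).2 ≤ K) (T : ℝ) :
    min (Z₀.thetaL Φ ε K T (F r))
      (min (Z₀.thetaL Φ ε K T (outL Φ ε ((w.add (MW.lines F)).ins d) e (Sum.inl (Sum.inr r)) s₁'))
      ((Z₀.ins (outL Φ ε ((w.add (MW.lines F)).ins d) e (Sum.inl (Sum.inr r)) s₁')).thetaL Φ ε K T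
        (outC Φ ε ((w.add (MW.lines F)).ins d) e (Sum.inl (Sum.inr r)) s₁'))) ≤
      ((w.add (MW.lines F)).ins d).thetaL Φ ε K T e := by
  subst hZ₀
  exact h.one' hΦ hε hZ hZl (famE ι κ r) (rest_fam w F r d) hR hRl hK ⟨rfl, rfl, rfl⟩ T

end

end Crest.Agent.R122.Ins45
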