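import Crest.Agent.R122.XClean_547
import Crest.Agent.R122.LNReachGD_818

/-!
# Row 122, LN1 (helper547): everything cleanly influenced by an independent line is reached

* `GD2.reachAll_line` : (RA) for the part `{p}` (helper818's `reachAll_of_glue`; no exit data).
* `gd2_x0` : the glued worlds of `cfg w` and `cfg w + x` over the joint system; `gd2_xd` : of
  `cfg w + d` and `cfg w + d + x`, `d` an exit of the structure.
* `reachAll_x0`, `reachAll_xd` : run of the line, or bad sets / hits of the joint system, or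
  `ReachAll` of the line.
-/

set_option autoImplicit false
set_option linter.unusedSectionVars false
set_option maxHeartbeats 400000

open MeasureTheory Set Filter Topology
open scoped ENNReal
open Crest.AnalysisR.Kinetic
open Crest.Agent.R122.EDefs602 Crest.Agent.R122.GIV566 Crest.Agent.R122.Ins45
open Crest.Agent.R122.VL581 Crest.Agent.R122.VL581.VSys Crest.Agent.R122.VLInst442
open Crest.Agent.R122.LNInst491 Crest.Agent.R122.LN304 Crest.Agent.R122.LNg410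
open Crest.Agent.R122.LNBridge968 Crest.Agent.R122.LNPart424 Crest.Agent.R122.LNEv968
open Crest.Agent.R122.LNEv818
open Crest.Agent.R122.PWGlue491 Crest.Agent.R122.PWInst442 Crest.Agent.R122.PW365
open Crest.Agent.R122.Inf879 Crest.Agent.R122.Tree674
open scoped Classical

noncomputable section

namespace Crest.Agent.R122.XG547

section generic

variable {J κ ι : Type} [Fintype J] [Fintype ι] [Nonempty κ] {M : VSys J κ} {c ℓ ς : ℝ}
  {Z : J → PhasePoint} {cl : J → Finset J} {W : MW ι} {x : ML} {f : ι ↪ J} {p : J}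
  {hp : ∀ i, f i ≠ p} {π : Finset J} {N K m : ℕ} {T : ℝ}

/-- **(RA) for an independent line.** -/
theorem reachAll_line (G : GD2 M Z cl W x f p hp) (hΦ : AdmissiblePotential M.Φ) (hε : 0 < M.ε)
    (hT0 : 0 ≤ M.T) (hTM : T ≤ M.T) (hc : 1 ≤ c) (hℓς : 2 * ℓ ≤ ς)
    (hCB : CB2 M Z cl W x f p hp T) (hcl : ∀ j, cl j ⊆ π) (hm : ∀ k, 1 ≤ W.m k)
    (hP : Parts M c Z (X692.Lx π p)) (hNB : NoBad M c ℓ ς Z (X692.Lx π p) N)
    (hNT : NoTwo M c Z (X692.Lx π p) N)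
    (hBH : ∀ b, ¬ BadHit M c Z (Xb M Z cl W x f p hp b) (Cb M Z cl W x f p hp b)
      (X692.Lx π p) N) {n : ℕ}
    {w : Config n} {g : Fin n ↪ J} (hw : ∀ i, w i = Z (g i)) (hgb : ∀ i, M.b (g i) = 0)
    (hgo : ∀ i, M.o ≠ some (g i)) (hgas : ∀ i, i ∉ uni (X692.Lx π p) → i ∈ range g)
    (hgf : ∀ i, ∃ k, f k = g i) (m : ℕ) (hN : (uni (X692.Lx π p)).card + 2 * K * (m + 2) ≤ N)
    (hbp : M.b p = x.1.1) (hzp : Z p = back x.1) :
    LinkM547.Run M.Φ M.ε M.T K m (MW.line x) () w ∨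
      ReachAll (Reach M c Z (X692.Lx π p) {p} p N) M.Φ M.ε K T W f x p := by
  have hpx : p ∈ ({p} : Finset J) := Finset.mem_singleton_self p
  rcases G.reachAll_of_glue (K := K) hΦ hε hT0 hTM hc hℓς hCB
    (fun j => (hcl j).trans (sub_uni X692.pi_mem)) (fun k _ => hm k) hP hNB hNT hBH X692.p_mem hpx
    (fun _ => LNPartS291.partS_singleton p) (LNPartS291.partD_singleton p) hw hgb hgo hgas hgf m
    hN with h | h
  · obtain ⟨D, hD, hpD, h⟩ := h
    have hDp : D = {p} := Finset.Subset.antisymm hD (Finset.singleton_subset_iff.2 hpD)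
    refine Or.inl (h Unit (MW.line x) ⟨fun _ => p, fun _ _ _ => rfl⟩ () ?_ rfl)
    refine ⟨fun _ => hbp.symm, fun _ => hzp.symm, fun _ => G.obs, fun j => ?_, ?_⟩
    · rw [hDp, Finset.mem_singleton]
      exact ⟨fun h => ⟨(), h.symm⟩, fun ⟨_, h⟩ => h.symm⟩
    · rw [hDp]
      intro i hi ho b j hj hj' hji hbj
      rw [Finset.mem_singleton] at hi hj
      exact absurd (hj.trans hi.symm) hji
  · right
    intro u hu hθ y hy hb
    obtain ⟨h1, h2⟩ := h u hu hθ y hy hb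
    exact ⟨h1.mono hN, fun k hk => (h2 k hk).mono hN⟩

end generic

/-! ### The joint system -/

section joint

variable {Φ : Space3 → ℝ} {T t ε c ℓ ς : ℝ} {S : Type} [Fintype S] {n N K : ℕ} {b : S → ℝ}
  {z : S → PhasePoint} {w : Config n} {x d : ML} {s : S}
  {cl : Fin n ⊕ S → Finset (Fin n ⊕ S)}

/-- Labels of the gas and of the label `a`, with a new label `a'`. -/
theorem lab1_x_ne (n : ℕ) (s : S) (i : Fin n ⊕ Unit) :
    lab1 n (Sum.inl s : S ⊕ Unit) i ≠ Sum.inr (Sum.inr ()) :=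
  lab1_ne (d := (Sum.inl s : S ⊕ Unit)) (a := Sum.inr ()) (by simp) i

/-- The glued worlds of `cfg w` and `cfg w + x`. -/
theorem gd2_x0 (hΦ : AdmissiblePotential Φ) (hε : 0 < ε) (hB : Base (gsys Φ T ε n b) w z cl)
    (hx0 : 0 ≤ x.1.1) (hw : (MW.cfg w).Ok Φ ε) (hok : ((MW.cfg w).ins x).Ok Φ ε) :
    GD2 (Mx Φ T ε n b x) (Zx w z x) (clX n S cl) (MW.cfg w) x (gasE n (S ⊕ Unit))
      (X692.px n S) (gasE_ne (Sum.inr () : S ⊕ Unit)) where
  g0 := (base_eS (y := back x.1) hΦ hε hB).gd0 (M := Mx Φ T ε n b x) hΦ hε hw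
  g1 := (base_eS (y := back x.1) hΦ hε hB).gd1 (M := Mx Φ T ε n b x) hΦ hε (lab_px hx0) hok
  ok := hw
  okA := hok

/-- The glued worlds of `cfg w + d` and `cfg w + d + x`. -/
theorem gd2_xd (hΦ : AdmissiblePotential Φ) (hε : 0 < ε) (hB : Base (gsys Φ T ε n b) w z cl)
    (hd : Lab (gsys Φ T ε n b) (Sum.elim w z) cl (Sum.inr s) d.1.1 (back d.1))
    (hx0 : 0 ≤ x.1.1) (hok : ((MW.cfg w).ins d).Ok Φ ε)
    (hokx : (((MW.cfg w).ins d).ins x).Ok Φ ε) :
    GD2 (Mx Φ T ε n b x) (Zx w z x) (clX n S cl) ((MW.cfg w).ins d) x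
      (lab1 n (Sum.inl s : S ⊕ Unit)) (X692.px n S) (lab1_x_ne n s) where
  g0 := (base_eS (y := back x.1) hΦ hε hB).gd1 (M := Mx Φ T ε n b x) hΦ hε (lab_eS hΦ hε hd) hok
  g1 := (base_eS (y := back x.1) hΦ hε hB).gd2 (M := Mx Φ T ε n b x) hΦ hε (by simp)
    (lab_eS hΦ hε hd) (lab_px hx0) hokx
  ok := hok
  okA := hokx

theorem none_ne (j : Fin n ⊕ (S ⊕ Unit)) : (Mx Φ T ε n b x).o ≠ some j := by
  intro h
  have h1 : (none : Option (Fin n ⊕ (S ⊕ Unit))) = some _ := h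
  cases h1

/-- The parts of the joint system. -/
theorem parts_x (hcS : (Mx Φ T ε n b x).Conn c (X692.piS n S) (Zx w z x))
    (hw : w ∈ PairExcluded ε n) :
    Parts (Mx Φ T ε n b x) c (Zx w z x) (X692.Lx (X692.piS n S) (X692.px n S)) := by
  refine X692.parts_Lx hcS (fun j _ _ => none_ne j) (fun j h1 h2 => ?_) fun i j hi hi' hj hj' hij => ?_
  · rcases j with i | i | i
    · exact le_rfl
    · exact absurd (X692.mem_piS.2 ⟨i, rfl⟩) h1
    · exact absurd rfl h2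
  · rcases i with i | i | i
    · rcases j with j | j | j
      · exact hw i j fun h => hij (by rw [h])
      · exact absurd (X692.mem_piS.2 ⟨j, rfl⟩) hj
      · exact absurd rfl hj'
    · exact absurd (X692.mem_piS.2 ⟨i, rfl⟩) hi
    · exact absurd rfl hi'

theorem gas_x {j : Fin n ⊕ (S ⊕ Unit)}
    (hj : j ∉ uni (X692.Lx (X692.piS n S) (X692.px n S))) : ∃ i, j = Sum.inl i := by
  rw [X692.mem_uni_Lx, not_or] at hj
  rcases j with i | i | i
  · exact ⟨i, rfl⟩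
  · exact absurd (X692.mem_piS.2 ⟨i, rfl⟩) hj.1
  · exact absurd rfl hj.2

theorem card_uni_x : (uni (X692.Lx (X692.piS n S) (X692.px n S))).card = Fintype.card S + 1 := by
  have h1 : uni (X692.Lx (X692.piS n S) (X692.px n S)) =
      insert (X692.px n S) (X692.piS n S) := by
    ext j
    rw [X692.mem_uni_Lx, Finset.mem_insert, or_comm]
  rw [h1, Finset.card_insert_of_notMem X692.px_notMem_piS]
  unfold X692.piS
  rw [Finset.card_map, Finset.card_univ]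

/-- **The line, base `cfg w`.** -/
theorem reachAll_x0 (hΦ : AdmissiblePotential Φ) (hε : 0 < ε) (hT0 : 0 ≤ T) (htT : t ≤ T)
    (hc : 1 ≤ c) (hℓς : 2 * ℓ ≤ ς) (hB : Base (gsys Φ T ε n b) w z cl) (hx0 : 0 ≤ x.1.1)
    (hcS : (Mx Φ T ε n b x).Conn c (X692.piS n S) (Zx w z x)) (hw : w ∈ PairExcluded ε n)
    (hok : ((MW.cfg w).ins x).Ok Φ ε) (m : ℕ)
    (hN : Fintype.card S + 1 + 2 * K * (m + 2) ≤ N)
    (hNB : NoBad (Mx Φ T ε n b x) c ℓ ς (Zx w z x)
      (X692.Lx (X692.piS n S) (X692.px n S)) N)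
    (hNT : NoTwo (Mx Φ T ε n b x) c (Zx w z x) (X692.Lx (X692.piS n S) (X692.px n S)) N)
    (hBH : ∀ β, ¬ BadHit (Mx Φ T ε n b x) c (Zx w z x)
      (Xb (Mx Φ T ε n b x) (Zx w z x) (clX n S cl) (MW.cfg w) x (gasE n (S ⊕ Unit))
        (X692.px n S) (gasE_ne (Sum.inr () : S ⊕ Unit)) β)
      (Cb (Mx Φ T ε n b x) (Zx w z x) (clX n S cl) (MW.cfg w) x (gasE n (S ⊕ Unit))
        (X692.px n S) (gasE_ne (Sum.inr () : S ⊕ Unit)) β)
      (X692.Lx (X692.piS n S) (X692.px n S)) N) :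
    LinkM547.Run Φ ε T K m (MW.line x) () w ∨
      ReachAll (Reach (Mx Φ T ε n b x) c (Zx w z x)
        (X692.Lx (X692.piS n S) (X692.px n S)) {X692.px n S} (X692.px n S) N) Φ ε K t
        (MW.cfg w) Sum.inl x (X692.px n S) := by
  have hwok : (MW.cfg w).Ok Φ ε := Unw410.cfg_ok hΦ hε hw
  have G := gd2_x0 (T := T) (b := b) (z := z) (cl := cl) hΦ hε hB hx0 hwok hok
  exact reachAll_line (M := Mx Φ T ε n b x) (π := X692.piS n S) G hΦ hε hT0 htT hc hℓς
    ⟨cleanB_x0 hB G.g0 t, cleanB_x1 hB G.g1 t⟩ (cl_sub_piS hB) (fun _ => le_rfl)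
    (parts_x hcS hw) hNB hNT hBH (g := gasE n (S ⊕ Unit)) (fun _ => rfl) (fun _ => rfl)
    (fun _ => none_ne _) (fun j hj => by
      obtain ⟨i, rfl⟩ := gas_x hj
      exact ⟨i, rfl⟩) (fun i => ⟨i, rfl⟩) m (by rw [card_uni_x]; exact hN) rfl rfl

/-- **The line, base `cfg w + d`**, `d` an exit of the structure. -/
theorem reachAll_xd (hΦ : AdmissiblePotential Φ) (hε : 0 < ε) (hT0 : 0 ≤ T) (htT : t ≤ T)
    (hc : 1 ≤ c) (hℓς : 2 * ℓ ≤ ς) (hB : Base (gsys Φ T ε n b) w z cl)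
    (hd : Lab (gsys Φ T ε n b) (Sum.elim w z) cl (Sum.inr s) d.1.1 (back d.1))
    (hd0 : 0 ≤ d.1.1) (hx0 : 0 ≤ x.1.1) (hdm : 1 ≤ d.2)
    (hcS : (Mx Φ T ε n b x).Conn c (X692.piS n S) (Zx w z x)) (hw : w ∈ PairExcluded ε n)
    (hok : ((MW.cfg w).ins d).Ok Φ ε) (hokx : (((MW.cfg w).ins d).ins x).Ok Φ ε) (m : ℕ)
    (hN : Fintype.card S + 1 + 2 * K * (m + 2) ≤ N)
    (hNB : NoBad (Mx Φ T ε n b x) c ℓ ς (Zx w z x)
      (X692.Lx (X692.piS n S) (X692.px n S)) N)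
    (hJ : ¬ X692.Joint (Mx Φ T ε n b x) c (Zx w z x) (X692.piS n S) (X692.px n S) N)
    (hBH : ∀ β, ¬ BadHit (Mx Φ T ε n b x) c (Zx w z x)
      (Xb (Mx Φ T ε n b x) (Zx w z x) (clX n S cl) ((MW.cfg w).ins d) x
        (lab1 n (Sum.inl s : S ⊕ Unit)) (X692.px n S) (lab1_x_ne n s) β)
      (Cb (Mx Φ T ε n b x) (Zx w z x) (clX n S cl) ((MW.cfg w).ins d) x
        (lab1 n (Sum.inl s : S ⊕ Unit)) (X692.px n S) (lab1_x_ne n s) β)
      (X692.Lx (X692.piS n S) (X692.px n S)) N) :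
    LinkM547.Run Φ ε T K m (MW.line x) () w ∨
      ReachAll (Reach (Mx Φ T ε n b x) c (Zx w z x)
        (X692.Lx (X692.piS n S) (X692.px n S)) {X692.px n S} (X692.px n S) N) Φ ε K t
        ((MW.cfg w).ins d) (lab1 n (Sum.inl s : S ⊕ Unit)) x (X692.px n S) := by
  have hwok : (MW.cfg w).Ok Φ ε := Unw410.cfg_ok hΦ hε hw
  have G := gd2_xd (T := T) (b := b) (z := z) (cl := cl) hΦ hε hB hd hx0 hok hokx
  have hne : (Sum.inl s : S ⊕ Unit) ≠ Sum.inr () := by simp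
  have hcb := cleanB_xdx (c := c) (N := N) hΦ hε hc hB hd hd0 hx0 hcS hJ (by omega) hwok hok hokx
    hne G.g1 htT
  exact reachAll_line (M := Mx Φ T ε n b x) (π := X692.piS n S) G hΦ hε hT0 htT hc hℓς
    ⟨cleanB_xd hB G.g0 t, hcb⟩ (cl_sub_piS hB) (fun k => by
      rcases k with k | k
      · exact le_rfl
      · exact hdm)
    (parts_x hcS hw) hNB (noTwo_of_not_joint hcS hJ) hBH (g := gasE n (S ⊕ Unit)) (fun _ => rfl)
    (fun _ => rfl) (fun _ => none_ne _) (fun j hj => by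
      obtain ⟨i, rfl⟩ := gas_x hj
      exact ⟨i, rfl⟩) (fun i => ⟨Sum.inl i, rfl⟩) m (by rw [card_uni_x]; exact hN) rfl rfl

end joint

end Crest.Agent.R122.XG547

end
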