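import Crest.Agent.R122.XDet_692
import Crest.Agent.R122.XRA_547
import Crest.Agent.R122.XMap_547
import Crest.Agent.R122.LNS3_674
import Crest.Agent.R122.LNRetT_383

/-!
# Row 122, LN1 (helper973): an independent line and a structure which is one part

The structure: `One` + `Exits` (helper674), any label type `σ`. The independent line: `reachAll_x0`,
`reachAll_xd` (helper547). The split of the alternatives: helper692.

* `reachS` : everything influenced by an exit is reached in the joint system, off `SAlt`.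
* `reachX0`, `reachXd` : the same for the line, base `cfg w`, `cfg w + d`, or `XRes`.
* `tubeOf_map` : tubes of the structure in the joint system.
* `one_x0`, `one_xd` : **no link of an exit with the line and no return of the line, or
  `SAlt | XAlt | JAlt`**.
-/

set_option autoImplicit false
set_option linter.unusedSectionVars false

open MeasureTheory Set Filter Topology
open scoped NNReal ENNReal
open Crest.AnalysisR.Kinetic
open Crest.Agent.R122.Loc45 Crest.Agent.R122.Ins45 Crest.Agent.R122.EDefs602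
open Crest.Agent.R122.VL581 Crest.Agent.R122.VL581.VSys Crest.Agent.R122.VLInst442
open Crest.Agent.R122.LN304 Crest.Agent.R122.LNg410 Crest.Agent.R122.LNEv968
open Crest.Agent.R122.LNBridge968
open Crest.Agent.R122.PWGlue491 Crest.Agent.R122.PWInst442 Crest.Agent.R122.LNPart424
open Crest.Agent.R122.MWFam255 Crest.Agent.R122.LNEv818 Crest.Agent.R122.LNEv383
open Crest.Agent.R122.GIV566 Crest.Agent.R122.LNS674
open Crest.Agent.R122.X692 (SAlt XAlt JAlt XRes ReachS ReachX HitG)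
open scoped Classical

noncomputable section

namespace Crest.Agent.R122.OneX973

variable {σ : Type} [Fintype σ] {n : ℕ} {ι μ ξ : Type} [Fintype ι] {Φ : Space3 → ℝ}
  {T te T' T₁ ε c R ς : ℝ} {b : σ → ℝ} {V : σ → PhasePoint} {w : Config n}
  {cl : Fin n ⊕ σ → Finset (Fin n ⊕ σ)} {Rc : ℝ → Fin n ⊕ σ → Fin n ⊕ σ → Prop} {W : MW ι}
  {f : ι ↪ Fin n ⊕ σ} {ls : μ → ML} {p : μ → σ} {K N N' m : ℕ} {x d : ML} {s : σ}
  {A₀ : Finset σ} {O : Tubes ξ} {m₀ : ξ → Fin n ⊕ σ}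

/-- The size of the reached groups. -/
def sz (σ : Type) [Fintype σ] (K m : ℕ) : ℕ := Fintype.card σ + 1 + 2 * K * (m + 2)

/-- `ReachAll` with a larger size. -/
theorem reachAll_monoN {J κ ι : Type} [Fintype J] [Fintype ι] {M : VSys J κ} {Z : J → PhasePoint}
    {Λ : Finset (Finset J)} {π : Finset J} {a a' : J} {W : MW ι} {l : ML} {lab : ι → J} {T : ℝ}
    {N N' : ℕ} (hN : N ≤ N')
    (h : ReachAll (Reach M c Z Λ π a N) Φ ε K T W lab l a') :
    ReachAll (Reach M c Z Λ π a N') Φ ε K T W lab l a' := by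
  intro u hu hθ y hy hb
  obtain ⟨h1, h2⟩ := h u hu hθ y hy hb
  refine ⟨?_, fun k hk => ?_⟩
  · obtain ⟨Y, hY, h3⟩ := h1
    exact ⟨Y, hY.mono hN, h3⟩
  · obtain ⟨Y, hY, h3⟩ := h2 k hk
    exact ⟨Y, hY.mono hN, h3⟩

/-- **The exits in the joint system**, off the alternatives of the structure. -/
theorem reachS (h : One Φ T ε c b V w cl Rc) (E : Exits Φ T te ε b V w cl Rc W f ls p)
    (hΦ : AdmissiblePotential Φ) (hε : 0 < ε) (hT0 : 0 ≤ T) (hte : te ≤ T) (hc : 1 ≤ c)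
    (hς : 2 * (R * ε) ≤ ς) (hT : T ≤ T') (hT₁ : T' < T₁) (hA : A₀.Nonempty)
    (hN : sz σ K m ≤ N) (hS : ¬ SAlt Φ T' T₁ T c R ς ε K m N A₀ b V w) (i : μ) :
    ReachS Φ T c ε te K N b V w x W f (ls i) (p i) := by
  unfold SAlt at hS
  push Not at hS
  obtain ⟨hR, hB, hBH⟩ := hS
  unfold sz at hN
  have hX := h.ctx hΦ hε hc hς hT hA hB
  have hH : ∀ β, ¬ BadHit (gsys Φ T ε n b) c (Sum.elim w V) (E.X i β) (E.C i β) (LS n σ) N := by
    intro β
    cases β
    · exact (h.wd hΦ hε hT0 hc hς hT le_rfl hT₁ hA hBH E.gd0).bh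
    · exact (h.wd hΦ hε hT0 hc hς hT le_rfl hT₁ hA hBH (E.gd1 i)).bh
  have h1 := (h.reachAll_or_run E hT0 hte hX i hH (m := m) (by omega)).resolve_left hR
  have h2 := XG547.reachAll_eS (τ := x.1.1) (y := back x.1) hΦ hε (Λ' := LS n σ)
    (fun y => by rw [uni_LS]; exact inr_mem_pS y) (fun j => mem_pS)
    (lab' := fun i => X692.eS n σ (f i)) (fun _ => rfl) h1
  exact reachAll_monoN (by omega) h2

/-- The structure is connected in the joint system. -/
theorem conn_x (h : One Φ T ε c b V w cl Rc) (hΦ : AdmissiblePotential Φ) (hε : 0 < ε) (x : ML) :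
    (X692.Mx Φ T ε n b x).Conn c (X692.piS n σ) (X692.Zx w V x) :=
  X692.conn_x hΦ hε h.conn

/-- A hit of one of the two glued worlds of the line. -/
theorem hitG_of {ι : Type} [Fintype ι] {W : MW ι} {g : ι ↪ Fin n ⊕ (σ ⊕ Unit)}
    {hg : ∀ i, g i ≠ X692.px n σ} (h : One Φ T ε c b V w cl Rc)
    (G : GD2 (X692.Mx Φ T ε n b x) (X692.Zx w V x) (XG547.clX n σ cl) W x g (X692.px n σ) hg)
    (β : Bool)
    (hb : BadHit (X692.Mx Φ T ε n b x) c (X692.Zx w V x)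
      (Xb (X692.Mx Φ T ε n b x) (X692.Zx w V x) (XG547.clX n σ cl) W x g (X692.px n σ) hg β)
      (Cb (X692.Mx Φ T ε n b x) (X692.Zx w V x) (XG547.clX n σ cl) W x g (X692.px n σ) hg β)
      (X692.Lx (X692.piS n σ) (X692.px n σ)) N) : HitG Φ T c ε N b V w x := by
  cases β
  · exact ⟨_, _, _, _, G.g0, fun i => XG547.clX_inl h.base.gas_cl i, hb⟩
  · exact ⟨_, _, _, _, G.g1, fun i => XG547.clX_inl h.base.gas_cl i, hb⟩

/-- **The line**, base `cfg w`. -/
theorem reachX0 (h : One Φ T ε c b V w cl Rc) (hΦ : AdmissiblePotential Φ) (hε : 0 < ε)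
    (hT0 : 0 ≤ T) (hte : te ≤ T) (hc : 1 ≤ c) (hς : 2 * (R * ε) ≤ ς) (hx0 : 0 ≤ x.1.1)
    (hok : ((MW.cfg w).ins x).Ok Φ ε) (hN : sz σ K m ≤ N) :
    ReachX Φ T c ε te K N b V w x (MW.cfg w) (gasE n σ) ∨
      XRes Φ T c R ς ε K m N b V w x := by
  by_cases h1 : XRes Φ T c R ς ε K m N b V w x
  · exact Or.inr h1
  left
  unfold XRes at h1
  push Not at h1
  obtain ⟨hR, hNB, hNT, hH⟩ := h1
  have hwok : (MW.cfg w).Ok Φ ε := Unw410.cfg_ok hΦ hε h.pe
  have G := XG547.gd2_x0 (T := T) (b := b) (z := V) (cl := cl) hΦ hε h.base hx0 hwok hok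
  exact (XG547.reachAll_x0 hΦ hε hT0 hte hc hς h.base hx0 (conn_x h hΦ hε x) h.pe hok m hN hNB hNT
    fun β hb => hH (hitG_of h G β hb)).resolve_left hR

/-- **The line**, base `cfg w + d`. -/
theorem reachXd (h : One Φ T ε c b V w cl Rc) (hΦ : AdmissiblePotential Φ) (hε : 0 < ε)
    (hT0 : 0 ≤ T) (hte : te ≤ T) (hc : 1 ≤ c) (hς : 2 * (R * ε) ≤ ς)
    (hd : Lab (gsys Φ T ε n b) (Sum.elim w V) cl (Sum.inr s) d.1.1 (back d.1))
    (hd0 : 0 ≤ d.1.1) (hdm : 1 ≤ d.2) (hx0 : 0 ≤ x.1.1) (hokd : ((MW.cfg w).ins d).Ok Φ ε)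
    (hok : (((MW.cfg w).ins d).ins x).Ok Φ ε) (hN : sz σ K m ≤ N)
    (hJ : ¬ X692.Joint (X692.Mx Φ T ε n b x) c (X692.Zx w V x) (X692.piS n σ) (X692.px n σ) N) :
    ReachX Φ T c ε te K N b V w x ((MW.cfg w).ins d) (lab1 n s) ∨
      XRes Φ T c R ς ε K m N b V w x := by
  by_cases h1 : XRes Φ T c R ς ε K m N b V w x
  · exact Or.inr h1
  left
  unfold XRes at h1
  push Not at h1
  obtain ⟨hR, hNB, hNT, hH⟩ := h1
  have G := XG547.gd2_xd (T := T) (b := b) (z := V) (cl := cl) (s := s) hΦ hε h.base hd hx0 hokd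
    hok
  have h2 := (XG547.reachAll_xd (K := K) hΦ hε hT0 hte hc hς h.base hd hd0 hx0 hdm
    (conn_x h hΦ hε x) h.pe hokd hok m hN hNB hJ
    fun β hb => hH (hitG_of h G β hb)).resolve_left hR
  unfold ReachX
  have e1 : (fun i => X692.eS n σ (lab1 n s i)) = lab1 n (Sum.inl s : σ ⊕ Unit) := by
    funext i
    cases i <;> rfl
  rw [e1]
  exact h2

/-- Tubes of the structure in the joint system. -/
theorem tubeOf_map (hΦ : AdmissiblePotential Φ) (hε : 0 < ε)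
    (hO : TubeOf (gsys Φ T ε n b) (Sum.elim w V) (LS n σ) O te (fun _ => pS n σ) m₀) (x : ML) :
    TubeOf (X692.Mx Φ T ε n b x) (X692.Zx w V x) (X692.Lx (X692.piS n σ) (X692.px n σ)) O te
      (fun _ => X692.piS n σ) (fun k => X692.eS n σ (m₀ k)) where
  part _ := X692.pi_mem
  mem k := by
    rw [← XG547.map_eS_univ]
    exact Finset.mem_map_of_mem _ (hO.mem k)
  obs k h := by
    have h1 : (none : Option (Fin n ⊕ (σ ⊕ Unit))) = some _ := h
    cases h1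
  path k v hv hvb := by
    obtain ⟨B, hB, hk, hok, hst⟩ := hO.path k v hv hvb
    have hpull := X692.pull_eS (Φ := Φ) (T := T) (ε := ε) (n := n) b x.1.1
    refine ⟨B.map (X692.eS n σ), ?_, Finset.mem_map_of_mem _ hk, ?_, ?_⟩
    · rw [← XG547.map_eS_univ]
      exact Finset.map_subset_map.2 hB
    · refine (hpull.ok hΦ hε v).2 ?_
      rw [X692.elim_eS]
      exact hok
    · rw [hst, hpull.st hΦ hε, X692.elim_eS]

/-- Tubes whose parts are smaller. -/
theorem tubeOf_sup {J κ : Type} [Fintype J] {M : VSys J κ} {Z : J → PhasePoint}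
    {Λ Λ' : Finset (Finset J)} {te : ℝ} {Q Q' : ξ → Finset J} {m₀ : ξ → J}
    (hO : TubeOf M Z Λ O te Q m₀) (hQ : ∀ k, Q k ⊆ Q' k) (hQ' : ∀ k, Q' k ∈ Λ') :
    TubeOf M Z Λ' O te Q' m₀ where
  part := hQ'
  mem k := hQ k (hO.mem k)
  obs := hO.obs
  path k v hv hvb := by
    obtain ⟨B, hB, h⟩ := hO.path k v hv hvb
    exact ⟨B, hB.trans (hQ k), h⟩

section main

variable (hΦ : AdmissiblePotential Φ) (hε : 0 < ε) (hT0 : 0 ≤ T) (hte : te ≤ T) (hc : 1 ≤ c)
  (hς : 2 * (R * ε) ≤ ς) (hT : T ≤ T') (hT₁ : T' < T₁) (hA : A₀.Nonempty)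
include hΦ hε hT0 hte hc hς hT hT₁ hA

/-- **An exit and an independent line**, base `cfg w`. -/
theorem one_x0 (h : One Φ T ε c b V w cl Rc)
    (E : Exits Φ T te ε b V w cl Rc (MW.cfg w) (gasE n σ) ls p)
    (hO : TubeOf (gsys Φ T ε n b) (Sum.elim w V) (LS n σ) O te (fun _ => pS n σ) m₀)
    (hx0 : 0 ≤ x.1.1) (hok : ((MW.cfg w).ins x).Ok Φ ε) (hN : sz σ K m + sz σ K m ≤ N) :
    ((∀ i, MW.NoLink Φ ε K te (MW.cfg w) (MW.line (ls i)) (MW.line x)) ∧
        ¬ RetC Φ ε ε K te (MW.cfg w) x O) ∨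
      SAlt Φ T' T₁ T c R ς ε K m N A₀ b V w ∨ XAlt Φ T' T₁ T c R ς ε K m N x w ∨
        JAlt Φ T' c R ς ε N A₀ b V x w := by
  have hN1 : sz σ K m ≤ N := (Nat.le_add_right _ _).trans hN
  by_cases hJ : X692.Joint (X692.Mx Φ T ε n b x) c (X692.Zx w V x) (X692.piS n σ)
      (X692.px n σ) (sz σ K m + sz σ K m)
  · exact Or.inr (Or.inr (Or.inr (X692.jalt_of_joint hΦ hε hT hA (hJ.mono hN))))
  by_cases hS : SAlt Φ T' T₁ T c R ς ε K m (sz σ K m) A₀ b V w
  · exact Or.inr (Or.inl (X692.SAlt.mono hε.le hN1 hS))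
  rcases reachX0 (te := te) (x := x) h hΦ hε hT0 hte hc hς hx0 hok le_rfl with hX | hX
  · exact Or.inl (X692.x_good hΦ hε hte hc (conn_x h hΦ hε x) (gasE n σ).injective
      (fun i => reachS h E hΦ hε hT0 hte hc hς hT hT₁ hA le_rfl hS i) hX hJ
      (tubeOf_map hΦ hε hO x))
  · rcases hX.alt hΦ hε hT hT₁ hA (X692.parts_x h.pe (conn_x h hΦ hε x)) with h1 | h1 | h1
    · exact Or.inr (Or.inl (X692.SAlt.mono hε.le hN1 h1))
    · exact Or.inr (Or.inr (Or.inl (X692.XAlt.mono hε.le hN1 h1)))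
    · exact Or.inr (Or.inr (Or.inr (X692.JAlt.mono hN1 h1)))

/-- **An exit and an independent line**, base `cfg w + d`, `d` an exit of the structure. -/
theorem one_xd (h : One Φ T ε c b V w cl Rc)
    (E : Exits Φ T te ε b V w cl Rc ((MW.cfg w).ins d) (lab1 n s) ls p)
    (hO : TubeOf (gsys Φ T ε n b) (Sum.elim w V) (LS n σ) O te (fun _ => pS n σ) m₀)
    (hd : Lab (gsys Φ T ε n b) (Sum.elim w V) cl (Sum.inr s) d.1.1 (back d.1))
    (hd0 : 0 ≤ d.1.1) (hdm : 1 ≤ d.2) (hx0 : 0 ≤ x.1.1) (hokd : ((MW.cfg w).ins d).Ok Φ ε)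
    (hok : (((MW.cfg w).ins d).ins x).Ok Φ ε) (hN : sz σ K m + sz σ K m ≤ N) :
    ((∀ i, MW.NoLink Φ ε K te ((MW.cfg w).ins d) (MW.line (ls i)) (MW.line x)) ∧
        ¬ RetC Φ ε ε K te ((MW.cfg w).ins d) x O) ∨
      SAlt Φ T' T₁ T c R ς ε K m N A₀ b V w ∨ XAlt Φ T' T₁ T c R ς ε K m N x w ∨
        JAlt Φ T' c R ς ε N A₀ b V x w := by
  have hN1 : sz σ K m ≤ N := (Nat.le_add_right _ _).trans hN
  by_cases hJ : X692.Joint (X692.Mx Φ T ε n b x) c (X692.Zx w V x) (X692.piS n σ)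
      (X692.px n σ) (sz σ K m + sz σ K m)
  · exact Or.inr (Or.inr (Or.inr (X692.jalt_of_joint hΦ hε hT hA (hJ.mono hN))))
  by_cases hS : SAlt Φ T' T₁ T c R ς ε K m (sz σ K m) A₀ b V w
  · exact Or.inr (Or.inl (X692.SAlt.mono hε.le hN1 hS))
  rcases reachXd (te := te) (x := x) h hΦ hε hT0 hte hc hς hd hd0 hdm hx0 hokd hok le_rfl
    (fun h' => hJ (h'.mono (Nat.le_add_right _ _))) with hX | hX
  · exact Or.inl (X692.x_good hΦ hε hte hc (conn_x h hΦ hε x) (lab1 n s).injective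
      (fun i => reachS h E hΦ hε hT0 hte hc hς hT hT₁ hA le_rfl hS i) hX hJ
      (tubeOf_map hΦ hε hO x))
  · rcases hX.alt hΦ hε hT hT₁ hA (X692.parts_x h.pe (conn_x h hΦ hε x)) with h1 | h1 | h1
    · exact Or.inr (Or.inl (X692.SAlt.mono hε.le hN1 h1))
    · exact Or.inr (Or.inr (Or.inl (X692.XAlt.mono hε.le hN1 h1)))
    · exact Or.inr (Or.inr (Or.inr (X692.JAlt.mono hN1 h1)))

end main

end Crest.Agent.R122.OneX973

end
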