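import Crest.Agent.R122.LN2Ct3_473
import Crest.Agent.R122.GateOsP_424
import Crest.Agent.R122.OSTree_434

/-!
# Row 122: tree events are null for (contact tree, structure) (helper473)

* `osP_le_ctM473` : 581's `osP` is dominated by `ctM`.
* `exists_osP_zw` : functionals of (tree, gas) over `osP` are bounded by the tree integral `TS` with
  weight `wQ`.
* `gNull_osP_of_tNull` : 302's `TNull` events are null over `osP`.
-/

set_option autoImplicit false
set_option linter.unusedSectionVars false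

open MeasureTheory Set Filter Topology
open scoped Classical ENNReal
open Crest.AnalysisR.Kinetic

noncomputable section

namespace Crest.Agent.R122.LN2

open Crest.Agent.R122.GC311 Crest.Agent.R122.Kin796 Crest.Agent.R122.Kin796.CTree
open Crest.Agent.R122.EDefs602 Crest.Agent.R122.Tree674
open Crest.Agent.R122.Gate424 Crest.Agent.R122.Gate973
open Crest.Agent.R122.Boost969 (LSt)
open Crest.Agent.R122.PairRep581 (Shp ShpOk osP treeA ctOkS ctOk)
open Crest.Agent.R122.PairD292 (dL eL OkL)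
open Crest.Agent.R122.InEq2 (wQ measurable_wQ MeasTS)

variable {Φ : Space3 → ℝ} {f₀ : PhasePoint → ℝ} {γ β : ℝ} {ρ : Space3 → ℝ≥0∞}

/-- The law of (contact tree, structure) is dominated by `ctM`. -/
theorem osP_le_ctM473 (hΦ : AdmissiblePotential Φ) (hf : Measurable f₀) {S : Shp}
    (hS : ShpOk γ β ρ S) {ε : ℝ} (te T' : ℝ) (K : ℕ) (P : CTree) (i : Unit) :
    osP Φ f₀ te T' K P S ε i ≤ ctM Φ f₀ ε te T' P (S.m ε) (fun x => (eL (S.th ε x)).1) := by
  have := hS.sf ε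
  unfold osP ctM
  rw [GateOsP424.treeA_eq hΦ hf, Measure.prod_smul_left, Measure.restrict_smul]
  refine Measure.le_iff.2 fun s _ => ?_
  rw [Measure.smul_apply, Measure.smul_apply, smul_eq_mul, smul_eq_mul]
  exact mul_le_mul_right (Measure.restrict_mono (fun q hq => hq.1) le_rfl s) _

/-- **Functionals of (tree, gas) over `osP`.** -/
theorem exists_osP_zw (hΦ : AdmissiblePotential Φ) (hf : Measurable f₀) {S : Shp}
    (hS : ShpOk γ β ρ S) (hβ : 0 < β) (te : ℝ) : ∃ C : ℝ≥0∞, C ≠ ∞ ∧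
      ∀ (ε T' : ℝ) (K : ℕ) (P : CTree) (i : Unit), 0 < ε →
        ∀ G : (P : CTree) → PhasePoint × Par P → (m : ℕ) → Config m → ℝ≥0∞, MeasTS G →
          ∫⁻ q, gcE f₀ ε (fun m w => G P q.1 m w) ∂(osP Φ f₀ te T' K P S ε i) ≤
            C * InEq2.TS Φ f₀ ε T' (fun P z m w => wQ Φ ε P z * G P z m w) := by
  obtain ⟨j₀, M, hM, hpin⟩ := hS.pin
  set cv : ℝ≥0∞ := ENNReal.ofReal (2 * Real.exp (1 / β)) with hcv
  refine ⟨ENNReal.ofReal te * cP * (cv * M) * 2, ENNReal.mul_ne_top (ENNReal.mul_ne_top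
    (ENNReal.mul_ne_top ENNReal.ofReal_ne_top cP_ne_top) (ENNReal.mul_ne_top
      ENNReal.ofReal_ne_top hM)) (by norm_num), fun ε T' K P i hε G hG => ?_⟩
  have := hS.sf ε
  have hI := (hS.tInv_e hε).invFam j₀
  have hb : ∀ᵐ x ∂(S.m ε), 0 ≤ ((eL (S.th ε x)).1).1 := (hS.birth ε hε).mono fun x hx => hx.2
  have hgm : Measurable fun z : PhasePoint × Par P => gcE f₀ ε (fun m w => G P z m w) :=
    MeasE416.measurable_gcE_of hf ε (F := fun m z w => G P z m w) fun m => hG P m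
  -- the pinned velocity moment
  have hmom : ∫⁻ x, chi (S.z ε x j₀).1 * ENNReal.ofReal (1 + ‖((eL (S.th ε x)).1).2.2‖)
      ∂(S.m ε) ≤ cv * M := by
    calc ∫⁻ x, chi (S.z ε x j₀).1 * ENNReal.ofReal (1 + ‖((eL (S.th ε x)).1).2.2‖) ∂(S.m ε)
        ≤ ∫⁻ x, cv * (chi (S.z ε x j₀).1 * expW β (S.z ε x)) ∂(S.m ε) := by
          refine lintegral_mono_ae ?_
          filter_upwards [hS.vel ε hε] with x hx
          calc chi (S.z ε x j₀).1 * ENNReal.ofReal (1 + ‖((eL (S.th ε x)).1).2.2‖)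
              ≤ chi (S.z ε x j₀).1 * (cv * expW β (S.z ε x)) :=
                mul_le_mul_right (PairRep581.one_add_le_expW hβ hx.2) _
            _ = _ := by ring
      _ = cv * ∫⁻ x, chi (S.z ε x j₀).1 * expW β (S.z ε x) ∂(S.m ε) :=
          lintegral_const_mul' _ _ ENNReal.ofReal_ne_top
      _ ≤ cv * M := mul_le_mul_right (hpin ε hε) _
  have hm1 : Measurable fun z : PhasePoint × Par P =>
      ENNReal.ofReal (1 + ‖z.1.2‖) * gcE f₀ ε (fun m w => G P z m w) :=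
    (((measurable_fst.snd.norm).const_add 1).ennreal_ofReal).mul hgm
  -- the tree integral
  have htree : ∫⁻ z, ENNReal.ofReal (1 + ‖z.1.2‖) * gcE f₀ ε (fun m w => G P z m w)
      ∂(treeM Φ f₀ ε P T') ≤ 2 * InEq2.TS Φ f₀ ε T' (fun P z m w => wQ Φ ε P z * G P z m w) := by
    unfold InEq2.TS
    rw [← ENNReal.tsum_mul_left]
    refine le_trans ?_ (ENNReal.le_tsum P)
    rw [LN2.lintegral_treeM hΦ hf ε P T' hm1, ← lintegral_const_mul' _ _ (by norm_num)]
    refine lintegral_mono fun z => ?_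
    by_cases hz : z ∈ {z : PhasePoint × Par P | Valid Φ ε P T' z.1.2 z.2}
    · rw [indicator_of_mem hz, indicator_of_mem hz]
      have hwt : wQ Φ ε P z ≠ ∞ := by
        unfold wQ
        exact ENNReal.sum_ne_top.2 fun i _ => ENNReal.ofReal_ne_top
      rw [gcE_const_mul f₀ ε hwt]
      have h2 := GateOS434.one_add_root_le hΦ ε (z := z) hz.1
      calc wt Φ P z.1.2 z.2 * (ToTree335.pf Φ f₀ ε P z *
            (ENNReal.ofReal (1 + ‖z.1.2‖) * gcE f₀ ε (fun m w => G P z m w)))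
          ≤ wt Φ P z.1.2 z.2 * (ToTree335.pf Φ f₀ ε P z *
            ((2 * wQ Φ ε P z) * gcE f₀ ε (fun m w => G P z m w))) :=
            mul_le_mul' le_rfl (mul_le_mul' le_rfl (mul_le_mul' h2 le_rfl))
        _ = _ := by ring
    · rw [indicator_of_notMem hz, indicator_of_notMem hz, mul_zero]
  calc ∫⁻ q, gcE f₀ ε (fun m w => G P q.1 m w) ∂(osP Φ f₀ te T' K P S ε i)
      ≤ ∫⁻ q, gcE f₀ ε (fun m w => G P q.1 m w)
          ∂(ctM Φ f₀ ε te T' P (S.m ε) (fun x => (eL (S.th ε x)).1)) :=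
        lintegral_mono' (osP_le_ctM473 hΦ hf hS te T' K P i) le_rfl
    _ ≤ (ENNReal.ofReal te * cP * ∫⁻ x, chi (S.z ε x j₀).1 *
          ENNReal.ofReal (1 + ‖((eL (S.th ε x)).1).2.2‖) ∂(S.m ε)) *
          ∫⁻ z, ENNReal.ofReal (1 + ‖z.1.2‖) * gcE f₀ ε (fun m w => G P z m w)
            ∂(treeM Φ f₀ ε P T') :=
        lintegral_ctM_P_le (f₀ := f₀) (te := te) (T' := T') hΦ hε hI hb measurable_chi
          lintegral_chi (F := fun z => gcE f₀ ε (fun m w => G P z m w)) hgm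
    _ ≤ (ENNReal.ofReal te * cP * (cv * M)) * (2 * InEq2.TS Φ f₀ ε T'
          (fun P z m w => wQ Φ ε P z * G P z m w)) :=
        mul_le_mul' (mul_le_mul_right hmom _) htree
    _ = _ := by ring

/-- **Tree events (302's `TNull`) are null over `osP`.** -/
theorem gNull_osP_of_tNull (hΦ : AdmissiblePotential Φ) (hf : Measurable f₀) {S : Shp}
    (hS : ShpOk γ β ρ S) (hβ : 0 < β) (te T' : ℝ) {K K₀ : ℕ} {P : CTree} (hP : P.leaves ≤ K₀)
    {E : RtG302.TEv} (h : RtG302.TNull Φ f₀ T' K₀ E) :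
    GNull f₀ (osP Φ f₀ te T' K P S) (fun ε _ n q w => Valid Φ ε P T' q.1.1.2 q.1.2 ∧
      Sep Φ ε P T' q.1.1 q.1.2 ∧ E ε P q.1 n w) := by
  obtain ⟨C, hC, hle⟩ := exists_osP_zw hΦ hf hS hβ te
  intro δ hδ
  -- choose `η > 0` real with `C * η ≤ δ`
  obtain ⟨η, hη, hCη⟩ : ∃ η : ℝ, 0 < η ∧ C * ENNReal.ofReal η ≤ δ := by
    have hC1 : C + 1 ≠ ∞ := ENNReal.add_ne_top.2 ⟨hC, ENNReal.one_ne_top⟩
    have hm : 0 < min δ 1 / (C + 1) := ENNReal.div_pos (lt_min hδ one_pos).ne' hC1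
    have hmt : min δ 1 / (C + 1) ≠ ∞ := by
      refine ENNReal.div_ne_top ((min_le_right _ _).trans_lt ENNReal.one_lt_top).ne ?_
      simp
    refine ⟨(min δ 1 / (C + 1)).toReal, ENNReal.toReal_pos hm.ne' hmt, ?_⟩
    rw [ENNReal.ofReal_toReal hmt]
    calc C * (min δ 1 / (C + 1)) ≤ (C + 1) * (min δ 1 / (C + 1)) := by
          gcongr
          exact le_self_add
      _ = min δ 1 := ENNReal.mul_div_cancel (by simp) hC1
      _ ≤ δ := min_le_left _ _
  obtain ⟨ε₀, h0, h1⟩ := h η hη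
  refine ⟨ε₀, h0, fun ε hε hlt i => ?_⟩
  obtain ⟨G, hG, hGi⟩ := h1 ε hε hlt
  refine ⟨fun n p => G P p.1.1 n p.2, fun n => ?_, ?_, ?_⟩
  · have hpair : Measurable fun p : ((PhasePoint × Par P) × S.Θ) × Config n =>
        ((p.1.1, p.2) : (PhasePoint × Par P) × Config n) :=
      measurable_fst.fst.prodMk measurable_snd
    exact (hG.meas P n).comp hpair
  · rintro n q w hw ⟨hV, hSep, hE⟩
    exact hG.maj P q.1 n w hP hV hSep hw hE
  · exact (hle ε T' K P i hε G hG.meas).trans ((mul_le_mul_right hGi _).trans hCη)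

end Crest.Agent.R122.LN2

end
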