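import Crest.Agent.R122.Nu0C_566
import Crest.Agent.R122.PairDefs_292
import Crest.Agent.R122.MeasPair_522

/-!
# Row 122, inequality 3 (helper85): the pair mass of `nu0` and the labelled base law

* `thetaL_late`, `touchP_late` : no touch before the birth.
* `OkP`, `ae_nuP`, `ae_nu0` : births in `(0, ∞)`, marks in `[1, K]`, almost surely under `nu0`.
* `strM_mono`, `nu0_mono` : monotonicity in the initial density.
* `pe_nu0_le` : `PE nu0 ≤ PELK nuL` for every law `nuL` on labels which dominates `nu0` on the pairs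
  born before `te`.
-/

set_option autoImplicit false
set_option linter.unusedSectionVars false

open MeasureTheory Set Filter
open scoped ENNReal Classical Topology
open Crest.AnalysisR.Kinetic
open Crest.Agent.R122.Kin796 Crest.Agent.R122.Kin796.CTree Crest.Agent.R122.Tree674
open Crest.Agent.R122.GC311 Crest.Agent.R122.EDefs602 Crest.Agent.R122.TreeLines335
open Crest.Agent.R122.OneC285 Crest.Agent.R122.Nu0566 Crest.Agent.R122.PairD292
open Crest.Agent.R122.Boost969 (LSt)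
open Crest.Agent.R122.Pair292 (Lab)

noncomputable section

namespace Crest.Agent.R122.PMBind85

variable {Φ : Space3 → ℝ} {f₀ g : PhasePoint → ℝ} {ε : ℝ} {K : ℕ} {P : CTree} {Q : EPar}

/-! ### No touch before the birth -/

section late

variable {ι : Type} [Fintype ι] {Z : MW ι} {l d e : ML} {T : ℝ}

/-- A line born after the horizon does not touch. -/
theorem thetaL_late (hΦ : AdmissiblePotential Φ) (hε : 0 < ε) (hl : l.2 ≤ K) (h : T < l.1.1) :
    Z.thetaL Φ ε K T l = T + 1 := by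
  refine MW.theta_eq_of_not_touched fun s hs => ?_
  refine MW.not_touched_of_no_contact hΦ hε (fun r hr x k hc => ?_) ?_
  · have h1 : (Z.add (MW.line l)).b (Sum.inr x) ≤ r := MW.C_born hc
    have h2 : l.1.1 ≤ r := h1
    exact absurd (h2.trans (hr.2.trans hs.2)) (not_le.2 h)
  · change ∑ _x : Unit, l.2 ≤ K
    simpa using hl

theorem touchP_late (hΦ : AdmissiblePotential Φ) (hε : 0 < ε) (hd : d.2 ≤ K) (he : e.2 ≤ K)
    (h : ¬ (d.1.1 ≤ Q.te ∧ e.1.1 ≤ Q.te)) : Z.touchP Φ ε K Q d e = 0 := by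
  unfold MW.touchP
  refine if_neg ?_
  rintro ⟨_, h2, h3⟩
  refine h ⟨?_, ?_⟩
  · by_contra hc
    have := thetaL_late (Z := Z) hΦ hε hd (not_le.1 hc)
    rw [this] at h2
    linarith
  · by_contra hc
    have := thetaL_late (Z := Z.ins d) hΦ hε he (not_le.1 hc)
    rw [this] at h3
    linarith

end late

/-! ### Almost sure facts of `nu0` -/

/-- Positive births, marks in `[1, K]`. -/
def OkP (K : ℕ) (p : ML × ML) : Prop :=
  (0 < p.1.1.1 ∧ 1 ≤ p.1.2 ∧ p.1.2 ≤ K) ∧ (0 < p.2.1.1 ∧ 1 ≤ p.2.2 ∧ p.2.2 ≤ K)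

theorem measurableSet_okP (K : ℕ) : MeasurableSet {p : ML × ML | OkP K p} := by
  have h1 : MeasurableSet {l : ML | 0 < l.1.1 ∧ 1 ≤ l.2 ∧ l.2 ≤ K} := by
    have a1 : MeasurableSet {l : ML | 0 < l.1.1} := measurableSet_lt measurable_const (by fun_prop)
    have a2 : MeasurableSet {l : ML | 1 ≤ l.2 ∧ l.2 ≤ K} :=
      measurable_snd (MeasurableSet.of_discrete (s := {n : ℕ | 1 ≤ n ∧ n ≤ K}))
    exact a1.inter a2
  exact (measurable_fst h1).inter (measurable_snd h1)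

/-- The lines of a good structure. -/
theorem okLine {z : PhasePoint × Par P} {l : ML} {te T' : ℝ} (hε : 0 < ε)
    (hz : Valid Φ ε P T' z.1.2 z.2) (hc : (z, l.1) ∈ OneC423.ctSet Φ ε te P) (hl0 : 0 ≤ l.1.1)
    (hl : 1 ≤ l.2) (hK : l.2 + P.leaves ≤ K) (x : Idx P ⊕ Bool) :
    0 < (oneLs Φ ε P z l x).1.1 ∧ 1 ≤ (oneLs Φ ε P z l x).2 ∧ (oneLs Φ ε P z l x).2 ≤ K := by
  have h1 : 0 < cT ε z l := hl0.trans_lt hc.2.2.1
  have h2 : 0 ≤ OCout796.outT Φ ε (cD ε z l) := OCout796.outT_nonneg hε.le _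
  have h3 : 0 < cT ε z l + OCout796.outT Φ ε (cD ε z l) := by linarith
  have h4 := one_le_leaves P
  rcases x with i | b
  · by_cases hi : i = root P
    · simp only [oneLs, if_pos hi]
      exact ⟨h3, h4, by omega⟩
    · simp only [oneLs, if_neg hi]
      exact ⟨rel_pos hε.le hz.2 i hi, one_le_mk P i, (mk_le P i).trans (by omega)⟩
  · cases b
    · exact ⟨h3, by simp only [oneLs]; omega, by simp only [oneLs]; exact hK⟩
    · exact ⟨h3, by simp only [oneLs]; omega, by simp only [oneLs]; exact hK⟩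

theorem ae_baseM_dirac (τ : ℝ) : ∀ᵐ l ∂(OneC423.baseM (Measure.dirac τ)), l.1.1 = τ := by
  have hs : MeasurableSet {l : ML | l.1.1 = τ} :=
    measurableSet_eq_fun (by fun_prop) measurable_const
  have h := OneC423.lintegral_baseM (Measure.dirac τ)
    (F := {l : ML | l.1.1 = τ}ᶜ.indicator 1) (measurable_one.indicator hs.compl)
  rw [lintegral_indicator_one hs.compl, lintegral_dirac] at h
  rw [ae_iff]
  refine Eq.trans h ?_
  refine ENNReal.tsum_eq_zero.2 fun n => ?_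
  refine (lintegral_congr fun v => (lintegral_congr fun y => ?_).trans lintegral_zero).trans
    lintegral_zero
  refine Set.indicator_of_notMem ?_ _
  intro hn
  exact hn rfl

/-- The structures are good, almost surely. -/
theorem ae_strM (hΦ : AdmissiblePotential Φ) (hf : Measurable f₀) {γ : ℝ → ℝ} (hγ : Measurable γ)
    (ρ : ℝ≥0∞) (te T' : ℝ) (P : CTree) :
    ∀ᵐ q ∂(strM Φ f₀ ε K γ ρ te T' (Measure.dirac 0) P),
      Valid Φ ε P T' q.1.1.2 q.1.2 ∧ (q.1, q.2.1) ∈ OneC423.ctSet Φ ε te P ∧ q.2.1.1 = 0 ∧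
        1 ≤ q.2.2 ∧ q.2.2 + P.leaves ≤ K := by
  have h1 : ∀ᵐ q ∂((volume : Measure (PhasePoint × Par P)).prod
      (OneC423.baseM (Measure.dirac 0))), q.2.1.1 = 0 :=
    Measure.quasiMeasurePreserving_snd.ae (ae_baseM_dirac 0)
  unfold strM
  rw [ae_withDensity_iff (measurable_strD hΦ hf ε K hγ ρ te T' P)]
  filter_upwards [h1] with q hq hD
  unfold strD at hD
  have hg : q ∈ goodS Φ ε te T' K P := by
    by_contra hc
    exact hD (indicator_of_notMem hc _)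
  rw [indicator_of_mem hg] at hD
  have hn : 1 ≤ q.2.2 := by
    have h2 : lineD γ ρ K q.2 ≠ 0 := fun h0 => hD (by rw [h0, mul_zero, mul_zero])
    unfold lineD markW at h2
    by_contra hc
    rw [if_neg (fun h => hc h.1), mul_zero] at h2
    exact h2 rfl
  exact ⟨hg.1, hg.2.1, hq, hn, hg.2.2⟩

theorem ae_nuP (hΦ : AdmissiblePotential Φ) (hε : 0 < ε) (hf : Measurable f₀) {γ : ℝ → ℝ}
    (hγ : Measurable γ) (ρ : ℝ≥0∞) (te T' : ℝ) (P : CTree) (x y : Idx P ⊕ Bool) :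
    ∀ᵐ p ∂(nuP Φ f₀ ε K γ ρ te T' (Measure.dirac 0) P x y), OkP K p := by
  unfold nuP
  rw [ae_map_iff (measurable_pair hΦ ε P x y).aemeasurable (measurableSet_okP K)]
  filter_upwards [ae_strM hΦ hf hγ ρ te T' P] with q hq
  obtain ⟨h1, h2, h3, h4, h5⟩ := hq
  have h6 := fun x => okLine (K := K) hε h1 h2 h3.ge h4 h5 x
  unfold OkP
  rw [oneLsM_of_adm h1.1, oneLsM_of_adm h1.1]
  exact ⟨h6 x, h6 y⟩

theorem ae_nu0 (hΦ : AdmissiblePotential Φ) (hε : 0 < ε) (hf : Measurable f₀) (Q : EPar) (T' : ℝ)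
    (m₀ : ℕ) : ∀ᵐ p ∂(nu0 Φ f₀ ε K Q T' m₀), OkP K p := by
  have hs : MeasurableSet {p : ML × ML | OkP K p}ᶜ := (measurableSet_okP K).compl
  have h := lintegral_nu0 (Φ := Φ) (f₀ := f₀) (ε := ε) (K := K) Q T' m₀
    ({p : ML × ML | OkP K p}ᶜ.indicator 1)
  rw [lintegral_indicator_one hs] at h
  rw [ae_iff]
  refine Eq.trans h ?_
  refine mul_eq_zero_of_right _ (ENNReal.tsum_eq_zero.2 fun P => ?_)
  split_ifs
  · refine Finset.sum_eq_zero fun x _ => Finset.sum_eq_zero fun y _ => ?_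
    rw [lintegral_indicator_one hs]
    exact ae_nuP hΦ hε hf measurable_const Q.ρ Q.te T' P x y
  · rfl

/-! ### Monotonicity in the initial density -/

theorem pfM_mono (hfg : ∀ z, f₀ z ≤ g z) (z : PhasePoint × Par P) :
    ToTree335.pfM Φ f₀ ε P z ≤ ToTree335.pfM Φ g ε P z :=
  Finset.prod_le_prod' fun _ _ => ENNReal.ofReal_le_ofReal (hfg _)

theorem strD_mono (hfg : ∀ z, f₀ z ≤ g z) (γ : ℝ → ℝ) (ρ : ℝ≥0∞) (te T' : ℝ)
    (q : (PhasePoint × Par P) × ML) :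
    strD Φ f₀ ε K γ ρ te T' P q ≤ strD Φ g ε K γ ρ te T' P q := by
  unfold strD
  refine indicator_le_indicator ?_
  gcongr
  exact pfM_mono hfg q.1

theorem strM_mono (hfg : ∀ z, f₀ z ≤ g z) (γ : ℝ → ℝ) (ρ : ℝ≥0∞) (te T' : ℝ) (κ : Measure ℝ) :
    strM Φ f₀ ε K γ ρ te T' κ P ≤ strM Φ g ε K γ ρ te T' κ P :=
  withDensity_mono (ae_of_all _ fun q => strD_mono hfg γ ρ te T' q)

theorem nuP_mono (hΦ : AdmissiblePotential Φ) (hfg : ∀ z, f₀ z ≤ g z) (γ : ℝ → ℝ) (ρ : ℝ≥0∞)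
    (te T' : ℝ) (κ : Measure ℝ) (x y : Idx P ⊕ Bool) :
    nuP Φ f₀ ε K γ ρ te T' κ P x y ≤ nuP Φ g ε K γ ρ te T' κ P x y :=
  Measure.map_mono (strM_mono hfg γ ρ te T' κ) (measurable_pair hΦ ε P x y)

theorem lintegral_nu0_mono (hΦ : AdmissiblePotential Φ) (hfg : ∀ z, f₀ z ≤ g z) (Q : EPar)
    (T' : ℝ) (m₀ : ℕ) (F : ML × ML → ℝ≥0∞) :
    ∫⁻ p, F p ∂(nu0 Φ f₀ ε K Q T' m₀) ≤ ∫⁻ p, F p ∂(nu0 Φ g ε K Q T' m₀) := by
  rw [lintegral_nu0, lintegral_nu0]
  refine mul_le_mul_right (ENNReal.tsum_le_tsum fun P => ?_) _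
  split_ifs
  · exact Finset.sum_le_sum fun x _ => Finset.sum_le_sum fun y _ =>
      lintegral_mono' (nuP_mono hΦ hfg _ _ _ _ _ x y) le_rfl
  · exact le_rfl

/-! ### The pair mass -/

theorem okL_iff (K : ℕ) (θ : Lab × LSt) : OkL K θ ↔ OkP K (dL θ, eL θ) :=
  ⟨fun h => ⟨⟨h.d0, h.d1, h.dK⟩, ⟨h.e0, h.e1, h.eK⟩⟩,
    fun h => ⟨h.1.1, h.1.2.1, h.1.2.2, h.2.1, h.2.2.1, h.2.2.2⟩⟩

/-- Domination of `nu0` by a law on labels, on the pairs born before `te`. -/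
def Dominates (Q : EPar) (nu : Measure (ML × ML)) (nuL : Measure (Lab × LSt)) : Prop :=
  ∀ F : ML × ML → ℝ≥0∞, Measurable F → (∀ p, ¬ (p.1.1.1 ≤ Q.te ∧ p.2.1.1 ≤ Q.te) → F p = 0) →
    ∫⁻ p, F p ∂nu ≤ ∫⁻ θ, F (dL θ, eL θ) ∂nuL

/-- **The pair mass of a law on pairs is at most the pair functional of a dominating law on
labels.** -/
theorem pe_le_pelk (hΦ : AdmissiblePotential Φ) (hε : 0 < ε) (f₀ : PhasePoint → ℝ)
    {nu : Measure (ML × ML)} {nuL : Measure (Lab × LSt)} (hok : ∀ᵐ p ∂nu, OkP K p)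
    (h : Dominates Q nu nuL) : PE Φ f₀ ε K Q nu ≤ PELK Φ f₀ ε K Q nuL := by
  unfold PE PELK
  refine gcE_mono f₀ ε fun n w _ => ?_
  have hS1 : MeasurableSet {p : ML × ML | p.1.1.1 ≤ Q.te} :=
    measurableSet_le (by fun_prop) measurable_const
  have hS2 : MeasurableSet {p : ML × ML | p.2.1.1 ≤ Q.te} :=
    measurableSet_le (by fun_prop) measurable_const
  have hS : MeasurableSet {p : ML × ML | p.1.1.1 ≤ Q.te ∧ p.2.1.1 ≤ Q.te} := hS1.inter hS2
  have hm : Measurable fun p : ML × ML => (MW.cfg w).touchP Φ ε K Q p.1 p.2 :=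
    (MeasE416.measurable_touchP_cfg hΦ hε K Q n).comp
      (f := fun p : ML × ML => ((w, (p.1, p.2)) : Config n × (ML × ML)))
      (measurable_const.prodMk (measurable_fst.prodMk measurable_snd))
  set F : ML × ML → ℝ≥0∞ := ({p : ML × ML | OkP K p} ∩
    {p : ML × ML | p.1.1.1 ≤ Q.te ∧ p.2.1.1 ≤ Q.te}).indicator
      (fun p => (MW.cfg w).touchP Φ ε K Q p.1 p.2) with hF
  have hFm : Measurable F := hm.indicator ((measurableSet_okP K).inter hS)
  have h1 : ∫⁻ p, (MW.cfg w).touchP Φ ε K Q p.1 p.2 ∂nu ≤ ∫⁻ p, F p ∂nu := by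
    refine lintegral_mono_ae ?_
    filter_upwards [hok] with p hp
    by_cases hb : p.1.1.1 ≤ Q.te ∧ p.2.1.1 ≤ Q.te
    · rw [hF, indicator_of_mem (show p ∈ {p : ML × ML | OkP K p} ∩
        {p : ML × ML | p.1.1.1 ≤ Q.te ∧ p.2.1.1 ≤ Q.te} from ⟨hp, hb⟩)]
    · rw [touchP_late hΦ hε hp.1.2.2 hp.2.2.2 hb]
      exact zero_le
  refine h1.trans ((h F hFm fun p hp => ?_).trans (lintegral_mono fun θ => ?_))
  · exact indicator_of_notMem (fun hc => hp hc.2) _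
  · unfold tPK
    by_cases hk : OkL K θ
    · rw [if_pos hk]
      exact Set.indicator_le_self' (fun _ _ => zero_le) _
    · rw [if_neg hk]
      refine le_of_eq (indicator_of_notMem (fun hc => hk ?_) _)
      exact (okL_iff K θ).2 hc.1

/-- **The pair mass of `nu0`.** -/
theorem pe_nu0_le (hΦ : AdmissiblePotential Φ) (hε : 0 < ε) (hf : Measurable f₀) {T' : ℝ} {m₀ : ℕ}
    {nuL : Measure (Lab × LSt)} (h : Dominates Q (nu0 Φ f₀ ε K Q T' m₀) nuL) :
    PE Φ f₀ ε K Q (nu0 Φ f₀ ε K Q T' m₀) ≤ PELK Φ f₀ ε K Q nuL :=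
  pe_le_pelk hΦ hε f₀ (ae_nu0 hΦ hε hf Q T' m₀) h

/-- It is enough to dominate the law of the structures with the density `g ≥ f₀`. -/
theorem Dominates.of_mono (hΦ : AdmissiblePotential Φ) (hfg : ∀ z, f₀ z ≤ g z) {T' : ℝ} {m₀ : ℕ}
    {nuL : Measure (Lab × LSt)} (h : Dominates Q (nu0 Φ g ε K Q T' m₀) nuL) :
    Dominates Q (nu0 Φ f₀ ε K Q T' m₀) nuL := fun F hF h0 =>
  (lintegral_nu0_mono hΦ hfg Q T' m₀ F).trans (h F hF h0)

end Crest.Agent.R122.PMBind85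

end
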