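import Crest.Agent.R122.PTreeG_331
import Crest.Agent.R122.StrMot2_151
import Crest.Agent.R122.Real6P_796

/-!
# Row 122, `ok` of S^(j) (helper331): helper151's `PT` and positive exits, next to the contact tree

Transversal exits and late cross contacts (`PT`) of the pair structure, at the labels of `ptree_of`
(labels `Idx P ⊕ κ`) and `ptreeG_of` (labels `Fin n ⊕ (Idx P ⊕ κ)`).

* `pos_map`, `posne_map` : positive exit times of a class along an embedding.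
* `PTreeM` : `PTree`, `PT` and births `0`, jointly; `PTreeM.map`, `ptreeM_of`, `ptreeM_osP`,
  `ptreeMG_osP`.
* `LevD.ptreeM`, `LevD.ptreeMG` : from helper796's level data, labels `Idx P ⊕ κ`, resp. over the gas.
* `PTreeM.conn`, `PTreeM.connG` : structure and tree are connected.
-/

set_option autoImplicit false
set_option linter.unusedSectionVars false

open MeasureTheory Set Filter Topology
open scoped NNReal ENNReal
open Crest.AnalysisR.Kinetic
open Crest.Agent.R122.Loc45 Crest.Agent.R122.Ins45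
open Crest.Agent.R122.VL581 Crest.Agent.R122.VL581.VSys Crest.Agent.R122.VLInst442
open Crest.Agent.R122.Kin796 Crest.Agent.R122.Kin796.CTree Crest.Agent.R122.Tree674
open Crest.Agent.R122.TreeLines335 Crest.Agent.R122.EDefs602
open Crest.Agent.R122.LNTree410 Crest.Agent.R122.LNGraft410 Crest.Agent.R122.LNEv968
open Crest.Agent.R122.PWInst442 Crest.Agent.R122.LNBridge968 Crest.Agent.R122.LNEmb410
open Crest.Agent.R122.StrG491 Crest.Agent.R122.OCout796 Crest.Agent.R122.LNPart424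
open Crest.Agent.R122.LNS674 Crest.Agent.R122.StrMot2_151 Crest.Agent.R122.Link6796
open Crest.Agent.R122.OneC285 (cT cB cD cX)
open Crest.Agent.R122.GateOsP424 (osB osZ)
open Crest.Agent.R122.PairRep581 (Shp ctOk ctOkS)
open Crest.Agent.R122.Boost969 (LSt)
open Crest.Agent.R122.Pair292 (Lab)
open Crest.Agent.R122.PairD292 (dL eL OkL)
open scoped Classical

noncomputable section

namespace Crest.Agent.R122.PTreeOf331

section map

variable {J J' κ : Type} [Fintype J] [Fintype J'] {M : VSys J κ} {M' : VSys J' κ} {e : J' ↪ J}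

theorem pos_map {cl : J' → Finset J'} {bD' : J' → ℝ} {bD : J → ℝ} {x : J'}
    (hb : ∀ i, bD (e i) = bD' i) (h : ∀ i ∈ cl x, 0 < bD' i) :
    ∀ i ∈ mapCl e cl (e x), 0 < bD i := by
  intro i hi
  rw [mapCl_apply] at hi
  obtain ⟨k, hk, rfl⟩ := Finset.mem_map.1 hi
  rw [hb]
  exact h k hk

theorem posne_map {cl : J' → Finset J'} {bD' : J' → ℝ} {bD : J → ℝ} {y : J'}
    (hb : ∀ i, bD (e i) = bD' i) (h : ∀ i ∈ cl y, i ≠ y → 0 < bD' i) :
    ∀ i ∈ mapCl e cl (e y), i ≠ e y → 0 < bD i := by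
  intro i hi hne
  rw [mapCl_apply] at hi
  obtain ⟨k, hk, rfl⟩ := Finset.mem_map.1 hi
  rw [hb]
  exact h k hk fun h' => hne (by rw [h'])

end map

/-- **The pair structure with its contact tree and its motion**: `PTree`, `PT`, births `0`. -/
structure PTreeM {J κ : Type} [Fintype J] (M : VSys J κ) (c : ℝ) (Z : J → PhasePoint)
    (R : ℝ → J → J → Prop) (π : Finset J) (cl : J → Finset J) (bD : J → ℝ) (x y : J)
    (d : ℝ × PhasePoint) (e : ML) (te : ℝ) (P : CTree) (z : PhasePoint × Par P)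
    (eP : Idx P ↪ J) : Prop where
  pt : PTree M c Z R π cl bD x y d e te P z eP
  mot : PT M Z R cl bD y
  birth : ∀ i ∈ π, M.bb i = 0

section big

variable {J J' κ : Type} [Fintype J] [Fintype J'] {M : VSys J κ} {M' : VSys J' κ} {e : J' ↪ J}
  {Z : J → PhasePoint} {P : CTree} {eP : Idx P ↪ J'}

/-- **`PTreeM` in the bigger system.** -/
theorem PTreeM.map (hp : Pull M' M e) (hΦ : AdmissiblePotential M.Φ) (hε : 0 < M.ε)
    {c : ℝ} {R : ℝ → J' → J' → Prop} {π : Finset J'} {cl : J' → Finset J'}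
    {bD' : J' → ℝ} {bD : J → ℝ} (hb : ∀ i, bD (e i) = bD' i) {x y : J'} {d : ℝ × PhasePoint}
    {f : ML} {te : ℝ} {z : PhasePoint × Par P}
    (h : PTreeM M' c (fun k => Z (e k)) R π cl bD' x y d f te P z eP) :
    PTreeM M c Z (mapR e R) (π.map e) (mapCl e cl) bD (e x) (e y) d f te P z (eP.trans e) where
  pt := PTree.map hp hΦ hε hb h.pt
  mot := PT.map hp hΦ hε h.pt.pr.str (fun i _ => hb i) h.mot
  birth i hi := by
    obtain ⟨k, hk, rfl⟩ := Finset.mem_map.1 hi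
    have h1 := h.birth k hk
    unfold VSys.bb at h1 ⊢
    rwa [hp.b] at h1

/-- Structure and tree are connected. -/
theorem PTreeM.conn [Nonempty κ] {c : ℝ} {R : ℝ → J → J → Prop} {π : Finset J}
    {cl : J → Finset J} {bD : J → ℝ} {x y : J} {d : ℝ × PhasePoint} {f : ML} {te : ℝ}
    {z : PhasePoint × Par P} {eP : Idx P ↪ J} (hΦ : AdmissiblePotential M.Φ) (hε : 0 < M.ε)
    (hC : 1 ≤ c) (h : PTreeM M c Z R π cl bD x y d f te P z eP) : M.Conn c (π ∪ part eP) Z :=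
  (h.pt.str0 hC hΦ hε).conn

end big

section small

variable {κ : Type} [Fintype κ] {P : CTree} {Φ : Space3 → ℝ} {T ε c te : ℝ} {b : κ → ℝ}
  {V : κ → PhasePoint} {z : PhasePoint × Par P} {R : ℝ → κ → κ → Prop} {cl : κ → Finset κ}
  {β : κ → ℝ} {x y : κ} {d : ℝ × PhasePoint} {e : ML}

/-- **`PT` of the structure, labels `Idx P ⊕ κ`.** -/
theorem ptM_of (hΦ : AdmissiblePotential Φ) (hε : 0 < ε) {π E : Finset κ}
    (hs : Str (VLMeas973.vsys Φ T ε b) c V R π cl β E)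
    (hm : PT (VLMeas973.vsys Φ T ε b) V R cl β y) :
    PT (VLMeas973.vsys Φ T ε (Sum.elim (fun _ : Idx P => 0) b))
      (Sum.elim (linesM Φ ε P z.1 z.2) V) (mapR (iS P κ) R) (mapCl (iS P κ) cl) (bE P z β)
      (Sum.inr y) :=
  PT.map (M := VLMeas973.vsys Φ T ε (Sum.elim (fun _ : Idx P => 0) b))
    (M' := VLMeas973.vsys Φ T ε b) (Z := Sum.elim (linesM Φ ε P z.1 z.2) V) (e := iS P κ)
    (bD := bE P z β) (pull_inr _) hΦ hε hs (fun _ _ => rfl) hm

/-- **Pair structure, contact tree and motion**, labels `Idx P ⊕ κ`. -/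
theorem ptreeM_of (hΦ : AdmissiblePotential Φ) (hε : 0 < ε)
    (h : Pair (VLMeas973.vsys Φ T ε b) c V R Finset.univ cl β x y d e.1)
    (hm : PT (VLMeas973.vsys Φ T ε b) V R cl β y) (hb : ∀ k, b k = 0)
    (hV : Valid Φ ε P T z.1.2 z.2) (hS : Sep Φ ε P T z.1 z.2)
    (hct : (z, e.1) ∈ OneC423.ctSet Φ ε te P) (hte : te < T) (hcd : CDok (cD ε z e)) :
    PTreeM (VLMeas973.vsys Φ T ε (Sum.elim (fun _ : Idx P => 0) b)) c
      (Sum.elim (linesM Φ ε P z.1 z.2) V) (mapR (iS P κ) R) (Finset.univ.map (iS P κ))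
      (mapCl (iS P κ) cl) (bE P z β) (Sum.inr x) (Sum.inr y) d e te P z (iT P κ) where
  pt := ptree_of hΦ hε h hV hS hct hte hcd
  mot := ptM_of hΦ hε h.str hm
  birth i _ := by
    have h1 : ∀ j : Idx P ⊕ κ, Sum.elim (fun _ : Idx P => (0 : ℝ)) b j = 0 := by
      rintro (j | j)
      · rfl
      · exact hb j
    change max (Sum.elim (fun _ : Idx P => (0 : ℝ)) b i) 0 = 0
    rw [h1, max_self]

/-- The same for a shape: `osB`, `osZ` of helper424. -/
theorem ptreeM_osP {S : Shp} {q : (PhasePoint × Par P) × S.Θ} {R : ℝ → S.κ → S.κ → Prop}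
    {cl : S.κ → Finset S.κ} {β : S.κ → ℝ} {x y : S.κ} (hΦ : AdmissiblePotential Φ) (hε : 0 < ε)
    (h : Pair (VLMeas973.vsys Φ T ε (S.b ε q.2)) c (S.z ε q.2) R Finset.univ cl β x y
      (dL (S.th ε q.2)).1 (eL (S.th ε q.2)).1)
    (hm : PT (VLMeas973.vsys Φ T ε (S.b ε q.2)) (S.z ε q.2) R cl β y)
    (hb : ∀ k, S.b ε q.2 k = 0)
    (hV : Valid Φ ε P T q.1.1.2 q.1.2) (hS : Sep Φ ε P T q.1.1 q.1.2)
    (hct : (q.1, (S.th ε q.2).2) ∈ OneC423.ctSet Φ ε te P) (hte : te < T)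
    (hcd : CDok (cD ε q.1 (eL (S.th ε q.2)))) :
    PTreeM (VLMeas973.vsys Φ T ε (osB P S ε q)) c (osZ Φ P S ε q) (mapR (iS P S.κ) R)
      (Finset.univ.map (iS P S.κ)) (mapCl (iS P S.κ) cl) (bE P q.1 β) (Sum.inr x) (Sum.inr y)
      (dL (S.th ε q.2)).1 (eL (S.th ε q.2)) te P q.1 (iT P S.κ) :=
  ptreeM_of hΦ hε h hm hb hV hS hct hte hcd

/-- The same over the gas. -/
theorem ptreeMG_osP {n : ℕ} {S : Shp} {q : (PhasePoint × Par P) × S.Θ} {R : ℝ → S.κ → S.κ → Prop}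
    {cl : S.κ → Finset S.κ} {β : S.κ → ℝ} {x y : S.κ} (hΦ : AdmissiblePotential Φ) (hε : 0 < ε)
    (h : Pair (VLMeas973.vsys Φ T ε (S.b ε q.2)) c (S.z ε q.2) R Finset.univ cl β x y
      (dL (S.th ε q.2)).1 (eL (S.th ε q.2)).1)
    (hm : PT (VLMeas973.vsys Φ T ε (S.b ε q.2)) (S.z ε q.2) R cl β y)
    (hb : ∀ k, S.b ε q.2 k = 0)
    (hV : Valid Φ ε P T q.1.1.2 q.1.2) (hS : Sep Φ ε P T q.1.1 q.1.2)
    (hct : (q.1, (S.th ε q.2).2) ∈ OneC423.ctSet Φ ε te P) (hte : te < T)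
    (hcd : CDok (cD ε q.1 (eL (S.th ε q.2)))) (w : Config n) :
    PTreeM (gsys Φ T ε n (osB P S ε q)) c (Sum.elim w (osZ Φ P S ε q))
      (bigR n (mapR (iS P S.κ) R)) ((Finset.univ.map (iS P S.κ)).map (strE n (Idx P ⊕ S.κ)))
      (bigCl n (mapCl (iS P S.κ) cl)) (bigB n (bE P q.1 β)) (Sum.inr (Sum.inr x))
      (Sum.inr (Sum.inr y)) (dL (S.th ε q.2)).1 (eL (S.th ε q.2)) te P q.1
      ((iT P S.κ).trans (strE n (Idx P ⊕ S.κ))) :=
  PTreeM.map (M := gsys Φ T ε n (osB P S ε q)) (M' := VLMeas973.vsys Φ T ε (osB P S ε q))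
    (e := strE n (Idx P ⊕ S.κ)) (Z := Sum.elim w (osZ Φ P S ε q)) (pull_str _) hΦ hε
    (fun _ => rfl) (ptreeM_osP hΦ hε h hm hb hV hS hct hte hcd)

end small

section level

variable {Φ : Space3 → ℝ} {T ε c ℓ ς te : ℝ} {K : ℕ} {P : CTree} {S : Shp}
  {q : (PhasePoint × Par P) × S.Θ}

/-- **From helper796's level data**: pair structure, contact tree and motion, labels `Idx P ⊕ κ`. -/
theorem _root_.Crest.Agent.R122.Link6796.LevD.ptreeM (hΦ : AdmissiblePotential Φ) (hε : 0 < ε)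
    (hte : te < T) (h : LevD Φ T ε c ℓ ς te K P S q) :
    ∃ (R : ℝ → S.κ → S.κ → Prop) (cl : S.κ → Finset S.κ) (bD : S.κ → ℝ) (x y : S.κ),
      PTreeM (VLMeas973.vsys Φ T ε (osB P S ε q)) c (osZ Φ P S ε q) (mapR (iS P S.κ) R)
        (Finset.univ.map (iS P S.κ)) (mapCl (iS P S.κ) cl) (bE P q.1 bD) (Sum.inr x) (Sum.inr y)
        (dL (S.th ε q.2)).1 (eL (S.th ε q.2)) te P q.1 (iT P S.κ) := by
  obtain ⟨R, cl, bD, x, y, h1, h2, h3⟩ := h.pair
  exact ⟨R, cl, bD, x, y, ptreeM_osP hΦ hε h1 ⟨h2, h3⟩ h.b0 h.valid h.sep h.ct.1 hte h.pass.ok⟩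

/-- **From helper796's level data**, over the gas. -/
theorem _root_.Crest.Agent.R122.Link6796.LevD.ptreeMG (hΦ : AdmissiblePotential Φ) (hε : 0 < ε)
    (hte : te < T) (h : LevD Φ T ε c ℓ ς te K P S q) {n : ℕ} (w : Config n) :
    ∃ (R : ℝ → S.κ → S.κ → Prop) (cl : S.κ → Finset S.κ) (bD : S.κ → ℝ) (x y : S.κ),
      PTreeM (gsys Φ T ε n (osB P S ε q)) c (Sum.elim w (osZ Φ P S ε q))
        (bigR n (mapR (iS P S.κ) R)) ((Finset.univ.map (iS P S.κ)).map (strE n (Idx P ⊕ S.κ)))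
        (bigCl n (mapCl (iS P S.κ) cl)) (bigB n (bE P q.1 bD)) (Sum.inr (Sum.inr x))
        (Sum.inr (Sum.inr y)) (dL (S.th ε q.2)).1 (eL (S.th ε q.2)) te P q.1
        ((iT P S.κ).trans (strE n (Idx P ⊕ S.κ))) := by
  obtain ⟨R, cl, bD, x, y, h1, h2, h3⟩ := h.pair
  exact ⟨R, cl, bD, x, y, ptreeMG_osP hΦ hε h1 ⟨h2, h3⟩ h.b0 h.valid h.sep h.ct.1 hte h.pass.ok w⟩

/-- **Structure and tree are connected**, over the gas (hypothesis of helper424's gate). -/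
theorem _root_.Crest.Agent.R122.Link6796.LevD.connG (hΦ : AdmissiblePotential Φ) (hε : 0 < ε)
    (hte : te < T) (hC : 1 ≤ c) (h : LevD Φ T ε c ℓ ς te K P S q) {n : ℕ} (w : Config n) :
    (gsys Φ T ε n (osB P S ε q)).Conn c (pS n (Idx P ⊕ S.κ)) (Sum.elim w (osZ Φ P S ε q)) := by
  obtain ⟨R, cl, bD, x, y, hM⟩ := h.ptreeMG hΦ hε hte w
  have := hM.conn hΦ hε hC
  rwa [@unionG _ _ _ _ (fun a b => Classical.propDecidable (a = b))] at this

end level

end Crest.Agent.R122.PTreeOf331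

end
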