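import Crest.Agent.R122.E6Facts_879
import Crest.Agent.R122.Reborn_45
import Crest.Agent.R122.MWFam_255
import Crest.Agent.R122.H5Defs_994

/-!
# The root line reborn at the link time (row 122, inequality 3, 994 R3), helper515

* `contact_lift`: if neither `A` nor `B` has touched `Z` before `s` and they are not linked in `Z` up
  to `s`, then a contact of `A` with a particle of `Z` in `Z + A` at a time `t ≤ s` is a contact in
  `Z + A + B`.
* `thetaL_rst`: a line `l` which has no contact with the particles of `Z` in `Z + l + B` up to the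
  time `u` touches `Z` after `u`, at the same time as the line reborn at `u`.
* `rst_of_E6Hyp`: the case of the root line `F r` of the fresh cluster in the world
  `w₂ + lines F + d`, for `θ(w₂, F r) = firstT w₂ F ≤ θ(w₂ + lines F, d)`.
-/

set_option autoImplicit false
set_option linter.unusedSectionVars false

open MeasureTheory Set Filter Topology
open scoped ENNReal
open Crest.AnalysisR.Kinetic
open Crest.Agent.R122.Flow671 Crest.Agent.R122.Loc45 Crest.Agent.R122.Ins45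
open Crest.Agent.R122.Causal291 Crest.Agent.R122.CausalGen291
open Crest.Agent.R122.Inf879 Crest.Agent.R122.EDefs602 Crest.Agent.R122.MWAlg255
open Crest.Agent.R122.MWFam255 (Ok4 PairNL)
open Crest.Agent.R122.E6Hyp879 (withD E6Hyp)

namespace Crest.Agent.R122.Rst515

noncomputable section

open scoped Classical

variable {Φ : Space3 → ℝ} {ε T : ℝ} {K : ℕ} {ι κ μ : Type}
variable [Fintype ι] [Fintype κ] [Fintype μ]

/-- **Contacts of `A` lift to the world with `B`**, as long as nobody has touched and there is no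
link. -/
theorem contact_lift (hΦ : AdmissiblePotential Φ) (hε : 0 < ε) {Z : MW ι} {A : MW κ} {B : MW μ}
    (h4 : Ok4 Φ ε Z A B) {s t : ℝ} (hs : s ∈ Icc 0 T)
    (hn : LinkU255.NoLink (MW.four Φ ε Z A B) 0 (Z.Inf Φ ε K) ((Z.add A).Inf Φ ε K)
      ((Z.add B).Inf Φ ε K) s)
    (ht : t ∈ Icc 0 s) {x : κ} {k : ι} (hc : (Z.add A).C Φ ε t (Sum.inr x) (Sum.inl k)) :
    ((Z.add A).add B).C Φ ε t (Sum.inl (Sum.inr x)) (Sum.inl (Sum.inl k)) := by
  have hd := MW.four_dyn hΦ hε h4.z h4.a h4.b h4.ab T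
  have hR := MW.four_rules h4.z h4.a h4.b h4.ab K 0 T
  have htT : t ∈ Icc 0 T := ⟨ht.1, ht.2.trans hs.2⟩
  have hx : (Sum.inr x : ι ⊕ κ) ∉ range (Sum.inl : ι → ι ⊕ κ) := by
    rintro ⟨y, hy⟩
    cases hy
  have hkL : ∀ v, v < t → k ∉ (MW.four Φ ε Z A B).FL v := by
    intro v hv hk
    have hvs := hv.trans_le ht.2
    have hclL := cleanB_of_fut_lt hR.r₀ hR.rL hs.2 hn.untL hvs hk
    have hclA : CleanB 0 (Z.Inf Φ ε K) ((Z.add A).Inf Φ ε K) (id : ι → ι)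
        (Sum.inl : ι → ι ⊕ κ) t k := by
      intro w h0 hw
      have h1 := (hclL w h0 (hw.trans_le ht.2)).1
      exact ⟨h1, fun h' => h1 ((Four.infected_iffA hd hR le_rfl hs.2 hn.untA h0
        (hw.trans_le ht.2) k).2 h')⟩
    have hA : k ∈ (MW.four Φ ε Z A B).CFA 0 (Z.Inf Φ ε K) ((Z.add A).Inf Φ ε K) t :=
      CFut.new₂ (Sum.inr x) hx hc ht.1 le_rfl hclA
    have hL : k ∈ (MW.four Φ ε Z A B).CFL 0 (Z.Inf Φ ε K) ((Z.add B).Inf Φ ε K) t :=
      CFut.mono (Four.cfl_of_fl hR hs.2 hn.untL hvs hk) hv.le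
    exact hn.nl ⟨t, ht, Or.inl ⟨k, hA, hL⟩⟩
  have e1 : (MW.four Φ ε Z A B).zA t (Sum.inr x) =
      (MW.four Φ ε Z A B).z t ((MW.four Φ ε Z A B).fA (Sum.inr x)) :=
    Four.glueL_closed (F := (MW.four Φ ε Z A B).swap) hd.swap hR.swap hs hn.swap.untA
      hn.swap.untL hn.swap.nl ht fun v hv k' hk' => absurd ⟨k', hk'.symm⟩ hx
  have e2 : (MW.four Φ ε Z A B).zA t (Sum.inl k) =
      (MW.four Φ ε Z A B).z t ((MW.four Φ ε Z A B).fA (Sum.inl k)) := by
    refine Four.glueL_closed (F := (MW.four Φ ε Z A B).swap) hd.swap hR.swap hs hn.swap.untA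
      hn.swap.untL hn.swap.nl ht fun v hv k' hk' => ?_
    have h1 : k = k' := Sum.inl_injective hk'
    subst h1
    exact hkL v hv
  exact (hd.pA.coh t htT (Sum.inr x) (Sum.inl k) e1 e2).1 hc

/-- **The line reborn at `u`.** -/
theorem thetaL_rst (hΦ : AdmissiblePotential Φ) (hε : 0 < ε) (hT : 0 ≤ T) {Z : MW ι} {l : ML}
    {B : MW μ} (h4 : Ok4 Φ ε Z (MW.line l) B) (hborn : ∀ k, 0 ≤ Z.b k) (hl0 : 0 ≤ l.1.1)
    {u : ℝ} (hlu : l.1.1 ≤ u) (huT : u ≤ T) (hm : l.2 ≤ K)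
    (hB : min T (Z.thetaL Φ ε K T l) ≤ Z.theta Φ ε K T B)
    (hlk : ¬ Z.LINK Φ ε K (MW.line l) B (min T (Z.thetaL Φ ε K T l)))
    (hno : ∀ t k, t ≤ u → ¬ ((Z.add (MW.line l)).add B).C Φ ε t (Sum.inl (Sum.inr ()))
      (Sum.inl (Sum.inl k))) :
    u < Z.thetaL Φ ε K T l ∧ Z.thetaL Φ ε K T (reb l u) = Z.thetaL Φ ε K T l ∧
      (Z.ins (reb l u)).Ok Φ ε ∧ NoCt Φ ε Z l u := by
  have hθ0 : 0 ≤ Z.thetaL Φ ε K T l := MW.theta_nonneg hT
  have hs0 : 0 ≤ min T (Z.thetaL Φ ε K T l) := le_min hT hθ0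
  have hn := h4.noLink (K := K) hΦ hε (min_le_left _ _) (min_le_right _ _) hB hlk
  have key : ∀ t k, t ≤ u → t ≤ min T (Z.thetaL Φ ε K T l) →
      ¬ (Z.ins l).C Φ ε t (Sum.inr ()) (Sum.inl k) := by
    intro t k htu hts hc
    have h0 : 0 ≤ t := hl0.trans (MW.C_born hc)
    exact hno t k htu (contact_lift hΦ hε h4 ⟨hs0, min_le_left _ _⟩ hn ⟨h0, hts⟩ hc)
  have hlt : u < Z.thetaL Φ ε K T l := by
    by_contra hle
    rw [not_lt] at hle
    obtain ⟨r, hr, x, k, hc⟩ := MW.exists_contact_le_theta (K := K) (T := T) hΦ hε h4.z h4.a hT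
      (hle.trans huT) (by simpa [MW.line, MW.lines] using hm)
    cases x
    exact key r k (hr.2.trans hle) (le_min (hr.2.trans (hle.trans huT)) hr.2) hc
  have hNo : NoCt Φ ε Z l u :=
    ⟨hl0, hborn, hlu, fun t k ht => key t k ht (le_min (ht.trans huT) (ht.trans hlt.le))⟩
  exact ⟨hlt, hNo.thetaL_reb hΦ hε h4.a T, hNo.ok_reb hΦ hε h4.a, hNo⟩

/-! ### The world `w₂ + lines F + d` -/

/-- `(w₂ + lines F) + d` is `(w₂ + F r) + (exits + d)`. -/
def rootEquiv (ι : Type) {κ : Type} (r : κ) :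
    (ι ⊕ κ) ⊕ Unit ≃ (ι ⊕ Unit) ⊕ ({k : κ // k ≠ r} ⊕ Unit) where
  toFun x := match x with
    | Sum.inl (Sum.inl i) => Sum.inl (Sum.inl i)
    | Sum.inl (Sum.inr k) => if h : k = r then Sum.inl (Sum.inr ()) else Sum.inr (Sum.inl ⟨k, h⟩)
    | Sum.inr u => Sum.inr (Sum.inr u)
  invFun y := match y with
    | Sum.inl (Sum.inl i) => Sum.inl (Sum.inl i)
    | Sum.inl (Sum.inr _) => Sum.inl (Sum.inr r)
    | Sum.inr (Sum.inl k) => Sum.inl (Sum.inr k.1)
    | Sum.inr (Sum.inr u) => Sum.inr u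
  left_inv x := by
    rcases x with (i | k) | u
    · rfl
    · by_cases h : k = r
      · simp [h]
      · simp [h]
    · rfl
  right_inv y := by
    rcases y with (i | u) | (k | u)
    · rfl
    · simp
    · simp [k.2]
    · rfl

/-- The exits and `d` in the family `withD F d`. -/
def exdEmb {κ : Type} (r : κ) : {k : κ // k ≠ r} ⊕ Unit ↪ κ ⊕ Unit :=
  ⟨Sum.map Subtype.val id, by
    rintro (x | x) (y | y) h
    · exact congrArg Sum.inl (Subtype.ext (Sum.inl_injective h))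
    · cases h
    · cases h
    · rfl⟩

theorem real_eq_root (w₂ : MW ι) (F : κ → ML) (r : κ) (d : ML) :
    (w₂.add (MW.lines F)).ins d =
      ((w₂.add (MW.line (F r))).add (MW.lines fun i => withD F d (exdEmb r i))).comap
        (rootEquiv ι r) := by
  have e1 : ∀ k : κ, ∀ h : k = r, rootEquiv ι r (Sum.inl (Sum.inr k)) = Sum.inl (Sum.inr ()) :=
    fun k h => by simp [rootEquiv, h]
  have e2 : ∀ k : κ, ∀ h : k ≠ r, rootEquiv ι r (Sum.inl (Sum.inr k)) =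
      Sum.inr (Sum.inl ⟨k, h⟩) := fun k h => by simp [rootEquiv, h]
  have key : ∀ {Z Z' : MW ((ι ⊕ κ) ⊕ Unit)}, Z.b = Z'.b → Z.z = Z'.z → Z.m = Z'.m → Z = Z' := by
    rintro ⟨_, _, _⟩ ⟨_, _, _⟩ h1 h2 h3
    simp only at h1 h2 h3
    rw [h1, h2, h3]
  refine key ?_ ?_ ?_ <;>
  · funext x
    rcases x with (i | k) | u
    · rfl
    · by_cases h : k = r
      · simp only [MW.comap, e1 k h]
        subst h
        rfl
      · simp only [MW.comap, e2 k h]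
        rfl
    · rfl

open Decomp811 (firstT firstT_le le_firstT exF W1E)

variable {w₂ : MW ι} {F : κ → ML} {r : κ} {d e' c' : ML}

/-- **`rst`**: the root line of the fresh cluster, reborn at the link time `u`. Hypotheses: good
worlds, `F`, `d` pairwise unlinked in `w₂`, and no contact of the root line with a particle of `w₂`
in the world `w₂ + lines F + d` up to `u`. -/
theorem rst_core (hΦ : AdmissiblePotential Φ) (hε : 0 < ε) (hT : 0 ≤ T)
    (ok₁ : MW.OkFam Φ ε w₂ (withD F d)) (nl₀ : PairNL Φ ε K T w₂ (withD F d))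
    (hborn : ∀ k, 0 ≤ w₂.b k) (h0 : 0 ≤ (F r).1.1) (hm : (F r).2 ≤ K)
    {u : ℝ} (hru : (F r).1.1 ≤ u) (huT : u ≤ T)
    (hf : w₂.thetaL Φ ε K T (F r) ≤ firstT Φ ε K T w₂ F)
    (hd : w₂.thetaL Φ ε K T (F r) ≤ w₂.thetaL Φ ε K T d)
    (hno : ∀ t k, t ≤ u → ¬ ((w₂.add (MW.lines F)).ins d).C Φ ε t (Sum.inl (Sum.inr r))
      (Sum.inl (Sum.inl k))) :
    u < w₂.thetaL Φ ε K T (F r) ∧
      w₂.thetaL Φ ε K T (reb (F r) u) = w₂.thetaL Φ ε K T (F r) ∧
      (w₂.ins (reb (F r) u)).Ok Φ ε ∧ NoCt Φ ε w₂ (F r) u := by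
  have hfg : ∀ (i : Unit) (j : {k : κ // k ≠ r} ⊕ Unit),
      (⟨fun _ : Unit => Sum.inl r, fun _ _ _ => rfl⟩ : Unit ↪ κ ⊕ Unit) i ≠ exdEmb r j := by
    rintro _ (j | j) h
    · exact j.2 (Sum.inl_injective h).symm
    · cases h
  have h4 : Ok4 Φ ε w₂ (MW.line (F r)) (MW.lines fun i => withD F d (exdEmb r i)) :=
    ⟨ok₁.base hΦ hε, ok₁.line hΦ hε (Sum.inl r),
      (MWFam255.okFam_comp hΦ hε ok₁ (exdEmb r)).lines hΦ hε,
      MWFam255.ok_lines_add hΦ hε ok₁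
        (⟨fun _ : Unit => Sum.inl r, fun _ _ _ => rfl⟩ : Unit ↪ κ ⊕ Unit) (exdEmb r) hfg⟩
  have hnl : MW.NoLink Φ ε K T w₂ (MW.line (F r)) (MW.lines fun i => withD F d (exdEmb r i)) :=
    MWFam255.noLink_lines hΦ hε hT ok₁ nl₀
      (⟨fun _ : Unit => Sum.inl r, fun _ _ _ => rfl⟩ : Unit ↪ κ ⊕ Unit) (exdEmb r) hfg
  have hs0 : 0 ≤ min T (w₂.thetaL Φ ε K T (F r)) := le_min hT (MW.theta_nonneg hT)
  have hsT : min T (w₂.thetaL Φ ε K T (F r)) ≤ T := min_le_left _ _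
  have hsr : min T (w₂.thetaL Φ ε K T (F r)) ≤ w₂.thetaL Φ ε K T (F r) := min_le_right _ _
  have hB : min T (w₂.thetaL Φ ε K T (F r)) ≤
      w₂.theta Φ ε K T (MW.lines fun i => withD F d (exdEmb r i)) := by
    rw [MWFam255.theta_lines_eq hΦ hε hT ok₁ nl₀ (exdEmb r)]
    refine le_firstT (hsT.trans (by linarith)) ?_
    rintro (k | k)
    · exact hsr.trans (hf.trans (firstT_le Φ ε K T w₂ F k))
    · exact hsr.trans hd
  refine thetaL_rst hΦ hε hT h4 hborn h0 hru huT hm hB (hnl _ hs0 hsT hsr hB)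
    fun t k ht hc => hno t k ht ?_
  rw [real_eq_root w₂ F r d, C_comap hΦ hε]
  have e1 : rootEquiv ι r (Sum.inl (Sum.inr r)) = Sum.inl (Sum.inr ()) := by
    simp [rootEquiv]
  rw [e1]
  exact hc

/-- `rst` from helper879's `E6Hyp` (v2); `θ(w₂ + lines F, d)` instead of `θ(w₂, d)`. -/
theorem rst_of_E6Hyp (hΦ : AdmissiblePotential Φ) (hε : 0 < ε) (hT : 0 ≤ T)
    (h : E6Hyp Φ ε K T w₂ F r d e' c')
    (hborn : ∀ k, 0 ≤ w₂.b k) (h0 : 0 ≤ (F r).1.1) (hm : (F r).2 ≤ K)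
    {u : ℝ} (hru : (F r).1.1 ≤ u) (huT : u ≤ T)
    (hf : w₂.thetaL Φ ε K T (F r) ≤ firstT Φ ε K T w₂ F)
    (hd : firstT Φ ε K T w₂ F ≤ (w₂.add (MW.lines F)).thetaL Φ ε K T d)
    (hno : ∀ t k, t ≤ u → ¬ ((w₂.add (MW.lines F)).ins d).C Φ ε t (Sum.inl (Sum.inr r))
      (Sum.inl (Sum.inl k))) :
    u < w₂.thetaL Φ ε K T (F r) ∧
      w₂.thetaL Φ ε K T (reb (F r) u) = w₂.thetaL Φ ε K T (F r) ∧
      (w₂.ins (reb (F r) u)).Ok Φ ε ∧ NoCt Φ ε w₂ (F r) u := by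
  refine rst_core hΦ hε hT h.ok₁ h.nl₀ hborn h0 hm hru huT hf (hf.trans ?_) hno
  have hW : W1E Φ ε K T w₂ (MW.lines F) (MW.line d) := h.w_Ld hΦ hε hT
  have hfL : firstT Φ ε K T w₂ F ≤ w₂.theta Φ ε K T (MW.lines F) := (h.fL_eq hΦ hε hT).ge
  by_contra hlt
  rw [not_le] at hlt
  have h1 := hW.eq (hlt.le.trans hfL)
  have h2 : (w₂.add (MW.lines F)).thetaL Φ ε K T d = w₂.thetaL Φ ε K T d := h1
  rw [h2] at hd
  exact absurd hd (not_le.2 hlt)

/-! ### The lines of a tree -/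

section tree

open Kin796 Kin796.CTree Tree674 PathFlow968 TreeLines335 LineMeas994 H5994

theorem finM_root (Φ : Space3 → ℝ) (ε : ℝ) : ∀ (P : CTree) (ℓ : PhasePoint) (p : Par P),
    finM Φ ε P ℓ p (root P) = ℓ
  | leaf, _, _ => rfl
  | node _ _, ℓ, p => finM_inl_root ε ℓ p

/-- The root line of a tree, reborn at `u`, is the root line of `lineU`. -/
theorem reb_lineMM (Φ : Space3 → ℝ) (ε : ℝ) (P : CTree) (z : PhasePoint × Par P) (u : ℝ) :
    reb (lineMM Φ ε P z (root P)) u = lineU Φ ε P z u (root P) := by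
  unfold reb lineMM lineU lineAt
  rw [if_pos rfl, finM_root, mk_root]
  unfold onLine
  refine Prod.ext (Prod.ext rfl (Prod.ext ?_ rfl)) rfl
  change z.1.1 + rel P z.2 (root P) • z.1.2 + (u - rel P z.2 (root P)) • z.1.2 = z.1.1 + u • z.1.2
  rw [add_assoc, ← add_smul]
  congr 2
  ring

end tree

end

end Crest.Agent.R122.Rst515
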