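import Crest.Agent.R122.PairSplit_292
import Crest.Agent.R122.Rst_515

/-!
# Bad first contacts of a pair are links (row 122, inequality 3), helper515

(patched by helper664: `Birth` refers to the path of the gas alone.)

`link_of_bad` : before `d` has touched `Z`, a first contact of the free line `e` with the world
`Z + d` whose partner is `d` itself or a particle influenced by `d` is a clean link between `d` and
`e` in `Z`, not later than both touch times.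
-/

set_option autoImplicit false
set_option linter.unusedSectionVars false

open MeasureTheory Set Filter Topology
open scoped ENNReal
open Crest.AnalysisR.Kinetic
open Crest.Agent.R122.Flow671 Crest.Agent.R122.Loc45 Crest.Agent.R122.Ins45
open Crest.Agent.R122.Causal291 Crest.Agent.R122.CausalGen291
open Crest.Agent.R122.Inf879 Crest.Agent.R122.EDefs602 Crest.Agent.R122.MWAlg255
open Crest.Agent.R122.MWFam255 Crest.Agent.R122.Direct658
open Crest.Agent.R122.PairD292 (CtL mT2)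
open Crest.Agent.R122.OneC285 (lpos)

namespace Crest.Agent.R122.PairBad515

noncomputable section

open scoped Classical

variable {Φ : Space3 → ℝ} {ε T : ℝ} {K : ℕ} {ι : Type} [Fintype ι]

/-- Clean closure at a closed time before the touch. -/
theorem cf_of_fut_closed (hΦ : AdmissiblePotential Φ) (hε : 0 < ε) {κ : Type} [Fintype κ]
    {Z : MW ι} {A : MW κ} (hZ : Z.Ok Φ ε) (hA : (Z.add A).Ok Φ ε) {s : ℝ} (hs0 : 0 ≤ s)
    (hsT : s ≤ T) (hsd : s < Z.theta Φ ε K T A) {k : ι} (hk : Z.Fut Φ ε A s k) :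
    CF Φ ε K Z A s k := by
  have h0 : ∀ u, 0 ≤ u → u < s → ¬ Z.Touched Φ ε K A u := fun u hu hus ht =>
    absurd ((MW.touched_iff hΦ hε hZ hA (T := T) ⟨hu, hus.le.trans hsT⟩).1 ht)
      (not_le.2 (hus.trans hsd))
  have h1 : ¬ Z.Touched Φ ε K A s := fun ht =>
    absurd ((MW.touched_iff hΦ hε hZ hA (T := T) ⟨hs0, hsT⟩).1 ht) (not_le.2 hsd)
  exact CFut.of_not_hit (hZ.rule 0 T K) (hA.rule 0 T K) hsT h0
    (fun hH => h1 (Hit.touched (hZ.rule 0 T K) (hA.rule 0 T K) le_rfl ⟨hs0, hsT⟩ hH)) hk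

/-- Particles influenced before a time at which nobody has touched are clean. -/
theorem clean_of_fut_lt (hΦ : AdmissiblePotential Φ) (hε : 0 < ε) {κ : Type} [Fintype κ]
    {Z : MW ι} {A : MW κ} (hZ : Z.Ok Φ ε) (hA : (Z.add A).Ok Φ ε) {s v : ℝ}
    (hsT : s ≤ T) (hsd : s ≤ Z.theta Φ ε K T A) (hv : v < s) {k : ι} (hk : Z.Fut Φ ε A v k) :
    CleanB 0 (Z.Inf Φ ε K) ((Z.add A).Inf Φ ε K) (id : ι → ι) (Sum.inl : ι → ι ⊕ κ) s k :=
  cleanB_of_fut_lt (hZ.rule 0 T K) (hA.rule 0 T K) hsT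
    (fun _ hu hus ht => absurd ((MW.touched_iff hΦ hε hZ hA (T := T)
      ⟨hu, hus.le.trans hsT⟩).1 ht) (not_le.2 (hus.trans_le hsd))) hv hk

/-- No contact of the line `e` in `Z + e` before `s`: it has not touched before `s`. -/
theorem le_thetaL_of_no_contact (hΦ : AdmissiblePotential Φ) (hε : 0 < ε)
    {Z : MW ι} {e : ML} (hZ : Z.Ok Φ ε) (he : (Z.ins e).Ok Φ ε) (hm : e.2 ≤ K) {s : ℝ}
    (hsT : s ≤ T) (hno : ∀ r k, r < s → ¬ (Z.ins e).C Φ ε r (Sum.inr ()) (Sum.inl k)) :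
    s ≤ Z.thetaL Φ ε K T e := by
  refine (le_theta_iff hΦ hε hZ he hsT).2 fun u hu hus => ?_
  refine MW.not_touched_of_no_contact hΦ hε (fun r hr x k hc => ?_)
    (by simpa [MW.line, MW.lines] using hm)
  cases x
  exact hno r k (hr.2.trans_lt hus) hc

/-- **Bad first contacts are links.** -/
theorem link_of_bad (hΦ : AdmissiblePotential Φ) (hε : 0 < ε) {Z : MW ι} {d e : ML}
    (hZ : Z.Ok Φ ε) (hd : (Z.ins d).Ok Φ ε) (he : (Z.ins e).Ok Φ ε)
    (hb : 0 ≤ e.1.1) (hm : e.2 ≤ K) {s : ℝ} (hsT : s ≤ T)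
    (hsd : s < Z.thetaL Φ ε K T d)
    (hbef : ∀ t i, t < s → ¬ CtL Φ ε (Z.ins d) e t i)
    {x : ι ⊕ Unit} (hx : CtL Φ ε (Z.ins d) e s x)
    (hx' : ∀ k, x = Sum.inl k → Z.Fut Φ ε (MW.line d) s k) :
    ∃ t, 0 ≤ t ∧ t ≤ s ∧ t ≤ Z.thetaL Φ ε K T e ∧
      Z.LINK Φ ε K (MW.line d) (MW.line e) t := by
  have hs0 : 0 ≤ s := hb.trans hx.2.1
  by_cases hex : ∃ r k, r < s ∧ (Z.ins e).C Φ ε r (Sum.inr ()) (Sum.inl k)
  · -- a contact of `e` with `Z` before `s` in `Z + e`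
    obtain ⟨r, k, hrs, hc⟩ := hex
    have hr0 : 0 ≤ r := hb.trans (MW.C_born hc)
    set S : Set ℝ := {r' | r' ∈ Icc 0 r ∧ ∃ k, (Z.ins e).C Φ ε r' (Sum.inr ()) (Sum.inl k)} with hS
    have hScl : IsClosed S := by
      have : S = ⋃ k, {r' | r' ∈ Icc 0 r ∧ (Z.ins e).C Φ ε r' (Sum.inr ()) (Sum.inl k)} := by
        ext r'
        simp only [hS, mem_ofPred_eq, mem_iUnion]
        exact ⟨fun ⟨h1, k, h2⟩ => ⟨k, h1, h2⟩, fun ⟨k, h1, h2⟩ => ⟨h1, k, h2⟩⟩
      rw [this]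
      exact isClosed_iUnion_of_finite fun k => he.closed r _ _
    have hSne : S.Nonempty := ⟨r, ⟨hr0, le_rfl⟩, k, hc⟩
    have hSbd : BddBelow S := ⟨0, fun r hr => hr.1.1⟩
    obtain ⟨hr1, k₁, hc₁⟩ := hScl.csInf_mem hSne hSbd
    set r₁ := sInf S with hr₁
    have hno : ∀ r' j, r' < r₁ → ¬ (Z.ins e).C Φ ε r' (Sum.inr ()) (Sum.inl j) := by
      intro r' j hr hcr
      have h0 : 0 ≤ r' := hb.trans (MW.C_born hcr)
      exact absurd (csInf_le hSbd (show r' ∈ S from ⟨⟨h0, hr.le.trans hr1.2⟩, j, hcr⟩))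
        (not_le.2 hr)
    have hr1s : r₁ < s := hr1.2.trans_lt hrs
    have hr1T : r₁ ≤ T := hr1s.le.trans hsT
    have h1 := ins_agree hΦ hε hZ he hno (t := r₁) ⟨hr1.1, le_rfl⟩ k₁
    have h2 := ins_free hΦ hε he hno (t := r₁) ⟨hr1.1, le_rfl⟩
    have hθe : r₁ ≤ Z.thetaL Φ ε K T e := le_thetaL_of_no_contact hΦ hε hZ he hm hr1T
      fun r' k hr' => hno r' k hr'
    -- the particle `k₁` has another state in `Z + d`
    have hne : Z.path Φ ε r₁ k₁ ≠ (Z.ins d).path Φ ε r₁ (Sum.inl k₁) := by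
      intro heq
      refine hbef r₁ (Sum.inl k₁) hr1s ?_
      obtain ⟨c1, c2, c3, c4⟩ := hc₁
      refine ⟨c2, c1, ?_, ?_⟩
      · rcases c3 with c3 | c3 | c3
        · cases c3
        · exact Or.inr c3
        · exact Or.inl c3
      · rw [h2, ← h1] at c4
        rw [← heq]
        exact c4
    have hfut : ∃ v, v < r₁ ∧ Z.Fut Φ ε (MW.line d) v k₁ := by
      by_contra hno'
      push Not at hno'
      refine hne (agree_of_not_fut_lt (e₁ := id) (e₂ := Sum.inl)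
        ((MW.com_add Z (MW.line d)).pair hΦ hε hZ hd T) ⟨hr1.1, hr1T⟩ ?_ fun v _ hv => hno' v hv)
      have e1 : Z.path Φ ε 0 = Z.z := MW.path_zero hΦ hε Z
      have e2 : (Z.add (MW.line d)).path Φ ε 0 = (Z.add (MW.line d)).z :=
        MW.path_zero hΦ hε (Z.add (MW.line d))
      rw [e1, e2]
      rfl
    obtain ⟨v, hv, hk⟩ := hfut
    have hkr : Z.Fut Φ ε (MW.line d) r₁ k₁ := CausalGen291.Fut.mono hk hv.le
    have hA : CF Φ ε K Z (MW.line d) r₁ k₁ :=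
      cf_of_fut_closed hΦ hε hZ hd hr1.1 hr1T (hr1s.trans hsd) hkr
    have hcl := clean_of_fut_lt hΦ hε hZ hd hsT hsd.le (hv.trans hr1s) hk
    have hB : CF Φ ε K Z (MW.line e) r₁ k₁ := by
      refine CFut.new₂ (Sum.inr ()) (by rintro ⟨y, hy⟩; cases hy) hc₁ hr1.1 le_rfl fun u hu hur => ?_
      have h3 := (hcl u hu (hur.trans hr1s)).1
      refine ⟨h3, fun h4 => h3 ?_⟩
      exact (MW.inf_iff_of_lt_theta hΦ hε hZ he ⟨hu, hur.le.trans hr1T⟩
        (hur.trans_le hθe) k₁).2 h4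
    exact ⟨r₁, hr1.1, hr1s.le, hθe, link_iff.2 ⟨r₁, ⟨hr1.1, le_rfl⟩, Or.inl ⟨k₁, hA, hB⟩⟩⟩
  · push Not at hex
    have hno : ∀ r k, r < s → ¬ (Z.ins e).C Φ ε r (Sum.inr ()) (Sum.inl k) :=
      fun r k hr => hex r k hr
    have h2 := ins_free hΦ hε he hno (t := s) ⟨hs0, le_rfl⟩
    have hθe : s ≤ Z.thetaL Φ ε K T e := le_thetaL_of_no_contact hΦ hε hZ he hm hsT hno
    refine ⟨s, hs0, le_rfl, hθe, link_iff.2 ⟨s, ⟨hs0, le_rfl⟩, Or.inr ⟨x, Sum.inr (), ?_,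
      ci_inr, ?_⟩⟩⟩
    · intro k hk
      exact cf_of_fut_closed hΦ hε hZ hd hs0 hsT hsd (hx' k hk)
    · obtain ⟨c1, c2, c3, c4⟩ := hx
      refine ⟨c1, c2, Or.inr c3, ?_⟩
      have h3 : (Z.add (MW.line e)).path Φ ε s (Sum.inr ()) = (fpos e s, e.1.2.2) := h2
      rw [h3, dist_comm]
      exact c4

/-! ### The first contact is attained -/

/-- The first contact time of a free line with a good world is attained. -/
theorem mT2_attained (hΦ : AdmissiblePotential Φ) (hε : 0 < ε) {Z : MW ι} {l : ML}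
    (hZ : Z.Ok Φ ε) (hZl : (Z.ins l).Ok Φ ε) (hb : 0 ≤ l.1.1) (h : mT2 Φ ε T Z l ≤ T) :
    ∃ x, CtL Φ ε Z l (mT2 Φ ε T Z l) x := by
  have hex : ∃ s ∈ Icc l.1.1 T, ∃ i, CtL Φ ε Z l s i := by
    by_contra hno
    unfold mT2 MeasE416.first at h
    rw [if_neg hno] at h
    linarith
  have hm : mT2 Φ ε T Z l = sInf {s | s ∈ Icc l.1.1 T ∧ ∃ i, CtL Φ ε Z l s i} := by
    unfold mT2 MeasE416.first
    rw [if_pos hex]
  set S : Set ℝ := {s | s ∈ Icc l.1.1 T ∧ ∃ i, CtL Φ ε Z l s i} with hS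
  -- contacts of the free line before the first contact of `l` in `Z + l` do not exist
  have key : ∀ s₁ : ℝ, (∀ r k, r < s₁ → ¬ (Z.ins l).C Φ ε r (Sum.inr ()) (Sum.inl k)) →
      ∀ t, t ≤ s₁ → 0 ≤ t → ∀ i, (CtL Φ ε Z l t i ↔
        (Z.ins l).C Φ ε t (Sum.inr ()) (Sum.inl i)) := by
    intro s₁ hno t ht ht0 i
    have h1 := ins_agree hΦ hε hZ hZl hno (t := t) ⟨ht0, ht⟩ i
    have h2 := ins_free hΦ hε hZl hno (t := t) ⟨ht0, ht⟩
    constructor
    · rintro ⟨c1, c2, c3, c4⟩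
      refine ⟨c2, c1, ?_, ?_⟩
      · rcases c3 with c3 | c3
        · exact Or.inr (Or.inr c3)
        · exact Or.inr (Or.inl c3)
      · rw [h2, ← h1]
        exact c4
    · rintro ⟨c1, c2, c3, c4⟩
      refine ⟨c2, c1, ?_, ?_⟩
      · rcases c3 with c3 | c3 | c3
        · cases c3
        · exact Or.inr c3
        · exact Or.inl c3
      · rw [h2, ← h1] at c4
        exact c4
  set SC : Set ℝ := {r | r ∈ Icc 0 T ∧ ∃ k, (Z.ins l).C Φ ε r (Sum.inr ()) (Sum.inl k)} with hSC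
  have hSCcl : IsClosed SC := by
    have : SC = ⋃ k, {r | r ∈ Icc 0 T ∧ (Z.ins l).C Φ ε r (Sum.inr ()) (Sum.inl k)} := by
      ext r
      simp only [hSC, mem_ofPred_eq, mem_iUnion]
      exact ⟨fun ⟨h1, k, h2⟩ => ⟨k, h1, h2⟩, fun ⟨k, h1, h2⟩ => ⟨h1, k, h2⟩⟩
    rw [this]
    exact isClosed_iUnion_of_finite fun k => hZl.closed T _ _
  have hSCbd : BddBelow SC := ⟨0, fun r hr => hr.1.1⟩
  have hSCne : SC.Nonempty := by
    by_contra hne
    rw [not_nonempty_iff_eq_empty] at hne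
    obtain ⟨s, hs, i, hi⟩ := hex
    have hs0 : 0 ≤ s := hb.trans hs.1
    have hno : ∀ r k, r < T → ¬ (Z.ins l).C Φ ε r (Sum.inr ()) (Sum.inl k) := by
      intro r k hr hc
      have : r ∈ SC := ⟨⟨hb.trans (MW.C_born hc), hr.le⟩, k, hc⟩
      rw [hne] at this
      exact this
    have h1 := (key T hno s hs.2 hs0 i).1 hi
    have : s ∈ SC := ⟨⟨hs0, hs.2⟩, i, h1⟩
    rw [hne] at this
    exact this
  obtain ⟨hr1, k₁, hc₁⟩ := hSCcl.csInf_mem hSCne hSCbd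
  set r₁ := sInf SC with hr₁
  have hno : ∀ r j, r < r₁ → ¬ (Z.ins l).C Φ ε r (Sum.inr ()) (Sum.inl j) := by
    intro r j hr hcr
    exact absurd (csInf_le hSCbd (show r ∈ SC from ⟨⟨hb.trans (MW.C_born hcr),
      hr.le.trans hr1.2⟩, j, hcr⟩)) (not_le.2 hr)
  have hSr : r₁ ∈ S := ⟨⟨MW.C_born hc₁, hr1.2⟩, k₁, (key r₁ hno r₁ le_rfl hr1.1 k₁).2 hc₁⟩
  have hlow : ∀ s ∈ S, r₁ ≤ s := by
    rintro s ⟨hs, i, hi⟩
    by_contra hlt
    rw [not_le] at hlt
    exact hno s i hlt ((key r₁ hno s hlt.le (hb.trans hs.1) i).1 hi)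
  have heq : mT2 Φ ε T Z l = r₁ := by
    rw [hm]
    exact le_antisymm (csInf_le ⟨l.1.1, fun s hs => hs.1.1⟩ hSr) (le_csInf ⟨r₁, hSr⟩ hlow)
  rw [heq]
  exact hSr.2

/-! ### The bad first contacts of a pair -/

open PairD292 (OkL OkW BMeet2 CMeet2 DMeet2 tC Zd dL eL)
open Boost969 (LSt)
open Pair292 (Lab)

/-- Contact at the birth of the second line: a gas particle (path in the gas alone) within `ε` of its
birth point. (patch helper664: influenced partners are links) -/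
def Birth (Φ : Space3 → ℝ) (ε : ℝ) {n : ℕ} (w : Config n) (θ : Lab × LSt) : Prop :=
  ∃ i : Fin n, dist (eL θ).1.2.1 (flow Φ ε (eL θ).1.1 w i).1 ≤ ε

/-- **Bad first contacts before the touch of `d` are contacts at the birth of `e` or links between
`d` and `e`.** -/
theorem bad_cases (hΦ : AdmissiblePotential Φ) (hε : 0 < ε) {n : ℕ} {w : Config n}
    {θ : Lab × LSt} (hwP : w ∈ PairExcluded ε n) (hw : (MW.cfg w).Ok Φ ε) (hL : OkL K θ)
    (hW : OkW Φ ε w θ)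
    (he : ((MW.cfg w).ins (eL θ)).Ok Φ ε) (hbad : BMeet2 Φ ε K T w θ)
    (hθ : tC Φ ε T w θ < (MW.cfg w).thetaL Φ ε K T (dL θ)) :
    Birth Φ ε w θ ∨ ¬ MW.NoLink Φ ε K T (MW.cfg w) (MW.line (dL θ)) (MW.line (eL θ)) := by
  obtain ⟨hT, hD, hC⟩ := hbad
  obtain ⟨x, hx⟩ := mT2_attained hΦ hε hW.1 hW.2 hL.e0.le (T := T) hT
  have hclean : ¬ ∃ x, CtL Φ ε (Zd w θ) (eL θ) (tC Φ ε T w θ) x ∧
      (Zd w θ).Inf Φ ε K (tC Φ ε T w θ) x := fun ⟨y, h1, h2⟩ => hD ⟨hT, y, h1, h2⟩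
  have hbef : ∀ t i, t < tC Φ ε T w θ → ¬ CtL Φ ε (Zd w θ) (eL θ) t i := fun t i ht =>
    PairD292.not_ctL_of_lt ht (ht.le.trans hT) i
  have h0 : 0 ≤ tC Φ ε T w θ := hL.e0.le.trans hx.2.1
  have hfin : (∀ k, x = Sum.inl k → (MW.cfg w).Fut Φ ε (MW.line (dL θ)) (tC Φ ε T w θ) k) →
      ¬ MW.NoLink Φ ε K T (MW.cfg w) (MW.line (dL θ)) (MW.line (eL θ)) := by
    intro hx' hnl
    obtain ⟨t, ht0, hts, hte, hlk⟩ := link_of_bad hΦ hε hw hW.1 he hL.e0.le hL.eK hT hθ hbef hx hx'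
    exact hnl t ht0 (hts.trans hT) (hts.trans hθ.le) hte hlk
  rcases x with i | y
  · by_cases hf : (MW.cfg w).Fut Φ ε (MW.line (dL θ)) (tC Φ ε T w θ) i
    · right
      refine hfin fun k hk => ?_
      have hk' : i = k := Sum.inl_injective hk
      subst hk'
      exact hf
    · rcases hx.2.1.lt_or_eq with hlt | heq
      · exact absurd ⟨hlt, hT, hx, hclean, hf⟩ (hC i)
      · left
        refine ⟨i, ?_⟩
        have h4 := hx.2.2.2
        have h5 : tC Φ ε T w θ = (eL θ).1.1 := heq.symm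
        have h6 : mT2 Φ ε T (Zd w θ) (eL θ) = (eL θ).1.1 := h5
        have h7 : lpos (eL θ) (eL θ).1.1 = (eL θ).1.2.1 := by
          rw [← PairD292.fpos_eq_lpos, fpos_eq, sub_self, zero_smul, add_zero]
        have h8 : (MW.cfg w).path Φ ε (tC Φ ε T w θ) i =
            ((MW.cfg w).ins (dL θ)).path Φ ε (tC Φ ε T w θ) (Sum.inl i) := by
          refine agree_of_not_fut_lt (e₁ := id) (e₂ := Sum.inl)
            ((MW.com_add (MW.cfg w) (MW.line (dL θ))).pair hΦ hε hw hW.1 T) ⟨h0, hT⟩ ?_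
            fun v _ hv hvf => hf (CausalGen291.Fut.mono hvf hv.le)
          have e1 : (MW.cfg w).path Φ ε 0 = (MW.cfg w).z := MW.path_zero hΦ hε (MW.cfg w)
          have e2 : ((MW.cfg w).add (MW.line (dL θ))).path Φ ε 0 =
              ((MW.cfg w).add (MW.line (dL θ))).z :=
            MW.path_zero hΦ hε ((MW.cfg w).add (MW.line (dL θ)))
          rw [e1, e2]
          rfl
        rw [h5] at h8
        rw [h6, h7] at h4
        have h9 : (Zd w θ).path Φ ε (eL θ).1.1 (Sum.inl i) = flow Φ ε (eL θ).1.1 w i := by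
          have h10 : (Zd w θ).path Φ ε (eL θ).1.1 (Sum.inl i) =
              (MW.cfg w).path Φ ε (eL θ).1.1 i := h8.symm
          rw [h10, Unw410.path_cfg hΦ hε hwP hL.e0.le]
        rw [h9] at h4
        exact h4
  · right
    exact hfin fun k hk => by cases hk

end

end Crest.Agent.R122.PairBad515
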