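import Crest.Agent.R122.Q1_815

/-!
helper815, row 122, block Q (quenched densities), part 3: proof of **theorem (Q1)**, the adversary
form and the excess form.
-/

set_option autoImplicit false

open MeasureTheory Set Filter
open scoped ENNReal Topology Classical
open Crest.AnalysisR.Kinetic Crest.Agent.R122.Kin796 Crest.Agent.R122.Disc416
  Crest.Agent.R122.Kin416 Crest.Agent.R122.Tree674
  Crest.Agent.R122.Scat818 Crest.Agent.R122.TreeF399 Crest.Agent.R122.TreeEps399
  Crest.Agent.R122.Hid424 Crest.Agent.R122.Quench815 Crest.Agent.R122.QDens815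
  Crest.Agent.R122.GC311

noncomputable section

namespace Crest.Agent.R122.Q1815

open CTree

variable {Φ : Space3 → ℝ} {f₀ : PhasePoint → ℝ} {f : ℝ → PhasePoint → ℝ}

/-- bounded sets of the base -/
def BB (n : ℕ) : Set (ℝ × PhasePoint) :=
  (univ : Set ℝ) ×ˢ (Metric.closedBall (0 : Space3) n ×ˢ Metric.closedBall (0 : Space3) n)

theorem measurableSet_BB (n : ℕ) : MeasurableSet (BB n) :=
  MeasurableSet.univ.prod (Metric.isClosed_closedBall.measurableSet.prod
    Metric.isClosed_closedBall.measurableSet)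

theorem BB_mono : Monotone BB := by
  intro n m h y hy
  have h' : (n : ℝ) ≤ m := by exact_mod_cast h
  exact ⟨trivial, Metric.closedBall_subset_closedBall h' hy.2.1,
    Metric.closedBall_subset_closedBall h' hy.2.2⟩

theorem BB_cover (y : ℝ × PhasePoint) : ∃ n, y ∈ BB n := by
  obtain ⟨n, hn⟩ := exists_nat_ge (max ‖y.2.1‖ ‖y.2.2‖)
  refine ⟨n, trivial, ?_, ?_⟩
  · rw [mem_closedBall_zero_iff]
    exact (le_max_left _ _).trans hn
  · rw [mem_closedBall_zero_iff]
    exact (le_max_right _ _).trans hn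

theorem measure_BB_ne (κ : Measure ℝ) [IsFiniteMeasure κ] (n : ℕ) :
    (κ.prod (volume : Measure PhasePoint)) (BB n) ≠ ∞ := by
  unfold BB
  rw [Measure.prod_prod, Measure.volume_eq_prod, Measure.prod_prod]
  exact ENNReal.mul_ne_top (measure_ne_top _ _) (ENNReal.mul_ne_top
    measure_closedBall_lt_top.ne measure_closedBall_lt_top.ne)

/-- convergence on bounded sets of the base from convergence in the root position -/
theorem base_lim (κ : Measure ℝ) [IsFiniteMeasure κ] {a : ℝ → PhasePoint → ℝ≥0∞}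
    (ham : ∀ ε, 0 < ε → Measurable (a ε)) (ha1 : ∀ ε ℓ, a ε ℓ ≤ 1)
    (h : ∀ᵐ v : Space3, ∀ R : ℝ, Tendsto (fun ε => ∫⁻ X in Metric.closedBall (0 : Space3) R,
      a ε (X, v)) L (𝓝 0)) (n : ℕ) :
    Tendsto (fun ε => ∫⁻ y in BB n, a ε y.2 ∂(κ.prod volume)) L (𝓝 0) := by
  set Bn : Set Space3 := Metric.closedBall (0 : Space3) n with hBn
  have e1 : ∀ ε, 0 < ε → ∫⁻ y in BB n, a ε y.2 ∂(κ.prod volume) =
      κ univ * ∫⁻ v in Bn, ∫⁻ X in Bn, a ε (X, v) := by
    intro ε hε
    have hm := ham ε hε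
    have h1 : (κ.prod (volume : Measure PhasePoint)).restrict (BB n) =
        κ.prod ((volume : Measure PhasePoint).restrict (Bn ×ˢ Bn)) := by
      unfold BB
      rw [← Measure.prod_restrict, Measure.restrict_univ]
    have h2 : Measurable fun y : ℝ × PhasePoint => a ε y.2 := hm.comp measurable_snd
    rw [h1, lintegral_prod _ h2.aemeasurable]
    simp only
    rw [lintegral_const, mul_comm]
    congr 1
    rw [Measure.volume_eq_prod, ← Measure.prod_restrict, lintegral_prod _ hm.aemeasurable]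
    exact lintegral_lintegral_swap (f := fun X v => a ε (X, v)) hm.aemeasurable
  have : IsFiniteMeasure ((volume : Measure Space3).restrict Bn) :=
    isFiniteMeasure_restrict.2 measure_closedBall_lt_top.ne
  have key := tendsto_lintegral_filter_of_dominated_convergence
    (μ := (volume : Measure Space3).restrict Bn) (l := L)
    (F := fun ε v => ∫⁻ X in Bn, a ε (X, v)) (f := fun _ => 0)
    (fun _ => volume Bn)
    (by
      filter_upwards [eventually_pos] with ε hε
      exact ((ham ε hε).comp measurable_swap).lintegral_prod_right')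
    (Eventually.of_forall fun ε => ae_of_all _ fun v => by
      calc ∫⁻ X in Bn, a ε (X, v) ≤ ∫⁻ _ in Bn, 1 := lintegral_mono fun X => ha1 _ _
        _ = volume Bn := by simp)
    (by
      rw [lintegral_const]
      exact ENNReal.mul_ne_top measure_closedBall_lt_top.ne (measure_ne_top _ _))
    (ae_restrict_of_ae (h.mono fun v hv => hv n))
  simp only [lintegral_zero] at key
  have key2 := ENNReal.Tendsto.const_mul (a := κ univ) key (Or.inr (measure_ne_top κ univ))
  rw [mul_zero] at key2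
  refine (tendsto_congr' ?_).2 key2
  filter_upwards [eventually_pos] with ε hε
  exact e1 ε hε

/-- **Theorem (Q1)** (one tree shape `P`, one weight `φ`): the quenched root density converges to
its kinetic limit in `L¹(gc ⊗ κ(ds) ⊗ dℓ)`. -/
theorem Q1 (hΦ : AdmissiblePotential Φ) {κ : Measure ℝ} [IsFiniteMeasure κ]
    {γ a Cφ T T₀ tw : ℝ} (hκ : ∀ᵐ s ∂κ, s ≤ T₀) {env : Space3 → ℝ≥0∞}
    {A : ℝ≥0∞} (hE : Env γ f₀ env A) (ha : a < γ) (hf : Continuous f₀)
    (hf1 : ∫⁻ z, ENNReal.ofReal (f₀ z) ≤ 1) {P : CTree} {φ : ℝ × PhasePoint × Par P → ℝ≥0∞}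
    (hφ : Measurable φ)
    (hφb : ∀ s ℓ p, s ≤ T₀ → Valid Φ 0 P s ℓ.2 p → φ (s, ℓ, p) ≤
      ENNReal.ofReal Cφ * ENNReal.ofReal (Real.exp (a * (‖ℓ.2‖ ^ 2 + nodeEn P p))))
    (hQ : QInput Φ f₀ f T P T₀ tw) :
    Tendsto (fun ε => gcE f₀ ε fun _ w => ∫⁻ y : ℝ × PhasePoint,
      absd (Dw Φ f₀ P φ ε tw y.1 y.2 w) (D0 Φ f₀ f T P φ tw y.1 y.2) ∂(κ.prod volume)) L
      (𝓝 0) := by
  have : ∀ i : {ε : ℝ // 0 < ε}, IsProbabilityMeasure (gcMeasure f₀ i.1) := fun i =>
    isProbabilityMeasure_gcMeasure hf.measurable i.1 hf1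
  have hrange : Set.range (Subtype.val : {ε : ℝ // 0 < ε} → ℝ) ∈ L := by
    rw [Subtype.range_val_subtype]
    exact eventually_pos
  have hgm : ∀ ε, Measurable (Function.uncurry fun (y : ℝ × PhasePoint) (p : Par P) =>
      gw Φ f₀ P φ ε y.1 y.2 p) := fun ε => measurable_gw hΦ hf.measurable hφ ε
  -- one-point function
  have hone : ∀ᵐ p : Par P, ∀ᵐ v : Space3, Valid Φ 0 P T₀ v p → ∀ R : ℝ,
      Tendsto (fun ε => ∫⁻ X in Metric.closedBall (0 : Space3) R,
      GIV566.adiff (GIV566.uG Φ f₀ ε (hid Φ ε P (X, v) p) tw)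
        (GIV566.dampG T f (hid0 Φ P (X, v) p) tw)) L (𝓝 0) := by
    have h1 : ∀ᵐ z : Par P × Space3, Valid Φ 0 P T₀ z.2 z.1 → ∀ R : ℝ,
        Tendsto (fun ε => ∫⁻ X in Metric.closedBall (0 : Space3) R,
        GIV566.adiff (GIV566.uG Φ f₀ ε (hid Φ ε P (X, z.2) z.1) tw)
          (GIV566.dampG T f (hid0 Φ P (X, z.2) z.1) tw)) L (𝓝 0) :=
      (Measure.measurePreserving_swap (μ := (volume : Measure (Par P)))
        (ν := (volume : Measure Space3))).quasiMeasurePreserving.ae hQ.one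
    exact Measure.ae_ae_of_ae_prod h1
  have htwo : ∀ᵐ p : Par P, ∀ᵐ p' : Par P, ∀ᵐ v : Space3, Valid Φ 0 P T₀ v p →
      Valid Φ 0 P T₀ v p' → ∀ R : ℝ,
      Tendsto (fun ε => ∫⁻ X in Metric.closedBall (0 : Space3) R,
      GIV566.adiff (GIV566.uG Φ f₀ ε ((hid Φ ε P (X, v) p).sum (hid Φ ε P (X, v) p')) tw)
        (GIV566.dampG T f (hid0 Φ P (X, v) p) tw * GIV566.dampG T f (hid0 Φ P (X, v) p') tw))
        L (𝓝 0) := by
    have h1 : ∀ᵐ z : (Par P × Par P) × Space3, Valid Φ 0 P T₀ z.2 z.1.1 →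
        Valid Φ 0 P T₀ z.2 z.1.2 → ∀ R : ℝ,
        Tendsto (fun ε => ∫⁻ X in Metric.closedBall (0 : Space3) R,
        GIV566.adiff (GIV566.uG Φ f₀ ε ((hid Φ ε P (X, z.2) z.1.1).sum
          (hid Φ ε P (X, z.2) z.1.2)) tw) (GIV566.dampG T f (hid0 Φ P (X, z.2) z.1.1) tw *
          GIV566.dampG T f (hid0 Φ P (X, z.2) z.1.2) tw)) L (𝓝 0) :=
      (Measure.measurePreserving_swap (μ := (volume : Measure (Par P × Par P)))
        (ν := (volume : Measure Space3))).quasiMeasurePreserving.ae hQ.two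
    have h2 : ∀ᵐ q : Par P × Par P, ∀ᵐ v : Space3, Valid Φ 0 P T₀ v q.1 →
      Valid Φ 0 P T₀ v q.2 → ∀ R : ℝ,
      Tendsto (fun ε => ∫⁻ X in Metric.closedBall (0 : Space3) R,
      GIV566.adiff (GIV566.uG Φ f₀ ε ((hid Φ ε P (X, v) q.1).sum (hid Φ ε P (X, v) q.2)) tw)
        (GIV566.dampG T f (hid0 Φ P (X, v) q.1) tw * GIV566.dampG T f (hid0 Φ P (X, v) q.2) tw))
        L (𝓝 0) := Measure.ae_ae_of_ae_prod h1
    exact Measure.ae_ae_of_ae_prod h2
  have main := lln (ι := {ε : ℝ // 0 < ε}) (Ω := fun _ => Σ n : ℕ, Config n)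
    (P := fun i => gcMeasure f₀ i.1) (l := comap Subtype.val L)
    (κ.prod (volume : Measure PhasePoint)) (volume : Measure (Par P))
    (B := BB) measurableSet_BB (measure_BB_ne κ) BB_mono BB_cover
    (g := fun y p => gw Φ f₀ P φ 0 y.1 y.2 p) (hgm 0)
    (lintegral_gw_ne_top hΦ hκ hE ha hf.measurable hφ hφb le_rfl)
    (G := fun i y p => gw Φ f₀ P φ i.1 y.1 y.2 p) (fun i => hgm i.1)
    ((tendsto_comap'_iff (m := fun ε : ℝ => ∫⁻ y : ℝ × PhasePoint, (∫⁻ p,
      absd (gw Φ f₀ P φ ε y.1 y.2 p) (gw Φ f₀ P φ 0 y.1 y.2 p)) ∂(κ.prod volume)) hrange).2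
      (tendsto_gw hΦ hκ hE ha hf hφ hφb))
    (H := fun i ω y p => HH Φ P T₀ tw i.1 ω y p) (fun i => measurable_HH hΦ i.2 P T₀ tw)
    (fun i ω y p => HH_le_one) (h := hh Φ f T P T₀ tw) (measurable_hh hQ)
    (fun y p => hh_le_one) ?_ ?_
  · -- conclusion
    rw [← tendsto_comap'_iff (i := (Subtype.val : {ε : ℝ // 0 < ε} → ℝ)) hrange]
    refine main.congr fun i => ?_
    obtain ⟨ε, hε⟩ := i
    have hm1 : Measurable fun q : (Σ n : ℕ, Config n) × (ℝ × PhasePoint) =>
        ∫⁻ p, gw Φ f₀ P φ ε q.2.1 q.2.2 p * HH Φ P T₀ tw ε q.1 q.2 p := by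
      have : Measurable fun q : ((Σ n : ℕ, Config n) × (ℝ × PhasePoint)) × Par P =>
          gw Φ f₀ P φ ε q.1.2.1 q.1.2.2 q.2 * HH Φ P T₀ tw ε q.1.1 q.1.2 q.2 :=
        ((hgm ε).comp (f := fun q : ((Σ n : ℕ, Config n) × (ℝ × PhasePoint)) × Par P =>
          (q.1.2, q.2)) (measurable_fst.snd.prodMk measurable_snd)).mul
          (measurable_HH hΦ hε P T₀ tw)
      exact this.lintegral_prod_right'
    have hm2 : Measurable fun y : ℝ × PhasePoint =>
        ∫⁻ p, gw Φ f₀ P φ 0 y.1 y.2 p * hh Φ f T P T₀ tw y p := by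
      have : Measurable fun q : (ℝ × PhasePoint) × Par P =>
          gw Φ f₀ P φ 0 q.1.1 q.1.2 q.2 * hh Φ f T P T₀ tw q.1 q.2 :=
        (hgm 0).mul (measurable_hh hQ)
      exact this.lintegral_prod_right'
    have hm3 : Measurable fun ω : Σ n : ℕ, Config n => ∫⁻ y : ℝ × PhasePoint,
        absd (∫⁻ p, gw Φ f₀ P φ ε y.1 y.2 p * HH Φ P T₀ tw ε ω y p)
        (∫⁻ p, gw Φ f₀ P φ 0 y.1 y.2 p * hh Φ f T P T₀ tw y p) ∂(κ.prod volume) :=
      (measurable_absd hm1 (hm2.comp measurable_snd)).lintegral_prod_right'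
    have e1 := lintegral_gcMeasure hf.measurable ε (F := fun n w => ∫⁻ y : ℝ × PhasePoint,
        absd (∫⁻ p, gw Φ f₀ P φ ε y.1 y.2 p * HH Φ P T₀ tw ε ⟨n, w⟩ y p)
        (∫⁻ p, gw Φ f₀ P φ 0 y.1 y.2 p * hh Φ f T P T₀ tw y p) ∂(κ.prod volume))
      (fun n => hm3.comp (measurable_sigmaMk' n))
    refine (Eq.trans ?_ e1).trans ?_
    · rfl
    · refine gcE_congr f₀ ε fun n w _ => ?_
      have hκ' : ∀ᵐ y : ℝ × PhasePoint ∂(κ.prod volume), y.1 ≤ T₀ :=
        Measure.quasiMeasurePreserving_fst.ae hκ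
      refine lintegral_congr_ae (hκ'.mono fun y hy => ?_)
      have e2 : ∫⁻ p, gw Φ f₀ P φ ε y.1 y.2 p * HH Φ P T₀ tw ε ⟨n, w⟩ y p =
          Dw Φ f₀ P φ ε tw y.1 y.2 w := by
        unfold Dw
        refine lintegral_congr fun p => ?_
        by_cases hV : Valid Φ ε P y.1 y.2.2 p
        · have hV0 := valid_mono hε.le hy hV
          unfold HH
          rw [vI_of_valid hV0, one_mul, hidM_of_adm (ℓ := y.2) hV.1]
        · rw [gw_of_not_valid hV, zero_mul, zero_mul]
      have e3 : ∫⁻ p, gw Φ f₀ P φ 0 y.1 y.2 p * hh Φ f T P T₀ tw y p =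
          D0 Φ f₀ f T P φ tw y.1 y.2 := by
        unfold D0
        refine lintegral_congr fun p => ?_
        by_cases hV : Valid Φ 0 P y.1 y.2.2 p
        · rw [hh_of_valid (valid_mono le_rfl hy hV)]
        · rw [gw_of_not_valid hV, zero_mul, zero_mul]
      simp only [e2, e3]
  · -- A1
    intro n
    filter_upwards [hone] with p hp
    refine (tendsto_comap'_iff (m := fun ε : ℝ => ∫⁻ y in BB n,
      absd (∫⁻ ω, HH Φ P T₀ tw ε ω y p ∂(gcMeasure f₀ ε)) (hh Φ f T P T₀ tw y p)
      ∂(κ.prod volume)) hrange).2 ?_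
    have hb := base_lim κ (a := fun ε ℓ => if 0 < ε then
      absd (∫⁻ ω, HH Φ P T₀ tw ε ω ((0 : ℝ), ℓ) p ∂(gcMeasure f₀ ε))
        (hh Φ f T P T₀ tw ((0 : ℝ), ℓ) p) else 0) ?_ ?_ ?_ n
    · refine (tendsto_congr' ?_).1 hb
      filter_upwards [eventually_pos] with ε hε
      refine lintegral_congr fun y => ?_
      rw [if_pos hε]
      rfl
    · intro ε hε
      simp only [if_pos hε]
      have : IsProbabilityMeasure (gcMeasure f₀ ε) :=
        isProbabilityMeasure_gcMeasure hf.measurable ε hf1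
      refine measurable_absd ?_ ?_
      · have : Measurable fun q : PhasePoint × (Σ n : ℕ, Config n) =>
            HH Φ P T₀ tw ε q.2 ((0 : ℝ), q.1) p :=
          (measurable_HH hΦ hε P T₀ tw).comp
            (f := fun q : PhasePoint × (Σ n : ℕ, Config n) => ((q.2, ((0 : ℝ), q.1)), p))
            ((measurable_snd.prodMk (measurable_const.prodMk measurable_fst)).prodMk
              measurable_const)
        exact this.lintegral_prod_right'
      · exact (measurable_hh hQ).comp (f := fun ℓ : PhasePoint => (((0 : ℝ), ℓ), p))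
          ((measurable_const.prodMk measurable_id).prodMk measurable_const)
    · intro ε ℓ
      split_ifs with hε
      · refine absd_le_one ?_ hh_le_one
        have : IsProbabilityMeasure (gcMeasure f₀ ε) :=
          isProbabilityMeasure_gcMeasure hf.measurable ε hf1
        calc ∫⁻ ω, HH Φ P T₀ tw ε ω ((0 : ℝ), ℓ) p ∂(gcMeasure f₀ ε)
            ≤ ∫⁻ _, 1 ∂(gcMeasure f₀ ε) := lintegral_mono fun ω => HH_le_one
          _ = 1 := by simp
      · exact bot_le
    · filter_upwards [hp] with v hv R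
      by_cases hV : Valid Φ 0 P T₀ v p
      · refine (tendsto_congr' ?_).1 (hv hV R)
        filter_upwards [eventually_pos] with ε hε
        refine lintegral_congr fun X => ?_
        rw [if_pos hε, lintegral_HH hΦ hf.measurable hε ((0 : ℝ), (X, v)) p hV,
          hh_of_valid (y := ((0 : ℝ), (X, v))) hV]
        rfl
      · refine (tendsto_congr' ?_).1 tendsto_const_nhds
        filter_upwards [eventually_pos] with ε hε
        symm
        rw [lintegral_eq_zero_iff']
        · refine ae_of_all _ fun X => ?_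
          simp only [if_pos hε, Pi.zero_apply]
          rw [hh_of_not (y := ((0 : ℝ), (X, v))) hV]
          unfold HH
          rw [vI_of_not (ℓ := (X, v)) hV]
          simp
        · have : ∀ X : Space3, (if 0 < ε then
              absd (∫⁻ ω, HH Φ P T₀ tw ε ω ((0 : ℝ), (X, v)) p ∂(gcMeasure f₀ ε))
              (hh Φ f T P T₀ tw ((0 : ℝ), (X, v)) p) else 0) = 0 := by
            intro X
            rw [if_pos hε, hh_of_not (y := ((0 : ℝ), (X, v))) hV]
            unfold HH
            rw [vI_of_not (ℓ := (X, v)) hV]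
            simp
          simp only [this]
          exact aemeasurable_const
  · -- A2
    intro n
    filter_upwards [htwo] with p hp
    filter_upwards [hp] with p' hp'
    refine (tendsto_comap'_iff (m := fun ε : ℝ => ∫⁻ y in BB n,
      absd (∫⁻ ω, HH Φ P T₀ tw ε ω y p * HH Φ P T₀ tw ε ω y p' ∂(gcMeasure f₀ ε))
      (hh Φ f T P T₀ tw y p * hh Φ f T P T₀ tw y p') ∂(κ.prod volume)) hrange).2 ?_
    have hb := base_lim κ (a := fun ε ℓ => if 0 < ε then
      absd (∫⁻ ω, HH Φ P T₀ tw ε ω ((0 : ℝ), ℓ) p * HH Φ P T₀ tw ε ω ((0 : ℝ), ℓ) p'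
        ∂(gcMeasure f₀ ε)) (hh Φ f T P T₀ tw ((0 : ℝ), ℓ) p *
          hh Φ f T P T₀ tw ((0 : ℝ), ℓ) p') else 0) ?_ ?_ ?_ n
    · refine (tendsto_congr' ?_).1 hb
      filter_upwards [eventually_pos] with ε hε
      refine lintegral_congr fun y => ?_
      rw [if_pos hε]
      rfl
    · intro ε hε
      simp only [if_pos hε]
      have : IsProbabilityMeasure (gcMeasure f₀ ε) :=
        isProbabilityMeasure_gcMeasure hf.measurable ε hf1
      refine measurable_absd ?_ ?_
      · have hH : ∀ p : Par P, Measurable fun q : PhasePoint × (Σ n : ℕ, Config n) =>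
            HH Φ P T₀ tw ε q.2 ((0 : ℝ), q.1) p := fun p =>
          (measurable_HH hΦ hε P T₀ tw).comp
            (f := fun q : PhasePoint × (Σ n : ℕ, Config n) => ((q.2, ((0 : ℝ), q.1)), p))
            ((measurable_snd.prodMk (measurable_const.prodMk measurable_fst)).prodMk
              measurable_const)
        exact ((hH p).mul (hH p')).lintegral_prod_right'
      · have hH : ∀ p : Par P, Measurable fun ℓ : PhasePoint =>
            hh Φ f T P T₀ tw ((0 : ℝ), ℓ) p := fun p =>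
          (measurable_hh hQ).comp (f := fun ℓ : PhasePoint => (((0 : ℝ), ℓ), p))
            ((measurable_const.prodMk measurable_id).prodMk measurable_const)
        exact (hH p).mul (hH p')
    · intro ε ℓ
      split_ifs with hε
      · refine absd_le_one ?_ ?_
        · have : IsProbabilityMeasure (gcMeasure f₀ ε) :=
            isProbabilityMeasure_gcMeasure hf.measurable ε hf1
          calc ∫⁻ ω, HH Φ P T₀ tw ε ω ((0 : ℝ), ℓ) p * HH Φ P T₀ tw ε ω ((0 : ℝ), ℓ) p'
                ∂(gcMeasure f₀ ε)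
              ≤ ∫⁻ _, 1 * 1 ∂(gcMeasure f₀ ε) :=
                lintegral_mono fun ω => mul_le_mul' HH_le_one HH_le_one
            _ = 1 := by simp
        · calc hh Φ f T P T₀ tw ((0 : ℝ), ℓ) p * hh Φ f T P T₀ tw ((0 : ℝ), ℓ) p' ≤ 1 * 1 :=
              mul_le_mul' hh_le_one hh_le_one
            _ = 1 := one_mul 1
      · exact bot_le
    · filter_upwards [hp'] with v hv R
      by_cases hV : Valid Φ 0 P T₀ v p ∧ Valid Φ 0 P T₀ v p'
      · refine (tendsto_congr' ?_).1 (hv hV.1 hV.2 R)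
        filter_upwards [eventually_pos] with ε hε
        refine lintegral_congr fun X => ?_
        rw [if_pos hε, lintegral_HH2 hΦ hf.measurable hε ((0 : ℝ), (X, v)) p p' hV.1 hV.2,
          hh_of_valid (y := ((0 : ℝ), (X, v))) hV.1, hh_of_valid (y := ((0 : ℝ), (X, v))) hV.2]
        rfl
      · have hz : ∀ X : Space3, ∀ ε, (if 0 < ε then
            absd (∫⁻ ω, HH Φ P T₀ tw ε ω ((0 : ℝ), (X, v)) p *
              HH Φ P T₀ tw ε ω ((0 : ℝ), (X, v)) p' ∂(gcMeasure f₀ ε))
            (hh Φ f T P T₀ tw ((0 : ℝ), (X, v)) p * hh Φ f T P T₀ tw ((0 : ℝ), (X, v)) p')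
            else 0) = 0 := by
          intro X ε
          rcases not_and_or.1 hV with h | h
          · rw [hh_of_not (y := ((0 : ℝ), (X, v))) h]
            unfold HH
            rw [vI_of_not (ℓ := (X, v)) h]
            simp
          · rw [hh_of_not (y := ((0 : ℝ), (X, v))) h]
            unfold HH
            rw [vI_of_not (ℓ := (X, v)) h]
            simp
        simp only [hz, lintegral_zero]
        exact tendsto_const_nhds

end Crest.Agent.R122.Q1815

end
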