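import Crest.Agent.R122.PairKer_292
import Crest.Agent.R122.Q1Main_815
import Crest.Agent.R122.MeasEDefs_416
import Crest.Agent.R122.BadHit_370

/-!
Row 122, block H4 (inequality 3 of section E), helper292: case (C).

* `caseC_pt` : pointwise in the world: the contact integrals of the quenched root densities with a
  functional of the outgoing line are bounded by the integral over the continued pair law;
* `toPair`, `PE_toPair` : the pair unknown `PE` of a labelled pair law.
-/

set_option autoImplicit false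

open MeasureTheory ProbabilityTheory Set
open Crest.AnalysisR.Kinetic
open Crest.Agent.R122.Boost969 Crest.Agent.R122.Disc416 Crest.Agent.R122.Flux663
open Crest.Agent.R122.OC663 Crest.Agent.R122.Scat818 Crest.Agent.R122.Kin416
open Crest.Agent.R122.GC311 Crest.Agent.R122.EDefs602
open scoped ENNReal

noncomputable section

namespace Crest.Agent.R122.Pair292

/-! ### The pair law as a translation invariant family -/

variable {ν : Measure (Lab × LSt)}

/-- position of the first line at its birth -/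
def posD (p : Lab × LSt) : Space3 := p.1.1.1.2.1

lemma measurable_posD : Measurable posD := by unfold posD; fun_prop

lemma measurable_shP' : Measurable fun q : Space3 × (Lab × LSt) => shP q.1 q.2 := by
  unfold shP
  have h1 : Measurable fun q : Space3 × (Lab × LSt) => shM q.1 q.2.1.1 :=
    measurable_shM'.comp (measurable_fst.prodMk (by fun_prop))
  have h2 : Measurable fun q : Space3 × (Lab × LSt) => shL q.1 q.2.2 :=
    measurable_shL'.comp (measurable_fst.prodMk (by fun_prop))
  exact (h1.prodMk (by fun_prop)).prodMk h2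

/-- a translation invariant pair law -/
theorem invFam (h : SFinite ν) (htr : ∀ a, ν.map (shP a) = ν) :
    InvFam shP (fun p : Lab × LSt => p.2) posD ν :=
  ⟨h, measurable_shP', measurable_snd, measurable_posD, fun _ _ => rfl, fun _ _ => rfl, htr⟩

theorem PX.invFam {P : PPar} {Ξ : Measure (Lab × LSt)} {c : ℝ≥0∞} (h : PX P Ξ ν c) :
    InvFam shP (fun p : Lab × LSt => p.2) posD ν :=
  Pair292.invFam h.sfν h.trans

/-! ### Case (C), pointwise in the world -/

variable {Tr : Type*}

/-- reorganisation of a sum over trees by the number of leaves -/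
theorem tsum_size {D : Tr → ℝ≥0∞} {size : Tr → ℕ} {q : ℕ → ℝ≥0∞} {g : ℝ≥0∞}
    (h : ∀ k, ∑' t, (if size t = k then D t else 0) ≤ q k * g) (a : ℕ → ℝ≥0∞) :
    ∑' t, D t * a (size t) ≤ g * ∑' k, q k * a k := by
  have h1 : ∀ t, D t * a (size t) = ∑' k, (if size t = k then D t else 0) * a k := by
    intro t
    rw [tsum_eq_single (size t)]
    · simp
    · intro k hk
      rw [if_neg hk.symm, zero_mul]
  simp only [h1]
  rw [ENNReal.tsum_comm, ← ENNReal.tsum_mul_left]
  refine ENNReal.tsum_le_tsum fun k => ?_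
  rw [ENNReal.tsum_mul_right]
  calc (∑' t, (if size t = k then D t else 0)) * a k ≤ q k * g * a k := mul_le_mul_left (h k) _
    _ = g * (q k * a k) := by ring

/-- **Case (C), pointwise in the world.** -/
theorem caseC_pt [Countable Tr] (hν : SFinite ν) (htr : ∀ a, ν.map (shP a) = ν) {χ : Space3 → ℝ≥0∞}
    (hχ : Measurable χ) (hχ1 : ∫⁻ x, χ x = 1) {size : Tr → ℕ}
    {D D' E : Tr → ℝ × PhasePoint → ℝ≥0∞} (hD' : ∀ t, Measurable (D' t))
    (hE : ∀ t, Measurable (E t)) (hDE : ∀ t q, D t q ≤ D' t q + E t q)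
    {out : ℝ → Space3 → OCout796.CD → LSt} (hout : OutMap out) {ε b₀ te : ℝ}
    {f : ℕ → ℕ → ℕ} {q : ℕ → ℝ≥0∞} (hq : ∀ m, q m ≠ ∞)
    (hkin : ∀ s ∈ Ioc 0 te, ∀ ℓ : PhasePoint, ∀ k,
      ∑' t, (if size t = k then D' t (s, ℓ) else 0) ≤ q k * gau b₀ ℓ.2)
    {H : Lab × LSt → ℝ≥0∞} (hH : Measurable H) (hH1 : ∀ p, H p ≤ 1) :
    ∑' t, ∫⁻ θ, cInt ε te (fun p : Lab × LSt => p.2) (D t)
        (fun p : (Lab × LSt) × CDat => H (incM f (size t) p.1.1, outC out ε p.1.2 p.2)) θ ∂ν ≤
      ∫⁻ p, H p ∂(ν.bind (stO ε b₀ te out f q)) +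
        Cflux (fun p : Lab × LSt => p.2) posD ν χ te *
          ∑' t, ∫⁻ s in Ioc 0 te, ∫⁻ ℓ : PhasePoint, E t (s, ℓ) * ENNReal.ofReal (1 + ‖ℓ.2‖) := by
  have hG : ∀ k, Measurable fun p : (Lab × LSt) × CDat =>
      H (incM f k p.1.1, outC out ε p.1.2 p.2) := by
    intro k
    refine hH.comp (Measurable.prodMk ?_ ?_)
    · exact (measurable_incM f k).comp (measurable_fst.comp measurable_fst)
    · exact (measurable_outC hout ε).comp
        ((measurable_snd.comp measurable_fst).prodMk measurable_snd)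
  have hinv := invFam hν htr
  have h1 : ∀ t, ∫⁻ θ, cInt ε te (fun p : Lab × LSt => p.2) (D t)
        (fun p : (Lab × LSt) × CDat => H (incM f (size t) p.1.1, outC out ε p.1.2 p.2)) θ ∂ν ≤
      ∫⁻ θ, cInt ε te (fun p : Lab × LSt => p.2) (D' t)
        (fun p : (Lab × LSt) × CDat => H (incM f (size t) p.1.1, outC out ε p.1.2 p.2)) θ ∂ν +
      Cflux (fun p : Lab × LSt => p.2) posD ν χ te *
          ∫⁻ s in Ioc 0 te, ∫⁻ ℓ : PhasePoint, E t (s, ℓ) * ENNReal.ofReal (1 + ‖ℓ.2‖) := fun t =>
    flux_compare hinv hχ hχ1 (hD' t) (hE t) (hDE t) (hG (size t)) (fun p => hH1 _) ε te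
  refine (ENNReal.tsum_le_tsum h1).trans ?_
  rw [ENNReal.tsum_add, ENNReal.tsum_mul_left]
  refine add_le_add ?_ le_rfl
  have hae : ∀ᵐ c : CDat ∂mC te, c.1 ∈ Ioc 0 te := by
    unfold mC
    exact Measure.quasiMeasurePreserving_fst.ae (ae_restrict_mem measurableSet_Ioc)
  have hm1 : ∀ t, Measurable fun θ : Lab × LSt =>
      cInt ε te (fun p : Lab × LSt => p.2) (D' t)
        (fun p : (Lab × LSt) × CDat => H (incM f (size t) p.1.1, outC out ε p.1.2 p.2)) θ :=
    fun t => measurable_cInt measurable_snd (hD' t) (hG (size t))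
  rw [← lintegral_tsum fun t => (hm1 t).aemeasurable,
    Measure.lintegral_bind (Kernel.aemeasurable _) hH.aemeasurable]
  refine lintegral_mono fun θ => ?_
  rw [lintegral_stO hout ε b₀ te f hq θ hH]
  unfold cInt
  have hGθ : ∀ k, Measurable fun c : CDat => H (incM f k θ.1, outC out ε θ.2 c) := by
    intro k
    exact hH.comp (measurable_const.prodMk
      ((measurable_outC hout ε).comp (measurable_const.prodMk measurable_id)))
  have hrate : Measurable fun c : CDat => rate θ.2 c :=
    measurable_rate.comp (measurable_const.prodMk measurable_id)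
  have hroot : Measurable fun c : CDat => rootL ε θ.2 c :=
    (measurable_rootL ε).comp (measurable_const.prodMk measurable_id)
  have hDm : ∀ t, Measurable fun c : CDat => D' t (c.1, rootL ε θ.2 c) := fun t =>
    (hD' t).comp (measurable_fst.prodMk hroot)
  have hswap : ∑' t, ∫⁻ c, rate θ.2 c * (D' t (c.1, rootL ε θ.2 c) *
        H (incM f (size t) θ.1, outC out ε θ.2 c)) ∂mC te =
      ∫⁻ c, ∑' t, rate θ.2 c * (D' t (c.1, rootL ε θ.2 c) *
        H (incM f (size t) θ.1, outC out ε θ.2 c)) ∂mC te := by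
    rw [lintegral_tsum]
    exact fun t => (hrate.mul ((hDm t).mul (hGθ (size t)))).aemeasurable
  have hdm : Measurable fun c : CDat => dens b₀ θ.2 c :=
    (measurable_dens b₀).comp (measurable_const.prodMk measurable_id)
  refine (le_of_eq hswap).trans ?_
  calc ∫⁻ c, ∑' t, rate θ.2 c * (D' t (c.1, rootL ε θ.2 c) *
        H (incM f (size t) θ.1, outC out ε θ.2 c)) ∂mC te
      ≤ ∫⁻ c, ∑' m, q m * (dens b₀ θ.2 c * H (incM f m θ.1, outC out ε θ.2 c)) ∂mC te := by
        refine lintegral_mono_ae ?_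
        filter_upwards [hae] with c hc
        rw [ENNReal.tsum_mul_left]
        have h2 := tsum_size (D := fun t => D' t (c.1, rootL ε θ.2 c)) (size := size) (q := q)
          (g := gau b₀ (rootL ε θ.2 c).2) (fun k => hkin c.1 hc (rootL ε θ.2 c) k)
          (fun k => H (incM f k θ.1, outC out ε θ.2 c))
        rw [rootL_snd] at h2
        refine (mul_le_mul_right h2 _).trans (le_of_eq ?_)
        unfold dens
        rw [← mul_assoc, ← ENNReal.tsum_mul_left]
        exact tsum_congr fun m => by ring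
    _ = ∑' m, q m * ∫⁻ c, dens b₀ θ.2 c * H (incM f m θ.1, outC out ε θ.2 c) ∂mC te := by
        have hdG : ∀ m, Measurable fun c : CDat =>
            dens b₀ θ.2 c * H (incM f m θ.1, outC out ε θ.2 c) := fun m => hdm.mul (hGθ m)
        rw [lintegral_tsum fun m => ((hdG m).const_mul (q m)).aemeasurable]
        exact tsum_congr fun m => lintegral_const_mul (q m) (hdG m)

/-! ### The pair unknown of a labelled pair law -/

/-- forget the turning time -/
def toPair (p : Lab × LSt) : EDefs602.ML × EDefs602.ML := (p.1.1, (p.2, p.1.2.2))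

lemma measurable_toPair : Measurable toPair := by unfold toPair; fun_prop

variable {Φ : Space3 → ℝ} {f₀ : PhasePoint → ℝ}

/-- the pair functional -/
def tP (Φ : Space3 → ℝ) (ε : ℝ) (K : ℕ) (P : EPar) {n : ℕ} (w : Config n) (p : Lab × LSt) : ℝ≥0∞ :=
  (MW.cfg w).touchP Φ ε K P (toPair p).1 (toPair p).2

/-- the pair unknown of a labelled pair law -/
def PEL (Φ : Space3 → ℝ) (f₀ : PhasePoint → ℝ) (ε : ℝ) (K : ℕ) (P : EPar)
    (ν : Measure (Lab × LSt)) : ℝ≥0∞ :=
  gcE f₀ ε fun _ w => ∫⁻ p, tP Φ ε K P w p ∂ν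

end Crest.Agent.R122.Pair292
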