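import Crest.Agent.R122.PairIter_566
import Crest.Agent.R122.Ineq1A_815

/-!
# Inequality 3, closing part B (row 122, helper566)

* `Base3` : the base law of a window and its null facts;
* `ineq3_of` : `Top602.Ineq3` from the one-step inequality `Step6` of all windows, the base law, the
  step property of the continuation kernels and the pointwise inequality 1 (young lines).
-/

set_option autoImplicit false

open MeasureTheory ProbabilityTheory Set Filter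
open scoped ENNReal Classical Topology
open Crest.AnalysisR.Kinetic
open Crest.Agent.R122.GC311 Crest.Agent.R122.EDefs602 Crest.Agent.R122.EBasic602
open Crest.Agent.R122.Boost969 (LSt posAt)
open Crest.Agent.R122.Pair292 hiding ML
open Crest.Agent.R122.PairD292 Crest.Agent.R122.Top602 Crest.Agent.R122.Ineq1815
open Crest.Agent.R122.Master566 (KData)

noncomputable section

namespace Crest.Agent.R122.PairIter566

set_option maxHeartbeats 400000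

variable {Φ : Space3 → ℝ} {β T : ℝ} {f₀ : PhasePoint → ℝ} {f : ℝ → PhasePoint → ℝ}

/-- **The base law of one window**: a family `ν K ε` of the class with constant `c`, which dominates
the pair mass up to `Small` errors, together with the null facts of all its continuations. -/
def Base3 (Φ : Space3 → ℝ) (f₀ : PhasePoint → ℝ) (Q : EPar) (T' b₀ : ℝ) (q : ℕ → ℕ → ℝ≥0∞)
    (PP : ℕ → PPar) (bd : ℕ → ℝ → SF2) (c : ℝ≥0∞) (PM : ℕ → ℝ → ℝ≥0∞) : Prop :=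
  ∃ Ξ ν : ℕ → ℝ → Measure (Lab × LSt),
    (∀ K ε, 0 < ε → PX (PP K) (Ξ K ε) (ν K ε) c) ∧
    (∃ S : ℕ → ℝ → ℝ≥0∞, Small S ∧ Ev fun K ε => PM K ε ≤ PELK Φ f₀ ε K Q (ν K ε) + S K ε) ∧
    (∀ j K ε, 0 < ε → ∀ᵐ θ : Lab × LSt ∂(bindN (ν K ε) (K3 Φ ε b₀ Q.te (q K)) j),
      0 ≤ sig θ.1 ∧ sig θ.1 ≤ θ.2.1) ∧
    ∀ j, NullFacts Φ f₀ Q T' bd fun K ε => bindN (ν K ε) (K3 Φ ε b₀ Q.te (q K)) j

theorem tendsto_half : Tendsto (fun r : ℝ => r / 2) (𝓝[>] 0) (𝓝[>] 0) := by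
  refine tendsto_nhdsWithin_iff.2 ⟨?_, ?_⟩
  · have h : Tendsto (fun r : ℝ => r / 2) (𝓝 0) (𝓝 (0 / 2)) :=
      (continuous_id.div_const 2).tendsto 0
    rw [zero_div] at h
    exact h.mono_left nhdsWithin_le_nhds
  · filter_upwards [self_mem_nhdsWithin] with r hr
    exact half_pos (show (0 : ℝ) < r from hr)

theorem sqrt_add_le' {a b : ℝ} (ha : 0 ≤ a) (hb : 0 ≤ b) : √(a + b) ≤ √a + √b := by
  refine Real.sqrt_le_iff.2 ⟨add_nonneg (Real.sqrt_nonneg _) (Real.sqrt_nonneg _), ?_⟩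
  have h1 := Real.sq_sqrt ha
  have h2 := Real.sq_sqrt hb
  have h3 := mul_nonneg (Real.sqrt_nonneg a) (Real.sqrt_nonneg b)
  nlinarith

/-- **INEQUALITY 3** from its inputs. -/
theorem ineq3_of (hD : KData Φ β T f₀ f) {γ : ℝ → ℝ} {ρ : ℝ≥0∞} {g1 : ℝ} {r1 : ℝ≥0∞}
    (hl : LinePar g1 r1 T γ ρ) {PM : PMass} (hPt : PtIn Φ f₀ f T γ ρ PM) {h₀ b₀ : ℝ}
    {q : ℕ → ℕ → ℝ≥0∞} {PP : ℝ → ℕ → PPar}
    (hPP : ∀ L tw te : ℝ, te ≤ T → PPOk (epar γ ρ L tw te) (PP te))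
    {Kd : ℕ → ℝ → Kernel (Lab × LSt) (Lab × LSt)} {r0 : ℝ≥0∞} (hr0 : r0 ≤ 2⁻¹)
    (hK : ∀ te, te ≤ T → ∀ K ε, 0 < ε → StepK (PP te K) (K3 Φ ε b₀ te (q K)) (Kd K ε) r0)
    {C₂ : ℝ≥0∞} (hC₂ : C₂ ≠ ∞) {σ₁ : ℝ → ℝ≥0∞} (hσ₁ : Tendsto σ₁ (𝓝[>] 0) (𝓝 0))
    (hSB : ∀ m : ℕ, ∃ c : ℝ≥0∞, c ≠ ∞ ∧ ∀ r : ℝ, 0 < r → r < 1 → ∃ o₁ : ℝ → ℝ → ℝ≥0∞,
      Vanish o₁ ∧ EvW T fun h L tw te => IH Φ f₀ f T γ ρ tw → ∃ bd : ℕ → ℝ → SF2,
        Step6 Φ f₀ (epar γ ρ L tw te) (tw + h₀) r b₀ q (PP te) bd (σ₁ r + o₁ h L) C₂ ∧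
        Base3 Φ f₀ (epar γ ρ L tw te) (tw + h₀) b₀ q (PP te) bd c (PM m L tw te)) :
    Ineq3 Φ f₀ f T γ ρ PM := by
  have hf : Measurable f₀ := hD.contDiff.continuous.measurable
  intro m
  obtain ⟨c, hc, hBm⟩ := hSB m
  obtain ⟨Cy, hCy, hY⟩ := youngX_of_ptIn hD hl hPt m
  set V : ℝ≥0∞ := volume (Metric.ball (0 : Space3) 1) * (c * (1 + ENNReal.ofReal T)) with hV
  have hVt : V ≠ ∞ := ENNReal.mul_ne_top measure_ball_lt_top.ne
    (ENNReal.mul_ne_top hc (ENNReal.add_ne_top.2 ⟨ENNReal.one_ne_top, ENNReal.ofReal_ne_top⟩))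
  have h2c : 2 * c ≠ ∞ := ENNReal.mul_ne_top (by norm_num) hc
  have hcy : 2 * c * (C₂ * Cy) ≠ ∞ := ENNReal.mul_ne_top h2c (ENNReal.mul_ne_top hC₂ hCy)
  refine ⟨fun r => 2 * c * σ₁ (r / 2) + (2 * c * (C₂ * Cy) * ENNReal.ofReal (√(r / 2)) +
    ENNReal.ofReal r * V), ?_, fun r hr hr1 => ?_⟩
  · have e1 : Tendsto (fun r : ℝ => 2 * c * σ₁ (r / 2)) (𝓝[>] 0) (𝓝 0) := by
      have := ENNReal.Tendsto.const_mul (a := 2 * c) (hσ₁.comp tendsto_half) (Or.inr h2c)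
      rwa [mul_zero] at this
    have e2 : Tendsto (fun r : ℝ => 2 * c * (C₂ * Cy) * ENNReal.ofReal (√(r / 2))) (𝓝[>] 0)
        (𝓝 0) := by
      have h0 : Tendsto (fun r : ℝ => ENNReal.ofReal (√(r / 2))) (𝓝[>] 0) (𝓝 0) := by
        have h1 : Tendsto (fun r : ℝ => ENNReal.ofReal (√(r / 2))) (𝓝 0)
            (𝓝 (ENNReal.ofReal (√(0 / 2)))) :=
          (ENNReal.continuous_ofReal.comp
            (Real.continuous_sqrt.comp (continuous_id.div_const 2))).tendsto 0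
        rw [zero_div, Real.sqrt_zero, ENNReal.ofReal_zero] at h1
        exact h1.mono_left nhdsWithin_le_nhds
      have := ENNReal.Tendsto.const_mul (a := 2 * c * (C₂ * Cy)) h0 (Or.inr hcy)
      rwa [mul_zero] at this
    have e3 : Tendsto (fun r : ℝ => ENNReal.ofReal r * V) (𝓝[>] 0) (𝓝 0) := by
      have h0 : Tendsto (fun r : ℝ => ENNReal.ofReal r) (𝓝[>] 0) (𝓝 0) := by
        have h1 := ENNReal.continuous_ofReal.tendsto 0
        rw [ENNReal.ofReal_zero] at h1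
        exact h1.mono_left nhdsWithin_le_nhds
      have := ENNReal.Tendsto.mul_const (b := V) h0 (Or.inr hVt)
      rwa [zero_mul] at this
    have := e1.add (e2.add e3)
    simpa using this
  have hr2 : 0 < r / 2 := half_pos hr
  have hr2' : r / 2 < 1 := by linarith
  obtain ⟨o₁, ho₁, hSr⟩ := hBm (r / 2) hr2 hr2'
  obtain ⟨M, hM⟩ : ∃ M : ℕ, (2⁻¹ : ℝ≥0∞) ^ M ≤ ENNReal.ofReal r := by
    have h1 := ENNReal.tendsto_pow_atTop_nhds_zero_of_lt_one (r := 2⁻¹) (by norm_num)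
    have h2 : (0 : ℝ≥0∞) < ENNReal.ofReal r := ENNReal.ofReal_pos.2 hr
    exact ((h1.eventually (gt_mem_nhds h2)).exists).imp fun _ h => le_of_lt h
  refine ⟨fun h L => 2 * c * o₁ h L + 2 * c * (C₂ * Cy) * ENNReal.ofReal (√h),
    (ho₁.const_mul h2c).add (Vanish.sqrt_length.const_mul hcy), ?_⟩
  refine (hSr.and (hY (r / 2) hr2.le hr2')).mono fun h L tw te hh hL1 hw hq hIH => ?_
  obtain ⟨hq1, hq3⟩ := hq
  obtain ⟨bd, hq1, hq2⟩ := hq1 hIH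
  have hL0 : 0 ≤ (epar γ ρ L tw te).L := zero_le_one.trans hL1
  obtain ⟨Ξ, ν, hPX, ⟨S₁, hS₁, hE₁⟩, hsg, hN⟩ := hq2
  obtain ⟨S₂, hS₂, hE₂⟩ := iterate6 (Q := epar γ ρ L tw te) hD.adm hf hl.measurable hL0
    (hPP L tw te hw.le_T) hr0 (hK te hw.le_T) hq1 hc hPX hsg hN M
  obtain ⟨S₃, hS₃, hE₃⟩ := hq3 hIH
  refine ⟨fun K ε => S₁ K ε + (S₂ K ε + 2 * c * (C₂ * S₃ K ε)), hS₁.add (hS₂.add
    ((hS₃.const_mul hC₂).const_mul h2c)), (hE₁.and (hE₂.and hE₃)).mono fun K ε hε hh => ?_⟩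
  obtain ⟨h1, h2, h3⟩ := hh
  set X := XI Φ f₀ ε K (epar γ ρ L tw te) with hX
  set A := aE Φ f₀ ε K (epar γ ρ L tw te) with hA
  set P := PM m L tw te K ε with hP
  set J := XJ Φ f₀ ε K (epar γ ρ L tw te) (Ioc (max 0 (tw - r / 2)) te) with hJ
  have hXle : X ≤ X + A + P := le_self_add.trans le_self_add
  have hsq : ENNReal.ofReal (√(r / 2 + h)) ≤ ENNReal.ofReal (√(r / 2)) + ENNReal.ofReal (√h) := by
    rw [← ENNReal.ofReal_add (Real.sqrt_nonneg _) (Real.sqrt_nonneg _)]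
    exact ENNReal.ofReal_le_ofReal (sqrt_add_le' hr2.le hh.le)
  have hteT : (1 + ENNReal.ofReal (epar γ ρ L tw te).te) ≤ 1 + ENNReal.ofReal T :=
    add_le_add le_rfl (ENNReal.ofReal_le_ofReal hw.le_T)
  have hJle : J ≤ S₃ K ε + Cy * (ENNReal.ofReal (√(r / 2)) + ENNReal.ofReal (√h)) *
      (X + A + P) := h3.trans (add_le_add le_rfl (mul_le_mul_left (mul_le_mul_right hsq _) _))
  calc P ≤ PELK Φ f₀ ε K (epar γ ρ L tw te) (ν K ε) + S₁ K ε := h1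
    _ ≤ (2 * c * ((σ₁ (r / 2) + o₁ h L) * X + C₂ * J) +
          2⁻¹ ^ M * (volume (Metric.ball (0 : Space3) 1) *
            (c * (1 + ENNReal.ofReal (epar γ ρ L tw te).te))) * X + S₂ K ε) + S₁ K ε :=
        add_le_add h2 le_rfl
    _ ≤ (2 * c * ((σ₁ (r / 2) + o₁ h L) * (X + A + P) + C₂ * (S₃ K ε +
          Cy * (ENNReal.ofReal (√(r / 2)) + ENNReal.ofReal (√h)) * (X + A + P))) +
          ENNReal.ofReal r * V * (X + A + P) + S₂ K ε) + S₁ K ε := by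
        refine add_le_add (add_le_add (add_le_add ?_ ?_) le_rfl) le_rfl
        · exact mul_le_mul_right (add_le_add (mul_le_mul_right hXle _)
            (mul_le_mul_right hJle _)) _
        · exact mul_le_mul' (mul_le_mul' hM (mul_le_mul_right (mul_le_mul_right hteT _) _)) hXle
    _ = _ := by ring

end Crest.Agent.R122.PairIter566
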