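import Crest.Agent.R122.PairTree_292
import Crest.Agent.R122.PairRoot_292

/-!
# Inequality 3 of section E (row 122, board H4), helper292: the gas level

* `pelk_split` : `PELK ≤ clean + DIR + BAD`.
* `clus_tree6` : the clean part is at most the structure integral of a majorant plus the flux of the
  errors of the reduction.
* `pelk_le_os2` : both together.
* `MJ6`, `majAt6_MJ6`, `os2_MJ6` : the majorant made of size crossings, spread terms, outgoing pairs and
  LINK.
* `step_gas` : the one-step inequality before the null facts.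
-/

set_option autoImplicit false
set_option linter.unusedSectionVars false

open MeasureTheory Set Filter
open scoped ENNReal Classical Topology
open Crest.AnalysisR.Kinetic
open Crest.Agent.R122.Kin796 Crest.Agent.R122.Kin796.CTree Crest.Agent.R122.Tree674
open Crest.Agent.R122.Relabel674 Crest.Agent.R122.GC311 Crest.Agent.R122.Flow671
open Crest.Agent.R122.EDefs602 Crest.Agent.R122.TreeLines335 Crest.Agent.R122.OC285
open Crest.Agent.R122.Boost969 (LSt posAt)
open Crest.Agent.R122.Pair292 (Lab CDat PPar PX sig)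
open Crest.Agent.R122.OneC285 (cfT rt cT cB cD cX lpos uI ptube RF MeasRF rfl4 RedAt)

noncomputable section

namespace Crest.Agent.R122.PairD292

variable {Φ : Space3 → ℝ} {f₀ : PhasePoint → ℝ} {ε T te T' : ℝ} {K : ℕ} {Q : EPar}

/-! ## Split -/

/-- The clean part. -/
def CLN (Φ : Space3 → ℝ) (f₀ : PhasePoint → ℝ) (ε : ℝ) (K : ℕ) (Q : EPar)
    (ν : Measure (Lab × LSt)) : ℝ≥0∞ :=
  gcE f₀ ε fun n w => ∑ i : Fin n, ∫⁻ θ, (if (clM2 Φ ε K Q.te n w i θ).Nonempty then
    (if OkW Φ ε w θ then tPK Φ ε K Q w θ else 0) else 0) ∂ν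

theorem measurable_clnI (hΦ : AdmissiblePotential Φ) (hε : 0 < ε) (n : ℕ) (i : Fin n) :
    Measurable fun q : Config n × (Lab × LSt) => if (clM2 Φ ε K Q.te n q.1 i q.2).Nonempty then
      (if OkW Φ ε q.1 q.2 then tPK Φ ε K Q q.1 q.2 else 0) else 0 := by
  refine Measurable.ite ?_ (Measurable.ite
    (MeasPair522.measurableSet_okW hΦ hε measurable_fst measurable_snd)
    (MeasPair522.measurable_tPK_joint hΦ hε K Q n) measurable_const) measurable_const
  have h : {q : Config n × (Lab × LSt) | (clM2 Φ ε K Q.te n q.1 i q.2).Nonempty} =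
      {q | clM2 Φ ε K Q.te n q.1 i q.2 = ∅}ᶜ := by
    ext q
    simp only [mem_ofPred_eq, mem_compl_iff, Finset.nonempty_iff_ne_empty, ne_eq]
  rw [h]
  exact (MeasPair522.measurableSet_clM2_eq hΦ hε measurable_fst measurable_snd K Q.te i ∅).compl

/-- **Split of the pair functional.** -/
theorem pelk_split (hΦ : AdmissiblePotential Φ) (hf : Measurable f₀) (hε : 0 < ε)
    (hQ : 0 ≤ Q.te) (hQL : 0 ≤ Q.L) {ν : Measure (Lab × LSt)} [SFinite ν] (hok : OkAE Φ ε K ν) :
    PELK Φ f₀ ε K Q ν ≤ CLN Φ f₀ ε K Q ν + (DIR Φ f₀ ε K Q ν + BAD Φ f₀ ε K Q ν) := by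
  set D : (n : ℕ) → Config n → Lab × LSt → ℝ≥0∞ := fun n w θ =>
    if OkW Φ ε w θ ∧ (DMeet2 Φ ε K Q.te (Zd w θ) (eL θ) ∨
        (tC Φ ε Q.te w θ ≤ Q.te ∧
          (MW.cfg w).thetaL Φ ε K Q.te (dL θ) ≤ tC Φ ε Q.te w θ + slk ε)) then
        tPK Φ ε K Q w θ else 0 with hD
  set B : (n : ℕ) → Config n → Lab × LSt → ℝ≥0∞ := fun n w θ =>
    if OkL K θ ∧ OkW Φ ε w θ ∧ T1 Φ ε K Q w θ ∧ BMeet2 Φ ε K Q.te w θ ∧
        tC Φ ε Q.te w θ + slk ε < (MW.cfg w).thetaL Φ ε K Q.te (dL θ) then 1 else 0 with hB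
  set C : (n : ℕ) → Fin n → Config n → Lab × LSt → ℝ≥0∞ := fun n i w θ =>
    if (clM2 Φ ε K Q.te n w i θ).Nonempty then
      (if OkW Φ ε w θ then tPK Φ ε K Q w θ else 0) else 0 with hC
  have hCm : ∀ (n : ℕ) (i : Fin n), Measurable fun q : Config n × (Lab × LSt) =>
      C n i q.1 q.2 := fun n i => measurable_clnI hΦ hε n i
  have hDm : ∀ n : ℕ, Measurable fun q : Config n × (Lab × LSt) => D n q.1 q.2 := fun n =>
    MeasPair522.measurable_DIR_joint hΦ hε K Q n
  have hCw : ∀ (n : ℕ) (i : Fin n) (w : Config n), Measurable fun θ => C n i w θ := fun n i w =>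
    (hCm n i).comp (f := fun θ : Lab × LSt => ((w, θ) : Config n × (Lab × LSt)))
      (measurable_const.prodMk measurable_id)
  have hDw : ∀ (n : ℕ) (w : Config n), Measurable fun θ => D n w θ := fun n w =>
    (hDm n).comp (f := fun θ : Lab × LSt => ((w, θ) : Config n × (Lab × LSt)))
      (measurable_const.prodMk measurable_id)
  have h1 : PELK Φ f₀ ε K Q ν ≤ gcE f₀ ε fun n w =>
      (∑ i : Fin n, ∫⁻ θ, C n i w θ ∂ν) + (∫⁻ θ, D n w θ ∂ν + ∫⁻ θ, B n w θ ∂ν) := by
    unfold PELK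
    refine Hit167.gcE_mono_ae f₀ ε fun n => ?_
    have hae := Measure.ae_ae_of_ae_prod (hok n)
    filter_upwards [hae] with w hw hwe
    have h2 : ∫⁻ θ, tPK Φ ε K Q w θ ∂ν ≤ ∫⁻ θ, ((∑ i : Fin n, C n i w θ) +
        (D n w θ + B n w θ)) ∂ν := by
      refine lintegral_mono_ae ?_
      filter_upwards [hw] with θ hθ
      have h3 := tPK_split (K := K) (Q := Q) (w := w) (θ := θ) hΦ hε hQ hQL fun h => hθ hwe h
      refine h3.trans (add_le_add (Finset.sum_le_sum fun i _ => ?_) le_rfl)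
      simp only [hC]
      by_cases hne : (clM2 Φ ε K Q.te n w i θ).Nonempty
      · rw [if_pos hne, if_pos hne]
        by_cases hL : OkL K θ
        · rw [if_pos (hθ hwe hL)]
        · have h0 : tPK Φ ε K Q w θ = 0 := by
            unfold tPK
            rw [if_neg hL]
          rw [h0]
          exact zero_le
      · rw [if_neg hne, if_neg hne]
    refine h2.trans (le_of_eq ?_)
    rw [lintegral_add_left (Finset.measurable_sum _ fun i _ => hCw n i w),
      lintegral_add_left (hDw n w), lintegral_finsetSum _ fun i _ => hCw n i w]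
  refine h1.trans (le_of_eq ?_)
  have hm1 : ∀ n : ℕ, Measurable fun w : Config n => ∑ i : Fin n, ∫⁻ θ, C n i w θ ∂ν := fun n =>
    Finset.measurable_sum _ fun i _ => (hCm n i).lintegral_prod_right'
  have hm2 : ∀ n : ℕ, Measurable fun w : Config n => ∫⁻ θ, D n w θ ∂ν := fun n =>
    (hDm n).lintegral_prod_right'
  rw [gcE_add hf ε hm1, gcE_add hf ε hm2]
  rfl

/-! ## Reduction to trees -/

/-- Flux of the errors of the reduction. -/
def errB6 (Φ : Space3 → ℝ) (f₀ : PhasePoint → ℝ) (ε : ℝ) (K : ℕ) (Q : EPar)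
    (ν : Measure (Lab × LSt)) (B : RF) : ℝ≥0∞ :=
  ∑' k : ℕ, activity ε ^ k / (k.factorial : ℝ≥0∞) * ∫⁻ V : Config k, gcWeight f₀ ε k V *
    gcE f₀ ε (fun m w => perpInd ε V w * ∑ j : Fin k, ∫⁻ θ,
      (if OkL K θ ∧ clM2 Φ ε K Q.te (k + m) (Fin.append V w) (Fin.castAdd m j) θ = block k m then
        B k m V w j (tC Φ ε Q.te (Fin.append V w) θ) else 0) ∂ν)

theorem measurable_ctH (hΦ : AdmissiblePotential Φ) {M : SF2} (hM : MeasSF2 M) (P : CTree) (m : ℕ) :
    Measurable fun q : (PhasePoint × Par P) × (Config m × (Lab × LSt)) =>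
      ctH Φ ε te M P q.1 m q.2.1 q.2.2 := by
  have h1 : MeasurableSet {q : (PhasePoint × Par P) × (Config m × (Lab × LSt)) |
      (q.1, q.2.2.2) ∈ OneC423.ctSet Φ ε te P} := by
    have h2 : Measurable fun q : (PhasePoint × Par P) × (Config m × (Lab × LSt)) =>
        (q.1, q.2.2.2) :=
      measurable_fst.prodMk (measurable_snd.comp (measurable_snd.comp measurable_snd))
    exact h2 (OneC423.measurableSet_ctSet hΦ ε te P)
  have h4 : (fun q : (PhasePoint × Par P) × (Config m × (Lab × LSt)) =>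
      ctH Φ ε te M P q.1 m q.2.1 q.2.2) =
      {q : (PhasePoint × Par P) × (Config m × (Lab × LSt)) |
        (q.1, q.2.2.2) ∈ OneC423.ctSet Φ ε te P}.indicator
      (fun q => M P q.1 m q.2.1 q.2.2) := by
    funext q
    rfl
  rw [h4]
  exact (hM P m).indicator h1

theorem measurable_appT {k m : ℕ} : Measurable fun q : Config k × (Config m × (Lab × LSt)) =>
    ((Fin.append q.1 q.2.1 : Config (k + m)), q.2.2) := by
  refine Measurable.prodMk ?_ (measurable_snd.comp measurable_snd)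
  refine measurable_pi_iff.2 fun i => ?_
  refine Fin.addCases (fun i => ?_) (fun i => ?_) i
  · simp only [Fin.append_left]
    exact (measurable_pi_apply i).comp measurable_fst
  · simp only [Fin.append_right]
    exact (measurable_pi_apply i).comp (measurable_fst.comp measurable_snd)

theorem measurable_B6 (hΦ : AdmissiblePotential Φ) (hε : 0 < ε) {B : RF} (hB : MeasRF B)
    (k m : ℕ) (j : Fin k) : Measurable fun q : Config k × (Config m × (Lab × LSt)) =>
      B6 Φ ε K Q B k m q.1 q.2.1 j q.2.2 := by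
  have hθ : Measurable fun q : Config k × (Config m × (Lab × LSt)) => q.2.2 :=
    measurable_snd.comp measurable_snd
  have hX : Measurable fun q : Config k × (Config m × (Lab × LSt)) =>
      (Fin.append q.1 q.2.1 : Config (k + m)) := measurable_fst.comp measurable_appT
  unfold B6
  refine Measurable.ite ((MeasPair522.measurableSet_okL K hθ).inter
    (MeasPair522.measurableSet_clM2_eq hΦ hε hX hθ K Q.te (Fin.castAdd m j) (block k m))) ?_
    measurable_const
  exact (hB k m j).comp (f := fun q : Config k × (Config m × (Lab × LSt)) =>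
    (q.1, (q.2.1, tC Φ ε Q.te (Fin.append q.1 q.2.1) q.2.2)))
    (measurable_fst.prodMk ((measurable_fst.comp measurable_snd).prodMk
      (MeasPair522.measurable_tC hΦ hε hX hθ Q.te)))

/-- **Reduction of the clean part to trees.** -/
theorem clus_tree6 (hΦ : AdmissiblePotential Φ) (hf : Measurable f₀) (hε : 0 < ε) (hQL : 0 ≤ Q.L)
    (ν : Measure (Lab × LSt)) [SFinite ν] {B : RF} (hBm : MeasRF B)
    (hB : RedAt Φ ε K Q.tw Q.te T' B) {M : SF2} (hMm : MeasSF2 M) (hM : MajAt6 Φ ε K Q T' M) :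
    CLN Φ f₀ ε K Q ν ≤ OS2 Φ f₀ ε Q.te T' ν M + errB6 Φ f₀ ε K Q ν B := by
  have h := param_mecke hf ν (MeasPair522.pClusterMap_clM2 hΦ hε K Q.te)
    (F := fun n _ _ w θ => if OkW Φ ε w θ then tPK Φ ε K Q w θ else 0) ?_ ?_
  · have h0 : CLN Φ f₀ ε K Q ν ≤ ∑' k : ℕ, activity ε ^ k / (k.factorial : ℝ≥0∞) *
        ∫⁻ V : Config k, gcWeight f₀ ε k V * gcE f₀ ε (fun m w => perpInd ε V w *
          ∑ j : Fin k, ∫⁻ θ, F6 Φ ε K Q k m V w j θ ∂ν) := by
      unfold CLN
      rw [h]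
      have h2 := ENNReal.tsum_comp_le_tsum_of_injective (Nat.succ_injective)
        (fun k : ℕ => activity ε ^ k / (k.factorial : ℝ≥0∞) *
        ∫⁻ V : Config k, gcWeight f₀ ε k V * gcE f₀ ε (fun m w => perpInd ε V w *
          ∑ j : Fin k, ∫⁻ θ, F6 Φ ε K Q k m V w j θ ∂ν))
      exact h2
    refine h0.trans ?_
    exact ToTree335.to_tree hΦ hf hε ν (T := T')
      (H := ctH Φ ε Q.te M) (fun P m => measurable_ctH hΦ hMm P m)
      (F := F6 Φ ε K Q) (B := B6 Φ ε K Q B) (fun k m j => measurable_B6 hΦ hε hBm k m j)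
      (fun k m V w j θ hV hw hp => clus_point6 hΦ hε hQL hB hM k m V w j θ hV hw hp)
  · intro n σ i B Z θ _
    have h1 := MeasPair522.okW_perm (Φ := Φ) (ε := ε) Z σ θ hΦ hε
    have h2 := MeasPair522.tPK_perm (Φ := Φ) (ε := ε) (K := K) Z σ θ hΦ hε Q
    rw [h2]
    by_cases h3 : OkW Φ ε Z θ
    · rw [if_pos h3, if_pos (h1.2 h3)]
    · rw [if_neg h3, if_neg fun h' => h3 (h1.1 h')]
  · intro n i B
    exact Measurable.ite (MeasPair522.measurableSet_okW hΦ hε measurable_fst measurable_snd)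
      (MeasPair522.measurable_tPK_joint hΦ hε K Q n) measurable_const

/-- **Gas level inequality.** -/
theorem pelk_le_os2 (hΦ : AdmissiblePotential Φ) (hf : Measurable f₀) (hε : 0 < ε)
    (hQ : 0 ≤ Q.te) (hQL : 0 ≤ Q.L) {ν : Measure (Lab × LSt)} [SFinite ν] (hok : OkAE Φ ε K ν)
    {B : RF} (hBm : MeasRF B) (hB : RedAt Φ ε K Q.tw Q.te T' B) {M : SF2} (hMm : MeasSF2 M)
    (hM : MajAt6 Φ ε K Q T' M) :
    PELK Φ f₀ ε K Q ν ≤ OS2 Φ f₀ ε Q.te T' ν M + errB6 Φ f₀ ε K Q ν B +
      (DIR Φ f₀ ε K Q ν + BAD Φ f₀ ε K Q ν) :=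
  (pelk_split hΦ hf hε hQ hQL hok).trans
    (add_le_add (clus_tree6 hΦ hf hε hQL ν hBm hB hMm hM) le_rfl)

end Crest.Agent.R122.PairD292

end
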