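import Crest.Agent.R122.PairStepK_85

/-!
# Inequality 3, closing part A (row 122, helper566)

* `PELK_le_XI` : crude bound of the pair mass of a spread law by `XI`;
* `iterate` : iteration of a contracting inequality with `Small` errors;
* `iterate6` : iteration of the one-step inequality `Step6` in one window.
-/

set_option autoImplicit false

open MeasureTheory ProbabilityTheory Set Filter
open scoped ENNReal Classical Topology
open Crest.AnalysisR.Kinetic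
open Crest.Agent.R122.GC311 Crest.Agent.R122.EDefs602 Crest.Agent.R122.EBasic602
open Crest.Agent.R122.Boost969 (LSt posAt)
open Crest.Agent.R122.Pair292 hiding ML
open Crest.Agent.R122.PairD292

noncomputable section

namespace Crest.Agent.R122.PairIter566

set_option maxHeartbeats 400000

variable {Φ : Space3 → ℝ} {f₀ : PhasePoint → ℝ} {ε : ℝ} {K : ℕ} {Q : EPar}

/-! ### Crude bound of the pair mass -/

theorem thetaL_late' {ι : Type} [Fintype ι] (hΦ : AdmissiblePotential Φ) (hε : 0 < ε) {T : ℝ}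
    {Z : MW ι} {l : ML} (hT : T < l.1.1) (hm : l.2 ≤ K) : Z.thetaL Φ ε K T l = T + 1 := by
  refine MW.theta_eq_of_not_touched fun r hr => ?_
  refine MW.not_touched_of_no_contact hΦ hε (fun r' hr' x k hc => ?_) ?_
  · have h2 : (Z.add (MW.line l)).b (Sum.inr x) ≤ r' := MW.C_born hc
    have h3 : l.1.1 ≤ r' := h2
    linarith [hr'.2, hr.2]
  · rw [Finset.univ_unique, Finset.sum_singleton]; exact hm

/-- The pair functional is bounded by the touch functional of the first line. -/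
theorem tPK_le (hΦ : AdmissiblePotential Φ) (hε : 0 < ε) (hL : 0 ≤ Q.L) {n : ℕ} (w : Config n)
    (θ : Lab × LSt) : tPK Φ ε K Q w θ ≤
      if θ.2.1 ≤ Q.te then (MW.cfg w).touchW Φ ε K Q (dL θ) else 0 := by
  unfold tPK
  by_cases hO : OkL K θ
  · rw [if_pos hO]
    split_ifs with h
    · exact touchP_le_touchW hL _ _
    · unfold MW.touchP
      rw [if_neg]
      rintro ⟨_, _, h3⟩
      rw [thetaL_late' hΦ hε (l := eL θ) (not_le.1 h) hO.eK] at h3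
      linarith
  · rw [if_neg hO]; exact zero_le

theorem rhs_touch (hΦ : AdmissiblePotential Φ) (hε : 0 < ε) {PP : ℕ → PPar} (hPP : PPOk Q PP)
    {n : ℕ} (w : Config n) :
    (PP K).rhs (fun p : ML × ℝ => (MW.cfg w).touchW Φ ε K Q p.1) =
      (1 + ENNReal.ofReal Q.te) * ∫⁻ l, (MW.cfg w).touchW Φ ε K Q l ∂lineM Q.γ Q.ρ K Q.te := by
  have hm : Measurable fun l : ML => (MW.cfg w).touchW Φ ε K Q l :=
    (MeasE416.measurable_touchW_cfg hΦ hε K Q n).comp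
      (f := fun l : ML => ((w, l) : Config n × ML)) (measurable_const.prodMk measurable_id)
  unfold PPar.rhs
  rw [hPP.ell K, hPP.hor K]
  have h2 : ∀ l : ML, ∫⁻ _s in Icc 0 Q.te, (MW.cfg w).touchW Φ ε K Q l =
      ENNReal.ofReal Q.te * (MW.cfg w).touchW Φ ε K Q l := by
    intro l
    rw [setLIntegral_const, Real.volume_Icc, sub_zero, mul_comm]
  simp only [h2]
  rw [lintegral_const_mul _ hm]
  ring

theorem lintegral_tPK_le (hΦ : AdmissiblePotential Φ) (hε : 0 < ε) (hL : 0 ≤ Q.L)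
    {PP : ℕ → PPar} (hPP : PPOk Q PP) {Ξ ν : Measure (Lab × LSt)} {c : ℝ≥0∞}
    (h : PX (PP K) Ξ ν c) {n : ℕ} (w : Config n) :
    ∫⁻ θ, tPK Φ ε K Q w θ ∂ν ≤ volume (Metric.ball (0 : Space3) 1) *
      (c * ((1 + ENNReal.ofReal Q.te) *
        ∫⁻ l, (MW.cfg w).touchW Φ ε K Q l ∂lineM Q.γ Q.ρ K Q.te)) := by
  have hm : Measurable fun l : ML => (MW.cfg w).touchW Φ ε K Q l :=
    (MeasE416.measurable_touchW_cfg hΦ hε K Q n).comp
      (f := fun l : ML => ((w, l) : Config n × ML)) (measurable_const.prodMk measurable_id)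
  have hFm : Measurable fun p : ML × ℝ => (MW.cfg w).touchW Φ ε K Q p.1 := hm.comp measurable_fst
  rw [← rhs_touch hΦ hε hPP w]
  refine h.le_rhs (G := fun θ => tPK Φ ε K Q w θ) hFm fun p => ?_
  rw [hPP.hor K]
  exact tPK_le hΦ hε hL w p

/-- **Crude bound of the pair mass of a spread law.** -/
theorem PELK_le_XI (hΦ : AdmissiblePotential Φ) (hf : Measurable f₀) (hε : 0 < ε) (hL : 0 ≤ Q.L)
    (hγ : Measurable Q.γ) {PP : ℕ → PPar} (hPP : PPOk Q PP) {Ξ ν : Measure (Lab × LSt)} {c : ℝ≥0∞}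
    (hc : c ≠ ∞) (h : PX (PP K) Ξ ν c) :
    PELK Φ f₀ ε K Q ν ≤ volume (Metric.ball (0 : Space3) 1) *
      (c * (1 + ENNReal.ofReal Q.te)) * XI Φ f₀ ε K Q := by
  have hVt : volume (Metric.ball (0 : Space3) 1) * (c * (1 + ENNReal.ofReal Q.te)) ≠ ∞ :=
    ENNReal.mul_ne_top measure_ball_lt_top.ne
    (ENNReal.mul_ne_top hc (ENNReal.add_ne_top.2 ⟨ENNReal.one_ne_top, ENNReal.ofReal_ne_top⟩))
  have hTM : TouchMeas Φ ε K Q := fun n => MeasE416.measurable_touchW_cfg hΦ hε K Q n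
  have e1 := gcE_const_mul f₀ ε hVt (F := fun _ w =>
    ∫⁻ l, (MW.cfg w).touchW Φ ε K Q l ∂lineM Q.γ Q.ρ K Q.te)
  rw [XI_eq hf hγ hTM, ← e1]
  unfold PELK
  refine gcE_mono f₀ ε fun n w _ => ?_
  refine (lintegral_tPK_le hΦ hε hL hPP h w).trans (le_of_eq ?_)
  ring

/-! ### Iteration with `Small` errors -/

/-- **Iteration of a contracting inequality.** -/
theorem iterate {R : ℕ → ℝ → ℝ≥0∞} {c r0 : ℝ≥0∞} {p : ℕ → ℕ → ℝ → ℝ≥0∞}
    (hstep : ∀ j, ∃ S : ℕ → ℝ → ℝ≥0∞, Small S ∧ Ev fun K ε =>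
      p j K ε ≤ r0 ^ j * c * R K ε + p (j + 1) K ε + S K ε) (M : ℕ) :
    ∃ S : ℕ → ℝ → ℝ≥0∞, Small S ∧ Ev fun K ε =>
      p 0 K ε ≤ c * (∑ j ∈ Finset.range M, r0 ^ j) * R K ε + p M K ε + S K ε := by
  induction M with
  | zero =>
    refine ⟨fun _ _ => 0, Small.zero, Ev.of_forall fun K ε _ => ?_⟩
    simp
  | succ M ih =>
    obtain ⟨S, hS, h⟩ := ih
    obtain ⟨S', hS', h'⟩ := hstep M
    refine ⟨fun K ε => S K ε + S' K ε, hS.add hS', (h.and h').mono fun K ε _ hh => ?_⟩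
    refine hh.1.trans ?_
    calc c * (∑ j ∈ Finset.range M, r0 ^ j) * R K ε + p M K ε + S K ε
        ≤ c * (∑ j ∈ Finset.range M, r0 ^ j) * R K ε +
          (r0 ^ M * c * R K ε + p (M + 1) K ε + S' K ε) + S K ε := by gcongr; exact hh.2
      _ = _ := by
          rw [Finset.sum_range_succ]
          ring

theorem sum_geom_le {r0 : ℝ≥0∞} (h : r0 ≤ 2⁻¹) (M : ℕ) : ∑ j ∈ Finset.range M, r0 ^ j ≤ 2 := by
  calc ∑ j ∈ Finset.range M, r0 ^ j ≤ ∑ j ∈ Finset.range M, (2⁻¹ : ℝ≥0∞) ^ j :=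
        Finset.sum_le_sum fun j _ => pow_le_pow_left' h j
    _ ≤ ∑' j : ℕ, (2⁻¹ : ℝ≥0∞) ^ j := ENNReal.sum_le_tsum _
    _ = 2 := by
        rw [ENNReal.tsum_geometric]
        norm_num

/-! ### Iteration of the one-step inequality -/

theorem tPK_eq_zero (h : Q.te ≤ Q.tw) {n : ℕ} (w : Config n) (θ : Lab × LSt) :
    tPK Φ ε K Q w θ = 0 := by
  unfold tPK
  split_ifs
  · unfold MW.touchP
    rw [if_neg]
    rintro ⟨h1, h2, h3⟩
    linarith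
  · rfl

theorem PELK_eq_zero (h : Q.te ≤ Q.tw) (ν : Measure (Lab × LSt)) : PELK Φ f₀ ε K Q ν = 0 := by
  unfold PELK
  simp only [tPK_eq_zero h, lintegral_zero]
  exact gcE_zero f₀ ε

set_option maxHeartbeats 800000 in
/-- **Iteration of the one-step inequality in one window.** -/
theorem iterate6 {T' r b₀ : ℝ} {q : ℕ → ℕ → ℝ≥0∞} {PP : ℕ → PPar} {bd : ℕ → ℝ → SF2}
    {C₁ C₂ : ℝ≥0∞} (hΦ : AdmissiblePotential Φ) (hf : Measurable f₀) (hγ : Measurable Q.γ)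
    (hL : 0 ≤ Q.L) (hPP : PPOk Q PP) {Kd : ℕ → ℝ → Kernel (Lab × LSt) (Lab × LSt)} {r0 : ℝ≥0∞}
    (hr0 : r0 ≤ 2⁻¹) (hK : ∀ K ε, 0 < ε → StepK (PP K) (K3 Φ ε b₀ Q.te (q K)) (Kd K ε) r0)
    (hS : Step6 Φ f₀ Q T' r b₀ q PP bd C₁ C₂) {Ξ ν : ℕ → ℝ → Measure (Lab × LSt)} {c : ℝ≥0∞}
    (hc : c ≠ ∞) (hPX : ∀ K ε, 0 < ε → PX (PP K) (Ξ K ε) (ν K ε) c)
    (hsg : ∀ j K ε, 0 < ε → ∀ᵐ θ : Lab × LSt ∂(bindN (ν K ε) (K3 Φ ε b₀ Q.te (q K)) j),
      0 ≤ sig θ.1 ∧ sig θ.1 ≤ θ.2.1)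
    (hN : ∀ j, NullFacts Φ f₀ Q T' bd fun K ε => bindN (ν K ε) (K3 Φ ε b₀ Q.te (q K)) j)
    (M : ℕ) : ∃ S : ℕ → ℝ → ℝ≥0∞, Small S ∧ Ev fun K ε =>
      PELK Φ f₀ ε K Q (ν K ε) ≤ 2 * c * (C₁ * XI Φ f₀ ε K Q +
        C₂ * XJ Φ f₀ ε K Q (Ioc (max 0 (Q.tw - r)) Q.te)) +
        2⁻¹ ^ M * (volume (Metric.ball (0 : Space3) 1) * (c * (1 + ENNReal.ofReal Q.te))) *
          XI Φ f₀ ε K Q + S K ε := by
  rcases le_or_gt Q.te Q.tw with hw | hw
  · exact ⟨fun _ _ => 0, Small.zero, Ev.of_forall fun K ε _ => by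
      rw [PELK_eq_zero hw]; exact zero_le⟩
  have hr0t : r0 ≠ ∞ := ne_top_of_le_ne_top (by norm_num) hr0
  have hr1 : r0 ≤ 1 := hr0.trans (by norm_num)
  obtain ⟨S₀, hS₀, hstep⟩ := hS
  have hPXj : ∀ j K ε, 0 < ε → PX (PP K) (bindN (Ξ K ε) (Kd K ε) j)
      (bindN (ν K ε) (K3 Φ ε b₀ Q.te (q K)) j) (r0 ^ j * c) := fun j K ε hε =>
    (hPX K ε hε).bindN (hK K ε hε) j
  have h1 := iterate (r0 := r0) (c := c)
    (R := fun K ε => C₁ * XI Φ f₀ ε K Q + C₂ * XJ Φ f₀ ε K Q (Ioc (max 0 (Q.tw - r)) Q.te))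
    (p := fun j K ε => PELK Φ f₀ ε K Q (bindN (ν K ε) (K3 Φ ε b₀ Q.te (q K)) j))
    (fun j => by
      refine ⟨fun K ε => r0 ^ j * c * S₀ K ε +
        (BAD Φ f₀ ε K Q (bindN (ν K ε) (K3 Φ ε b₀ Q.te (q K)) j) +
          OS2 Φ f₀ ε Q.te T' (bindN (ν K ε) (K3 Φ ε b₀ Q.te (q K)) j)
            (fun P z m w θ => uG Φ ε Q.tw K P z w θ * bd K ε P z m w θ)),
        (hS₀.const_mul (ENNReal.mul_ne_top (ENNReal.pow_ne_top hr0t) hc)).add
          ((hN j).bad.add (hN j).link).small, ?_⟩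
      refine (EvK.of_eps (lt_min one_pos (pow_pos (sub_pos.2 hw) 2)) fun K ε hε hε1 => ?_).ev
      have hsl : slk ε ≤ Q.te - Q.tw :=
        Real.sqrt_le_iff.2 ⟨(sub_pos.2 hw).le, hε1.le.trans (min_le_right _ _)⟩
      have h2 := hstep K ε hε (hε1.le.trans (min_le_left _ _)) hsl
        _ _ _ (hPXj j K ε hε) (hsg j K ε hε) ((hN j).ok K ε hε)
      refine h2.trans (le_of_eq ?_)
      change _ = r0 ^ j * c * _ + PELK Φ f₀ ε K Q
        ((bindN (ν K ε) (K3 Φ ε b₀ Q.te (q K)) j).bind (K3 Φ ε b₀ Q.te (q K))) + _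
      ring) M
  obtain ⟨S, hSs, hE⟩ := h1
  refine ⟨S, hSs, hE.mono fun K ε hε h2 => ?_⟩
  have h3 : PELK Φ f₀ ε K Q (bindN (ν K ε) (K3 Φ ε b₀ Q.te (q K)) M) ≤
      2⁻¹ ^ M * (volume (Metric.ball (0 : Space3) 1) * (c * (1 + ENNReal.ofReal Q.te))) *
        XI Φ f₀ ε K Q := by
    refine (PELK_le_XI hΦ hf hε hL hγ hPP (ENNReal.mul_ne_top (ENNReal.pow_ne_top hr0t) hc)
      (hPXj M K ε hε)).trans ?_
    calc volume (Metric.ball (0 : Space3) 1) * (r0 ^ M * c * (1 + ENNReal.ofReal Q.te)) *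
          XI Φ f₀ ε K Q
        = r0 ^ M * (volume (Metric.ball (0 : Space3) 1) * (c * (1 + ENNReal.ofReal Q.te))) *
          XI Φ f₀ ε K Q := by ring
      _ ≤ _ := mul_le_mul_left (mul_le_mul_left (pow_le_pow_left' hr0 M) _) _
  calc PELK Φ f₀ ε K Q (ν K ε)
      ≤ c * (∑ j ∈ Finset.range M, r0 ^ j) * (C₁ * XI Φ f₀ ε K Q +
          C₂ * XJ Φ f₀ ε K Q (Ioc (max 0 (Q.tw - r)) Q.te)) +
        PELK Φ f₀ ε K Q (bindN (ν K ε) (K3 Φ ε b₀ Q.te (q K)) M) + S K ε := h2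
    _ ≤ c * 2 * (C₁ * XI Φ f₀ ε K Q +
          C₂ * XJ Φ f₀ ε K Q (Ioc (max 0 (Q.tw - r)) Q.te)) +
        2⁻¹ ^ M * (volume (Metric.ball (0 : Space3) 1) * (c * (1 + ENNReal.ofReal Q.te))) *
          XI Φ f₀ ε K Q + S K ε :=
        add_le_add (add_le_add (mul_le_mul_left (mul_le_mul_right (sum_geom_le hr0 M) _) _) h3)
          le_rfl
    _ = _ := by ring

end Crest.Agent.R122.PairIter566
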