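import Crest.Agent.R122.PairB_307
import Crest.Agent.R122.Omega_969

/-!
Row 122, block H7, helper969: exits OFF the forward path of the first marked particle, part 1.

* `denK` : kernels given by a density and a map;
* `sphM_singleton` : the surface measure of the sphere has no atoms;
* `lintegral_NodeP_le` : integration over the parameters of one node in the form
  (time, velocity, direction of the released particle).
* translations: `shZ`, `inM_sh`, `vw_sh`, `gw_sh`, `exM_sh`.
-/

set_option autoImplicit false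
set_option synthInstance.maxSize 1024

open MeasureTheory ProbabilityTheory Set
open Crest.AnalysisR.Kinetic
open Crest.Agent.R122.Boost969 Crest.Agent.R122.Kin416 Crest.Agent.R122.Pair292
open Crest.Agent.R122.CollLeg969 (EC WPack)
open Crest.Agent.R122.PairSrc969 Crest.Agent.R122.Omega969
open Crest.Agent.R122.Kin796 Crest.Agent.R122.Kin796.CTree Crest.Agent.R122.Tree674
open Crest.Agent.R122.Mark307 Crest.Agent.R122.TreeDom974 Crest.Agent.R122.Disc416
open Crest.Agent.R122.Scat818 Crest.Agent.R122.Flow671 Crest.Agent.R122.Flux663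
open scoped ENNReal

noncomputable section

namespace Crest.Agent.R122.PairOff969

/-! ### Kernels with a density -/

section denK

variable {A X Y : Type*} [MeasurableSpace A] [MeasurableSpace X] [MeasurableSpace Y]

/-- From `a` choose `x ~ g (a, x) μ(dx)`, go to `f (a, x)`. -/
def denK (μ : Measure X) [SFinite μ] (g : A × X → ℝ≥0∞) (f : A × X → Y) : Kernel A Y :=
  (Kernel.id ×ₖ (Kernel.withDensity (Kernel.const A μ) fun a x => g (a, x))).map f

variable {μ : Measure X} [SFinite μ] {g : A × X → ℝ≥0∞} {f : A × X → Y}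

lemma isSFiniteKernel_denK (hg : ∀ p, g p ≠ ∞) : IsSFiniteKernel (denK μ g f) := by
  have := Kernel.IsSFiniteKernel.withDensity (Kernel.const A μ) (f := fun a x => g (a, x))
    (fun a x => hg (a, x))
  unfold denK
  infer_instance

lemma lintegral_denK (hgm : Measurable g) (hg : ∀ p, g p ≠ ∞) (hf : Measurable f)
    {F : Y → ℝ≥0∞} (hF : Measurable F) (a : A) :
    ∫⁻ y, F y ∂denK μ g f a = ∫⁻ x, g (a, x) * F (f (a, x)) ∂μ := by
  have := Kernel.IsSFiniteKernel.withDensity (Kernel.const A μ) (f := fun a x => g (a, x))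
    (fun a x => hg (a, x))
  have hFo : Measurable (fun p => F (f p)) := hF.comp hf
  have hgm' : Measurable (Function.uncurry fun (a : A) (x : X) => g (a, x)) := hgm
  unfold denK
  rw [Kernel.lintegral_map _ hf _ hF, Kernel.lintegral_id_prod hFo,
    Kernel.lintegral_withDensity _ hgm']
  · simp only [Kernel.const_apply]
  · exact hFo.comp (measurable_const.prodMk measurable_id)

end denK

/-! ### The sphere has no atoms -/

lemma sphM_singleton (w₀ : Space3) : sphM {w₀} = 0 := by
  unfold sphM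
  rw [Measure.smul_apply, Measure.map_apply measurable_rproj (measurableSet_singleton w₀)]
  have hsub : rproj ⁻¹' {w₀} ∩ ann ⊆ (Submodule.span ℝ {w₀} : Set Space3) := by
    rintro x ⟨hx, hx2⟩
    have h0 : (0 : ℝ) < ‖x‖ := by linarith [hx2.1]
    have h1 : rproj x = w₀ := hx
    have h2 : x = ‖x‖ • w₀ := by
      rw [← h1]
      unfold rproj
      rw [smul_smul, mul_inv_cancel₀ h0.ne', one_smul]
    rw [h2]
    exact Submodule.smul_mem _ _ (Submodule.mem_span_singleton_self w₀)
  have hne : Submodule.span ℝ {w₀} ≠ (⊤ : Submodule ℝ Space3) := by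
    intro h
    have h1 := finrank_span_finset_le_card (R := ℝ) ({w₀} : Finset Space3)
    rw [Finset.coe_singleton, Set.finrank, h, finrank_top, Finset.card_singleton] at h1
    have h2 : Module.finrank ℝ Space3 = 3 := by simp
    omega
  have h0 : volume (rproj ⁻¹' {w₀} ∩ ann) = 0 :=
    measure_mono_null hsub (Measure.addHaar_submodule volume _ hne)
  rw [Measure.restrict_apply (measurable_rproj (measurableSet_singleton w₀)), h0, smul_zero]

/-! ### One node: time, velocity and direction of the released particle -/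

lemma topX_eq (ε : ℝ) (ℓ : PhasePoint) (a : NodeP) :
    topX ε (ℓ, a) = (a.1, (ℓ.1 + a.1 • ℓ.2 + ε • entrancePoint (nb ℓ.2 a) (ng ℓ.2 a), a.2.1)) := by
  unfold topX onLine outLine
  simp only [sub_add_cancel]

/-- integral over the impact parameter -/
lemma disc_le (v w : Space3) {ψ : Space3 → ℝ≥0∞} (hψ : Measurable ψ) :
    ENNReal.ofReal ‖v - w‖ * ∫⁻ y in Metric.ball (0 : Plane) 1,
        ψ (entrancePoint (frameMap (v - w) y) (v - w)) ≤
      ENNReal.ofReal ‖v - w‖ * ∫⁻ ω, ψ ω ∂sphM := by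
  by_cases hg : v - w = 0
  · rw [hg]; simp
  · rw [omega_disc hg hψ, ← lintegral_const_mul _ hψ]
    refine lintegral_mono_ae ?_
    filter_upwards [ae_norm_sphM] with ω hω
    refine mul_le_mul_left (ENNReal.ofReal_le_ofReal ?_) _
    have h1 := abs_real_inner_le_norm (v - w) ω
    rw [hω, mul_one] at h1
    linarith [neg_abs_le (inner ℝ (v - w) ω)]

theorem node_omega {ε T' : ℝ} {b : ℝ} (hε : 0 ≤ ε) {Φ : Space3 → ℝ} (ℓ : PhasePoint)
    {F : BLine → ℝ≥0∞} (hF : Measurable F) :
    ∫⁻ a : NodeP, (vI Φ ε T' (ℓ, a) * ENNReal.ofReal ‖ℓ.2 - a.2.1‖) *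
        (gE b a.2.1 * F (topX ε (ℓ, a))) ≤
      ∫⁻ s in Ioo 0 T', (∫⁻ w, ENNReal.ofReal ‖ℓ.2 - w‖ * (gE b w *
        ∫⁻ ω, F (s, (ℓ.1 + s • ℓ.2 + ε • ω, w)) ∂sphM)) := by
  have hnb : Measurable fun a : NodeP => (nb ℓ.2 a, ng ℓ.2 a) :=
    measurable_nbng.comp (measurable_const.prodMk measurable_id)
  have hent : Measurable fun a : NodeP => entrancePoint (nb ℓ.2 a) (ng ℓ.2 a) :=
    measurable_entrancePoint.comp hnb
  have hX : Measurable fun a : NodeP => ((a.1, (ℓ.1 + a.1 • ℓ.2 + ε •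
      entrancePoint (nb ℓ.2 a) (ng ℓ.2 a), a.2.1)) : BLine) := by
    have h1 : Measurable fun a : NodeP => a.1 := measurable_fst
    have h2 : Measurable fun a : NodeP => ℓ.1 + a.1 • ℓ.2 := by fun_prop
    have h3 : Measurable fun a : NodeP => a.2.1 := by fun_prop
    exact h1.prodMk ((h2.add (hent.const_smul ε)).prodMk h3)
  have hn : Measurable fun a : NodeP => ENNReal.ofReal ‖ℓ.2 - a.2.1‖ := by fun_prop
  have hge : Measurable fun a : NodeP => gE b a.2.1 := (measurable_gE b).comp measurable_snd.fst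
  have hm : Measurable fun a : NodeP => (box1 T' a * ENNReal.ofReal ‖ℓ.2 - a.2.1‖) *
      (gE b a.2.1 * F (a.1, (ℓ.1 + a.1 • ℓ.2 + ε •
        entrancePoint (nb ℓ.2 a) (ng ℓ.2 a), a.2.1))) :=
    ((measurable_box1 T').mul hn).mul (hge.mul (hF.comp hX))
  have h1 : ∫⁻ a : NodeP, (vI Φ ε T' (ℓ, a) * ENNReal.ofReal ‖ℓ.2 - a.2.1‖) *
        (gE b a.2.1 * F (topX ε (ℓ, a))) ≤
      ∫⁻ a : NodeP, (box1 T' a * ENNReal.ofReal ‖ℓ.2 - a.2.1‖) *
      (gE b a.2.1 * F (a.1, (ℓ.1 + a.1 • ℓ.2 + ε •
        entrancePoint (nb ℓ.2 a) (ng ℓ.2 a), a.2.1))) := by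
    refine lintegral_mono fun a => ?_
    rw [topX_eq]
    exact mul_le_mul_left (mul_le_mul_left (vI_le_box hε le_rfl ℓ a) _) _
  refine h1.trans ?_
  have e1 : ∫⁻ a : NodeP, (box1 T' a * ENNReal.ofReal ‖ℓ.2 - a.2.1‖) *
      (gE b a.2.1 * F (a.1, (ℓ.1 + a.1 • ℓ.2 + ε •
        entrancePoint (nb ℓ.2 a) (ng ℓ.2 a), a.2.1))) =
      ∫⁻ s : ℝ, ∫⁻ w : Space3, ∫⁻ y : Plane, (box1 T' (s, (w, y)) *
        ENNReal.ofReal ‖ℓ.2 - w‖) * (gE b w * F (s, (ℓ.1 + s • ℓ.2 + ε •
        entrancePoint (nb ℓ.2 (s, (w, y))) (ng ℓ.2 (s, (w, y))), w))) := by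
    rw [Tree674.lintegral_pair hm]
    refine lintegral_congr fun s => ?_
    exact Tree674.lintegral_pair (hm.comp (measurable_const.prodMk measurable_id))
  rw [e1, ← lintegral_indicator measurableSet_Ioo]
  refine lintegral_mono fun s => ?_
  by_cases hs : s ∈ Ioo 0 T'
  · rw [indicator_of_mem hs]
    refine lintegral_mono fun w => ?_
    have hFw : Measurable fun ω : Space3 => F (s, (ℓ.1 + s • ℓ.2 + ε • ω, w)) :=
      hF.comp (by fun_prop)
    have h2 := disc_le ℓ.2 w hFw
    have hFy : Measurable fun y : Plane => F (s, (ℓ.1 + s • ℓ.2 + ε •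
        entrancePoint (frameMap (ℓ.2 - w) y) (ℓ.2 - w), w)) :=
      hFw.comp (measurable_entrance (ℓ.2 - w))
    calc ∫⁻ y : Plane, (box1 T' (s, (w, y)) *
        ENNReal.ofReal ‖ℓ.2 - w‖) * (gE b w * F (s, (ℓ.1 + s • ℓ.2 + ε •
        entrancePoint (nb ℓ.2 (s, (w, y))) (ng ℓ.2 (s, (w, y))), w)))
        = ∫⁻ y : Plane, (Metric.ball (0 : Plane) 1).indicator (fun y => gE b w *
            (ENNReal.ofReal ‖ℓ.2 - w‖ * F (s, (ℓ.1 + s • ℓ.2 + ε •
              entrancePoint (frameMap (ℓ.2 - w) y) (ℓ.2 - w), w)))) y := by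
          refine lintegral_congr fun y => ?_
          by_cases hy : ‖y‖ < 1
          · rw [indicator_of_mem (by simpa using hy), box1_of (a := (s, (w, y))) hs hy, one_mul]
            unfold nb ng
            ring
          · rw [indicator_of_notMem (by simpa using hy)]
            unfold box1
            rw [indicator_of_notMem (fun h => hy h.2), zero_mul, zero_mul]
      _ = gE b w * (ENNReal.ofReal ‖ℓ.2 - w‖ * ∫⁻ y in Metric.ball (0 : Plane) 1,
            F (s, (ℓ.1 + s • ℓ.2 + ε •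
              entrancePoint (frameMap (ℓ.2 - w) y) (ℓ.2 - w), w))) := by
          rw [lintegral_indicator measurableSet_ball, lintegral_const_mul _ (hFy.const_mul _),
            lintegral_const_mul _ hFy]
      _ ≤ gE b w * (ENNReal.ofReal ‖ℓ.2 - w‖ *
            ∫⁻ ω, F (s, (ℓ.1 + s • ℓ.2 + ε • ω, w)) ∂sphM) := mul_le_mul_right h2 _
      _ = _ := by ring
  · rw [indicator_of_notMem hs]
    refine le_of_eq ?_
    refine (lintegral_congr fun w => ?_).trans lintegral_zero
    refine (lintegral_congr fun y => ?_).trans lintegral_zero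
    unfold box1
    rw [indicator_of_notMem (fun h => hs h.1), zero_mul, zero_mul]

/-! ### Translations -/

/-- translation of a line -/
def shx (x : Space3) (ℓ : PhasePoint) : PhasePoint := (ℓ.1 + x, ℓ.2)

/-- translation of a tree -/
def shZ (x : Space3) {P : CTree} (z : PhasePoint × Par P) : PhasePoint × Par P := (shx x z.1, z.2)

lemma measurable_shx (x : Space3) : Measurable (shx x) := by
  unfold shx; fun_prop

lemma measurable_shZ (x : Space3) {P : CTree} : Measurable (shZ x (P := P)) :=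
  ((measurable_shx x).comp measurable_fst).prodMk measurable_snd

lemma mp_shx (x : Space3) : MeasurePreserving (shx x) := by
  have h := (measurePreserving_add_right (volume : Measure Space3) x).prod
    (MeasurePreserving.id (volume : Measure Space3))
  exact h

lemma mp_shZ (x : Space3) (P : CTree) : MeasurePreserving (shZ x (P := P)) := by
  have h := (mp_shx x).prod (MeasurePreserving.id (volume : Measure (Par P)))
  exact h

variable {Φ : Space3 → ℝ}

lemma inMap_sh (ε : ℝ) (x : Space3) (ℓ : PhasePoint) (a : NodeP) :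
    inMap Φ ε (shx x ℓ) a = (shx x (inMap Φ ε ℓ a).1, shx x (inMap Φ ε ℓ a).2) := by
  unfold inMap xin cms shx
  refine Prod.ext (Prod.ext ?_ rfl) (Prod.ext ?_ rfl)
  · simp only
    abel
  · simp only
    abel

lemma inM_sh {ε : ℝ} (x : Space3) {ℓ : PhasePoint} {a : NodeP} (h : Adm1 Φ ℓ.2 a) :
    inM Φ ε (shx x ℓ, a) = (shx x (inM Φ ε (ℓ, a)).1, shx x (inM Φ ε (ℓ, a)).2) := by
  rw [inM_of_adm (z := (ℓ, a)) h, inM_of_adm (z := (shx x ℓ, a)) h]
  exact inMap_sh ε x ℓ a

lemma exl_sh (ε : ℝ) (x : Space3) : {P : CTree} → (m : Mk P) → (ℓ : PhasePoint) → (p : Par P) →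
    exl Φ ε m (shx x ℓ) p = shL x (exl Φ ε m ℓ p)
  | _, .top l r, ℓ, p => by
      unfold exl onLine outLine shx shL
      refine Prod.ext rfl (Prod.ext ?_ rfl)
      simp only
      abel
  | _, .inl m r, ℓ, p => by
      simp only [exl]
      rw [inMap_sh]
      exact exl_sh ε x m _ _
  | _, .inr l m, ℓ, p => by
      simp only [exl]
      rw [inMap_sh]
      exact exl_sh ε x m _ _

lemma exM_sh {ε : ℝ} (x : Space3) {P : CTree} (m : Mk P) {z : PhasePoint × Par P}
    (h : Adm Φ P z.1.2 z.2) : exM Φ ε m (shZ x z) = shL x (exM Φ ε m z) := by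
  rw [exM_eq m h, exM_eq m (z := shZ x z) h]
  exact exl_sh ε x m z.1 z.2

lemma vw_sh {ε T : ℝ} (x : Space3) {P : CTree} (z : PhasePoint × Par P) :
    vw Φ ε P T (shZ x z) = vw Φ ε P T z := rfl

lemma vI_sh {ε T : ℝ} (x : Space3) (ℓ : PhasePoint) (a : NodeP) :
    vI Φ ε T (shx x ℓ, a) = vI Φ ε T (ℓ, a) := rfl

lemma gw_sh {b : ℝ} (x : Space3) {P : CTree} (z : PhasePoint × Par P) :
    gw b P (shZ x z) = gw b P z := rfl

end Crest.Agent.R122.PairOff969

end
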