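import Crest.Agent.R122.PairOff1_969

/-!
Row 122, block H7, helper969: exits OFF the forward path of the first marked particle, part 2:
**the source kernel of an exit of a fresh tree**.

`exists_pos` : for the exit `m` of the tree of a fresh line `ℓ` (Gaussian tree weight `gw b`) there
is a kernel `κ ℓ (dt, dx)` such that the exit line is dominated by `κ ℓ (dt, dx) gE b' (w) dw`
(born at `(t, x)` with velocity `w`), with time marginal below Lebesgue, translation covariant and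
without atoms in `x`.
-/

set_option autoImplicit false
set_option synthInstance.maxSize 1024

open MeasureTheory ProbabilityTheory Set
open Crest.AnalysisR.Kinetic
open Crest.Agent.R122.Boost969 Crest.Agent.R122.Kin416 Crest.Agent.R122.Pair292
open Crest.Agent.R122.CollLeg969 (EC WPack)
open Crest.Agent.R122.PairSrc969 Crest.Agent.R122.Omega969
open Crest.Agent.R122.Kin796 Crest.Agent.R122.Kin796.CTree Crest.Agent.R122.Tree674
open Crest.Agent.R122.Mark307 Crest.Agent.R122.TreeDom974 Crest.Agent.R122.Disc416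
open Crest.Agent.R122.Scat818 Crest.Agent.R122.Flow671 Crest.Agent.R122.Flux663
open scoped ENNReal

noncomputable section

namespace Crest.Agent.R122.PairOff969

variable {Φ : Space3 → ℝ}

/-- Source kernel of the exit `m`. -/
structure PosK (Φ : Space3 → ℝ) (ε T' b b' : ℝ) (C : ℝ≥0∞) {P : CTree} (m : Mk P)
    (κ : Kernel PhasePoint (ℝ × Space3)) : Prop where
  sf : IsSFiniteKernel κ
  dom : ∀ F : BLine → ℝ≥0∞, Measurable F → ∀ ℓ : PhasePoint,
    ∫⁻ p : Par P, vw Φ ε P T' (ℓ, p) * (gw b P (ℓ, p) * F (exM Φ ε m (ℓ, p))) ≤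
      ∫⁻ q, (∫⁻ w, gE b' w * F (q.1, (q.2, w))) ∂κ ℓ
  mass : ∀ φ : ℝ → ℝ≥0∞, Measurable φ → ∀ ℓ : PhasePoint,
    ∫⁻ q, φ q.1 ∂κ ℓ ≤ (C * gE b' ℓ.2) * ∫⁻ s in Ioo 0 T', φ s
  trans : ∀ (x : Space3) (F : ℝ × Space3 → ℝ≥0∞), Measurable F → ∀ ℓ : PhasePoint,
    ∫⁻ q, F q ∂κ (shx x ℓ) = ∫⁻ q, F (q.1, q.2 + x) ∂κ ℓ
  na : ∀ Z : ℝ → Space3, Measurable Z → ∀ ℓ : PhasePoint, κ ℓ {q | q.2 = Z q.1} = 0

/-! ### The marked node -/

/-- the point source of a node of the line `ℓ` -/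
def posT (ε T' b' : ℝ) (C : ℝ≥0∞) : Kernel PhasePoint (ℝ × Space3) :=
  denK (((volume : Measure ℝ).restrict (Ioo 0 T')).prod sphM) (fun p => C * gE b' p.1.2)
    (fun p => (p.2.1, p.1.1 + p.2.1 • p.1.2 + ε • p.2.2))

section top

variable {ε T' b' : ℝ} {C : ℝ≥0∞}

lemma lintegral_posT (hC : C ≠ ∞) {F : ℝ × Space3 → ℝ≥0∞} (hF : Measurable F) (ℓ : PhasePoint) :
    ∫⁻ q, F q ∂posT ε T' b' C ℓ = (C * gE b' ℓ.2) * ∫⁻ s in Ioo 0 T', (∫⁻ ω,
      F (s, ℓ.1 + s • ℓ.2 + ε • ω) ∂sphM) := by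
  have hg : Measurable fun p : PhasePoint × (ℝ × Space3) => C * gE b' p.1.2 :=
    ((measurable_gE b').comp measurable_fst.snd).const_mul C
  have hf : Measurable fun p : PhasePoint × (ℝ × Space3) =>
      ((p.2.1, p.1.1 + p.2.1 • p.1.2 + ε • p.2.2) : ℝ × Space3) := by fun_prop
  have hFf : Measurable fun x : ℝ × Space3 => F (x.1, ℓ.1 + x.1 • ℓ.2 + ε • x.2) :=
    hF.comp (by fun_prop)
  unfold posT
  rw [lintegral_denK hg (fun p => ENNReal.mul_ne_top hC (gE_ne_top _ _)) hf hF ℓ]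
  simp only
  rw [lintegral_const_mul _ hFf, lintegral_prod _ hFf.aemeasurable]

lemma posK_top (hΦ : AdmissiblePotential Φ) {b : ℝ} (hb' : 0 < b') (hb : b' < b) (T : ℝ)
    (l r : CTree) : ∃ C : ℝ≥0∞, C ≠ ∞ ∧ ∀ ε T' : ℝ, 0 < ε → T' ≤ T →
      ∃ κ, PosK Φ ε T' b b' C (Mk.top l r) κ := by
  set b₁ : ℝ := (b + b') / 2 with hb₁
  have h1 : b' < b₁ := by rw [hb₁]; linarith
  have h2 : b₁ < b := by rw [hb₁]; linarith
  obtain ⟨C₀, hC₀, H₀⟩ := N0 hΦ (hb'.trans h1) h2 T l r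
  obtain ⟨C₁, hC₁, H₁⟩ := one_add_gE h1
  have hCt : C₀ * (C₁ * C₁) ≠ ∞ := ENNReal.mul_ne_top hC₀ (ENNReal.mul_ne_top hC₁ hC₁)
  refine ⟨C₀ * (C₁ * C₁) * sphM univ, ENNReal.mul_ne_top hCt (measure_ne_top _ _),
    fun ε T' hε hT => ⟨posT ε T' b' (C₀ * (C₁ * C₁)), ?_, ?_, ?_, ?_, ?_⟩⟩
  · exact isSFiniteKernel_denK fun p => ENNReal.mul_ne_top hCt (gE_ne_top _ _)
  · intro F hF ℓ
    have hH : Measurable fun a : NodeP => F (topX ε (ℓ, a)) :=
      hF.comp ((measurable_topX ε).comp (measurable_const.prodMk measurable_id))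
    have hN := H₀ ε T' hε hT ℓ _ hH
    have hFw : Measurable fun q : (ℝ × Space3) × Space3 => gE b' q.2 * F (q.1.1, (q.1.2, q.2)) :=
      ((measurable_gE b').comp measurable_snd).mul (hF.comp (by fun_prop))
    have hI : Measurable fun q : ℝ × Space3 => ∫⁻ w, gE b' w * F (q.1, (q.2, w)) :=
      hFw.lintegral_prod_right'
    rw [lintegral_posT hCt hI ℓ]
    have hvI : Measurable fun a : NodeP => vI Φ ε T' (ℓ, a) * ENNReal.ofReal ‖ℓ.2 - a.2.1‖ := by
      have m1 : Measurable fun a : NodeP => ENNReal.ofReal ‖ℓ.2 - a.2.1‖ := by fun_prop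
      exact ((measurable_vI hΦ ε T').comp (measurable_const.prodMk measurable_id)).mul m1
    have hge : Measurable fun a : NodeP => gE b₁ a.2.1 := (measurable_gE b₁).comp measurable_snd.fst
    calc ∫⁻ p : Par (node l r), vw Φ ε (node l r) T' (ℓ, p) *
          (gw b (node l r) (ℓ, p) * F (exM Φ ε (Mk.top l r) (ℓ, p)))
        ≤ C₀ * ∫⁻ a : NodeP, (vI Φ ε T' (ℓ, a) * ENNReal.ofReal ‖ℓ.2 - a.2.1‖) *
            ((gE b₁ ℓ.2 * gE b₁ a.2.1) * F (topX ε (ℓ, a))) := hN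
      _ = C₀ * (gE b₁ ℓ.2 * ∫⁻ a : NodeP, (vI Φ ε T' (ℓ, a) * ENNReal.ofReal ‖ℓ.2 - a.2.1‖) *
            (gE b₁ a.2.1 * F (topX ε (ℓ, a)))) := by
          have hmm : Measurable fun a : NodeP => (vI Φ ε T' (ℓ, a) *
              ENNReal.ofReal ‖ℓ.2 - a.2.1‖) * (gE b₁ a.2.1 * F (topX ε (ℓ, a))) :=
            hvI.mul (hge.mul hH)
          rw [← lintegral_const_mul _ hmm]
          congr 1
          refine lintegral_congr fun a => ?_
          ring
      _ ≤ C₀ * (gE b₁ ℓ.2 * ∫⁻ s in Ioo 0 T', (∫⁻ w, ENNReal.ofReal ‖ℓ.2 - w‖ * (gE b₁ w *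
            ∫⁻ ω, F (s, (ℓ.1 + s • ℓ.2 + ε • ω, w)) ∂sphM))) :=
          mul_le_mul_right (mul_le_mul_right (node_omega hε.le ℓ hF) _) _
      _ ≤ C₀ * (gE b₁ ℓ.2 * ∫⁻ s in Ioo 0 T', ((ENNReal.ofReal (1 + ‖ℓ.2‖) * C₁) *
            ∫⁻ w, (gE b' w * ∫⁻ ω, F (s, (ℓ.1 + s • ℓ.2 + ε • ω, w)) ∂sphM))) := by
          refine mul_le_mul_right (mul_le_mul_right (lintegral_mono fun s => ?_) _) _
          simp only
          have hm : Measurable fun w : Space3 =>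
              gE b' w * ∫⁻ ω, F (s, (ℓ.1 + s • ℓ.2 + ε • ω, w)) ∂sphM := by
            have hm2 : Measurable fun q : Space3 × Space3 =>
                F (s, (ℓ.1 + s • ℓ.2 + ε • q.2, q.1)) := hF.comp (by fun_prop)
            exact (measurable_gE b').mul hm2.lintegral_prod_right'
          rw [← lintegral_const_mul _ hm]
          refine lintegral_mono fun w => ?_
          calc ENNReal.ofReal ‖ℓ.2 - w‖ * (gE b₁ w *
                ∫⁻ ω, F (s, (ℓ.1 + s • ℓ.2 + ε • ω, w)) ∂sphM)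
              ≤ (ENNReal.ofReal (1 + ‖ℓ.2‖) * ENNReal.ofReal (1 + ‖w‖)) * (gE b₁ w *
                ∫⁻ ω, F (s, (ℓ.1 + s • ℓ.2 + ε • ω, w)) ∂sphM) :=
                mul_le_mul_left (norm_sub_le_mul _ _) _
            _ = ENNReal.ofReal (1 + ‖ℓ.2‖) * ((ENNReal.ofReal (1 + ‖w‖) * gE b₁ w) *
                ∫⁻ ω, F (s, (ℓ.1 + s • ℓ.2 + ε • ω, w)) ∂sphM) := by ring
            _ ≤ ENNReal.ofReal (1 + ‖ℓ.2‖) * ((C₁ * gE b' w) *
                ∫⁻ ω, F (s, (ℓ.1 + s • ℓ.2 + ε • ω, w)) ∂sphM) :=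
                mul_le_mul_right (mul_le_mul_left (H₁ w) _) _
            _ = _ := by ring
      _ = (C₀ * C₁ * (ENNReal.ofReal (1 + ‖ℓ.2‖) * gE b₁ ℓ.2)) * ∫⁻ s in Ioo 0 T', (∫⁻ ω,
            (∫⁻ w, gE b' w * F (s, (ℓ.1 + s • ℓ.2 + ε • ω, w))) ∂sphM) := by
          have hsw : ∀ s : ℝ, ∫⁻ w, (gE b' w *
              ∫⁻ ω, F (s, (ℓ.1 + s • ℓ.2 + ε • ω, w)) ∂sphM) = ∫⁻ ω,
            (∫⁻ w, gE b' w * F (s, (ℓ.1 + s • ℓ.2 + ε • ω, w))) ∂sphM := by
            intro s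
            have hm3 : Measurable fun q : Space3 × Space3 =>
                gE b' q.1 * F (s, (ℓ.1 + s • ℓ.2 + ε • q.2, q.1)) :=
              ((measurable_gE b').comp measurable_fst).mul (hF.comp (by fun_prop))
            have e1 : ∀ w : Space3, (gE b' w *
                ∫⁻ ω, F (s, (ℓ.1 + s • ℓ.2 + ε • ω, w)) ∂sphM) =
                ∫⁻ ω, gE b' w * F (s, (ℓ.1 + s • ℓ.2 + ε • ω, w)) ∂sphM := fun w =>
              (lintegral_const_mul _ (hF.comp (by fun_prop))).symm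
            simp only [e1]
            exact lintegral_lintegral_swap hm3.aemeasurable
          simp only [hsw]
          rw [lintegral_const_mul]
          · ring
          · have hm4 : Measurable fun q : (ℝ × Space3) × Space3 =>
                gE b' q.2 * F (q.1.1, (ℓ.1 + q.1.1 • ℓ.2 + ε • q.1.2, q.2)) :=
              ((measurable_gE b').comp measurable_snd).mul (hF.comp (by fun_prop))
            exact hm4.lintegral_prod_right'.lintegral_prod_right'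
      _ ≤ (C₀ * C₁ * (C₁ * gE b' ℓ.2)) * ∫⁻ s in Ioo 0 T', (∫⁻ ω,
            (∫⁻ w, gE b' w * F (s, (ℓ.1 + s • ℓ.2 + ε • ω, w))) ∂sphM) :=
          mul_le_mul_left (mul_le_mul_right (H₁ ℓ.2) _) _
      _ = _ := by ring
  · intro φ hφ ℓ
    rw [lintegral_posT hCt (F := fun q : ℝ × Space3 => φ q.1) (hφ.comp measurable_fst) ℓ]
    simp only [lintegral_const]
    rw [lintegral_mul_const _ hφ]
    exact le_of_eq (by ring)
  · intro x F hF ℓ
    rw [lintegral_posT hCt hF (shx x ℓ)]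
    have h3 := lintegral_posT (ε := ε) (T' := T') (b' := b') hCt
      (F := fun q => F (q.1, q.2 + x)) (hF.comp (by fun_prop)) ℓ
    rw [h3]
    congr 1
    refine lintegral_congr fun s => lintegral_congr fun ω => ?_
    congr 2
    unfold shx
    simp only
    abel
  · intro Z hZ ℓ
    have hS : MeasurableSet {q : ℝ × Space3 | q.2 = Z q.1} :=
      measurableSet_eq_fun measurable_snd (hZ.comp measurable_fst)
    rw [← lintegral_indicator_one hS, lintegral_posT hCt (measurable_one.indicator hS) ℓ]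
    have h0 : ∀ s : ℝ, ∫⁻ ω, {q : ℝ × Space3 | q.2 = Z q.1}.indicator (1 : ℝ × Space3 → ℝ≥0∞)
        (s, ℓ.1 + s • ℓ.2 + ε • ω) ∂sphM = 0 := by
      intro s
      have hne : ∀ᵐ ω ∂sphM, ω ≠ ε⁻¹ • (Z s - (ℓ.1 + s • ℓ.2)) := by
        rw [ae_iff]
        simpa using sphM_singleton (ε⁻¹ • (Z s - (ℓ.1 + s • ℓ.2)))
      refine (lintegral_congr_ae ?_).trans lintegral_zero
      filter_upwards [hne] with ω hω
      rw [indicator_of_notMem]
      intro h
      have h' : ℓ.1 + s • ℓ.2 + ε • ω = Z s := h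
      refine hω ?_
      rw [← h', add_sub_cancel_left, smul_smul, inv_mul_cancel₀ hε.ne', one_smul]
    simp only [h0, lintegral_zero, mul_zero]

end top

/-! ### One level up -/

/-- the weight of a node whose branch `o` is integrated -/
def nodeW (Φ : Space3 → ℝ) (ε T' b₁ : ℝ) (Cr : ℝ≥0∞) (o : PhasePoint × NodeP → PhasePoint)
    (z : PhasePoint × NodeP) : ℝ≥0∞ :=
  (vI Φ ε T' z * ENNReal.ofReal ‖z.1.2 - z.2.2.1‖) * (Cr * gE b₁ (o z).2)

/-- the source kernel of the branch `f` of a node -/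
def liftPos (Φ : Space3 → ℝ) (ε T' b₁ : ℝ) (Cr : ℝ≥0∞) (f o : PhasePoint × NodeP → PhasePoint)
    (κ : Kernel PhasePoint (ℝ × Space3)) : Kernel PhasePoint (ℝ × Space3) :=
  κ ∘ₖ denK (volume : Measure NodeP) (nodeW Φ ε T' b₁ Cr o) f

section lift

variable {ε T' b b' b₁ : ℝ} {C Cr : ℝ≥0∞} {f o : PhasePoint × NodeP → PhasePoint}
  {κ : Kernel PhasePoint (ℝ × Space3)}

lemma measurable_nodeW (hΦ : AdmissiblePotential Φ) (ho : Measurable o) :
    Measurable (nodeW Φ ε T' b₁ Cr o) := by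
  have m1 : Measurable fun z : PhasePoint × NodeP => ENNReal.ofReal ‖z.1.2 - z.2.2.1‖ := by
    fun_prop
  exact ((measurable_vI hΦ ε T').mul m1).mul
    (((measurable_gE b₁).comp (measurable_snd.comp ho)).const_mul Cr)

lemma vI_ne_top (z : PhasePoint × NodeP) : vI Φ ε T' z ≠ ∞ := by
  have h : vI Φ ε T' z ≤ 1 := Set.indicator_le_self' (fun _ _ => zero_le_one) z
  exact (h.trans_lt ENNReal.one_lt_top).ne

lemma nodeW_ne_top (hCr : Cr ≠ ∞) (z : PhasePoint × NodeP) : nodeW Φ ε T' b₁ Cr o z ≠ ∞ :=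
  ENNReal.mul_ne_top (ENNReal.mul_ne_top (vI_ne_top z) ENNReal.ofReal_ne_top)
    (ENNReal.mul_ne_top hCr (gE_ne_top _ _))

lemma lintegral_liftPos (hΦ : AdmissiblePotential Φ) (hf : Measurable f) (ho : Measurable o)
    (hCr : Cr ≠ ∞) [IsSFiniteKernel κ] {F : ℝ × Space3 → ℝ≥0∞} (hF : Measurable F)
    (ℓ : PhasePoint) : ∫⁻ q, F q ∂liftPos Φ ε T' b₁ Cr f o κ ℓ =
      ∫⁻ a : NodeP, nodeW Φ ε T' b₁ Cr o (ℓ, a) * ∫⁻ q, F q ∂κ (f (ℓ, a)) := by
  have := isSFiniteKernel_denK (μ := (volume : Measure NodeP)) (f := f)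
    (nodeW_ne_top (Φ := Φ) (ε := ε) (T' := T') (b₁ := b₁) (o := o) hCr)
  unfold liftPos
  rw [Kernel.lintegral_comp _ _ _ hF]
  exact lintegral_denK (measurable_nodeW hΦ ho) (nodeW_ne_top hCr) hf hF.lintegral_kernel ℓ

lemma mem_of_vI {z : PhasePoint × NodeP} (h : vI Φ ε T' z ≠ 0) : z ∈ Vset Φ ε T' := by
  by_contra hc
  exact h (indicator_of_notMem hc _)

theorem posK_lift (hΦ : AdmissiblePotential Φ) {P P' : CTree} {m : Mk P} {m' : Mk P'}
    (hκ : PosK Φ ε T' b b₁ C m κ) (hε : 0 < ε) (hf : Measurable f) (ho : Measurable o)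
    (hCr : Cr ≠ ∞) (hE : ∀ z : PhasePoint × NodeP, Adm1 Φ z.1.2 z.2 →
      gE b₁ (f z).2 * gE b₁ (o z).2 = gE b₁ z.1.2 * gE b₁ z.2.2.1)
    (hfs : ∀ (x : Space3) (ℓ : PhasePoint) (a : NodeP), Adm1 Φ ℓ.2 a →
      f (shx x ℓ, a) = shx x (f (ℓ, a)))
    (hos : ∀ (x : Space3) (ℓ : PhasePoint) (a : NodeP), Adm1 Φ ℓ.2 a →
      (o (shx x ℓ, a)).2 = (o (ℓ, a)).2) {Cb C1 : ℝ≥0∞}
    (hbox : ∀ v : Space3, ∫⁻ a : NodeP, box1 T' a * (ENNReal.ofReal ‖v - a.2.1‖ * gE b₁ a.2.1) ≤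
      Cb * ENNReal.ofReal (1 + ‖v‖))
    (hone : ∀ v : Space3, ENNReal.ofReal (1 + ‖v‖) * gE b₁ v ≤ C1 * gE b' v)
    (hdom : ∀ F : BLine → ℝ≥0∞, Measurable F → ∀ ℓ : PhasePoint,
      ∫⁻ p : Par P', vw Φ ε P' T' (ℓ, p) * (gw b P' (ℓ, p) * F (exM Φ ε m' (ℓ, p))) ≤
      ∫⁻ a : NodeP, nodeW Φ ε T' b₁ Cr o (ℓ, a) *
        ∫⁻ q, (∫⁻ w, gE b₁ w * F (q.1, (q.2, w))) ∂κ (f (ℓ, a))) (hb : b' ≤ b₁) :
    PosK Φ ε T' b b' (Cr * C * (Cb * C1)) m' (liftPos Φ ε T' b₁ Cr f o κ) := by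
  have := hκ.sf
  have hsd := isSFiniteKernel_denK (μ := (volume : Measure NodeP)) (f := f)
    (nodeW_ne_top (Φ := Φ) (ε := ε) (T' := T') (b₁ := b₁) (o := o) hCr)
  refine ⟨by unfold liftPos; infer_instance, ?_, ?_, ?_, ?_⟩
  · intro F hF ℓ
    have hFw : ∀ β : ℝ, Measurable fun q : ℝ × Space3 => ∫⁻ w, gE β w * F (q.1, (q.2, w)) := by
      intro β
      have h1 : Measurable fun q : (ℝ × Space3) × Space3 => gE β q.2 * F (q.1.1, (q.1.2, q.2)) :=
        ((measurable_gE β).comp measurable_snd).mul (hF.comp (by fun_prop))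
      exact h1.lintegral_prod_right'
    refine (hdom F hF ℓ).trans ?_
    rw [lintegral_liftPos hΦ hf ho hCr (hFw b') ℓ]
    refine lintegral_mono fun a => mul_le_mul_right (lintegral_mono fun q => ?_) _
    exact lintegral_mono fun w => mul_le_mul_left (gE_mono hb w) _
  · intro φ hφ ℓ
    rw [lintegral_liftPos hΦ hf ho hCr (F := fun q : ℝ × Space3 => φ q.1)
      (hφ.comp measurable_fst) ℓ]
    have hbm : Measurable fun a : NodeP => box1 T' a *
        (ENNReal.ofReal ‖ℓ.2 - a.2.1‖ * gE b₁ a.2.1) := by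
      have m1 : Measurable fun a : NodeP => ENNReal.ofReal ‖ℓ.2 - a.2.1‖ := by fun_prop
      exact (measurable_box1 T').mul (m1.mul ((measurable_gE b₁).comp measurable_snd.fst))
    set I : ℝ≥0∞ := ∫⁻ s in Ioo 0 T', φ s with hI
    calc ∫⁻ a : NodeP, nodeW Φ ε T' b₁ Cr o (ℓ, a) * ∫⁻ q, φ q.1 ∂κ (f (ℓ, a))
        ≤ ∫⁻ a : NodeP, (Cr * C * gE b₁ ℓ.2 * I) *
            (box1 T' a * (ENNReal.ofReal ‖ℓ.2 - a.2.1‖ * gE b₁ a.2.1)) := by
          refine lintegral_mono fun a => ?_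
          by_cases hz : vI Φ ε T' (ℓ, a) = 0
          · unfold nodeW
            rw [hz, zero_mul, zero_mul, zero_mul]
            exact bot_le
          have hA : Adm1 Φ ℓ.2 a := (mem_of_vI hz).1
          have h1 := hE (ℓ, a) hA
          calc nodeW Φ ε T' b₁ Cr o (ℓ, a) * ∫⁻ q, φ q.1 ∂κ (f (ℓ, a))
              ≤ nodeW Φ ε T' b₁ Cr o (ℓ, a) * ((C * gE b₁ (f (ℓ, a)).2) * I) :=
                mul_le_mul_right (hκ.mass φ hφ _) _
            _ = (Cr * C * I) * (vI Φ ε T' (ℓ, a) * (ENNReal.ofReal ‖ℓ.2 - a.2.1‖ *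
                  (gE b₁ (f (ℓ, a)).2 * gE b₁ (o (ℓ, a)).2))) := by
                unfold nodeW
                ring
            _ ≤ (Cr * C * I) * (box1 T' a * (ENNReal.ofReal ‖ℓ.2 - a.2.1‖ *
                  (gE b₁ (f (ℓ, a)).2 * gE b₁ (o (ℓ, a)).2))) :=
                mul_le_mul_right (mul_le_mul_left (vI_le_box hε.le le_rfl ℓ a) _) _
            _ = _ := by
                rw [h1]
                ring
      _ = (Cr * C * gE b₁ ℓ.2 * I) * ∫⁻ a : NodeP,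
            (box1 T' a * (ENNReal.ofReal ‖ℓ.2 - a.2.1‖ * gE b₁ a.2.1)) :=
          lintegral_const_mul _ hbm
      _ ≤ (Cr * C * gE b₁ ℓ.2 * I) * (Cb * ENNReal.ofReal (1 + ‖ℓ.2‖)) :=
          mul_le_mul_right (hbox ℓ.2) _
      _ = (Cr * C * Cb * I) * (ENNReal.ofReal (1 + ‖ℓ.2‖) * gE b₁ ℓ.2) := by ring
      _ ≤ (Cr * C * Cb * I) * (C1 * gE b' ℓ.2) := mul_le_mul_right (hone ℓ.2) _
      _ = _ := by ring
  · intro x F hF ℓ
    have hFx : Measurable fun q : ℝ × Space3 => F (q.1, q.2 + x) := hF.comp (by fun_prop)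
    rw [lintegral_liftPos hΦ hf ho hCr hF (shx x ℓ), lintegral_liftPos hΦ hf ho hCr hFx ℓ]
    refine lintegral_congr fun a => ?_
    by_cases hz : vI Φ ε T' (ℓ, a) = 0
    · have hz' : vI Φ ε T' (shx x ℓ, a) = 0 := by rw [vI_sh]; exact hz
      simp only [nodeW, hz, hz', zero_mul]
    have hA : Adm1 Φ ℓ.2 a := (mem_of_vI hz).1
    rw [hfs x ℓ a hA, hκ.trans x F hF]
    unfold nodeW
    rw [hos x ℓ a hA, vI_sh]
    rfl
  · intro Z hZ ℓ
    have hS : MeasurableSet {q : ℝ × Space3 | q.2 = Z q.1} :=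
      measurableSet_eq_fun measurable_snd (hZ.comp measurable_fst)
    rw [← lintegral_indicator_one hS, lintegral_liftPos hΦ hf ho hCr
      (measurable_one.indicator hS) ℓ]
    refine (lintegral_congr fun a => ?_).trans lintegral_zero
    rw [lintegral_indicator_one hS, hκ.na Z hZ, mul_zero]

end lift

lemma box1_mono {T T' : ℝ} (h : T' ≤ T) (a : NodeP) : box1 T' a ≤ box1 T a := by
  unfold box1
  refine Set.indicator_le_indicator_of_subset ?_ (fun _ => bot_le) a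
  intro a ha
  exact ⟨⟨ha.1.1, ha.1.2.trans_le h⟩, ha.2⟩

/-- **Existence of the source kernel**, uniformly in `ε` and `T' ≤ T`. -/
theorem exists_pos (hΦ : AdmissiblePotential Φ) (T : ℝ) {P : CTree} (m : Mk P) :
    ∀ {b b' : ℝ}, 0 < b' → b' < b → ∃ C : ℝ≥0∞, C ≠ ∞ ∧ ∀ ε T' : ℝ, 0 < ε → T' ≤ T →
      ∃ κ, PosK Φ ε T' b b' C m κ := by
  induction m with
  | top l r =>
      intro b b' hb' hb
      exact posK_top hΦ hb' hb T l r
  | @inl l m r ih =>
      intro b b' hb' hb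
      set b₁ : ℝ := (b + b') / 2 with hb₁
      have h1 : b' < b₁ := by rw [hb₁]; linarith
      have h2 : b₁ < b := by rw [hb₁]; linarith
      obtain ⟨C, hC, H⟩ := ih (hb'.trans h1) h2
      obtain ⟨Cr, hCr, HI⟩ := I0 hΦ (hb'.trans h1) h2 r T
      obtain ⟨Cb, hCb, Hb⟩ := box_flux (hb'.trans h1) T
      obtain ⟨C1, hC1, H1⟩ := one_add_gE h1
      refine ⟨Cr * C * (Cb * C1), ENNReal.mul_ne_top (ENNReal.mul_ne_top hCr hC)
        (ENNReal.mul_ne_top hCb hC1), fun ε T' hε hT => ?_⟩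
      obtain ⟨κ, hκ⟩ := H ε T' hε hT
      refine ⟨_, posK_lift hΦ (m' := Mk.inl m r) hκ hε (measurable_inM hΦ ε).fst
        (measurable_inM hΦ ε).snd hCr ?_ ?_ ?_ (Cb := Cb) (C1 := C1) ?_ H1 ?_ h1.le⟩
      · intro z hz
        rw [inM_of_adm hz]
        exact gE_node hΦ hz rfl b₁
      · intro x ℓ a ha
        rw [inM_sh x ha]
      · intro x ℓ a ha
        rw [inM_sh x ha]
        rfl
      · intro v
        exact (lintegral_mono fun a => mul_le_mul_left (box1_mono hT a) _).trans (Hb v)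
      · intro F hF ℓ
        have hH : Measurable fun p : Par (node l r) => F (exM Φ ε (Mk.inl m r) (ℓ, p)) :=
          hF.comp ((measurable_exM hΦ ε (Mk.inl m r)).comp
            (measurable_const.prodMk measurable_id))
        rw [node_fix hΦ hε T' b l r ℓ hH]
        refine lintegral_mono fun a => ?_
        have hbr : Measurable fun pr : Par r =>
            br Φ ε T' b r (sinM Φ ε (ℓ, a)) ((inM Φ ε (ℓ, a)).2, pr) :=
          (measurable_br hΦ ε T' b r).comp (measurable_const.prodMk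
            (measurable_const.prodMk measurable_id))
        have i2 := lintegral_br_le (sinM Φ ε (ℓ, a)) (HI ε T' hε.le hT (inM Φ ε (ℓ, a)).2)
        have hm2 : Measurable fun pl : Par l => vw Φ ε l T' ((inM Φ ε (ℓ, a)).1, pl) *
            (gw b l ((inM Φ ε (ℓ, a)).1, pl) * F (exM Φ ε m ((inM Φ ε (ℓ, a)).1, pl))) := by
          have m0 : Measurable fun pl : Par l => ((inM Φ ε (ℓ, a)).1, pl) :=
            measurable_const.prodMk measurable_id
          exact ((measurable_vw hΦ ε l T').comp m0).mul (((measurable_gw b l).comp m0).mul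
            (hF.comp ((measurable_exM hΦ ε m).comp m0)))
        calc (vI Φ ε T' (ℓ, a) * ENNReal.ofReal ‖ℓ.2 - a.2.1‖) *
              ∫⁻ pl : Par l, br Φ ε T' b l (sinM Φ ε (ℓ, a)) ((inM Φ ε (ℓ, a)).1, pl) *
                ∫⁻ pr : Par r, br Φ ε T' b r (sinM Φ ε (ℓ, a)) ((inM Φ ε (ℓ, a)).2, pr) *
                  F (exM Φ ε (Mk.inl m r) (ℓ, ((a, (pl, pr)) : Par (node l r))))
            ≤ (vI Φ ε T' (ℓ, a) * ENNReal.ofReal ‖ℓ.2 - a.2.1‖) *
              ∫⁻ pl : Par l, (Cr * gE b₁ (inM Φ ε (ℓ, a)).2.2) *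
                (vw Φ ε l T' ((inM Φ ε (ℓ, a)).1, pl) * (gw b l ((inM Φ ε (ℓ, a)).1, pl) *
                  F (exM Φ ε m ((inM Φ ε (ℓ, a)).1, pl)))) := by
              refine mul_le_mul_right (lintegral_mono fun pl => ?_) _
              have e1 : ∫⁻ pr : Par r, br Φ ε T' b r (sinM Φ ε (ℓ, a)) ((inM Φ ε (ℓ, a)).2, pr) *
                  F (exM Φ ε (Mk.inl m r) (ℓ, ((a, (pl, pr)) : Par (node l r)))) =
                  (∫⁻ pr : Par r, br Φ ε T' b r (sinM Φ ε (ℓ, a)) ((inM Φ ε (ℓ, a)).2, pr)) *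
                  F (exM Φ ε m ((inM Φ ε (ℓ, a)).1, pl)) :=
                lintegral_mul_const (μ := (volume : Measure (Par r)))
                  (F (exM Φ ε m ((inM Φ ε (ℓ, a)).1, pl))) hbr
              simp only [e1]
              calc _ ≤ (vw Φ ε l T' ((inM Φ ε (ℓ, a)).1, pl) *
                    gw b l ((inM Φ ε (ℓ, a)).1, pl)) * ((Cr * gE b₁ (inM Φ ε (ℓ, a)).2.2) *
                    F (exM Φ ε m ((inM Φ ε (ℓ, a)).1, pl))) :=
                    mul_le_mul' (br_le _ _ _ _ _ _) (mul_le_mul_left i2 _)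
                _ = _ := by ring
          _ = nodeW Φ ε T' b₁ Cr (fun z => (inM Φ ε z).2) (ℓ, a) *
              ∫⁻ pl : Par l, vw Φ ε l T' ((inM Φ ε (ℓ, a)).1, pl) *
                (gw b l ((inM Φ ε (ℓ, a)).1, pl) *
                  F (exM Φ ε m ((inM Φ ε (ℓ, a)).1, pl))) := by
              have e2 : ∫⁻ pl : Par l, (Cr * gE b₁ (inM Φ ε (ℓ, a)).2.2) *
                (vw Φ ε l T' ((inM Φ ε (ℓ, a)).1, pl) * (gw b l ((inM Φ ε (ℓ, a)).1, pl) *
                  F (exM Φ ε m ((inM Φ ε (ℓ, a)).1, pl)))) =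
                (Cr * gE b₁ (inM Φ ε (ℓ, a)).2.2) * ∫⁻ pl : Par l,
                (vw Φ ε l T' ((inM Φ ε (ℓ, a)).1, pl) * (gw b l ((inM Φ ε (ℓ, a)).1, pl) *
                  F (exM Φ ε m ((inM Φ ε (ℓ, a)).1, pl)))) :=
                lintegral_const_mul (μ := (volume : Measure (Par l))) _ hm2
              rw [e2]
              unfold nodeW
              ring
          _ ≤ _ := mul_le_mul_right (hκ.dom F hF (inM Φ ε (ℓ, a)).1) _
  | @inr l r m ih =>
      intro b b' hb' hb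
      set b₁ : ℝ := (b + b') / 2 with hb₁
      have h1 : b' < b₁ := by rw [hb₁]; linarith
      have h2 : b₁ < b := by rw [hb₁]; linarith
      obtain ⟨C, hC, H⟩ := ih (hb'.trans h1) h2
      obtain ⟨Cr, hCr, HI⟩ := I0 hΦ (hb'.trans h1) h2 l T
      obtain ⟨Cb, hCb, Hb⟩ := box_flux (hb'.trans h1) T
      obtain ⟨C1, hC1, H1⟩ := one_add_gE h1
      refine ⟨Cr * C * (Cb * C1), ENNReal.mul_ne_top (ENNReal.mul_ne_top hCr hC)
        (ENNReal.mul_ne_top hCb hC1), fun ε T' hε hT => ?_⟩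
      obtain ⟨κ, hκ⟩ := H ε T' hε hT
      refine ⟨_, posK_lift hΦ (m' := Mk.inr l m) hκ hε (measurable_inM hΦ ε).snd
        (measurable_inM hΦ ε).fst hCr ?_ ?_ ?_ (Cb := Cb) (C1 := C1) ?_ H1 ?_ h1.le⟩
      · intro z hz
        rw [inM_of_adm hz, mul_comm]
        exact gE_node hΦ hz rfl b₁
      · intro x ℓ a ha
        rw [inM_sh x ha]
      · intro x ℓ a ha
        rw [inM_sh x ha]
        rfl
      · intro v
        exact (lintegral_mono fun a => mul_le_mul_left (box1_mono hT a) _).trans (Hb v)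
      · intro F hF ℓ
        have hH : Measurable fun p : Par (node l r) => F (exM Φ ε (Mk.inr l m) (ℓ, p)) :=
          hF.comp ((measurable_exM hΦ ε (Mk.inr l m)).comp
            (measurable_const.prodMk measurable_id))
        rw [node_fix hΦ hε T' b l r ℓ hH]
        refine lintegral_mono fun a => ?_
        have hbl : Measurable fun pl : Par l =>
            br Φ ε T' b l (sinM Φ ε (ℓ, a)) ((inM Φ ε (ℓ, a)).1, pl) :=
          (measurable_br hΦ ε T' b l).comp (measurable_const.prodMk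
            (measurable_const.prodMk measurable_id))
        have i2 := lintegral_br_le (sinM Φ ε (ℓ, a)) (HI ε T' hε.le hT (inM Φ ε (ℓ, a)).1)
        have hk : ∫⁻ pr : Par r, br Φ ε T' b r (sinM Φ ε (ℓ, a)) ((inM Φ ε (ℓ, a)).2, pr) *
              F (exM Φ ε m ((inM Φ ε (ℓ, a)).2, pr)) ≤
            ∫⁻ q, (∫⁻ w, gE b₁ w * F (q.1, (q.2, w))) ∂κ (inM Φ ε (ℓ, a)).2 := by
          refine (lintegral_mono fun pr => ?_).trans (hκ.dom F hF (inM Φ ε (ℓ, a)).2)
          rw [← mul_assoc]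
          exact mul_le_mul_left (br_le _ _ _ _ _ _) _
        calc (vI Φ ε T' (ℓ, a) * ENNReal.ofReal ‖ℓ.2 - a.2.1‖) *
              ∫⁻ pl : Par l, br Φ ε T' b l (sinM Φ ε (ℓ, a)) ((inM Φ ε (ℓ, a)).1, pl) *
                ∫⁻ pr : Par r, br Φ ε T' b r (sinM Φ ε (ℓ, a)) ((inM Φ ε (ℓ, a)).2, pr) *
                  F (exM Φ ε (Mk.inr l m) (ℓ, ((a, (pl, pr)) : Par (node l r))))
            ≤ (vI Φ ε T' (ℓ, a) * ENNReal.ofReal ‖ℓ.2 - a.2.1‖) *
              ∫⁻ pl : Par l, br Φ ε T' b l (sinM Φ ε (ℓ, a)) ((inM Φ ε (ℓ, a)).1, pl) *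
                ∫⁻ q, (∫⁻ w, gE b₁ w * F (q.1, (q.2, w))) ∂κ (inM Φ ε (ℓ, a)).2 := by
              refine mul_le_mul_right (lintegral_mono fun pl => mul_le_mul_right ?_ _) _
              exact hk
          _ = (vI Φ ε T' (ℓ, a) * ENNReal.ofReal ‖ℓ.2 - a.2.1‖) *
              ((∫⁻ pl : Par l, br Φ ε T' b l (sinM Φ ε (ℓ, a)) ((inM Φ ε (ℓ, a)).1, pl)) *
                ∫⁻ q, (∫⁻ w, gE b₁ w * F (q.1, (q.2, w))) ∂κ (inM Φ ε (ℓ, a)).2) := by
              congr 1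
              exact lintegral_mul_const (μ := (volume : Measure (Par l))) _ hbl
          _ ≤ (vI Φ ε T' (ℓ, a) * ENNReal.ofReal ‖ℓ.2 - a.2.1‖) *
              ((Cr * gE b₁ (inM Φ ε (ℓ, a)).1.2) *
                ∫⁻ q, (∫⁻ w, gE b₁ w * F (q.1, (q.2, w))) ∂κ (inM Φ ε (ℓ, a)).2) :=
              mul_le_mul_right (mul_le_mul_left i2 _) _
          _ = _ := by
              unfold nodeW
              ring

end Crest.Agent.R122.PairOff969

end
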