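import Crest.Agent.R122.PairOff2_969

/-!
Row 122, block H7, helper969: exits OFF the forward path of the first marked particle, part 3:
**from a source kernel to a pair law in the class**.

`offAbs` : base space `z ~ μ` with a first line `D z` and a fresh line `Λ z`, second line born at
`(t, x) ~ κ (Λ z)` with Gaussian velocity.
-/

set_option autoImplicit false
set_option synthInstance.maxSize 1024

open MeasureTheory ProbabilityTheory Set
open Crest.AnalysisR.Kinetic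
open Crest.Agent.R122.Boost969 Crest.Agent.R122.Kin416 Crest.Agent.R122.Pair292
open Crest.Agent.R122.CollLeg969 (EC WPack)
open Crest.Agent.R122.PairSrc969 Crest.Agent.R122.Omega969
open Crest.Agent.R122.Kin796 Crest.Agent.R122.Kin796.CTree Crest.Agent.R122.Tree674
open Crest.Agent.R122.Mark307 Crest.Agent.R122.TreeDom974 Crest.Agent.R122.Disc416
open Crest.Agent.R122.Scat818 Crest.Agent.R122.Flow671 Crest.Agent.R122.Flux663
open Crest.Agent.R122.EDefs602 (lineM markW)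
open scoped ENNReal

noncomputable section

namespace Crest.Agent.R122.PairOff969

variable {Φ : Space3 → ℝ}

/-- coordinates of a source: first line, time, mark, point -/
abbrev SQ : Type := ML × (ℝ × (ℕ × Space3))

/-- translation of a source -/
def shQ (x : Space3) (q : SQ) : SQ := (shM x q.1, (q.2.1, (q.2.2.1, q.2.2.2 + x)))

lemma measurable_shQ (x : Space3) : Measurable (shQ x) := by
  unfold shQ
  exact ((measurable_shM x).comp measurable_fst).prodMk (by fun_prop)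

section base

variable {Z : Type*} [MeasurableSpace Z]

/-- admissible pairs: births of both lines before `te`, source time `≥ 0` -/
def okS (te : ℝ) (D : Z → BLine) : Set (Z × (ℝ × Space3)) :=
  {p | (D p.1).1 ≤ te ∧ p.2.1 ≤ te ∧ 0 ≤ p.2.1}

/-- the base measure -/
def baseM (μ : Measure Z) (D : Z → BLine) (Λ : Z → PhasePoint) (hΛ : Measurable Λ)
    (κ : Kernel PhasePoint (ℝ × Space3)) (n n' : ℕ) (te : ℝ) : Measure SQ :=
  ((μ ⊗ₘ (κ.comap Λ hΛ)).restrict (okS te D)).map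
    (fun p => ((D p.1, n), (p.2.1, (n', p.2.2))))

variable {μ : Measure Z} [SFinite μ] {D : Z → BLine} {Λ : Z → PhasePoint} {hΛ : Measurable Λ}
  {κ : Kernel PhasePoint (ℝ × Space3)} [IsSFiniteKernel κ] {n n' : ℕ} {te : ℝ}

omit [SFinite μ] [IsSFiniteKernel κ] in
lemma measurableSet_okS (hD : Measurable D) : MeasurableSet (okS te D) := by
  have h1 : Measurable fun p : Z × (ℝ × Space3) => (D p.1).1 :=
    measurable_fst.comp (hD.comp measurable_fst)
  have h2 : Measurable fun p : Z × (ℝ × Space3) => p.2.1 := by fun_prop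
  exact (measurableSet_le h1 measurable_const).inter
    ((measurableSet_le h2 measurable_const).inter (measurableSet_le measurable_const h2))

instance : SFinite (baseM μ D Λ hΛ κ n n' te) := by
  unfold baseM
  infer_instance

omit [SFinite μ] [IsSFiniteKernel κ] in
lemma measurable_mapS (hD : Measurable D) : Measurable (fun p : Z × (ℝ × Space3) =>
    (((D p.1, n), (p.2.1, (n', p.2.2))) : SQ)) := by
  have h1 : Measurable fun p : Z × (ℝ × Space3) => D p.1 := hD.comp measurable_fst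
  exact (h1.prodMk measurable_const).prodMk (by fun_prop)

lemma lintegral_baseM (hD : Measurable D) {F : SQ → ℝ≥0∞} (hF : Measurable F) :
    ∫⁻ q, F q ∂baseM μ D Λ hΛ κ n n' te =
      ∫⁻ z, (∫⁻ q, (okS te D).indicator (1 : Z × (ℝ × Space3) → ℝ≥0∞) (z, q) *
        F ((D z, n), (q.1, (n', q.2))) ∂κ (Λ z)) ∂μ := by
  have hm := measurable_mapS (n := n) (n' := n') hD
  have hS := measurableSet_okS (te := te) hD
  unfold baseM
  rw [lintegral_map hF hm, ← lintegral_indicator hS]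
  have hi : Measurable ((okS te D).indicator fun p : Z × (ℝ × Space3) =>
      F ((D p.1, n), (p.2.1, (n', p.2.2)))) := (hF.comp hm).indicator hS
  rw [Measure.lintegral_compProd hi]
  refine lintegral_congr fun z => ?_
  rw [Kernel.comap_apply]
  refine lintegral_congr fun q => ?_
  by_cases h : ((z, q) : Z × (ℝ × Space3)) ∈ okS te D
  · rw [indicator_of_mem h, indicator_of_mem h, Pi.one_apply, one_mul]
  · rw [indicator_of_notMem h, indicator_of_notMem h, zero_mul]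

/-- covariant base -/
structure BaseCov (μ : Measure Z) (D : Z → BLine) (Λ : Z → PhasePoint) (sh : Space3 → Z → Z) :
    Prop where
  m : ∀ x, Measurable (sh x)
  inv : ∀ x, μ.map (sh x) = μ
  cov : ∀ x, ∀ᵐ z ∂μ, D (sh x z) = shL x (D z) ∧ Λ (sh x z) = shx x (Λ z)

lemma map_baseM (hD : Measurable D) {sh : Space3 → Z → Z} (hsh : BaseCov μ D Λ sh)
    (htr : ∀ (x : Space3) (F : ℝ × Space3 → ℝ≥0∞), Measurable F → ∀ ℓ : PhasePoint,
      ∫⁻ q, F q ∂κ (shx x ℓ) = ∫⁻ q, F (q.1, q.2 + x) ∂κ ℓ) (x : Space3) :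
    (baseM μ D Λ hΛ κ n n' te).map (shQ x) = baseM μ D Λ hΛ κ n n' te := by
  refine Measure.ext_of_lintegral _ fun F hF => ?_
  have hS := measurableSet_okS (te := te) hD
  have hm := measurable_mapS (n := n) (n' := n') hD
  have hi : Measurable fun p : Z × (ℝ × Space3) =>
      (okS te D).indicator (1 : Z × (ℝ × Space3) → ℝ≥0∞) p *
        F ((D p.1, n), (p.2.1, (n', p.2.2))) :=
    (measurable_one.indicator hS).mul (hF.comp hm)
  have hI : Measurable fun z : Z => ∫⁻ q, (okS te D).indicator (1 : Z × (ℝ × Space3) → ℝ≥0∞)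
      (z, q) * F ((D z, n), (q.1, (n', q.2))) ∂κ (Λ z) :=
    Measurable.lintegral_kernel_prod_right' (κ := κ.comap Λ hΛ) hi
  rw [lintegral_map hF (measurable_shQ x),
    lintegral_baseM hD (F := fun q => F (shQ x q)) (hF.comp (measurable_shQ x)),
    lintegral_baseM hD hF]
  conv_rhs => rw [← hsh.inv x]
  rw [lintegral_map hI (hsh.m x)]
  refine lintegral_congr_ae ?_
  filter_upwards [hsh.cov x] with z hz
  have hFz : Measurable fun q : ℝ × Space3 => (okS te D).indicator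
      (1 : Z × (ℝ × Space3) → ℝ≥0∞) (sh x z, q) * F ((D (sh x z), n), (q.1, (n', q.2))) :=
    hi.comp (measurable_const.prodMk measurable_id)
  rw [hz.2, htr x _ hFz]
  refine lintegral_congr fun q => ?_
  have h1 : (okS te D).indicator (1 : Z × (ℝ × Space3) → ℝ≥0∞) (sh x z, (q.1, q.2 + x)) =
      (okS te D).indicator (1 : Z × (ℝ × Space3) → ℝ≥0∞) (z, q) := by
    have h2 : ((sh x z, (q.1, q.2 + x)) : Z × (ℝ × Space3)) ∈ okS te D ↔
        ((z, q) : Z × (ℝ × Space3)) ∈ okS te D := by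
      have h3 : (D (sh x z)).1 = (D z).1 := by rw [hz.1]; rfl
      unfold okS
      simp only [mem_ofPred_eq, h3]
    by_cases h : ((z, q) : Z × (ℝ × Space3)) ∈ okS te D
    · rw [indicator_of_mem h, indicator_of_mem (h2.2 h)]
      rfl
    · rw [indicator_of_notMem h, indicator_of_notMem (fun h' => h (h2.1 h'))]
  rw [h1, hz.1]
  rfl

/-- indicator of non negative times -/
def posA (q : SQ) : ℝ≥0∞ := {q : SQ | 0 ≤ q.2.1}.indicator 1 q

omit [SFinite μ] [IsSFiniteKernel κ] in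
lemma measurable_posA : Measurable posA :=
  measurable_one.indicator (measurableSet_le measurable_const (by fun_prop))

/-- the pair law of a source -/
def offN (μ : Measure Z) (D : Z → BLine) (Λ : Z → PhasePoint) (hΛ : Measurable Λ)
    (κ : Kernel PhasePoint (ℝ × Space3)) (n n' : ℕ) (te b : ℝ) : Measure (Lab × LSt) :=
  srcN (baseM μ D Λ hΛ κ n n' te) (fun q : SQ => q.1) (fun q : SQ => q.2.1)
    (fun q : SQ => q.2.2.1) (fun q : SQ => q.2.2.2) (fun p : SQ × Space3 => posA p.1 * gau b p.2)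

lemma measurable_offG (b : ℝ) : Measurable (fun p : SQ × Space3 => posA p.1 * gau b p.2) :=
  (measurable_posA.comp measurable_fst).mul ((measurable_gau _).comp measurable_snd)

lemma lintegral_offN (hD : Measurable D) {b : ℝ} {F : Lab × LSt → ℝ≥0∞} (hF : Measurable F) :
    ∫⁻ p, F p ∂offN μ D Λ hΛ κ n n' te b =
      ∫⁻ z, (∫⁻ q, (okS te D).indicator (1 : Z × (ℝ × Space3) → ℝ≥0∞) (z, q) *
        (∫⁻ v, gE b v * F (((D z, n), (q.1, n')), (q.1, (q.2, v)))) ∂κ (Λ z)) ∂μ := by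
  have hFm : Measurable fun p : SQ × Space3 => (posA p.1 * gau b p.2) *
      F ((p.1.1, (p.1.2.1, p.1.2.2.1)), (p.1.2.1, (p.1.2.2.2, p.2))) :=
    (measurable_offG b).mul (hF.comp (by fun_prop))
  have hI : Measurable fun q : SQ => ∫⁻ v, (posA q * gau b v) *
      F ((q.1, (q.2.1, q.2.2.1)), (q.2.1, (q.2.2.2, v))) := hFm.lintegral_prod_right'
  unfold offN
  rw [lintegral_srcN measurable_fst (by fun_prop) (by fun_prop) (by fun_prop)
    (measurable_offG b) hF]
  refine (lintegral_baseM hD hI).trans ?_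
  refine lintegral_congr fun z => lintegral_congr fun q => ?_
  by_cases h : ((z, q) : Z × (ℝ × Space3)) ∈ okS te D
  · congr 1
    refine lintegral_congr fun v => ?_
    have h1 : posA ((D z, n), (q.1, (n', q.2))) = 1 := by
      unfold posA
      rw [indicator_of_mem (show ((D z, n), (q.1, (n', q.2))) ∈ {q : SQ | 0 ≤ q.2.1} from h.2.2)]
      rfl
    simp only
    rw [h1, one_mul]
    rfl
  · rw [indicator_of_notMem h, zero_mul, zero_mul]

/-! ### The marginal bound -/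

lemma ae_birth_ne (te : ℝ) : ∀ᵐ d : BLine, d.1 ≠ te := by
  have h1 : ∀ᵐ t : ℝ, t ≠ te := Measure.ae_ne volume te
  have h2 : Measure.QuasiMeasurePreserving (Prod.fst : ℝ × PhasePoint → ℝ)
      (volume : Measure (ℝ × PhasePoint)) volume := by
    rw [Measure.volume_eq_prod]
    exact Measure.quasiMeasurePreserving_fst
  exact h2.ae h1

lemma offAbs_marg {B : BPar} (hB : B.Ok) {K : ℕ} {Pp : PPar} (hP : IsPP B te K Pp)
    (hD : Measurable D) {T' b' : ℝ} {C C₁ : ℝ≥0∞} (hte1 : te ≤ T') (hT : T' ≤ B.T)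
    (hmass : ∀ φ : ℝ → ℝ≥0∞, Measurable φ → ∀ ℓ : PhasePoint,
      ∫⁻ q, φ q.1 ∂κ ℓ ≤ (C * gE b' ℓ.2) * ∫⁻ s in Ioo 0 T', φ s)
    (hcr : ∀ φ : BLine → ℝ≥0∞, Measurable φ → ∫⁻ z, gE b' (Λ z).2 * φ (D z) ∂μ ≤
      C₁ * ∫⁻ d : BLine, (Ioo 0 T').indicator 1 d.1 * gE B.bs d.2.2 * φ d)
    {N : ℕ} (hn : 1 ≤ n) (hnK : n ≤ K) (hnN : n ≤ N)
    {F : ML × ℝ → ℝ≥0∞} (hF : Measurable F) :
    ∫⁻ q : SQ, F (q.1, q.2.1) * (Pp.lam₁ ^ q.2.2.1 * posA q)
        ∂baseM μ D Λ hΛ κ n n' te ≤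
      (B.lam₁ ^ n' * (C * C₁) * (B.ρ ^ N)⁻¹) * Pp.rhs F := by
  obtain ⟨T, b₀, bs, η, lam, A, W, lam₁, γ, ρ⟩ := B
  simp only at *
  rw [hP.l]
  have hlm : Measurable (fun n : ℕ => lam₁ ^ n) := Measurable.of_discrete
  have hm1 : Measurable fun q : SQ => F (q.1, q.2.1) * (lam₁ ^ q.2.2.1 * posA q) :=
    (hF.comp (by fun_prop)).mul ((hlm.comp (by fun_prop)).mul measurable_posA)
  rw [lintegral_baseM hD hm1]
  -- the inner integral
  set φ : BLine → ℝ≥0∞ := fun d => {d : BLine | d.1 ≤ te}.indicator 1 d *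
    ∫⁻ s in Icc 0 te, F ((d, n), s) with hφ
  have hset : MeasurableSet {d : BLine | d.1 ≤ te} := measurableSet_le (by fun_prop) measurable_const
  have hFI : Measurable fun l : ML => ∫⁻ s in Icc 0 te, F (l, s) := hF.lintegral_prod_right'
  have hφm : Measurable φ := (measurable_one.indicator hset).mul
    (hFI.comp (measurable_id.prodMk measurable_const))
  have h1 : ∀ z, ∫⁻ q, (okS te D).indicator (1 : Z × (ℝ × Space3) → ℝ≥0∞) (z, q) *
      (F (((D z, n), (q.1, (n', q.2))).1, ((D z, n), (q.1, (n', q.2))).2.1) *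
        (lam₁ ^ ((((D z, n), (q.1, (n', q.2))) : SQ)).2.2.1 *
          posA ((D z, n), (q.1, (n', q.2))))) ∂κ (Λ z) ≤
      (lam₁ ^ n' * C) * (gE b' (Λ z).2 * φ (D z)) := by
    intro z
    have hmz : Measurable fun s : ℝ => (Icc 0 te).indicator (fun s => F ((D z, n), s)) s :=
      (hF.comp (measurable_const.prodMk measurable_id)).indicator measurableSet_Icc
    have h2 : ∀ q : ℝ × Space3, (okS te D).indicator (1 : Z × (ℝ × Space3) → ℝ≥0∞) (z, q) *
      (F (((D z, n), (q.1, (n', q.2))).1, ((D z, n), (q.1, (n', q.2))).2.1) *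
        (lam₁ ^ ((((D z, n), (q.1, (n', q.2))) : SQ)).2.2.1 *
          posA ((D z, n), (q.1, (n', q.2))))) ≤
        ({d : BLine | d.1 ≤ te}.indicator 1 (D z) * lam₁ ^ n') *
          (Icc 0 te).indicator (fun s => F ((D z, n), s)) q.1 := by
      intro q
      by_cases h : ((z, q) : Z × (ℝ × Space3)) ∈ okS te D
      · have h3 : posA ((D z, n), (q.1, (n', q.2))) ≤ 1 :=
          Set.indicator_le_self' (fun _ _ => zero_le_one) _
        rw [indicator_of_mem h, Pi.one_apply, one_mul,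
          indicator_of_mem (show D z ∈ {d : BLine | d.1 ≤ te} from h.1), Pi.one_apply, one_mul,
          indicator_of_mem (show q.1 ∈ Icc 0 te from ⟨h.2.2, h.2.1⟩)]
        calc F ((D z, n), q.1) * (lam₁ ^ n' * posA ((D z, n), (q.1, (n', q.2))))
            ≤ F ((D z, n), q.1) * (lam₁ ^ n' * 1) :=
              mul_le_mul_right (mul_le_mul_right h3 _) _
          _ = _ := by ring
      · rw [indicator_of_notMem h, zero_mul]
        exact bot_le
    refine (lintegral_mono h2).trans ?_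
    have hmq : Measurable fun q : ℝ × Space3 => (Icc 0 te).indicator (fun s => F ((D z, n), s)) q.1 :=
      hmz.comp measurable_fst
    rw [lintegral_const_mul _ hmq]
    have h4 := hmass _ hmz (Λ z)
    have h5 : ∫⁻ s in Ioo 0 T', (Icc 0 te).indicator (fun s => F ((D z, n), s)) s ≤
        ∫⁻ s in Icc 0 te, F ((D z, n), s) := by
      rw [← lintegral_indicator measurableSet_Icc]
      exact lintegral_mono' Measure.restrict_le_self le_rfl
    calc ({d : BLine | d.1 ≤ te}.indicator 1 (D z) * lam₁ ^ n') *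
          ∫⁻ q, (Icc 0 te).indicator (fun s => F ((D z, n), s)) q.1 ∂κ (Λ z)
        ≤ ({d : BLine | d.1 ≤ te}.indicator 1 (D z) * lam₁ ^ n') *
          ((C * gE b' (Λ z).2) * ∫⁻ s in Icc 0 te, F ((D z, n), s)) :=
          mul_le_mul_right (h4.trans (mul_le_mul_right h5 _)) _
      _ = _ := by rw [hφ]; ring
  have hgm : Measurable fun z => gE b' (Λ z).2 * φ (D z) :=
    ((measurable_gE b').comp (measurable_snd.comp hΛ)).mul (hφm.comp hD)
  refine (lintegral_mono h1).trans ?_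
  rw [lintegral_const_mul _ hgm]
  refine (mul_le_mul_right (hcr φ hφm) _).trans ?_
  -- the line measure
  have h6 : ∫⁻ d : BLine, (Ioo 0 T').indicator 1 d.1 * gE bs d.2.2 * φ d ≤
      ∫⁻ d : BLine, (Ioo 0 te).indicator 1 d.1 * gE bs d.2.2 *
        ∫⁻ s in Icc 0 te, F ((d, n), s) := by
    refine lintegral_mono_ae ?_
    filter_upwards [ae_birth_ne te] with d hd
    by_cases h7 : d.1 ∈ Ioo 0 T'
    · by_cases h8 : d.1 ≤ te
      · rw [hφ]
        simp only
        rw [indicator_of_mem (show d ∈ {d : BLine | d.1 ≤ te} from h8),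
          indicator_of_mem (show d.1 ∈ Ioo 0 te from ⟨h7.1, lt_of_le_of_ne h8 hd⟩),
          indicator_of_mem h7]
        simp only [Pi.one_apply, one_mul, le_refl]
      · rw [hφ]
        simp only
        rw [indicator_of_notMem (show d ∉ {d : BLine | d.1 ≤ te} from h8), zero_mul, mul_zero]
        exact bot_le
    · rw [indicator_of_notMem h7, zero_mul, zero_mul]
      exact bot_le
  have hρt : ρ ≠ ∞ := (hB.ρ1.trans_lt ENNReal.one_lt_top).ne
  have hp0 : ρ ^ N ≠ 0 := pow_ne_zero _ hB.ρ0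
  have hpt : ρ ^ N ≠ ∞ := ENNReal.pow_ne_top hρt
  have h9 := lineM_ge (γ := γ) hB.γm hB.ρ1 (K := K) (N := N) hn hnK hnN
    (T := te) (b' := bs) (fun τ hτ => hB.γs τ ⟨hτ.1, hτ.2.trans (hte1.trans hT)⟩) hFI
  have h10 : ∫⁻ d : BLine, (Ioo 0 te).indicator 1 d.1 * gE bs d.2.2 *
        ∫⁻ s in Icc 0 te, F ((d, n), s) ≤
      (ρ ^ N)⁻¹ * ∫⁻ l, (∫⁻ s in Icc 0 te, F (l, s)) ∂lineM γ ρ K te := by
    rw [← ENNReal.mul_le_iff_le_inv hp0 hpt]
    exact h9
  have h11 : ∫⁻ l, (∫⁻ s in Icc 0 te, F (l, s)) ∂lineM γ ρ K te ≤ Pp.rhs F := by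
    unfold PPar.rhs
    rw [hP.ell, hP.hor]
    exact le_add_self
  calc lam₁ ^ n' * C * (C₁ * ∫⁻ d : BLine, (Ioo 0 T').indicator 1 d.1 * gE bs d.2.2 * φ d)
      ≤ lam₁ ^ n' * C * (C₁ * ((ρ ^ N)⁻¹ * Pp.rhs F)) :=
        mul_le_mul_right (mul_le_mul_right (h6.trans (h10.trans (mul_le_mul_right h11 _))) _) _
    _ = _ := by ring

/-! ### The a.e. facts -/

lemma ae_offN (hD : Measurable D) {b : ℝ} {p : Lab × LSt → Prop}
    (hp : MeasurableSet {θ | p θ}) (h : ∀ z : Z, κ (Λ z) {q : ℝ × Space3 |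
      (okS te D).indicator (1 : Z × (ℝ × Space3) → ℝ≥0∞) (z, q) ≠ 0 ∧
      ¬ ∀ v, p (((D z, n), (q.1, n')), (q.1, (q.2, v)))} = 0) :
    ∀ᵐ θ ∂offN μ D Λ hΛ κ n n' te b, p θ := by
  have hS : MeasurableSet {θ : Lab × LSt | ¬ p θ} := hp.compl
  rw [ae_iff, ← lintegral_indicator_one hS, lintegral_offN hD (measurable_one.indicator hS)]
  refine (lintegral_congr fun z => ?_).trans lintegral_zero
  refine (lintegral_congr_ae ?_).trans lintegral_zero
  have h1 : ∀ᵐ q ∂κ (Λ z), ¬ ((okS te D).indicator (1 : Z × (ℝ × Space3) → ℝ≥0∞) (z, q) ≠ 0 ∧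
      ¬ ∀ v, p (((D z, n), (q.1, n')), (q.1, (q.2, v)))) := by
    rw [ae_iff]
    simpa only [not_not] using h z
  filter_upwards [h1] with q hq
  by_cases h2 : (okS te D).indicator (1 : Z × (ℝ × Space3) → ℝ≥0∞) (z, q) = 0
  · rw [h2, zero_mul]
  · have h3 : ∀ v, p (((D z, n), (q.1, n')), (q.1, (q.2, v))) := by
      by_contra hc
      exact hq ⟨h2, hc⟩
    have h4 : ∀ v, gE b v * {θ : Lab × LSt | ¬ p θ}.indicator (1 : Lab × LSt → ℝ≥0∞)
        (((D z, n), (q.1, n')), (q.1, (q.2, v))) = 0 := by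
      intro v
      rw [indicator_of_notMem (show (((D z, n), (q.1, n')), (q.1, (q.2, v))) ∉
        {θ : Lab × LSt | ¬ p θ} from fun h => h (h3 v)), mul_zero]
    simp only [h4, lintegral_zero, mul_zero]

theorem aux_offN (hD : Measurable D) {b ε T' b' : ℝ} {C : ℝ≥0∞}
    (hmass : ∀ φ : ℝ → ℝ≥0∞, Measurable φ → ∀ ℓ : PhasePoint,
      ∫⁻ q, φ q.1 ∂κ ℓ ≤ (C * gE b' ℓ.2) * ∫⁻ s in Ioo 0 T', φ s)
    (hna : ∀ Z : ℝ → Space3, Measurable Z → ∀ ℓ : PhasePoint, κ ℓ {q | q.2 = Z q.1} = 0) :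
    Aux ε (offN μ D Λ hΛ κ n n' te b) := by
  refine ⟨?_, fun Y hY => ?_, ?_⟩
  · have hS : MeasurableSet {θ : Lab × LSt | 0 ≤ θ.1.2.1 ∧ θ.1.2.1 ≤ θ.2.1} :=
      (measurableSet_le measurable_const (measurable_sig.comp measurable_fst)).inter
        (measurableSet_le (measurable_sig.comp measurable_fst)
          (measurable_fst.comp measurable_snd))
    refine ae_offN hD hS fun z => ?_
    refine measure_mono_null (t := ∅) ?_ measure_empty
    rintro q ⟨h1, h2⟩
    have h3 : ((z, q) : Z × (ℝ × Space3)) ∈ okS te D := by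
      by_contra hc
      exact h1 (indicator_of_notMem hc _)
    exact h2 fun v => ⟨h3.2.2, le_rfl⟩
  · have m1 : Measurable fun θ : Lab × LSt => Y (θ.1.1, sig θ.1) :=
      hY.comp ((measurable_fst.comp measurable_fst).prodMk (measurable_sig.comp measurable_fst))
    have m2 : Measurable fun θ : Lab × LSt => θ.2.2.1 := by fun_prop
    have hS : MeasurableSet {θ : Lab × LSt | θ.2.2.1 ≠ Y (θ.1.1, sig θ.1)} :=
      (measurableSet_eq_fun m2 m1).compl
    have h := ae_offN (μ := μ) (D := D) (Λ := Λ) (hΛ := hΛ) (κ := κ) (n := n) (n' := n')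
      (te := te) (b := b) (p := fun θ => θ.2.2.1 ≠ Y (θ.1.1, sig θ.1)) hD hS fun z => ?_
    · filter_upwards [h] with θ hθ _ _
      exact hθ
    · refine measure_mono_null ?_ (hna (fun s => Y ((D z, n), s))
        (hY.comp (measurable_const.prodMk measurable_id)) (Λ z))
      rintro q ⟨-, h2⟩
      by_contra hc
      exact h2 fun v => hc
  · have m1 : Measurable fun θ : Lab × LSt => θ.1.1.1.1 := by fun_prop
    have m2 : Measurable fun θ : Lab × LSt => θ.2.1 := by fun_prop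
    have hS : MeasurableSet {θ : Lab × LSt | θ.1.1.1.1 ≠ θ.2.1} :=
      (measurableSet_eq_fun m1 m2).compl
    have h := ae_offN (μ := μ) (D := D) (Λ := Λ) (hΛ := hΛ) (κ := κ) (n := n) (n' := n')
      (te := te) (b := b) (p := fun θ => θ.1.1.1.1 ≠ θ.2.1) hD hS fun z => ?_
    · filter_upwards [h] with θ hθ hc
      exact absurd hc hθ
    · have h3 : κ (Λ z) {q : ℝ × Space3 | q.1 = (D z).1} = 0 := by
        have hm : MeasurableSet {s : ℝ | s = (D z).1} := measurableSet_singleton _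
        have h4 := hmass ({s : ℝ | s = (D z).1}.indicator 1) (measurable_one.indicator hm) (Λ z)
        have h5 : ∫⁻ s in Ioo 0 T', ({s : ℝ | s = (D z).1}.indicator (1 : ℝ → ℝ≥0∞)) s = 0 := by
          rw [lintegral_indicator_one hm]
          have h6 : (volume : Measure ℝ) {s : ℝ | s = (D z).1} = 0 := by simp
          exact measure_mono_null (le_refl _)
            (Measure.absolutelyContinuous_of_le Measure.restrict_le_self h6)
        rw [h5, mul_zero] at h4
        have hm2 : MeasurableSet {q : ℝ × Space3 | q.1 = (D z).1} := measurable_fst hm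
        rw [← lintegral_indicator_one hm2]
        refine le_antisymm ?_ bot_le
        refine le_trans (le_of_eq ?_) h4
        rfl
      refine measure_mono_null ?_ h3
      rintro q ⟨-, h2⟩
      by_contra hc
      exact h2 fun v => fun h7 => hc h7.symm

/-! ### The class -/

/-- constant of a source law -/
def cstO (b' η : ℝ) (lam₁ ρ C C₁ A : ℝ≥0∞) (n' N : ℕ) : ℝ≥0∞ :=
  (lam₁ ^ n' * (C * C₁) * (ρ ^ N)⁻¹) *
    (cB * ENNReal.ofReal (Real.exp b') * (A * ∫⁻ v, gau (b' / 2 - η) v))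

lemma cstO_ne_top {B : BPar} (hB : B.Ok) {b' : ℝ} (hb' : B.bs ≤ b')
    {C C₁ : ℝ≥0∞} (hCt : C ≠ ∞) (hC₁ : C₁ ≠ ∞) (n' N : ℕ) :
    cstO b' B.η B.lam₁ B.ρ C C₁ B.A n' N ≠ ∞ := by
  unfold cstO
  have h1 : (B.ρ ^ N)⁻¹ ≠ ∞ := ENNReal.inv_ne_top.2 (pow_ne_zero _ hB.ρ0)
  have h2 : ∫⁻ v, gau (b' / 2 - B.η) v ≠ ∞ :=
    lintegral_gE_ne_top (b := b' / 2 - B.η) (by have := hB.ηs; linarith)
  exact ENNReal.mul_ne_top (ENNReal.mul_ne_top (ENNReal.mul_ne_top (ENNReal.pow_ne_top hB.lt)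
    (ENNReal.mul_ne_top hCt hC₁)) h1) (ENNReal.mul_ne_top (ENNReal.mul_ne_top cB_ne_top
      ENNReal.ofReal_ne_top) (ENNReal.mul_ne_top hB.wp.Atop h2))

theorem px_offN {B : BPar} (hB : B.Ok) {K : ℕ} {Pp : PPar} (hP : IsPP B te K Pp)
    (hD : Measurable D) {sh : Space3 → Z → Z} (hsh : BaseCov μ D Λ sh)
    {T' b' : ℝ} (hb' : B.bs ≤ b') {C C₁ : ℝ≥0∞} (hte1 : te ≤ T') (hT : T' ≤ B.T)
    (hmass : ∀ φ : ℝ → ℝ≥0∞, Measurable φ → ∀ ℓ : PhasePoint,
      ∫⁻ q, φ q.1 ∂κ ℓ ≤ (C * gE b' ℓ.2) * ∫⁻ s in Ioo 0 T', φ s)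
    (htr : ∀ (x : Space3) (F : ℝ × Space3 → ℝ≥0∞), Measurable F → ∀ ℓ : PhasePoint,
      ∫⁻ q, F q ∂κ (shx x ℓ) = ∫⁻ q, F (q.1, q.2 + x) ∂κ ℓ)
    (hcr : ∀ φ : BLine → ℝ≥0∞, Measurable φ → ∫⁻ z, gE b' (Λ z).2 * φ (D z) ∂μ ≤
      C₁ * ∫⁻ d : BLine, (Ioo 0 T').indicator 1 d.1 * gE B.bs d.2.2 * φ d)
    {N : ℕ} (hn : 1 ≤ n) (hnK : n ≤ K) (hnN : n ≤ N) :
    ∃ Ξ, PX Pp Ξ (offN μ D Λ hΛ κ n n' te b') (cstO b' B.η B.lam₁ B.ρ C C₁ B.A n' N) := by
  have hb0 : 0 ≤ b' := hB.bs0.le.trans hb'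
  refine ⟨_, PX.src hB.wp hP.w measurable_fst (by fun_prop) (by fun_prop) (by fun_prop)
    (measurable_offG b') measurable_posA hb0 (fun q v => le_rfl) ?_ shQ measurable_shQ
    (map_baseM hD hsh htr) (fun a q => rfl) (fun a q => rfl) (fun a q => rfl) (fun a q => rfl)
    (fun a q v => rfl) ?_⟩
  · intro q hq
    by_contra hc
    exact hq (indicator_of_notMem (show q ∉ {q : SQ | 0 ≤ q.2.1} from hc) _)
  · intro F hF
    exact offAbs_marg hB hP hD hte1 hT hmass hcr hn hnK hnN hF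

theorem offDom (hD : Measurable D) {T' b' : ℝ} {C : ℝ≥0∞}
    (hmass : ∀ φ : ℝ → ℝ≥0∞, Measurable φ → ∀ ℓ : PhasePoint,
      ∫⁻ q, φ q.1 ∂κ ℓ ≤ (C * gE b' ℓ.2) * ∫⁻ s in Ioo 0 T', φ s)
    {F : Lab × LSt → ℝ≥0∞} (hF : Measurable F)
    (hF0 : ∀ q : Lab × LSt, ¬ (q.1.1.1.1 ≤ te ∧ q.2.1 ≤ te) → F q = 0) :
    ∫⁻ z, (∫⁻ q, (∫⁻ w, gE b' w * F (((D z, n), (q.1, n')), (q.1, (q.2, w)))) ∂κ (Λ z)) ∂μ ≤
      ∫⁻ θ, F θ ∂offN μ D Λ hΛ κ n n' te b' := by
  rw [lintegral_offN hD hF]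
  refine lintegral_mono fun z => lintegral_mono_ae ?_
  have hpos : ∀ᵐ q ∂κ (Λ z), 0 ≤ q.1 := by
    have hm : MeasurableSet {s : ℝ | ¬ 0 ≤ s} := (measurableSet_le measurable_const measurable_id).compl
    have h4 := hmass ({s : ℝ | ¬ 0 ≤ s}.indicator 1) (measurable_one.indicator hm) (Λ z)
    have h5 : ∫⁻ s in Ioo 0 T', ({s : ℝ | ¬ 0 ≤ s}.indicator (1 : ℝ → ℝ≥0∞)) s = 0 := by
      refine (setLIntegral_congr_fun measurableSet_Ioo (g := fun _ => 0) fun s hs => ?_).trans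
        lintegral_zero
      exact indicator_of_notMem (show s ∉ {s : ℝ | ¬ 0 ≤ s} from fun h => h hs.1.le) _
    rw [h5, mul_zero] at h4
    have hm2 : MeasurableSet {q : ℝ × Space3 | ¬ 0 ≤ q.1} := measurable_fst hm
    rw [ae_iff, ← lintegral_indicator_one hm2]
    exact le_antisymm h4 bot_le
  filter_upwards [hpos] with q hq
  by_cases h : (D z).1 ≤ te ∧ q.1 ≤ te
  · rw [indicator_of_mem (show ((z, q) : Z × (ℝ × Space3)) ∈ okS te D from ⟨h.1, h.2, hq⟩),
      Pi.one_apply, one_mul]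
  · have h0 : ∀ w, F (((D z, n), (q.1, n')), (q.1, (q.2, w))) = 0 := fun w => hF0 _ h
    simp only [h0, mul_zero, lintegral_zero]
    exact bot_le

end base

end Crest.Agent.R122.PairOff969

end
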