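import Mathlib
import Crest.Agent.R122.BirthsEvo_45
import Crest.Agent.R122.PairDefs_292
import Crest.Agent.R122.UnwE_410
import Crest.Agent.R122.MWFam_255

/-!
# Row 122 (helper735), good worlds with two lines: the deterministic part

* `bworld_append` : a world with births plus one more particle born last, not on top of anybody.
* `ins_bw`, `path_ins_inl`, `path_ins_inr` : `Z.ins l`, if `l` is born last.
* `birthSep_pair` : two particles born at the same instant at distance `≥ ε`, moving apart.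
* `okW_of` : the worlds `w + d`, `w + d + e` are good.
-/

set_option autoImplicit false
set_option linter.unusedSectionVars false

open MeasureTheory Set Filter Topology
open scoped ENNReal
open Crest.AnalysisR.Kinetic
open Crest.Agent.R122.Flow671 Crest.Agent.R122.Loc45 Crest.Agent.R122.Causal291
open Crest.Agent.R122.Ins45
open Crest.Agent.R122.Inf879 Crest.Agent.R122.GC311
open Crest.Agent.R122.EDefs602
open Crest.Agent.R122.Unw410
open Crest.Agent.R122.Boost969 (LSt)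
open Crest.Agent.R122.Pair292 (Lab sig)
open Crest.Agent.R122.PairD292

noncomputable section

namespace Crest.Agent.R122.PairOk735

variable {ι : Type} [Fintype ι] {Φ : Space3 → ℝ} {ε : ℝ}

/-- free line which is at `z` at time `τ` -/
def fline (τ : ℝ) (z : PhasePoint) (t : ℝ) : PhasePoint := (z.1 + (t - τ) • z.2, z.2)

theorem fline_self (τ : ℝ) (z : PhasePoint) : fline τ z τ = z := by
  unfold fline; simp

theorem hasDerivAt_fline (τ : ℝ) (z : PhasePoint) (t : ℝ) :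
    HasDerivAt (fline τ z) (z.2, 0) t := by
  unfold fline
  have h1 : HasDerivAt (fun t : ℝ => (t - τ) • z.2) z.2 t := by
    have := ((hasDerivAt_id t).sub_const τ).smul_const z.2
    simpa using this
  exact (h1.const_add z.1).prodMk (hasDerivAt_const t z.2)

theorem fline_zero (l : LSt) : fline l.1 l.2 0 = back l := by
  unfold fline back
  refine Prod.ext ?_ rfl
  simp only [zero_sub, neg_smul]
  abel

/-- A world with births plus one particle, born last and not on top of anybody. -/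
theorem bworld_append (hΦ : AdmissiblePotential Φ) (hε : 0 < ε) {b : ι → ℝ} {s τ : ℝ}
    (hsτ : s ≤ τ) {X : ℝ → ι → PhasePoint} (hX : BWorld Φ ε b s X) (hb : ∀ i, b i ≤ τ)
    {z : PhasePoint} (hne : ContDiff ℝ 2 Φ ∨ ∀ i, (X τ i).1 ≠ z.1) :
    ∃ Y : ℝ → ι ⊕ Unit → PhasePoint, BWorld Φ ε (Sum.elim b fun _ => τ) s Y ∧
      ∀ t ∈ Icc s τ, Y t = Sum.elim (X t) fun _ => fline τ z t := by
  set b' : ι ⊕ Unit → ℝ := Sum.elim b fun _ => τ with hb'
  set W₀ : ι ⊕ Unit → PhasePoint := Sum.elim (X τ) fun _ => z with hW₀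
  have hbi : ∀ i, b' (Sum.inl i) = b i := fun _ => rfl
  have hbx : ∀ x, b' (Sum.inr x) = τ := fun _ => rfl
  have hD : BDom Φ b' τ W₀ := by
    rcases hX.dom τ hsτ with h | h
    · exact Or.inl h
    rcases hne with h' | h'
    · exact Or.inl h'
    refine Or.inr ?_
    rintro (i | x) (j | y) hij _ _
    · exact h i j (fun h => hij (congrArg _ h)) (hb i) (hb j)
    · exact h' i
    · exact (h' j).symm
    · exact absurd rfl hij
  have hbτ : ∀ k, b' k ≤ τ := by
    rintro (i | x)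
    · exact hb i
    · exact le_rfl
  have h₂ : BWorld Φ ε b' τ fun t => evo Φ ε b' τ t W₀ :=
    bworld_evo hΦ hε hD fun i hi => absurd (hbτ i) (not_le.2 hi)
  set Y : ℝ → ι ⊕ Unit → PhasePoint := fun t =>
    if t < τ then Sum.elim (X t) (fun _ => fline τ z t) else evo Φ ε b' τ t W₀ with hY
  have hY₁ : ∀ t ≤ τ, Y t = Sum.elim (X t) fun _ => fline τ z t := by
    intro t ht
    rcases ht.lt_or_eq with h | h
    · simp only [hY, if_pos h]
    · subst h
      simp only [hY, lt_irrefl, if_false]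
      rw [evo_self hΦ hε, fline_self]
  have hY₂ : ∀ t, τ ≤ t → Y t = evo Φ ε b' τ t W₀ := fun t ht => by
    simp only [hY, if_neg (not_lt.2 ht)]
  refine ⟨Y, ⟨?_, ?_, ?_⟩, fun t ht => hY₁ t ht.2⟩
  · have h3 : Ici s = Icc s τ ∪ Ici τ := by
      ext t
      simp only [mem_Ici, mem_union, mem_Icc]
      constructor
      · intro h
        rcases le_total t τ with h' | h'
        · exact Or.inl ⟨h, h'⟩
        · exact Or.inr h'
      · rintro (h | h)
        · exact h.1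
        · exact hsτ.trans h
    rw [h3]
    refine ContinuousOn.union_of_isClosed ?_ ?_ isClosed_Icc isClosed_Ici
    · refine ContinuousOn.congr (f := fun t => Sum.elim (X t) fun _ : Unit => fline τ z t) ?_
        fun t ht => hY₁ t ht.2
      refine continuousOn_pi.2 ?_
      rintro (i | x)
      · exact (hX.cont_apply i).mono Icc_subset_Ici_self
      · exact (continuous_iff_continuousAt.2 fun t =>
          (hasDerivAt_fline τ z t).continuousAt).continuousOn
    · exact h₂.cont.congr fun t ht => hY₂ t ht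
  · intro t ht
    rcases lt_or_ge t τ with h | h
    · have h1 : HasDerivWithinAt (fun t => Sum.elim (X t) fun _ : Unit => fline τ z t)
          (bf Φ ε b' t (Sum.elim (X t) fun _ => fline τ z t)) (Ici t) t := by
        refine hasDerivWithinAt_pi.2 ?_
        rintro (i | x)
        · have h2 : bf Φ ε b' t (Sum.elim (X t) fun _ => fline τ z t) (Sum.inl i) =
              bf Φ ε b t (X t) i := by
            classical
            unfold bf
            simp only [hbi, Sum.elim_inl, Fintype.sum_sum_type, hbx, Finset.univ_unique,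
              Finset.sum_singleton, if_neg (not_le.2 h), add_zero]
          rw [h2]
          exact hasDerivWithinAt_pi.1 (hX.der t ht) i
        · have h2 : bf Φ ε b' t (Sum.elim (X t) fun _ => fline τ z t) (Sum.inr x) = (z.2, 0) := by
            rw [bf_of_unborn Φ ε _ (by rw [hbx]; exact h)]
            rfl
          rw [h2]
          exact (hasDerivAt_fline τ z t).hasDerivWithinAt
      rw [hY₁ t h.le]
      refine h1.congr_of_eventuallyEq ?_ (hY₁ t h.le)
      have h4 : Icc t τ ∈ 𝓝[≥] t := Icc_mem_nhdsGE h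
      filter_upwards [h4] with u hu
      exact hY₁ u hu.2
    · rw [hY₂ t h]
      exact (h₂.der t h).congr (fun u hu => hY₂ u (h.trans hu)) (hY₂ t h)
  · intro t ht
    rcases lt_or_ge t τ with h | h
    · rw [hY₁ t h.le]
      refine (hX.dom t ht).imp id fun h' => ?_
      rintro (i | x) (j | y) hij hi hj
      · exact h' i j (fun h => hij (congrArg _ h)) hi hj
      · exact absurd hj (not_le.2 (by rw [hbx]; exact h))
      · exact absurd hi (not_le.2 (by rw [hbx]; exact h))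
      · exact absurd rfl hij
    · rw [hY₂ t h]
      exact h₂.dom t h

/-- two particles at distance `≥ ε` and, if at distance `ε`, moving apart, separate -/
theorem birthSep_pair {b : ι → ℝ} {t₀ τ : ℝ} {X : ℝ → ι → PhasePoint} (hX : BWorld Φ ε b t₀ X)
    (h0 : t₀ ≤ τ) {i j : ι} (hε : 0 < ε) (hd : ε ≤ dist (X τ i).1 (X τ j).1)
    (ho : dist (X τ i).1 (X τ j).1 = ε →
      0 < inner ℝ ((X τ i).1 - (X τ j).1) ((X τ i).2 - (X τ j).2)) :
    ∃ δ > 0, ∀ s, τ < s → s < τ + δ → ε < dist (X s i).1 (X s j).1 := by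
  have hder : ∀ k, HasDerivWithinAt (fun t => (X t k).1) (X τ k).2 (Ici τ) τ := fun k =>
    (hasDerivWithinAt_pi.1 (hX.der τ h0) k).fst
  have hg : HasDerivWithinAt (fun t => ‖(X t i).1 - (X t j).1‖ ^ 2)
      (2 * inner ℝ ((X τ i).1 - (X τ j).1) ((X τ i).2 - (X τ j).2)) (Ici τ) τ :=
    ((hder i).sub (hder j)).norm_sq
  have key : ∀ᶠ s in 𝓝[>] τ, ε ^ 2 < ‖(X s i).1 - (X s j).1‖ ^ 2 := by
    rcases hd.lt_or_eq with h | h
    · have h1 : ε ^ 2 < ‖(X τ i).1 - (X τ j).1‖ ^ 2 := by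
        rw [← dist_eq_norm]
        exact pow_lt_pow_left₀ h hε.le two_ne_zero
      exact (hg.continuousWithinAt.mono Ioi_subset_Ici_self).eventually (lt_mem_nhds h1)
    · have hpos := ho h.symm
      have h1 := (hasDerivWithinAt_iff_tendsto_slope' (by simp)).1
        (hg.mono Ioi_subset_Ici_self)
      have h2 : ∀ᶠ s in 𝓝[>] τ, 0 < slope (fun t => ‖(X t i).1 - (X t j).1‖ ^ 2) τ s :=
        h1.eventually (lt_mem_nhds (by linarith))
      filter_upwards [h2, self_mem_nhdsWithin] with s hs hτs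
      have hτs' : 0 < s - τ := sub_pos.2 hτs
      rw [slope_def_field, div_pos_iff_of_pos_right hτs'] at hs
      have h3 : ε ^ 2 = ‖(X τ i).1 - (X τ j).1‖ ^ 2 := by rw [← dist_eq_norm, ← h]
      rw [h3]
      linarith
  obtain ⟨c, hc, hcs⟩ := mem_nhdsGT_iff_exists_Ioo_subset.1 key
  refine ⟨c - τ, sub_pos.2 hc, fun s hs hs' => ?_⟩
  have h1 := hcs ⟨hs, by linarith⟩
  rw [dist_eq_norm]
  exact lt_of_pow_lt_pow_left₀ 2 (norm_nonneg _) h1

/-- Galilean boost of a world with births, fixing positions at time `σ`. -/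
theorem bworld_boost {b : ι → ℝ} {t₀ : ℝ} {X : ℝ → ι → PhasePoint} (hX : BWorld Φ ε b t₀ X)
    (σ : ℝ) (u : Space3) :
    BWorld Φ ε b t₀ fun t i => ((X t i).1 + (t - σ) • u, (X t i).2 + u) where
  cont := by
    refine continuousOn_pi.2 fun i => ?_
    have h1 := hX.cont_apply i
    have h2 : Continuous fun t : ℝ => (t - σ) • u := by fun_prop
    exact (h1.fst.add h2.continuousOn).prodMk (h1.snd.add continuousOn_const)
  der t ht := by
    refine hasDerivWithinAt_pi.2 fun i => ?_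
    have h1 := hasDerivWithinAt_pi.1 (hX.der t ht) i
    have h2 : HasDerivWithinAt (fun t : ℝ => (t - σ) • u) u (Ici t) t := by
      have := ((hasDerivAt_id t).sub_const σ).smul_const u
      simpa using this.hasDerivWithinAt
    have e1 : HasDerivWithinAt (fun t => (X t i).1) (bf Φ ε b t (X t) i).1 (Ici t) t := h1.fst
    have e2 : HasDerivWithinAt (fun t => (X t i).2) (bf Φ ε b t (X t) i).2 (Ici t) t := h1.snd
    have h3 : HasDerivWithinAt (fun x => ((X x i).1 + (x - σ) • u, (X x i).2 + u))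
        ((bf Φ ε b t (X t) i).1 + u, (bf Φ ε b t (X t) i).2 + 0) (Ici t) t :=
      HasDerivWithinAt.prodMk (e1.add h2) (e2.add (hasDerivWithinAt_const t (Ici t) u))
    have h4 : bf Φ ε b t (fun i => ((X t i).1 + (t - σ) • u, (X t i).2 + u)) i =
        ((bf Φ ε b t (X t) i).1 + u, (bf Φ ε b t (X t) i).2 + 0) := by
      classical
      unfold bf
      simp only [add_sub_add_right_eq_sub, add_zero]
    rw [h4]
    exact h3
  dom t ht := (hX.dom t ht).imp id fun h' i j hij hi hj h => h' i j hij hi hj (add_right_cancel h)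

/-! ### Marked worlds -/

/-- **One more line, born last.** -/
theorem ins_bw (hΦ : AdmissiblePotential Φ) (hε : 0 < ε) {Z : MW ι}
    (hZ : BWorld Φ ε Z.b 0 (Z.path Φ ε)) {l : ML} (hl : 0 ≤ l.1.1) (hb : ∀ i, Z.b i ≤ l.1.1)
    (hne : ContDiff ℝ 2 Φ ∨ ∀ i, (Z.path Φ ε l.1.1 i).1 ≠ l.1.2.1) :
    BWorld Φ ε (Z.ins l).b 0 ((Z.ins l).path Φ ε) ∧
      ∀ t ∈ Icc 0 l.1.1, (Z.ins l).path Φ ε t =
        Sum.elim (Z.path Φ ε t) fun _ => fline l.1.1 l.1.2 t := by
  obtain ⟨Y, hY, hY1⟩ := bworld_append hΦ hε hl hZ hb hne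
  have h0 : Y 0 = (Z.ins l).z := by
    rw [hY1 0 ⟨le_rfl, hl⟩, MW.path_zero hΦ hε, fline_zero]
    rfl
  have h1 : ∀ t, 0 ≤ t → (Z.ins l).path Φ ε t = Y t := by
    intro t ht
    rw [hY.eq_evo hΦ hε ht, h0]
    rfl
  exact ⟨hY.congr h1, fun t ht => (h1 t ht.1).trans (hY1 t ht)⟩

/-- birth separation with one more line -/
theorem ins_sep {Z : MW ι} (hε : 0 < ε) {l : ML} (hl : 0 ≤ l.1.1) (hb0 : ∀ i, 0 ≤ Z.b i)
    (hbw : BWorld Φ ε (Z.ins l).b 0 ((Z.ins l).path Φ ε))
    (hpath : ∀ t ∈ Icc 0 l.1.1, (Z.ins l).path Φ ε t =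
        Sum.elim (Z.path Φ ε t) fun _ => fline l.1.1 l.1.2 t)
    (hsep : BirthSep Z.b (Z.path Φ ε) ε)
    (hlt : ∀ j k, j ≠ k → Z.b j = Z.b k → Z.b j < l.1.1)
    (hnew : ∀ j, Z.b j = l.1.1 → ε ≤ dist (Z.path Φ ε l.1.1 j).1 l.1.2.1 ∧
      (dist (Z.path Φ ε l.1.1 j).1 l.1.2.1 = ε →
        0 < inner ℝ ((Z.path Φ ε l.1.1 j).1 - l.1.2.1) ((Z.path Φ ε l.1.1 j).2 - l.1.2.2))) :
    BirthSep (Z.ins l).b ((Z.ins l).path Φ ε) ε := by
  have hbi : ∀ i, (Z.ins l).b (Sum.inl i) = Z.b i := fun _ => rfl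
  have hbx : ∀ x, (Z.ins l).b (Sum.inr x) = l.1.1 := fun _ => rfl
  have hτ := hpath l.1.1 ⟨hl, le_rfl⟩
  have hnew' : ∀ (j : ι) (x : Unit), Z.b j = l.1.1 → ∃ δ > 0, ∀ s, l.1.1 < s → s < l.1.1 + δ →
      ε < dist ((Z.ins l).path Φ ε s (Sum.inl j)).1 ((Z.ins l).path Φ ε s (Sum.inr x)).1 := by
    intro j x hj
    obtain ⟨h1, h2⟩ := hnew j hj
    refine birthSep_pair hbw hl hε ?_ ?_
    · rw [hτ]
      simp only [Sum.elim_inl, Sum.elim_inr, fline_self]
      exact h1
    · rw [hτ]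
      simp only [Sum.elim_inl, Sum.elim_inr, fline_self]
      exact h2
  rintro (j | x) (k | y) hjk hb
  · rw [hbi, hbi] at hb
    have hjk' : j ≠ k := fun h => hjk (congrArg _ h)
    obtain ⟨δ, hδ, h⟩ := hsep j k hjk' hb
    have hlt' := hlt j k hjk' hb
    refine ⟨min δ (l.1.1 - Z.b j), lt_min hδ (sub_pos.2 hlt'), fun s hs hs' => ?_⟩
    rw [hbi] at hs hs'
    have hs1 : s < Z.b j + δ := hs'.trans_le (add_le_add le_rfl (min_le_left _ _))
    have hs2 : s < l.1.1 := by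
      have := hs'.trans_le (add_le_add le_rfl (min_le_right δ (l.1.1 - Z.b j)))
      linarith
    rw [hpath s ⟨(hb0 j).trans hs.le, hs2.le⟩]
    exact h s hs hs1
  · rw [hbi, hbx] at hb
    rw [hbi]
    obtain ⟨δ, hδ, h⟩ := hnew' j y hb
    rw [hb]
    exact ⟨δ, hδ, h⟩
  · rw [hbi, hbx] at hb
    rw [hbx]
    obtain ⟨δ, hδ, h⟩ := hnew' k x hb.symm
    refine ⟨δ, hδ, fun s hs hs' => ?_⟩
    rw [dist_comm]
    exact h s hs hs'
  · exact absurd rfl hjk

/-! ### Two lines -/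

/-- exchange of the two inserted lines -/
def exch (ι : Type) : (ι ⊕ Unit) ⊕ Unit ≃ (ι ⊕ Unit) ⊕ Unit where
  toFun x := match x with
    | Sum.inl (Sum.inl i) => Sum.inl (Sum.inl i)
    | Sum.inl (Sum.inr y) => Sum.inr y
    | Sum.inr y => Sum.inl (Sum.inr y)
  invFun x := match x with
    | Sum.inl (Sum.inl i) => Sum.inl (Sum.inl i)
    | Sum.inl (Sum.inr y) => Sum.inr y
    | Sum.inr y => Sum.inl (Sum.inr y)
  left_inv x := by rcases x with (i | y) | y <;> rfl
  right_inv x := by rcases x with (i | y) | y <;> rfl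

/-- Siblings separate: distance at least `ε`, moving apart if it is `ε`. -/
def SibS (ε : ℝ) (d e : LSt) : Prop :=
  ε ≤ dist d.2.1 e.2.1 ∧ (dist d.2.1 e.2.1 = ε → 0 < inner ℝ (d.2.1 - e.2.1) (d.2.2 - e.2.2))

/-- one line in the gas -/
theorem ok_one (hΦ : AdmissiblePotential Φ) (hε : 0 < ε) {n : ℕ} {w : Config n}
    (hw : w ∈ PairExcluded ε n) {d : ML} (hd : 0 < d.1.1)
    (h1 : ∀ i, ((MW.cfg w).path Φ ε d.1.1 i).1 ≠ d.1.2.1) :
    ((MW.cfg w).ins d).Ok Φ ε ∧ ∀ t ∈ Icc 0 d.1.1, ((MW.cfg w).ins d).path Φ ε t =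
        Sum.elim ((MW.cfg w).path Φ ε t) fun _ => fline d.1.1 d.1.2 t := by
  have hok := cfg_ok hΦ hε hw
  obtain ⟨hbw, hp⟩ := ins_bw hΦ hε hok.bw hd.le (fun _ => hd.le) (Or.inr h1)
  exact ⟨⟨hbw, ins_sep hε hd.le (fun _ => le_rfl) hbw hp hok.sep (fun _ _ _ _ => hd)
    fun j hj => absurd hj hd.ne⟩, hp⟩

/-- two lines in the gas, the first one born first (or both at the same time) -/
theorem ok_two (hΦ : AdmissiblePotential Φ) (hε : 0 < ε) {n : ℕ} {w : Config n}
    (hw : w ∈ PairExcluded ε n) {d e : ML} (hd : 0 < d.1.1) (hde : d.1.1 ≤ e.1.1)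
    (h1 : ∀ i, ((MW.cfg w).path Φ ε d.1.1 i).1 ≠ d.1.2.1)
    (h2 : ∀ i, ((MW.cfg w).path Φ ε e.1.1 i).1 ≠ e.1.2.1)
    (h3 : d.1.1 < e.1.1 → ∀ x, (((MW.cfg w).ins d).path Φ ε e.1.1 x).1 ≠ e.1.2.1)
    (h4 : d.1.1 = e.1.1 → SibS ε d.1 e.1) :
    (((MW.cfg w).ins d).ins e).Ok Φ ε := by
  obtain ⟨hok, hp⟩ := ok_one hΦ hε hw hd h1
  have he : 0 < e.1.1 := hd.trans_le hde
  have hpe : d.1.1 = e.1.1 → ((MW.cfg w).ins d).path Φ ε e.1.1 =
      Sum.elim ((MW.cfg w).path Φ ε e.1.1) fun _ => d.1.2 := by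
    intro h
    rw [hp e.1.1 ⟨he.le, h.ge⟩, ← h]
    simp only [fline_self]
  have hne : ∀ x, (((MW.cfg w).ins d).path Φ ε e.1.1 x).1 ≠ e.1.2.1 := by
    rcases hde.lt_or_eq with h | h
    · exact h3 h
    · rw [hpe h]
      rintro (i | x)
      · exact h2 i
      · have h5 := (h4 h).1
        intro h6
        change d.1.2.1 = e.1.2.1 at h6
        rw [h6, dist_self] at h5
        linarith
  have hb : ∀ x, ((MW.cfg w).ins d).b x ≤ e.1.1 := by
    rintro (i | x)
    · exact he.le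
    · exact hde
  have hb0 : ∀ x, 0 ≤ ((MW.cfg w).ins d).b x := by
    rintro (i | x)
    · exact le_rfl
    · exact hd.le
  obtain ⟨hbw, hp2⟩ := ins_bw hΦ hε hok.bw he.le hb (Or.inr hne)
  refine ⟨hbw, ins_sep hε he.le hb0 hbw hp2 hok.sep ?_ ?_⟩
  · rintro (j | x) (k | y) hjk hbb
    · exact he
    · exact he
    · change d.1.1 = 0 at hbb
      exact absurd hbb hd.ne'
    · exact absurd rfl hjk
  · rintro (j | x) hbb
    · change (0 : ℝ) = e.1.1 at hbb
      exact absurd hbb he.ne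
    · change d.1.1 = e.1.1 at hbb
      rw [hpe hbb]
      exact h4 hbb

/-- **The worlds `w + d`, `w + d + e` are good.** -/
theorem okW_of (hΦ : AdmissiblePotential Φ) (hε : 0 < ε) {n : ℕ} {w : Config n}
    (hw : w ∈ PairExcluded ε n) {θ : Lab × LSt} (hd : 0 < (dL θ).1.1) (he : 0 < (eL θ).1.1)
    (h1 : ∀ i, ((MW.cfg w).path Φ ε (dL θ).1.1 i).1 ≠ (dL θ).1.2.1)
    (h2 : ∀ i, ((MW.cfg w).path Φ ε (eL θ).1.1 i).1 ≠ (eL θ).1.2.1)
    (h3 : (dL θ).1.1 < (eL θ).1.1 →
      ∀ x, (((MW.cfg w).ins (dL θ)).path Φ ε (eL θ).1.1 x).1 ≠ (eL θ).1.2.1)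
    (h4 : (eL θ).1.1 < (dL θ).1.1 →
      ∀ x, (((MW.cfg w).ins (eL θ)).path Φ ε (dL θ).1.1 x).1 ≠ (dL θ).1.2.1)
    (h5 : (dL θ).1.1 = (eL θ).1.1 → SibS ε (dL θ).1 (eL θ).1) : OkW Φ ε w θ := by
  refine ⟨(ok_one hΦ hε hw hd h1).1, ?_⟩
  rcases le_total (dL θ).1.1 (eL θ).1.1 with h | h
  · exact ok_two hΦ hε hw hd h h1 h2 h3 h5
  · have h6 : (((MW.cfg w).ins (eL θ)).ins (dL θ)).Ok Φ ε := by
      refine ok_two hΦ hε hw he h h2 h1 h4 fun h7 => ?_
      obtain ⟨a, b⟩ := h5 h7.symm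
      unfold SibS
      rw [dist_comm]
      refine ⟨a, fun h8 => ?_⟩
      have h9 := b h8
      have h10 : inner ℝ ((eL θ).1.2.1 - (dL θ).1.2.1) ((eL θ).1.2.2 - (dL θ).1.2.2) =
          inner ℝ ((dL θ).1.2.1 - (eL θ).1.2.1) ((dL θ).1.2.2 - (eL θ).1.2.2) := by
        rw [← neg_sub (dL θ).1.2.1, ← neg_sub (dL θ).1.2.2, inner_neg_neg]
      rw [h10]
      exact h9
    have h7 : ((Zd w θ).ins (eL θ)) =
        (((MW.cfg w).ins (eL θ)).ins (dL θ)).comap (exch (Fin n)) := by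
      unfold Zd MW.ins MW.add MW.comap
      congr 1 <;> funext x <;> rcases x with (i | y) | y <;> rfl
    rw [h7]
    exact MWFam255.Ok.relabel hΦ hε h6 _

/-- the world `w + e` is good -/
theorem okE_of (hΦ : AdmissiblePotential Φ) (hε : 0 < ε) {n : ℕ} {w : Config n}
    (hw : w ∈ PairExcluded ε n) {θ : Lab × LSt} (he : 0 < (eL θ).1.1)
    (h2 : ∀ i, ((MW.cfg w).path Φ ε (eL θ).1.1 i).1 ≠ (eL θ).1.2.1) :
    ((MW.cfg w).ins (eL θ)).Ok Φ ε := (ok_one hΦ hε hw he h2).1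

/-! ### Boosts -/

/-- boost of a configuration, fixing positions at time `σ` -/
def bst (σ : ℝ) (u : Space3) (w : ι → PhasePoint) : ι → PhasePoint :=
  fun i => ((w i).1 - σ • u, (w i).2 + u)

theorem path_boost (hΦ : AdmissiblePotential Φ) (hε : 0 < ε) {Z : MW ι}
    (hZ : BWorld Φ ε Z.b 0 (Z.path Φ ε)) (σ : ℝ) (u : Space3) {Z' : MW ι} (hb : Z'.b = Z.b)
    (hz : Z'.z = bst σ u Z.z) {t : ℝ} (ht : 0 ≤ t) :
    Z'.path Φ ε t = fun i => ((Z.path Φ ε t i).1 + (t - σ) • u, (Z.path Φ ε t i).2 + u) := by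
  have h1 := (bworld_boost hZ σ u).eq_evo hΦ hε ht
  rw [h1]
  unfold MW.path
  rw [hb, hz]
  congr 1
  funext i
  have h2 := MW.path_zero hΦ hε Z
  unfold MW.path at h2
  rw [h2]
  unfold bst
  simp only [zero_sub, neg_smul]
  rw [← sub_eq_add_neg]

theorem back_gal (σ : ℝ) (u : Space3) (z : LSt) :
    back (Boost969.gal σ u z) = ((back z).1 - σ • u, (back z).2 + u) := by
  unfold back Boost969.gal
  refine Prod.ext ?_ rfl
  simp only
  rw [sub_smul, smul_add]
  abel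

theorem bst_mem_pairExcluded {n : ℕ} {σ : ℝ} {u : Space3} {w : Config n} :
    bst σ u w ∈ PairExcluded ε n ↔ w ∈ PairExcluded ε n := by
  have h : ∀ i j, dist (bst σ u w i).1 (bst σ u w j).1 = dist (w i).1 (w j).1 := fun i j => by
    unfold bst
    exact dist_sub_right _ _ _
  constructor
  · intro hw i j hij
    rw [← h]
    exact hw i j hij
  · intro hw i j hij
    rw [h]
    exact hw i j hij

end Crest.Agent.R122.PairOk735
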