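import Mathlib
import Crest.Agent.R122.PairOk_735

/-!
# Row 122 (helper735), good worlds with two lines: almost everywhere part

* `ae_notMem_of_spr` : null sets of the product of a measure and a labelled spread measure;
* `measurePreserving_bst`, `ae_prod_bst` : boosts of the gas;
* **`okAE_of_spr`**, **`okAE_of_PX`** : for a spread pair law with turning time before both births and
  separating siblings, the worlds `w + d` and `w + d + e` are good almost everywhere.
-/

set_option autoImplicit false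
set_option linter.unusedSectionVars false

open MeasureTheory Set Filter Topology
open scoped ENNReal
open Crest.AnalysisR.Kinetic
open Crest.Agent.R122.Flow671 Crest.Agent.R122.Loc45 Crest.Agent.R122.Causal291
open Crest.Agent.R122.Ins45
open Crest.Agent.R122.Inf879
open Crest.Agent.R122.GC311 hiding sig
open Crest.Agent.R122.EDefs602
open Crest.Agent.R122.Unw410
open Crest.Agent.R122.Boost969 (LSt gal SprL avgL measurable_galL)
open Crest.Agent.R122.Pair292 (Lab sig measurable_sig PPar PX)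
open Crest.Agent.R122.PairD292

noncomputable section

namespace Crest.Agent.R122.PairOk735

/-! ### Null sets and spread measures -/

section spr

variable {Ω : Type*} [MeasurableSpace Ω] {μ : Measure Ω} [SFinite μ]

theorem ae_notMem_of_spr {Ξ ν : Measure (Lab × LSt)} [SFinite Ξ] [SFinite ν]
    (h : SprL sig Ξ ν) {B : Set (Ω × (Lab × LSt))} (hB : MeasurableSet B)
    (hp : ∀ p : Lab × LSt, ∀ᵐ r : Ω × Space3 ∂(μ.prod volume),
      (r.1, (p.1, gal (sig p.1) r.2 p.2)) ∉ B) :
    ∀ᵐ q ∂(μ.prod ν), q ∉ B := by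
  rw [ae_iff]
  have e : {q | ¬ q ∉ B} = B := by ext q; simp
  rw [e, Measure.prod_apply hB]
  set F : Ω → Lab × LSt → ℝ≥0∞ := fun w => (Prod.mk w ⁻¹' B).indicator 1 with hF
  have hFm : ∀ w, Measurable (F w) := fun w =>
    measurable_const.indicator (measurable_prodMk_left hB)
  have h0 : ∀ w, ν (Prod.mk w ⁻¹' B) ≤ ∫⁻ p, avgL sig (F w) p ∂Ξ := by
    intro w
    rw [← lintegral_indicator_one (measurable_prodMk_left hB)]
    exact h (F w) (hFm w)
  refine le_antisymm ((lintegral_mono h0).trans (le_of_eq ?_)) zero_le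
  have hm : Measurable fun r : (Ω × (Lab × LSt)) × Space3 =>
      B.indicator (1 : Ω × (Lab × LSt) → ℝ≥0∞) (r.1.1, (r.1.2.1, gal (sig r.1.2.1) r.2 r.1.2.2)) := by
    have h1 : Measurable fun r : (Ω × (Lab × LSt)) × Space3 =>
        ((r.1.2.1, gal (sig r.1.2.1) r.2 r.1.2.2) : Lab × LSt) :=
      (measurable_galL measurable_sig).comp
        ((measurable_snd.comp measurable_fst).prodMk measurable_snd)
    exact (measurable_const.indicator hB).comp ((measurable_fst.comp measurable_fst).prodMk h1)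
  have e1 : ∀ (w : Ω) (p : Lab × LSt), avgL sig (F w) p =
      ∫⁻ u in Metric.ball (0 : Space3) 1,
        B.indicator (1 : Ω × (Lab × LSt) → ℝ≥0∞) (w, (p.1, gal (sig p.1) u p.2)) := fun w p => rfl
  simp only [e1]
  have hm2 : Measurable fun r : Ω × (Lab × LSt) => ∫⁻ u in Metric.ball (0 : Space3) 1,
      B.indicator (1 : Ω × (Lab × LSt) → ℝ≥0∞) (r.1, (r.2.1, gal (sig r.2.1) u r.2.2)) :=
    hm.lintegral_prod_right' (ν := volume.restrict (Metric.ball (0 : Space3) 1))
  rw [lintegral_lintegral_swap (f := fun (w : Ω) (p : Lab × LSt) =>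
    ∫⁻ u in Metric.ball (0 : Space3) 1,
      B.indicator (1 : Ω × (Lab × LSt) → ℝ≥0∞) (w, (p.1, gal (sig p.1) u p.2))) hm2.aemeasurable]
  refine lintegral_eq_zero_of_ae_eq_zero (Eventually.of_forall fun p => ?_)
  have hg : Measurable fun r : Ω × Space3 => (r.1, (p.1, gal (sig p.1) r.2 p.2)) :=
    measurable_fst.prodMk ((measurable_galL measurable_sig).comp
      ((measurable_const (a := p)).prodMk measurable_snd))
  have hD : MeasurableSet {r : Ω × Space3 | (r.1, (p.1, gal (sig p.1) r.2 p.2)) ∈ B} := hg hB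
  have h1 : (μ.prod (volume : Measure Space3))
      {r : Ω × Space3 | (r.1, (p.1, gal (sig p.1) r.2 p.2)) ∈ B} = 0 := by
    have := hp p
    rw [ae_iff] at this
    simpa using this
  rw [Measure.prod_apply hD] at h1
  refine le_antisymm (le_trans (lintegral_mono fun w => ?_) h1.le) zero_le
  refine (setLIntegral_le_lintegral _ _).trans (le_of_eq ?_)
  rw [← lintegral_indicator_one (measurable_prodMk_left hD)]
  rfl

end spr

/-! ### Boosts of the gas -/

theorem measurable_bst {ι : Type} [Fintype ι] (σ : ℝ) :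
    Measurable fun r : (ι → PhasePoint) × Space3 => bst σ r.2 r.1 := by
  unfold bst
  refine measurable_pi_iff.2 fun i => ?_
  have h1 : Measurable fun r : (ι → PhasePoint) × Space3 => r.1 i :=
    (measurable_pi_apply i).comp measurable_fst
  exact (h1.fst.sub (measurable_snd.const_smul σ)).prodMk (h1.snd.add measurable_snd)

theorem measurePreserving_bst {n : ℕ} (σ : ℝ) (u : Space3) :
    MeasurePreserving (bst σ u : Config n → Config n) volume volume := by
  have h : (bst σ u : Config n → Config n) = fun w => w + fun _ => ((-(σ • u), u) : PhasePoint) := by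
    funext w i
    refine Prod.ext ?_ rfl
    show (w i).1 - σ • u = (w i).1 + -(σ • u)
    exact sub_eq_add_neg _ _
  rw [h]
  exact measurePreserving_add_right volume _

/-- null sets of `(w, u)` after the change of variables `w ↦ bst σ u w` -/
theorem ae_prod_bst {n : ℕ} {D : Set (Config n × Space3)} (hD : MeasurableSet D) (σ : ℝ)
    (h : ∀ w : Config n, ∀ᵐ u : Space3, (bst σ u w, u) ∉ D) :
    ∀ᵐ r : Config n × Space3 ∂((volume : Measure (Config n)).prod volume), r ∉ D := by
  rw [ae_iff]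
  have e : {q | ¬ q ∉ D} = D := by ext q; simp
  rw [e, Measure.prod_apply_symm hD]
  have hT : Measurable fun r : Config n × Space3 => (bst σ r.2 r.1, r.2) :=
    (measurable_bst σ).prodMk measurable_snd
  have hD' : MeasurableSet {r : Config n × Space3 | (bst σ r.2 r.1, r.2) ∈ D} := hT hD
  have h1 : ∀ u : Space3, (volume : Measure (Config n)) ((fun w => (w, u)) ⁻¹' D) =
      volume ((fun w => (w, u)) ⁻¹' {r : Config n × Space3 | (bst σ r.2 r.1, r.2) ∈ D}) := fun u =>
    ((measurePreserving_bst σ u).measure_preimage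
      (measurable_prodMk_right hD).nullMeasurableSet).symm
  simp only [h1]
  rw [← Measure.prod_apply_symm hD', Measure.prod_apply hD']
  refine lintegral_eq_zero_of_ae_eq_zero (Eventually.of_forall fun w => ?_)
  have := h w
  rw [ae_iff] at this
  simpa using this

theorem ae_smul_ne {c : ℝ} (hc : c ≠ 0) (y z : Space3) : ∀ᵐ u : Space3, y + c • u ≠ z := by
  have hs : Set.Subsingleton {u : Space3 | y + c • u = z} := by
    intro u hu v hv
    have h1 : c • u = c • v := add_left_cancel (hu.trans hv.symm)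
    exact smul_right_injective _ hc h1
  have := hs.measure_zero (volume : Measure Space3)
  rw [ae_iff]
  simpa using this

/-! ### Measurability of paths -/

theorem measurable_dL : Measurable dL := measurable_fst.fst

theorem measurable_eL : Measurable eL := measurable_snd.prodMk measurable_fst.snd.snd

theorem measurable_back : Measurable back := by
  unfold back
  exact (measurable_snd.fst.sub (measurable_fst.smul measurable_snd.snd)).prodMk measurable_snd.snd

variable {Φ : Space3 → ℝ} {ε : ℝ} {n : ℕ}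

theorem measurable_path_cfg (hΦ : AdmissiblePotential Φ) (hε : 0 < ε) {δ : Type*}
    [MeasurableSpace δ] {w : δ → Config n} {t : δ → ℝ} (hw : Measurable w) (ht : Measurable t) :
    Measurable fun x => (MW.cfg (w x)).path Φ ε (t x) :=
  measurable_evo hΦ hε (fun _ => measurable_const) measurable_const ht hw

theorem measurable_path_ins (hΦ : AdmissiblePotential Φ) (hε : 0 < ε) {δ : Type*}
    [MeasurableSpace δ] {w : δ → Config n} {l : δ → ML} {t : δ → ℝ} (hw : Measurable w)
    (hl : Measurable l) (ht : Measurable t) :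
    Measurable fun x => ((MW.cfg (w x)).ins (l x)).path Φ ε (t x) := by
  refine measurable_evo hΦ hε (fun i => ?_) measurable_const ht ?_
  · rcases i with i | i
    · exact measurable_const
    · exact hl.fst.fst
  · refine measurable_pi_iff.2 fun i => ?_
    rcases i with i | i
    · exact (measurable_pi_apply i).comp hw
    · exact measurable_back.comp hl.fst

/-! ### The theorem -/

/-- the line is not born on top of a gas particle -/
theorem ae_birth (hΦ : AdmissiblePotential Φ) (hε : 0 < ε) {ν : Measure (Lab × LSt)} [SFinite ν]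
    {l : Lab × LSt → ML} (hl : Measurable l) :
    ∀ᵐ q : Config n × (Lab × LSt) ∂((volume : Measure (Config n)).prod ν),
      ∀ i, ((MW.cfg q.1).path Φ ε (l q.2).1.1 i).1 ≠ (l q.2).1.2.1 := by
  rw [ae_all_iff]
  intro i
  have hl' : Measurable fun q : Config n × (Lab × LSt) => l q.2 := hl.comp measurable_snd
  have hp := measurable_path_cfg hΦ hε (n := n) (measurable_fst : Measurable
    (Prod.fst : Config n × (Lab × LSt) → Config n)) hl'.fst.fst
  have hB : MeasurableSet {q : Config n × (Lab × LSt) |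
      ((MW.cfg q.1).path Φ ε (l q.2).1.1 i).1 = (l q.2).1.2.1} :=
    measurableSet_eq_fun (((measurable_pi_apply i).comp hp).fst) hl'.fst.snd.fst
  rw [ae_iff]
  simp only [ne_eq, not_not]
  rw [Measure.prod_apply_symm hB]
  refine lintegral_eq_zero_of_ae_eq_zero (Eventually.of_forall fun θ => ?_)
  show (volume : Measure (Config n)) {w | ((MW.cfg w).path Φ ε (l θ).1.1 i).1 = (l θ).1.2.1} = 0
  have h1 := (measurePreserving_evo (ι := Fin n) hΦ hε (fun _ => (0 : ℝ)) 0 (l θ).1.1)
  have h2 : (volume : Measure (Config n)) {w : Config n | (w i).1 = (l θ).1.2.1} = 0 := by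
    have h5 : (volume : Measure PhasePoint) {z | z.1 = (l θ).1.2.1} = 0 := by
      have e : {z : PhasePoint | z.1 = (l θ).1.2.1} = {(l θ).1.2.1} ×ˢ (univ : Set Space3) := by
        ext z; simp
      rw [e, Measure.volume_eq_prod, Measure.prod_prod]
      simp
    exact Measure.pi_eval_preimage_null (fun _ : Fin n => (volume : Measure PhasePoint)) h5
  have h3 : MeasurableSet {w : Config n | (w i).1 = (l θ).1.2.1} :=
    (measurable_pi_apply i).fst (measurableSet_singleton _)
  have h4 := h1.measure_preimage h3.nullMeasurableSet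
  rw [h2] at h4
  exact h4


theorem dist_gal_fst (σ : ℝ) (u : Space3) (z : LSt) : (gal σ u z).2.1 = z.2.1 + (z.1 - σ) • u := rfl

/-- Fubini, null sections -/
theorem ae_prod_of_ae {Ω Θ : Type*} [MeasurableSpace Ω] [MeasurableSpace Θ] {μ : Measure Ω}
    {ν : Measure Θ} [SFinite ν] {B : Set (Ω × Θ)} (hB : MeasurableSet B)
    (h : ∀ w, ∀ᵐ θ ∂ν, (w, θ) ∉ B) : ∀ᵐ q ∂(μ.prod ν), q ∉ B := by
  rw [ae_iff]
  have e : {q | ¬ q ∉ B} = B := by ext q; simp
  rw [e, Measure.prod_apply hB]
  refine lintegral_eq_zero_of_ae_eq_zero (Eventually.of_forall fun w => ?_)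
  have h2 := h w
  rw [ae_iff] at h2
  have e2 : {a | ¬ (w, a) ∉ B} = Prod.mk w ⁻¹' B := by ext a; simp
  rw [e2] at h2
  exact h2

/-- **The second line, born after the first line, is not born on top of anybody.** -/
theorem ae_e_after (hΦ : AdmissiblePotential Φ) (hε : 0 < ε) {Ξ ν : Measure (Lab × LSt)}
    [SFinite Ξ] [SFinite ν] (h : SprL sig Ξ ν) (hs : ∀ᵐ θ : Lab × LSt ∂ν, sig θ.1 ≤ (eL θ).1.1)
    (hna : ∀ Z : ML × ℝ → Space3, Measurable Z → ∀ᵐ θ ∂ν, (dL θ).1.1 < sig θ.1 →
      (eL θ).1.1 = sig θ.1 → (eL θ).1.2.1 ≠ Z (dL θ, sig θ.1)) :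
    ∀ᵐ q : Config n × (Lab × LSt) ∂((volume : Measure (Config n)).prod ν),
      (dL q.2).1.1 < (eL q.2).1.1 →
        ∀ x, (((MW.cfg q.1).ins (dL q.2)).path Φ ε (eL q.2).1.1 x).1 ≠ (eL q.2).1.2.1 := by
  have hd : Measurable fun q : Config n × (Lab × LSt) => dL q.2 := measurable_dL.comp measurable_snd
  have he : Measurable fun q : Config n × (Lab × LSt) => eL q.2 := measurable_eL.comp measurable_snd
  have hsg : Measurable fun q : Config n × (Lab × LSt) => sig q.2.1 :=
    measurable_sig.comp measurable_snd.fst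
  have hp := measurable_path_ins hΦ hε (n := n) (measurable_fst : Measurable
    (Prod.fst : Config n × (Lab × LSt) → Config n)) hd he.fst.fst
  have key : ∀ x : Fin n ⊕ Unit, ∀ᵐ q : Config n × (Lab × LSt)
      ∂((volume : Measure (Config n)).prod ν), (dL q.2).1.1 < (eL q.2).1.1 →
      (((MW.cfg q.1).ins (dL q.2)).path Φ ε (eL q.2).1.1 x).1 ≠ (eL q.2).1.2.1 := by
    intro x
    have hE : MeasurableSet {q : Config n × (Lab × LSt) |
        (((MW.cfg q.1).ins (dL q.2)).path Φ ε (eL q.2).1.1 x).1 = (eL q.2).1.2.1} :=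
      measurableSet_eq_fun (((measurable_pi_apply x).comp hp).fst) he.fst.snd.fst
    set B₁ : Set (Config n × (Lab × LSt)) := {q | sig q.2.1 < (eL q.2).1.1} ∩
      {q | (((MW.cfg q.1).ins (dL q.2)).path Φ ε (eL q.2).1.1 x).1 = (eL q.2).1.2.1} with hB₁
    set B₂ : Set (Config n × (Lab × LSt)) := {q | (dL q.2).1.1 < sig q.2.1} ∩
      ({q | (eL q.2).1.1 = sig q.2.1} ∩
      {q | (((MW.cfg q.1).ins (dL q.2)).path Φ ε (eL q.2).1.1 x).1 = (eL q.2).1.2.1}) with hB₂
    have hm₁ : MeasurableSet B₁ := (measurableSet_lt hsg he.fst.fst).inter hE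
    have hm₂ : MeasurableSet B₂ := (measurableSet_lt hd.fst.fst hsg).inter
      ((measurableSet_eq_fun he.fst.fst hsg).inter hE)
    have h₁ : ∀ᵐ q ∂((volume : Measure (Config n)).prod ν), q ∉ B₁ := by
      refine ae_notMem_of_spr h hm₁ fun p => ?_
      by_cases hc : sig p.1 < p.2.1
      · have hmg : Measurable fun r : Config n × Space3 => (r.1, (p.1, gal (sig p.1) r.2 p.2)) :=
          measurable_fst.prodMk ((measurable_galL measurable_sig).comp
            ((measurable_const (a := p)).prodMk measurable_snd))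
        refine ae_prod_of_ae (hmg hm₁) fun w => ?_
        have h2 := ae_smul_ne (c := p.2.1 - sig p.1) (sub_ne_zero.2 hc.ne') p.2.2.1
          ((((MW.cfg w).ins p.1.1).path Φ ε p.2.1 x).1)
        filter_upwards [h2] with u hu h3
        exact hu h3.2.symm
      · exact Eventually.of_forall fun r hr => hc hr.1
    have h₂ : ∀ᵐ q ∂((volume : Measure (Config n)).prod ν), q ∉ B₂ := by
      refine ae_prod_of_ae hm₂ fun w => ?_
      have hZ : Measurable fun r : ML × ℝ => (((MW.cfg w).ins r.1).path Φ ε r.2 x).1 :=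
        ((measurable_pi_apply x).comp (measurable_path_ins hΦ hε
          (measurable_const (a := w)) measurable_fst measurable_snd)).fst
      filter_upwards [hna _ hZ] with θ hθ h3
      have h4 : (((MW.cfg w).ins (dL θ)).path Φ ε (eL θ).1.1 x).1 = (eL θ).1.2.1 := h3.2.2
      have h5 : (eL θ).1.1 = sig θ.1 := h3.2.1
      refine hθ h3.1 h5 ?_
      rw [← h4, h5]
    have hs' : ∀ᵐ q : Config n × (Lab × LSt) ∂((volume : Measure (Config n)).prod ν),
        sig q.2.1 ≤ (eL q.2).1.1 :=
      Measure.quasiMeasurePreserving_snd.ae hs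
    filter_upwards [h₁, h₂, hs'] with q a₁ a₂ a₃ a₄ a₅
    rcases a₃.lt_or_eq with a₆ | a₆
    · exact a₁ ⟨a₆, a₅⟩
    · exact a₂ ⟨a₄.trans_le a₆.ge, a₆.symm, a₅⟩
  filter_upwards [ae_all_iff.2 key] with q hq h1 x
  exact hq x h1

/-- boosted gas and boosted line -/
theorem ins_boost_z (σ : ℝ) (u : Space3) (w : Config n) (l : ML) :
    ((MW.cfg (bst σ u w)).ins ((gal σ u l.1, l.2) : ML)).z =
      bst σ u ((MW.cfg w).ins l).z := by
  funext x
  rcases x with i | y
  · rfl
  · exact back_gal σ u l.1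

/-- **The first line, born after the second line, is not born on top of anybody.** -/
theorem ae_d_after (hΦ : AdmissiblePotential Φ) (hε : 0 < ε) {Ξ ν : Measure (Lab × LSt)}
    [SFinite Ξ] [SFinite ν] (h : SprL sig Ξ ν) (hs : ∀ᵐ θ : Lab × LSt ∂ν, sig θ.1 ≤ (eL θ).1.1) :
    ∀ᵐ q : Config n × (Lab × LSt) ∂((volume : Measure (Config n)).prod ν),
      q.1 ∈ PairExcluded ε n → 0 < (eL q.2).1.1 → (eL q.2).1.1 < (dL q.2).1.1 →
        ∀ x, (((MW.cfg q.1).ins (eL q.2)).path Φ ε (dL q.2).1.1 x).1 ≠ (dL q.2).1.2.1 := by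
  have hd : Measurable fun q : Config n × (Lab × LSt) => dL q.2 := measurable_dL.comp measurable_snd
  have he : Measurable fun q : Config n × (Lab × LSt) => eL q.2 := measurable_eL.comp measurable_snd
  have hsg : Measurable fun q : Config n × (Lab × LSt) => sig q.2.1 :=
    measurable_sig.comp measurable_snd.fst
  have hp := measurable_path_ins hΦ hε (n := n) (measurable_fst : Measurable
    (Prod.fst : Config n × (Lab × LSt) → Config n)) he hd.fst.fst
  have hp2 := measurable_path_cfg hΦ hε (n := n) (measurable_fst : Measurable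
    (Prod.fst : Config n × (Lab × LSt) → Config n)) he.fst.fst
  have key : ∀ x : Fin n ⊕ Unit, ∀ᵐ q : Config n × (Lab × LSt)
      ∂((volume : Measure (Config n)).prod ν), q.1 ∈ PairExcluded ε n → 0 < (eL q.2).1.1 →
      (eL q.2).1.1 < (dL q.2).1.1 →
      (((MW.cfg q.1).ins (eL q.2)).path Φ ε (dL q.2).1.1 x).1 ≠ (dL q.2).1.2.1 := by
    intro x
    have hE : MeasurableSet {q : Config n × (Lab × LSt) |
        (((MW.cfg q.1).ins (eL q.2)).path Φ ε (dL q.2).1.1 x).1 = (dL q.2).1.2.1} :=
      measurableSet_eq_fun (((measurable_pi_apply x).comp hp).fst) hd.fst.snd.fst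
    have hG : MeasurableSet {q : Config n × (Lab × LSt) |
        ∀ i, ((MW.cfg q.1).path Φ ε (eL q.2).1.1 i).1 ≠ (eL q.2).1.2.1} := by
      rw [ofPred_forall]
      refine MeasurableSet.iInter fun i => ?_
      exact (measurableSet_eq_fun (((measurable_pi_apply i).comp hp2).fst) he.fst.snd.fst).compl
    set B : Set (Config n × (Lab × LSt)) := {q | q.1 ∈ PairExcluded ε n} ∩
      ({q | 0 < (eL q.2).1.1 ∧ 0 < (dL q.2).1.1} ∩ ({q | sig q.2.1 < (dL q.2).1.1} ∩
      ({q | ∀ i, ((MW.cfg q.1).path Φ ε (eL q.2).1.1 i).1 ≠ (eL q.2).1.2.1} ∩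
      {q | (((MW.cfg q.1).ins (eL q.2)).path Φ ε (dL q.2).1.1 x).1 = (dL q.2).1.2.1}))) with hB
    have hm : MeasurableSet B :=
      (measurable_fst (measurableSet_pairExcluded ε n)).inter
        (((measurableSet_lt measurable_const he.fst.fst).inter
          (measurableSet_lt measurable_const hd.fst.fst)).inter
          ((measurableSet_lt hsg hd.fst.fst).inter (hG.inter hE)))
    have hB' : ∀ᵐ q ∂((volume : Measure (Config n)).prod ν), q ∉ B := by
      refine ae_notMem_of_spr h hm fun p => ?_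
      have hmg : Measurable fun r : Config n × Space3 => (r.1, (p.1, gal (sig p.1) r.2 p.2)) :=
        measurable_fst.prodMk ((measurable_galL measurable_sig).comp
          ((measurable_const (a := p)).prodMk measurable_snd))
      refine ae_prod_bst (hmg hm) (sig p.1) fun w => ?_
      set σ := sig p.1 with hσ
      set l : ML := eL p with hl
      by_cases hc : w ∈ PairExcluded ε n ∧ 0 < l.1.1 ∧ σ < (dL p).1.1 ∧
          ∀ i, ((MW.cfg w).path Φ ε l.1.1 i).1 ≠ l.1.2.1
      · obtain ⟨hw, h0, hlt, hne⟩ := hc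
        have hok := (ok_one hΦ hε hw h0 hne).1
        have h2 := ae_smul_ne (c := (dL p).1.1 - σ) (sub_ne_zero.2 hlt.ne')
          ((((MW.cfg w).ins l).path Φ ε (dL p).1.1 x).1) (dL p).1.2.1
        filter_upwards [h2] with u hu h3
        have ht : 0 < (dL p).1.1 := h3.2.1.2
        have h4 : (((MW.cfg (bst σ u w)).ins ((gal σ u l.1, l.2) : ML)).path Φ ε
            (dL p).1.1 x).1 = (dL p).1.2.1 := h3.2.2.2.2
        have h5 := path_boost hΦ hε hok.bw σ u
          (Z' := (MW.cfg (bst σ u w)).ins ((gal σ u l.1, l.2) : ML)) rfl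
          (ins_boost_z σ u w l) ht.le
        rw [h5] at h4
        exact hu h4
      · refine Eventually.of_forall fun u h3 => hc ⟨?_, h3.2.1.1, h3.2.2.1, fun i hi => ?_⟩
        · exact bst_mem_pairExcluded.1 h3.1
        · have h0 : 0 < l.1.1 := h3.2.1.1
          have h4 : ((MW.cfg (bst σ u w)).path Φ ε l.1.1 i).1 ≠ l.1.2.1 + (l.1.1 - σ) • u :=
            h3.2.2.2.1 i
          have hw : w ∈ PairExcluded ε n := bst_mem_pairExcluded.1 h3.1
          have h5 := path_boost hΦ hε (cfg_ok hΦ hε hw).bw σ u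
            (Z' := MW.cfg (bst σ u w)) rfl rfl h0.le
          rw [h5] at h4
          exact h4 (by rw [← hi])
    have hne : ∀ᵐ q : Config n × (Lab × LSt) ∂((volume : Measure (Config n)).prod ν),
      ∀ i, ((MW.cfg q.1).path Φ ε (eL q.2).1.1 i).1 ≠ (eL q.2).1.2.1 :=
      ae_birth hΦ hε measurable_eL
    have hs' : ∀ᵐ q : Config n × (Lab × LSt) ∂((volume : Measure (Config n)).prod ν),
        sig q.2.1 ≤ (eL q.2).1.1 :=
      Measure.quasiMeasurePreserving_snd.ae hs
    filter_upwards [hB', hne, hs'] with q a₁ a₂ a₃ a₄ a₅ a₆ a₇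
    exact a₁ ⟨a₄, ⟨a₅, a₅.trans a₆⟩, a₃.trans_lt a₆, a₂, a₇⟩
  filter_upwards [ae_all_iff.2 key] with q hq h1 h2 h3 x
  exact hq x h1 h2 h3

/-- The worlds `w + d`, `w + e`, `w + d + e` are good almost surely. -/
def OkAE' (Φ : Space3 → ℝ) (ε : ℝ) (K : ℕ) (ν : Measure (Lab × LSt)) : Prop :=
  ∀ n : ℕ, ∀ᵐ q : Config n × (Lab × LSt) ∂((volume : Measure (Config n)).prod ν),
    q.1 ∈ PairExcluded ε n → OkL K q.2 →
      OkW Φ ε q.1 q.2 ∧ ((MW.cfg q.1).ins (eL q.2)).Ok Φ ε

/-- **Good worlds for a spread pair law.** -/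
theorem okAE'_of_spr (hΦ : AdmissiblePotential Φ) (hε : 0 < ε) {K : ℕ}
    {Ξ ν : Measure (Lab × LSt)} [SFinite Ξ] [SFinite ν] (h : SprL sig Ξ ν)
    (hs : ∀ᵐ θ : Lab × LSt ∂ν, sig θ.1 ≤ (eL θ).1.1)
    (hna : ∀ Z : ML × ℝ → Space3, Measurable Z → ∀ᵐ θ ∂ν, (dL θ).1.1 < sig θ.1 →
      (eL θ).1.1 = sig θ.1 → (eL θ).1.2.1 ≠ Z (dL θ, sig θ.1))
    (hb : ∀ᵐ θ ∂ν, (dL θ).1.1 = (eL θ).1.1 → SibS ε (dL θ).1 (eL θ).1) :
    OkAE' Φ ε K ν := by
  intro n
  have hb' : ∀ᵐ q : Config n × (Lab × LSt) ∂((volume : Measure (Config n)).prod ν),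
      (dL q.2).1.1 = (eL q.2).1.1 → SibS ε (dL q.2).1 (eL q.2).1 :=
    Measure.quasiMeasurePreserving_snd.ae hb
  filter_upwards [ae_birth hΦ hε (n := n) (ν := ν) measurable_dL,
    ae_birth hΦ hε (n := n) (ν := ν) measurable_eL, ae_e_after hΦ hε h hs hna,
    ae_d_after hΦ hε h hs, hb'] with q a₁ a₂ a₃ a₄ a₅ hw hL
  exact ⟨okW_of hΦ hε hw hL.d0 hL.e0 a₁ a₂ a₃ (a₄ hw hL.e0) a₅, okE_of hΦ hε hw hL.e0 a₂⟩

theorem OkAE'.okAE {K : ℕ} {ν : Measure (Lab × LSt)} (h : OkAE' Φ ε K ν) : OkAE Φ ε K ν := by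
  intro n
  filter_upwards [h n] with q hq hw hL
  exact (hq hw hL).1

theorem OkAE'.mono {K : ℕ} {ν ν' : Measure (Lab × LSt)} [SFinite ν] (h : OkAE' Φ ε K ν)
    (hle : ν' ≪ ν) : OkAE' Φ ε K ν' := fun n =>
  (Measure.AbsolutelyContinuous.rfl.prod hle).ae_le (h n)

end Crest.Agent.R122.PairOk735
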