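import Mathlib
import Crest.Agent.R122.PairOk2_735
import Crest.Agent.R122.PairKer_292

/-!
# Row 122 (helper735), good worlds with two lines: continuation steps

* `AuxK` : almost sure facts of a continuation kernel; `auxK_stO`, `AuxK.add`;
* `AuxK.bind`, `auxS_bindN` : after one step the second line is born strictly after the turning time
  and not at the birth of the first line;
* **`okAE'_bindN`** : the worlds `w + d`, `w + e`, `w + d + e` are good for all the laws `bindN ν κ j`.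
-/

set_option autoImplicit false
set_option linter.unusedSectionVars false

open MeasureTheory ProbabilityTheory Set Filter
open scoped ENNReal
open Crest.AnalysisR.Kinetic
open Crest.Agent.R122.EDefs602
open Crest.Agent.R122.Boost969 (LSt SprL)
open Crest.Agent.R122.Pair292 hiding ML
open Crest.Agent.R122.PairD292

noncomputable section

namespace Crest.Agent.R122.PairOk735

/-- Almost sure facts of a continuation step: the first line and the turning time are kept, the new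
line is born strictly later and not at the birth time of the first line. -/
def AuxK (κ : Kernel (Lab × LSt) (Lab × LSt)) : Prop :=
  ∀ p, ∀ᵐ p' ∂κ p, p'.1.1 = p.1.1 ∧ sig p'.1 = sig p.1 ∧ p.2.1 < p'.2.1 ∧ p'.2.1 ≠ p.1.1.1.1

theorem AuxK.add {κ κ' : Kernel (Lab × LSt) (Lab × LSt)} (h : AuxK κ) (h' : AuxK κ') :
    AuxK (κ + κ') := by
  intro p
  rw [add_apply]
  exact ae_add_measure_iff.2 ⟨h p, h' p⟩

theorem ae_mC_ne {te : ℝ} {T : Space3 × Disc416.Plane → ℝ} (hT : Measurable T) (a : ℝ) :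
    ∀ᵐ c : CDat ∂mC te, c.1 + T c.2 ≠ a := by
  have hB : MeasurableSet {c : CDat | c.1 + T c.2 = a} :=
    measurableSet_eq_fun (measurable_fst.add (hT.comp measurable_snd)) measurable_const
  rw [ae_iff]
  simp only [ne_eq, not_not]
  unfold mC
  rw [Measure.prod_apply_symm hB]
  refine lintegral_eq_zero_of_ae_eq_zero (Eventually.of_forall fun c => ?_)
  have hs : ((fun s : ℝ => ((s, c) : CDat)) ⁻¹' {c : CDat | c.1 + T c.2 = a}) ⊆ {a - T c} := by
    intro s hs
    have h1 : s + T c = a := hs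
    rw [mem_singleton_iff]
    linarith
  exact measure_mono_null hs (by simp)

variable {Φ : Space3 → ℝ} {ε : ℝ}

theorem auxK_stO (hΦ : AdmissiblePotential Φ) (hε : 0 ≤ ε) {out : ℝ → Space3 → OCout796.CD → LSt}
    (h : OutMap out) (ht : ∀ s y q, (out s y q).1 = s + OCout796.outT Φ ε q) (b₀ te : ℝ)
    (f : ℕ → ℕ → ℕ) {q : ℕ → ℝ≥0∞} (hq : ∀ m, q m ≠ ∞) : AuxK (stO ε b₀ te out f q) := by
  intro p
  set G : Set (Lab × LSt) := {p' | p'.1.1 = p.1.1 ∧ sig p'.1 = sig p.1 ∧ p.2.1 < p'.2.1 ∧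
    p'.2.1 ≠ p.1.1.1.1} with hG
  have hGm : MeasurableSet G := by
    refine MeasurableSet.inter (measurableSet_eq_fun measurable_fst.fst measurable_const)
      (MeasurableSet.inter (measurableSet_eq_fun (measurable_sig.comp measurable_fst)
        measurable_const) (MeasurableSet.inter (measurableSet_lt measurable_const
          measurable_snd.fst) (measurableSet_eq_fun measurable_snd.fst measurable_const).compl))
  have h1 := lintegral_stO h ε b₀ te f hq p (F := Gᶜ.indicator 1)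
    (measurable_one.indicator hGm.compl)
  rw [lintegral_indicator_one hGm.compl] at h1
  show (stO ε b₀ te out f q p) Gᶜ = 0
  rw [h1, ENNReal.tsum_eq_zero]
  intro m
  have h2 : ∫⁻ c, dens b₀ p.2 c * Gᶜ.indicator (1 : Lab × LSt → ℝ≥0∞)
      (incM f m p.1, outC out ε p.2 c) ∂mC te = 0 := by
    have hT : Measurable fun c : Space3 × Disc416.Plane =>
        OCout796.outT Φ ε (cdC p.2 ((0 : ℝ), c)) :=
      (OCout796.measurable_outT hΦ ε).comp (measurable_cdC.comp
        ((measurable_const (a := p.2)).prodMk ((measurable_const (a := (0 : ℝ))).prodMk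
          measurable_id)))
    refine lintegral_eq_zero_of_ae_eq_zero ?_
    filter_upwards [ae_mC_ne (te := te) hT p.1.1.1.1] with c hc
    show dens b₀ p.2 c * Gᶜ.indicator (1 : Lab × LSt → ℝ≥0∞)
      (incM f m p.1, outC out ε p.2 c) = 0
    by_cases hz : p.2.1 < c.1
    · have h3 : (outC out ε p.2 c).1 = c.1 + OCout796.outT Φ ε (cdC p.2 c) := ht _ _ _
      have h4 : (incM f m p.1, outC out ε p.2 c) ∈ G := by
        refine ⟨rfl, rfl, ?_, ?_⟩
        · show p.2.1 < (outC out ε p.2 c).1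
          rw [h3]
          have := OCout796.outT_nonneg (Φ := Φ) hε (cdC p.2 c)
          linarith
        · show (outC out ε p.2 c).1 ≠ p.1.1.1.1
          have h6 : cdC p.2 ((0 : ℝ), c.2) = cdC p.2 c := by
            unfold cdC bC
            rfl
          rw [h3, ← h6]
          exact hc
      rw [indicator_of_notMem (notMem_compl_iff.2 h4), mul_zero]
    · have h5 : dens b₀ p.2 c = 0 := by
        unfold dens rate
        rw [if_neg hz, zero_mul]
      rw [h5, zero_mul]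
  rw [h2, mul_zero]

/-- After a step. -/
structure AuxS (ν : Measure (Lab × LSt)) : Prop where
  sg : ∀ᵐ θ : Lab × LSt ∂ν, sig θ.1 < (eL θ).1.1
  ne : ∀ᵐ θ : Lab × LSt ∂ν, (dL θ).1.1 ≠ (eL θ).1.1

theorem AuxK.bind {κ : Kernel (Lab × LSt) (Lab × LSt)} (hκ : AuxK κ) {ν : Measure (Lab × LSt)}
    (hs : ∀ᵐ θ : Lab × LSt ∂ν, sig θ.1 ≤ (eL θ).1.1) : AuxS (ν.bind κ) := by
  have hm1 : MeasurableSet {θ : Lab × LSt | ¬ sig θ.1 < (eL θ).1.1} :=
    (measurableSet_lt (measurable_sig.comp measurable_fst) measurable_snd.fst).compl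
  have hm2 : MeasurableSet {θ : Lab × LSt | ¬ (dL θ).1.1 ≠ (eL θ).1.1} :=
    (measurableSet_eq_fun measurable_fst.fst.fst.fst measurable_snd.fst).compl.compl
  refine ⟨?_, ?_⟩
  · rw [ae_iff, Measure.bind_apply hm1 (Kernel.aemeasurable κ)]
    refine lintegral_eq_zero_of_ae_eq_zero ?_
    filter_upwards [hs] with p hp
    show κ p {θ : Lab × LSt | ¬ sig θ.1 < (eL θ).1.1} = 0
    rw [← ae_iff (p := fun θ : Lab × LSt => sig θ.1 < (eL θ).1.1)]
    filter_upwards [hκ p] with p' hp'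
    rw [hp'.2.1]
    exact hp.trans_lt hp'.2.2.1
  · rw [ae_iff, Measure.bind_apply hm2 (Kernel.aemeasurable κ)]
    refine lintegral_eq_zero_of_ae_eq_zero (Eventually.of_forall fun p => ?_)
    show κ p {θ : Lab × LSt | ¬ (dL θ).1.1 ≠ (eL θ).1.1} = 0
    rw [← ae_iff (p := fun θ : Lab × LSt => (dL θ).1.1 ≠ (eL θ).1.1)]
    filter_upwards [hκ p] with p' hp'
    have h1 : (dL p').1.1 = p.1.1.1.1 := by
      unfold dL
      rw [hp'.1]
    rw [h1]
    exact fun h2 => hp'.2.2.2 h2.symm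

theorem auxS_bindN {κ : Kernel (Lab × LSt) (Lab × LSt)} (hκ : AuxK κ) {ν : Measure (Lab × LSt)}
    (hs : ∀ᵐ θ : Lab × LSt ∂ν, sig θ.1 ≤ (eL θ).1.1) (j : ℕ) : AuxS (bindN ν κ (j + 1)) := by
  induction j with
  | zero => exact hκ.bind hs
  | succ j ih =>
    refine hκ.bind (ν := bindN ν κ (j + 1)) ?_
    filter_upwards [ih.sg] with θ hθ
    exact hθ.le

theorem AuxS.okAE' (hΦ : AdmissiblePotential Φ) (hε : 0 < ε) {K : ℕ} {Ξ ν : Measure (Lab × LSt)}
    [SFinite Ξ] [SFinite ν] (h : SprL sig Ξ ν) (ha : AuxS ν) : OkAE' Φ ε K ν := by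
  refine okAE'_of_spr hΦ hε h ?_ (fun Z _ => ?_) ?_
  · filter_upwards [ha.sg] with θ hθ
    exact hθ.le
  · filter_upwards [ha.sg] with θ hθ _ h2
    exact absurd h2 hθ.ne'
  · filter_upwards [ha.ne] with θ hθ h1
    exact absurd h1 hθ

/-- **Good worlds for all the laws of the iteration.** -/
theorem okAE'_bindN (hΦ : AdmissiblePotential Φ) (hε : 0 < ε) {K : ℕ} {P : PPar}
    {Ξ ν : Measure (Lab × LSt)} {c : ℝ≥0∞} (h : PX P Ξ ν c)
    {κ κ' : Kernel (Lab × LSt) (Lab × LSt)} {r₀ : ℝ≥0∞} (hK : StepK P κ κ' r₀) (hκ : AuxK κ)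
    (hs : ∀ᵐ θ : Lab × LSt ∂ν, sig θ.1 ≤ (eL θ).1.1)
    (hna : ∀ Z : ML × ℝ → Space3, Measurable Z → ∀ᵐ θ ∂ν, (dL θ).1.1 < sig θ.1 →
      (eL θ).1.1 = sig θ.1 → (eL θ).1.2.1 ≠ Z (dL θ, sig θ.1))
    (hb : ∀ᵐ θ ∂ν, (dL θ).1.1 = (eL θ).1.1 → SibS ε (dL θ).1 (eL θ).1) (j : ℕ) :
    OkAE' Φ ε K (bindN ν κ j) := by
  have hj := h.bindN hK j
  have := hj.sfν
  have := hj.sfΞ
  cases j with
  | zero => exact okAE'_of_spr hΦ hε hj.spr hs hna hb
  | succ j => exact (auxS_bindN hκ hs j).okAE' hΦ hε hj.spr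

end Crest.Agent.R122.PairOk735
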