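import Crest.Agent.R122.SPcore_994

/-!
# Section E, inequality 3, special terms SP-A and SP-B: abstract assembly (helper994)

Fixed `ε`, `K`.  `Ω, P` = gas world `w₂`; `V : 𝒱, mV` = fresh cluster (crude Mecke measure) with its
root; `ρ V` = measure of the link time `u` (`ε² (1 + |v_root u|) du`); `lam` = marked line measure.
`Ro V`, `Ry V` = law of `(d, u)`: first touched line `d`, contact time `u` of the second line `e`
with the root path of `V` (`e` integrated out), old resp. young part.  Inputs: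

* `(S6*)` `Ro V ≤ c₆ • lam ⊗ ρ V`;
* `(Y6*)` the `u`-marginal of `Ry V` is `≤ c₇ • ρ V`;
* touch times `θ₀ w l = θ(w,l)`, `θD w V = θ(w, lines V)`, `θV w V l = θ(w ∪ V, l)`,
  `θd w d l = θ(w + d, l)`, quenched weight `G w V u`.

Outputs: `spA_old`, `spA_young`, `spB_old`.
-/

set_option autoImplicit false

open MeasureTheory Set Filter ProbabilityTheory
open scoped ENNReal Topology

namespace Crest.Agent.R122.SP994

open Crest.Agent.R122.Weight984

variable {𝒱 Λ : Type*} [MeasurableSpace 𝒱] [MeasurableSpace Λ]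

/-- SP-A, one cluster: `G` quenched weight (function of the link time), `θD` first touch time of
the lines of the cluster, `θ` touch times in the world with the cluster. -/
theorem spA_one_old {L : ℝ} (hL : 0 < L) (lam : Measure Λ) [SFinite lam] (ρ : Measure ℝ) [SFinite ρ]
    (Q : Measure (Λ × ℝ)) (c : ℝ≥0∞) (hR : Q ≤ c • lam.prod ρ) {G : ℝ → ℝ≥0∞} (hG : Measurable G)
    (θD : ℝ) {θ : Λ → ℝ} (hθ : Measurable θ) (t' : ℝ) :
    ∫⁻ q, G q.2 * {q : Λ × ℝ | θD < θ q.1 ∧ θ q.1 ≤ t'}.indicator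
        (fun q => W L (lam {l | θ l ≤ θ q.1})) q ∂Q
      ≤ c * ENNReal.ofReal (1 / L) *
        ((∫⁻ u, G u ∂ρ) * (if θD ≤ t' then W L (lam {l | θ l ≤ θD}) else 0)) := by
  classical
  have hX : Measurable fun l' => lam {l | θ l ≤ θ l'} :=
    (measurable_touched_le (V := Unit) (θ := fun _ => θ) (hθ.comp measurable_snd) lam).comp
      (measurable_const.prodMk measurable_id : Measurable fun l' : Λ => ((), l'))
  have hs : MeasurableSet {l : Λ | θD < θ l ∧ θ l ≤ t'} :=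
    (hθ measurableSet_Ioi).inter (hθ measurableSet_Iic)
  set F : Λ → ℝ≥0∞ := {l : Λ | θD < θ l ∧ θ l ≤ t'}.indicator
    (fun l' => W L (lam {l | θ l ≤ θ l'})) with hF
  have hFm : Measurable F := ((measurable_W L).comp hX).indicator hs
  have hFe : ∀ q : Λ × ℝ, {q : Λ × ℝ | θD < θ q.1 ∧ θ q.1 ≤ t'}.indicator
      (fun q => W L (lam {l | θ l ≤ θ q.1})) q = F q.1 := by
    intro q
    by_cases hq : θD < θ q.1 ∧ θ q.1 ≤ t'
    · rw [indicator_of_mem (show q ∈ {q : Λ × ℝ | θD < θ q.1 ∧ θ q.1 ≤ t'} from hq), hF,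
        indicator_of_mem (show q.1 ∈ {l : Λ | θD < θ l ∧ θ l ≤ t'} from hq)]
    · rw [indicator_of_notMem (show q ∉ {q : Λ × ℝ | θD < θ q.1 ∧ θ q.1 ≤ t'} from hq), hF,
        indicator_of_notMem (show q.1 ∉ {l : Λ | θD < θ l ∧ θ l ≤ t'} from hq)]
  have hFint : ∫⁻ l, F l ∂lam ≤ ENNReal.ofReal (1 / L) *
      (if θD ≤ t' then W L (lam {l | θ l ≤ θD}) else 0) := by
    split_ifs with h
    · calc ∫⁻ l, F l ∂lam ≤ ∫⁻ l in {l | θD < θ l}, W L (lam {l' | θ l' ≤ θ l}) ∂lam := by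
            have hms : MeasurableSet {l | θD < θ l} := hθ measurableSet_Ioi
            rw [← lintegral_indicator hms]
            refine lintegral_mono fun l => ?_
            by_cases hl : l ∈ {l : Λ | θD < θ l ∧ θ l ≤ t'}
            · rw [hF, indicator_of_mem hl, indicator_of_mem (show l ∈ {l | θD < θ l} from hl.1)]
            · rw [hF, indicator_of_notMem hl]; exact zero_le
        _ ≤ _ := stieltjes_lt hL lam hθ θD
    · have : ∀ l, F l = 0 := by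
        intro l
        rw [hF]
        apply indicator_of_notMem
        rintro ⟨h1, h2⟩
        exact h (h1.le.trans h2)
      simp [this]
  calc ∫⁻ q, G q.2 * {q : Λ × ℝ | θD < θ q.1 ∧ θ q.1 ≤ t'}.indicator
        (fun q => W L (lam {l | θ l ≤ θ q.1})) q ∂Q
      = ∫⁻ q, G q.2 * F q.1 ∂Q := by simp_rw [hFe]
    _ ≤ ∫⁻ q, G q.2 * F q.1 ∂(c • lam.prod ρ) := lintegral_mono' hR le_rfl
    _ = c * ∫⁻ l, ∫⁻ u, G u * F l ∂ρ ∂lam := by
        rw [lintegral_smul_measure, smul_eq_mul, lintegral_prod (fun q : Λ × ℝ => G q.2 * F q.1)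
          ((hG.comp measurable_snd).mul (hFm.comp measurable_fst)).aemeasurable]
    _ = c * ((∫⁻ u, G u ∂ρ) * ∫⁻ l, F l ∂lam) := by
        congr 1
        rw [← lintegral_const_mul _ hFm]
        refine lintegral_congr fun l => ?_
        rw [lintegral_mul_const _ hG]
    _ ≤ c * ((∫⁻ u, G u ∂ρ) * (ENNReal.ofReal (1 / L) *
          (if θD ≤ t' then W L (lam {l | θ l ≤ θD}) else 0))) := by gcongr
    _ = _ := by ring

/-- SP-A, one cluster, young part: the touch of `d` is dropped. -/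
theorem spA_one_young {L : ℝ} (hL : 0 ≤ L) (lam : Measure Λ) (ρ : Measure ℝ)
    (Q : Measure (Λ × ℝ)) (c : ℝ≥0∞) (hR : Q.map Prod.snd ≤ c • ρ) {G : ℝ → ℝ≥0∞}
    (hG : Measurable G) (θD : ℝ) (θ : Λ → ℝ) (t' : ℝ) :
    ∫⁻ q, G q.2 * {q : Λ × ℝ | θD < θ q.1 ∧ θ q.1 ≤ t'}.indicator
        (fun q => W L (lam {l | θ l ≤ θ q.1})) q ∂Q
      ≤ c * ((∫⁻ u, G u ∂ρ) * (if θD ≤ t' then W L (lam {l | θ l ≤ θD}) else 0)) := by
  classical
  set A : ℝ≥0∞ := if θD ≤ t' then W L (lam {l | θ l ≤ θD}) else 0 with hA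
  calc ∫⁻ q, G q.2 * {q : Λ × ℝ | θD < θ q.1 ∧ θ q.1 ≤ t'}.indicator
        (fun q => W L (lam {l | θ l ≤ θ q.1})) q ∂Q
      ≤ ∫⁻ q, G q.2 * A ∂Q := by
        refine lintegral_mono fun q => ?_
        refine mul_le_mul_right ?_ _
        by_cases hq : q ∈ {q : Λ × ℝ | θD < θ q.1 ∧ θ q.1 ≤ t'}
        · rw [indicator_of_mem hq, hA, if_pos (hq.1.le.trans hq.2)]
          refine W_anti hL (measure_mono fun l hl => ?_)
          exact le_trans hl hq.1.le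
        · rw [indicator_of_notMem hq]; exact zero_le
    _ = ∫⁻ u, G u * A ∂(Q.map Prod.snd) := by
        rw [lintegral_map (hG.mul_const _) measurable_snd]
    _ ≤ ∫⁻ u, G u * A ∂(c • ρ) := lintegral_mono' hR le_rfl
    _ = c * ((∫⁻ u, G u ∂ρ) * A) := by
        rw [lintegral_smul_measure, smul_eq_mul, lintegral_mul_const _ hG]

/-! ## Integration over the cluster and the gas world -/

section total

variable {Ω : Type*} [MeasurableSpace Ω]

/-- Quenched marked-line input (`(Q1)` root + `(Q2)` exits), adversary form: `E (V, u)` = counting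
measure of the marked lines of `V` seen at the link time `u`. -/
def QE (P : Measure Ω) (mV : Measure 𝒱) (ρ : Kernel 𝒱 ℝ) (lam : Measure Λ)
    (G : Ω → 𝒱 → ℝ → ℝ≥0∞) (E : Kernel (𝒱 × ℝ) Λ) (C δ : ℝ≥0∞) : Prop :=
  ∀ Θ : Ω → Λ → ℝ≥0∞, Measurable (fun p : Ω × Λ => Θ p.1 p.2) → (∀ w l, Θ w l ≤ 1) →
    ∫⁻ w, ∫⁻ V, ∫⁻ u, G w V u * ∫⁻ k, Θ w k ∂(E (V, u)) ∂(ρ V) ∂mV ∂P
      ≤ C * ∫⁻ w, ∫⁻ l, Θ w l ∂lam ∂P + δ

variable (P : Measure Ω) [SFinite P] (mV : Measure 𝒱) [SFinite mV] (lam : Measure Λ) [SFinite lam]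
  (ρ : Kernel 𝒱 ℝ) [IsSFiniteKernel ρ] (E : Kernel (𝒱 × ℝ) Λ) [IsSFiniteKernel E]
  {G : Ω → 𝒱 → ℝ → ℝ≥0∞} (hG : Measurable (fun p : Ω × 𝒱 × ℝ => G p.1 p.2.1 p.2.2))

include hG in
theorem measurable_G_u (w : Ω) (V : 𝒱) : Measurable (G w V) :=
  hG.comp (measurable_const.prodMk (measurable_const.prodMk measurable_id) :
    Measurable fun u : ℝ => (w, V, u))

include hG in
omit [SFinite P] [SFinite mV] [IsSFiniteKernel ρ] in
theorem measurable_G_u' (w : Ω) (V : 𝒱) : Measurable (G w V) :=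
  measurable_G_u hG w V

include hG in
omit [SFinite P] [SFinite mV] in
/-- **SP-A**, both ages, before the use of the quenched input.  `Qo`, `Qy` = old / young law of
`(d, u)` given the cluster. -/
theorem spA_total {L : ℝ} (hL : 0 < L) {Qo Qy : 𝒱 → Measure (Λ × ℝ)} {c₆ c₇ : ℝ≥0∞}
    (hc₆ : c₆ ≠ ∞) (hc₇ : c₇ ≠ ∞)
    (hQo : ∀ V, Qo V ≤ c₆ • lam.prod (ρ V)) (hQy : ∀ V, (Qy V).map Prod.snd ≤ c₇ • ρ V)
    {θD : Ω → 𝒱 → ℝ} {θV : Ω → 𝒱 → Λ → ℝ} (hθV : ∀ w V, Measurable (θV w V)) (t' : ℝ) :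
    ∫⁻ w, ∫⁻ V, ∫⁻ q, G w V q.2 * {q : Λ × ℝ | θD w V < θV w V q.1 ∧ θV w V q.1 ≤ t'}.indicator
        (fun q => W L (lam {l | θV w V l ≤ θV w V q.1})) q ∂(Qo V + Qy V) ∂mV ∂P
      ≤ (c₆ * ENNReal.ofReal (1 / L) + c₇) * ∫⁻ w, ∫⁻ V, ∫⁻ u, G w V u *
          (if θD w V ≤ t' then W L (lam {l | θV w V l ≤ θD w V}) else 0) ∂(ρ V) ∂mV ∂P := by
  have hct : c₆ * ENNReal.ofReal (1 / L) + c₇ ≠ ∞ :=
    ENNReal.add_ne_top.2 ⟨ENNReal.mul_ne_top hc₆ ENNReal.ofReal_ne_top, hc₇⟩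
  have h1 : ∀ w V, ∫⁻ q, G w V q.2 * {q : Λ × ℝ | θD w V < θV w V q.1 ∧ θV w V q.1 ≤ t'}.indicator
        (fun q => W L (lam {l | θV w V l ≤ θV w V q.1})) q ∂(Qo V + Qy V)
      ≤ (c₆ * ENNReal.ofReal (1 / L) + c₇) * ∫⁻ u, G w V u *
          (if θD w V ≤ t' then W L (lam {l | θV w V l ≤ θD w V}) else 0) ∂(ρ V) := by
    intro w V
    have hGm := measurable_G_u hG w V
    rw [lintegral_add_measure, add_mul, lintegral_mul_const _ hGm]
    exact add_le_add (spA_one_old hL lam (ρ V) (Qo V) c₆ (hQo V) hGm (θD w V) (hθV w V) t')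
      (spA_one_young hL.le lam (ρ V) (Qy V) c₇ (hQy V) hGm (θD w V) (θV w V) t')
  calc ∫⁻ w, ∫⁻ V, ∫⁻ q, G w V q.2 *
        {q : Λ × ℝ | θD w V < θV w V q.1 ∧ θV w V q.1 ≤ t'}.indicator
        (fun q => W L (lam {l | θV w V l ≤ θV w V q.1})) q ∂(Qo V + Qy V) ∂mV ∂P
      ≤ ∫⁻ w, ∫⁻ V, (c₆ * ENNReal.ofReal (1 / L) + c₇) * ∫⁻ u, G w V u *
          (if θD w V ≤ t' then W L (lam {l | θV w V l ≤ θD w V}) else 0) ∂(ρ V) ∂mV ∂P :=
        lintegral_mono fun w => lintegral_mono fun V => h1 w V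
    _ = _ := by
        simp_rw [lintegral_const_mul' _ _ hct]

/-- touched weight of one line in the base world -/
noncomputable def Θ₀ (lam : Measure Λ) (L : ℝ) (θ₀ : Ω → Λ → ℝ) (t' : ℝ) (w : Ω) (l : Λ) : ℝ≥0∞ :=
  if θ₀ w l ≤ t' then W L (lam {l' | θ₀ w l' ≤ θ₀ w l}) else 0

omit [MeasurableSpace Ω] [SFinite lam] in
theorem Θ₀_le_one {L : ℝ} (hL : 0 ≤ L) (θ₀ : Ω → Λ → ℝ) (t' : ℝ) (w : Ω) (l : Λ) :
    Θ₀ lam L θ₀ t' w l ≤ 1 := by
  unfold Θ₀
  split_ifs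
  · exact W_le_one hL _
  · exact zero_le_one

theorem measurable_Θ₀ {L : ℝ} {θ₀ : Ω → Λ → ℝ} (hθ₀ : Measurable (fun p : Ω × Λ => θ₀ p.1 p.2))
    (t' : ℝ) : Measurable (fun p : Ω × Λ => Θ₀ lam L θ₀ t' p.1 p.2) := by
  unfold Θ₀
  refine Measurable.ite (measurableSet_le hθ₀ measurable_const) ?_ measurable_const
  exact (measurable_W L).comp (measurable_touched_le hθ₀ lam)

include hG in
omit [SFinite P] in
/-- **SP-A**, use of the quenched input: the first touch time of the lines of `V` is (off links,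
error `err`) the touch time of one of its marked lines. -/
theorem spA_quenched {L : ℝ} (hL : 0 ≤ L) {C δ : ℝ≥0∞} (hQE : QE P mV ρ lam G E C δ)
    {θD : Ω → 𝒱 → ℝ} {θV : Ω → 𝒱 → Λ → ℝ} {θ₀ : Ω → Λ → ℝ}
    (hθ₀ : Measurable (fun p : Ω × Λ => θ₀ p.1 p.2)) (t' : ℝ) {err : Ω → 𝒱 → ℝ → ℝ≥0∞}
    (hsel : ∀ w V u, G w V u * (if θD w V ≤ t' then W L (lam {l | θV w V l ≤ θD w V}) else 0)
      ≤ G w V u * ∫⁻ k, Θ₀ lam L θ₀ t' w k ∂(E (V, u)) + err w V u) :
    ∫⁻ w, ∫⁻ V, ∫⁻ u, G w V u *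
          (if θD w V ≤ t' then W L (lam {l | θV w V l ≤ θD w V}) else 0) ∂(ρ V) ∂mV ∂P
      ≤ C * ∫⁻ w, ∫⁻ l, Θ₀ lam L θ₀ t' w l ∂lam ∂P + δ
        + ∫⁻ w, ∫⁻ V, ∫⁻ u, err w V u ∂(ρ V) ∂mV ∂P := by
  have hΘ := measurable_Θ₀ lam (L := L) hθ₀ t'
  -- measurability of the main integrand
  have hm1 : Measurable fun p : (Ω × 𝒱) × ℝ =>
      G p.1.1 p.1.2 p.2 * ∫⁻ k, Θ₀ lam L θ₀ t' p.1.1 k ∂(E (p.1.2, p.2)) := by
    refine Measurable.mul ?_ ?_
    · exact hG.comp ((measurable_fst.comp measurable_fst).prodMk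
        ((measurable_snd.comp measurable_fst).prodMk measurable_snd))
    · have : Measurable (Function.uncurry fun (p : (Ω × 𝒱) × ℝ) (k : Λ) =>
          Θ₀ lam L θ₀ t' p.1.1 k) :=
        hΘ.comp ((measurable_fst.comp (measurable_fst.comp measurable_fst)).prodMk measurable_snd)
      exact Measurable.lintegral_kernel_prod_right
        (κ := Kernel.comap E (fun p : (Ω × 𝒱) × ℝ => (p.1.2, p.2))
          ((measurable_snd.comp measurable_fst).prodMk measurable_snd)) this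
  have hm2 : Measurable fun p : Ω × 𝒱 =>
      ∫⁻ u, G p.1 p.2 u * ∫⁻ k, Θ₀ lam L θ₀ t' p.1 k ∂(E (p.2, u)) ∂(ρ p.2) :=
    Measurable.lintegral_kernel_prod_right (κ := Kernel.comap ρ (fun p : Ω × 𝒱 => p.2)
      measurable_snd) (f := fun p u => G p.1 p.2 u * ∫⁻ k, Θ₀ lam L θ₀ t' p.1 k ∂(E (p.2, u))) hm1
  calc ∫⁻ w, ∫⁻ V, ∫⁻ u, G w V u *
          (if θD w V ≤ t' then W L (lam {l | θV w V l ≤ θD w V}) else 0) ∂(ρ V) ∂mV ∂P
      ≤ ∫⁻ w, ∫⁻ V, ∫⁻ u, (G w V u * ∫⁻ k, Θ₀ lam L θ₀ t' w k ∂(E (V, u)) + err w V u)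
          ∂(ρ V) ∂mV ∂P :=
        lintegral_mono fun w => lintegral_mono fun V => lintegral_mono fun u => hsel w V u
    _ = ∫⁻ w, ∫⁻ V, ∫⁻ u, G w V u * ∫⁻ k, Θ₀ lam L θ₀ t' w k ∂(E (V, u)) ∂(ρ V) ∂mV ∂P
        + ∫⁻ w, ∫⁻ V, ∫⁻ u, err w V u ∂(ρ V) ∂mV ∂P := by
        have e1 : ∀ w V, ∫⁻ u, (G w V u * ∫⁻ k, Θ₀ lam L θ₀ t' w k ∂(E (V, u)) + err w V u) ∂(ρ V)
            = ∫⁻ u, G w V u * ∫⁻ k, Θ₀ lam L θ₀ t' w k ∂(E (V, u)) ∂(ρ V)
              + ∫⁻ u, err w V u ∂(ρ V) := fun w V =>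
          lintegral_add_left (hm1.comp (measurable_const.prodMk measurable_id :
            Measurable fun u : ℝ => ((w, V), u))) _
        have e2 : ∀ w, ∫⁻ V, (∫⁻ u, G w V u * ∫⁻ k, Θ₀ lam L θ₀ t' w k ∂(E (V, u)) ∂(ρ V)
              + ∫⁻ u, err w V u ∂(ρ V)) ∂mV
            = ∫⁻ V, ∫⁻ u, G w V u * ∫⁻ k, Θ₀ lam L θ₀ t' w k ∂(E (V, u)) ∂(ρ V) ∂mV
              + ∫⁻ V, ∫⁻ u, err w V u ∂(ρ V) ∂mV := fun w =>
          lintegral_add_left (hm2.comp measurable_prodMk_left) _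
        simp_rw [e1, e2]
        exact lintegral_add_left hm2.lintegral_prod_right' _
    _ ≤ _ := by
        gcongr
        exact hQE _ hΘ (Θ₀_le_one lam hL θ₀ t')

/-! ### SP-B -/

/-- touched weight of the pair `(d, k)`: `d` touches the base world at a time in `(t_w, t']`, `k`
touches the world with `d` later; the weight is the one of the world with `d` at the second touch,
cut by the weight of the base world at the first touch. -/
noncomputable def Ψ (lam : Measure Λ) (L : ℝ) (θ₀ : Ω → Λ → ℝ) (θd : Ω → Λ → Λ → ℝ) (tw t' : ℝ)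
    (w : Ω) (d k : Λ) : ℝ≥0∞ :=
  if tw < θ₀ w d ∧ θ₀ w d < θd w d k ∧ θd w d k ≤ t' then
    min (W L (lam {l | θd w d l ≤ θd w d k})) (W L (lam {l | θ₀ w l ≤ θ₀ w d})) else 0

theorem measurable_Ψ {L : ℝ} {θ₀ : Ω → Λ → ℝ} (hθ₀ : Measurable (fun p : Ω × Λ => θ₀ p.1 p.2))
    {θd : Ω → Λ → Λ → ℝ} (hθd : Measurable (fun p : Ω × Λ × Λ => θd p.1 p.2.1 p.2.2)) (tw t' : ℝ) :
    Measurable (fun p : (Ω × Λ) × Λ => Ψ lam L θ₀ θd tw t' p.1.1 p.1.2 p.2) := by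
  unfold Ψ
  have h0 : Measurable fun p : (Ω × Λ) × Λ => θ₀ p.1.1 p.1.2 := hθ₀.comp measurable_fst
  have hd : Measurable fun p : (Ω × Λ) × Λ => θd p.1.1 p.1.2 p.2 :=
    hθd.comp ((measurable_fst.comp measurable_fst).prodMk
      ((measurable_snd.comp measurable_fst).prodMk measurable_snd))
  refine Measurable.ite ?_ (Measurable.min ?_ ?_) measurable_const
  · exact (measurableSet_lt measurable_const h0).inter
      ((measurableSet_lt h0 hd).inter (measurableSet_le hd measurable_const))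
  · exact (measurable_W L).comp (measurable_touched_le (V := Ω × Λ)
      (θ := fun q l => θd q.1 q.2 l) hd lam)
  · exact ((measurable_W L).comp (measurable_touched_le hθ₀ lam)).comp measurable_fst

omit [MeasurableSpace Ω] in
/-- the touched mass of the first lines is at most `1 / L` -/
theorem lintegral_Ψ_le {L : ℝ} (hL : 0 < L) {θ₀ : Ω → Λ → ℝ} (w : Ω) (hθ₀ : Measurable (θ₀ w))
    (θd : Ω → Λ → Λ → ℝ) (tw t' : ℝ) (k : Λ) :
    ∫⁻ d, Ψ lam L θ₀ θd tw t' w d k ∂lam ≤ ENNReal.ofReal (1 / L) := by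
  calc ∫⁻ d, Ψ lam L θ₀ θd tw t' w d k ∂lam
      ≤ ∫⁻ d in {d | tw < θ₀ w d}, W L (lam {l | θ₀ w l ≤ θ₀ w d}) ∂lam := by
        have hms : MeasurableSet {d | tw < θ₀ w d} := hθ₀ measurableSet_Ioi
        rw [← lintegral_indicator hms]
        refine lintegral_mono fun d => ?_
        unfold Ψ
        split_ifs with h
        · rw [indicator_of_mem (show d ∈ {d | tw < θ₀ w d} from h.1)]
          exact min_le_right _ _
        · exact zero_le
    _ ≤ ENNReal.ofReal (1 / L) * W L (lam {l | θ₀ w l ≤ tw}) := stieltjes_lt hL lam hθ₀ tw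
    _ ≤ ENNReal.ofReal (1 / L) * 1 := by gcongr; exact W_le_one hL.le _
    _ = _ := mul_one _

omit [MeasurableSpace Ω] in
/-- second touch: Stieltjes in the world with `d` -/
theorem lintegral_Ψ_second_le {L : ℝ} (hL : 0 < L) (θ₀ : Ω → Λ → ℝ) {θd : Ω → Λ → Λ → ℝ}
    (tw t' : ℝ) (w : Ω) (d : Λ) (hθd : Measurable (θd w d)) :
    ∫⁻ k, Ψ lam L θ₀ θd tw t' w d k ∂lam ≤ ENNReal.ofReal (1 / L) *
      (if tw < θ₀ w d ∧ θ₀ w d ≤ t' then W L (lam {l | θd w d l ≤ θ₀ w d}) else 0) := by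
  split_ifs with h
  · calc ∫⁻ k, Ψ lam L θ₀ θd tw t' w d k ∂lam
        ≤ ∫⁻ k in {k | θ₀ w d < θd w d k}, W L (lam {l | θd w d l ≤ θd w d k}) ∂lam := by
          have hms : MeasurableSet {k | θ₀ w d < θd w d k} := hθd measurableSet_Ioi
          rw [← lintegral_indicator hms]
          refine lintegral_mono fun k => ?_
          unfold Ψ
          split_ifs with h'
          · rw [indicator_of_mem (show k ∈ {k | θ₀ w d < θd w d k} from h'.2.1)]
            exact min_le_left _ _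
          · exact zero_le
      _ ≤ _ := stieltjes_lt hL lam hθd _
  · have : ∀ k, Ψ lam L θ₀ θd tw t' w d k = 0 := by
      intro k
      unfold Ψ
      rw [if_neg]
      rintro ⟨h1, h2, h3⟩
      exact h ⟨h1, h2.le.trans h3⟩
    simp [this]

include hG in
omit [SFinite P] [SFinite mV] in
/-- **SP-B**, old part. -/
theorem spB_old {L : ℝ} (hL : 0 < L) {Qo : 𝒱 → Measure (Λ × ℝ)} {c₆ C δ : ℝ≥0∞}
    (hc₆ : c₆ ≠ ∞) (hQo : ∀ V, Qo V ≤ c₆ • lam.prod (ρ V))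
    (hQE : QE P mV ρ lam G E C δ)
    {θ₀ : Ω → Λ → ℝ} (hθ₀ : Measurable (fun p : Ω × Λ => θ₀ p.1 p.2))
    {θd : Ω → Λ → Λ → ℝ} (hθd : Measurable (fun p : Ω × Λ × Λ => θd p.1 p.2.1 p.2.2)) (tw t' : ℝ) :
    ∫⁻ w, ∫⁻ V, ∫⁻ q, G w V q.2 * ∫⁻ k, Ψ lam L θ₀ θd tw t' w q.1 k ∂(E (V, q.2)) ∂(Qo V) ∂mV ∂P
      ≤ c₆ * ENNReal.ofReal (1 / L) * (C * ∫⁻ w, ∫⁻ d,
          (if tw < θ₀ w d ∧ θ₀ w d ≤ t' then W L (lam {l | θd w d l ≤ θ₀ w d}) else 0) ∂lam ∂P
          + δ) := by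
  have hΨ := measurable_Ψ lam (L := L) hθ₀ hθd tw t'
  -- joint measurability of the inner integrand, for fixed `w`, `V`
  have hin : ∀ (w : Ω) (V : 𝒱), Measurable fun p : Λ × ℝ =>
      G w V p.2 * ∫⁻ k, Ψ lam L θ₀ θd tw t' w p.1 k ∂(E (V, p.2)) := by
    intro w V
    refine ((measurable_G_u hG w V).comp measurable_snd).mul ?_
    have : Measurable (Function.uncurry fun (p : Λ × ℝ) (k : Λ) => Ψ lam L θ₀ θd tw t' w p.1 k) :=
      hΨ.comp ((measurable_const.prodMk (measurable_fst.comp measurable_fst)).prodMk measurable_snd)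
    exact Measurable.lintegral_kernel_prod_right
      (κ := Kernel.comap E (fun p : Λ × ℝ => (V, p.2)) (measurable_const.prodMk measurable_snd))
      this
  set Θ : Ω → Λ → ℝ≥0∞ := fun w k => ENNReal.ofReal L * ∫⁻ d, Ψ lam L θ₀ θd tw t' w d k ∂lam
    with hΘdef
  have hΘm : Measurable (fun p : Ω × Λ => Θ p.1 p.2) := by
    rw [hΘdef]
    refine Measurable.const_mul ?_ _
    have : Measurable (Function.uncurry fun (p : Ω × Λ) (d : Λ) =>
        Ψ lam L θ₀ θd tw t' p.1 d p.2) :=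
      hΨ.comp (((measurable_fst.comp measurable_fst).prodMk measurable_snd).prodMk
        (measurable_snd.comp measurable_fst))
    exact this.lintegral_prod_right'
  have hL1 : ENNReal.ofReal L * ENNReal.ofReal (1 / L) = 1 := by
    rw [← ENNReal.ofReal_mul hL.le, mul_one_div_cancel hL.ne', ENNReal.ofReal_one]
  have hΘ1 : ∀ w k, Θ w k ≤ 1 := by
    intro w k
    calc Θ w k ≤ ENNReal.ofReal L * ENNReal.ofReal (1 / L) := by
          rw [hΘdef]
          refine mul_le_mul_right ?_ _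
          exact lintegral_Ψ_le lam hL w (hθ₀.comp measurable_prodMk_left) θd tw t' k
      _ = 1 := hL1
  have key := hQE Θ hΘm hΘ1
  have hΨd : ∀ (w : Ω) (k : Λ), Measurable fun d => Ψ lam L θ₀ θd tw t' w d k := fun w k =>
    hΨ.comp ((measurable_const.prodMk measurable_id).prodMk measurable_const)
  -- step 1 : domination of `Qo`, Tonelli
  have step1 : ∀ w V, ∫⁻ q, G w V q.2 * ∫⁻ k, Ψ lam L θ₀ θd tw t' w q.1 k ∂(E (V, q.2)) ∂(Qo V)
      ≤ c₆ * ENNReal.ofReal (1 / L) * ∫⁻ u, G w V u * ∫⁻ k, Θ w k ∂(E (V, u)) ∂(ρ V) := by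
    intro w V
    have hswap : ∀ u, ∫⁻ d, ∫⁻ k, Ψ lam L θ₀ θd tw t' w d k ∂(E (V, u)) ∂lam
        = ∫⁻ k, ∫⁻ d, Ψ lam L θ₀ θd tw t' w d k ∂lam ∂(E (V, u)) := by
      intro u
      have : Measurable (Function.uncurry fun (d k : Λ) => Ψ lam L θ₀ θd tw t' w d k) :=
        hΨ.comp ((measurable_const.prodMk measurable_fst).prodMk measurable_snd)
      exact lintegral_lintegral_swap this.aemeasurable
    calc ∫⁻ q, G w V q.2 * ∫⁻ k, Ψ lam L θ₀ θd tw t' w q.1 k ∂(E (V, q.2)) ∂(Qo V)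
        ≤ ∫⁻ q, G w V q.2 * ∫⁻ k, Ψ lam L θ₀ θd tw t' w q.1 k ∂(E (V, q.2))
            ∂(c₆ • lam.prod (ρ V)) := lintegral_mono' (hQo V) le_rfl
      _ = c₆ * ∫⁻ u, ∫⁻ d, G w V u * ∫⁻ k, Ψ lam L θ₀ θd tw t' w d k ∂(E (V, u)) ∂lam ∂(ρ V) := by
          rw [lintegral_smul_measure, smul_eq_mul,
            lintegral_prod_symm (fun q : Λ × ℝ =>
              G w V q.2 * ∫⁻ k, Ψ lam L θ₀ θd tw t' w q.1 k ∂(E (V, q.2))) (hin w V).aemeasurable]
      _ = c₆ * ∫⁻ u, G w V u * ∫⁻ k, ∫⁻ d, Ψ lam L θ₀ θd tw t' w d k ∂lam ∂(E (V, u)) ∂(ρ V) := by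
          congr 1
          refine lintegral_congr fun u => ?_
          rw [← hswap u, lintegral_const_mul]
          have : Measurable (Function.uncurry fun (d : Λ) (k : Λ) =>
              Ψ lam L θ₀ θd tw t' w d k) :=
            hΨ.comp ((measurable_const.prodMk measurable_fst).prodMk measurable_snd)
          exact this.lintegral_prod_right'
      _ = c₆ * ∫⁻ u, ENNReal.ofReal (1 / L) * (G w V u * ∫⁻ k, Θ w k ∂(E (V, u))) ∂(ρ V) := by
          congr 1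
          refine lintegral_congr fun u => ?_
          have hk : Measurable fun k => ∫⁻ d, Ψ lam L θ₀ θd tw t' w d k ∂lam := by
            have : Measurable (Function.uncurry fun (k : Λ) (d : Λ) =>
                Ψ lam L θ₀ θd tw t' w d k) :=
              hΨ.comp ((measurable_const.prodMk measurable_snd).prodMk measurable_fst)
            exact this.lintegral_prod_right'
          have e : ∫⁻ k, Θ w k ∂(E (V, u))
              = ENNReal.ofReal L * ∫⁻ k, ∫⁻ d, Ψ lam L θ₀ θd tw t' w d k ∂lam ∂(E (V, u)) := by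
            rw [hΘdef]
            exact lintegral_const_mul _ hk
          rw [e]
          calc G w V u * ∫⁻ k, ∫⁻ d, Ψ lam L θ₀ θd tw t' w d k ∂lam ∂(E (V, u))
              = (ENNReal.ofReal L * ENNReal.ofReal (1 / L)) *
                (G w V u * ∫⁻ k, ∫⁻ d, Ψ lam L θ₀ θd tw t' w d k ∂lam ∂(E (V, u))) := by
                rw [hL1, one_mul]
            _ = _ := by ring
      _ = c₆ * (ENNReal.ofReal (1 / L) *
            ∫⁻ u, G w V u * ∫⁻ k, Θ w k ∂(E (V, u)) ∂(ρ V)) := by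
          rw [lintegral_const_mul' _ _ ENNReal.ofReal_ne_top]
      _ = _ := (mul_assoc _ _ _).symm
  have hct : c₆ * ENNReal.ofReal (1 / L) ≠ ∞ := ENNReal.mul_ne_top hc₆ ENNReal.ofReal_ne_top
  calc ∫⁻ w, ∫⁻ V, ∫⁻ q, G w V q.2 *
        ∫⁻ k, Ψ lam L θ₀ θd tw t' w q.1 k ∂(E (V, q.2)) ∂(Qo V) ∂mV ∂P
      ≤ ∫⁻ w, ∫⁻ V, c₆ * ENNReal.ofReal (1 / L) *
          ∫⁻ u, G w V u * ∫⁻ k, Θ w k ∂(E (V, u)) ∂(ρ V) ∂mV ∂P :=
        lintegral_mono fun w => lintegral_mono fun V => step1 w V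
    _ = c₆ * ENNReal.ofReal (1 / L) *
          ∫⁻ w, ∫⁻ V, ∫⁻ u, G w V u * ∫⁻ k, Θ w k ∂(E (V, u)) ∂(ρ V) ∂mV ∂P := by
        simp_rw [lintegral_const_mul' _ _ hct]
    _ ≤ c₆ * ENNReal.ofReal (1 / L) * (C * ∫⁻ w, ∫⁻ l, Θ w l ∂lam ∂P + δ) := by gcongr
    _ ≤ _ := by
        refine mul_le_mul_right (add_le_add (mul_le_mul_right
          (lintegral_mono fun w => ?_) _) le_rfl) _
        -- `∫ Θ ≤ ∫ d, (if ..)`
        have hΨ2 : Measurable (Function.uncurry fun (k : Λ) (d : Λ) =>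
            Ψ lam L θ₀ θd tw t' w d k) :=
          hΨ.comp ((measurable_const.prodMk measurable_snd).prodMk measurable_fst)
        calc ∫⁻ l, Θ w l ∂lam
            = ENNReal.ofReal L * ∫⁻ k, ∫⁻ d, Ψ lam L θ₀ θd tw t' w d k ∂lam ∂lam := by
              rw [hΘdef]
              exact lintegral_const_mul _ hΨ2.lintegral_prod_right'
          _ = ENNReal.ofReal L * ∫⁻ d, ∫⁻ k, Ψ lam L θ₀ θd tw t' w d k ∂lam ∂lam := by
              congr 1
              exact lintegral_lintegral_swap hΨ2.aemeasurable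
          _ ≤ ENNReal.ofReal L * ∫⁻ d, ENNReal.ofReal (1 / L) *
              (if tw < θ₀ w d ∧ θ₀ w d ≤ t' then W L (lam {l | θd w d l ≤ θ₀ w d}) else 0) ∂lam := by
              gcongr with d
              exact lintegral_Ψ_second_le lam hL θ₀ tw t' w d
                (hθd.comp (measurable_const.prodMk (measurable_const.prodMk measurable_id)))
          _ = (ENNReal.ofReal L * ENNReal.ofReal (1 / L)) * ∫⁻ d,
              (if tw < θ₀ w d ∧ θ₀ w d ≤ t' then W L (lam {l | θd w d l ≤ θ₀ w d}) else 0) ∂lam := by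
              rw [lintegral_const_mul' _ _ ENNReal.ofReal_ne_top, mul_assoc]
          _ = _ := by rw [hL1, one_mul]

end total

end Crest.Agent.R122.SP994
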