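import Crest.Agent.R122.PairSplit_292
import Crest.Agent.R122.GasE4b_285
import Crest.Agent.R122.MeasPair_522
import Crest.Agent.R122.GSCalc_495
import Crest.Agent.R122.HitG4_167

/-!
# Inequality 3 of section E (row 122, board H4), helper292: reduction to trees, gas level

* `path_Zd_of_cMeet2`, `firstHit_of_cMeet2`, `ent_of_real6` : the clean first contact is the entrance
  into the ball of the root line.
* `real6_of_red` : real structures after relabelling.
* `RedAt`, `MajAt6`, `clus_point6`, `clus_tree6` : the clean part of the pair functional is at most the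
  structure integral of a majorant plus the flux of the errors of the reduction.
* `pelk_split` : `PELK ≤ clean + DIR + BAD`.
-/

set_option autoImplicit false
set_option linter.unusedSectionVars false

open MeasureTheory Set Filter
open scoped ENNReal Classical Topology
open Crest.AnalysisR.Kinetic
open Crest.Agent.R122.Kin796 Crest.Agent.R122.Kin796.CTree Crest.Agent.R122.Tree674
open Crest.Agent.R122.Relabel674 Crest.Agent.R122.GC311 Crest.Agent.R122.Flow671
open Crest.Agent.R122.EDefs602 Crest.Agent.R122.TreeLines335 Crest.Agent.R122.OC285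
open Crest.Agent.R122.Boost969 (LSt posAt)
open Crest.Agent.R122.Pair292 (Lab CDat PPar PX sig)
open Crest.Agent.R122.OneC285 (cfT rt cT cB cD cX lpos uI ptube RF MeasRF rfl4 extP extP_castAdd
  append_extP block_map_extP exists_topLt root_path_of_real card_preC_le_of_not_inf RedAt)

noncomputable section

namespace Crest.Agent.R122.PairD292

variable {Φ : Space3 → ℝ} {f₀ : PhasePoint → ℝ} {ε T te T' : ℝ} {K : ℕ} {Q : EPar} {n : ℕ}

/-! ## The clean first contact -/

section contact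

variable {w : Config n} {θ : Lab × LSt} {i : Fin n}

theorem tC_pos (h0 : 0 < (eL θ).1.1) (h : CMeet2 Φ ε K T w θ i) : 0 < tC Φ ε T w θ :=
  h0.trans h.lt

/-- The path of a particle which is not influenced by `d`. -/
theorem path_Zd_of_not_fut (hΦ : AdmissiblePotential Φ) (hε : 0 < ε) (hw : w ∈ PairExcluded ε n)
    (hok : (Zd w θ).Ok Φ ε) {s : ℝ} (h : ¬ (MW.cfg w).Fut Φ ε (MW.line (dL θ)) s i) {r : ℝ}
    (hr : r ∈ Icc 0 s) : (Zd w θ).path Φ ε r (Sum.inl i) = flow Φ ε r w i := by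
  have h1 : ¬ (MW.cfg w).Fut Φ ε (MW.line (dL θ)) r i := fun h' => h (EBasic602.fut_mono hr.2 h')
  have h2 := MW.path_eq_of_not_fut (Z := MW.cfg w) (A := MW.line (dL θ)) hΦ hε
    (Unw410.cfg_ok hΦ hε hw) hok hr.1 h1
  have h3 : (MW.cfg w).path Φ ε r i = flow Φ ε r w i := by
    rw [EBasic602.cfg_path hΦ hε]
    rfl
  rw [← h3, h2]
  rfl

theorem not_inf_of_cMeet2 (hΦ : AdmissiblePotential Φ) (hε : 0 < ε) (hw : w ∈ PairExcluded ε n)
    (hok : (Zd w θ).Ok Φ ε) (h0 : 0 < (eL θ).1.1) (h : CMeet2 Φ ε K T w θ i) :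
    ¬ (MW.cfg w).Inf Φ ε K (tC Φ ε T w θ) i := by
  intro hi
  refine h.clean ⟨Sum.inl i, h.ct, ?_⟩
  have h1 := MW.histEq_of_not_fut (Z := MW.cfg w) (A := MW.line (dL θ)) hΦ hε
    (Unw410.cfg_ok hΦ hε hw) hok (tC_pos h0 h).le h.nofut
  exact ((MW.com_add (MW.cfg w) (MW.line (dL θ))).coh h1).1 hi

/-- The clean first contact is a first hit. -/
theorem firstHit_of_cMeet2 (hΦ : AdmissiblePotential Φ) (hε : 0 < ε) (hw : w ∈ PairExcluded ε n)
    (hok : (Zd w θ).Ok Φ ε) (h0 : 0 < (eL θ).1.1) (h : CMeet2 Φ ε K T w θ i) :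
    OC663.FirstHit ε (fun r => (back (eL θ).1).1 + r • (eL θ).1.2.2)
      (fun r => (flow Φ ε r w i).1) (eL θ).1.1 (tC Φ ε T w θ) := by
  set s := tC Φ ε T w θ with hs
  have hs0 : 0 < s := tC_pos h0 h
  have hcont : Continuous fun s => flow Φ ε s w := flow_continuous_time hΦ hε w
  have hcl : Continuous fun r => lpos (eL θ) r := by unfold lpos; fun_prop
  have hd : Continuous fun r => dist (lpos (eL θ) r) (flow Φ ε r w i).1 :=
    hcl.dist (continuous_fst.comp ((continuous_apply i).comp hcont))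
  have hpath : ∀ r ∈ Icc 0 s, (Zd w θ).path Φ ε r (Sum.inl i) = flow Φ ε r w i := fun r hr =>
    path_Zd_of_not_fut hΦ hε hw hok h.nofut hr
  have hfar : ∀ r ∈ Ioo (eL θ).1.1 s, ε < dist (lpos (eL θ) r) (flow Φ ε r w i).1 := by
    intro r hr
    have h1 := far_of_lt_mT2 (Φ := Φ) (ε := ε) (T := T) (Z := Zd w θ) (l := eL θ)
      (s₁ := s) le_rfl h.le r (Sum.inl i) hr.1.le hr.2 (h0.trans hr.1).le (Or.inr hr.1)
    rw [hpath r ⟨(h0.trans hr.1).le, hr.2.le⟩] at h1
    exact h1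
  have hct : dist (lpos (eL θ) s) (flow Φ ε s w i).1 ≤ ε := by
    rw [← hpath s ⟨hs0.le, le_rfl⟩]
    exact h.ct.2.2.2
  refine ⟨h.lt, ?_, fun r hr => ?_⟩
  · have h1 : ‖(back (eL θ).1).1 + s • (eL θ).1.2.2 - (flow Φ ε s w i).1‖ =
        dist (lpos (eL θ) s) (flow Φ ε s w i).1 := (dist_eq_norm _ _).symm
    rw [h1]
    refine le_antisymm hct ?_
    by_contra hlt
    push Not at hlt
    have h2 : ∀ᶠ r in 𝓝[<] s, dist (lpos (eL θ) r) (flow Φ ε r w i).1 < ε :=
      (hd.continuousAt.eventually (gt_mem_nhds hlt)).filter_mono nhdsWithin_le_nhds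
    have h3 : ∀ᶠ r in 𝓝[<] s, r ∈ Ioo (eL θ).1.1 s := Ioo_mem_nhdsLT h.lt
    obtain ⟨r, hr1, hr2⟩ := (h2.and h3).exists
    exact absurd (hfar r hr2) (not_lt.2 hr1.le)
  · have h1 : ‖(back (eL θ).1).1 + r • (eL θ).1.2.2 - (flow Φ ε r w i).1‖ =
        dist (lpos (eL θ) r) (flow Φ ε r w i).1 := (dist_eq_norm _ _).symm
    show ε < ‖(back (eL θ).1).1 + r • (eL θ).1.2.2 - (flow Φ ε r w i).1‖
    rw [h1]
    exact hfar r hr

/-- The entrance data of a real contact. -/
theorem ent_of_real6 (hΦ : AdmissiblePotential Φ) (hε : 0 < ε) (hw : w ∈ PairExcluded ε n)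
    (hok : (Zd w θ).Ok Φ ε) (h0 : 0 < (eL θ).1.1) (h : CMeet2 Φ ε K T w θ i) {P : CTree}
    {z : PhasePoint × Par P} {e : Idx P → Fin n}
    (hr : RealTree674.RealTree Φ ε (tC Φ ε T w θ) w i P z.1 z.2 e) :
    OneC423.Enters ε z.1 (eL θ).1 (tC Φ ε T w θ) := by
  have hs : 0 < tC Φ ε T w θ := tC_pos h0 h
  obtain ⟨α, hα0, hα, hα'⟩ := exists_topLt hs hr.valid
  have hc : ∀ r ∈ Icc α (tC Φ ε T w θ), (flow Φ ε r w i).1 = z.1.1 + r • z.1.2 := by
    intro r hrr
    rw [root_path_of_real hε hr (hα0.trans hrr.1) hrr.2 (hα' r hrr.1)]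
    rfl
  obtain ⟨h1, h2, h3⟩ := (firstHit_of_cMeet2 hΦ hε hw hok h0 h).ent hε hα hc
  exact ⟨h1, h2, h3⟩

end contact

/-! ## Real structures -/

theorem cMeet2_of_clM2 {m k : ℕ} {X : Config (k + m)} {θ : Lab × LSt} {j : Fin k}
    (h : clM2 Φ ε K T (k + m) X (Fin.castAdd m j) θ = block k m) :
    CMeet2 Φ ε K T X θ (Fin.castAdd m j) ∧
      tC Φ ε T X θ + slk ε < (MW.cfg X).thetaL Φ ε K T (dL θ) := by
  by_contra hC
  have h1 : clM2 Φ ε K T (k + m) X (Fin.castAdd m j) θ = ∅ := by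
    unfold clM2
    rw [if_neg hC]
  rw [h1] at h
  have : Fin.castAdd m j ∈ block k m := castAdd_mem_block j
  rw [← h] at this
  exact absurd this (Finset.notMem_empty _)

theorem real6_of_red (hΦ : AdmissiblePotential Φ) (hε : 0 < ε) {k m : ℕ} {V : Config k}
    {w : Config m} {j : Fin k} {θ : Lab × LSt} (hV : V ∈ PairExcluded ε k)
    (hw : w ∈ PairExcluded ε m) (hp : Perp ε V w)
    (hblk : clM2 Φ ε K te (k + m) (Fin.append V w) (Fin.castAdd m j) θ = block k m)
    (hL : OkL K θ) (hW : OkW Φ ε (Fin.append V w) θ) {P : CTree} {e : Idx P ≃ Fin k}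
    {z : PhasePoint × Par P} (he : e (root P) = j) (hVl : ∀ x, V (e x) = lines Φ ε P z.1 z.2 x)
    (hv : Valid Φ ε P T' z.1.2 z.2) (hs : Sep Φ ε P T' z.1 z.2)
    (hr : RealTree674.RealTree Φ ε (tC Φ ε te (Fin.append V w) θ) (Fin.append V w)
      (Fin.castAdd m j) P z.1 z.2 (fun x => Fin.castAdd m (e x))) :
    P.leaves = k ∧ Real6 Φ ε K te T' P z w θ ∧
      tPK Φ ε K Q (Fin.append V w) θ = tPK Φ ε K Q (Fin.append (cfT Φ ε P z) w) θ := by
  have hk : P.leaves = k := by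
    have := Fintype.card_congr e
    rw [card_idx, Fintype.card_fin] at this
    exact this
  subst hk
  refine ⟨rfl, ?_⟩
  set σ : Equiv.Perm (Fin P.leaves) := (eP P).symm.trans e with hσ
  have hcf : cfT Φ ε P z = fun i => V (σ i) := by
    funext i
    show lines Φ ε P z.1 z.2 ((eP P).symm i) = V (e ((eP P).symm i))
    rw [hVl]
  have hap : (Fin.append (cfT Φ ε P z) w : Config (P.leaves + m)) =
      fun i => Fin.append V w (extP m σ i) := by
    rw [hcf, append_extP]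
  have hσr : σ (rt P) = j := by
    show e ((eP P).symm (eP P (root P))) = j
    rw [Equiv.symm_apply_apply, he]
  have hVw : (Fin.append V w : Config (P.leaves + m)) ∈ PairExcluded ε (P.leaves + m) :=
    (append_mem_pairExcluded_iff V w).2 ⟨hV, hw, hp⟩
  obtain ⟨hC, hearly⟩ := cMeet2_of_clM2 hblk
  have hmT : tC Φ ε te (Fin.append (cfT Φ ε P z) w) θ = tC Φ ε te (Fin.append V w) θ := by
    rw [hap]
    exact MeasPair522.tC_perm _ _ _ hΦ hε
  have hent := ent_of_real6 hΦ hε hVw hW.1 hL.e0 hC hr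
  have hcT : cT ε z (eL θ) = tC Φ ε te (Fin.append V w) θ := hent.2.2.symm
  have h3 : extP m σ (Fin.castAdd m (rt P)) = Fin.castAdd m j := by rw [extP_castAdd, hσr]
  refine ⟨⟨?_, hw, ?_, hv, hs, ?_, ?_, hL, ?_, ?_, ?_, ?_, ?_⟩, ?_⟩
  · rw [hcf]
    intro a b hab
    exact hV _ _ fun h => hab (σ.injective h)
  · rw [hcf]
    intro a b
    exact hp _ _
  · exact OneC423.mem_ctSet hent hC.lt hC.le hr.valid
  · rw [hmT, hcT]
  · rw [hap]
    exact (MeasPair522.okW_perm _ _ _ hΦ hε).2 hW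
  · rw [hap]
    refine (MeasPair522.cMeet2_perm _ _ _ hΦ hε _).2 ?_
    rw [h3]
    exact hC
  · rw [hmT, hap, EquivE416.thetaL_perm hΦ hε]
    exact hearly
  · have h1 : clM2 Φ ε K te (P.leaves + m) (Fin.append (cfT Φ ε P z) w)
        (Fin.castAdd m (rt P)) θ = block P.leaves m := by
      have h2 := MeasPair522.clM2_perm (Φ := Φ) (ε := ε) (T := te) (K := K)
        (Fin.append V w : Config (P.leaves + m)) (extP m σ) θ hΦ hε (Fin.castAdd m (rt P))
      rw [h3, hblk, ← hap] at h2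
      have h4 : (block P.leaves m).map (extP m σ).toEmbedding =
          (clM2 Φ ε K te (P.leaves + m) (Fin.append (cfT Φ ε P z) w) (Fin.castAdd m (rt P))
            θ).map (extP m σ).toEmbedding := by
        rw [block_map_extP]
        exact h2
      exact (Finset.map_injective _ h4).symm
    have hC' := cMeet2_of_clM2 h1
    unfold clM2 at h1
    rwa [if_pos hC'] at h1
  · rw [hcT, hap]
    refine (RealTree674.realTree_equiv hΦ hε (extP m σ) (Fin.append V w)
      (Fin.castAdd m (rt P)) (fun x => Fin.castAdd m (eP P x))).2 ?_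
    have h4 : (fun x => extP m σ (Fin.castAdd m (eP P x))) = fun x => Fin.castAdd m (e x) := by
      funext x
      rw [extP_castAdd]
      show Fin.castAdd m (e ((eP P).symm (eP P x))) = _
      rw [Equiv.symm_apply_apply]
    rw [h3, h4]
    exact hr
  · rw [hap]
    exact (MeasPair522.tPK_perm _ _ _ hΦ hε Q).symm

/-! ## Pointwise reduction -/

/-- The functional of contact structures, localised on the contact set. -/
def ctH (Φ : Space3 → ℝ) (ε te : ℝ) (M : SF2) (P : CTree) (z : PhasePoint × Par P) (m : ℕ)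
    (w : Config m) (θ : Lab × LSt) : ℝ≥0∞ :=
  {θ : Lab × LSt | (z, θ.2) ∈ OneC423.ctSet Φ ε te P}.indicator (fun θ => M P z m w θ) θ

theorem OS2_eq_GS (M : SF2) {ν : Measure (Lab × LSt)} :
    OS2 Φ f₀ ε te T' ν M = GSCalc495.GS Φ f₀ ε T' ν (ctH Φ ε te M) := rfl

/-- The cluster functional. -/
def F6 (Φ : Space3 → ℝ) (ε : ℝ) (K : ℕ) (Q : EPar) (k m : ℕ) (V : Config k) (w : Config m)
    (j : Fin k) (θ : Lab × LSt) : ℝ≥0∞ :=
  if clM2 Φ ε K Q.te (k + m) (Fin.append V w) (Fin.castAdd m j) θ = block k m then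
    (if OkW Φ ε (Fin.append V w) θ then tPK Φ ε K Q (Fin.append V w) θ else 0) else 0

/-- The error functional. -/
def B6 (Φ : Space3 → ℝ) (ε : ℝ) (K : ℕ) (Q : EPar) (B : RF) (k m : ℕ) (V : Config k)
    (w : Config m) (j : Fin k) (θ : Lab × LSt) : ℝ≥0∞ :=
  if OkL K θ ∧ clM2 Φ ε K Q.te (k + m) (Fin.append V w) (Fin.castAdd m j) θ = block k m then
    B k m V w j (tC Φ ε Q.te (Fin.append V w) θ) else 0

/-- The majorant property. -/
def MajAt6 (Φ : Space3 → ℝ) (ε : ℝ) (K : ℕ) (Q : EPar) (T' : ℝ) (M : SF2) : Prop :=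
  ∀ (P : CTree) (z : PhasePoint × Par P) (m : ℕ) (w : Config m) (θ : Lab × LSt), P.leaves ≤ K →
    Real6 Φ ε K Q.te T' P z w θ → GIV566.unhit Φ ε (ptube Φ ε P z) Q.tw w →
    tPK Φ ε K Q (Fin.append (cfT Φ ε P z) w) θ ≤ M P z m w θ

theorem clus_point6 (hΦ : AdmissiblePotential Φ) (hε : 0 < ε) (hQL : 0 ≤ Q.L) {B : RF}
    (hB : RedAt Φ ε K Q.tw Q.te T' B) {M : SF2} (hM : MajAt6 Φ ε K Q T' M) (k m : ℕ)
    (V : Config k) (w : Config m) (j : Fin k) (θ : Lab × LSt) (hV : V ∈ PairExcluded ε k)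
    (hw : w ∈ PairExcluded ε m) (hp : Perp ε V w) :
    F6 Φ ε K Q k m V w j θ ≤
      TreeBound335.ways Φ ε T' (fun P z => ctH Φ ε Q.te M P z m w θ) V j +
      B6 Φ ε K Q B k m V w j θ := by
  unfold F6
  by_cases hblk : clM2 Φ ε K Q.te (k + m) (Fin.append V w) (Fin.castAdd m j) θ = block k m
  swap
  · rw [if_neg hblk]; exact zero_le
  rw [if_pos hblk]
  by_cases hW : OkW Φ ε (Fin.append V w) θ
  swap
  · rw [if_neg hW]; exact zero_le
  rw [if_pos hW]
  by_cases hL : OkL K θ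
  swap
  · have h0 : tPK Φ ε K Q (Fin.append V w) θ = 0 := by
      unfold tPK
      rw [if_neg hL]
    rw [h0]; exact zero_le
  have hVw : (Fin.append V w : Config (k + m)) ∈ PairExcluded ε (k + m) :=
    (append_mem_pairExcluded_iff V w).2 ⟨hV, hw, hp⟩
  have hCe := cMeet2_of_clM2 hblk
  have hC := hCe.1
  have hpre : preC Φ ε (Fin.append V w) (tC Φ ε Q.te (Fin.append V w) θ) (Fin.castAdd m j) =
      block k m := by
    rw [← hblk]
    unfold clM2
    rw [if_pos hCe]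
  have hs0 : 0 < tC Φ ε Q.te (Fin.append V w) θ := tC_pos hL.e0 hC
  have hkK : k ≤ K := by
    have h1 := card_preC_le_of_not_inf hΦ hε hVw hs0.le
      (not_inf_of_cMeet2 hΦ hε hVw hW.1 hL.e0 hC)
    rw [hpre, card_block] at h1
    exact h1
  rcases hB k m V w j _ hV hw hp hkK hs0 hC.le hpre with hb | ⟨P, e, z, he, hVl, hv, hs, hr, hu⟩
  · refine le_trans ?_ le_add_self
    unfold B6
    rw [if_pos (show OkL K θ ∧ clM2 Φ ε K Q.te (k + m) (Fin.append V w) (Fin.castAdd m j) θ =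
      block k m from ⟨hL, hblk⟩)]
    exact (tPK_le_one hQL).trans hb
  · refine le_trans ?_ le_self_add
    obtain ⟨hk, h4, ht⟩ := real6_of_red (Q := Q) hΦ hε hV hw hp hblk hL hW he hVl hv hs hr
    refine le_trans ?_ (TreeBound335.le_ways hΦ hε (G := fun P z => ctH Φ ε Q.te M P z m w θ)
      (ℓ := z.1) (p := z.2) he hv hVl)
    show _ ≤ ctH Φ ε Q.te M P z m w θ
    unfold ctH
    rw [indicator_of_mem (show θ ∈ {θ : Lab × LSt | (z, θ.2) ∈ OneC423.ctSet Φ ε Q.te P} from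
      h4.ct), ht]
    exact hM P z m w θ (hk ▸ hkK) h4 hu

end Crest.Agent.R122.PairD292

end
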