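import Crest.Agent.R122.SPcore_994

/-!
# Section E, inequality 3, special terms SP-A and SP-B, text v4: abstract assembly (helper994)

`Ω, P` = gas world `w = w₂`; `𝒱, mV` = fresh clusters (tree parameters); `Λ, lam` = marked lines;
`Pp, ν` = pairs, `d p` the first line.  For a cluster `V`: `lt V p` = link time of the second line
with the root line, `Bo`, `By` = old / young link events, `rd V u dκ(u)` = flux density of the link
time; `line i V u` = marked lines of `V` (`i : ι`), `hid i w V u` = ghost indicators.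

* `S6`, `Y6` : laws of `(d, lt)`, `lt` under `ν`;
* `Θl` : touch functional with left-limit weight, `Ψv` : touched pairs with the weight
  `min (W_w (θ₁), W_{w+d} (θ₂))` (both inclusive, ties allowed);
* `spA` : SP-A, old and young part;
* `spB` : SP-B, old part; `lintegral_ΘB_le_one`, `lintegral_ΘB_le` : use of the quenched input;
* `spY` : SP-B, young part.
-/

set_option autoImplicit false

open MeasureTheory Set Filter
open scoped ENNReal Topology

namespace Crest.Agent.R122.SPV994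

open Crest.Agent.R122.Weight984 Crest.Agent.R122.SP994

noncomputable section

variable {Λ Pp : Type*} [MeasurableSpace Λ] [MeasurableSpace Pp]

/-- `(S6*)` the law of `(d, lt)` on the event `B` is dominated. -/
def S6 (ν : Measure Pp) (d : Pp → Λ) (lam : Measure Λ) (κ : Measure ℝ) (c : ℝ≥0∞) (lt : Pp → ℝ)
    (B : Set Pp) (rd : ℝ → ℝ≥0∞) : Prop :=
  ∀ G : Λ × ℝ → ℝ≥0∞, Measurable G →
    ∫⁻ p in B, G (d p, lt p) ∂ν ≤ c * ∫⁻ u, rd u * ∫⁻ l, G (l, u) ∂lam ∂κ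

/-- `(Y6*)` the law of `lt` on the event `B` is dominated. -/
def Y6 (ν : Measure Pp) (κ : Measure ℝ) (c : ℝ≥0∞) (lt : Pp → ℝ)
    (B : Set Pp) (rd : ℝ → ℝ≥0∞) : Prop :=
  ∀ G : ℝ → ℝ≥0∞, Measurable G → ∫⁻ p in B, G (lt p) ∂ν ≤ c * ∫⁻ u, rd u * G u ∂κ

/-! ## Fixed world, fixed cluster -/

/-- touched second, inclusive weight -/
def Aw (lam : Measure Λ) (L te tL : ℝ) (θ : Λ → ℝ) (l : Λ) : ℝ≥0∞ :=
  if tL < θ l ∧ θ l ≤ te then W L (lam {l' | θ l' ≤ θ l}) else 0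

theorem measurable_Aw {Ξ : Type*} [MeasurableSpace Ξ] (lam : Measure Λ) [SFinite lam] (L te : ℝ)
    {tL : Ξ → ℝ} (htL : Measurable tL) {θ : Ξ → Λ → ℝ}
    (hθ : Measurable fun q : Ξ × Λ => θ q.1 q.2) :
    Measurable fun q : Ξ × Λ => Aw lam L te (tL q.1) (θ q.1) q.2 := by
  unfold Aw
  refine Measurable.ite ?_ ?_ measurable_const
  · exact (measurableSet_lt (htL.comp measurable_fst) hθ).inter
      (measurableSet_le hθ measurable_const)
  · exact (measurable_W L).comp (measurable_touched_le hθ lam)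

theorem lintegral_Aw_le {lam : Measure Λ} [SFinite lam] {L : ℝ} (hL : 0 < L) (te tL : ℝ)
    {θ : Λ → ℝ} (hθ : Measurable θ) :
    ∫⁻ l, Aw lam L te tL θ l ∂lam ≤
      ENNReal.ofReal (1 / L) * (if tL ≤ te then W L (lam {l | θ l ≤ tL}) else 0) := by
  split_ifs with h
  · calc ∫⁻ l, Aw lam L te tL θ l ∂lam
        ≤ ∫⁻ l in {l | tL < θ l}, W L (lam {l' | θ l' ≤ θ l}) ∂lam := by
          have hms : MeasurableSet {l | tL < θ l} := hθ measurableSet_Ioi
          rw [← lintegral_indicator hms]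
          refine lintegral_mono fun l => ?_
          unfold Aw
          split_ifs with hl
          · rw [indicator_of_mem (show l ∈ {l | tL < θ l} from hl.1)]
          · exact bot_le
      _ ≤ _ := stieltjes_lt hL lam hθ tL
  · have : ∀ l, Aw lam L te tL θ l = 0 := by
      intro l
      unfold Aw
      rw [if_neg]
      rintro ⟨h1, h2⟩
      exact h (h1.le.trans h2)
    simp [this]

theorem Aw_le {lam : Measure Λ} {L : ℝ} (hL : 0 < L) (te tL : ℝ) (θ : Λ → ℝ) (l : Λ) :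
    Aw lam L te tL θ l ≤ if tL ≤ te then W L (lam {l | θ l ≤ tL}) else 0 := by
  unfold Aw
  split_ifs with h1 h2 h3
  · refine W_anti hL.le (measure_mono fun l' hl' => ?_)
    exact (show θ l' ≤ tL from hl').trans h1.1.le
  · exact absurd (h1.1.le.trans h1.2) h2
  · exact bot_le
  · exact bot_le

theorem Aw_le_one {lam : Measure Λ} {L : ℝ} (hL : 0 ≤ L) (te tL : ℝ) (θ : Λ → ℝ) (l : Λ) :
    Aw lam L te tL θ l ≤ 1 := by
  unfold Aw
  split_ifs
  · exact W_le_one hL _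
  · exact zero_le_one

section one

variable {ν : Measure Pp} {d : Pp → Λ} {lam : Measure Λ} [SFinite lam] {κ : Measure ℝ}
  {c₆ c₇ : ℝ≥0∞} {lt : Pp → ℝ} {Bo By : Set Pp} {rd : ℝ → ℝ≥0∞}

/-- SP-A, one world, one cluster, old part. -/
theorem oneA_old {L : ℝ} (hL : 0 < L) (h6 : S6 ν d lam κ c₆ lt Bo rd) {H : ℝ → ℝ≥0∞}
    (hH : Measurable H) (hrd : Measurable rd) (te tL : ℝ) {θ : Λ → ℝ} (hθ : Measurable θ) :
    ∫⁻ p in Bo, H (lt p) * Aw lam L te tL θ (d p) ∂ν ≤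
      c₆ * ENNReal.ofReal (1 / L) * ∫⁻ u, rd u * (H u *
        (if tL ≤ te then W L (lam {l | θ l ≤ tL}) else 0)) ∂κ := by
  have hA : Measurable fun l => Aw lam L te tL θ l :=
    (measurable_Aw (Ξ := Unit) lam L te (tL := fun _ => tL) measurable_const
      (θ := fun _ => θ) (hθ.comp measurable_snd)).comp
      (measurable_const.prodMk measurable_id : Measurable fun l : Λ => ((), l))
  have h1 := h6 (fun q => H q.2 * Aw lam L te tL θ q.1)
    ((hH.comp measurable_snd).mul (hA.comp measurable_fst))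
  refine h1.trans ?_
  rw [mul_assoc]
  refine mul_le_mul_right ?_ _
  rw [← lintegral_const_mul]
  · refine lintegral_mono fun u => ?_
    dsimp only
    rw [lintegral_const_mul _ hA]
    calc rd u * (H u * ∫⁻ l, Aw lam L te tL θ l ∂lam)
        ≤ rd u * (H u * (ENNReal.ofReal (1 / L) *
            (if tL ≤ te then W L (lam {l | θ l ≤ tL}) else 0))) := by
          gcongr
          exact lintegral_Aw_le hL te tL hθ
      _ = _ := by ring
  · exact hrd.mul (hH.mul measurable_const)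

omit [SFinite lam] in
/-- SP-A, one world, one cluster, young part. -/
theorem oneA_young {L : ℝ} (hL : 0 < L) (h7 : Y6 ν κ c₇ lt By rd) {H : ℝ → ℝ≥0∞}
    (hH : Measurable H) (te tL : ℝ) (θ : Λ → ℝ) :
    ∫⁻ p in By, H (lt p) * Aw lam L te tL θ (d p) ∂ν ≤
      c₇ * ∫⁻ u, rd u * (H u * (if tL ≤ te then W L (lam {l | θ l ≤ tL}) else 0)) ∂κ := by
  refine le_trans ?_ (h7 (fun u => H u * (if tL ≤ te then W L (lam {l | θ l ≤ tL}) else 0))
    (hH.mul measurable_const))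
  exact lintegral_mono fun p => mul_le_mul_right (Aw_le hL te tL θ (d p)) _

end one

/-! ## Integrated form -/

variable {Ω 𝒱 : Type*} [MeasurableSpace Ω] [MeasurableSpace 𝒱]

/-- Data of one cluster shape. -/
structure Shape (Ω 𝒱 Pp Λ : Type*) [MeasurableSpace Ω] [MeasurableSpace 𝒱] [MeasurableSpace Pp]
    [MeasurableSpace Λ] (ι : Type) where
  /-- ghost indicators -/
  hid : ι → Ω → 𝒱 → ℝ → ℝ≥0∞
  /-- marked lines of the cluster -/
  line : ι → 𝒱 → ℝ → Λ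
  /-- link time -/
  lt : 𝒱 → Pp → ℝ
  /-- old link event -/
  Bo : 𝒱 → Set Pp
  /-- young link event -/
  By : 𝒱 → Set Pp
  /-- flux density -/
  rd : 𝒱 → ℝ → ℝ≥0∞
  m_hid : ∀ i, Measurable fun q : Ω × 𝒱 × ℝ => hid i q.1 q.2.1 q.2.2
  m_line : ∀ i, Measurable fun q : 𝒱 × ℝ => line i q.1 q.2
  m_lt : Measurable fun q : 𝒱 × Pp => lt q.1 q.2
  m_Bo : MeasurableSet {q : 𝒱 × Pp | q.2 ∈ Bo q.1}
  m_By : MeasurableSet {q : 𝒱 × Pp | q.2 ∈ By q.1}
  m_rd : Measurable fun q : 𝒱 × ℝ => rd q.1 q.2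

namespace Shape

variable {ι : Type} [Fintype ι] (S : Shape Ω 𝒱 Pp Λ ι)

omit [Fintype ι] in
theorem mBo (V : 𝒱) : MeasurableSet (S.Bo V) := S.m_Bo.preimage measurable_prodMk_left

omit [Fintype ι] in
theorem mBy (V : 𝒱) : MeasurableSet (S.By V) := S.m_By.preimage measurable_prodMk_left

/-- Sum over the marked lines of the cluster, weighted by the ghost indicators. -/
def E (Θ : Ω → Λ → ℝ≥0∞) (w : Ω) (V : 𝒱) (u : ℝ) : ℝ≥0∞ :=
  ∑ i, S.hid i w V u * Θ w (S.line i V u)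

theorem measurable_E {Θ : Ω → Λ → ℝ≥0∞} (hΘ : Measurable fun q : Ω × Λ => Θ q.1 q.2) :
    Measurable fun q : Ω × 𝒱 × ℝ => S.E Θ q.1 q.2.1 q.2.2 := by
  unfold E
  refine Finset.measurable_sum _ fun i _ => (S.m_hid i).mul ?_
  exact hΘ.comp (measurable_fst.prodMk ((S.m_line i).comp measurable_snd))

/-- The functional of the quenched input. -/
def EI (P : Measure Ω) (mV : Measure 𝒱) (κ : Measure ℝ) (Θ : Ω → Λ → ℝ≥0∞) : ℝ≥0∞ :=
  ∫⁻ V, ∫⁻ w, ∫⁻ u, S.rd V u * S.E Θ w V u ∂κ ∂P ∂mV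

end Shape

/-- touched line, left-limit weight -/
def Θl (lam : Measure Λ) (L te : ℝ) (θ₀ : Ω → Λ → ℝ) (w : Ω) (l : Λ) : ℝ≥0∞ :=
  if θ₀ w l ≤ te then W L (lam {l' | θ₀ w l' < θ₀ w l}) else 0

omit [MeasurableSpace Ω] in
theorem Θl_le_one {lam : Measure Λ} {L : ℝ} (hL : 0 ≤ L) (te : ℝ) (θ₀ : Ω → Λ → ℝ) (w : Ω)
    (l : Λ) : Θl lam L te θ₀ w l ≤ 1 := by
  unfold Θl
  split_ifs
  · exact W_le_one hL _
  · exact zero_le_one

theorem measurable_touched_lt {Ξ : Type*} [MeasurableSpace Ξ] (lam : Measure Λ) [SFinite lam]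
    {θ : Ξ → Λ → ℝ} (hθ : Measurable fun q : Ξ × Λ => θ q.1 q.2) {s : Ξ → ℝ} (hs : Measurable s) :
    Measurable fun x => lam {l | θ x l < s x} := by
  have hm : MeasurableSet {p : Ξ × Λ | θ p.1 p.2 < s p.1} :=
    measurableSet_lt hθ (hs.comp measurable_fst)
  exact measurable_measure_prodMk_left hm

theorem measurable_touched_le' {Ξ : Type*} [MeasurableSpace Ξ] (lam : Measure Λ) [SFinite lam]
    {θ : Ξ → Λ → ℝ} (hθ : Measurable fun q : Ξ × Λ => θ q.1 q.2) {s : Ξ → ℝ} (hs : Measurable s) :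
    Measurable fun x => lam {l | θ x l ≤ s x} := by
  have hm : MeasurableSet {p : Ξ × Λ | θ p.1 p.2 ≤ s p.1} :=
    measurableSet_le hθ (hs.comp measurable_fst)
  exact measurable_measure_prodMk_left hm

theorem measurable_Θl (lam : Measure Λ) [SFinite lam] (L te : ℝ) {θ₀ : Ω → Λ → ℝ}
    (hθ₀ : Measurable fun q : Ω × Λ => θ₀ q.1 q.2) :
    Measurable fun q : Ω × Λ => Θl lam L te θ₀ q.1 q.2 := by
  unfold Θl
  refine Measurable.ite (measurableSet_le hθ₀ measurable_const) ?_ measurable_const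
  refine (measurable_W L).comp ?_
  exact measurable_touched_lt (Ξ := Ω × Λ) lam (θ := fun q l => θ₀ q.1 l)
    (hθ₀.comp ((measurable_fst.comp measurable_fst).prodMk measurable_snd)) hθ₀

section A

variable {ι : Type} [Fintype ι] (S : Shape Ω 𝒱 Pp Λ ι)
  (P : Measure Ω) [SFinite P] (mV : Measure 𝒱) (κ : Measure ℝ) [SFinite κ]
  (ν : Measure Pp) [SFinite ν] {d : Pp → Λ} (hd : Measurable d) (lam : Measure Λ) [SFinite lam]
  {c₆ c₇ : ℝ≥0∞} {L te : ℝ}

/-- the selected lines -/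
def selA (θ₀ : Ω → Λ → ℝ) (tL : Ω → 𝒱 → ℝ) (w : Ω) (V : 𝒱) (u : ℝ) : ℝ≥0∞ :=
  ∑ i, S.hid i w V u * (if θ₀ w (S.line i V u) = tL w V then 1 else 0)

theorem measurable_selA {θ₀ : Ω → Λ → ℝ} (hθ₀ : Measurable fun q : Ω × Λ => θ₀ q.1 q.2)
    {tL : Ω → 𝒱 → ℝ} (htL : Measurable fun q : Ω × 𝒱 => tL q.1 q.2) :
    Measurable fun q : Ω × 𝒱 × ℝ => selA S θ₀ tL q.1 q.2.1 q.2.2 := by
  unfold selA
  refine Finset.measurable_sum _ fun i _ => (S.m_hid i).mul ?_
  refine Measurable.ite ?_ measurable_const measurable_const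
  exact measurableSet_eq_fun
    (hθ₀.comp (measurable_fst.prodMk ((S.m_line i).comp measurable_snd)))
    (htL.comp (measurable_fst.prodMk (measurable_fst.comp measurable_snd)))

omit [SFinite κ] in
include hd in
/-- **SP-A.** `FA w V p` = the integrand of SP-A on the link event, `bad` = errors of the selection
of the first touched line, `lk` = link mass of `V`. -/
theorem spA (hL : 0 < L) (hc : c₆ * ENNReal.ofReal (1 / L) + c₇ ≠ ∞)
    (h6 : ∀ V, S6 ν d lam κ c₆ (S.lt V) (S.Bo V) (S.rd V))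
    (h7 : ∀ V, Y6 ν κ c₇ (S.lt V) (S.By V) (S.rd V))
    {θ₀ : Ω → Λ → ℝ} (hθ₀ : Measurable fun q : Ω × Λ => θ₀ q.1 q.2)
    {θV : Ω → 𝒱 → Λ → ℝ} (hθV : Measurable fun q : (Ω × 𝒱) × Λ => θV q.1.1 q.1.2 q.2)
    {tL : Ω → 𝒱 → ℝ} (htL : Measurable fun q : Ω × 𝒱 => tL q.1 q.2)
    {FA bad : Ω → 𝒱 → Pp → ℝ≥0∞}
    (hsel : ∀ w V p, p ∈ S.Bo V ∪ S.By V → FA w V p ≤
      selA S θ₀ tL w V (S.lt V p) * Aw lam L te (tL w V) (θV w V) (d p) + bad w V p)
    {lk : Ω → 𝒱 → ℝ≥0∞} (hlk : ∀ w V, tL w V ≤ te →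
      lam {l | θ₀ w l < tL w V} ≤ lam {l | θV w V l ≤ tL w V} + lk w V) :
    ∫⁻ V, ∫⁻ w, ∫⁻ p in S.Bo V ∪ S.By V, FA w V p ∂ν ∂P ∂mV ≤
      (c₆ * ENNReal.ofReal (1 / L) + c₇) * ∫⁻ V, ∫⁻ w, ∫⁻ u, S.rd V u *
        (S.E (Θl lam L te θ₀) w V u +
          selA S θ₀ tL w V u * (if tL w V ≤ te then ENNReal.ofReal L * lk w V else 0)) ∂κ ∂P ∂mV
      + ∫⁻ V, ∫⁻ w, ∫⁻ p in S.Bo V ∪ S.By V, bad w V p ∂ν ∂P ∂mV := by
  classical
  have hsm := measurable_selA S hθ₀ htL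
  -- main part, jointly measurable
  set M : Ω → 𝒱 → Pp → ℝ≥0∞ := fun w V p =>
    selA S θ₀ tL w V (S.lt V p) * Aw lam L te (tL w V) (θV w V) (d p) with hM
  have hMm : Measurable fun q : (𝒱 × Ω) × Pp => M q.1.2 q.1.1 q.2 := by
    refine Measurable.mul ?_ ?_
    · exact hsm.comp (((measurable_snd.comp measurable_fst)).prodMk
        ((measurable_fst.comp measurable_fst).prodMk
          (S.m_lt.comp ((measurable_fst.comp measurable_fst).prodMk measurable_snd))))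
    · have := measurable_Aw (Ξ := Ω × 𝒱) lam L te htL (θ := fun q l => θV q.1 q.2 l) hθV
      exact this.comp (((measurable_snd.comp measurable_fst).prodMk
        (measurable_fst.comp measurable_fst)).prodMk (hd.comp measurable_snd))
  have hBm : MeasurableSet {q : (𝒱 × Ω) × Pp | q.2 ∈ S.Bo q.1.1 ∪ S.By q.1.1} := by
    have h1 : Measurable fun q : (𝒱 × Ω) × Pp => (q.1.1, q.2) :=
      (measurable_fst.comp measurable_fst).prodMk measurable_snd
    exact (h1 S.m_Bo).union (h1 S.m_By)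
  have hIm : Measurable fun q : 𝒱 × Ω => ∫⁻ p in S.Bo q.1 ∪ S.By q.1, M q.2 q.1 p ∂ν := by
    have h1 : ∀ q : 𝒱 × Ω, ∫⁻ p in S.Bo q.1 ∪ S.By q.1, M q.2 q.1 p ∂ν =
        ∫⁻ p, {q : (𝒱 × Ω) × Pp | q.2 ∈ S.Bo q.1.1 ∪ S.By q.1.1}.indicator
          (fun q => M q.1.2 q.1.1 q.2) (q, p) ∂ν := by
      intro q
      rw [← lintegral_indicator ((S.mBo q.1).union (S.mBy q.1))]
      refine lintegral_congr fun p => ?_
      by_cases hp : p ∈ S.Bo q.1 ∪ S.By q.1
      · rw [indicator_of_mem hp, indicator_of_mem (show ((q, p) : (𝒱 × Ω) × Pp) ∈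
          {q : (𝒱 × Ω) × Pp | q.2 ∈ S.Bo q.1.1 ∪ S.By q.1.1} from hp)]
      · rw [indicator_of_notMem hp, indicator_of_notMem (show ((q, p) : (𝒱 × Ω) × Pp) ∉
          {q : (𝒱 × Ω) × Pp | q.2 ∈ S.Bo q.1.1 ∪ S.By q.1.1} from hp)]
    simp_rw [h1]
    exact (hMm.indicator hBm).lintegral_prod_right'
  -- one world, one cluster
  have hone : ∀ w V, ∫⁻ p in S.Bo V ∪ S.By V, M w V p ∂ν ≤
      (c₆ * ENNReal.ofReal (1 / L) + c₇) * ∫⁻ u, S.rd V u *
        (S.E (Θl lam L te θ₀) w V u +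
          selA S θ₀ tL w V u * (if tL w V ≤ te then ENNReal.ofReal L * lk w V else 0)) ∂κ := by
    intro w V
    have hH : Measurable fun u => selA S θ₀ tL w V u :=
      hsm.comp (measurable_const.prodMk (measurable_const.prodMk measurable_id))
    have hrd : Measurable (S.rd V) := S.m_rd.comp (measurable_const.prodMk measurable_id)
    have hθ : Measurable (θV w V) :=
      hθV.comp (measurable_const.prodMk measurable_id : Measurable fun l : Λ => ((w, V), l))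
    have h1 := oneA_old hL (h6 V) hH hrd te (tL w V) hθ
    have h2 := oneA_young (d := d) (lam := lam) hL (h7 V) hH te (tL w V) (θV w V)
    have h3 : ∀ u, selA S θ₀ tL w V u *
        (if tL w V ≤ te then W L (lam {l | θV w V l ≤ tL w V}) else 0) ≤
        S.E (Θl lam L te θ₀) w V u +
          selA S θ₀ tL w V u * (if tL w V ≤ te then ENNReal.ofReal L * lk w V else 0) := by
      intro u
      by_cases ht : tL w V ≤ te
      · rw [if_pos ht, if_pos ht]
        have h4 : W L (lam {l | θV w V l ≤ tL w V}) ≤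
            W L (lam {l | θ₀ w l < tL w V}) + ENNReal.ofReal L * lk w V :=
          W_lip hL (hlk w V ht)
        calc selA S θ₀ tL w V u * W L (lam {l | θV w V l ≤ tL w V})
            ≤ selA S θ₀ tL w V u *
              (W L (lam {l | θ₀ w l < tL w V}) + ENNReal.ofReal L * lk w V) :=
              mul_le_mul_right h4 _
          _ = selA S θ₀ tL w V u * W L (lam {l | θ₀ w l < tL w V}) +
              selA S θ₀ tL w V u * (ENNReal.ofReal L * lk w V) := mul_add _ _ _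
          _ ≤ _ := by
              refine add_le_add ?_ le_rfl
              unfold selA Shape.E
              rw [Finset.sum_mul]
              refine Finset.sum_le_sum fun i _ => ?_
              split_ifs with h5
              · rw [mul_one]
                refine mul_le_mul_right ?_ _
                unfold Θl
                rw [h5, if_pos ht]
              · rw [mul_zero, zero_mul]; exact bot_le
      · rw [if_neg ht, mul_zero]
        exact bot_le
    calc ∫⁻ p in S.Bo V ∪ S.By V, M w V p ∂ν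
        ≤ ∫⁻ p in S.Bo V, M w V p ∂ν + ∫⁻ p in S.By V, M w V p ∂ν :=
          lintegral_union_le _ _ _
      _ ≤ c₆ * ENNReal.ofReal (1 / L) * ∫⁻ u, S.rd V u * (selA S θ₀ tL w V u *
            (if tL w V ≤ te then W L (lam {l | θV w V l ≤ tL w V}) else 0)) ∂κ +
          c₇ * ∫⁻ u, S.rd V u * (selA S θ₀ tL w V u *
            (if tL w V ≤ te then W L (lam {l | θV w V l ≤ tL w V}) else 0)) ∂κ :=
          add_le_add h1 h2
      _ = (c₆ * ENNReal.ofReal (1 / L) + c₇) * ∫⁻ u, S.rd V u * (selA S θ₀ tL w V u *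
            (if tL w V ≤ te then W L (lam {l | θV w V l ≤ tL w V}) else 0)) ∂κ := by
          rw [add_mul]
      _ ≤ _ := by
          gcongr with u
          exact h3 u
  calc ∫⁻ V, ∫⁻ w, ∫⁻ p in S.Bo V ∪ S.By V, FA w V p ∂ν ∂P ∂mV
      ≤ ∫⁻ V, ∫⁻ w, (∫⁻ p in S.Bo V ∪ S.By V, M w V p ∂ν +
          ∫⁻ p in S.Bo V ∪ S.By V, bad w V p ∂ν) ∂P ∂mV := by
        refine lintegral_mono fun V => lintegral_mono fun w => ?_
        have hMp : Measurable fun p => M w V p :=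
          hMm.comp (measurable_const.prodMk measurable_id : Measurable fun p : Pp => ((V, w), p))
        rw [← lintegral_add_left hMp]
        refine setLIntegral_mono' ((S.mBo V).union (S.mBy V)) fun p hp => hsel w V p hp
    _ = ∫⁻ V, (∫⁻ w, ∫⁻ p in S.Bo V ∪ S.By V, M w V p ∂ν ∂P +
          ∫⁻ w, ∫⁻ p in S.Bo V ∪ S.By V, bad w V p ∂ν ∂P) ∂mV := by
        refine lintegral_congr fun V => ?_
        exact lintegral_add_left (hIm.comp (measurable_const.prodMk measurable_id)) _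
    _ = ∫⁻ V, ∫⁻ w, ∫⁻ p in S.Bo V ∪ S.By V, M w V p ∂ν ∂P ∂mV +
          ∫⁻ V, ∫⁻ w, ∫⁻ p in S.Bo V ∪ S.By V, bad w V p ∂ν ∂P ∂mV :=
        lintegral_add_left hIm.lintegral_prod_right' _
    _ ≤ _ := by
        refine add_le_add ?_ le_rfl
        rw [← lintegral_const_mul' _ _ hc]
        refine lintegral_mono fun V => ?_
        rw [← lintegral_const_mul' _ _ hc]
        exact lintegral_mono fun w => hone w V

end A

/-! ## SP-B -/

/-- touched pair `(d, k)`: weight `min (W_w (θ₁), W_{w+d} (θ₂))`, both inclusive, ties allowed. -/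
def Ψv (lam : Measure Λ) (L tw te : ℝ) (θ₀ : Ω → Λ → ℝ) (θd : Ω → Λ → Λ → ℝ) (w : Ω) (d k : Λ) :
    ℝ≥0∞ :=
  if tw < θ₀ w d ∧ θ₀ w d ≤ θd w d k ∧ θd w d k ≤ te then
    min (W L (lam {l | θ₀ w l ≤ θ₀ w d})) (W L (lam {l | θd w d l ≤ θd w d k})) else 0

theorem measurable_Ψv (lam : Measure Λ) [SFinite lam] (L tw te : ℝ) {θ₀ : Ω → Λ → ℝ}
    (hθ₀ : Measurable fun q : Ω × Λ => θ₀ q.1 q.2) {θd : Ω → Λ → Λ → ℝ}
    (hθd : Measurable fun q : (Ω × Λ) × Λ => θd q.1.1 q.1.2 q.2) :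
    Measurable fun q : (Ω × Λ) × Λ => Ψv lam L tw te θ₀ θd q.1.1 q.1.2 q.2 := by
  unfold Ψv
  have h0 : Measurable fun q : (Ω × Λ) × Λ => θ₀ q.1.1 q.1.2 := hθ₀.comp measurable_fst
  refine Measurable.ite ?_ (Measurable.min ?_ ?_) measurable_const
  · exact (measurableSet_lt measurable_const h0).inter
      ((measurableSet_le h0 hθd).inter (measurableSet_le hθd measurable_const))
  · exact ((measurable_W L).comp (measurable_touched_le hθ₀ lam)).comp measurable_fst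
  · exact (measurable_W L).comp (measurable_touched_le (V := Ω × Λ)
      (θ := fun q l => θd q.1 q.2 l) hθd lam)

omit [MeasurableSpace Ω] in
/-- the touched mass of the first lines is at most `1 / L` -/
theorem lintegral_Ψv_first_le {lam : Measure Λ} [SFinite lam] {L : ℝ} (hL : 0 < L)
    {θ₀ : Ω → Λ → ℝ} (w : Ω) (hθ₀ : Measurable (θ₀ w)) (θd : Ω → Λ → Λ → ℝ) (tw te : ℝ) (k : Λ) :
    ∫⁻ d, Ψv lam L tw te θ₀ θd w d k ∂lam ≤ ENNReal.ofReal (1 / L) := by
  calc ∫⁻ d, Ψv lam L tw te θ₀ θd w d k ∂lam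
      ≤ ∫⁻ d in {d | tw < θ₀ w d}, W L (lam {l | θ₀ w l ≤ θ₀ w d}) ∂lam := by
        have hms : MeasurableSet {d | tw < θ₀ w d} := hθ₀ measurableSet_Ioi
        rw [← lintegral_indicator hms]
        refine lintegral_mono fun d => ?_
        unfold Ψv
        split_ifs with h
        · rw [indicator_of_mem (show d ∈ {d | tw < θ₀ w d} from h.1)]
          exact min_le_left _ _
        · exact bot_le
    _ ≤ ENNReal.ofReal (1 / L) * W L (lam {l | θ₀ w l ≤ tw}) := stieltjes_lt hL lam hθ₀ tw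
    _ ≤ ENNReal.ofReal (1 / L) * 1 := by gcongr; exact W_le_one hL.le _
    _ = _ := mul_one _

omit [MeasurableSpace Ω] in
/-- second touch: closed Stieltjes in the world with `d` -/
theorem lintegral_Ψv_second_le {lam : Measure Λ} [SFinite lam] {L : ℝ} (hL : 0 < L)
    (θ₀ : Ω → Λ → ℝ) {θd : Ω → Λ → Λ → ℝ} (tw te : ℝ) (w : Ω) (d : Λ)
    (hθd : Measurable (θd w d)) :
    ∫⁻ k, Ψv lam L tw te θ₀ θd w d k ∂lam ≤ ENNReal.ofReal (1 / L) *
      (if tw < θ₀ w d ∧ θ₀ w d ≤ te then W L (lam {l | θd w d l < θ₀ w d}) else 0) := by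
  split_ifs with h
  · calc ∫⁻ k, Ψv lam L tw te θ₀ θd w d k ∂lam
        ≤ ∫⁻ k in {k | θ₀ w d ≤ θd w d k}, W L (lam {l | θd w d l ≤ θd w d k}) ∂lam := by
          have hms : MeasurableSet {k | θ₀ w d ≤ θd w d k} := hθd measurableSet_Ici
          rw [← lintegral_indicator hms]
          refine lintegral_mono fun k => ?_
          unfold Ψv
          split_ifs with h'
          · rw [indicator_of_mem (show k ∈ {k | θ₀ w d ≤ θd w d k} from h'.2.1)]
            exact min_le_right _ _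
          · exact bot_le
      _ ≤ _ := stieltjes hL lam hθd _
  · have : ∀ k, Ψv lam L tw te θ₀ θd w d k = 0 := by
      intro k
      unfold Ψv
      rw [if_neg]
      rintro ⟨h1, h2, h3⟩
      exact h ⟨h1, h2.trans h3⟩
    simp [this]

/-- The test function of the quenched input in SP-B. -/
def ΘB (lam : Measure Λ) (L tw te : ℝ) (θ₀ : Ω → Λ → ℝ) (θd : Ω → Λ → Λ → ℝ) (w : Ω) (k : Λ) :
    ℝ≥0∞ := ENNReal.ofReal L * ∫⁻ d, Ψv lam L tw te θ₀ θd w d k ∂lam

theorem ofReal_mul_inv {L : ℝ} (hL : 0 < L) : ENNReal.ofReal L * ENNReal.ofReal (1 / L) = 1 := by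
  rw [← ENNReal.ofReal_mul hL.le, mul_one_div_cancel hL.ne', ENNReal.ofReal_one]

theorem measurable_ΘB (lam : Measure Λ) [SFinite lam] (L tw te : ℝ) {θ₀ : Ω → Λ → ℝ}
    (hθ₀ : Measurable fun q : Ω × Λ => θ₀ q.1 q.2) {θd : Ω → Λ → Λ → ℝ}
    (hθd : Measurable fun q : (Ω × Λ) × Λ => θd q.1.1 q.1.2 q.2) :
    Measurable fun q : Ω × Λ => ΘB lam L tw te θ₀ θd q.1 q.2 := by
  unfold ΘB
  refine Measurable.const_mul ?_ _
  have : Measurable (Function.uncurry fun (q : Ω × Λ) (d : Λ) =>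
      Ψv lam L tw te θ₀ θd q.1 d q.2) :=
    (measurable_Ψv lam L tw te hθ₀ hθd).comp
      (((measurable_fst.comp measurable_fst).prodMk measurable_snd).prodMk
        (measurable_snd.comp measurable_fst))
  exact this.lintegral_prod_right'

omit [MeasurableSpace Ω] in
theorem ΘB_le_one {lam : Measure Λ} [SFinite lam] {L : ℝ} (hL : 0 < L) {θ₀ : Ω → Λ → ℝ} (w : Ω)
    (hθ₀ : Measurable (θ₀ w)) (θd : Ω → Λ → Λ → ℝ) (tw te : ℝ) (k : Λ) :
    ΘB lam L tw te θ₀ θd w k ≤ 1 := by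
  rw [← ofReal_mul_inv hL]
  exact mul_le_mul_right (lintegral_Ψv_first_le hL w hθ₀ θd tw te k) _

/-- touched in the window, left-limit weight -/
def Tw (lam : Measure Λ) (L tw te : ℝ) (θ₀ : Ω → Λ → ℝ) (w : Ω) (l : Λ) : ℝ≥0∞ :=
  if tw < θ₀ w l ∧ θ₀ w l ≤ te then W L (lam {l' | θ₀ w l' < θ₀ w l}) else 0

omit [MeasurableSpace Ω] in
theorem lintegral_ΘB_le {lam : Measure Λ} [SFinite lam] {L : ℝ} (hL : 0 < L)
    {θ₀ : Ω → Λ → ℝ} {θd : Ω → Λ → Λ → ℝ} (tw te : ℝ) (w : Ω)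
    (hΨ : Measurable fun q : Λ × Λ => Ψv lam L tw te θ₀ θd w q.1 q.2)
    (hθ₀ : Measurable (θ₀ w))
    (hθd : ∀ d, Measurable (θd w d)) {lk : Ω → Λ → ℝ≥0∞}
    (hlk : ∀ w d, tw < θ₀ w d → θ₀ w d ≤ te →
      lam {l | θ₀ w l < θ₀ w d} ≤ lam {l | θd w d l < θ₀ w d} + lk w d) :
    ∫⁻ k, ΘB lam L tw te θ₀ θd w k ∂lam ≤ ∫⁻ l, Tw lam L tw te θ₀ w l ∂lam +
      ENNReal.ofReal L * ∫⁻ l in {l | tw < θ₀ w l ∧ θ₀ w l ≤ te}, lk w l ∂lam := by
  have hms : MeasurableSet {l | tw < θ₀ w l ∧ θ₀ w l ≤ te} :=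
    (hθ₀ measurableSet_Ioi).inter (hθ₀ measurableSet_Iic)
  have hTm : Measurable fun l => Tw lam L tw te θ₀ w l := by
    unfold Tw
    refine Measurable.ite hms ?_ measurable_const
    exact (measurable_W L).comp (measurable_touched_lt (Ξ := Λ) lam (θ := fun _ l => θ₀ w l)
      (hθ₀.comp measurable_snd) hθ₀)
  calc ∫⁻ k, ΘB lam L tw te θ₀ θd w k ∂lam
      = ENNReal.ofReal L * ∫⁻ k, ∫⁻ d, Ψv lam L tw te θ₀ θd w d k ∂lam ∂lam := by
        unfold ΘB
        exact lintegral_const_mul _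
          (Measurable.lintegral_prod_right' (f := fun q : Λ × Λ =>
            Ψv lam L tw te θ₀ θd w q.2 q.1) (hΨ.comp measurable_swap))
    _ = ENNReal.ofReal L * ∫⁻ d, ∫⁻ k, Ψv lam L tw te θ₀ θd w d k ∂lam ∂lam := by
        congr 1
        exact lintegral_lintegral_swap (f := fun k d => Ψv lam L tw te θ₀ θd w d k)
          (hΨ.comp measurable_swap).aemeasurable
    _ ≤ ENNReal.ofReal L * ∫⁻ d, ENNReal.ofReal (1 / L) *
        (if tw < θ₀ w d ∧ θ₀ w d ≤ te then W L (lam {l | θd w d l < θ₀ w d}) else 0) ∂lam := by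
        gcongr with d
        exact lintegral_Ψv_second_le hL θ₀ tw te w d (hθd d)
    _ = (ENNReal.ofReal L * ENNReal.ofReal (1 / L)) * ∫⁻ d,
        (if tw < θ₀ w d ∧ θ₀ w d ≤ te then W L (lam {l | θd w d l < θ₀ w d}) else 0) ∂lam := by
        rw [lintegral_const_mul' _ _ ENNReal.ofReal_ne_top, mul_assoc]
    _ = ∫⁻ d,
        (if tw < θ₀ w d ∧ θ₀ w d ≤ te then W L (lam {l | θd w d l < θ₀ w d}) else 0) ∂lam := by
        rw [ofReal_mul_inv hL, one_mul]
    _ ≤ ∫⁻ d, (Tw lam L tw te θ₀ w d +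
          {l | tw < θ₀ w l ∧ θ₀ w l ≤ te}.indicator (fun l => ENNReal.ofReal L * lk w l) d) ∂lam := by
        refine lintegral_mono fun d => ?_
        split_ifs with h
        · rw [indicator_of_mem (show d ∈ {l | tw < θ₀ w l ∧ θ₀ w l ≤ te} from h)]
          unfold Tw
          rw [if_pos h]
          exact W_lip hL (hlk w d h.1 h.2)
        · exact bot_le
    _ = _ := by
        rw [lintegral_add_left hTm, lintegral_indicator hms,
          lintegral_const_mul' _ _ ENNReal.ofReal_ne_top]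

section B

variable {ι : Type} [Fintype ι] (S : Shape Ω 𝒱 Pp Λ ι)
  (P : Measure Ω) [SFinite P] (mV : Measure 𝒱) (κ : Measure ℝ)
  (ν : Measure Pp) [SFinite ν] {d : Pp → Λ} (hd : Measurable d) (lam : Measure Λ) [SFinite lam]
  {c₆ : ℝ≥0∞} {L tw te : ℝ}

include hd in
/-- **SP-B, old part.**  `FB w V p` = integrand of SP-B on the old link event. -/
theorem spB (hL : 0 < L) (hc : c₆ * ENNReal.ofReal (1 / L) ≠ ∞)
    (h6 : ∀ V, S6 ν d lam κ c₆ (S.lt V) (S.Bo V) (S.rd V))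
    {θ₀ : Ω → Λ → ℝ} (hθ₀ : Measurable fun q : Ω × Λ => θ₀ q.1 q.2)
    {θd : Ω → Λ → Λ → ℝ} (hθd : Measurable fun q : (Ω × Λ) × Λ => θd q.1.1 q.1.2 q.2)
    {FB bad : Ω → 𝒱 → Pp → ℝ≥0∞}
    (hsel : ∀ w V p, p ∈ S.Bo V → FB w V p ≤
      (∑ i, S.hid i w V (S.lt V p) *
        Ψv lam L tw te θ₀ θd w (d p) (S.line i V (S.lt V p))) + bad w V p) :
    ∫⁻ V, ∫⁻ w, ∫⁻ p in S.Bo V, FB w V p ∂ν ∂P ∂mV ≤
      c₆ * ENNReal.ofReal (1 / L) * S.EI P mV κ (ΘB lam L tw te θ₀ θd)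
      + ∫⁻ V, ∫⁻ w, ∫⁻ p in S.Bo V, bad w V p ∂ν ∂P ∂mV := by
  classical
  have hΨ := measurable_Ψv lam L tw te hθ₀ hθd
  set M : Ω → 𝒱 → Pp → ℝ≥0∞ := fun w V p => ∑ i, S.hid i w V (S.lt V p) *
        Ψv lam L tw te θ₀ θd w (d p) (S.line i V (S.lt V p)) with hM
  have hlt : Measurable fun q : (𝒱 × Ω) × Pp => S.lt q.1.1 q.2 :=
    S.m_lt.comp ((measurable_fst.comp measurable_fst).prodMk measurable_snd)
  have hMm : Measurable fun q : (𝒱 × Ω) × Pp => M q.1.2 q.1.1 q.2 := by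
    refine Finset.measurable_sum _ fun i _ => Measurable.mul ?_ ?_
    · exact (S.m_hid i).comp ((measurable_snd.comp measurable_fst).prodMk
        ((measurable_fst.comp measurable_fst).prodMk hlt))
    · exact hΨ.comp (((measurable_snd.comp measurable_fst).prodMk (hd.comp measurable_snd)).prodMk
        ((S.m_line i).comp ((measurable_fst.comp measurable_fst).prodMk hlt)))
  have hBm : MeasurableSet {q : (𝒱 × Ω) × Pp | q.2 ∈ S.Bo q.1.1} := by
    have h1 : Measurable fun q : (𝒱 × Ω) × Pp => (q.1.1, q.2) :=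
      (measurable_fst.comp measurable_fst).prodMk measurable_snd
    exact h1 S.m_Bo
  have hIm : Measurable fun q : 𝒱 × Ω => ∫⁻ p in S.Bo q.1, M q.2 q.1 p ∂ν := by
    have h1 : ∀ q : 𝒱 × Ω, ∫⁻ p in S.Bo q.1, M q.2 q.1 p ∂ν =
        ∫⁻ p, {q : (𝒱 × Ω) × Pp | q.2 ∈ S.Bo q.1.1}.indicator
          (fun q => M q.1.2 q.1.1 q.2) (q, p) ∂ν := by
      intro q
      rw [← lintegral_indicator (S.mBo q.1)]
      refine lintegral_congr fun p => ?_
      by_cases hp : p ∈ S.Bo q.1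
      · rw [indicator_of_mem hp, indicator_of_mem (show ((q, p) : (𝒱 × Ω) × Pp) ∈
          {q : (𝒱 × Ω) × Pp | q.2 ∈ S.Bo q.1.1} from hp)]
      · rw [indicator_of_notMem hp, indicator_of_notMem (show ((q, p) : (𝒱 × Ω) × Pp) ∉
          {q : (𝒱 × Ω) × Pp | q.2 ∈ S.Bo q.1.1} from hp)]
    simp_rw [h1]
    exact (hMm.indicator hBm).lintegral_prod_right'
  have hone : ∀ w V, ∫⁻ p in S.Bo V, M w V p ∂ν ≤
      c₆ * ENNReal.ofReal (1 / L) *
        ∫⁻ u, S.rd V u * S.E (ΘB lam L tw te θ₀ θd) w V u ∂κ := by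
    intro w V
    have hG : Measurable fun q : Λ × ℝ => ∑ i, S.hid i w V q.2 *
        Ψv lam L tw te θ₀ θd w q.1 (S.line i V q.2) := by
      refine Finset.measurable_sum _ fun i _ => Measurable.mul ?_ ?_
      · exact (S.m_hid i).comp (measurable_const.prodMk (measurable_const.prodMk measurable_snd))
      · exact hΨ.comp ((measurable_const.prodMk measurable_fst).prodMk
          ((S.m_line i).comp (measurable_const.prodMk measurable_snd)))
    have h1 := h6 V _ hG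
    refine (show ∫⁻ p in S.Bo V, M w V p ∂ν = ∫⁻ p in S.Bo V, (fun q : Λ × ℝ =>
      ∑ i, S.hid i w V q.2 * Ψv lam L tw te θ₀ θd w q.1 (S.line i V q.2)) (d p, S.lt V p) ∂ν
      from rfl).le.trans (h1.trans ?_)
    rw [mul_assoc]
    refine mul_le_mul_right ?_ _
    rw [← lintegral_const_mul' _ _ ENNReal.ofReal_ne_top]
    refine lintegral_mono fun u => ?_
    dsimp only
    have h2 : ∫⁻ l, ∑ i, S.hid i w V u * Ψv lam L tw te θ₀ θd w l (S.line i V u) ∂lam =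
        ENNReal.ofReal (1 / L) * S.E (ΘB lam L tw te θ₀ θd) w V u := by
      rw [lintegral_finsetSum]
      · unfold Shape.E ΘB
        rw [Finset.mul_sum]
        refine Finset.sum_congr rfl fun i _ => ?_
        rw [lintegral_const_mul]
        · calc S.hid i w V u * ∫⁻ l, Ψv lam L tw te θ₀ θd w l (S.line i V u) ∂lam
              = (ENNReal.ofReal L * ENNReal.ofReal (1 / L)) *
                (S.hid i w V u * ∫⁻ l, Ψv lam L tw te θ₀ θd w l (S.line i V u) ∂lam) := by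
                rw [ofReal_mul_inv hL, one_mul]
            _ = _ := by ring
        · exact hΨ.comp ((measurable_const.prodMk measurable_id).prodMk measurable_const)
      · intro i _
        exact (hΨ.comp ((measurable_const.prodMk measurable_id).prodMk
          measurable_const)).const_mul _
    rw [h2]
    exact le_of_eq (by ring)
  calc ∫⁻ V, ∫⁻ w, ∫⁻ p in S.Bo V, FB w V p ∂ν ∂P ∂mV
      ≤ ∫⁻ V, ∫⁻ w, (∫⁻ p in S.Bo V, M w V p ∂ν + ∫⁻ p in S.Bo V, bad w V p ∂ν) ∂P ∂mV := by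
        refine lintegral_mono fun V => lintegral_mono fun w => ?_
        have hMp : Measurable fun p => M w V p :=
          hMm.comp (measurable_const.prodMk measurable_id : Measurable fun p : Pp => ((V, w), p))
        rw [← lintegral_add_left hMp]
        exact setLIntegral_mono' (S.mBo V) fun p hp => hsel w V p hp
    _ = ∫⁻ V, (∫⁻ w, ∫⁻ p in S.Bo V, M w V p ∂ν ∂P + ∫⁻ w, ∫⁻ p in S.Bo V, bad w V p ∂ν ∂P) ∂mV := by
        refine lintegral_congr fun V => ?_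
        exact lintegral_add_left (hIm.comp (measurable_const.prodMk measurable_id)) _
    _ = ∫⁻ V, ∫⁻ w, ∫⁻ p in S.Bo V, M w V p ∂ν ∂P ∂mV +
          ∫⁻ V, ∫⁻ w, ∫⁻ p in S.Bo V, bad w V p ∂ν ∂P ∂mV :=
        lintegral_add_left hIm.lintegral_prod_right' _
    _ ≤ _ := by
        refine add_le_add ?_ le_rfl
        unfold Shape.EI
        rw [← lintegral_const_mul' _ _ hc]
        refine lintegral_mono fun V => ?_
        rw [← lintegral_const_mul' _ _ hc]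
        exact lintegral_mono fun w => hone w V

end B

/-! ## SP-B, young part -/

section Y

variable {𝓛 : Type*} [MeasurableSpace 𝓛] (P : Measure Ω) [SFinite P] (mL : Measure 𝓛)
  [SFinite mL] (κ : Measure ℝ) (ν : Measure Pp) [SFinite ν]

/-- **SP-B, young part.**  `𝓛` = root lines, `D w u ℓ` = quenched density of the root lines,
`g` = ideal bound, `Ex` = excess, `T w p` = touched weight of the first line. -/
theorem spY {c₇ : ℝ≥0∞} (hc : c₇ ≠ ∞) {lt : 𝓛 → Pp → ℝ} {B : 𝓛 → Set Pp}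
    (hB : MeasurableSet {q : 𝓛 × Pp | q.2 ∈ B q.1}) {rd : 𝓛 → ℝ → ℝ≥0∞}
    (h7 : ∀ ℓ, Y6 ν κ c₇ (lt ℓ) (B ℓ) (rd ℓ))
    {D Ex : Ω → ℝ → 𝓛 → ℝ≥0∞} {g : 𝓛 → ℝ≥0∞} (hg : Measurable g)
    (hEx : Measurable fun q : Ω × ℝ × 𝓛 => Ex q.1 q.2.1 q.2.2)
    (hD : ∀ w u ℓ, D w u ℓ ≤ g ℓ + Ex w u ℓ)
    {T : Ω → Pp → ℝ≥0∞} (hT : Measurable fun q : Ω × Pp => T q.1 q.2) (hT1 : ∀ w p, T w p ≤ 1)
    {X : Ω → ℝ≥0∞} (hX : ∀ w, ∫⁻ p, T w p * ∫⁻ ℓ in {ℓ | p ∈ B ℓ}, g ℓ ∂mL ∂ν ≤ X w) :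
    ∫⁻ ℓ, ∫⁻ w, ∫⁻ p in B ℓ, D w (lt ℓ p) ℓ * T w p ∂ν ∂P ∂mL ≤
      ∫⁻ w, X w ∂P + c₇ * ∫⁻ ℓ, ∫⁻ w, ∫⁻ u, rd ℓ u * Ex w u ℓ ∂κ ∂P ∂mL := by
  classical
  have hBm : ∀ ℓ, MeasurableSet (B ℓ) := fun ℓ => hB.preimage measurable_prodMk_left
  have hBp : ∀ p, MeasurableSet {ℓ | p ∈ B ℓ} := fun p => hB.preimage measurable_prodMk_right
  -- the main part with indicator
  set M : (𝓛 × Ω) × Pp → ℝ≥0∞ := fun q =>
    {q : (𝓛 × Ω) × Pp | q.2 ∈ B q.1.1}.indicator (fun q => g q.1.1 * T q.1.2 q.2) q with hM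
  have hMm : Measurable M := by
    refine Measurable.indicator ?_ ?_
    · exact (hg.comp (measurable_fst.comp measurable_fst)).mul
        (hT.comp ((measurable_snd.comp measurable_fst).prodMk measurable_snd))
    · have h1 : Measurable fun q : (𝓛 × Ω) × Pp => (q.1.1, q.2) :=
        (measurable_fst.comp measurable_fst).prodMk measurable_snd
      exact h1 hB
  have hM1 : ∀ ℓ w p, p ∈ B ℓ → M ((ℓ, w), p) = g ℓ * T w p := fun ℓ w p hp =>
    indicator_of_mem (show (((ℓ, w), p) : (𝓛 × Ω) × Pp) ∈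
        {q : (𝓛 × Ω) × Pp | q.2 ∈ B q.1.1} from hp) _
  have hM0 : ∀ ℓ w p, p ∉ B ℓ → M ((ℓ, w), p) = 0 := fun ℓ w p hp =>
    indicator_of_notMem (show (((ℓ, w), p) : (𝓛 × Ω) × Pp) ∉
        {q : (𝓛 × Ω) × Pp | q.2 ∈ B q.1.1} from hp) _
  have hMi : ∀ ℓ w, ∫⁻ p in B ℓ, g ℓ * T w p ∂ν = ∫⁻ p, M ((ℓ, w), p) ∂ν := by
    intro ℓ w
    rw [← lintegral_indicator (hBm ℓ)]
    refine lintegral_congr fun p => ?_
    by_cases hp : p ∈ B ℓ
    · rw [indicator_of_mem hp, hM1 ℓ w p hp]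
    · rw [indicator_of_notMem hp, hM0 ℓ w p hp]
  have hIm : Measurable fun q : 𝓛 × Ω => ∫⁻ p, M (q, p) ∂ν := hMm.lintegral_prod_right'
  have hpt : ∀ ℓ w, ∫⁻ p in B ℓ, D w (lt ℓ p) ℓ * T w p ∂ν ≤
      ∫⁻ p, M ((ℓ, w), p) ∂ν + c₇ * ∫⁻ u, rd ℓ u * Ex w u ℓ ∂κ := by
    intro ℓ w
    have hExu : Measurable fun u => Ex w u ℓ :=
      hEx.comp (measurable_const.prodMk (measurable_id.prodMk measurable_const))
    have hgT : Measurable fun p => g ℓ * T w p :=
      (hT.comp (measurable_const.prodMk measurable_id)).const_mul _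
    calc ∫⁻ p in B ℓ, D w (lt ℓ p) ℓ * T w p ∂ν
        ≤ ∫⁻ p in B ℓ, (g ℓ * T w p + Ex w (lt ℓ p) ℓ) ∂ν := by
          refine lintegral_mono fun p => ?_
          calc D w (lt ℓ p) ℓ * T w p ≤ (g ℓ + Ex w (lt ℓ p) ℓ) * T w p :=
                mul_le_mul_left (hD w _ ℓ) _
            _ = g ℓ * T w p + Ex w (lt ℓ p) ℓ * T w p := add_mul _ _ _
            _ ≤ g ℓ * T w p + Ex w (lt ℓ p) ℓ * 1 :=
                add_le_add le_rfl (mul_le_mul_right (hT1 w p) _)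
            _ = _ := by rw [mul_one]
      _ = ∫⁻ p in B ℓ, g ℓ * T w p ∂ν + ∫⁻ p in B ℓ, Ex w (lt ℓ p) ℓ ∂ν :=
          lintegral_add_left hgT _
      _ ≤ _ := by
          rw [hMi]
          exact add_le_add le_rfl (h7 ℓ _ hExu)
  calc ∫⁻ ℓ, ∫⁻ w, ∫⁻ p in B ℓ, D w (lt ℓ p) ℓ * T w p ∂ν ∂P ∂mL
      ≤ ∫⁻ ℓ, ∫⁻ w, (∫⁻ p, M ((ℓ, w), p) ∂ν + c₇ * ∫⁻ u, rd ℓ u * Ex w u ℓ ∂κ) ∂P ∂mL :=
        lintegral_mono fun ℓ => lintegral_mono fun w => hpt ℓ w
    _ = ∫⁻ ℓ, (∫⁻ w, ∫⁻ p, M ((ℓ, w), p) ∂ν ∂P +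
          c₇ * ∫⁻ w, ∫⁻ u, rd ℓ u * Ex w u ℓ ∂κ ∂P) ∂mL := by
        refine lintegral_congr fun ℓ => ?_
        have h1 : Measurable fun w => ∫⁻ p, M ((ℓ, w), p) ∂ν :=
          hIm.comp (measurable_const.prodMk measurable_id)
        rw [lintegral_add_left h1, lintegral_const_mul' _ _ hc]
    _ = ∫⁻ ℓ, ∫⁻ w, ∫⁻ p, M ((ℓ, w), p) ∂ν ∂P ∂mL +
          c₇ * ∫⁻ ℓ, ∫⁻ w, ∫⁻ u, rd ℓ u * Ex w u ℓ ∂κ ∂P ∂mL := by
        rw [lintegral_add_left hIm.lintegral_prod_right', lintegral_const_mul' _ _ hc]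
    _ ≤ _ := by
        refine add_le_add ?_ le_rfl
        calc ∫⁻ ℓ, ∫⁻ w, ∫⁻ p, M ((ℓ, w), p) ∂ν ∂P ∂mL
            = ∫⁻ w, ∫⁻ ℓ, ∫⁻ p, M ((ℓ, w), p) ∂ν ∂mL ∂P :=
              lintegral_lintegral_swap (f := fun ℓ w => ∫⁻ p, M ((ℓ, w), p) ∂ν) hIm.aemeasurable
          _ = ∫⁻ w, ∫⁻ p, ∫⁻ ℓ, M ((ℓ, w), p) ∂mL ∂ν ∂P := by
              refine lintegral_congr fun w => ?_
              refine lintegral_lintegral_swap (f := fun ℓ p => M ((ℓ, w), p)) ?_
              exact (hMm.comp ((measurable_fst.prodMk measurable_const).prodMk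
                measurable_snd)).aemeasurable
          _ ≤ ∫⁻ w, X w ∂P := by
              refine lintegral_mono fun w => le_trans (le_of_eq ?_) (hX w)
              refine lintegral_congr fun p => ?_
              rw [← lintegral_indicator (hBp p), ← lintegral_const_mul _ (hg.indicator (hBp p))]
              refine lintegral_congr fun ℓ => ?_
              by_cases hp : p ∈ B ℓ
              · rw [hM1 ℓ w p hp, indicator_of_mem (show ℓ ∈ {ℓ | p ∈ B ℓ} from hp), mul_comm]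
              · rw [hM0 ℓ w p hp, indicator_of_notMem (show ℓ ∉ {ℓ | p ∈ B ℓ} from hp), mul_zero]

end Y

end

end Crest.Agent.R122.SPV994
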