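import Crest.Agent.R122.VLdynC_564
import Crest.Agent.R122.VLInstA_442

/-!
# Row 122, block VL: candidates as local worlds, contacts of the pair (helper564)

* `lworld_glue`: groups of candidates at cross distance at least `ε` form a local world;
* `cand`: the pair follows the two-body motion, the others free lines; `lworld_pair`,
  `lworld_lines`;
* `cand_self`, `cand_before`, `cand_after`, `cand_close`;
* `ct_lines`, `ct_broken`: contacts of two (broken) lines.
-/

set_option autoImplicit false
set_option linter.unusedSectionVars false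
open MeasureTheory Metric Set Filter
open scoped ENNReal NNReal Topology
open Crest.AnalysisR.Kinetic

noncomputable section

namespace Crest.Agent.R122.VLcore564

open Scat818 Flow671 Loc45 Ins45 VLInst442

variable {Φ : Space3 → ℝ} {ε : ℝ}

/-- **Gluing of finitely many local worlds** (over the groups of a family) at cross distance at
least `ε`. -/
theorem lworld_glue {ι : Type*} [Fintype ι] {γ : Type*} [DecidableEq γ]
    (hΦ : AdmissiblePotential Φ) (hε : 0 < ε) {b : ι → ℝ} {a T : ℝ} (c : ι → γ)
    {Y : ℝ → ι → PhasePoint}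
    (hY : ∀ g : γ, LWorld Φ ε (fun k : {k // c k = g} => b k) a T
      (fun t (k : {k // c k = g}) => Y t k))
    (hfar : ∀ t ∈ Ico a T, ∀ k l, c k ≠ c l → b k ≤ t → b l ≤ t →
      ε ≤ dist (Y t k).1 (Y t l).1) :
    LWorld Φ ε b a T Y where
  cont := continuousOn_pi.2 fun k => (hY (c k)).cont_apply ⟨k, rfl⟩
  der t ht := by
    classical
    rw [hasDerivWithinAt_pi]
    intro k
    have h1 := (hasDerivWithinAt_pi.1 ((hY (c k)).der t ht)) ⟨k, rfl⟩
    have h2 : bf Φ ε (fun m : {m // c m = c k} => b m) t (fun m : {m // c m = c k} => Y t m)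
        ⟨k, rfl⟩ = bf Φ ε b t (Y t) k := by
      unfold bf
      show ((Y t k).2, if b k ≤ t then _ else _) = ((Y t k).2, if b k ≤ t then _ else _)
      by_cases hi : b k ≤ t
      · rw [if_pos hi, if_pos hi]
        congr 2
        symm
        rw [← Finset.sum_subset (Finset.subset_univ
          (Finset.univ.map (Function.Embedding.subtype fun m => c m = c k))), Finset.sum_map]
        · rfl
        intro j _ hj
        by_cases hj' : b j ≤ t
        · rw [if_pos hj']
          refine grad_far hΦ hε (hfar t ht k j ?_ hi hj')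
          intro h
          exact hj (by simp [h])
        · rw [if_neg hj']
      · rw [if_neg hi, if_neg hi]
    rw [h2] at h1
    exact h1
  dom t ht := by
    by_cases hsm : ContDiff ℝ 2 Φ
    · exact Or.inl hsm
    · refine Or.inr fun i j hij hi hj => ?_
      by_cases hc : c i = c j
      · rcases (hY (c j)).dom t ht with h | h
        · exact absurd h hsm
        · exact h ⟨i, hc⟩ ⟨j, rfl⟩ (fun h => hij (congrArg Subtype.val h)) hi hj
      · have h1 := hfar t ht i j hc hi hj
        intro h
        rw [h, dist_self] at h1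
        linarith

/-- Free lines at mutual distance at least `ε`. -/
theorem lworld_lines {ι : Type*} [Fintype ι] (hΦ : AdmissiblePotential Φ) (hε : 0 < ε)
    {b : ι → ℝ} {a T : ℝ} {Z : ι → PhasePoint}
    (hfar : ∀ t ∈ Ico a T, ∀ k l, k ≠ l → b k ≤ t → b l ≤ t →
      ε ≤ dist (fr (Z k) (t - a)).1 (fr (Z l) (t - a)).1) :
    LWorld Φ ε b a T (fun t k => fr (Z k) (t - a)) := by
  classical
  refine lworld_glue hΦ hε (fun k : ι => some k) (fun g => ?_)
    (fun t ht k l hkl => hfar t ht k l fun h => hkl (congrArg some h))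
  have : Subsingleton {k : ι // some k = g} :=
    ⟨fun x y => Subtype.ext (Option.some.inj (x.2.trans y.2.symm))⟩
  exact LWorld.of_bworld
    (bworld_subsingleton hΦ _ (fun k : {k : ι // some k = g} => Z k) a)

open scoped Classical in
/-- Candidate: the pair `(i, j)` follows the two-body motion started at time `a`, the others are
free lines. -/
def cand {ι : Type*} (Φ : Space3 → ℝ) (ε : ℝ) (Z : ι → PhasePoint) (i j : ι) (a t : ℝ) (k : ι) :
    PhasePoint :=
  if k = i then (pp Φ ε (Z i) (Z j) (t - a)).1 else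
    if k = j then (pp Φ ε (Z i) (Z j) (t - a)).2 else fr (Z k) (t - a)

theorem cand_left {ι : Type*} (Z : ι → PhasePoint) (i j : ι) (a t : ℝ) :
    cand Φ ε Z i j a t i = (pp Φ ε (Z i) (Z j) (t - a)).1 := by
  simp [cand]

theorem cand_right {ι : Type*} (Z : ι → PhasePoint) {i j : ι} (hij : i ≠ j) (a t : ℝ) :
    cand Φ ε Z i j a t j = (pp Φ ε (Z i) (Z j) (t - a)).2 := by
  simp [cand, hij.symm]

theorem cand_other {ι : Type*} (Z : ι → PhasePoint) {i j k : ι} (hki : k ≠ i) (hkj : k ≠ j)
    (a t : ℝ) : cand Φ ε Z i j a t k = fr (Z k) (t - a) := by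
  simp [cand, hki, hkj]

/-- The pair as a world. -/
theorem pair_world {P : Type*} [Fintype P] (hΦ : AdmissiblePotential Φ) (hε : 0 < ε) {i j : P}
    (hij : i ≠ j) (htwo : ∀ k : P, k = i ∨ k = j) {Z : P → PhasePoint}
    (hreg : Reg Φ ((Z i).1 - (Z j).1)) {b : P → ℝ} {a : ℝ} (hbi : b i ≤ a) (hbj : b j ≤ a) :
    BWorld Φ ε b a (cand Φ ε Z i j a) := by
  have hflow : ∀ s, flow Φ ε s Z i = (pp Φ ε (Z i) (Z j) s).1 ∧
      flow Φ ε s Z j = (pp Φ ε (Z i) (Z j) s).2 := by
    intro s
    have h := flow_pair hΦ hε hij htwo (Z := Z) hreg s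
    rw [h, pairConf_left, pairConf_right ε hij.symm]
    exact ⟨rfl, rfl⟩
  have hD : Z ∈ Dom Φ P := dom_of_reg htwo hreg
  have hWorld : World Φ ε (fun t => flow Φ ε (t - a) Z) := by
    have := (world_flow hΦ hε hD).shift (-a)
    have h2 : (fun t => flow Φ ε (-a + t) Z) = fun t => flow Φ ε (t - a) Z := by
      funext t
      rw [neg_add_eq_sub]
    rwa [h2] at this
  have hPB : BWorld Φ ε b a (fun t => flow Φ ε (t - a) Z) := by
    refine World.bworld hWorld fun k => ?_
    rcases htwo k with rfl | rfl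
    · exact hbi
    · exact hbj
  have h3 : cand Φ ε Z i j a = fun t => flow Φ ε (t - a) Z := by
    funext t k
    rcases htwo k with rfl | rfl
    · rw [cand_left, (hflow (t - a)).1]
    · rw [cand_right Z hij, (hflow (t - a)).2]
  rw [h3]
  exact hPB

/-- **Pair and free lines** as a local world. -/
theorem lworld_pair {ι : Type*} [Fintype ι] (hΦ : AdmissiblePotential Φ) (hε : 0 < ε)
    {b : ι → ℝ} {a T : ℝ} {Z : ι → PhasePoint} {i j : ι} (hij : i ≠ j)
    (hreg : Reg Φ ((Z i).1 - (Z j).1)) (hbi : b i ≤ a) (hbj : b j ≤ a)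
    (hrest : ∀ t ∈ Ico a T, ∀ k l, k ≠ i → k ≠ j → l ≠ i → l ≠ j → k ≠ l → b k ≤ t → b l ≤ t →
      ε ≤ dist (fr (Z k) (t - a)).1 (fr (Z l) (t - a)).1)
    (hcross : ∀ t ∈ Ico a T, ∀ k, k ≠ i → k ≠ j → b k ≤ t →
      ε ≤ dist (pp Φ ε (Z i) (Z j) (t - a)).1.1 (fr (Z k) (t - a)).1 ∧
      ε ≤ dist (pp Φ ε (Z i) (Z j) (t - a)).2.1 (fr (Z k) (t - a)).1) :
    LWorld Φ ε b a T (cand Φ ε Z i j a) := by
  classical
  set c : ι → Option ι := fun k => if k = i ∨ k = j then none else some k with hc
  have hci : c i = none := by simp [hc]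
  have hcj : c j = none := by simp [hc]
  have hnone : ∀ k, c k = none → k = i ∨ k = j := by
    intro k hk
    by_contra h
    simp only [hc, if_neg h] at hk
    exact absurd hk (by simp)
  refine lworld_glue hΦ hε c (fun g => ?_) ?_
  · rcases g with _ | g
    · set i' : {k // c k = none} := ⟨i, hci⟩ with hi'
      set j' : {k // c k = none} := ⟨j, hcj⟩ with hj'
      have hij' : i' ≠ j' := fun h => hij (congrArg Subtype.val h)
      have htwo : ∀ k : {k // c k = none}, k = i' ∨ k = j' := by
        rintro ⟨k, hk⟩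
        rcases hnone k hk with rfl | rfl
        · exact Or.inl rfl
        · exact Or.inr rfl
      have h := pair_world hΦ hε hij' htwo (Z := fun k : {k // c k = none} => Z k) hreg
        (b := fun k : {k // c k = none} => b k) (a := a) hbi hbj
      refine (LWorld.of_bworld h).congr fun t _ => ?_
      funext k
      rcases htwo k with rfl | rfl
      · exact (cand_left Z i j a t).trans
          (cand_left (fun k : {k // c k = none} => Z k) i' j' a t).symm
      · exact (cand_right Z hij a t).trans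
          (cand_right (fun k : {k // c k = none} => Z k) hij' a t).symm
    · have hval : ∀ w : {k : ι // c k = some g}, (w : ι) ≠ i ∧ (w : ι) ≠ j ∧ (w : ι) = g := by
        intro w
        have hw := w.2
        by_cases h : (w : ι) = i ∨ (w : ι) = j
        · simp only [hc, if_pos h] at hw
          exact absurd hw (by simp)
        · rw [not_or] at h
          refine ⟨h.1, h.2, ?_⟩
          have h' : ¬ ((w : ι) = i ∨ (w : ι) = j) := by rw [not_or]; exact h
          simp only [hc, if_neg h'] at hw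
          exact Option.some.inj hw
      have hss : Subsingleton {k : ι // c k = some g} :=
        ⟨fun x y => Subtype.ext ((hval x).2.2.trans (hval y).2.2.symm)⟩
      refine (LWorld.of_bworld (bworld_subsingleton hΦ _
        (fun k : {k : ι // c k = some g} => Z k) a)).congr fun t _ => ?_
      funext k
      exact cand_other Z (hval k).1 (hval k).2.1 a t
  · intro t ht k l hkl hbk hbl
    by_cases hk : k = i ∨ k = j
    · by_cases hl : l = i ∨ l = j
      · exact absurd (by simp only [hc, if_pos hk, if_pos hl]) hkl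
      · rw [not_or] at hl
        rw [cand_other Z hl.1 hl.2]
        rcases hk with rfl | rfl
        · rw [cand_left]; exact (hcross t ht l hl.1 hl.2 hbl).1
        · rw [cand_right Z hij]; exact (hcross t ht l hl.1 hl.2 hbl).2
    · rw [not_or] at hk
      by_cases hl : l = i ∨ l = j
      · rw [cand_other Z hk.1 hk.2, dist_comm]
        rcases hl with rfl | rfl
        · rw [cand_left]; exact (hcross t ht k hk.1 hk.2 hbk).1
        · rw [cand_right Z hij]; exact (hcross t ht k hk.1 hk.2 hbk).2
      · rw [not_or] at hl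
        rw [cand_other Z hk.1 hk.2, cand_other Z hl.1 hl.2]
        refine hrest t ht k l hk.1 hk.2 hl.1 hl.2 ?_ hbk hbl
        rintro rfl
        exact hkl rfl

/-! ### Values of the candidate -/

theorem pp_zero' (hΦ : AdmissiblePotential Φ) (hε : 0 < ε) {x y : PhasePoint} {τ R : ℝ}
    (hz : Exi Φ R (ss ε x y τ)) (hRτ : R * ε ≤ τ) : pp Φ ε x y 0 = (x, y) := by
  rw [pp_before hΦ hε hz hRτ (by linarith)]
  unfold fr
  simp

/-- The limit displacement of the pair: `+w` for `i`, `-w` for `j`. -/
def kk {ι : Type*} [DecidableEq ι] (i j : ι) (w : Space3) (k : ι) : Space3 :=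
  if k = i then w else if k = j then -w else 0

theorem kk_left {ι : Type*} [DecidableEq ι] (i j : ι) (w : Space3) : kk i j w i = w := by
  simp [kk]

theorem kk_right {ι : Type*} [DecidableEq ι] {i j : ι} (hij : i ≠ j) (w : Space3) :
    kk i j w j = -w := by
  simp [kk, hij.symm]

theorem kk_other {ι : Type*} [DecidableEq ι] {i j k : ι} (hki : k ≠ i) (hkj : k ≠ j)
    (w : Space3) : kk i j w k = 0 := by
  simp [kk, hki, hkj]

open scoped Classical in
/-- Before the window the candidate is made of free lines. -/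
theorem cand_before {ι : Type*} (hΦ : AdmissiblePotential Φ) (hε : 0 < ε) {Z : ι → PhasePoint}
    {i j : ι} (hij : i ≠ j) {a t R : ℝ} (hz : Exi Φ R (ss ε (Z i) (Z j) (t - a)))
    (hR : R * ε ≤ t - a) {s : ℝ} (hs : s ≤ t - R * ε) (k : ι) :
    cand Φ ε Z i j a s k = fr (Z k) (s - a) := by
  have hpp := pp_before hΦ hε hz hR (t := s - a) (by linarith)
  by_cases h1 : k = i
  · subst h1
    rw [cand_left, hpp]
  · by_cases h2 : k = j
    · subst h2
      rw [cand_right Z hij, hpp]
    · rw [cand_other Z h1 h2]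

open scoped Classical in
/-- After the window: exact lines. -/
theorem cand_after {ι : Type*} (hΦ : AdmissiblePotential Φ) (hε : 0 < ε) {Z : ι → PhasePoint}
    {i j : ι} (hij : i ≠ j) {a t R : ℝ} (hz : Exi Φ R (ss ε (Z i) (Z j) (t - a)))
    (hR : R * ε ≤ t - a) {s : ℝ} (hs : t + R * ε ≤ s) (k : ι) :
    cand Φ ε Z i j a s k =
      ((fr (Z k) (s - a)).1 + (ε • kk i j (K1 Φ R (ss ε (Z i) (Z j) (t - a))) k +
        (s - t) • kk i j (W1 Φ R (ss ε (Z i) (Z j) (t - a))) k),
        (Z k).2 + kk i j (W1 Φ R (ss ε (Z i) (Z j) (t - a))) k) := by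
  have hpp := pp_after hΦ hε hz hR (t := s - a) (by linarith)
  have hst : s - a - (t - a) = s - t := by ring
  rw [hst] at hpp
  by_cases h1 : k = i
  · subst h1
    rw [cand_left, hpp, kk_left, kk_left]
  · by_cases h2 : k = j
    · subst h2
      rw [cand_right Z hij, hpp, kk_right hij, kk_right hij]
      ext1
      · show (fr (Z k) (s - a)).1 - (_ + _) = (fr (Z k) (s - a)).1 + (_ + _)
        rw [smul_neg, smul_neg]
        abel
      · show (Z k).2 - _ = (Z k).2 + -_
        abel
    · rw [cand_other Z h1 h2, kk_other h1 h2, kk_other h1 h2]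
      unfold fr
      simp

open scoped Classical in
/-- **Closeness**: the candidate is within `C ε` of the broken lines. -/
theorem cand_close (hΦ : AdmissiblePotential Φ) {R : ℝ} (hR : 0 ≤ R)
    {z : Space3 × Space3} (hz : Exi Φ R z) :
    ∃ C : ℝ, 0 ≤ C ∧ ∀ (ι : Type) (ε : ℝ), 0 < ε → ∀ (Z : ι → PhasePoint) (i j : ι), i ≠ j →
      ∀ a t : ℝ, ss ε (Z i) (Z j) (t - a) = z → R * ε ≤ t - a → ∀ (s : ℝ) (k : ι),
        ‖(cand Φ ε Z i j a s k).1 - ((fr (Z k) (s - a)).1 + max (s - t) 0 • kk i j (W1 Φ R z) k)‖ ≤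
          C * ε ∧ ‖(cand Φ ε Z i j a s k).2 - (Z k).2‖ ≤ C := by
  obtain ⟨C, hC0, hC⟩ := pp_close hΦ hR hz
  refine ⟨C, hC0, fun ι ε hε Z i j hij a t hss hRt s k => ?_⟩
  have h := hC ε hε (Z i) (Z j) (t - a) hss hRt (s - a)
  have hst : s - a - (t - a) = s - t := by ring
  rw [hst] at h
  by_cases h1 : k = i
  · subst h1
    rw [cand_left, kk_left]
    exact ⟨h.1, h.2.2.1⟩
  · by_cases h2 : k = j
    · subst h2
      rw [cand_right Z hij, kk_right hij, smul_neg, ← sub_eq_add_neg]
      exact ⟨h.2.1, h.2.2.2⟩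
    · rw [cand_other Z h1 h2, kk_other h1 h2, smul_zero, add_zero, sub_self, norm_zero]
      refine ⟨mul_nonneg hC0 hε.le, ?_⟩
      show ‖(Z k).2 - (Z k).2‖ ≤ C
      rw [sub_self, norm_zero]
      exact hC0

/-! ### Contacts -/

/-- Two points moving apart: if the difference of two paths is within `C₁ ε` of
`(s - t) • g` (before `t`) or `(s - t) • g'` (after `t`), `g, g' ≠ 0`, a contact within `C ε` takes
place at a time within `R' ε` of `t`. -/
theorem ct_broken {g g' : Space3} (hg : g ≠ 0) (hg' : g' ≠ 0) (C₁ C : ℝ) :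
    ∃ R' : ℝ, ∀ (ε t s : ℝ) (d : Space3), 0 < ε →
      ‖d - ((s - t) • g + max (s - t) 0 • (g' - g))‖ ≤ C₁ * ε → ‖d‖ ≤ C * ε →
      |s - t| ≤ R' * ε := by
  have h1 : 0 < ‖g‖ := norm_pos_iff.2 hg
  have h2 : 0 < ‖g'‖ := norm_pos_iff.2 hg'
  set m := min ‖g‖ ‖g'‖ with hm
  have hmpos : 0 < m := lt_min h1 h2
  refine ⟨(C₁ + C) / m, fun ε t s d hε hd hdC => ?_⟩
  set v : Space3 := (s - t) • g + max (s - t) 0 • (g' - g) with hv
  have hvn : ‖v‖ ≤ (C₁ + C) * ε := by
    calc ‖v‖ = ‖d - (d - v)‖ := by rw [sub_sub_cancel]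
      _ ≤ ‖d‖ + ‖d - v‖ := norm_sub_le _ _
      _ ≤ (C₁ + C) * ε := by linarith
  have hvm : |s - t| * m ≤ ‖v‖ := by
    rcases le_total s t with h | h
    · have hmax : max (s - t) 0 = 0 := max_eq_right (by linarith)
      rw [hv, hmax, zero_smul, add_zero, norm_smul, Real.norm_eq_abs]
      exact mul_le_mul_of_nonneg_left (min_le_left _ _) (abs_nonneg _)
    · have hmax : max (s - t) 0 = s - t := max_eq_left (by linarith)
      have : v = (s - t) • g' := by rw [hv, hmax]; module
      rw [this, norm_smul, Real.norm_eq_abs]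
      exact mul_le_mul_of_nonneg_left (min_le_right _ _) (abs_nonneg _)
  rw [div_mul_eq_mul_div, le_div_iff₀ hmpos]
  exact hvm.trans hvn

end Crest.Agent.R122.VLcore564
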