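import Crest.Agent.R122.VLCoinc_399
import Crest.Agent.R122.VLPar1_823
import Crest.Agent.R122.VLInstD_442
import Crest.Agent.R122.VLInstC_442
import Crest.Agent.R122.VLdynD_564
import Crest.Agent.R122.VLGenB_692

/-!
# Row 122, block D3 (B) (helper399): placement

* `ph_loc'`, `ph_vadd`: locality and covariance (under `ok`) of the state of a label.
* `ov_on'`, `OkT`, `ov_cov'`: the values of the overlay on the support; covariance.
* `invC_congr`, `invC_shift`, `coinc_congr`, `coinc_shift`: the invariants depend on the coordinates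
  in the support only, and are invariant under common shifts of a tree without obstacle.
* `invC_leaf`.
* `ph_tendsto`: convergence of the state of a label after the merges.
-/

set_option autoImplicit false
set_option linter.unusedSectionVars false

open MeasureTheory Set Filter Topology
open scoped ENNReal NNReal
open Crest.AnalysisR.Kinetic
open Crest.Agent.R122.Ins45 Crest.Agent.R122.GIV566 Crest.Agent.R122.VLPar823
open Crest.Agent.R122.VLPar823.MTree
open Crest.Agent.R122.VLcore564 Crest.Agent.R122.VL581 Crest.Agent.R122.VLInst442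

noncomputable section

namespace Crest.Agent.R122.VLInv399

open scoped Classical

variable {J κ : Type} [Fintype J]

/-! ### The state of a label -/

section label

variable {M : VSys J κ}

theorem ph_loc' {A : Finset J} {k : κ} {t : ℝ} {Z Z' : J → PhasePoint}
    (hZ : ∀ j ∈ A, Z' j = Z j) {i : J} (hi : i ∈ A) :
    ph M A k t Z' i = ph M A k t Z i := by
  unfold ph
  rw [pos_congr hZ hi, st_congr hZ hi]

theorem pos_vadd (hΦ : AdmissiblePotential M.Φ) (hε : 0 < M.ε) {A : Finset J} {k : κ} {t : ℝ}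
    {Z : J → PhasePoint} (hok : M.ok A t Z) (w : PhasePoint) {i : J} (ho : M.o ≠ some i) :
    M.pos A k t (fun j => Z j + w) i = M.pos A k t Z i + (w.1 + t • w.2) := by
  unfold VSys.pos
  rw [if_neg ho, if_neg ho, st_vadd hΦ hε hok]
  rfl

theorem ph_vadd (hΦ : AdmissiblePotential M.Φ) (hε : 0 < M.ε) {A : Finset J} {k : κ} {t : ℝ}
    {Z : J → PhasePoint} (hok : M.ok A t Z) (w : PhasePoint) {i : J} (ho : M.o ≠ some i) :
    ph M A k t (fun j => Z j + w) i = ph M A k t Z i + (w.1 + t • w.2, w.2) := by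
  unfold ph
  rw [pos_vadd hΦ hε hok w ho, if_neg ho, if_neg ho, st_vadd hΦ hε hok]
  rfl

theorem ok_sub {A : Finset J} (hA : ∀ p ∈ A, ∀ q ∈ A, p = q) (t : ℝ) (Z : J → PhasePoint) :
    M.ok A t Z := fun i hi _ _ j hj _ hji _ => absurd (hA j hj i hi) hji

/-- A world with one particle. -/
theorem st_sub (hΦ : AdmissiblePotential M.Φ) (hε : 0 < M.ε) {A : Finset J}
    (hA : ∀ p ∈ A, ∀ q ∈ A, p = q) (s : ℝ) (Z : J → PhasePoint) (p : J) :
    M.st A s Z p = fl s (Z p) := by
  rcases le_total s 0 with hs | hs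
  · exact st_nonpos M hs Z
  by_cases hp : p ∈ A ∧ M.o ≠ some p
  swap
  · exact st_of_not_mem M (fun h => hp ⟨(mem_mem.1 h).1, (mem_mem.1 h).2.1⟩) Z
  have hsub : ∀ k l : Mem M A, k = l := fun k l => Subtype.ext (hA k k.2.1 l l.2.1)
  have h1 : LWorld M.Φ M.ε (fun i : Mem M A => M.bb i) 0 s
      (fun t (k : Mem M A) => fr (Z k) (t - 0)) :=
    lworld_lines hΦ hε (Z := fun k : Mem M A => Z k) fun t _ k l hkl => absurd (hsub k l) hkl
  have h2 := st_eq_of_lworldM hΦ hε le_rfl h1 (Z := Z) (fun j => by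
    rw [sub_zero]; rfl) s ⟨hs, le_rfl⟩ ⟨p, hp⟩
  rw [h2, sub_zero]
  rfl

end label

/-! ### The overlay -/

section overlay

variable {M : VSys J κ}

/-- The values on the support do not depend on the background. -/
theorem ov_on' {o : Option J} : ∀ (τ : MTree J κ) (_ : WF o τ) (π : Par τ)
    (z : PhasePoint) (x x' : J → PhasePoint), ∀ y ∈ supp τ, ov M τ π z x y = ov M τ π z x' y
  | leaf j => fun _ π z x x' y hy => by
      have : y = j := Finset.mem_singleton.1 hy
      subst this
      rw [ov_leaf, ov_leaf, Function.update_self, Function.update_self]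
  | node A k i B l j P Q => fun hW π z x x' y hy => by
      obtain ⟨hd, hA, hB, hi, hj, -, hWP, hWQ⟩ := hW
      have hP := ov_on' P hWP π.2.1 z x x'
      have hp : ph M A k π.1.1 (ov M P π.2.1 z x) i = ph M A k π.1.1 (ov M P π.2.1 z x') i :=
        ph_loc' (fun a ha => hP a (hA ha)) hi
      have hq : ph M B l π.1.1 (ov M Q π.2.2 0 (ov M P π.2.1 z x)) j =
          ph M B l π.1.1 (ov M Q π.2.2 0 (ov M P π.2.1 z x')) j :=
        ph_loc' (fun b hb => ov_on' Q hWQ π.2.2 0 _ _ b (hB hb)) hj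
      rw [ov_node, ov_node]
      unfold nw
      rw [hp, hq]
      by_cases hyQ : y ∈ supp Q
      · exact ov_on' Q hWQ _ _ _ _ y hyQ
      · rw [ov_off Q _ _ _ y hyQ, ov_off Q _ _ _ y hyQ]
        exact hP y ((Finset.mem_union.1 hy).resolve_right hyQ)

/-- The merging sub-worlds are ok up to the merge times. -/
def OkT (M : VSys J κ) : ∀ τ : MTree J κ, Par τ → Prop
  | leaf _ => fun _ => True
  | node A _ _ _ _ _ P Q => fun π => OkT M P π.2.1 ∧ OkT M Q π.2.2 ∧
      ∃ z x, M.ok A π.1.1 (ov M P π.2.1 z x)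

/-- Covariance of the overlay. -/
theorem ov_cov' (hΦ : AdmissiblePotential M.Φ) (hε : 0 < M.ε) : ∀ (τ : MTree J κ) (_ : WF M.o τ)
    (_ : ∀ y ∈ supp τ, M.o ≠ some y) (π : Par τ) (_ : OkT M τ π) (z w : PhasePoint)
    (x x' : J → PhasePoint), ∀ y ∈ supp τ, ov M τ π (z + w) x y = ov M τ π z x' y + w
  | leaf j => fun _ _ π _ z w x x' y hy => by
      have : y = j := Finset.mem_singleton.1 hy
      subst this
      rw [ov_leaf, ov_leaf, Function.update_self, Function.update_self]
  | node A k i B l j P Q => fun hW ho π hO z w x x' y hy => by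
      obtain ⟨hd, hA, hB, hi, hj, -, hWP, hWQ⟩ := hW
      obtain ⟨hOP, hOQ, z₀, x₀, hok₀⟩ := hO
      have hoP : ∀ y ∈ supp P, M.o ≠ some y := fun y hy => ho y (Finset.mem_union_left _ hy)
      have hoQ : ∀ y ∈ supp Q, M.o ≠ some y := fun y hy => ho y (Finset.mem_union_right _ hy)
      have hP := ov_cov' hΦ hε P hWP hoP π.2.1 hOP
      -- the sub-world `A` is ok for every root
      have hok : M.ok A π.1.1 (ov M P π.2.1 z x') := by
        have h1 : ∀ a ∈ A, ov M P π.2.1 z x' a = ov M P π.2.1 z₀ x₀ a + (z - z₀) := by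
          intro a ha
          have := hP z₀ (z - z₀) x' x₀ a (hA ha)
          rwa [add_sub_cancel] at this
        rw [ok_congr h1]
        exact (ok_vadd hΦ hε (z - z₀)).2 hok₀
      have hp : ph M A k π.1.1 (ov M P π.2.1 (z + w) x) i =
          ph M A k π.1.1 (ov M P π.2.1 z x') i + (w.1 + π.1.1 • w.2, w.2) := by
        rw [← ph_vadd hΦ hε hok w (hoP i (hA hi))]
        exact ph_loc' (fun a ha => hP z w x x' a (hA ha)) hi
      have hq : ph M B l π.1.1 (ov M Q π.2.2 0 (ov M P π.2.1 (z + w) x)) j =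
          ph M B l π.1.1 (ov M Q π.2.2 0 (ov M P π.2.1 z x')) j :=
        ph_loc' (fun b hb => ov_on' Q hWQ π.2.2 0 _ _ b (hB hb)) hj
      rw [ov_node, ov_node]
      unfold nw
      rw [hp, hq, mv_add]
      by_cases hyQ : y ∈ supp Q
      · exact ov_cov' hΦ hε Q hWQ hoQ _ hOQ _ _ _ _ y hyQ
      · rw [ov_off Q _ _ _ y hyQ, ov_off Q _ _ _ y hyQ]
        exact hP z w x x' y ((Finset.mem_union.1 hy).resolve_right hyQ)

end overlay

/-! ### The invariants -/

section inv

variable {M : ℕ → VSys J κ} {N : VSys J κ} {Bd : Set ℝ}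

theorem invC_congr {τ : MTree J κ} {π : Par τ} {Z Z' : ℕ → J → PhasePoint}
    {Zl Zl' : J → PhasePoint} (h : InvC M N τ π Z Zl)
    (hZ : ∀ᶠ n in atTop, ∀ i ∈ supp τ, Z' n i = Z n i) (hl : ∀ i ∈ supp τ, Zl' i = Zl i) :
    InvC M N τ π Z' Zl' where
  vel := by
    filter_upwards [h.vel, hZ] with n h1 h2 i hi
    rw [h2 i hi, hl i hi, h1 i hi]
  posn i hi := by
    rw [hl i hi]
    refine (h.posn i hi).congr' ?_
    filter_upwards [hZ] with n h2
    rw [h2 i hi]
  ok := by
    filter_upwards [h.ok, hZ] with n h1 h2 A hA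
    rw [ok_congr fun j hj => h2 j (hA hj)]
    exact h1 A hA
  line := by
    obtain ⟨R, hR⟩ := h.line
    refine ⟨R, ?_⟩
    filter_upwards [hR, hZ] with n h1 h2 A hA i hi ho s hs
    rw [st_congr (fun j hj => h2 j (hA hj)) hi, st_congr (fun j hj => h2 j (hA hj)) hi,
      hl i (hA hi)]
    exact h1 A hA i hi ho s hs
  eqv := by
    obtain ⟨R, hR⟩ := h.eqv
    refine ⟨R, ?_⟩
    filter_upwards [hR, hZ] with n h1 h2 A hA A' hA' i hi hi' ho hD s hs
    rw [st_congr (fun j hj => h2 j (hA hj)) hi, st_congr (fun j hj => h2 j (hA' hj)) hi']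
    exact h1 A hA A' hA' i hi hi' ho hD s hs
  conv A hA k' i hi := by
    have h1 := h.conv A hA k' i hi
    have h2 : (fun s => N.Gam τ π A k' s Zl' i) = fun s => N.Gam τ π A k' s Zl i := by
      funext s
      unfold VSys.Gam
      rw [hl i (hA hi)]
    rw [h2]
    refine h1.congr ?_
    filter_upwards [hZ] with n h3 s _
    exact (pos_congr (fun j hj => h3 j (hA hj)) hi k' s).symm
  ct C := by
    obtain ⟨R, hR⟩ := h.ct C
    refine ⟨R, ?_⟩
    filter_upwards [hR, hZ] with n h1 h2 A hA B hB k' l' i hi j hj hij s hs a1 a2 hd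
    rw [pos_congr (fun j hj => h2 j (hA hj)) hi, pos_congr (fun j hj => h2 j (hB hj)) hj] at hd
    exact h1 A hA B hB k' l' i hi j hj hij s hs a1 a2 hd

/-- Common shift of a tree without obstacle. -/
theorem invC_shift (hH : Hyp M N Bd) {τ : MTree J κ} {π : Par τ} {Z : ℕ → J → PhasePoint}
    {Zl : J → PhasePoint} (h : InvC M N τ π Z Zl) (hno : ∀ i ∈ supp τ, N.o ≠ some i)
    {w : ℕ → PhasePoint} {wl : PhasePoint} (hw2 : ∀ᶠ n in atTop, (w n).2 = wl.2)
    (hw1 : Tendsto (fun n => (w n).1) atTop (𝓝 wl.1)) :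
    InvC M N τ π (fun n i => Z n i + w n) (fun i => Zl i + wl) where
  vel := by
    filter_upwards [h.vel, hw2] with n h1 h2 i hi
    rw [Prod.snd_add, Prod.snd_add, h1 i hi, h2]
  posn i hi := (h.posn i hi).add hw1
  ok := by
    filter_upwards [h.ok] with n h1 A hA
    obtain ⟨e1, e2, e3, e4⟩ := hH.eq n
    exact (ok_vadd (by rw [e1]; exact hH.adm) e4 (w n)).2 (h1 A hA)
  line := by
    obtain ⟨R, hR⟩ := h.line
    refine ⟨R, ?_⟩
    filter_upwards [hR, h.ok, hw2, h.vel] with n h1 h2 h3 h4 A hA i hi ho s hs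
    obtain ⟨e1, e2, e3, e4⟩ := hH.eq n
    have hΦ : AdmissiblePotential (M n).Φ := by rw [e1]; exact hH.adm
    rw [st_vadd hΦ e4 (ok_anti hs.2 (h2 A hA)), st_vadd hΦ e4 (h2 A hA), h1 A hA i hi ho s hs]
    unfold fl
    ext1
    · simp only [Prod.fst_add, Prod.snd_add, h3]
      module
    · simp only [Prod.snd_add, h3]
      abel
  eqv := by
    obtain ⟨R, hR⟩ := h.eqv
    refine ⟨R, ?_⟩
    filter_upwards [hR, h.ok] with n h1 h2 A hA A' hA' i hi hi' ho hD s hs
    obtain ⟨e1, e2, e3, e4⟩ := hH.eq n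
    have hΦ : AdmissiblePotential (M n).Φ := by rw [e1]; exact hH.adm
    rw [st_vadd hΦ e4 (ok_anti hs.2 (h2 A hA)), st_vadd hΦ e4 (ok_anti hs.2 (h2 A' hA')),
      h1 A hA A' hA' i hi hi' ho hD s hs]
  conv A hA k' i hi := by
    have ho := hno i (hA hi)
    have h1 := h.conv A hA k' i hi
    have h2 : (fun s => N.Gam τ π A k' s (fun i => Zl i + wl) i) =
        fun s => N.Gam τ π A k' s Zl i + (wl.1 + s • wl.2) := by
      funext s
      exact Crest.Agent.R122.VLGen692.Gam_shift N ho rfl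
    have h3 : TendstoUniformlyOn (fun n s => (w n).1 + s • (w n).2)
        (fun s => wl.1 + s • wl.2) atTop (Icc 0 N.T) := by
      have h4 : TendstoUniformlyOn (fun n (s : ℝ) => (w n).1 + s • wl.2)
          (fun s => wl.1 + s • wl.2) atTop (Icc 0 N.T) := by
        rw [Metric.tendstoUniformlyOn_iff]
        intro e he
        filter_upwards [(Metric.tendsto_nhds.1 hw1) e he] with n hn s _
        rwa [dist_add_right, dist_comm]
      refine h4.congr ?_
      filter_upwards [hw2] with n hn s _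
      rw [hn]
    rw [h2]
    refine (h1.add h3).congr ?_
    filter_upwards [h.ok] with n hn s hs
    obtain ⟨e1, e2, e3, e4⟩ := hH.eq n
    have hΦ : AdmissiblePotential (M n).Φ := by rw [e1]; exact hH.adm
    exact (pos_vadd hΦ e4 (ok_anti hs.2 (hn A hA)) (w n) (by rw [e3]; exact ho)).symm
  ct C := by
    obtain ⟨R, hR⟩ := h.ct C
    refine ⟨R, ?_⟩
    filter_upwards [hR, h.ok] with n h1 h2 A hA B hB k' l' i hi j hj hij s hs a1 a2 hd
    obtain ⟨e1, e2, e3, e4⟩ := hH.eq n
    have hΦ : AdmissiblePotential (M n).Φ := by rw [e1]; exact hH.adm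
    rw [pos_vadd hΦ e4 (ok_anti hs.2 (h2 A hA)) (w n) (by rw [e3]; exact hno i (hA hi)),
      pos_vadd hΦ e4 (ok_anti hs.2 (h2 B hB)) (w n) (by rw [e3]; exact hno j (hB hj)),
      dist_add_right] at hd
    exact h1 A hA B hB k' l' i hi j hj hij s hs a1 a2 hd

theorem coinc_congr {τ : MTree J κ} {π : Par τ} {Zl Zl' : J → PhasePoint}
    (h : Coinc N τ π Zl) (hl : ∀ i ∈ supp τ, Zl' i = Zl i) : Coinc N τ π Zl' := by
  intro A hA B hB k' l' i hi j hj hij s hs a1 a2 heq
  refine h A hA B hB k' l' i hi j hj hij s hs a1 a2 ?_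
  unfold VSys.Gam at heq ⊢
  rwa [hl i (hA hi), hl j (hB hj)] at heq

theorem coinc_shift {τ : MTree J κ} {π : Par τ} {Zl : J → PhasePoint}
    (h : Coinc N τ π Zl) (hno : ∀ i ∈ supp τ, N.o ≠ some i) (wl : PhasePoint) :
    Coinc N τ π (fun i => Zl i + wl) := by
  intro A hA B hB k' l' i hi j hj hij s hs a1 a2 heq
  refine h A hA B hB k' l' i hi j hj hij s hs a1 a2 ?_
  rw [Crest.Agent.R122.VLGen692.Gam_shift N (hno i (hA hi)) rfl,
    Crest.Agent.R122.VLGen692.Gam_shift N (hno j (hB hj)) rfl] at heq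
  exact add_right_cancel heq

theorem coinc_leaf (j : J) (π : Par (leaf j : MTree J κ)) (Zl : J → PhasePoint) :
    Coinc N (leaf j) π Zl := by
  intro A hA B hB k' l' i hi j' hj' hij
  exact absurd ((Finset.mem_singleton.1 (hA hi)).trans (Finset.mem_singleton.1 (hB hj')).symm) hij

theorem invC_leaf (hH : Hyp M N Bd) (j : J) (π : Par (leaf j : MTree J κ)) (Z : J → PhasePoint) :
    InvC M N (leaf j) π (fun _ => Z) Z := by
  have hsub : ∀ A : Finset J, A ⊆ supp (leaf j : MTree J κ) → ∀ p ∈ A, ∀ q ∈ A, p = q :=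
    fun A hA p hp q hq =>
      (Finset.mem_singleton.1 (hA hp)).trans (Finset.mem_singleton.1 (hA hq)).symm
  have hst : ∀ n, ∀ A ⊆ supp (leaf j : MTree J κ), ∀ s p, (M n).st A s Z p = fl s (Z p) := by
    intro n A hA s p
    obtain ⟨e1, e2, e3, e4⟩ := hH.eq n
    exact st_sub (by rw [e1]; exact hH.adm) e4 (hsub A hA) s Z p
  exact {
    vel := Eventually.of_forall fun n i _ => rfl
    posn := fun i _ => tendsto_const_nhds
    ok := Eventually.of_forall fun n A hA => ok_sub (hsub A hA) _ _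
    line := by
      refine ⟨0, Eventually.of_forall fun n A hA i hi ho s hs => ?_⟩
      rw [hst n A hA, hst n A hA]
      unfold fl
      show (_, _) = (_, (Z i).2 + (0 : PhasePoint).2)
      ext1
      · show (Z i).1 + s • (Z i).2 =
          (Z i).1 + N.T • (Z i).2 - (N.T - s) • ((Z i).2 + (0 : Space3))
        module
      · show (Z i).2 = (Z i).2 + (0 : Space3)
        rw [add_zero]
    eqv := by
      refine ⟨0, Eventually.of_forall fun n A hA A' hA' i hi hi' ho _ s hs => ?_⟩
      rw [hst n A hA, hst n A' hA']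
    conv := fun A hA k' i hi => by
      by_cases ho : N.o = some i
      · have h1 : (fun s => N.Gam (leaf j) π A k' s Z i) =
            fun s => (Z i).1 + N.S.c k' (max 0 (min s N.T)) := by
          funext s
          exact gam_tube N ho
        have h2 : ∀ n, (fun s => (M n).pos A k' s Z i) =
            fun s => (Z i).1 + (M n).S.c k' (max 0 (min s N.T)) := by
          intro n
          obtain ⟨e1, e2, e3, e4⟩ := hH.eq n
          funext s
          unfold VSys.pos
          rw [e3, if_pos ho, e2]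
        rw [h1]
        have h3 := hH.tubes.curves k'
        rw [Metric.tendstoUniformlyOn_iff] at h3 ⊢
        intro e he
        filter_upwards [h3 e he] with n hn s hs
        have h4 : (M n).pos A k' s Z i = (Z i).1 + (M n).S.c k' (max 0 (min s N.T)) :=
          congrFun (h2 n) s
        rw [h4, min_eq_left hs.2, max_eq_right hs.1, dist_add_left]
        exact hn s hs
      · have h1 : ∀ n s, (M n).pos A k' s Z i = N.Gam (leaf j) π A k' s Z i := by
          intro n s
          obtain ⟨e1, e2, e3, e4⟩ := hH.eq n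
          unfold VSys.pos VSys.Gam
          rw [e3, if_neg ho, if_neg ho, hst n A hA]
          show (Z i).1 + s • (Z i).2 = (Z i).1 + s • (Z i).2 + (0 : Space3)
          rw [add_zero]
        rw [Metric.tendstoUniformlyOn_iff]
        intro e he
        refine Eventually.of_forall fun n s _ => ?_
        rw [h1, dist_self]
        exact he
    ct := fun C => by
      refine ⟨0, Eventually.of_forall fun n A hA B hB k' l' i hi j' hj' hij => ?_⟩
      exact absurd ((Finset.mem_singleton.1 (hA hi)).trans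
        (Finset.mem_singleton.1 (hB hj')).symm) hij }

theorem tlast_lt {τ : MTree J κ} {u : ℝ} {π : Par τ} (hO : Ord τ u π) (hu : 0 < u) :
    tlast τ π < u := by
  cases τ with
  | leaf j =>
    show (-1 : ℝ) < u
    linarith
  | node A k i B l j P Q => exact hO.2.1

/-- The state of a label at a time after the merges. -/
theorem ph_tendsto (hH : Hyp M N Bd) {τ : MTree J κ} {π : Par τ} {Z : ℕ → J → PhasePoint}
    {Zl : J → PhasePoint} (h : InvC M N τ π Z Zl) {A : Finset J} (hA : A ⊆ supp τ) (k : κ) {i : J}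
    (hi : i ∈ A) {t : ℝ} (ht0 : 0 ≤ t) (htT : t ≤ N.T) (hlast : tlast τ π < t) :
    (∀ᶠ n in atTop, (ph (M n) A k t (Z n) i).2 = (N.phL τ π A k t Zl i).2) ∧
      Tendsto (fun n => (ph (M n) A k t (Z n) i).1) atTop (𝓝 (N.phL τ π A k t Zl i).1) := by
  constructor
  · obtain ⟨R, hR⟩ := h.line
    have h1 : ∀ᶠ n in atTop, tlast τ π + R * (M n).ε ≤ t := by
      have h2 : Tendsto (fun n => tlast τ π + R * (M n).ε) atTop (𝓝 (tlast τ π + R * 0)) :=
        (hH.eps.const_mul R).const_add _
      rw [mul_zero, add_zero] at h2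
      exact (h2.eventually (gt_mem_nhds hlast)).mono fun n hn => le_of_lt hn
    filter_upwards [hR, h1] with n h2 h3
    obtain ⟨e1, e2, e3, e4⟩ := hH.eq n
    show (if (M n).o = some i then (0 : Space3) else ((M n).st A t (Z n) i).2) =
      if N.o = some i then (0 : Space3) else (Zl i).2 + (N.D τ π A i).2
    rw [e3]
    by_cases ho : N.o = some i
    · rw [if_pos ho, if_pos ho]
    · rw [if_neg ho, if_neg ho, h2 A hA i hi ho t ⟨h3, htT⟩]
  · exact (h.conv A hA k i hi).tendsto_at ⟨ht0, htT⟩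

end inv

end Crest.Agent.R122.VLInv399

end
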