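import Crest.Agent.R122.LNGraft_410
import Crest.Agent.R122.PWInst3_442
import Crest.Agent.R122.VLPlace_399

/-!
# Row 122, LN1 (helper564): nets of classes

`Net M C Z π cl bD` : the labels `π` of a structure are connected and partitioned into classes
`cl i` (`LNGraft_410.Cls`) with exit times `bD`.  `Exl M Z cl bD i L` : the label `i` follows the
line `L` after its exit (`L` is born at or after the exit time `bD i`).

* `Net.of_cls` : one class; `Net.add` : a fresh class, connected with the net by a contact;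
  `Net.merge` : the graft of two classes of the net.
* `Exl.add`, `Exl.merge`, `Exl.merge_a`, `Exl.merge_c`, `Exl.reborn` : lines of the new nets.
* `Net.cover`, `Net.exit0`, `Net.lab` : the data needed by the glued worlds (`PWInst2_442`).
-/

set_option autoImplicit false
set_option linter.unusedSectionVars false

open MeasureTheory Set Filter Topology
open Crest.AnalysisR.Kinetic
open Crest.Agent.R122.VL581 Crest.Agent.R122.VL581.VSys Crest.Agent.R122.VLInst442
open Crest.Agent.R122.LNg410 Crest.Agent.R122.LN304 Crest.Agent.R122.Ins45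
open Crest.Agent.R122.Kin796 Crest.Agent.R122.Kin796.CTree Crest.Agent.R122.Tree674
open Crest.Agent.R122.LNTree410 Crest.Agent.R122.TreeLines335
open Crest.Agent.R122.OCout796 Crest.Agent.R122.Scat818 Crest.Agent.R122.EDefs602
open Crest.Agent.R122.LNGraft410 Crest.Agent.R122.PWInst442
open scoped Classical

noncomputable section

namespace Crest.Agent.R122.PN564

variable {J κ : Type} [Fintype J] {M : VSys J κ} {Z : J → PhasePoint} {C ℓ ς : ℝ}
  {π : Finset J} {cl : J → Finset J} {bD : J → ℝ}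

/-- A connected structure with classes and exit times. -/
structure Net (M : VSys J κ) (C : ℝ) (Z : J → PhasePoint) (π : Finset J) (cl : J → Finset J)
    (bD : J → ℝ) : Prop where
  conn : M.Conn C π Z
  cls : ∀ i ∈ π, Cls M Z (cl i) bD
  mem : ∀ i ∈ π, i ∈ cl i
  sub : ∀ i ∈ π, cl i ⊆ π
  eq : ∀ i ∈ π, ∀ k ∈ cl i, cl k = cl i
  out : ∀ i, i ∉ π → cl i = ∅

/-- The label `i` follows the line `L`, which is born at or after the exit of `i`. -/
structure Exl (M : VSys J κ) (Z : J → PhasePoint) (cl : J → Finset J) (bD : J → ℝ) (i : J)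
    (L : Ln) : Prop where
  le : bD i ≤ L.1
  st : L.1 ≤ M.T → M.st (cl i) L.1 Z i = L.2

/-- Entrance data of the encounter of `a` (with class `S₁`) and `c` (with class `S₂`). -/
structure Enc (M : VSys J κ) (Z : J → PhasePoint) (S₁ S₂ : Finset J) (bD : J → ℝ) (a c : J)
    (s : ℝ) (y : Space3) (q : CD) : Prop where
  lta : bD a < s
  ltc : bD c < s
  cd : CDok q
  state_a : M.st S₁ s Z a = (y + M.ε • entrancePoint (relB q).1 (relB q).2, q.1)
  state_c : M.st S₂ s Z c = (y, q.2.1)
  lt_T : s < M.T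

theorem disj_of (N : Net M C Z π cl bD) {a c : J} (ha : a ∈ π) (hc : c ∈ π) (h : cl a ≠ cl c) :
    Disjoint (cl a) (cl c) := by
  rw [Finset.disjoint_left]
  intro k hk hk'
  exact h ((N.eq a ha k hk).symm.trans (N.eq c hc k hk'))

namespace Net

/-- One class. -/
theorem of_cls {S : Finset J} (h : Cls M Z S bD) (hC : M.Conn C S Z) :
    Net M C Z S (fun i => if i ∈ S then S else ∅) bD where
  conn := hC
  cls i hi := by rw [if_pos hi]; exact h
  mem i hi := by rw [if_pos hi]; exact hi
  sub i hi := by rw [if_pos hi]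
  eq i hi k hk := by
    rw [if_pos hi] at hk ⊢
    rw [if_pos hk]
  out i hi := if_neg hi

/-- Classes of the net with the fresh class `S`. -/
def addCl (cl : J → Finset J) (S : Finset J) (i : J) : Finset J := if i ∈ S then S else cl i

theorem addCl_old {S : Finset J} (h : Disjoint π S) {i : J} (hi : i ∈ π) :
    addCl cl S i = cl i := if_neg (Finset.disjoint_left.1 h hi)

theorem addCl_new {S : Finset J} {i : J} (hi : i ∈ S) : addCl cl S i = S := if_pos hi

/-- A fresh class, connected with the net by a contact. -/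
theorem add (N : Net M C Z π cl bD) {S : Finset J} (hS : Cls M Z S bD) (hd : Disjoint π S)
    (hSc : M.Conn C S Z) {a c : J} (ha : a ∈ π) (hc : c ∈ S) {t : ℝ} (ht : t ∈ Icc 0 M.T)
    (hv : M.VCt C (π ∪ S) a c t Z) : Net M C Z (π ∪ S) (addCl cl S) bD where
  conn := conn_union_of_vct N.conn hSc ha hc ht hv
  cls i hi := by
    by_cases h : i ∈ S
    · rw [addCl_new h]; exact hS
    · have hi' := (Finset.mem_union.1 hi).resolve_right h
      rw [addCl_old hd hi']; exact N.cls i hi'
  mem i hi := by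
    by_cases h : i ∈ S
    · rw [addCl_new h]; exact h
    · have hi' := (Finset.mem_union.1 hi).resolve_right h
      rw [addCl_old hd hi']; exact N.mem i hi'
  sub i hi := by
    by_cases h : i ∈ S
    · rw [addCl_new h]; exact Finset.subset_union_right
    · have hi' := (Finset.mem_union.1 hi).resolve_right h
      rw [addCl_old hd hi']; exact (N.sub i hi').trans Finset.subset_union_left
  eq i hi k hk := by
    by_cases h : i ∈ S
    · rw [addCl_new h] at hk ⊢
      rw [addCl_new hk]
    · have hi' := (Finset.mem_union.1 hi).resolve_right h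
      rw [addCl_old hd hi'] at hk ⊢
      rw [addCl_old hd (N.sub i hi' hk)]
      exact N.eq i hi' k hk
  out i hi := by
    rw [Finset.mem_union, not_or] at hi
    unfold addCl
    rw [if_neg hi.2]
    exact N.out i hi.1

/-- Classes after the graft of the classes of `a` and `c`. -/
def mergeCl (cl : J → Finset J) (a c : J) (i : J) : Finset J :=
  if i ∈ cl a ∪ cl c then cl a ∪ cl c else cl i

theorem mergeCl_in {a c i : J} (h : i ∈ cl a ∪ cl c) : mergeCl cl a c i = cl a ∪ cl c := if_pos h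

theorem mergeCl_out {a c i : J} (h : i ∉ cl a ∪ cl c) : mergeCl cl a c i = cl i := if_neg h

theorem graftH (N : Net M C Z π cl bD) {a c : J} (ha : a ∈ π) (hc : c ∈ π) (hne : cl a ≠ cl c)
    {s : ℝ} {y : Space3} {q : CD} (E : Enc M Z (cl a) (cl c) bD a c s y q) :
    GraftH M Z (cl a) (cl c) bD a c s y q where
  cls₁ := N.cls a ha
  cls₂ := N.cls c hc
  disj := disj_of N ha hc hne
  ha := N.mem a ha
  hc := N.mem c hc
  lta := E.lta
  ltc := E.ltc
  cd := E.cd
  state_a := E.state_a
  state_c := E.state_c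
  lt_T := E.lt_T

/-- The state of a label on its line. -/
theorem st_line (hΦ : AdmissiblePotential M.Φ) (hε : 0 < M.ε) (N : Net M C Z π cl bD) {i : J}
    (hi : i ∈ π) {L : Ln} (hL : Exl M Z cl bD i L) (hT : L.1 ≤ M.T) {u : ℝ} (hu : bD i ≤ u)
    (huT : u ≤ M.T) : M.st (cl i) u Z i = lineAt L.1 L.2 u := by
  rcases le_total u L.1 with h | h
  · have h1 := (N.cls i hi).line hΦ hε (N.mem i hi) hu h hT
    rw [hL.st hT] at h1
    rw [h1, lineAt_lineAt, lineAt_self]
  · rw [(N.cls i hi).line hΦ hε (N.mem i hi) hL.le h huT, hL.st hT]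

section cover

/-- The classes of the net in the sense of the glued worlds. -/
theorem cover (N : Net M C Z π cl bD) : Cover M Z cl where
  mem j h := by
    by_cases hj : j ∈ π
    · exact N.mem j hj
    · rw [N.out j hj] at h
      exact absurd h Finset.not_nonempty_empty
  eq j k h := by
    by_cases hj : j ∈ π
    · exact N.eq j hj k h
    · rw [N.out j hj] at h
      exact absurd h (Finset.notMem_empty k)
  obs j k h := by
    by_cases hj : j ∈ π
    · exact (N.cls j hj).obs k h
    · rw [N.out j hj] at h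
      exact absurd h (Finset.notMem_empty k)
  ok j := by
    by_cases hj : j ∈ π
    · exact (N.cls j hj).ok
    · rw [N.out j hj]
      intro k hk
      exact absurd hk (Finset.notMem_empty k)

theorem exit0 (N : Net M C Z π cl bD) {i : J} (hi : i ∈ π) {L : Ln} (hL : Exl M Z cl bD i L) :
    Exit0 M Z cl i L.1 (back L) where
  mem := N.mem i hi
  bb_le := ((N.cls i hi).bb_le i (N.mem i hi)).trans hL.le
  hand h := by
    rw [hL.st h]
    unfold onLine back
    refine Prod.ext ?_ rfl
    simp only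
    rw [sub_add_cancel]
  exit t ht htT k hk hki hbk :=
    (N.cls i hi).exit i (N.mem i hi) t (hL.le.trans_lt ht) htT k hk hki hbk

theorem last (N : Net M C Z π cl bD) {i : J} (hi : i ∈ π) {L : Ln} (hL : L.1 = bD i)
    (hT : L.1 ≤ M.T) : L.1 = M.bb i ∨ ∃ k ∈ cl i, k ≠ i ∧ M.bb k ≤ L.1 ∧
      dist (M.st (cl i) L.1 Z i).1 (M.st (cl i) L.1 Z k).1 ≤ M.ε := by
  rw [hL] at hT ⊢
  exact (N.cls i hi).last i (N.mem i hi) hT

/-- **Admissible label** of a line born at the exit time. -/
theorem lab (N : Net M C Z π cl bD) {i : J} (hi : i ∈ π) {L : Ln} (hL : Exl M Z cl bD i L)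
    (hb : L.1 = bD i) : Lab M Z cl i L.1 (back L) :=
  Or.inr ⟨N.exit0 hi hL, fun hT => N.last hi hb hT⟩

end cover

end Net

namespace Exl

variable {i : J} {L : Ln}

theorem congr {cl' : J → Finset J} {bD' : J → ℝ} (h : Exl M Z cl bD i L) (h1 : cl' i = cl i)
    (h2 : bD' i = bD i) : Exl M Z cl' bD' i L where
  le := by rw [h2]; exact h.le
  st := by rw [h1]; exact h.st

/-- A line of the old net in the net with a fresh class. -/
theorem add (h : Exl M Z cl bD i L) {S : Finset J} (hd : Disjoint π S) (hi : i ∈ π) :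
    Exl M Z (Net.addCl cl S) bD i L := h.congr (Net.addCl_old hd hi) rfl

/-- The line of a label of a tree. -/
theorem tree (hΦ : AdmissiblePotential M.Φ) (hε : 0 < M.ε) {P : CTree} {z : PhasePoint × Par P}
    {e : Idx P ↪ J} (h : TreeIn M Z M.T P z.1 z.2 e) {x : Idx P} (hcl : cl (e x) = part e)
    (hb : bD (e x) = rel P z.2 x) : Exl M Z cl bD (e x) (lineML M.Φ M.ε P z x).1 where
  le := hb.le
  st hT := by
    rw [hcl]
    exact h.line_tree hΦ hε x le_rfl hT

/-- The line of a single free label. -/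
theorem single (hΦ : AdmissiblePotential M.Φ) (hε : 0 < M.ε) {c : J} (hcl : cl c = {c}) {b : ℝ}
    (hb : bD c ≤ b) : Exl M Z cl bD c (b, fl b (Z c)) where
  le := hb
  st _ := by
    rw [hcl]
    exact VLInv399.st_sub hΦ hε (fun p hp q hq => by
      rw [Finset.mem_singleton.1 hp, Finset.mem_singleton.1 hq]) b Z c

end Exl

/-! ### The graft inside a net -/

section merge

variable [Nonempty κ] (hΦ : AdmissiblePotential M.Φ) (hε : 0 < M.ε) (hC : 1 ≤ C)
  (hℓς : 2 * ℓ ≤ ς) {a c : J} {s : ℝ} {y : Space3} {q : CD}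

/-- The encounter is a contact. -/
theorem Enc.dist (hε : 0 < M.ε) {S₁ S₂ : Finset J} (E : Enc M Z S₁ S₂ bD a c s y q) :
    dist (M.st S₁ s Z a).1 (M.st S₂ s Z c).1 ≤ M.ε := by
  rw [E.state_a, E.state_c, dist_eq_norm]
  simp only [add_sub_cancel_left]
  rw [norm_smul, norm_entrance E.cd.1 E.cd.2, mul_one, Real.norm_eq_abs, abs_of_pos hε]

/-- **A fresh class hit by an exit line.** -/
theorem Net.add_enc (hΦ : AdmissiblePotential M.Φ) (hε : 0 < M.ε) (hC : 1 ≤ C) (N : Net M C Z π cl bD) {S : Finset J}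
    (hS : Cls M Z S bD) (hd : Disjoint π S) (ha : a ∈ π) (hc : c ∈ S)
    (E : Enc M Z (cl a) S bD a c s y q) : Net M C Z (π ∪ S) (Net.addCl cl S) bD := by
  have h0 : 0 ≤ s := ((N.cls a ha).bb_nonneg' (N.mem a ha)).trans E.lta.le
  refine N.add hS hd (hS.Conn hΦ hε hC) ha hc ⟨h0, E.lt_T.le⟩ ?_
  exact vct_st hC hε ((N.sub a ha).trans Finset.subset_union_left) Finset.subset_union_right
    (N.mem a ha) hc (ok_anti E.lt_T.le (N.cls a ha).ok) (ok_anti E.lt_T.le hS.ok)
    ((N.cls a ha).obs a (N.mem a ha)) (hS.obs c hc) (E.dist hε)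

theorem Enc.add {S : Finset J} (E : Enc M Z (cl a) S bD a c s y q) (hd : Disjoint π S)
    (ha : a ∈ π) (hc : c ∈ S) :
    Enc M Z (Net.addCl cl S a) (Net.addCl cl S c) bD a c s y q := by
  rw [Net.addCl_old hd ha, Net.addCl_new hc]
  exact E

/-- The hypothesis on a structure: its connected subsets are tree-like. -/
def AllTL (M : VSys J κ) (C ℓ ς : ℝ) (Z : J → PhasePoint) (π : Finset J) : Prop :=
  ∀ P ⊆ π, M.Conn C P Z → TL M C ℓ ς P Z

theorem AllTL.mono {π' : Finset J} (h : AllTL M C ℓ ς Z π) (hs : π' ⊆ π) : AllTL M C ℓ ς Z π' :=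
  fun P hP hc => h P (hP.trans hs) hc

include hΦ hε hC hℓς

section

variable (N : Net M C Z π cl bD) (ha : a ∈ π) (hc : c ∈ π) (hne : cl a ≠ cl c)
  (E : Enc M Z (cl a) (cl c) bD a c s y q) (hTL : AllTL M C ℓ ς Z π)
include N ha hc hne E hTL

theorem Net.tl_merge : TL M C ℓ ς (cl a ∪ cl c) Z :=
  hTL _ (Finset.union_subset (N.sub a ha) (N.sub c hc)) ((N.graftH ha hc hne E).Conn hε hC)

/-- **The encounter ends** within `2 ℓ`. -/
theorem Net.pass (hT : s + 2 * ℓ < M.T) :
    CDpass M.Φ q ∧ outT M.Φ M.ε q ≤ 2 * ℓ :=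
  (N.graftH ha hc hne E).pass_of hε hC (N.tl_merge hΦ hε hC hℓς ha hc hne E hTL) hℓς hΦ hT

variable (hp : CDpass M.Φ q) (hle : s + outT M.Φ M.ε q ≤ M.T)
include hp hle

/-- **The graft of two classes of a net.** -/
theorem Net.merge : Net M C Z π (Net.mergeCl cl a c) (grafted M.Φ M.ε bD a c s q) := by
  have hG := N.graftH ha hc hne E
  have hcls := hG.cls hε hC (N.tl_merge hΦ hε hC hℓς ha hc hne E hTL) hℓς hΦ hp hle
  have hsub : cl a ∪ cl c ⊆ π := Finset.union_subset (N.sub a ha) (N.sub c hc)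
  refine ⟨N.conn, fun i hi => ?_, fun i hi => ?_, fun i hi => ?_, fun i hi k hk => ?_,
    fun i hi => ?_⟩
  · by_cases h : i ∈ cl a ∪ cl c
    · rw [Net.mergeCl_in h]
      exact hcls
    · rw [Net.mergeCl_out h]
      refine (N.cls i hi).congr fun k hk => ?_
      unfold grafted
      rw [if_neg]
      rintro (rfl | rfl)
      · exact h (Finset.mem_union_left _ (by rw [N.eq i hi k hk]; exact N.mem i hi))
      · exact h (Finset.mem_union_right _ (by rw [N.eq i hi k hk]; exact N.mem i hi))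
  · by_cases h : i ∈ cl a ∪ cl c
    · rw [Net.mergeCl_in h]
      exact h
    · rw [Net.mergeCl_out h]
      exact N.mem i hi
  · by_cases h : i ∈ cl a ∪ cl c
    · rw [Net.mergeCl_in h]
      exact hsub
    · rw [Net.mergeCl_out h]
      exact N.sub i hi
  · by_cases h : i ∈ cl a ∪ cl c
    · rw [Net.mergeCl_in h] at hk ⊢
      exact Net.mergeCl_in hk
    · rw [Net.mergeCl_out h] at hk ⊢
      have h' : k ∉ cl a ∪ cl c := by
        intro h'
        have h1 := N.eq i hi k hk
        rcases Finset.mem_union.1 h' with h2 | h2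
        · refine h (Finset.mem_union_left _ ?_)
          rw [← N.eq a ha k h2, h1]
          exact N.mem i hi
        · refine h (Finset.mem_union_right _ ?_)
          rw [← N.eq c hc k h2, h1]
          exact N.mem i hi
      rw [Net.mergeCl_out h']
      exact N.eq i hi k hk
  · rw [Net.mergeCl_out fun h => hi (hsub h)]
    exact N.out i hi

/-- The other lines are unchanged by the graft. -/
theorem Exl.merge {i : J} {L : Ln} (h : Exl M Z cl bD i L) (hia : i ≠ a)
    (hic : i ≠ c) : Exl M Z (Net.mergeCl cl a c) (grafted M.Φ M.ε bD a c s q) i L := by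
  have hG := N.graftH ha hc hne E
  have hTL' := N.tl_merge hΦ hε hC hℓς ha hc hne E hTL
  refine ⟨?_, fun hT => ?_⟩
  · unfold grafted
    rw [if_neg (not_or.2 ⟨hia, hic⟩)]
    exact h.le
  · by_cases h' : i ∈ cl a ∪ cl c
    · rw [Net.mergeCl_in h']
      rcases Finset.mem_union.1 h' with h2 | h2
      · rw [hG.st₁ hε hC hTL' hℓς hΦ h2 hia hT, ← h.st hT, N.eq a ha i h2]
      · rw [hG.st₂ hε hC hTL' hℓς hΦ h2 hic hT, ← h.st hT, N.eq c hc i h2]
    · rw [Net.mergeCl_out h']
      exact h.st hT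

/-- The outgoing line of `a`. -/
theorem Exl.merge_a : Exl M Z (Net.mergeCl cl a c) (grafted M.Φ M.ε bD a c s q) a
    (lineL' M.Φ M.ε s y q) := by
  have hG := N.graftH ha hc hne E
  have hTL' := N.tl_merge hΦ hε hC hℓς ha hc hne E hTL
  refine ⟨(if_pos (Or.inl rfl)).le, fun hT => ?_⟩
  have h1 := (hG.st_pair hε hC hTL' hℓς hΦ (lt_add_of_pos_right s (hp.outT_pos hε)).le hle).1
  rw [encPL_exit hε.ne'] at h1
  rw [Net.mergeCl_in (Finset.mem_union_left _ (N.mem a ha))]
  exact h1

/-- The outgoing line of `c`. -/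
theorem Exl.merge_c : Exl M Z (Net.mergeCl cl a c) (grafted M.Φ M.ε bD a c s q) c
    (lineC' M.Φ M.ε s y q) := by
  have hG := N.graftH ha hc hne E
  have hTL' := N.tl_merge hΦ hε hC hℓς ha hc hne E hTL
  refine ⟨(if_pos (Or.inr rfl)).le, fun hT => ?_⟩
  have h1 := (hG.st_pair hε hC hTL' hℓς hΦ (lt_add_of_pos_right s (hp.outT_pos hε)).le hle).2
  rw [encPC_exit hε.ne'] at h1
  rw [Net.mergeCl_in (Finset.mem_union_right _ (N.mem c hc))]
  exact h1

end

end merge

section reborn

variable {a c : J} {s : ℝ} {y : Space3} {q : CD}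

/-- **The undeflected partner**, reborn at the end of the encounter. -/
theorem Exl.reborn (hΦ : AdmissiblePotential M.Φ) (hε : 0 < M.ε) (N : Net M C Z π cl bD)
    (hc : c ∈ π) {S₁ : Finset J} (E : Enc M Z S₁ (cl c) bD a c s y q) :
    Exl M Z cl bD c (lineC M.Φ M.ε s y q) := by
  have h1 : s ≤ s + outT M.Φ M.ε q := le_add_of_nonneg_right (outT_nonneg hε.le q)
  refine ⟨E.ltc.le.trans h1, fun hT => ?_⟩
  have h2 := (N.cls c hc).line hΦ hε (N.mem c hc) E.ltc.le h1 hT
  rw [E.state_c] at h2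
  have h3 : (lineC M.Φ M.ε s y q).1 = s + outT M.Φ M.ε q := rfl
  rw [h3, h2]
  unfold lineAt lineC
  simp only
  rw [add_sub_cancel_left]

/-- **The undeflected tagged particle**, reborn at the end of the encounter. -/
theorem Exl.rebornL (hΦ : AdmissiblePotential M.Φ) (hε : 0 < M.ε) (N : Net M C Z π cl bD)
    (ha : a ∈ π) {S₂ : Finset J} (E : Enc M Z (cl a) S₂ bD a c s y q) :
    Exl M Z cl bD a (lineL M.Φ M.ε s y q) := by
  have h1 : s ≤ s + outT M.Φ M.ε q := le_add_of_nonneg_right (outT_nonneg hε.le q)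
  refine ⟨E.lta.le.trans h1, fun hT => ?_⟩
  have h2 := (N.cls a ha).line hΦ hε (N.mem a ha) E.lta.le h1 hT
  rw [E.state_a] at h2
  have h3 : (lineL M.Φ M.ε s y q).1 = s + outT M.Φ M.ε q := rfl
  rw [h3, h2]
  unfold lineAt lineL
  simp only
  rw [add_sub_cancel_left, add_assoc]

/-- The encounter data from the lines. -/
theorem Enc.of_lines (hΦ : AdmissiblePotential M.Φ) (hε : 0 < M.ε) (N : Net M C Z π cl bD)
    (ha : a ∈ π) {La : Ln} (hLa : Exl M Z cl bD a La) {S : Finset J} (hS : Cls M Z S bD)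
    (hc : c ∈ S) {Lc : Ln} (hbc : bD c ≤ Lc.1) (hLc : Lc.1 ≤ M.T → M.st S Lc.1 Z c = Lc.2)
    (hsa : La.1 < s) (hsc : Lc.1 < s) (hT : s < M.T) (hq : CDok q)
    (h1 : lineAt La.1 La.2 s = (y + M.ε • entrancePoint (relB q).1 (relB q).2, q.1))
    (h2 : lineAt Lc.1 Lc.2 s = (y, q.2.1)) : Enc M Z (cl a) S bD a c s y q where
  lta := hLa.le.trans_lt hsa
  ltc := hbc.trans_lt hsc
  cd := hq
  state_a := by
    rw [N.st_line hΦ hε ha hLa (hsa.trans hT).le (hLa.le.trans hsa.le) hT.le, h1]
  state_c := by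
    rw [hS.line hΦ hε hc hbc hsc.le hT.le, hLc (hsc.trans hT).le, h2]
  lt_T := hT

end reborn

end Crest.Agent.R122.PN564

end
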