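import Crest.Agent.R122.Q1Cor_815
import Crest.Agent.R122.QL2_424

/-!
helper815, row 122, block Q (quenched densities), part 5: everything from `GIV`.

* `QInput.of_giv` : 424's one- and two-point limits give the input of (Q1);
* `Ctx.of_giv` : the standing hypotheses from `GIV Φ f₀ f T tw`.
-/

set_option autoImplicit false

open MeasureTheory Set Filter
open scoped ENNReal Topology Classical
open Crest.AnalysisR.Kinetic Crest.Agent.R122.Kin796 Crest.Agent.R122.Disc416
  Crest.Agent.R122.Kin416 Crest.Agent.R122.Tree674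
  Crest.Agent.R122.GC311

noncomputable section

namespace Crest.Agent.R122.Q1815

open CTree

variable {Φ : Space3 → ℝ} {f₀ : PhasePoint → ℝ} {f : ℝ → PhasePoint → ℝ} {β T : ℝ}

/-- 424's limits -/
theorem QInput.of_giv (hΦ : AdmissiblePotential Φ) (hβ : 0 < β) (hT : 0 < T)
    (hf : IsRegularKineticSolution Φ β T f₀ f) {tw : ℝ} (htw : 0 ≤ tw)
    (hG : GIV566.GIV Φ f₀ f T tw) (P : CTree) {T₀ : ℝ} (hT₀ : 0 < T₀) :
    QInput Φ f₀ f T P T₀ tw where
  one := Hid424.hid_one hΦ hG P hT₀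
  two := Hid424.hid_two hΦ hβ hT hf hG P P hT₀
  meas := Hid424.measurable_damp_hid0 hΦ hβ hT hf htw P T₀

/-- the standing hypotheses from `GIV` -/
theorem Ctx.of_giv (hΦ : AdmissiblePotential Φ) (hβ : 0 < β) (hT : 0 < T)
    (hc : Continuous f₀) (hm : ∫⁻ z, ENNReal.ofReal (f₀ z) ≤ 1)
    (hg : HasSummableGaussianBound (2 * β) (fun x v => f₀ (x, v)))
    (hf : IsRegularKineticSolution Φ β T f₀ f) {tw : ℝ} (htw : tw ∈ Icc 0 T)
    (hG : GIV566.GIV Φ f₀ f T tw) {T₀ : ℝ} (hT₀ : 0 < T₀) : Ctx Φ β T f₀ f T₀ tw where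
  hΦ := hΦ
  hβ := hβ
  hT := hT
  cont := hc
  mass := hm
  gauss := hg
  sol := hf
  htw := htw
  input := fun P => QInput.of_giv hΦ hβ hT hf htw.1 hG P hT₀

end Crest.Agent.R122.Q1815

end
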