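import Crest.Agent.R122.Hid_424
import Crest.Agent.R122.TreeMeas_674
import Crest.Agent.R122.BoltzL1b_814
import Crest.Agent.R122.Scat4_818

/-!
helper815, row 122, block Q (quenched densities), part 1a: elementary bounds on the weight of a
collision tree: monotonicity of validity, energy conservation, `wt ≤ (2√E)^size`, the box measure of
the parameters, and the Gaussian/lattice bounds of the product of the initial densities.
-/

set_option autoImplicit false

open MeasureTheory Set Filter
open scoped ENNReal Topology Classical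
open Crest.AnalysisR.Kinetic Crest.Agent.R122.Kin796 Crest.Agent.R122.Disc416
  Crest.Agent.R122.Kin416 Crest.Agent.R122.Boltz814 Crest.Agent.R122.Tree674
  Crest.Agent.R122.Scat818 Crest.Agent.R122.TreeF399 Crest.Agent.R122.TreeEps399
  Crest.Agent.R122.Hid424

noncomputable section

namespace Crest.Agent.R122.QDens815

open CTree

variable {Φ : Space3 → ℝ}

/-! ### Monotonicity of validity -/

theorem ord_mono {ε : ℝ} (hε : 0 ≤ ε) : ∀ (P : CTree) {T T' : ℝ} (_ : T ≤ T') (v : Space3)
    (p : Par P) (_ : Tree674.Ord Φ ε P T v p), Tree674.Ord Φ 0 P T' v p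
  | leaf, _, _, _, _, _, _ => trivial
  | node l r, T, T', hT, v, p, h => by
      obtain ⟨h1, h2, h3, h4⟩ := h
      have hs : Tree674.sin Φ ε v p.1 ≤ Tree674.sin Φ 0 v p.1 := by
        rw [sin_zero]; exact sin_le hε v p.1
      exact ⟨h1.trans_le hT, h2.trans_le hs, ord_mono hε l hs _ _ h3, ord_mono hε r hs _ _ h4⟩

theorem valid_mono {ε : ℝ} (hε : 0 ≤ ε) {P : CTree} {T T' : ℝ} (hT : T ≤ T') {v : Space3}
    {p : Par P} (h : Valid Φ ε P T v p) : Valid Φ 0 P T' v p :=
  ⟨h.1, ord_mono hε P hT v p h.2⟩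

/-! ### Energy -/

/-- sum of the squared velocities of the node parameters -/
def nodeEn : ∀ P : CTree, Par P → ℝ
  | leaf => fun _ => 0
  | node l r => fun p => ‖p.1.2.1‖ ^ 2 + (nodeEn l p.2.1 + nodeEn r p.2.2)

theorem nodeEn_nonneg : ∀ (P : CTree) (p : Par P), 0 ≤ nodeEn P p
  | leaf, _ => le_rfl
  | node l r, p => by
      have h1 := nodeEn_nonneg l p.2.1
      have h2 := nodeEn_nonneg r p.2.2
      have h3 : 0 ≤ ‖p.1.2.1‖ ^ 2 := sq_nonneg _
      simp only [nodeEn]
      linarith

theorem energy_preV (hΦ : AdmissiblePotential Φ) {v : Space3} {a : NodeP} (h : Adm1 Φ v a) :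
    ‖(preV Φ v a).1‖ ^ 2 + ‖(preV Φ v a).2‖ ^ 2 = ‖v‖ ^ 2 + ‖a.2.1‖ ^ 2 :=
  energy_post (scatFacts hΦ) h.2.1 (adm1_disc h).1

theorem sum_vels (hΦ : AdmissiblePotential Φ) : ∀ (P : CTree) (v : Space3) (p : Par P)
    (_ : Adm Φ P v p), ∑ i, ‖vels Φ P v p i‖ ^ 2 = ‖v‖ ^ 2 + nodeEn P p
  | leaf, v, p, _ => by
      show ∑ _i : Unit, ‖v‖ ^ 2 = ‖v‖ ^ 2 + 0
      simp
  | node l r, v, p, h => by
      have hl := sum_vels hΦ l (preV Φ v p.1).1 p.2.1 h.2.1
      have hr := sum_vels hΦ r (preV Φ v p.1).2 p.2.2 h.2.2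
      have he := energy_preV hΦ h.1
      have : ∑ i, ‖vels Φ (node l r) v p i‖ ^ 2 =
          ∑ i : Idx l, ‖vels Φ l (preV Φ v p.1).1 p.2.1 i‖ ^ 2 +
          ∑ i : Idx r, ‖vels Φ r (preV Φ v p.1).2 p.2.2 i‖ ^ 2 :=
        Fintype.sum_sum_type (fun i : Idx l ⊕ Idx r => ‖vels Φ (node l r) v p i‖ ^ 2)
      rw [this, hl, hr]
      simp only [nodeEn]
      linarith

theorem wt_le (hΦ : AdmissiblePotential Φ) : ∀ (P : CTree) (v : Space3) (p : Par P)
    (_ : Adm Φ P v p),
    wt Φ P v p ≤ ENNReal.ofReal (2 * Real.sqrt (‖v‖ ^ 2 + nodeEn P p)) ^ P.size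
  | leaf, v, p, _ => by simp [wt, CTree.size]
  | node l r, v, p, h => by
      have hl := wt_le hΦ l (preV Φ v p.1).1 p.2.1 h.2.1
      have hr := wt_le hΦ r (preV Φ v p.1).2 p.2.2 h.2.2
      have he := energy_preV hΦ h.1
      have nl := nodeEn_nonneg l p.2.1
      have nr := nodeEn_nonneg r p.2.2
      have e0 : ‖v‖ ^ 2 + nodeEn (node l r) p =
        ‖v‖ ^ 2 + (‖p.1.2.1‖ ^ 2 + (nodeEn l p.2.1 + nodeEn r p.2.2)) := rfl
      have s1 : ‖(preV Φ v p.1).1‖ ^ 2 + nodeEn l p.2.1 ≤ ‖v‖ ^ 2 + nodeEn (node l r) p := by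
        have := sq_nonneg ‖(preV Φ v p.1).2‖
        rw [e0]; linarith
      have s2 : ‖(preV Φ v p.1).2‖ ^ 2 + nodeEn r p.2.2 ≤ ‖v‖ ^ 2 + nodeEn (node l r) p := by
        have := sq_nonneg ‖(preV Φ v p.1).1‖
        rw [e0]; linarith
      set E := ‖v‖ ^ 2 + nodeEn (node l r) p with hE
      have hv : ‖v‖ ≤ Real.sqrt E := by
        apply Real.le_sqrt_of_sq_le
        rw [e0]
        have := sq_nonneg ‖p.1.2.1‖
        linarith
      have hw : ‖p.1.2.1‖ ≤ Real.sqrt E := by
        apply Real.le_sqrt_of_sq_le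
        rw [e0]
        have := sq_nonneg ‖v‖
        linarith
      have hvw : ‖v - p.1.2.1‖ ≤ 2 * Real.sqrt E := by
        have := norm_sub_le v p.1.2.1
        linarith
      show ENNReal.ofReal ‖v - p.1.2.1‖ * (wt Φ l (preV Φ v p.1).1 p.2.1 *
        wt Φ r (preV Φ v p.1).2 p.2.2) ≤ _ ^ (l.size + r.size + 1)
      calc ENNReal.ofReal ‖v - p.1.2.1‖ * (wt Φ l (preV Φ v p.1).1 p.2.1 *
            wt Φ r (preV Φ v p.1).2 p.2.2)
          ≤ ENNReal.ofReal (2 * Real.sqrt E) * (ENNReal.ofReal (2 * Real.sqrt E) ^ l.size *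
            ENNReal.ofReal (2 * Real.sqrt E) ^ r.size) := by
            gcongr
            · exact hl.trans (by gcongr)
            · exact hr.trans (by gcongr)
        _ = _ := by rw [← pow_add, ← pow_succ']

/-! ### The box measure of the parameters -/

/-- box function of the parameters: node times in `(0, T)`, impact parameters in the unit disc,
Gaussian velocities. -/
def bx (T δ : ℝ) : ∀ P : CTree, Par P → ℝ≥0∞
  | leaf => fun _ => 1
  | node l r => fun p => ((Ioo 0 T).indicator 1 p.1.1 * (gau δ p.1.2.1 *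
      (Metric.ball (0 : Disc416.Plane) 1).indicator 1 p.1.2.2)) * (bx T δ l p.2.1 * bx T δ r p.2.2)

theorem measurable_bx (T δ : ℝ) : ∀ P : CTree, Measurable (bx T δ P)
  | leaf => measurable_const
  | node l r => by
      have ha := measurable_par1 l r
      have i1 : Measurable ((Ioo 0 T).indicator (1 : ℝ → ℝ≥0∞)) :=
        measurable_one.indicator measurableSet_Ioo
      have i2 : Measurable ((Metric.ball (0 : Disc416.Plane) 1).indicator
        (1 : Disc416.Plane → ℝ≥0∞)) := measurable_one.indicator measurableSet_ball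
      have h1 : Measurable fun p : Par (node l r) => (Ioo 0 T).indicator (1 : ℝ → ℝ≥0∞) p.1.1 :=
        i1.comp ha.fst
      have h2 : Measurable fun p : Par (node l r) => gau δ p.1.2.1 :=
        (measurable_gau δ).comp ha.snd.fst
      have h3 : Measurable fun p : Par (node l r) =>
          (Metric.ball (0 : Disc416.Plane) 1).indicator (1 : Disc416.Plane → ℝ≥0∞) p.1.2.2 :=
        i2.comp ha.snd.snd
      have h4 := (measurable_bx T δ l).comp (measurable_parL l r)
      have h5 := (measurable_bx T δ r).comp (measurable_parR l r)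
      exact (h1.mul (h2.mul h3)).mul (h4.mul h5)

theorem lintegral_bx_lt_top (T : ℝ) {δ : ℝ} (hδ : 0 < δ) :
    ∀ P : CTree, ∫⁻ p : Par P, bx T δ P p < ∞
  | leaf => by
      rw [lintegral_par_leaf]
      exact ENNReal.one_lt_top
  | node l r => by
      have hl := lintegral_bx_lt_top T hδ l
      have hr := lintegral_bx_lt_top T hδ r
      rw [lintegral_par_node l r (measurable_bx T δ (node l r))]
      have e1 : ∀ (a : NodeP), ∫⁻ y : Par l × Par r, bx T δ (node l r) ((a, y) : Par (node l r)) =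
          ((Ioo 0 T).indicator 1 a.1 * (gau δ a.2.1 *
            (Metric.ball (0 : Disc416.Plane) 1).indicator 1 a.2.2)) *
            ((∫⁻ pl : Par l, bx T δ l pl) * ∫⁻ pr : Par r, bx T δ r pr) := by
        intro a
        have h0 : (∫⁻ y : Par l × Par r, bx T δ (node l r) ((a, y) : Par (node l r))) =
            ∫⁻ y : Par l × Par r, ((Ioo 0 T).indicator 1 a.1 * (gau δ a.2.1 *
            (Metric.ball (0 : Disc416.Plane) 1).indicator 1 a.2.2)) *
            (bx T δ l y.1 * bx T δ r y.2) := rfl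
        have hmm : Measurable fun y : Par l × Par r => bx T δ l y.1 * bx T δ r y.2 :=
          ((measurable_bx T δ l).comp measurable_fst).mul
            ((measurable_bx T δ r).comp measurable_snd)
        rw [h0, lintegral_const_mul _ hmm, ← lintegral_prod_mul (measurable_bx T δ l).aemeasurable
          (measurable_bx T δ r).aemeasurable]
        rfl
      rw [lintegral_congr e1]
      have hm : Measurable fun a : NodeP => ((Ioo 0 T).indicator (1 : ℝ → ℝ≥0∞) a.1 *
          (gau δ a.2.1 * (Metric.ball (0 : Disc416.Plane) 1).indicator (1 : Disc416.Plane → ℝ≥0∞) a.2.2)) := by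
        refine ((measurable_one.indicator measurableSet_Ioo).comp measurable_fst).mul
          (((measurable_gau δ).comp measurable_snd.fst).mul
          ((measurable_one.indicator measurableSet_ball).comp measurable_snd.snd))
      rw [lintegral_mul_const _ hm]
      refine ENNReal.mul_lt_top ?_ (ENNReal.mul_lt_top hl hr)
      have e2 : ∫⁻ a : NodeP, ((Ioo 0 T).indicator (1 : ℝ → ℝ≥0∞) a.1 *
          (gau δ a.2.1 * (Metric.ball (0 : Disc416.Plane) 1).indicator (1 : Disc416.Plane → ℝ≥0∞) a.2.2)) =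
          (∫⁻ s : ℝ, (Ioo 0 T).indicator (1 : ℝ → ℝ≥0∞) s) * ((∫⁻ w : Space3, gau δ w) *
            ∫⁻ y : Disc416.Plane, (Metric.ball (0 : Disc416.Plane) 1).indicator (1 : Disc416.Plane → ℝ≥0∞) y) := by
        have i1 : Measurable fun s : ℝ => (Ioo 0 T).indicator (1 : ℝ → ℝ≥0∞) s :=
          measurable_one.indicator measurableSet_Ioo
        have i2 : Measurable fun y : Disc416.Plane => (Metric.ball (0 : Disc416.Plane) 1).indicator
          (1 : Disc416.Plane → ℝ≥0∞) y := measurable_one.indicator measurableSet_ball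
        have i3 : Measurable fun b : Space3 × Disc416.Plane => gau δ b.1 *
          (Metric.ball (0 : Disc416.Plane) 1).indicator (1 : Disc416.Plane → ℝ≥0∞) b.2 :=
          ((measurable_gau δ).comp measurable_fst).mul (i2.comp measurable_snd)
        rw [← lintegral_prod_mul (measurable_gau δ).aemeasurable i2.aemeasurable,
          ← lintegral_prod_mul i1.aemeasurable i3.aemeasurable]
        rfl
      rw [e2]
      refine ENNReal.mul_lt_top ?_ (ENNReal.mul_lt_top (lintegral_gau_lt_top hδ) ?_)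
      · rw [lintegral_indicator_one measurableSet_Ioo]
        exact measure_Ioo_lt_top
      · rw [lintegral_indicator_one measurableSet_ball]
        exact measure_ball_lt_top

theorem gau_nodeEn_le_bx (δ : ℝ) : ∀ (P : CTree) {T T' : ℝ} (_ : T ≤ T') (v : Space3) (p : Par P)
    (_ : Valid Φ 0 P T v p), ENNReal.ofReal (Real.exp (-δ * nodeEn P p)) ≤ bx T' δ P p
  | leaf, T, T', _, v, p, _ => by simp [nodeEn, bx]
  | node l r, T, T', hT, v, p, h => by
      obtain ⟨⟨h1, h2, h3⟩, h4, h5⟩ := (valid_node_iff (Φ := Φ)).1 h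
      rw [sin_zero] at h3 h4 h5
      have hT' : p.1.1 ≤ T' := (h2.trans_le hT).le
      have hl := gau_nodeEn_le_bx δ l hT' _ _ h4
      have hr := gau_nodeEn_le_bx δ r hT' _ _ h5
      have e1 : (Ioo 0 T').indicator (1 : ℝ → ℝ≥0∞) p.1.1 = 1 :=
        indicator_of_mem (show p.1.1 ∈ Ioo 0 T' from ⟨h3, h2.trans_le hT⟩) _
      have e2 : (Metric.ball (0 : Disc416.Plane) 1).indicator (1 : Disc416.Plane → ℝ≥0∞) p.1.2.2 = 1 :=
        indicator_of_mem (show p.1.2.2 ∈ Metric.ball (0 : Disc416.Plane) 1 by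
          simpa using h1.1) _
      have e3 : ENNReal.ofReal (Real.exp (-δ * nodeEn (node l r) p)) =
          gau δ p.1.2.1 * (ENNReal.ofReal (Real.exp (-δ * nodeEn l p.2.1)) *
            ENNReal.ofReal (Real.exp (-δ * nodeEn r p.2.2))) := by
        unfold gau
        rw [← ENNReal.ofReal_mul (Real.exp_pos _).le, ← Real.exp_add,
          ← ENNReal.ofReal_mul (Real.exp_pos _).le, ← Real.exp_add]
        congr 2
        simp only [nodeEn]
        ring
      show _ ≤ ((Ioo 0 T').indicator 1 p.1.1 * (gau δ p.1.2.1 *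
        (Metric.ball (0 : Disc416.Plane) 1).indicator 1 p.1.2.2)) * (bx T' δ l p.2.1 * bx T' δ r p.2.2)
      rw [e1, e2, e3, one_mul, mul_one]
      gcongr

end Crest.Agent.R122.QDens815

end
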