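import Crest.Agent.R122.Mark3_307
import Crest.Agent.R122.TreeMeas2_674

/-!
Row 122 (helper814), item G1exit: densities of the **exit lines** of collision trees, part A.

For a functional `A` of the trees (`U P`: tubes unhit, values in `[0,1]`):

* `dn Φ ε T k P A s ℓ` : density at the root line `ℓ`, at time `s`, of the trees `P` with initial
  density `k`, weighted by `A`;
* `ES U φ P` : sum over the exits of `P` of `φ (exit line, mark)` times the product of `U` over the
  trees attached to the path from the exit to the root (and the two trees below the exit node);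
* `XX P ψ` : the integral of `ES` against a function `ψ (birth time of the last leg, root line)`.

`XX_node_le` : the recursion over the tree, through the node flips of helper307.
-/

set_option autoImplicit false
set_option synthInstance.maxSize 1024

open MeasureTheory Set Filter Topology
open Crest.AnalysisR.Kinetic
open scoped ENNReal

noncomputable section

namespace Crest.Agent.R122.QExit814

open Kin796 Kin796.CTree Disc416 Scat818 Flow671 Flux663 Tree674 Mark307

variable {Φ : Space3 → ℝ}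

/-- marked line born at `(τ, (y, v))` -/
abbrev ML : Type := (ℝ × PhasePoint) × ℕ

/-! ### Sums over trees -/

/-- `CTree ≃ Unit ⊕ CTree × CTree` -/
def treeEquiv : CTree ≃ Unit ⊕ (CTree × CTree) where
  toFun | leaf => Sum.inl () | node l r => Sum.inr (l, r)
  invFun | Sum.inl _ => leaf | Sum.inr p => node p.1 p.2
  left_inv P := by cases P <;> rfl
  right_inv x := by rcases x with _ | ⟨l, r⟩ <;> rfl

theorem tsum_ctree (f : CTree → ℝ≥0∞) :
    ∑' P, f P = f leaf + ∑' l, ∑' r, f (node l r) := by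
  rw [← treeEquiv.symm.tsum_eq f, ENNReal.summable.tsum_sum ENNReal.summable]
  congr 1
  · rw [tsum_fintype]
    simp [treeEquiv]
  · rw [ENNReal.tsum_prod']
    rfl

/-! ### Product of the initial density -/

variable {ε T : ℝ} {k : PhasePoint → ℝ≥0∞}

/-- product of a function over the leaves (measurable version) -/
def kw (Φ : Space3 → ℝ) (ε : ℝ) (k : PhasePoint → ℝ≥0∞) (P : CTree) (z : PhasePoint × Par P) :
    ℝ≥0∞ := ∏ i : Idx P, k (linesM Φ ε P z.1 z.2 i)

theorem kw_leaf (z : PhasePoint × Par leaf) : kw Φ ε k leaf z = k z.1 := by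
  change (∏ _i : Unit, k z.1) = k z.1
  simp

theorem kw_node (l r : CTree) (ℓ : PhasePoint) (a : NodeP) (pl : Par l) (pr : Par r) :
    kw Φ ε k (node l r) (ℓ, ((a, (pl, pr)) : Par (node l r))) =
      kw Φ ε k l ((inM Φ ε (ℓ, a)).1, pl) * kw Φ ε k r ((inM Φ ε (ℓ, a)).2, pr) := by
  unfold kw
  change (∏ i : Idx l ⊕ Idx r, k (linesM Φ ε (node l r) ℓ ((a, (pl, pr)) : Par (node l r)) i)) = _
  rw [Fintype.prod_sum_type]
  rfl

theorem measurable_kw (hΦ : AdmissiblePotential Φ) (hk : Measurable k) (P : CTree) :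
    Measurable (kw Φ ε k P) := by
  unfold kw
  refine Finset.measurable_prod _ fun i _ => ?_
  exact hk.comp ((measurable_pi_apply i).comp (measurable_linesM hΦ ε P))

/-! ### Densities -/

/-- density at the root line `ℓ` and the time `s` of the functional `A` -/
def dn (Φ : Space3 → ℝ) (ε T : ℝ) (k : PhasePoint → ℝ≥0∞) (P : CTree)
    (A : PhasePoint × Par P → ℝ≥0∞) (q : ℝ × PhasePoint) : ℝ≥0∞ :=
  ∫⁻ p : Par P, topI P (q.1, p) * (vw Φ ε P T (q.2, p) * (kw Φ ε k P (q.2, p) * A (q.2, p)))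

theorem measurable_dn_integrand (hΦ : AdmissiblePotential Φ) (hk : Measurable k) {P : CTree}
    {A : PhasePoint × Par P → ℝ≥0∞} (hA : Measurable A) :
    Measurable fun z : (ℝ × PhasePoint) × Par P => topI P (z.1.1, z.2) *
      (vw Φ ε P T (z.1.2, z.2) * (kw Φ ε k P (z.1.2, z.2) * A (z.1.2, z.2))) := by
  have h1 : Measurable fun z : (ℝ × PhasePoint) × Par P => (z.1.1, z.2) :=
    measurable_fst.fst.prodMk measurable_snd
  have h2 : Measurable fun z : (ℝ × PhasePoint) × Par P => (z.1.2, z.2) :=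
    measurable_fst.snd.prodMk measurable_snd
  exact ((measurable_topI P).comp h1).mul (((measurable_vw hΦ ε P T).comp h2).mul
    (((measurable_kw hΦ hk P).comp h2).mul (hA.comp h2)))

theorem measurable_dn (hΦ : AdmissiblePotential Φ) (hk : Measurable k) {P : CTree}
    {A : PhasePoint × Par P → ℝ≥0∞} (hA : Measurable A) : Measurable (dn Φ ε T k P A) :=
  (measurable_dn_integrand hΦ hk hA).lintegral_prod_right'

/-! ### Node identity -/

/-- root and node integral of a node, in the form of `flipL`, with the measurable maps -/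
def NI (Φ : Space3 → ℝ) (ε T : ℝ)
    (H : (PhasePoint × NodeP) × (PhasePoint × PhasePoint) → ℝ≥0∞) : ℝ≥0∞ :=
  ∫⁻ z : PhasePoint × NodeP, vI Φ ε T z * (ENNReal.ofReal ‖z.1.2 - z.2.2.1‖ * H (z, inM Φ ε z))

theorem NI_eq (H : (PhasePoint × NodeP) × (PhasePoint × PhasePoint) → ℝ≥0∞) :
    NI Φ ε T H = ∫⁻ z : PhasePoint × NodeP, (Vset Φ ε T).indicator
        (fun z => ENNReal.ofReal ‖z.1.2 - z.2.2.1‖ * H (z, inMap Φ ε z.1 z.2)) z := by
  unfold NI
  refine lintegral_congr fun z => ?_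
  unfold vI
  by_cases hz : z ∈ Vset Φ ε T
  · rw [indicator_of_mem hz, indicator_of_mem hz, inM_of_adm hz.1, Pi.one_apply, one_mul]
  · rw [indicator_of_notMem hz, indicator_of_notMem hz, zero_mul]

theorem measurable_NI_integrand (hΦ : AdmissiblePotential Φ)
    {H : (PhasePoint × NodeP) × (PhasePoint × PhasePoint) → ℝ≥0∞} (hH : Measurable H) :
    Measurable fun z : PhasePoint × NodeP =>
      vI Φ ε T z * (ENNReal.ofReal ‖z.1.2 - z.2.2.1‖ * H (z, inM Φ ε z)) := by
  have h1 : Measurable fun z : PhasePoint × NodeP => ENNReal.ofReal ‖z.1.2 - z.2.2.1‖ := by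
    fun_prop
  exact (measurable_vI hΦ ε T).mul
    (h1.mul (hH.comp (measurable_id.prodMk (measurable_inM hΦ ε))))

theorem NI_mono {H H' : (PhasePoint × NodeP) × (PhasePoint × PhasePoint) → ℝ≥0∞}
    (h : ∀ z ∈ Vset Φ ε T, H (z, inMap Φ ε z.1 z.2) ≤ H' (z, inMap Φ ε z.1 z.2)) :
    NI Φ ε T H ≤ NI Φ ε T H' := by
  rw [NI_eq, NI_eq]
  refine lintegral_mono fun z => ?_
  by_cases hz : z ∈ Vset Φ ε T
  · rw [indicator_of_mem hz, indicator_of_mem hz]
    exact mul_le_mul' le_rfl (h z hz)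
  · rw [indicator_of_notMem hz, indicator_of_notMem hz]

theorem NI_add (hΦ : AdmissiblePotential Φ)
    {H H' : (PhasePoint × NodeP) × (PhasePoint × PhasePoint) → ℝ≥0∞} (hH : Measurable H) :
    NI Φ ε T (fun q => H q + H' q) = NI Φ ε T H + NI Φ ε T H' := by
  unfold NI
  rw [← lintegral_add_left (measurable_NI_integrand hΦ hH)]
  refine lintegral_congr fun z => ?_
  ring

theorem NI_const_mul {H : (PhasePoint × NodeP) × (PhasePoint × PhasePoint) → ℝ≥0∞}
    (hΦ : AdmissiblePotential Φ) (hH : Measurable H) (c : ℝ≥0∞) :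
    NI Φ ε T (fun q => c * H q) = c * NI Φ ε T H := by
  unfold NI
  rw [← lintegral_const_mul _ (measurable_NI_integrand hΦ hH)]
  refine lintegral_congr fun z => ?_
  ring

/-- flip, first orientation -/
theorem NI_flipL (hΦ : AdmissiblePotential Φ) (hε : 0 < ε)
    {H : (PhasePoint × NodeP) × (PhasePoint × PhasePoint) → ℝ≥0∞} (hH : Measurable H) :
    NI Φ ε T H = ∫⁻ z : PhasePoint × NodeP, gL Φ ε T z * (ENNReal.ofReal ‖z.1.2 - z.2.2.1‖ *
      H (outD Φ ε T (z.1, inLine ε z.1 z.2), (z.1, inLine ε z.1 z.2))) := by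
  rw [NI_eq, flipL hΦ hε T hH]
  refine lintegral_congr fun z => ?_
  unfold gL
  by_cases hz : z ∈ GoodL Φ ε T
  · rw [indicator_of_mem hz, indicator_of_mem hz, Pi.one_apply, one_mul]
  · rw [indicator_of_notMem hz, indicator_of_notMem hz, zero_mul]

/-- flip, second orientation -/
theorem NI_flipR (hΦ : AdmissiblePotential Φ) (hε : 0 < ε)
    {H : (PhasePoint × NodeP) × (PhasePoint × PhasePoint) → ℝ≥0∞} (hH : Measurable H) :
    NI Φ ε T H = ∫⁻ z : PhasePoint × NodeP, gR Φ ε T z * (ENNReal.ofReal ‖z.1.2 - z.2.2.1‖ *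
      H (outD Φ ε T (inLine ε z.1 z.2, z.1), (inLine ε z.1 z.2, z.1))) := by
  rw [NI_eq, flipR hΦ hε T hH]
  refine lintegral_congr fun z => ?_
  unfold gR
  by_cases hz : z ∈ GoodR Φ ε T
  · rw [indicator_of_mem hz, indicator_of_mem hz, Pi.one_apply, one_mul]
  · rw [indicator_of_notMem hz, indicator_of_notMem hz, zero_mul]

/-- **Integral over the parameters of a node**: product functionals. -/
theorem lintegral_node (hΦ : AdmissiblePotential Φ) (hε : 0 < ε) (hk : Measurable k) (l r : CTree)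
    {A : PhasePoint × Par (node l r) → ℝ≥0∞} (hA : Measurable A)
    {Al : PhasePoint × Par l → ℝ≥0∞} (hAl : Measurable Al)
    {Ar : PhasePoint × Par r → ℝ≥0∞} (hAr : Measurable Ar)
    {c : PhasePoint × NodeP → ℝ≥0∞}
    (h : ∀ ℓ a pl pr, A (ℓ, ((a, (pl, pr)) : Par (node l r))) =
      c (ℓ, a) * (Al ((inM Φ ε (ℓ, a)).1, pl) * Ar ((inM Φ ε (ℓ, a)).2, pr)))
    {ψ : ℝ × PhasePoint → ℝ≥0∞} (hψ : Measurable ψ) :
    ∫⁻ z : PhasePoint × Par (node l r), vw Φ ε (node l r) T z * (kw Φ ε k (node l r) z * A z) *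
        ψ (z.2.1.1, z.1) =
      ∫⁻ z : PhasePoint × NodeP, vI Φ ε T z * (ENNReal.ofReal ‖z.1.2 - z.2.2.1‖ *
        (ψ (z.2.1, z.1) * c z * (dn Φ ε T k l Al (sinM Φ ε z, (inM Φ ε z).1) *
          dn Φ ε T k r Ar (sinM Φ ε z, (inM Φ ε z).2)))) := by
  have m1 : Measurable fun z : PhasePoint × Par (node l r) => z.2.1.1 :=
    ((measurable_par1 l r).comp measurable_snd).fst
  have hF : Measurable fun z : PhasePoint × Par (node l r) =>
      vw Φ ε (node l r) T z * (kw Φ ε k (node l r) z * A z) * ψ (z.2.1.1, z.1) :=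
    ((measurable_vw hΦ ε (node l r) T).mul ((measurable_kw hΦ hk (node l r)).mul hA)).mul
      (hψ.comp (m1.prodMk measurable_fst))
  set G : PhasePoint × NodeP → ℝ≥0∞ := fun z => ∫⁻ y : Par l × Par r,
    vw Φ ε (node l r) T (z.1, ((z.2, y) : Par (node l r))) *
      (kw Φ ε k (node l r) (z.1, ((z.2, y) : Par (node l r))) *
        A (z.1, ((z.2, y) : Par (node l r)))) * ψ (z.2.1, z.1) with hG
  have hF2 : Measurable fun z : (PhasePoint × NodeP) × (Par l × Par r) =>
      vw Φ ε (node l r) T (z.1.1, ((z.1.2, z.2) : Par (node l r))) *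
      (kw Φ ε k (node l r) (z.1.1, ((z.1.2, z.2) : Par (node l r))) *
        A (z.1.1, ((z.1.2, z.2) : Par (node l r)))) * ψ (z.1.2.1, z.1.1) :=
    hF.comp (measurable_fst.fst.prodMk
      ((measurable_parMk l r).comp (measurable_fst.snd.prodMk measurable_snd)))
  have hGm : Measurable G := hF2.lintegral_prod_right'
  have e1 : ∫⁻ z : PhasePoint × Par (node l r), vw Φ ε (node l r) T z *
      (kw Φ ε k (node l r) z * A z) * ψ (z.2.1.1, z.1) = ∫⁻ z, G z := by
    rw [Tree674.lintegral_pair hF, Tree674.lintegral_pair hGm]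
    refine lintegral_congr fun ℓ => ?_
    have hFℓ : Measurable fun y : Par (node l r) => vw Φ ε (node l r) T (ℓ, y) *
        (kw Φ ε k (node l r) (ℓ, y) * A (ℓ, y)) * ψ (y.1.1, ℓ) :=
      hF.comp (measurable_const.prodMk measurable_id)
    exact lintegral_par_node l r hFℓ
  rw [e1]
  refine lintegral_congr fun z => ?_
  obtain ⟨ℓ, a⟩ := z
  simp only [hG]
  -- the two factors
  set Lf : Par l → ℝ≥0∞ := fun pl => topI l (sinM Φ ε (ℓ, a), pl) *
    (vw Φ ε l T ((inM Φ ε (ℓ, a)).1, pl) * (kw Φ ε k l ((inM Φ ε (ℓ, a)).1, pl) *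
      Al ((inM Φ ε (ℓ, a)).1, pl))) with hLf
  set Rf : Par r → ℝ≥0∞ := fun pr => topI r (sinM Φ ε (ℓ, a), pr) *
    (vw Φ ε r T ((inM Φ ε (ℓ, a)).2, pr) * (kw Φ ε k r ((inM Φ ε (ℓ, a)).2, pr) *
      Ar ((inM Φ ε (ℓ, a)).2, pr))) with hRf
  have mL : Measurable Lf := by
    have h1 : Measurable fun pl : Par l =>
        (((sinM Φ ε (ℓ, a), (inM Φ ε (ℓ, a)).1), pl) : (ℝ × PhasePoint) × Par l) :=
      measurable_const.prodMk measurable_id
    have h2 := (measurable_dn_integrand (ε := ε) (T := T) hΦ hk hAl).comp h1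
    exact h2
  have mR : Measurable Rf := by
    have h1 : Measurable fun pr : Par r =>
        (((sinM Φ ε (ℓ, a), (inM Φ ε (ℓ, a)).2), pr) : (ℝ × PhasePoint) × Par r) :=
      measurable_const.prodMk measurable_id
    have h2 := (measurable_dn_integrand (ε := ε) (T := T) hΦ hk hAr).comp h1
    exact h2
  have e2 : ∀ y : Par l × Par r,
      vw Φ ε (node l r) T (ℓ, ((a, y) : Par (node l r))) *
        (kw Φ ε k (node l r) (ℓ, ((a, y) : Par (node l r))) *
          A (ℓ, ((a, y) : Par (node l r)))) * ψ (a.1, ℓ) =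
      (vI Φ ε T (ℓ, a) * (ENNReal.ofReal ‖ℓ.2 - a.2.1‖ * (ψ (a.1, ℓ) * c (ℓ, a)))) *
        (Lf y.1 * Rf y.2) := by
    intro y
    have hv := vw_node hε (Φ := Φ) (l := l) (r := r) (T := T) ℓ a y.1 y.2
    have hv' : vw Φ ε (node l r) T (ℓ, ((a, y) : Par (node l r))) = _ := hv
    have hk1 := kw_node (Φ := Φ) (ε := ε) (k := k) l r ℓ a y.1 y.2
    have hk2 : kw Φ ε k (node l r) (ℓ, ((a, y) : Par (node l r))) = _ := hk1
    have hA1 : A (ℓ, ((a, y) : Par (node l r))) = _ := h ℓ a y.1 y.2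
    rw [hv', hk2, hA1]
    simp only [hLf, hRf]
    ring
  simp only [e2]
  have hy : ∫⁻ y : Par l × Par r, Lf y.1 * Rf y.2 = (∫⁻ pl, Lf pl) * ∫⁻ pr, Rf pr :=
    lintegral_prod_mul (μ := (volume : Measure (Par l))) (ν := (volume : Measure (Par r)))
      mL.aemeasurable mR.aemeasurable
  have mLR : Measurable fun y : Par l × Par r => Lf y.1 * Rf y.2 :=
    (mL.comp measurable_fst).mul (mR.comp measurable_snd)
  rw [lintegral_const_mul _ mLR, hy]
  simp only [dn, hLf, hRf]
  ring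

/-! ### Exits -/

/-- exit line (of the partner) at a node: birth time and phase point at birth -/
def exitL (ε : ℝ) (z : PhasePoint × NodeP) : ℝ × PhasePoint :=
  (z.2.1, onLine (outLine ε z.1 z.2) z.2.1)

theorem measurable_exitL (ε : ℝ) : Measurable (exitL ε) := by
  have h1 : Measurable fun z : PhasePoint × NodeP => outLine ε z.1 z.2 := measurable_outLine2 ε
  have h2 : Measurable fun z : PhasePoint × NodeP => z.2.1 := by fun_prop
  have h3 : Measurable fun z : PhasePoint × NodeP => onLine (outLine ε z.1 z.2) z.2.1 := by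
    unfold onLine
    exact (h1.fst.add (h2.smul h1.snd)).prodMk h1.snd
  exact h2.prodMk h3

variable {U : ∀ P : CTree, PhasePoint × Par P → ℝ≥0∞} {φ : ML → ℝ≥0∞}

/-- Sum over the exits of the tree: value of `φ` at the exit line with its mark, times the product of
`U` over the trees attached to the path from the exit to the root. -/
def ES (Φ : Space3 → ℝ) (ε : ℝ) (U : ∀ P : CTree, PhasePoint × Par P → ℝ≥0∞)
    (φ : ML → ℝ≥0∞) : ∀ P : CTree, PhasePoint × Par P → ℝ≥0∞
  | leaf => fun _ => 0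
  | node l r => fun z =>
      φ (exitL ε (z.1, z.2.1), l.leaves + r.leaves) *
        (U l ((inM Φ ε (z.1, z.2.1)).1, z.2.2.1) * U r ((inM Φ ε (z.1, z.2.1)).2, z.2.2.2)) +
      (ES Φ ε U φ l ((inM Φ ε (z.1, z.2.1)).1, z.2.2.1) *
          U r ((inM Φ ε (z.1, z.2.1)).2, z.2.2.2) +
        U l ((inM Φ ε (z.1, z.2.1)).1, z.2.2.1) *
          ES Φ ε U φ r ((inM Φ ε (z.1, z.2.1)).2, z.2.2.2))

theorem measurable_ES (hΦ : AdmissiblePotential Φ) (hU : ∀ P, Measurable (U P))
    (hφ : Measurable φ) : ∀ P : CTree, Measurable (ES Φ ε U φ P)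
  | leaf => measurable_const
  | node l r => by
      have hp : Measurable fun z : PhasePoint × Par (node l r) => z.2 := measurable_snd
      have hz : Measurable fun z : PhasePoint × Par (node l r) => (z.1, z.2.1) :=
        measurable_fst.prodMk ((measurable_par1 l r).comp hp)
      have hi := (measurable_inM hΦ ε).comp hz
      have hl := hi.fst.prodMk ((measurable_parL l r).comp hp)
      have hr := hi.snd.prodMk ((measurable_parR l r).comp hp)
      have he : Measurable fun z : PhasePoint × Par (node l r) =>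
          ((exitL ε (z.1, z.2.1), l.leaves + r.leaves) : ML) :=
        ((measurable_exitL ε).comp hz).prodMk measurable_const
      exact ((hφ.comp he).mul (((hU l).comp hl).mul ((hU r).comp hr))).add
        ((((measurable_ES hΦ hU hφ l).comp hl).mul ((hU r).comp hr)).add
          (((hU l).comp hl).mul ((measurable_ES hΦ hU hφ r).comp hr)))

/-- the number of exits bounds `ES` -/
theorem ES_le (hU1 : ∀ P z, U P z ≤ 1) (hφ1 : ∀ x, φ x ≤ 1) : ∀ (P : CTree)
    (z : PhasePoint × Par P), ES Φ ε U φ P z ≤ (P.size : ℝ≥0∞)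
  | leaf, z => bot_le
  | node l r, z => by
      have h1 := ES_le hU1 hφ1 l ((inM Φ ε (z.1, z.2.1)).1, z.2.2.1)
      have h2 := ES_le hU1 hφ1 r ((inM Φ ε (z.1, z.2.1)).2, z.2.2.2)
      have h3 : ES Φ ε U φ (node l r) z ≤ 1 * (1 * 1) +
          ((l.size : ℝ≥0∞) * 1 + 1 * (r.size : ℝ≥0∞)) :=
        add_le_add (mul_le_mul' (hφ1 _) (mul_le_mul' (hU1 _ _) (hU1 _ _)))
          (add_le_add (mul_le_mul' h1 (hU1 _ _)) (mul_le_mul' (hU1 _ _) h2))
      refine h3.trans (le_of_eq ?_)
      show _ = ((l.size + r.size + 1 : ℕ) : ℝ≥0∞)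
      push_cast
      ring

/-- birth time of the last leg of the root (`0` for a leaf) -/
def bt : ∀ P : CTree, Par P → ℝ
  | leaf => fun _ => 0
  | node _ _ => fun p => p.1.1

theorem measurable_bt : ∀ P : CTree, Measurable (bt P)
  | leaf => measurable_const
  | node l r => (measurable_par1 l r).fst

theorem ES_topI (P : CTree) (z : PhasePoint × Par P) (t : ℝ) :
    ES Φ ε U φ P z * topI P (t, z.2) ≤
      ES Φ ε U φ P z * (Ioi (bt P z.2)).indicator 1 t := by
  cases P with
  | leaf => exact le_of_eq (by show (0 : ℝ≥0∞) * _ = 0 * _; rw [zero_mul, zero_mul])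
  | node l r =>
    refine mul_le_mul' le_rfl ?_
    unfold topI
    by_cases h : z.2.1.1 < t
    · rw [indicator_of_mem (show ((t, z.2) : ℝ × Par (node l r)) ∈
        {q : ℝ × Par (node l r) | TopLt (node l r) q.1 q.2} from h),
        indicator_of_mem (show t ∈ Ioi (bt (node l r) z.2) from h)]
      exact le_rfl
    · rw [indicator_of_notMem (show ((t, z.2) : ℝ × Par (node l r)) ∉
        {q : ℝ × Par (node l r) | TopLt (node l r) q.1 q.2} from h)]
      exact bot_le

/-- integral of the exits against a function of the birth time of the last leg and the root line -/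
def XX (Φ : Space3 → ℝ) (ε T : ℝ) (k : PhasePoint → ℝ≥0∞)
    (U : ∀ P : CTree, PhasePoint × Par P → ℝ≥0∞) (φ : ML → ℝ≥0∞) (P : CTree)
    (ψ : ℝ × PhasePoint → ℝ≥0∞) : ℝ≥0∞ :=
  ∫⁻ z : PhasePoint × Par P, vw Φ ε P T z * (kw Φ ε k P z * ES Φ ε U φ P z) *
    ψ (bt P z.2, z.1)

theorem measurable_XX_integrand (hΦ : AdmissiblePotential Φ) (hk : Measurable k)
    (hU : ∀ P, Measurable (U P)) (hφ : Measurable φ) (P : CTree) :
    Measurable fun z : PhasePoint × Par P =>
      vw Φ ε P T z * (kw Φ ε k P z * ES Φ ε U φ P z) :=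
  (measurable_vw hΦ ε P T).mul ((measurable_kw hΦ hk P).mul (measurable_ES hΦ hU hφ P))

theorem XX_mono (P : CTree) {ψ ψ' : ℝ × PhasePoint → ℝ≥0∞} (h : ∀ q, ψ q ≤ ψ' q) :
    XX Φ ε T k U φ P ψ ≤ XX Φ ε T k U φ P ψ' :=
  lintegral_mono fun _ => mul_le_mul' le_rfl (h _)

theorem XX_leaf (ψ : ℝ × PhasePoint → ℝ≥0∞) : XX Φ ε T k U φ leaf ψ = 0 := by
  unfold XX
  have h : ∀ z : PhasePoint × Par leaf, vw Φ ε leaf T z * (kw Φ ε k leaf z *
      ES Φ ε U φ leaf z) * ψ (bt leaf z.2, z.1) = 0 := by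
    intro z
    show _ * (_ * (0 : ℝ≥0∞)) * _ = 0
    rw [mul_zero, mul_zero, zero_mul]
  simp only [h, lintegral_zero]

/-- forward operator of the last leg (the leg is the first input of the next node) -/
def AL (Φ : Space3 → ℝ) (ε T : ℝ) (D ψ : ℝ × PhasePoint → ℝ≥0∞) (q : ℝ × PhasePoint) : ℝ≥0∞ :=
  ∫⁻ a : NodeP, gL Φ ε T (q.2, a) * (ENNReal.ofReal ‖q.2.2 - a.2.1‖ *
    ((Ioi q.1).indicator 1 a.1 * (ψ ((outD Φ ε T (q.2, inLine ε q.2 a)).2.1,
      (outD Φ ε T (q.2, inLine ε q.2 a)).1) * D (a.1, inLine ε q.2 a))))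

/-- forward operator of the last leg (the leg is the second input of the next node) -/
def AR (Φ : Space3 → ℝ) (ε T : ℝ) (D ψ : ℝ × PhasePoint → ℝ≥0∞) (q : ℝ × PhasePoint) : ℝ≥0∞ :=
  ∫⁻ a : NodeP, gR Φ ε T (q.2, a) * (ENNReal.ofReal ‖q.2.2 - a.2.1‖ *
    ((Ioi q.1).indicator 1 a.1 * (ψ ((outD Φ ε T (inLine ε q.2 a, q.2)).2.1,
      (outD Φ ε T (inLine ε q.2 a, q.2)).1) * D (a.1, inLine ε q.2 a))))

theorem measurable_AL_integrand (hΦ : AdmissiblePotential Φ) (hε : 0 < ε)
    {D ψ : ℝ × PhasePoint → ℝ≥0∞} (hD : Measurable D) (hψ : Measurable ψ) :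
    Measurable fun z : PhasePoint × NodeP => gL Φ ε T z * (ENNReal.ofReal ‖z.1.2 - z.2.2.1‖ *
      (ψ ((outD Φ ε T (z.1, inLine ε z.1 z.2)).2.1,
      (outD Φ ε T (z.1, inLine ε z.1 z.2)).1) * D (z.2.1, inLine ε z.1 z.2))) := by
  have h1 := (measurable_outD hΦ hε T).comp (measurable_pairL ε)
  have h2 : Measurable fun z : PhasePoint × NodeP => inLine ε z.1 z.2 := measurable_inLine ε
  have h3 : Measurable fun z : PhasePoint × NodeP => ENNReal.ofReal ‖z.1.2 - z.2.2.1‖ := by
    fun_prop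
  have h4 : Measurable fun z : PhasePoint × NodeP => z.2.1 := by fun_prop
  exact (measurable_gL hΦ hε T).mul (h3.mul ((hψ.comp (h1.snd.fst.prodMk h1.fst)).mul
    (hD.comp (h4.prodMk h2))))

theorem measurable_AR_integrand (hΦ : AdmissiblePotential Φ) (hε : 0 < ε)
    {D ψ : ℝ × PhasePoint → ℝ≥0∞} (hD : Measurable D) (hψ : Measurable ψ) :
    Measurable fun z : PhasePoint × NodeP => gR Φ ε T z * (ENNReal.ofReal ‖z.1.2 - z.2.2.1‖ *
      (ψ ((outD Φ ε T (inLine ε z.1 z.2, z.1)).2.1,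
      (outD Φ ε T (inLine ε z.1 z.2, z.1)).1) * D (z.2.1, inLine ε z.1 z.2))) := by
  have h1 := (measurable_outD hΦ hε T).comp (measurable_pairR ε)
  have h2 : Measurable fun z : PhasePoint × NodeP => inLine ε z.1 z.2 := measurable_inLine ε
  have h3 : Measurable fun z : PhasePoint × NodeP => ENNReal.ofReal ‖z.1.2 - z.2.2.1‖ := by
    fun_prop
  have h4 : Measurable fun z : PhasePoint × NodeP => z.2.1 := by fun_prop
  exact (measurable_gR hΦ hε T).mul (h3.mul ((hψ.comp (h1.snd.fst.prodMk h1.fst)).mul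
    (hD.comp (h4.prodMk h2))))

theorem measurable_Ioi_ind : Measurable fun q : ℝ × ℝ => (Ioi q.1).indicator (1 : ℝ → ℝ≥0∞) q.2 := by
  have h : (fun q : ℝ × ℝ => (Ioi q.1).indicator (1 : ℝ → ℝ≥0∞) q.2) =
      {q : ℝ × ℝ | q.1 < q.2}.indicator 1 := by
    funext q
    by_cases hq : q.1 < q.2
    · rw [indicator_of_mem (show q.2 ∈ Ioi q.1 from hq),
        indicator_of_mem (show q ∈ {q : ℝ × ℝ | q.1 < q.2} from hq)]
      rfl
    · rw [indicator_of_notMem (show q.2 ∉ Ioi q.1 from hq),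
        indicator_of_notMem (show q ∉ {q : ℝ × ℝ | q.1 < q.2} from hq)]
  rw [h]
  exact measurable_one.indicator (measurableSet_lt measurable_fst measurable_snd)

theorem AL_eq (D ψ : ℝ × PhasePoint → ℝ≥0∞) (q : ℝ × PhasePoint) :
    AL Φ ε T D ψ q = ∫⁻ a : NodeP, (Ioi q.1).indicator 1 a.1 *
      (gL Φ ε T (q.2, a) * (ENNReal.ofReal ‖q.2.2 - a.2.1‖ *
        (ψ ((outD Φ ε T (q.2, inLine ε q.2 a)).2.1,
          (outD Φ ε T (q.2, inLine ε q.2 a)).1) * D (a.1, inLine ε q.2 a)))) := by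
  unfold AL
  refine lintegral_congr fun a => ?_
  ring

theorem AR_eq (D ψ : ℝ × PhasePoint → ℝ≥0∞) (q : ℝ × PhasePoint) :
    AR Φ ε T D ψ q = ∫⁻ a : NodeP, (Ioi q.1).indicator 1 a.1 *
      (gR Φ ε T (q.2, a) * (ENNReal.ofReal ‖q.2.2 - a.2.1‖ *
        (ψ ((outD Φ ε T (inLine ε q.2 a, q.2)).2.1,
          (outD Φ ε T (inLine ε q.2 a, q.2)).1) * D (a.1, inLine ε q.2 a)))) := by
  unfold AR
  refine lintegral_congr fun a => ?_
  ring

theorem measurable_AL (hΦ : AdmissiblePotential Φ) (hε : 0 < ε)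
    {D ψ : ℝ × PhasePoint → ℝ≥0∞} (hD : Measurable D) (hψ : Measurable ψ) :
    Measurable (AL Φ ε T D ψ) := by
  have h1 : Measurable fun z : (ℝ × PhasePoint) × NodeP => (z.1.2, z.2) :=
    measurable_fst.snd.prodMk measurable_snd
  have h2 : Measurable fun z : (ℝ × PhasePoint) × NodeP => (z.1.1, z.2.1) :=
    measurable_fst.fst.prodMk measurable_snd.fst
  have h3 := (measurable_Ioi_ind.comp h2).mul
    ((measurable_AL_integrand (T := T) hΦ hε hD hψ).comp h1)
  have h4 := h3.lintegral_prod_right' (ν := (volume : Measure NodeP))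
  have h5 : AL Φ ε T D ψ = _ := funext fun q => AL_eq D ψ q
  rw [h5]
  exact h4

theorem measurable_AR (hΦ : AdmissiblePotential Φ) (hε : 0 < ε)
    {D ψ : ℝ × PhasePoint → ℝ≥0∞} (hD : Measurable D) (hψ : Measurable ψ) :
    Measurable (AR Φ ε T D ψ) := by
  have h1 : Measurable fun z : (ℝ × PhasePoint) × NodeP => (z.1.2, z.2) :=
    measurable_fst.snd.prodMk measurable_snd
  have h2 : Measurable fun z : (ℝ × PhasePoint) × NodeP => (z.1.1, z.2.1) :=
    measurable_fst.fst.prodMk measurable_snd.fst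
  have h3 := (measurable_Ioi_ind.comp h2).mul
    ((measurable_AR_integrand (T := T) hΦ hε hD hψ).comp h1)
  have h4 := h3.lintegral_prod_right' (ν := (volume : Measure NodeP))
  have h5 : AR Φ ε T D ψ = _ := funext fun q => AR_eq D ψ q
  rw [h5]
  exact h4

/-- top exit of a node, and the two densities of its inputs -/
def HT (ε : ℝ) (m : ℕ) (φ : ML → ℝ≥0∞) (D₁ D₂ ψ : ℝ × PhasePoint → ℝ≥0∞)
    (σ : PhasePoint × NodeP → ℝ)
    (w : (PhasePoint × NodeP) × (PhasePoint × PhasePoint)) : ℝ≥0∞ :=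
  ψ (w.1.2.1, w.1.1) * φ (exitL ε w.1, m) * (D₁ (σ w.1, w.2.1) * D₂ (σ w.1, w.2.2))

/-- the two densities of the inputs of a node -/
def H2 (D₁ D₂ ψ : ℝ × PhasePoint → ℝ≥0∞) (σ : PhasePoint × NodeP → ℝ)
    (w : (PhasePoint × NodeP) × (PhasePoint × PhasePoint)) : ℝ≥0∞ :=
  ψ (w.1.2.1, w.1.1) * (D₁ (σ w.1, w.2.1) * D₂ (σ w.1, w.2.2))

theorem measurable_H2 {D₁ D₂ ψ : ℝ × PhasePoint → ℝ≥0∞} {σ : PhasePoint × NodeP → ℝ}
    (h1 : Measurable D₁) (h2 : Measurable D₂) (hψ : Measurable ψ) (hσ : Measurable σ) :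
    Measurable (H2 D₁ D₂ ψ σ) := by
  have m1 : Measurable fun w : (PhasePoint × NodeP) × (PhasePoint × PhasePoint) =>
      (w.1.2.1, w.1.1) := by fun_prop
  have m2 : Measurable fun w : (PhasePoint × NodeP) × (PhasePoint × PhasePoint) =>
      (σ w.1, w.2.1) := (hσ.comp measurable_fst).prodMk measurable_snd.fst
  have m3 : Measurable fun w : (PhasePoint × NodeP) × (PhasePoint × PhasePoint) =>
      (σ w.1, w.2.2) := (hσ.comp measurable_fst).prodMk measurable_snd.snd
  exact (hψ.comp m1).mul ((h1.comp m2).mul (h2.comp m3))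

theorem measurable_HT {m : ℕ} (hφ : Measurable φ) {D₁ D₂ ψ : ℝ × PhasePoint → ℝ≥0∞}
    {σ : PhasePoint × NodeP → ℝ}
    (h1 : Measurable D₁) (h2 : Measurable D₂) (hψ : Measurable ψ) (hσ : Measurable σ) :
    Measurable (HT ε m φ D₁ D₂ ψ σ) := by
  have m1 : Measurable fun w : (PhasePoint × NodeP) × (PhasePoint × PhasePoint) =>
      (w.1.2.1, w.1.1) := by fun_prop
  have m2 : Measurable fun w : (PhasePoint × NodeP) × (PhasePoint × PhasePoint) =>
      (σ w.1, w.2.1) := (hσ.comp measurable_fst).prodMk measurable_snd.fst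
  have m3 : Measurable fun w : (PhasePoint × NodeP) × (PhasePoint × PhasePoint) =>
      (σ w.1, w.2.2) := (hσ.comp measurable_fst).prodMk measurable_snd.snd
  have m4 : Measurable fun w : (PhasePoint × NodeP) × (PhasePoint × PhasePoint) =>
      ((exitL ε w.1, m) : ML) := ((measurable_exitL ε).comp measurable_fst).prodMk measurable_const
  exact ((hψ.comp m1).mul (hφ.comp m4)).mul ((h1.comp m2).mul (h2.comp m3))

/-- **Exits of a node**: exact decomposition. -/
theorem XX_node (hΦ : AdmissiblePotential Φ) (hε : 0 < ε) (hk : Measurable k)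
    (hU : ∀ P, Measurable (U P)) (hφ : Measurable φ) (l r : CTree)
    {ψ : ℝ × PhasePoint → ℝ≥0∞} (hψ : Measurable ψ) :
    XX Φ ε T k U φ (node l r) ψ =
      NI Φ ε T (HT ε (l.leaves + r.leaves) φ (dn Φ ε T k l (U l)) (dn Φ ε T k r (U r)) ψ
        (sinM Φ ε)) +
      (NI Φ ε T (H2 (dn Φ ε T k l (ES Φ ε U φ l)) (dn Φ ε T k r (U r)) ψ (sinM Φ ε)) +
       NI Φ ε T (H2 (dn Φ ε T k l (U l)) (dn Φ ε T k r (ES Φ ε U φ r)) ψ (sinM Φ ε))) := by
  have hp : Measurable fun z : PhasePoint × Par (node l r) => z.2 := measurable_snd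
  have hz : Measurable fun z : PhasePoint × Par (node l r) => (z.1, z.2.1) :=
    measurable_fst.prodMk ((measurable_par1 l r).comp hp)
  have hi := (measurable_inM hΦ ε).comp hz
  have hl := hi.fst.prodMk ((measurable_parL l r).comp hp)
  have hr := hi.snd.prodMk ((measurable_parR l r).comp hp)
  have he : Measurable fun z : PhasePoint × Par (node l r) =>
      ((exitL ε (z.1, z.2.1), l.leaves + r.leaves) : ML) :=
    ((measurable_exitL ε).comp hz).prodMk measurable_const
  have mb : Measurable fun z : PhasePoint × Par (node l r) => (z.2.1.1, z.1) :=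
    ((measurable_par1 l r).comp hp).fst.prodMk measurable_fst
  have mEl := measurable_ES (ε := ε) hΦ hU hφ l
  have mEr := measurable_ES (ε := ε) hΦ hU hφ r
  -- the three functionals
  set A1 : PhasePoint × Par (node l r) → ℝ≥0∞ := fun z =>
    φ (exitL ε (z.1, z.2.1), l.leaves + r.leaves) *
        (U l ((inM Φ ε (z.1, z.2.1)).1, z.2.2.1) * U r ((inM Φ ε (z.1, z.2.1)).2, z.2.2.2)) with hA1
  set A2 : PhasePoint × Par (node l r) → ℝ≥0∞ := fun z =>
    ES Φ ε U φ l ((inM Φ ε (z.1, z.2.1)).1, z.2.2.1) *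
          U r ((inM Φ ε (z.1, z.2.1)).2, z.2.2.2) with hA2
  set A3 : PhasePoint × Par (node l r) → ℝ≥0∞ := fun z =>
    U l ((inM Φ ε (z.1, z.2.1)).1, z.2.2.1) *
          ES Φ ε U φ r ((inM Φ ε (z.1, z.2.1)).2, z.2.2.2) with hA3
  have mA1 : Measurable A1 := (hφ.comp he).mul (((hU l).comp hl).mul ((hU r).comp hr))
  have mA2 : Measurable A2 := (mEl.comp hl).mul ((hU r).comp hr)
  have mA3 : Measurable A3 := ((hU l).comp hl).mul (mEr.comp hr)
  have e0 : XX Φ ε T k U φ (node l r) ψ =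
      (∫⁻ z : PhasePoint × Par (node l r), vw Φ ε (node l r) T z *
        (kw Φ ε k (node l r) z * A1 z) * ψ (z.2.1.1, z.1)) +
      ((∫⁻ z : PhasePoint × Par (node l r), vw Φ ε (node l r) T z *
        (kw Φ ε k (node l r) z * A2 z) * ψ (z.2.1.1, z.1)) +
       ∫⁻ z : PhasePoint × Par (node l r), vw Φ ε (node l r) T z *
        (kw Φ ε k (node l r) z * A3 z) * ψ (z.2.1.1, z.1)) := by
    have mI : ∀ {A : PhasePoint × Par (node l r) → ℝ≥0∞}, Measurable A →
        Measurable fun z : PhasePoint × Par (node l r) => vw Φ ε (node l r) T z *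
          (kw Φ ε k (node l r) z * A z) * ψ (z.2.1.1, z.1) := fun hA =>
      ((measurable_vw hΦ ε (node l r) T).mul ((measurable_kw hΦ hk (node l r)).mul hA)).mul
        (hψ.comp mb)
    rw [← lintegral_add_left (mI mA2), ← lintegral_add_left (mI mA1)]
    unfold XX
    refine lintegral_congr fun z => ?_
    have e : ES Φ ε U φ (node l r) z = A1 z + (A2 z + A3 z) := rfl
    rw [e]
    show _ * ψ (z.2.1.1, z.1) = _
    ring
  have e1 := lintegral_node (T := T) (k := k) hΦ hε hk l r mA1 (hU l) (hU r)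
    (c := fun z => φ (exitL ε z, l.leaves + r.leaves)) (fun ℓ a pl pr => rfl) hψ
  have e2 := lintegral_node (T := T) (k := k) hΦ hε hk l r mA2 mEl (hU r)
    (c := fun _ => 1) (fun ℓ a pl pr => (one_mul _).symm) hψ
  have e3 := lintegral_node (T := T) (k := k) hΦ hε hk l r mA3 (hU l) mEr
    (c := fun _ => 1) (fun ℓ a pl pr => (one_mul _).symm) hψ
  rw [e0, e1, e2, e3]
  simp only [mul_one]
  rfl

/-- deeper exits in the first input: the last leg meets the second input -/
theorem NI_left_le (hΦ : AdmissiblePotential Φ) (hε : 0 < ε) (hk : Measurable k)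
    (hU : ∀ P, Measurable (U P)) (hφ : Measurable φ) (l : CTree)
    {D ψ : ℝ × PhasePoint → ℝ≥0∞} (hD : Measurable D) (hψ : Measurable ψ) :
    NI Φ ε T (H2 (dn Φ ε T k l (ES Φ ε U φ l)) D ψ (sinM Φ ε)) ≤
      XX Φ ε T k U φ l (AL Φ ε T D ψ) := by
  have mE := measurable_ES (ε := ε) hΦ hU hφ l
  have mdn := measurable_dn (ε := ε) (T := T) hΦ hk mE
  have ms := measurable_sinM hΦ ε
  rw [NI_flipL hΦ hε (measurable_H2 mdn hD hψ ms)]
  -- write the density as an integral
  set R : PhasePoint × NodeP → ℝ≥0∞ := fun z => gL Φ ε T z *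
    (ENNReal.ofReal ‖z.1.2 - z.2.2.1‖ * (ψ ((outD Φ ε T (z.1, inLine ε z.1 z.2)).2.1,
      (outD Φ ε T (z.1, inLine ε z.1 z.2)).1) * D (z.2.1, inLine ε z.1 z.2))) with hR
  have mR : Measurable R := measurable_AL_integrand hΦ hε hD hψ
  set B : PhasePoint × Par l → ℝ≥0∞ := fun z => vw Φ ε l T z * (kw Φ ε k l z *
    ES Φ ε U φ l z) with hB
  have mB : Measurable B := measurable_XX_integrand hΦ hk hU hφ l
  have e1 : ∀ z : PhasePoint × NodeP, gL Φ ε T z * (ENNReal.ofReal ‖z.1.2 - z.2.2.1‖ *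
      H2 (dn Φ ε T k l (ES Φ ε U φ l)) D ψ (sinM Φ ε)
        (outD Φ ε T (z.1, inLine ε z.1 z.2), (z.1, inLine ε z.1 z.2))) =
      R z * ∫⁻ p : Par l, topI l (z.2.1, p) * B (z.1, p) := by
    intro z
    by_cases hz : z ∈ GoodL Φ ε T
    · have hsin : sinM Φ ε (outD Φ ε T (z.1, inLine ε z.1 z.2)) = z.2.1 := by
        rw [sinM_of_adm hz.2.1]
        exact sin_of_mem_GoodL hΦ hε hz
      simp only [H2, hsin, hR, dn, hB]
      ring
    · have hg : gL Φ ε T z = 0 := by
        unfold gL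
        exact indicator_of_notMem hz _
      simp only [hR, hg, zero_mul]
  simp only [e1]
  have mtop : Measurable fun z : (PhasePoint × NodeP) × Par l => topI l (z.1.2.1, z.2) :=
    (measurable_topI l).comp (measurable_fst.snd.fst.prodMk measurable_snd)
  have mB2 : Measurable fun z : (PhasePoint × NodeP) × Par l => B (z.1.1, z.2) :=
    mB.comp (measurable_fst.fst.prodMk measurable_snd)
  -- both sides as iterated integrals
  have e2 : ∫⁻ z : PhasePoint × NodeP, R z * ∫⁻ p : Par l, topI l (z.2.1, p) * B (z.1, p) =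
      ∫⁻ ℓ : PhasePoint, ∫⁻ p : Par l, ∫⁻ a : NodeP, R (ℓ, a) * (topI l (a.1, p) * B (ℓ, p)) := by
    have m1 : Measurable fun z : PhasePoint × NodeP =>
        R z * ∫⁻ p : Par l, topI l (z.2.1, p) * B (z.1, p) :=
      mR.mul ((mtop.mul mB2).lintegral_prod_right')
    rw [Tree674.lintegral_pair m1]
    refine lintegral_congr fun ℓ => ?_
    have m2 : Measurable fun z : NodeP × Par l => R (ℓ, z.1) * (topI l (z.1.1, z.2) * B (ℓ, z.2)) := by
      have n1 : Measurable fun z : NodeP × Par l => ((ℓ, z.1) : PhasePoint × NodeP) :=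
        measurable_const.prodMk measurable_fst
      have n2 : Measurable fun z : NodeP × Par l => (((ℓ, z.1), z.2) :
          (PhasePoint × NodeP) × Par l) := n1.prodMk measurable_snd
      exact (mR.comp n1).mul ((mtop.comp n2).mul (mB2.comp n2))
    rw [← lintegral_lintegral_swap (μ := (volume : Measure NodeP)) (ν := (volume : Measure (Par l)))
      (f := fun a p => R (ℓ, a) * (topI l (a.1, p) * B (ℓ, p))) m2.aemeasurable]
    refine lintegral_congr fun a => ?_
    have m3 : Measurable fun p : Par l => topI l (a.1, p) * B (ℓ, p) := by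
      have n2 : Measurable fun p : Par l => (((ℓ, a), p) : (PhasePoint × NodeP) × Par l) :=
        measurable_const.prodMk measurable_id
      exact (mtop.comp n2).mul (mB2.comp n2)
    rw [lintegral_const_mul _ m3]
  rw [e2]
  unfold XX
  have m4 : Measurable fun z : PhasePoint × Par l => B z * AL Φ ε T D ψ (bt l z.2, z.1) :=
    mB.mul ((measurable_AL hΦ hε hD hψ).comp
      (((measurable_bt l).comp measurable_snd).prodMk measurable_fst))
  rw [Tree674.lintegral_pair m4]
  refine lintegral_mono fun ℓ => lintegral_mono fun p => ?_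
  rw [AL_eq, ← lintegral_const_mul]
  · refine lintegral_mono fun a => ?_
    have h := ES_topI (Φ := Φ) (ε := ε) (U := U) (φ := φ) l (ℓ, p) a.1
    calc R (ℓ, a) * (topI l (a.1, p) * B (ℓ, p)) =
        R (ℓ, a) * (vw Φ ε l T (ℓ, p) * kw Φ ε k l (ℓ, p)) *
          (ES Φ ε U φ l (ℓ, p) * topI l (a.1, p)) := by simp only [hB]; ring
      _ ≤ R (ℓ, a) * (vw Φ ε l T (ℓ, p) * kw Φ ε k l (ℓ, p)) *
          (ES Φ ε U φ l (ℓ, p) * (Ioi (bt l p)).indicator 1 a.1) := mul_le_mul' le_rfl h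
      _ = _ := by simp only [hB, hR]; ring
  · have n1 : Measurable fun a : NodeP => (bt l p, a.1) :=
      measurable_const.prodMk measurable_fst
    have n2 : Measurable fun a : NodeP => ((ℓ, a) : PhasePoint × NodeP) :=
      measurable_const.prodMk measurable_id
    exact (measurable_Ioi_ind.comp n1).mul (mR.comp n2)

/-- deeper exits in the second input: the last leg meets the first input -/
theorem NI_right_le (hΦ : AdmissiblePotential Φ) (hε : 0 < ε) (hk : Measurable k)
    (hU : ∀ P, Measurable (U P)) (hφ : Measurable φ) (r : CTree)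
    {D ψ : ℝ × PhasePoint → ℝ≥0∞} (hD : Measurable D) (hψ : Measurable ψ) :
    NI Φ ε T (H2 D (dn Φ ε T k r (ES Φ ε U φ r)) ψ (sinM Φ ε)) ≤
      XX Φ ε T k U φ r (AR Φ ε T D ψ) := by
  have mE := measurable_ES (ε := ε) hΦ hU hφ r
  have mdn := measurable_dn (ε := ε) (T := T) hΦ hk mE
  have ms := measurable_sinM hΦ ε
  rw [NI_flipR hΦ hε (measurable_H2 hD mdn hψ ms)]
  set R : PhasePoint × NodeP → ℝ≥0∞ := fun z => gR Φ ε T z *
    (ENNReal.ofReal ‖z.1.2 - z.2.2.1‖ * (ψ ((outD Φ ε T (inLine ε z.1 z.2, z.1)).2.1,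
      (outD Φ ε T (inLine ε z.1 z.2, z.1)).1) * D (z.2.1, inLine ε z.1 z.2))) with hR
  have mR : Measurable R := measurable_AR_integrand hΦ hε hD hψ
  set B : PhasePoint × Par r → ℝ≥0∞ := fun z => vw Φ ε r T z * (kw Φ ε k r z *
    ES Φ ε U φ r z) with hB
  have mB : Measurable B := measurable_XX_integrand hΦ hk hU hφ r
  have e1 : ∀ z : PhasePoint × NodeP, gR Φ ε T z * (ENNReal.ofReal ‖z.1.2 - z.2.2.1‖ *
      H2 D (dn Φ ε T k r (ES Φ ε U φ r)) ψ (sinM Φ ε)
        (outD Φ ε T (inLine ε z.1 z.2, z.1), (inLine ε z.1 z.2, z.1))) =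
      R z * ∫⁻ p : Par r, topI r (z.2.1, p) * B (z.1, p) := by
    intro z
    by_cases hz : z ∈ GoodR Φ ε T
    · have hsin : sinM Φ ε (outD Φ ε T (inLine ε z.1 z.2, z.1)) = z.2.1 := by
        rw [sinM_of_adm hz.2.1]
        exact sin_of_mem_GoodR hΦ hε hz
      simp only [H2, hsin, hR, dn, hB]
      ring
    · have hg : gR Φ ε T z = 0 := by
        unfold gR
        exact indicator_of_notMem hz _
      simp only [hR, hg, zero_mul]
  simp only [e1]
  have mtop : Measurable fun z : (PhasePoint × NodeP) × Par r => topI r (z.1.2.1, z.2) :=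
    (measurable_topI r).comp (measurable_fst.snd.fst.prodMk measurable_snd)
  have mB2 : Measurable fun z : (PhasePoint × NodeP) × Par r => B (z.1.1, z.2) :=
    mB.comp (measurable_fst.fst.prodMk measurable_snd)
  have e2 : ∫⁻ z : PhasePoint × NodeP, R z * ∫⁻ p : Par r, topI r (z.2.1, p) * B (z.1, p) =
      ∫⁻ ℓ : PhasePoint, ∫⁻ p : Par r, ∫⁻ a : NodeP, R (ℓ, a) * (topI r (a.1, p) * B (ℓ, p)) := by
    have m1 : Measurable fun z : PhasePoint × NodeP =>
        R z * ∫⁻ p : Par r, topI r (z.2.1, p) * B (z.1, p) :=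
      mR.mul ((mtop.mul mB2).lintegral_prod_right')
    rw [Tree674.lintegral_pair m1]
    refine lintegral_congr fun ℓ => ?_
    have m2 : Measurable fun z : NodeP × Par r => R (ℓ, z.1) * (topI r (z.1.1, z.2) * B (ℓ, z.2)) := by
      have n1 : Measurable fun z : NodeP × Par r => ((ℓ, z.1) : PhasePoint × NodeP) :=
        measurable_const.prodMk measurable_fst
      have n2 : Measurable fun z : NodeP × Par r => (((ℓ, z.1), z.2) :
          (PhasePoint × NodeP) × Par r) := n1.prodMk measurable_snd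
      exact (mR.comp n1).mul ((mtop.comp n2).mul (mB2.comp n2))
    rw [← lintegral_lintegral_swap (μ := (volume : Measure NodeP)) (ν := (volume : Measure (Par r)))
      (f := fun a p => R (ℓ, a) * (topI r (a.1, p) * B (ℓ, p))) m2.aemeasurable]
    refine lintegral_congr fun a => ?_
    have m3 : Measurable fun p : Par r => topI r (a.1, p) * B (ℓ, p) := by
      have n2 : Measurable fun p : Par r => (((ℓ, a), p) : (PhasePoint × NodeP) × Par r) :=
        measurable_const.prodMk measurable_id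
      exact (mtop.comp n2).mul (mB2.comp n2)
    rw [lintegral_const_mul _ m3]
  rw [e2]
  unfold XX
  have m4 : Measurable fun z : PhasePoint × Par r => B z * AR Φ ε T D ψ (bt r z.2, z.1) :=
    mB.mul ((measurable_AR hΦ hε hD hψ).comp
      (((measurable_bt r).comp measurable_snd).prodMk measurable_fst))
  rw [Tree674.lintegral_pair m4]
  refine lintegral_mono fun ℓ => lintegral_mono fun p => ?_
  rw [AR_eq, ← lintegral_const_mul]
  · refine lintegral_mono fun a => ?_
    have h := ES_topI (Φ := Φ) (ε := ε) (U := U) (φ := φ) r (ℓ, p) a.1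
    calc R (ℓ, a) * (topI r (a.1, p) * B (ℓ, p)) =
        R (ℓ, a) * (vw Φ ε r T (ℓ, p) * kw Φ ε k r (ℓ, p)) *
          (ES Φ ε U φ r (ℓ, p) * topI r (a.1, p)) := by simp only [hB]; ring
      _ ≤ R (ℓ, a) * (vw Φ ε r T (ℓ, p) * kw Φ ε k r (ℓ, p)) *
          (ES Φ ε U φ r (ℓ, p) * (Ioi (bt r p)).indicator 1 a.1) := mul_le_mul' le_rfl h
      _ = _ := by simp only [hB, hR]; ring
  · have n1 : Measurable fun a : NodeP => (bt r p, a.1) :=
      measurable_const.prodMk measurable_fst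
    have n2 : Measurable fun a : NodeP => ((ℓ, a) : PhasePoint × NodeP) :=
      measurable_const.prodMk measurable_id
    exact (measurable_Ioi_ind.comp n1).mul (mR.comp n2)

/-- **Recursion over the tree.** -/
theorem XX_node_le (hΦ : AdmissiblePotential Φ) (hε : 0 < ε) (hk : Measurable k)
    (hU : ∀ P, Measurable (U P)) (hφ : Measurable φ) (l r : CTree)
    {ψ : ℝ × PhasePoint → ℝ≥0∞} (hψ : Measurable ψ) :
    XX Φ ε T k U φ (node l r) ψ ≤
      NI Φ ε T (HT ε (l.leaves + r.leaves) φ (dn Φ ε T k l (U l)) (dn Φ ε T k r (U r)) ψ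
        (sinM Φ ε)) +
      (XX Φ ε T k U φ l (AL Φ ε T (dn Φ ε T k r (U r)) ψ) +
       XX Φ ε T k U φ r (AR Φ ε T (dn Φ ε T k l (U l)) ψ)) := by
  rw [XX_node hΦ hε hk hU hφ l r hψ]
  exact add_le_add le_rfl (add_le_add
    (NI_left_le hΦ hε hk hU hφ l (measurable_dn hΦ hk (hU r)) hψ)
    (NI_right_le hΦ hε hk hU hφ r (measurable_dn hΦ hk (hU l)) hψ))

end Crest.Agent.R122.QExit814

end
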