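import Crest.Agent.R122.QExitBind1_837
import Crest.Agent.R122.InEq2Defs_311
import Crest.Agent.R122.TreeLim_974

/-!
# Row 122 (helper837): marked exits in the tree-integral form `TS`

* `gcE_lintegral` : Tonelli for `gcE`.
* `measurable_ESJ` : joint measurability of `ES` in the gas and the tree.
* `TS_le_gcE` : `TS H ≤ gcE (sum over trees of the integrals of th * ES)`.
-/

set_option autoImplicit false

open MeasureTheory Set Filter Topology
open Crest.AnalysisR.Kinetic
open scoped ENNReal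

noncomputable section

open scoped Classical

namespace Crest.Agent.R122.QExit837

open Kin796 Kin796.CTree Disc416 Scat818 Flow671 Flux663 Tree674 Mark307
open Crest.Agent.R122.GIV566 Crest.Agent.R122.TreeLines335 Crest.Agent.R122.QExit814
open Crest.Agent.R122.Hid424 Crest.Agent.R122.RtG302 Crest.Agent.R122.GC311
open Crest.Agent.R122.InEq2 Crest.Agent.R122.ToTree335

variable {Φ : Space3 → ℝ} {f₀ : PhasePoint → ℝ} {ε : ℝ}

/-- Tonelli for the grand-canonical expectation. -/
theorem gcE_lintegral {α : Type*} [MeasurableSpace α] (ν : Measure α) [SFinite ν]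
    (hf : Measurable f₀) {F : α → (n : ℕ) → Config n → ℝ≥0∞}
    (hF : ∀ n, Measurable fun p : α × Config n => F p.1 n p.2) :
    ∫⁻ a, gcE f₀ ε (F a) ∂ν = gcE f₀ ε (fun n w => ∫⁻ a, F a n w ∂ν) := by
  have hW : ∀ n, Measurable fun p : α × Config n => gcWeight f₀ ε n p.2 * F p.1 n p.2 := fun n =>
    ((measurable_gcWeight hf ε n).comp measurable_snd).mul (hF n)
  have h1 : ∀ n, Measurable fun a => ∫⁻ w : Config n, gcWeight f₀ ε n w * F a n w := fun n =>
    (hW n).lintegral_prod_right'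
  have h2 : Measurable fun a => ∑' n : ℕ, activity ε ^ n / (n.factorial : ℝ≥0∞) *
      ∫⁻ w : Config n, gcWeight f₀ ε n w * F a n w :=
    Measurable.tsum fun n => (h1 n).const_mul _
  unfold gcE
  rw [lintegral_const_mul _ h2, lintegral_tsum fun n => ((h1 n).const_mul _).aemeasurable]
  congr 1
  refine tsum_congr fun n => ?_
  rw [lintegral_const_mul _ (h1 n)]
  congr 1
  rw [lintegral_lintegral_swap (hW n).aemeasurable]
  refine lintegral_congr fun w => ?_
  exact lintegral_const_mul _ ((hF n).comp (measurable_id.prodMk measurable_const))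

/-! ### Joint measurability -/

theorem measurable_U814 (hΦ : AdmissiblePotential Φ) (hε : 0 < ε) {tw : ℝ} (m : ℕ) (P : CTree) :
    Measurable fun q : Config m × (PhasePoint × Par P) => U814 Φ ε tw q.1 P q.2 := by
  have h := Q1815.measurable_unhit_hidM hΦ hε P (tw := tw) (W := PhasePoint × Par P)
    (ℓ := fun q => q.1) measurable_fst (p := fun q => q.2) measurable_snd
  have h2 : Measurable fun q : Config m × (PhasePoint × Par P) =>
      (((⟨m, q.1⟩ : Σ n : ℕ, Config n), q.2) : (Σ n : ℕ, Config n) × (PhasePoint × Par P)) :=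
    ((measurable_sigmaMk' m).comp measurable_fst).prodMk measurable_snd
  exact h.comp h2

/-- joint measurability of `ES` -/
theorem measurable_ESJ (hΦ : AdmissiblePotential Φ) {m : ℕ}
    {U : Config m → ∀ P : CTree, PhasePoint × Par P → ℝ≥0∞}
    (hU : ∀ P, Measurable fun q : Config m × (PhasePoint × Par P) => U q.1 P q.2)
    {φ : Config m → QExit814.ML → ℝ≥0∞}
    (hφ : Measurable fun q : Config m × QExit814.ML => φ q.1 q.2) : ∀ P : CTree,
    Measurable fun q : Config m × (PhasePoint × Par P) => ES Φ ε (U q.1) (φ q.1) P q.2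
  | leaf => measurable_const
  | node l r => by
      have h0 : Measurable fun q : Config m × (PhasePoint × Par (node l r)) => q.2 := measurable_snd
      have hp : Measurable fun z : PhasePoint × Par (node l r) => z.2 := measurable_snd
      have hz : Measurable fun z : PhasePoint × Par (node l r) => (z.1, z.2.1) :=
        measurable_fst.prodMk ((measurable_par1 l r).comp hp)
      have hi := (measurable_inM hΦ ε).comp hz
      have hl := (hi.fst.prodMk ((measurable_parL l r).comp hp)).comp h0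
      have hr := (hi.snd.prodMk ((measurable_parR l r).comp hp)).comp h0
      have he : Measurable fun z : PhasePoint × Par (node l r) =>
          ((exitL ε (z.1, z.2.1), l.leaves + r.leaves) : QExit814.ML) :=
        ((measurable_exitL ε).comp hz).prodMk measurable_const
      have hw : Measurable fun q : Config m × (PhasePoint × Par (node l r)) => q.1 := measurable_fst
      exact ((hφ.comp (hw.prodMk (he.comp h0))).mul (((hU l).comp (hw.prodMk hl)).mul
        ((hU r).comp (hw.prodMk hr)))).add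
        ((((measurable_ESJ hΦ hU hφ l).comp (hw.prodMk hl)).mul ((hU r).comp (hw.prodMk hr))).add
          (((hU l).comp (hw.prodMk hl)).mul ((measurable_ESJ hΦ hU hφ r).comp (hw.prodMk hr))))

/-! ### Tree integrals -/

/-- The majorant integrated over the trees with at most `K` leaves. -/
def QI (Φ : Space3 → ℝ) (f₀ : PhasePoint → ℝ) (ε : ℝ) (K : ℕ) (T tw : ℝ)
    (th : ∀ P : CTree, PhasePoint × Par P → ℝ≥0∞)
    (φ : QExit814.ML → ℝ≥0∞) {κ : Type} [Fintype κ] (w : κ → PhasePoint) : ℝ≥0∞ :=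
  ∑' P : CTree, if P.leaves ≤ K then ∫⁻ z : PhasePoint × Par P,
    {z : PhasePoint × Par P | Valid Φ ε P T z.1.2 z.2}.indicator
      (fun z => wt Φ P z.1.2 z.2 * (pf Φ f₀ ε P z * (th P z * ES Φ ε (U814 Φ ε tw w) φ P z))) z
    else 0

/-- The measurable integrand. -/
def AX (Φ : Space3 → ℝ) (f₀ : PhasePoint → ℝ) (ε : ℝ) (K : ℕ) (T tw : ℝ) (P : CTree)
    (th : PhasePoint × Par P → ℝ≥0∞)
    (φ : QExit814.ML → ℝ≥0∞) {κ : Type} [Fintype κ] (w : κ → PhasePoint)
    (z : PhasePoint × Par P) : ℝ≥0∞ :=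
  if P.leaves ≤ K then vw Φ ε P T z * (pfM Φ f₀ ε P z *
      (th z * ES Φ ε (U814 Φ ε tw w) φ P z)) else 0

theorem AX_valid {K : ℕ} {T tw : ℝ} {P : CTree} {th : PhasePoint × Par P → ℝ≥0∞}
    {φ : QExit814.ML → ℝ≥0∞} {κ : Type} [Fintype κ] {w : κ → PhasePoint}
    {z : PhasePoint × Par P} (hz : Valid Φ ε P T z.1.2 z.2) :
    AX Φ f₀ ε K T tw P th φ w z = (wt Φ P z.1.2 z.2 * pf Φ f₀ ε P z) *
      (if P.leaves ≤ K then th z * ES Φ ε (U814 Φ ε tw w) φ P z else 0) := by
  have hv := vw_of_valid (Φ := Φ) hz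
  have hp := pfM_of_adm (Φ := Φ) (f₀ := f₀) (ε := ε) hz.1
  unfold AX
  rw [hv, hp]
  by_cases hP : P.leaves ≤ K
  · rw [if_pos hP, if_pos hP, mul_assoc]
  · rw [if_neg hP, if_neg hP, mul_zero]

theorem AX_not_valid {K : ℕ} {T tw : ℝ} {P : CTree} {th : PhasePoint × Par P → ℝ≥0∞}
    {φ : QExit814.ML → ℝ≥0∞} {κ : Type} [Fintype κ] {w : κ → PhasePoint}
    {z : PhasePoint × Par P} (hz : ¬ Valid Φ ε P T z.1.2 z.2) :
    AX Φ f₀ ε K T tw P th φ w z = 0 := by
  unfold AX
  rw [vw_of_not_valid (Φ := Φ) hz, zero_mul]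
  exact ite_self _

theorem measurable_AX (hΦ : AdmissiblePotential Φ) (hf : Measurable f₀) (hε : 0 < ε) {K : ℕ}
    {T tw : ℝ} {P : CTree} {th : PhasePoint × Par P → ℝ≥0∞} (hth : Measurable th) {m : ℕ}
    {φ : Config m → QExit814.ML → ℝ≥0∞}
    (hφ : Measurable fun q : Config m × QExit814.ML => φ q.1 q.2) :
    Measurable fun q : (PhasePoint × Par P) × Config m =>
      AX Φ f₀ ε K T tw P th (φ q.2) q.2 q.1 := by
  have h0 : Measurable fun q : (PhasePoint × Par P) × Config m => ((q.2, q.1) :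
      Config m × (PhasePoint × Par P)) := measurable_snd.prodMk measurable_fst
  have h1 := measurable_ESJ (ε := ε) hΦ (m := m) (U := fun w => U814 Φ ε tw w)
      (fun Q => measurable_U814 hΦ hε m Q) hφ P
  have h2 := h1.comp h0
  have h3 : Measurable fun q : (PhasePoint × Par P) × Config m => q.1 := measurable_fst
  have h4 := (measurable_vw hΦ ε P T).comp h3
  have h5 := (measurable_pfM (ε := ε) hΦ hf P).comp h3
  have h6 := hth.comp h3
  unfold AX
  by_cases hP : P.leaves ≤ K
  · simp only [if_pos hP]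
    exact h4.mul (h5.mul (h6.mul h2))
  · simp only [if_neg hP]
    exact measurable_const

theorem wtpf_ne_top (P : CTree) (z : PhasePoint × Par P) :
    wt Φ P z.1.2 z.2 * pf Φ f₀ ε P z ≠ ∞ := by
  refine ENNReal.mul_ne_top (TreeLim974.wt_ne_top P _ _) ?_
  unfold pf
  exact ENNReal.prod_ne_top fun i _ => ENNReal.ofReal_ne_top

/-- one tree, pointwise -/
theorem TS_pt {K : ℕ} {T tw : ℝ} {P : CTree} {H : PhasePoint × Par P → (m : ℕ) → Config m → ℝ≥0∞}
    {th : PhasePoint × Par P → ℝ≥0∞} {φ : (m : ℕ) → Config m → QExit814.ML → ℝ≥0∞}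
    (hH : ∀ z m w, Valid Φ ε P T z.1.2 z.2 → H z m w ≤
      if P.leaves ≤ K then th z * ES Φ ε (U814 Φ ε tw w) (φ m w) P z else 0)
    (z : PhasePoint × Par P) :
    {z : PhasePoint × Par P | Valid Φ ε P T z.1.2 z.2}.indicator
      (fun z => wt Φ P z.1.2 z.2 * (pf Φ f₀ ε P z * gcE f₀ ε fun m w => H z m w)) z ≤
    gcE f₀ ε (fun m w => AX Φ f₀ ε K T tw P th (φ m w) w z) := by
  by_cases hz : Valid Φ ε P T z.1.2 z.2
  · rw [indicator_of_mem (show z ∈ {z : PhasePoint × Par P | Valid Φ ε P T z.1.2 z.2} from hz),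
      ← mul_assoc, ← gcE_const_mul f₀ ε (wtpf_ne_top P z)]
    refine gcE_mono f₀ ε fun m w _ => ?_
    rw [AX_valid hz]
    exact mul_le_mul' le_rfl (hH z m w hz)
  · rw [indicator_of_notMem (show z ∉ {z : PhasePoint × Par P | Valid Φ ε P T z.1.2 z.2} from hz)]
    exact bot_le

theorem QI_eq {K : ℕ} {T tw : ℝ} {th : ∀ P : CTree, PhasePoint × Par P → ℝ≥0∞}
    {φ : QExit814.ML → ℝ≥0∞} {κ : Type} [Fintype κ] {w : κ → PhasePoint} :
    QI Φ f₀ ε K T tw th φ w =
      ∑' P : CTree, ∫⁻ z : PhasePoint × Par P, AX Φ f₀ ε K T tw P (th P) φ w z := by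
  unfold QI
  refine tsum_congr fun P => ?_
  by_cases hP : P.leaves ≤ K
  · rw [if_pos hP]
    refine lintegral_congr fun z => ?_
    by_cases hz : Valid Φ ε P T z.1.2 z.2
    · rw [indicator_of_mem (show z ∈ {z : PhasePoint × Par P | Valid Φ ε P T z.1.2 z.2} from hz),
        AX_valid hz, if_pos hP, mul_assoc]
    · rw [indicator_of_notMem (show z ∉ {z : PhasePoint × Par P | Valid Φ ε P T z.1.2 z.2} from hz),
        AX_not_valid hz]
  · rw [if_neg hP]
    have h0 : ∀ z, AX Φ f₀ ε K T tw P (th P) φ w z = 0 := fun z => if_neg hP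
    simp only [h0, lintegral_zero]

theorem TS_le_gcE (hΦ : AdmissiblePotential Φ) (hf : Measurable f₀) (hε : 0 < ε) {K : ℕ}
    {T tw : ℝ} {H : (P : CTree) → PhasePoint × Par P → (m : ℕ) → Config m → ℝ≥0∞}
    {th : ∀ P : CTree, PhasePoint × Par P → ℝ≥0∞} (hth : ∀ P, Measurable (th P))
    {φ : (m : ℕ) → Config m → QExit814.ML → ℝ≥0∞}
    (hφ : ∀ m, Measurable fun q : Config m × QExit814.ML => φ m q.1 q.2)
    (hH : ∀ P z m w, Valid Φ ε P T z.1.2 z.2 → H P z m w ≤
      if P.leaves ≤ K then th P z * ES Φ ε (U814 Φ ε tw w) (φ m w) P z else 0) :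
    InEq2.TS Φ f₀ ε T H ≤ gcE f₀ ε (fun m w => QI Φ f₀ ε K T tw th (φ m w) w) := by
  have mA : ∀ (P : CTree) (m : ℕ), Measurable fun q : (PhasePoint × Par P) × Config m =>
      AX Φ f₀ ε K T tw P (th P) (φ m q.2) q.2 q.1 := fun P m =>
    measurable_AX hΦ hf hε (hth P) (hφ m)
  have h1 : InEq2.TS Φ f₀ ε T H ≤ ∑' P : CTree, ∫⁻ z : PhasePoint × Par P,
      gcE f₀ ε (fun m w => AX Φ f₀ ε K T tw P (th P) (φ m w) w z) := by
    unfold InEq2.TS
    exact ENNReal.tsum_le_tsum fun P => lintegral_mono fun z =>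
      TS_pt (H := H P) (th := th P) (φ := φ) (fun z m w hz => hH P z m w hz) z
  refine h1.trans (le_of_eq ?_)
  have h2 : ∀ P : CTree, ∫⁻ z : PhasePoint × Par P,
      gcE f₀ ε (fun m w => AX Φ f₀ ε K T tw P (th P) (φ m w) w z) =
      gcE f₀ ε (fun m w => ∫⁻ z : PhasePoint × Par P,
        AX Φ f₀ ε K T tw P (th P) (φ m w) w z) := fun P =>
    gcE_lintegral (volume : Measure (PhasePoint × Par P)) hf (mA P)
  have h3 : ∀ (P : CTree) (m : ℕ), Measurable fun w : Config m => ∫⁻ z : PhasePoint × Par P,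
      AX Φ f₀ ε K T tw P (th P) (φ m w) w z := fun P m => by
    have h := (mA P m).comp (measurable_swap (α := Config m) (β := PhasePoint × Par P))
    exact h.lintegral_prod_right'
  rw [tsum_congr h2, ← gcE_tsum hf ε h3]
  exact gcE_congr f₀ ε fun m w _ => QI_eq.symm

end Crest.Agent.R122.QExit837

end
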