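import Crest.Agent.R122.QExitB_814

/-!
Row 122 (helper814), item G1exit, part C: sums over the trees with at most `K` leaves, and the
recursion over `K`.
-/

set_option autoImplicit false
set_option synthInstance.maxSize 1024

open MeasureTheory Set Filter Topology
open Crest.AnalysisR.Kinetic
open scoped ENNReal

noncomputable section

namespace Crest.Agent.R122.QExit814

open Kin796 Kin796.CTree Disc416 Kin416 Scat818 Flow671 Flux663 Tree674 Mark307

variable {Φ : Space3 → ℝ} {ε T : ℝ} {k : PhasePoint → ℝ≥0∞}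
  {U : ∀ P : CTree, PhasePoint × Par P → ℝ≥0∞} {φ : ML → ℝ≥0∞}

theorem one_le_leaves : ∀ P : CTree, 1 ≤ P.leaves
  | leaf => le_rfl
  | node l r => by
      have := one_le_leaves l
      show 1 ≤ l.leaves + r.leaves
      omega

/-! ### Linearity -/

theorem NI_tsum {ι : Type*} [Countable ι] (hΦ : AdmissiblePotential Φ)
    {H : ι → (PhasePoint × NodeP) × (PhasePoint × PhasePoint) → ℝ≥0∞}
    (hH : ∀ i, Measurable (H i)) :
    NI Φ ε T (fun w => ∑' i, H i w) = ∑' i, NI Φ ε T (H i) := by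
  unfold NI
  rw [← lintegral_tsum fun i => (measurable_NI_integrand hΦ (hH i)).aemeasurable]
  refine lintegral_congr fun z => ?_
  rw [ENNReal.tsum_mul_left, ENNReal.tsum_mul_left]

theorem XX_tsum {ι : Type*} [Countable ι] (hΦ : AdmissiblePotential Φ) (hk : Measurable k)
    (hU : ∀ P, Measurable (U P)) (hφ : Measurable φ) (P : CTree)
    {g : ι → ℝ × PhasePoint → ℝ≥0∞} (hg : ∀ i, Measurable (g i)) :
    XX Φ ε T k U φ P (fun q => ∑' i, g i q) = ∑' i, XX Φ ε T k U φ P (g i) := by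
  unfold XX
  have hb : Measurable fun z : PhasePoint × Par P => (bt P z.2, z.1) :=
    ((measurable_bt P).comp measurable_snd).prodMk measurable_fst
  have hm : ∀ i, Measurable fun z : PhasePoint × Par P =>
      vw Φ ε P T z * (kw Φ ε k P z * ES Φ ε U φ P z) * g i (bt P z.2, z.1) := fun i =>
    (measurable_XX_integrand hΦ hk hU hφ P).mul ((hg i).comp hb)
  rw [← lintegral_tsum fun i => (hm i).aemeasurable]
  refine lintegral_congr fun z => ?_
  rw [ENNReal.tsum_mul_left]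

theorem AL_tsum {ι : Type*} [Countable ι] (hΦ : AdmissiblePotential Φ) (hε : 0 < ε)
    {D : ι → ℝ × PhasePoint → ℝ≥0∞} (hD : ∀ i, Measurable (D i)) {ψ : ℝ × PhasePoint → ℝ≥0∞}
    (hψ : Measurable ψ) (q : ℝ × PhasePoint) :
    AL Φ ε T (fun q => ∑' i, D i q) ψ q = ∑' i, AL Φ ε T (D i) ψ q := by
  have hm : ∀ i, Measurable fun a : NodeP => gL Φ ε T (q.2, a) *
      (ENNReal.ofReal ‖q.2.2 - a.2.1‖ * ((Ioi q.1).indicator 1 a.1 *
        (ψ ((outD Φ ε T (q.2, inLine ε q.2 a)).2.1, (outD Φ ε T (q.2, inLine ε q.2 a)).1) *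
          D i (a.1, inLine ε q.2 a)))) := by
    intro i
    have n1 : Measurable fun a : NodeP => (q.1, a.1) := measurable_const.prodMk measurable_fst
    have n2 : Measurable fun a : NodeP => ((q.2, a) : PhasePoint × NodeP) :=
      measurable_const.prodMk measurable_id
    have h1 := (measurable_Ioi_ind.comp n1).mul
      ((measurable_AL_integrand (T := T) hΦ hε (hD i) hψ).comp n2)
    convert h1 using 1
    funext a
    simp only [Pi.mul_apply, Function.comp]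
    ring
  unfold AL
  rw [← lintegral_tsum fun i => (hm i).aemeasurable]
  refine lintegral_congr fun a => ?_
  simp only [ENNReal.tsum_mul_left]

theorem AR_tsum {ι : Type*} [Countable ι] (hΦ : AdmissiblePotential Φ) (hε : 0 < ε)
    {D : ι → ℝ × PhasePoint → ℝ≥0∞} (hD : ∀ i, Measurable (D i)) {ψ : ℝ × PhasePoint → ℝ≥0∞}
    (hψ : Measurable ψ) (q : ℝ × PhasePoint) :
    AR Φ ε T (fun q => ∑' i, D i q) ψ q = ∑' i, AR Φ ε T (D i) ψ q := by
  have hm : ∀ i, Measurable fun a : NodeP => gR Φ ε T (q.2, a) *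
      (ENNReal.ofReal ‖q.2.2 - a.2.1‖ * ((Ioi q.1).indicator 1 a.1 *
        (ψ ((outD Φ ε T (inLine ε q.2 a, q.2)).2.1, (outD Φ ε T (inLine ε q.2 a, q.2)).1) *
          D i (a.1, inLine ε q.2 a)))) := by
    intro i
    have n1 : Measurable fun a : NodeP => (q.1, a.1) := measurable_const.prodMk measurable_fst
    have n2 : Measurable fun a : NodeP => ((q.2, a) : PhasePoint × NodeP) :=
      measurable_const.prodMk measurable_id
    have h1 := (measurable_Ioi_ind.comp n1).mul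
      ((measurable_AR_integrand (T := T) hΦ hε (hD i) hψ).comp n2)
    convert h1 using 1
    funext a
    simp only [Pi.mul_apply, Function.comp]
    ring
  unfold AR
  rw [← lintegral_tsum fun i => (hm i).aemeasurable]
  refine lintegral_congr fun a => ?_
  simp only [ENNReal.tsum_mul_left]

/-! ### Sums over classes of trees -/

/-- density of the trees of a class `p` -/
def DP (Φ : Space3 → ℝ) (ε T : ℝ) (k : PhasePoint → ℝ≥0∞)
    (U : ∀ P : CTree, PhasePoint × Par P → ℝ≥0∞) (p : CTree → Prop) [DecidablePred p]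
    (q : ℝ × PhasePoint) : ℝ≥0∞ :=
  ∑' Q : CTree, (if p Q then dn Φ ε T k Q (U Q) else 0) q

/-- exits of the trees with at most `K` leaves -/
def XS (Φ : Space3 → ℝ) (ε T : ℝ) (k : PhasePoint → ℝ≥0∞)
    (U : ∀ P : CTree, PhasePoint × Par P → ℝ≥0∞) (φ : ML → ℝ≥0∞) (K : ℕ)
    (ψ : ℝ × PhasePoint → ℝ≥0∞) : ℝ≥0∞ :=
  ∑' P : CTree, if P.leaves ≤ K then XX Φ ε T k U φ P ψ else 0

theorem measurable_ite_dn (hΦ : AdmissiblePotential Φ) (hk : Measurable k)
    (hU : ∀ P, Measurable (U P)) (p : Prop) [Decidable p] (Q : CTree) :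
    Measurable (if p then dn Φ ε T k Q (U Q) else 0) := by
  split_ifs
  · exact measurable_dn hΦ hk (hU Q)
  · exact measurable_zero

theorem measurable_DP (hΦ : AdmissiblePotential Φ) (hk : Measurable k)
    (hU : ∀ P, Measurable (U P)) (p : CTree → Prop) [DecidablePred p] :
    Measurable (DP Φ ε T k U p) :=
  Measurable.tsum fun Q => measurable_ite_dn hΦ hk hU (p Q) Q

theorem XS_mono (K : ℕ) {ψ ψ' : ℝ × PhasePoint → ℝ≥0∞} (h : ∀ q, ψ q ≤ ψ' q) :
    XS Φ ε T k U φ K ψ ≤ XS Φ ε T k U φ K ψ' := by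
  refine ENNReal.tsum_le_tsum fun P => ?_
  split_ifs
  · exact XX_mono P h
  · exact le_rfl

theorem XS_add (hΦ : AdmissiblePotential Φ) (hk : Measurable k)
    (hU : ∀ P, Measurable (U P)) (hφ : Measurable φ) (K : ℕ) {ψ ψ' : ℝ × PhasePoint → ℝ≥0∞}
    (hψ : Measurable ψ) :
    XS Φ ε T k U φ K (fun q => ψ q + ψ' q) = XS Φ ε T k U φ K ψ + XS Φ ε T k U φ K ψ' := by
  unfold XS
  rw [← ENNReal.tsum_add]
  refine tsum_congr fun P => ?_
  split_ifs
  · unfold XX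
    have hb : Measurable fun z : PhasePoint × Par P => (bt P z.2, z.1) :=
      ((measurable_bt P).comp measurable_snd).prodMk measurable_fst
    have hm : Measurable fun z : PhasePoint × Par P =>
        vw Φ ε P T z * (kw Φ ε k P z * ES Φ ε U φ P z) * ψ (bt P z.2, z.1) :=
      (measurable_XX_integrand hΦ hk hU hφ P).mul (hψ.comp hb)
    rw [← lintegral_add_left hm]
    refine lintegral_congr fun z => ?_
    ring
  · simp

theorem XS_const_mul (hΦ : AdmissiblePotential Φ) (hk : Measurable k)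
    (hU : ∀ P, Measurable (U P)) (hφ : Measurable φ) (K : ℕ) {ψ : ℝ × PhasePoint → ℝ≥0∞}
    (hψ : Measurable ψ) (c : ℝ≥0∞) :
    XS Φ ε T k U φ K (fun q => c * ψ q) = c * XS Φ ε T k U φ K ψ := by
  unfold XS
  rw [← ENNReal.tsum_mul_left]
  refine tsum_congr fun P => ?_
  split_ifs
  · unfold XX
    have hb : Measurable fun z : PhasePoint × Par P => (bt P z.2, z.1) :=
      ((measurable_bt P).comp measurable_snd).prodMk measurable_fst
    have hm : Measurable fun z : PhasePoint × Par P =>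
        vw Φ ε P T z * (kw Φ ε k P z * ES Φ ε U φ P z) * ψ (bt P z.2, z.1) :=
      (measurable_XX_integrand hΦ hk hU hφ P).mul (hψ.comp hb)
    rw [← lintegral_const_mul _ hm]
    refine lintegral_congr fun z => ?_
    ring
  · simp

/-- sum over the exits at the top node -/
def TS (Φ : Space3 → ℝ) (ε T : ℝ) (k : PhasePoint → ℝ≥0∞)
    (U : ∀ P : CTree, PhasePoint × Par P → ℝ≥0∞) (φ : ML → ℝ≥0∞) (K : ℕ)
    (ψ : ℝ × PhasePoint → ℝ≥0∞) : ℝ≥0∞ :=
  ∑ m ∈ Finset.Icc 1 K, ∑ ab ∈ Finset.HasAntidiagonal.antidiagonal m,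
    NI Φ ε T (HT ε m φ (DP Φ ε T k U fun Q => Q.leaves = ab.1)
      (DP Φ ε T k U fun Q => Q.leaves = ab.2) ψ (sinM Φ ε))

/-- top exits of two classes -/
theorem NI_HT_class (hΦ : AdmissiblePotential Φ) (hk : Measurable k)
    (hU : ∀ P, Measurable (U P)) (hφ : Measurable φ) (m : ℕ) (p₁ p₂ : CTree → Prop)
    [DecidablePred p₁] [DecidablePred p₂] {ψ : ℝ × PhasePoint → ℝ≥0∞} (hψ : Measurable ψ) :
    NI Φ ε T (HT ε m φ (DP Φ ε T k U p₁) (DP Φ ε T k U p₂) ψ (sinM Φ ε)) =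
      ∑' l, ∑' r, if p₁ l ∧ p₂ r then
        NI Φ ε T (HT ε m φ (dn Φ ε T k l (U l)) (dn Φ ε T k r (U r)) ψ (sinM Φ ε)) else 0 := by
  have ms := measurable_sinM hΦ ε
  have e1 : HT ε m φ (DP Φ ε T k U p₁) (DP Φ ε T k U p₂) ψ (sinM Φ ε) =
      fun w => ∑' l, ∑' r, HT ε m φ (if p₁ l then dn Φ ε T k l (U l) else 0)
        (if p₂ r then dn Φ ε T k r (U r) else 0) ψ (sinM Φ ε) w := by
    funext w
    simp only [HT, DP]
    simp only [ENNReal.tsum_mul_left, ENNReal.tsum_mul_right]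
  have mH : ∀ l r, Measurable (HT ε m φ (if p₁ l then dn Φ ε T k l (U l) else 0)
        (if p₂ r then dn Φ ε T k r (U r) else 0) ψ (sinM Φ ε)) := fun l r =>
    measurable_HT hφ (measurable_ite_dn hΦ hk hU (p₁ l) l) (measurable_ite_dn hΦ hk hU (p₂ r) r)
      hψ ms
  rw [e1, NI_tsum hΦ fun l => Measurable.tsum fun r => mH l r]
  refine tsum_congr fun l => ?_
  rw [NI_tsum hΦ fun r => mH l r]
  refine tsum_congr fun r => ?_
  by_cases h1 : p₁ l
  · by_cases h2 : p₂ r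
    · rw [if_pos h1, if_pos h2, if_pos ⟨h1, h2⟩]
    · rw [if_neg h2, if_neg (fun h : p₁ l ∧ p₂ r => h2 h.2)]
      unfold NI HT
      simp
  · rw [if_neg h1, if_neg (fun h : p₁ l ∧ p₂ r => h1 h.1)]
    unfold NI HT
    simp

theorem top_sum_le (hΦ : AdmissiblePotential Φ) (hk : Measurable k)
    (hU : ∀ P, Measurable (U P)) (hφ : Measurable φ) (K : ℕ) {ψ : ℝ × PhasePoint → ℝ≥0∞}
    (hψ : Measurable ψ) :
    ∑' l, ∑' r, (if l.leaves + r.leaves ≤ K then
      NI Φ ε T (HT ε (l.leaves + r.leaves) φ (dn Φ ε T k l (U l)) (dn Φ ε T k r (U r)) ψ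
        (sinM Φ ε)) else 0) ≤ TS Φ ε T k U φ K ψ := by
  unfold TS
  simp only [NI_HT_class hΦ hk hU hφ _ _ _ hψ]
  have e1 : ∑ m ∈ Finset.Icc 1 K, ∑ ab ∈ Finset.HasAntidiagonal.antidiagonal m, ∑' l : CTree, ∑' r : CTree,
      (if l.leaves = ab.1 ∧ r.leaves = ab.2 then
        NI Φ ε T (HT ε m φ (dn Φ ε T k l (U l)) (dn Φ ε T k r (U r)) ψ (sinM Φ ε)) else 0) =
      ∑' l : CTree, ∑' r : CTree, ∑ m ∈ Finset.Icc 1 K, ∑ ab ∈ Finset.HasAntidiagonal.antidiagonal m,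
      (if l.leaves = ab.1 ∧ r.leaves = ab.2 then
        NI Φ ε T (HT ε m φ (dn Φ ε T k l (U l)) (dn Φ ε T k r (U r)) ψ (sinM Φ ε)) else 0) := by
    have hs : ∀ {α β : Type} (s : Finset α) (f : α → β → ℝ≥0∞),
        ∑ i ∈ s, ∑' b, f i b = ∑' b, ∑ i ∈ s, f i b := fun s f =>
      (Summable.tsum_finsetSum fun i _ => ENNReal.summable).symm
    simp only [hs]
  rw [e1]
  refine ENNReal.tsum_le_tsum fun l => ENNReal.tsum_le_tsum fun r => ?_
  by_cases h : l.leaves + r.leaves ≤ K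
  · rw [if_pos h]
    have hm : l.leaves + r.leaves ∈ Finset.Icc 1 K := by
      rw [Finset.mem_Icc]
      exact ⟨le_trans (one_le_leaves l) (Nat.le_add_right _ _), h⟩
    have hab : (l.leaves, r.leaves) ∈ Finset.HasAntidiagonal.antidiagonal (l.leaves + r.leaves) := by
      rw [Finset.HasAntidiagonal.mem_antidiagonal]
    refine le_trans ?_ (Finset.single_le_sum (f := fun m => ∑ ab ∈ Finset.HasAntidiagonal.antidiagonal m,
      (if l.leaves = ab.1 ∧ r.leaves = ab.2 then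
        NI Φ ε T (HT ε m φ (dn Φ ε T k l (U l)) (dn Φ ε T k r (U r)) ψ (sinM Φ ε)) else 0))
      (fun _ _ => bot_le) hm)
    refine le_trans ?_ (Finset.single_le_sum (f := fun ab : ℕ × ℕ =>
      (if l.leaves = ab.1 ∧ r.leaves = ab.2 then
        NI Φ ε T (HT ε (l.leaves + r.leaves) φ (dn Φ ε T k l (U l)) (dn Φ ε T k r (U r)) ψ
          (sinM Φ ε)) else 0)) (fun _ _ => bot_le) hab)
    simp
  · rw [if_neg h]
    exact bot_le

/-- **Recursion over the number of leaves.** -/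
theorem XS_succ_le (hΦ : AdmissiblePotential Φ) (hε : 0 < ε) (hk : Measurable k)
    (hU : ∀ P, Measurable (U P)) (hφ : Measurable φ) (K : ℕ) {ψ : ℝ × PhasePoint → ℝ≥0∞}
    (hψ : Measurable ψ) :
    XS Φ ε T k U φ (K + 1) ψ ≤ TS Φ ε T k U φ (K + 1) ψ +
      (XS Φ ε T k U φ K (AL Φ ε T (DP Φ ε T k U fun Q => Q.leaves ≤ K) ψ) +
       XS Φ ε T k U φ K (AR Φ ε T (DP Φ ε T k U fun Q => Q.leaves ≤ K) ψ)) := by
  have md : ∀ Q, Measurable (if Q.leaves ≤ K then dn Φ ε T k Q (U Q) else 0) := fun Q =>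
    measurable_ite_dn hΦ hk hU (Q.leaves ≤ K) Q
  have e0 : XS Φ ε T k U φ (K + 1) ψ = ∑' l : CTree, ∑' r : CTree,
      (if l.leaves + r.leaves ≤ K + 1 then XX Φ ε T k U φ (node l r) ψ else 0) := by
    unfold XS
    rw [tsum_ctree, XX_leaf]
    simp only [ite_self, zero_add]
    rfl
  -- the three parts
  have e1 : ∀ l r : CTree, (if l.leaves + r.leaves ≤ K + 1 then XX Φ ε T k U φ (node l r) ψ
      else 0) ≤ (if l.leaves + r.leaves ≤ K + 1 then
        NI Φ ε T (HT ε (l.leaves + r.leaves) φ (dn Φ ε T k l (U l)) (dn Φ ε T k r (U r)) ψ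
          (sinM Φ ε)) else 0) +
      ((if l.leaves ≤ K then XX Φ ε T k U φ l
          (AL Φ ε T (if r.leaves ≤ K then dn Φ ε T k r (U r) else 0) ψ) else 0) +
       (if r.leaves ≤ K then XX Φ ε T k U φ r
          (AR Φ ε T (if l.leaves ≤ K then dn Φ ε T k l (U l) else 0) ψ) else 0)) := by
    intro l r
    by_cases h : l.leaves + r.leaves ≤ K + 1
    · have hl := one_le_leaves l
      have hr := one_le_leaves r
      have h1 : l.leaves ≤ K := by omega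
      have h2 : r.leaves ≤ K := by omega
      rw [if_pos h, if_pos h, if_pos h1, if_pos h2, if_pos h2, if_pos h1]
      exact XX_node_le hΦ hε hk hU hφ l r hψ
    · rw [if_neg h]
      exact bot_le
  rw [e0]
  refine (ENNReal.tsum_le_tsum fun l => ENNReal.tsum_le_tsum fun r => e1 l r).trans ?_
  simp only [ENNReal.tsum_add]
  refine add_le_add (top_sum_le hΦ hk hU hφ (K + 1) hψ) (add_le_add (le_of_eq ?_) (le_of_eq ?_))
  · unfold XS
    refine tsum_congr fun l => ?_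
    by_cases h1 : l.leaves ≤ K
    · simp only [if_pos h1]
      rw [← XX_tsum hΦ hk hU hφ l fun r => measurable_AL hΦ hε (md r) hψ]
      congr 1
      funext q
      exact (AL_tsum hΦ hε md hψ q).symm
    · simp [if_neg h1]
  · rw [ENNReal.tsum_comm]
    unfold XS
    refine tsum_congr fun r => ?_
    by_cases h1 : r.leaves ≤ K
    · simp only [if_pos h1]
      rw [← XX_tsum hΦ hk hU hφ r fun l => measurable_AR hΦ hε (md l) hψ]
      congr 1
      funext q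
      exact (AR_tsum hΦ hε md hψ q).symm
    · simp [if_neg h1]

theorem XS_zero (ψ : ℝ × PhasePoint → ℝ≥0∞) : XS Φ ε T k U φ 0 ψ = 0 := by
  unfold XS
  have h : ∀ P : CTree, (if P.leaves ≤ 0 then XX Φ ε T k U φ P ψ else 0) = 0 := by
    intro P
    have := one_le_leaves P
    rw [if_neg (by omega)]
  simp only [h, tsum_zero]

/-! ### Monotonicity and linearity of the forward operators -/

theorem AL_mono (hΦ : AdmissiblePotential Φ) (hε : 0 < ε) {D D' ψ : ℝ × PhasePoint → ℝ≥0∞}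
    (h : ∀ t ∈ Ioo 0 T, ∀ ℓ, D (t, ℓ) ≤ D' (t, ℓ)) (q : ℝ × PhasePoint) :
    AL Φ ε T D ψ q ≤ AL Φ ε T D' ψ q := by
  unfold AL
  refine lintegral_mono fun a => ?_
  by_cases hz : (q.2, a) ∈ GoodL Φ ε T
  · obtain ⟨_, f2, f3, f4, _⟩ := goodL_facts hΦ hε hz
    have h1 := h a.1 ⟨f2, f3.trans_lt f4⟩ (inLine ε q.2 a)
    gcongr
  · have hg : gL Φ ε T (q.2, a) = 0 := by
      unfold gL
      exact indicator_of_notMem hz _
    rw [hg, zero_mul]
    exact bot_le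

theorem AR_mono (hΦ : AdmissiblePotential Φ) (hε : 0 < ε) {D D' ψ : ℝ × PhasePoint → ℝ≥0∞}
    (h : ∀ t ∈ Ioo 0 T, ∀ ℓ, D (t, ℓ) ≤ D' (t, ℓ)) (q : ℝ × PhasePoint) :
    AR Φ ε T D ψ q ≤ AR Φ ε T D' ψ q := by
  unfold AR
  refine lintegral_mono fun a => ?_
  by_cases hz : (q.2, a) ∈ GoodR Φ ε T
  · obtain ⟨_, f2, f3, f4, _⟩ := goodR_facts hΦ hε hz
    have h1 := h a.1 ⟨f2, f3.trans_lt f4⟩ (inLine ε q.2 a)
    gcongr
  · have hg : gR Φ ε T (q.2, a) = 0 := by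
      unfold gR
      exact indicator_of_notMem hz _
    rw [hg, zero_mul]
    exact bot_le

theorem AL_add_mul (hΦ : AdmissiblePotential Φ) (hε : 0 < ε) {D E ψ : ℝ × PhasePoint → ℝ≥0∞}
    (hD : Measurable D) (hE : Measurable E) (hψ : Measurable ψ) (c : ℝ≥0∞) (q : ℝ × PhasePoint) :
    AL Φ ε T (fun q => D q + c * E q) ψ q = AL Φ ε T D ψ q + c * AL Φ ε T E ψ q := by
  rw [AL_eq, AL_eq, AL_eq]
  have n1 : Measurable fun a : NodeP => (q.1, a.1) := measurable_const.prodMk measurable_fst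
  have n2 : Measurable fun a : NodeP => ((q.2, a) : PhasePoint × NodeP) :=
    measurable_const.prodMk measurable_id
  have mD := (measurable_Ioi_ind.comp n1).mul
    ((measurable_AL_integrand (T := T) hΦ hε hD hψ).comp n2)
  have mE := (measurable_Ioi_ind.comp n1).mul
    ((measurable_AL_integrand (T := T) hΦ hε hE hψ).comp n2)
  have h2 := lintegral_const_mul (μ := (volume : Measure NodeP)) c mE
  have h3 := lintegral_add_left (μ := (volume : Measure NodeP)) mD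
    (fun a => c * ((Ioi q.1).indicator 1 a.1 *
      (gL Φ ε T (q.2, a) * (ENNReal.ofReal ‖q.2.2 - a.2.1‖ *
        (ψ ((outD Φ ε T (q.2, inLine ε q.2 a)).2.1,
          (outD Φ ε T (q.2, inLine ε q.2 a)).1) * E (a.1, inLine ε q.2 a))))))
  have h4 : ∫⁻ a : NodeP, c * ((Ioi q.1).indicator 1 a.1 *
      (gL Φ ε T (q.2, a) * (ENNReal.ofReal ‖q.2.2 - a.2.1‖ *
        (ψ ((outD Φ ε T (q.2, inLine ε q.2 a)).2.1,
          (outD Φ ε T (q.2, inLine ε q.2 a)).1) * E (a.1, inLine ε q.2 a))))) =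
      c * ∫⁻ a : NodeP, (Ioi q.1).indicator 1 a.1 *
      (gL Φ ε T (q.2, a) * (ENNReal.ofReal ‖q.2.2 - a.2.1‖ *
        (ψ ((outD Φ ε T (q.2, inLine ε q.2 a)).2.1,
          (outD Φ ε T (q.2, inLine ε q.2 a)).1) * E (a.1, inLine ε q.2 a)))) := h2
  rw [h4] at h3
  refine Eq.trans ?_ h3
  refine lintegral_congr fun a => ?_
  simp only [Pi.mul_apply, Function.comp]
  ring

theorem AR_add_mul (hΦ : AdmissiblePotential Φ) (hε : 0 < ε) {D E ψ : ℝ × PhasePoint → ℝ≥0∞}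
    (hD : Measurable D) (hE : Measurable E) (hψ : Measurable ψ) (c : ℝ≥0∞) (q : ℝ × PhasePoint) :
    AR Φ ε T (fun q => D q + c * E q) ψ q = AR Φ ε T D ψ q + c * AR Φ ε T E ψ q := by
  rw [AR_eq, AR_eq, AR_eq]
  have n1 : Measurable fun a : NodeP => (q.1, a.1) := measurable_const.prodMk measurable_fst
  have n2 : Measurable fun a : NodeP => ((q.2, a) : PhasePoint × NodeP) :=
    measurable_const.prodMk measurable_id
  have mD := (measurable_Ioi_ind.comp n1).mul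
    ((measurable_AR_integrand (T := T) hΦ hε hD hψ).comp n2)
  have mE := (measurable_Ioi_ind.comp n1).mul
    ((measurable_AR_integrand (T := T) hΦ hε hE hψ).comp n2)
  have h2 := lintegral_const_mul (μ := (volume : Measure NodeP)) c mE
  have h3 := lintegral_add_left (μ := (volume : Measure NodeP)) mD
    (fun a => c * ((Ioi q.1).indicator 1 a.1 *
      (gR Φ ε T (q.2, a) * (ENNReal.ofReal ‖q.2.2 - a.2.1‖ *
        (ψ ((outD Φ ε T (inLine ε q.2 a, q.2)).2.1,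
          (outD Φ ε T (inLine ε q.2 a, q.2)).1) * E (a.1, inLine ε q.2 a))))))
  have h4 : ∫⁻ a : NodeP, c * ((Ioi q.1).indicator 1 a.1 *
      (gR Φ ε T (q.2, a) * (ENNReal.ofReal ‖q.2.2 - a.2.1‖ *
        (ψ ((outD Φ ε T (inLine ε q.2 a, q.2)).2.1,
          (outD Φ ε T (inLine ε q.2 a, q.2)).1) * E (a.1, inLine ε q.2 a))))) =
      c * ∫⁻ a : NodeP, (Ioi q.1).indicator 1 a.1 *
      (gR Φ ε T (q.2, a) * (ENNReal.ofReal ‖q.2.2 - a.2.1‖ *
        (ψ ((outD Φ ε T (inLine ε q.2 a, q.2)).2.1,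
          (outD Φ ε T (inLine ε q.2 a, q.2)).1) * E (a.1, inLine ε q.2 a)))) := h2
  rw [h4] at h3
  refine Eq.trans ?_ h3
  refine lintegral_congr fun a => ?_
  simp only [Pi.mul_apply, Function.comp]
  ring

/-! ### Crude bounds -/

/-- crude bound of the total density of the trees with at most `K` leaves -/
def Crude (Φ : Space3 → ℝ) (ε T : ℝ) (k : PhasePoint → ℝ≥0∞) (K : ℕ) (c : ℝ≥0∞) (b : ℝ) : Prop :=
  ∀ ℓ : PhasePoint, ∑' P : CTree, (if P.leaves ≤ K then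
    ∫⁻ p : Par P, vw Φ ε P T (ℓ, p) * kw Φ ε k P (ℓ, p) else 0) ≤ c * wG b ℓ.2

theorem DP_le_crude (hU1 : ∀ P z, U P z ≤ 1) {K : ℕ} {c : ℝ≥0∞} {b : ℝ}
    (hc : Crude Φ ε T k K c b) {p : CTree → Prop} [DecidablePred p]
    (hp : ∀ Q, p Q → Q.leaves ≤ K) (q : ℝ × PhasePoint) :
    DP Φ ε T k U p q ≤ c * wG b q.2.2 := by
  refine le_trans ?_ (hc q.2)
  unfold DP
  refine ENNReal.tsum_le_tsum fun Q => ?_
  by_cases h : p Q
  · rw [if_pos h, if_pos (hp Q h)]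
    refine lintegral_mono fun y => ?_
    have h1 : topI Q (q.1, y) ≤ 1 := by
      unfold topI
      exact indicator_le_self' (fun _ _ => zero_le_one) _
    calc topI Q (q.1, y) * (vw Φ ε Q T (q.2, y) * (kw Φ ε k Q (q.2, y) * U Q (q.2, y))) ≤
        1 * (vw Φ ε Q T (q.2, y) * (kw Φ ε k Q (q.2, y) * 1)) :=
          mul_le_mul' h1 (mul_le_mul' le_rfl (mul_le_mul' le_rfl (hU1 _ _)))
      _ = _ := by rw [one_mul, mul_one]
  · rw [if_neg h]
    exact bot_le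

/-- exits against a function of the root line only -/
theorem XS_le_crude (hΦ : AdmissiblePotential Φ) (hk : Measurable k)
    (hU : ∀ P, Measurable (U P)) (hU1 : ∀ P z, U P z ≤ 1) (hφ : Measurable φ)
    (hφ1 : ∀ x, φ x ≤ 1) {K : ℕ} {c : ℝ≥0∞} {b : ℝ}
    (hc : Crude Φ ε T k K c b) {ψ : ℝ × PhasePoint → ℝ≥0∞} (hψ : Measurable ψ)
    {g : PhasePoint → ℝ≥0∞} (hg : Measurable g) (h : ∀ q, ψ q ≤ g q.2) :
    XS Φ ε T k U φ K ψ ≤ ∫⁻ ℓ : PhasePoint, ((K : ℝ≥0∞) * c * wG b ℓ.2) * g ℓ := by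
  have e1 : ∀ P : CTree, (if P.leaves ≤ K then XX Φ ε T k U φ P ψ else 0) ≤
      ∫⁻ ℓ : PhasePoint, (K : ℝ≥0∞) * g ℓ * (if P.leaves ≤ K then
        ∫⁻ p : Par P, vw Φ ε P T (ℓ, p) * kw Φ ε k P (ℓ, p) else 0) := by
    intro P
    by_cases hP : P.leaves ≤ K
    · simp only [if_pos hP]
      unfold XX
      have hb : Measurable fun z : PhasePoint × Par P => (bt P z.2, z.1) :=
        ((measurable_bt P).comp measurable_snd).prodMk measurable_fst
      have hm : Measurable fun z : PhasePoint × Par P =>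
          vw Φ ε P T z * (kw Φ ε k P z * ES Φ ε U φ P z) * ψ (bt P z.2, z.1) :=
        (measurable_XX_integrand hΦ hk hU hφ P).mul (hψ.comp hb)
      rw [Tree674.lintegral_pair hm]
      refine lintegral_mono fun ℓ => ?_
      have mvk : Measurable fun p : Par P => vw Φ ε P T (ℓ, p) * kw Φ ε k P (ℓ, p) := by
        have n : Measurable fun p : Par P => ((ℓ, p) : PhasePoint × Par P) :=
          measurable_const.prodMk measurable_id
        exact ((measurable_vw hΦ ε P T).comp n).mul ((measurable_kw hΦ hk P).comp n)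
      show ∫⁻ p : Par P, _ ≤ _
      rw [← lintegral_const_mul _ mvk]
      refine lintegral_mono fun p => ?_
      have h1 := ES_le (Φ := Φ) (ε := ε) hU1 hφ1 P (ℓ, p)
      have h2 : (P.size : ℝ≥0∞) ≤ (K : ℝ≥0∞) := by
        have := CTree.leaves_eq P
        exact_mod_cast (by omega : P.size ≤ K)
      calc vw Φ ε P T (ℓ, p) * (kw Φ ε k P (ℓ, p) * ES Φ ε U φ P (ℓ, p)) * ψ (bt P p, ℓ) ≤
          vw Φ ε P T (ℓ, p) * (kw Φ ε k P (ℓ, p) * (K : ℝ≥0∞)) * g ℓ :=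
            mul_le_mul' (mul_le_mul' le_rfl (mul_le_mul' le_rfl (h1.trans h2))) (h _)
        _ = _ := by ring
    · simp only [if_neg hP]
      exact bot_le
  unfold XS
  refine (ENNReal.tsum_le_tsum e1).trans ?_
  have mP : ∀ P : CTree, Measurable fun ℓ : PhasePoint => (K : ℝ≥0∞) * g ℓ *
      (if P.leaves ≤ K then ∫⁻ p : Par P, vw Φ ε P T (ℓ, p) * kw Φ ε k P (ℓ, p) else 0) := by
    intro P
    refine (hg.const_mul _).mul ?_
    split_ifs
    · have h2 : Measurable fun z : PhasePoint × Par P => vw Φ ε P T z * kw Φ ε k P z :=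
        (measurable_vw hΦ ε P T).mul (measurable_kw hΦ hk P)
      exact h2.lintegral_prod_right'
    · exact measurable_const
  rw [← lintegral_tsum fun P => (mP P).aemeasurable]
  refine lintegral_mono fun ℓ => ?_
  rw [ENNReal.tsum_mul_left]
  calc (K : ℝ≥0∞) * g ℓ * _ ≤ (K : ℝ≥0∞) * g ℓ * (c * wG b ℓ.2) := mul_le_mul' le_rfl (hc ℓ)
    _ = _ := by ring

/-- forward operator applied to an excess, then integrated against the exits: first orientation -/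
theorem XS_AL_le (hΦ : AdmissiblePotential Φ) (hε : 0 < ε) (hk : Measurable k)
    (hU : ∀ P, Measurable (U P)) (hU1 : ∀ P z, U P z ≤ 1) (hφ : Measurable φ)
    (hφ1 : ∀ x, φ x ≤ 1) {K : ℕ} {c : ℝ≥0∞} {b : ℝ} (hc : Crude Φ ε T k K c b)
    {ν κ : ℝ} (hν : 0 ≤ ν) (hκ : 0 ≤ κ) {E : ℝ × PhasePoint → ℝ≥0∞} (hE : Measurable E) :
    XS Φ ε T k U φ K (AL Φ ε T E (Wf ν κ T)) ≤
      (((K : ℝ≥0∞) * c * ENNReal.ofReal (Real.exp (ν * T))) * (mV b κ T * vD)) * EI κ T E := by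
  have mW := measurable_Wf ν κ T
  set D₁ : ℝ × PhasePoint → ℝ≥0∞ := fun q => (K : ℝ≥0∞) * c * wG b q.2.2 with hD₁
  have mD₁ : Measurable D₁ := ((measurable_wG' b).comp measurable_snd.snd).const_mul _
  have mR := measurable_AL_integrand (T := T) hΦ hε hE mW
  set g : PhasePoint → ℝ≥0∞ := fun ℓ => ∫⁻ a : NodeP, gL Φ ε T (ℓ, a) *
    (ENNReal.ofReal ‖ℓ.2 - a.2.1‖ * (Wf ν κ T ((outD Φ ε T (ℓ, inLine ε ℓ a)).2.1,
      (outD Φ ε T (ℓ, inLine ε ℓ a)).1) * E (a.1, inLine ε ℓ a))) with hg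
  have mg : Measurable g := mR.lintegral_prod_right'
  have h1 : ∀ q : ℝ × PhasePoint, AL Φ ε T E (Wf ν κ T) q ≤ g q.2 := by
    intro q
    rw [AL_eq]
    refine lintegral_mono fun a => ?_
    have h2 : (Ioi q.1).indicator (1 : ℝ → ℝ≥0∞) a.1 ≤ 1 :=
      indicator_le_self' (fun _ _ => zero_le_one) _
    calc _ ≤ 1 * _ := mul_le_mul' h2 le_rfl
      _ = _ := one_mul _
  refine (XS_le_crude hΦ hk hU hU1 hφ hφ1 hc (measurable_AL hΦ hε hE mW) mg h1).trans ?_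
  have h3 : ∫⁻ ℓ : PhasePoint, ((K : ℝ≥0∞) * c * wG b ℓ.2) * g ℓ =
      NI Φ ε T (H2 D₁ E (Wf ν κ T) (sinM Φ ε)) := by
    have ms := measurable_sinM hΦ ε
    have mH := measurable_H2 mD₁ hE mW ms
    rw [NI_flipL hΦ hε mH]
    have mo := (measurable_outD hΦ hε T).comp (measurable_pairL ε)
    have mw : Measurable fun z : PhasePoint × NodeP => ENNReal.ofReal ‖z.1.2 - z.2.2.1‖ := by
      fun_prop
    have mF : Measurable fun z : PhasePoint × NodeP => gL Φ ε T z *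
        (ENNReal.ofReal ‖z.1.2 - z.2.2.1‖ * H2 D₁ E (Wf ν κ T) (sinM Φ ε)
          (outD Φ ε T (z.1, inLine ε z.1 z.2), (z.1, inLine ε z.1 z.2))) :=
      (measurable_gL hΦ hε T).mul (mw.mul (mH.comp (mo.prodMk (measurable_pairL ε))))
    rw [Tree674.lintegral_pair mF]
    refine lintegral_congr fun ℓ => ?_
    have n2 : Measurable fun a : NodeP => ((ℓ, a) : PhasePoint × NodeP) :=
      measurable_const.prodMk measurable_id
    have mRl : Measurable fun a : NodeP => gL Φ ε T (ℓ, a) *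
      (ENNReal.ofReal ‖ℓ.2 - a.2.1‖ * (Wf ν κ T ((outD Φ ε T (ℓ, inLine ε ℓ a)).2.1,
      (outD Φ ε T (ℓ, inLine ε ℓ a)).1) * E (a.1, inLine ε ℓ a))) := mR.comp n2
    rw [hg, ← lintegral_const_mul _ mRl]
    refine lintegral_congr fun a => ?_
    by_cases hz : (ℓ, a) ∈ GoodL Φ ε T
    · have hsin : sinM Φ ε (outD Φ ε T (ℓ, inLine ε ℓ a)) = a.1 := by
        rw [sinM_of_adm hz.2.1]
        exact sin_of_mem_GoodL hΦ hε hz
      simp only [H2, hsin, hD₁]
      ring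
    · have hgz : gL Φ ε T (ℓ, a) = 0 := by
        unfold gL
        exact indicator_of_notMem hz _
      rw [hgz]
      simp
  rw [h3]
  exact NI_R_le hΦ hε hν hκ mD₁ hE fun t _ ℓ => le_rfl

/-- the same, second orientation -/
theorem XS_AR_le (hΦ : AdmissiblePotential Φ) (hε : 0 < ε) (hk : Measurable k)
    (hU : ∀ P, Measurable (U P)) (hU1 : ∀ P z, U P z ≤ 1) (hφ : Measurable φ)
    (hφ1 : ∀ x, φ x ≤ 1) {K : ℕ} {c : ℝ≥0∞} {b : ℝ} (hc : Crude Φ ε T k K c b)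
    {ν κ : ℝ} (hν : 0 ≤ ν) (hκ : 0 ≤ κ) {E : ℝ × PhasePoint → ℝ≥0∞} (hE : Measurable E) :
    XS Φ ε T k U φ K (AR Φ ε T E (Wf ν κ T)) ≤
      (((K : ℝ≥0∞) * c * ENNReal.ofReal (Real.exp (ν * T))) * (mV b κ T * vD)) * EI κ T E := by
  have mW := measurable_Wf ν κ T
  set D₁ : ℝ × PhasePoint → ℝ≥0∞ := fun q => (K : ℝ≥0∞) * c * wG b q.2.2 with hD₁
  have mD₁ : Measurable D₁ := ((measurable_wG' b).comp measurable_snd.snd).const_mul _
  have mR := measurable_AR_integrand (T := T) hΦ hε hE mW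
  set g : PhasePoint → ℝ≥0∞ := fun ℓ => ∫⁻ a : NodeP, gR Φ ε T (ℓ, a) *
    (ENNReal.ofReal ‖ℓ.2 - a.2.1‖ * (Wf ν κ T ((outD Φ ε T (inLine ε ℓ a, ℓ)).2.1,
      (outD Φ ε T (inLine ε ℓ a, ℓ)).1) * E (a.1, inLine ε ℓ a))) with hg
  have mg : Measurable g := mR.lintegral_prod_right'
  have h1 : ∀ q : ℝ × PhasePoint, AR Φ ε T E (Wf ν κ T) q ≤ g q.2 := by
    intro q
    rw [AR_eq]
    refine lintegral_mono fun a => ?_
    have h2 : (Ioi q.1).indicator (1 : ℝ → ℝ≥0∞) a.1 ≤ 1 :=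
      indicator_le_self' (fun _ _ => zero_le_one) _
    calc _ ≤ 1 * _ := mul_le_mul' h2 le_rfl
      _ = _ := one_mul _
  refine (XS_le_crude hΦ hk hU hU1 hφ hφ1 hc (measurable_AR hΦ hε hE mW) mg h1).trans ?_
  have h3 : ∫⁻ ℓ : PhasePoint, ((K : ℝ≥0∞) * c * wG b ℓ.2) * g ℓ =
      NI Φ ε T (H2 E D₁ (Wf ν κ T) (sinM Φ ε)) := by
    have ms := measurable_sinM hΦ ε
    have mH := measurable_H2 hE mD₁ mW ms
    rw [NI_flipR hΦ hε mH]
    have mo := (measurable_outD hΦ hε T).comp (measurable_pairR ε)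
    have mw : Measurable fun z : PhasePoint × NodeP => ENNReal.ofReal ‖z.1.2 - z.2.2.1‖ := by
      fun_prop
    have mF : Measurable fun z : PhasePoint × NodeP => gR Φ ε T z *
        (ENNReal.ofReal ‖z.1.2 - z.2.2.1‖ * H2 E D₁ (Wf ν κ T) (sinM Φ ε)
          (outD Φ ε T (inLine ε z.1 z.2, z.1), (inLine ε z.1 z.2, z.1))) :=
      (measurable_gR hΦ hε T).mul (mw.mul (mH.comp (mo.prodMk (measurable_pairR ε))))
    rw [Tree674.lintegral_pair mF]
    refine lintegral_congr fun ℓ => ?_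
    have n2 : Measurable fun a : NodeP => ((ℓ, a) : PhasePoint × NodeP) :=
      measurable_const.prodMk measurable_id
    have mRl : Measurable fun a : NodeP => gR Φ ε T (ℓ, a) *
      (ENNReal.ofReal ‖ℓ.2 - a.2.1‖ * (Wf ν κ T ((outD Φ ε T (inLine ε ℓ a, ℓ)).2.1,
      (outD Φ ε T (inLine ε ℓ a, ℓ)).1) * E (a.1, inLine ε ℓ a))) := mR.comp n2
    rw [hg, ← lintegral_const_mul _ mRl]
    refine lintegral_congr fun a => ?_
    by_cases hz : (ℓ, a) ∈ GoodR Φ ε T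
    · have hsin : sinM Φ ε (outD Φ ε T (inLine ε ℓ a, ℓ)) = a.1 := by
        rw [sinM_of_adm hz.2.1]
        exact sin_of_mem_GoodR hΦ hε hz
      simp only [H2, hsin, hD₁]
      ring
    · have hgz : gR Φ ε T (ℓ, a) = 0 := by
        unfold gR
        exact indicator_of_notMem hz _
      rw [hgz]
      simp
  rw [h3]
  exact NI_L_le hΦ hε hν hκ mD₁ hE fun t _ ℓ => le_rfl

/-! ### The core estimate -/

/-- main term -/
def MT (ρ : ℝ≥0∞) (T b : ℝ) (φ : ML → ℝ≥0∞) (K : ℕ) : ℝ≥0∞ :=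
  ∑ m ∈ Finset.Icc 1 K, ((m : ℝ≥0∞) + 1) * (ρ ^ m * LI T b φ m)

theorem MT_mono (ρ : ℝ≥0∞) (T b : ℝ) (φ : ML → ℝ≥0∞) (K : ℕ) :
    MT ρ T b φ K ≤ MT ρ T b φ (K + 1) :=
  Finset.sum_le_sum_of_subset (Finset.Icc_subset_Icc_right (Nat.le_succ K))

/-- control of the densities by size class: geometric Gaussian bound plus an excess `E` -/
def Ctrl (Φ : Space3 → ℝ) (ε T : ℝ) (k : PhasePoint → ℝ≥0∞)
    (U : ∀ P : CTree, PhasePoint × Par P → ℝ≥0∞) (K : ℕ) (c₀ ρ : ℝ≥0∞) (b : ℝ)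
    (E : ℝ × PhasePoint → ℝ≥0∞) : Prop :=
  ∀ m, m ≤ K → ∀ t ∈ Ioo 0 T, ∀ ℓ : PhasePoint,
    DP Φ ε T k U (fun Q => Q.leaves = m) (t, ℓ) ≤ c₀ * ρ ^ m * wG b ℓ.2 + E (t, ℓ)

theorem DP_le_sum (K : ℕ) (q : ℝ × PhasePoint) :
    DP Φ ε T k U (fun Q => Q.leaves ≤ K) q =
      ∑ m ∈ Finset.range (K + 1), DP Φ ε T k U (fun Q => Q.leaves = m) q := by
  unfold DP
  rw [← Summable.tsum_finsetSum fun i _ => ENNReal.summable]
  refine tsum_congr fun Q => ?_
  by_cases h : Q.leaves ≤ K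
  · rw [if_pos h, Finset.sum_eq_single_of_mem Q.leaves (by rw [Finset.mem_range]; omega)]
    · rw [if_pos rfl]
    · intro m _ hm
      rw [if_neg (fun h => hm h.symm)]
      rfl
  · rw [if_neg h]
    symm
    refine Finset.sum_eq_zero fun m hm => ?_
    rw [Finset.mem_range] at hm
    rw [if_neg (by omega)]
    rfl

theorem Ctrl.total {K : ℕ} {c₀ ρ : ℝ≥0∞} {b : ℝ} {E : ℝ × PhasePoint → ℝ≥0∞}
    (h : Ctrl Φ ε T k U K c₀ ρ b E) {K' : ℕ} (hK : K' ≤ K) {t : ℝ} (ht : t ∈ Ioo 0 T)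
    (ℓ : PhasePoint) :
    DP Φ ε T k U (fun Q => Q.leaves ≤ K') (t, ℓ) ≤
      (c₀ * ∑' m : ℕ, ρ ^ m) * wG b ℓ.2 + ((K' : ℝ≥0∞) + 1) * E (t, ℓ) := by
  rw [DP_le_sum]
  calc ∑ m ∈ Finset.range (K' + 1), DP Φ ε T k U (fun Q => Q.leaves = m) (t, ℓ) ≤
      ∑ m ∈ Finset.range (K' + 1), (c₀ * ρ ^ m * wG b ℓ.2 + E (t, ℓ)) := by
        refine Finset.sum_le_sum fun m hm => h m ?_ t ht ℓ
        rw [Finset.mem_range] at hm
        omega
    _ = (c₀ * ∑ m ∈ Finset.range (K' + 1), ρ ^ m) * wG b ℓ.2 +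
        ((K' : ℝ≥0∞) + 1) * E (t, ℓ) := by
        rw [Finset.sum_add_distrib, Finset.sum_const, Finset.card_range, nsmul_eq_mul,
          ← Finset.sum_mul, ← Finset.mul_sum]
        push_cast
        ring
    _ ≤ _ := by
        gcongr
        exact ENNReal.sum_le_tsum _

/-- top exits -/
theorem TS_le (hΦ : AdmissiblePotential Φ) (hε : 0 < ε) (hk : Measurable k)
    (hU : ∀ P, Measurable (U P)) (hU1 : ∀ P z, U P z ≤ 1) (hφ : Measurable φ)
    (hφ1 : ∀ x, φ x ≤ 1) {Km : ℕ} {c c₀ ρ : ℝ≥0∞} {b b₂ : ℝ} (hc : Crude Φ ε T k Km c b₂)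
    {ν κ : ℝ} (hν : 0 ≤ ν) (hκ : 0 ≤ κ) {E : ℝ × PhasePoint → ℝ≥0∞} (hE : Measurable E)
    (h : Ctrl Φ ε T k U Km c₀ ρ b E) {K : ℕ} (hK : K ≤ Km) :
    TS Φ ε T k U φ K (Wf ν κ T) ≤
      (c₀ ^ 2 * (ENNReal.ofReal (Real.exp (ν * T)) * (mV b κ T * vD))) * MT ρ T b φ K +
      (∑ m ∈ Finset.Icc 1 K, ∑ ab ∈ Finset.HasAntidiagonal.antidiagonal m,
        ((c * ENNReal.ofReal (Real.exp (ν * T))) * (mV b₂ κ T * vD) +
          (c₀ * ρ ^ ab.1 * ENNReal.ofReal (Real.exp (ν * T))) * (mV b κ T * vD))) *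
        EI κ T E := by
  have mW := measurable_Wf ν κ T
  have ms := measurable_sinM hΦ ε
  have step : ∀ m ∈ Finset.Icc 1 K, ∀ ab ∈ Finset.HasAntidiagonal.antidiagonal m,
      NI Φ ε T (HT ε m φ (DP Φ ε T k U fun Q => Q.leaves = ab.1)
        (DP Φ ε T k U fun Q => Q.leaves = ab.2) (Wf ν κ T) (sinM Φ ε)) ≤
      (c₀ ^ 2 * (ENNReal.ofReal (Real.exp (ν * T)) * (mV b κ T * vD))) *
          (ρ ^ m * LI T b φ m) +
        ((c * ENNReal.ofReal (Real.exp (ν * T))) * (mV b₂ κ T * vD) +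
          (c₀ * ρ ^ ab.1 * ENNReal.ofReal (Real.exp (ν * T))) * (mV b κ T * vD)) *
            EI κ T E := by
    intro m hm ab hab
    rw [Finset.mem_Icc] at hm
    rw [Finset.HasAntidiagonal.mem_antidiagonal] at hab
    set G₁ : ℝ × PhasePoint → ℝ≥0∞ := fun q => c₀ * ρ ^ ab.1 * wG b q.2.2 with hG₁
    set G₂ : ℝ × PhasePoint → ℝ≥0∞ := fun q => c₀ * ρ ^ ab.2 * wG b q.2.2 with hG₂
    set D₁ := DP Φ ε T k U fun Q => Q.leaves = ab.1 with hD₁
    set D₂ := DP Φ ε T k U fun Q => Q.leaves = ab.2 with hD₂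
    have mG₁ : Measurable G₁ := ((measurable_wG' b).comp measurable_snd.snd).const_mul _
    have mG₂ : Measurable G₂ := ((measurable_wG' b).comp measurable_snd.snd).const_mul _
    have mD₂ : Measurable D₂ := measurable_DP hΦ hk hU _
    have hD₂c : ∀ q, D₂ q ≤ c * wG b₂ q.2.2 := fun q => DP_le_crude hU1 hc
      (fun Q hQ => by omega) q
    have e1 : NI Φ ε T (HT ε m φ D₁ D₂ (Wf ν κ T) (sinM Φ ε)) ≤
        NI Φ ε T (fun w => HT ε m φ G₁ G₂ (Wf ν κ T) (sinM Φ ε) w +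
          (H2 E D₂ (Wf ν κ T) (sinM Φ ε) w + H2 G₁ E (Wf ν κ T) (sinM Φ ε) w)) := by
      refine NI_mono fun z hz => ?_
      have hadm : Adm1 Φ z.1.2 z.2 := hz.1
      have hs0 : 0 < sinM Φ ε z := by rw [sinM_of_adm hadm]; exact hz.2.2
      have hsle : sinM Φ ε z ≤ z.2.1 := by
        rw [sinM_of_adm hadm]
        exact Tree674.sin_le Φ hε.le _ _
      have hsT : sinM Φ ε z ∈ Ioo 0 T := ⟨hs0, hsle.trans_lt hz.2.1⟩
      have k1 : D₁ (sinM Φ ε z, (inMap Φ ε z.1 z.2).1) ≤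
        G₁ (sinM Φ ε z, (inMap Φ ε z.1 z.2).1) + E (sinM Φ ε z, (inMap Φ ε z.1 z.2).1) :=
        h ab.1 (by omega) _ hsT _
      have k2 : D₂ (sinM Φ ε z, (inMap Φ ε z.1 z.2).2) ≤
        G₂ (sinM Φ ε z, (inMap Φ ε z.1 z.2).2) + E (sinM Φ ε z, (inMap Φ ε z.1 z.2).2) :=
        h ab.2 (by omega) _ hsT _
      have k3 := hφ1 (exitL ε z, m)
      simp only [HT, H2]
      generalize D₁ (sinM Φ ε z, (inMap Φ ε z.1 z.2).1) = x at k1 ⊢
      generalize D₂ (sinM Φ ε z, (inMap Φ ε z.1 z.2).2) = y at k2 ⊢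
      generalize G₁ (sinM Φ ε z, (inMap Φ ε z.1 z.2).1) = g1 at k1 ⊢
      generalize G₂ (sinM Φ ε z, (inMap Φ ε z.1 z.2).2) = g2 at k2 ⊢
      generalize E (sinM Φ ε z, (inMap Φ ε z.1 z.2).1) = e1 at k1 ⊢
      generalize E (sinM Φ ε z, (inMap Φ ε z.1 z.2).2) = e2 at k2 ⊢
      generalize φ (exitL ε z, m) = f at k3 ⊢
      generalize Wf ν κ T (z.2.1, z.1) = W
      calc W * f * (x * y) ≤ W * f * ((g1 + e1) * y) := by gcongr
        _ = W * f * (g1 * y) + f * (W * (e1 * y)) := by ring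
        _ ≤ W * f * (g1 * (g2 + e2)) + 1 * (W * (e1 * y)) := by gcongr
        _ = W * f * (g1 * g2) + (W * (e1 * y) + f * (W * (g1 * e2))) := by ring
        _ ≤ W * f * (g1 * g2) + (W * (e1 * y) + 1 * (W * (g1 * e2))) := by gcongr
        _ = _ := by rw [one_mul]
    refine e1.trans ?_
    rw [NI_add hΦ (measurable_HT hφ mG₁ mG₂ mW ms), NI_add hΦ (measurable_H2 hE mD₂ mW ms)]
    have f1 := NI_top_le (T := T) hΦ hε hν hκ (c₁ := c₀ * ρ ^ ab.1) (c₂ := c₀ * ρ ^ ab.2)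
      (D₁ := G₁) (D₂ := G₂) hφ m (b := b) (fun t _ ℓ => le_rfl) (fun t _ ℓ => le_rfl)
    have f2 := NI_L_le (T := T) hΦ hε hν hκ (c := c) (b := b₂) mD₂ hE (fun t _ ℓ => hD₂c (t, ℓ))
    have f3 := NI_R_le (T := T) hΦ hε hν hκ (c := c₀ * ρ ^ ab.1) (b := b) mG₁ hE
      (fun t _ ℓ => le_rfl)
    refine (add_le_add f1 (add_le_add f2 f3)).trans (le_of_eq ?_)
    have e2 : ρ ^ m = ρ ^ ab.1 * ρ ^ ab.2 := by rw [← pow_add, hab]
    rw [e2]
    ring
  unfold TS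
  refine (Finset.sum_le_sum fun m hm => Finset.sum_le_sum fun ab hab => step m hm ab hab).trans
    (le_of_eq ?_)
  simp only [Finset.sum_add_distrib, ← Finset.sum_mul, Finset.sum_const,
    Finset.Nat.card_antidiagonal, nsmul_eq_mul]
  unfold MT
  rw [Finset.mul_sum]
  congr 1
  refine Finset.sum_congr rfl fun m _ => ?_
  push_cast
  ring

end Crest.Agent.R122.QExit814

end
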