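import Crest.Agent.R122.QExitC_814

/-!
Row 122 (helper814), item G1exit, part D: the **core estimate** (deterministic).

`core` : if the densities of the trees of size class `m` are bounded by `c₀ ρ^m exp(-b|v|²) + E`,
then the sum over all exits of all trees with at most `K` leaves is bounded by the Gaussian line
measure plus a constant times the weighted integral of the excess `E`.
-/

set_option autoImplicit false
set_option synthInstance.maxSize 1024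

open MeasureTheory Set Filter Topology
open Crest.AnalysisR.Kinetic
open scoped ENNReal

noncomputable section

namespace Crest.Agent.R122.QExit814

open Kin796 Kin796.CTree Disc416 Kin416 Scat818 Flow671 Flux663 Tree674 Mark307

variable {Φ : Space3 → ℝ} {T : ℝ} {k : PhasePoint → ℝ≥0∞}

/-- **Core estimate.** -/
theorem core (hΦ : AdmissiblePotential Φ) (hk : Measurable k) {ν κ b b₂ η : ℝ}
    (hν : 0 < ν) (hκ : 0 ≤ κ) (hb : κ * T < b) (hb₂ : κ * T < b₂)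
    (hη : ∀ r : ℝ, 0 ≤ r → (1 + r) / (ν + κ * r ^ 2) ≤ η) {c₀ ρ : ℝ≥0∞} (hc₀ : c₀ ≠ ∞)
    (hρ : ρ < 1)
    (hq : 4 * (((c₀ * ∑' m : ℕ, ρ ^ m) * (mV b κ T * vD)) * ENNReal.ofReal η) ≤ 1)
    (Km : ℕ) {c : ℝ≥0∞} (hc : c ≠ ∞) (K : ℕ) (hK : K ≤ Km) :
    ∃ B : ℝ≥0∞, B ≠ ∞ ∧ ∀ (ε : ℝ) (_ : 0 < ε) (U : ∀ P : CTree, PhasePoint × Par P → ℝ≥0∞)
      (_ : ∀ P, Measurable (U P)) (_ : ∀ P z, U P z ≤ 1) (φ : ML → ℝ≥0∞) (_ : Measurable φ)
      (_ : ∀ x, φ x ≤ 1) (E : ℝ × PhasePoint → ℝ≥0∞) (_ : Measurable E)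
      (_ : Crude Φ ε T k Km c b₂) (_ : Ctrl Φ ε T k U Km c₀ ρ b E),
      XS Φ ε T k U φ K (Wf ν κ T) ≤
        2 * ((c₀ ^ 2 * (ENNReal.ofReal (Real.exp (ν * T)) * (mV b κ T * vD))) * MT ρ T b φ K) +
          B * EI κ T E := by
  have hmb : mV b κ T ≠ ∞ := mV_ne_top hb
  have hmb₂ : mV b₂ κ T ≠ ∞ := mV_ne_top hb₂
  have hρtop : ρ ≠ ∞ := (hρ.trans_le le_top).ne
  induction K with
  | zero =>
    refine ⟨0, ENNReal.zero_ne_top, ?_⟩
    intro ε hε U hU hU1 φ hφ hφ1 E hE h1 h2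
    rw [XS_zero]
    exact bot_le
  | succ K ih =>
    obtain ⟨B, hB, ih⟩ := ih (by omega)
    set q₁ : ℝ≥0∞ := ((c₀ * ∑' m : ℕ, ρ ^ m) * (mV b κ T * vD)) * ENNReal.ofReal η with hq₁
    have hq₁top : q₁ ≠ ∞ := by
      intro h
      rw [h] at hq
      simp at hq
    set C₁ : ℝ≥0∞ := ∑ m ∈ Finset.Icc 1 (K + 1), ∑ ab ∈ Finset.HasAntidiagonal.antidiagonal m,
        ((c * ENNReal.ofReal (Real.exp (ν * T))) * (mV b₂ κ T * vD) +
          (c₀ * ρ ^ ab.1 * ENNReal.ofReal (Real.exp (ν * T))) * (mV b κ T * vD)) with hC₁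
    set C₂ : ℝ≥0∞ := ((K : ℝ≥0∞) * c * ENNReal.ofReal (Real.exp (ν * T))) * (mV b₂ κ T * vD)
      with hC₂
    have hC₁top : C₁ ≠ ∞ := by
      refine ENNReal.sum_ne_top.2 fun m _ => ENNReal.sum_ne_top.2 fun ab _ => ?_
      exact ENNReal.add_ne_top.2 ⟨ENNReal.mul_ne_top (ENNReal.mul_ne_top hc ENNReal.ofReal_ne_top)
        (ENNReal.mul_ne_top hmb₂ vD_ne_top),
        ENNReal.mul_ne_top (ENNReal.mul_ne_top (ENNReal.mul_ne_top hc₀
          (ENNReal.pow_ne_top hρtop)) ENNReal.ofReal_ne_top) (ENNReal.mul_ne_top hmb vD_ne_top)⟩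
    have hC₂top : C₂ ≠ ∞ :=
      ENNReal.mul_ne_top (ENNReal.mul_ne_top (ENNReal.mul_ne_top (ENNReal.natCast_ne_top K) hc)
        ENNReal.ofReal_ne_top) (ENNReal.mul_ne_top hmb₂ vD_ne_top)
    refine ⟨C₁ + 2 * (q₁ * B + ((K : ℝ≥0∞) + 1) * C₂), ?_, ?_⟩
    · exact ENNReal.add_ne_top.2 ⟨hC₁top, ENNReal.mul_ne_top ENNReal.ofNat_ne_top
        (ENNReal.add_ne_top.2 ⟨ENNReal.mul_ne_top hq₁top hB, ENNReal.mul_ne_top
          (ENNReal.add_ne_top.2 ⟨ENNReal.natCast_ne_top K, ENNReal.one_ne_top⟩) hC₂top⟩)⟩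
    intro ε hε U hU hU1 φ hφ hφ1 E hE hcr hct
    have IH := ih ε hε U hU hU1 φ hφ hφ1 E hE hcr hct
    have mW := measurable_Wf ν κ T
    have hcrK : Crude Φ ε T k K c b₂ := by
      intro ℓ
      refine le_trans ?_ (hcr ℓ)
      refine ENNReal.tsum_le_tsum fun P => ?_
      by_cases h : P.leaves ≤ K
      · rw [if_pos h, if_pos (by omega)]
      · rw [if_neg h]
        exact bot_le
    -- the two forward operators
    set G : ℝ × PhasePoint → ℝ≥0∞ := fun q => (c₀ * ∑' m : ℕ, ρ ^ m) * wG b q.2.2 with hG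
    have mG : Measurable G := ((measurable_wG' b).comp measurable_snd.snd).const_mul _
    have hDP : ∀ t ∈ Ioo 0 T, ∀ ℓ, DP Φ ε T k U (fun Q => Q.leaves ≤ K) (t, ℓ) ≤
        G (t, ℓ) + ((K : ℝ≥0∞) + 1) * E (t, ℓ) := fun t ht ℓ => hct.total (by omega) ht ℓ
    have hAL : XS Φ ε T k U φ K (AL Φ ε T (DP Φ ε T k U fun Q => Q.leaves ≤ K) (Wf ν κ T)) ≤
        q₁ * XS Φ ε T k U φ K (Wf ν κ T) + ((K : ℝ≥0∞) + 1) * (C₂ * EI κ T E) := by
      have mA := measurable_AL (T := T) hΦ hε hE mW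
      refine (XS_mono K (ψ' := fun q => q₁ * Wf ν κ T q +
        ((K : ℝ≥0∞) + 1) * AL Φ ε T E (Wf ν κ T) q) fun q => ?_).trans ?_
      · refine (AL_mono hΦ hε (D' := fun q => G q + ((K : ℝ≥0∞) + 1) * E q) hDP q).trans ?_
        rw [AL_add_mul hΦ hε mG hE mW]
        refine add_le_add ?_ le_rfl
        refine (AL_le hΦ hε hν hκ hη (c := c₀ * ∑' m : ℕ, ρ ^ m) (b := b)
          (fun t _ ℓ => le_rfl) q).trans (le_of_eq ?_)
        rw [hq₁]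
        ring
      · rw [XS_add hΦ hk hU hφ K (mW.const_mul q₁), XS_const_mul hΦ hk hU hφ K mW,
          XS_const_mul hΦ hk hU hφ K mA]
        refine add_le_add le_rfl (mul_le_mul' le_rfl ?_)
        exact XS_AL_le hΦ hε hk hU hU1 hφ hφ1 hcrK hν.le hκ hE
    have hAR : XS Φ ε T k U φ K (AR Φ ε T (DP Φ ε T k U fun Q => Q.leaves ≤ K) (Wf ν κ T)) ≤
        q₁ * XS Φ ε T k U φ K (Wf ν κ T) + ((K : ℝ≥0∞) + 1) * (C₂ * EI κ T E) := by
      have mA := measurable_AR (T := T) hΦ hε hE mW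
      refine (XS_mono K (ψ' := fun q => q₁ * Wf ν κ T q +
        ((K : ℝ≥0∞) + 1) * AR Φ ε T E (Wf ν κ T) q) fun q => ?_).trans ?_
      · refine (AR_mono hΦ hε (D' := fun q => G q + ((K : ℝ≥0∞) + 1) * E q) hDP q).trans ?_
        rw [AR_add_mul hΦ hε mG hE mW]
        refine add_le_add ?_ le_rfl
        refine (AR_le hΦ hε hν hκ hη (c := c₀ * ∑' m : ℕ, ρ ^ m) (b := b)
          (fun t _ ℓ => le_rfl) q).trans (le_of_eq ?_)
        rw [hq₁]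
        ring
      · rw [XS_add hΦ hk hU hφ K (mW.const_mul q₁), XS_const_mul hΦ hk hU hφ K mW,
          XS_const_mul hΦ hk hU hφ K mA]
        refine add_le_add le_rfl (mul_le_mul' le_rfl ?_)
        exact XS_AR_le hΦ hε hk hU hU1 hφ hφ1 hcrK hν.le hκ hE
    have hT := TS_le hΦ hε hk hU hU1 hφ hφ1 hcr hν.le hκ hE hct (K := K + 1) hK
    refine (XS_succ_le hΦ hε hk hU hφ K mW).trans ?_
    refine (add_le_add hT (add_le_add hAL hAR)).trans ?_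
    set X := XS Φ ε T k U φ K (Wf ν κ T) with hX
    set C₀ := c₀ ^ 2 * (ENNReal.ofReal (Real.exp (ν * T)) * (mV b κ T * vD)) with hC₀
    set M := MT ρ T b φ (K + 1) with hM
    have hMK : MT ρ T b φ K ≤ M := MT_mono ρ T b φ K
    have hX2 : q₁ * X ≤ q₁ * (2 * (C₀ * M) + B * EI κ T E) :=
      mul_le_mul' le_rfl (IH.trans (add_le_add (mul_le_mul' le_rfl (mul_le_mul' le_rfl hMK)) le_rfl))
    calc C₀ * M + C₁ * EI κ T E + (q₁ * X + ((K : ℝ≥0∞) + 1) * (C₂ * EI κ T E) +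
          (q₁ * X + ((K : ℝ≥0∞) + 1) * (C₂ * EI κ T E))) ≤
        C₀ * M + C₁ * EI κ T E + (q₁ * (2 * (C₀ * M) + B * EI κ T E) +
          ((K : ℝ≥0∞) + 1) * (C₂ * EI κ T E) + (q₁ * (2 * (C₀ * M) + B * EI κ T E) +
            ((K : ℝ≥0∞) + 1) * (C₂ * EI κ T E))) := by gcongr
      _ = C₀ * M + (4 * q₁) * (C₀ * M) +
          (C₁ + 2 * (q₁ * B + ((K : ℝ≥0∞) + 1) * C₂)) * EI κ T E := by ring
      _ ≤ C₀ * M + 1 * (C₀ * M) +
          (C₁ + 2 * (q₁ * B + ((K : ℝ≥0∞) + 1) * C₂)) * EI κ T E := by gcongr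
      _ = _ := by ring

end Crest.Agent.R122.QExit814

end
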