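import Crest.Agent.R122.QExitD_814
import Crest.Agent.R122.Q1Data_815

/-!
Row 122 (helper814), item G1exit: densities of the **exit lines** of collision trees, part E: the
densities `dn` are the quenched densities `Dw` of helper815; crude bounds; control by size class.
-/

set_option autoImplicit false
set_option synthInstance.maxSize 1024

open MeasureTheory Set Filter Topology
open Crest.AnalysisR.Kinetic
open scoped ENNReal Classical

noncomputable section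

namespace Crest.Agent.R122.QExit814

open Kin796 Kin796.CTree Disc416 Kin416 Scat818 Flow671 Flux663 Tree674 Mark307 TreeF399 TreeEps399
  Quench815 QDens815 GC311 Hid424

variable {Φ : Space3 → ℝ} {f₀ : PhasePoint → ℝ} {f : ℝ → PhasePoint → ℝ} {β T : ℝ}

/-- one-particle weight -/
def kE (f₀ : PhasePoint → ℝ) (lam kap : ℝ) (ℓ : PhasePoint) : ℝ≥0∞ :=
  ENNReal.ofReal lam * (eG kap ℓ.2 * ENNReal.ofReal (f₀ ℓ))

theorem measurable_kE (hf : Measurable f₀) (lam kap : ℝ) : Measurable (kE f₀ lam kap) :=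
  (((measurable_eG kap).comp measurable_snd).mul hf.ennreal_ofReal).const_mul _

/-- weight of the trees -/
def phE (Φ : Space3 → ℝ) (lam kap : ℝ) (P : CTree) : ℝ × PhasePoint × Par P → ℝ≥0∞ := fun q =>
  {z : Space3 × Par P | Adm Φ P z.1 z.2}.indicator
    (fun z => ENNReal.ofReal lam ^ P.leaves *
      ENNReal.ofReal (Real.exp (kap * (‖z.1‖ ^ 2 + nodeEn P z.2)))) (q.2.1.2, q.2.2)

theorem phE_of_adm {lam kap : ℝ} {P : CTree} {s : ℝ} {ℓ : PhasePoint} {p : Par P}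
    (h : Adm Φ P ℓ.2 p) : phE Φ lam kap P (s, ℓ, p) = ENNReal.ofReal lam ^ P.leaves *
      ENNReal.ofReal (Real.exp (kap * (‖ℓ.2‖ ^ 2 + nodeEn P p))) :=
  indicator_of_mem (show (ℓ.2, p) ∈ {z : Space3 × Par P | Adm Φ P z.1 z.2} from h) _

theorem measurable_phE (hΦ : AdmissiblePotential Φ) (lam kap : ℝ) (P : CTree) :
    Measurable (phE Φ lam kap P) := by
  have h1 : Measurable fun z : Space3 × Par P =>
      {z : Space3 × Par P | Adm Φ P z.1 z.2}.indicator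
        (fun z => ENNReal.ofReal lam ^ P.leaves *
          ENNReal.ofReal (Real.exp (kap * (‖z.1‖ ^ 2 + nodeEn P z.2)))) z := by
    refine Measurable.indicator ?_ (Q1815.measurableSet_adm hΦ P)
    refine Measurable.const_mul ?_ _
    exact ENNReal.measurable_ofReal.comp (Real.measurable_exp.comp
      (((measurable_fst.norm.pow_const 2).add
        ((Q1815.measurable_nodeEn P).comp measurable_snd)).const_mul _))
  exact h1.comp (f := fun q : ℝ × PhasePoint × Par P => (q.2.1.2, q.2.2))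
    (measurable_snd.fst.snd.prodMk measurable_snd.snd)

theorem phE_le (hΦ : AdmissiblePotential Φ) {lam kap : ℝ} {P : CTree} {s : ℝ} {ℓ : PhasePoint}
    {p : Par P} (h : Adm Φ P ℓ.2 p) : phE Φ lam kap P (s, ℓ, p) ≤
      ENNReal.ofReal lam * ENNReal.ofReal lam ^ P.size *
        ENNReal.ofReal (Real.exp (kap * Seg814.eng Φ P ℓ.2 p)) := by
  rw [phE_of_adm h, Q1815.eng_eq hΦ h, CTree.leaves_eq, pow_succ']

/-- the product weight -/
theorem kw_kE (hΦ : AdmissiblePotential Φ) {lam kap ε : ℝ} {P : CTree} {s : ℝ} {ℓ : PhasePoint}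
    {p : Par P} (h : Adm Φ P ℓ.2 p) :
    kw Φ ε (kE f₀ lam kap) P (ℓ, p) = phE Φ lam kap P (s, ℓ, p) * fp Φ f₀ ε P ℓ p := by
  rw [phE_of_adm h]
  unfold kw kE fp
  rw [linesM_of_adm ε h, Finset.prod_mul_distrib, Finset.prod_mul_distrib, Finset.prod_const,
    Finset.card_univ, card_idx, ← mul_assoc]
  congr 2
  unfold eG
  rw [← ENNReal.ofReal_prod_of_nonneg (fun i _ => (Real.exp_pos _).le), ← Real.exp_sum,
    ← Finset.mul_sum]
  have e : ∀ i : Idx P, ‖(lines Φ ε P ℓ p i).2‖ ^ 2 = ‖vels Φ P ℓ.2 p i‖ ^ 2 := fun i => by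
    rw [lines_vel]
  rw [Finset.sum_congr rfl fun i _ => e i, sum_vels hΦ P ℓ.2 p h]

/-- **the densities of the exit recursion are the quenched densities** -/
theorem dn_eq_Dw (hΦ : AdmissiblePotential Φ) {ε t T' lam kap tw : ℝ} (ht : t ≤ T') (Q : CTree)
    (ℓ : PhasePoint) {n : ℕ} (w : Config n) :
    dn Φ ε T' (kE f₀ lam kap) Q
      (fun y => GIV566.unhitInd Φ ε (Q1815.hidM Φ ε Q y.1 y.2) tw w) (t, ℓ) =
      Q1815.Dw Φ f₀ Q (phE Φ lam kap Q) ε tw t ℓ w := by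
  unfold dn
  rw [Q1815.Dw_eq_M]
  refine lintegral_congr fun p => ?_
  by_cases hV : Valid Φ ε Q t ℓ.2 p
  · have h2 := (valid_iff_top ht (P := Q)).1 hV
    have t1 : topI Q (t, p) = 1 := by
      unfold topI
      rw [indicator_of_mem (show (t, p) ∈ {q : ℝ × Par Q | TopLt Q q.1 q.2} from h2.2)]
      rfl
    rw [gw_of_valid hV, t1, one_mul, vw_of_valid (z := (ℓ, p)) h2.1,
      kw_kE (f₀ := f₀) (s := t) hΦ hV.1]
    ring
  · rw [gw_of_not_valid hV, zero_mul]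
    by_cases h4 : Valid Φ ε Q T' ℓ.2 p
    · have h5 : ¬ TopLt Q t p := fun h => hV ((valid_iff_top ht (P := Q)).2 ⟨h4, h⟩)
      unfold topI
      rw [indicator_of_notMem (show (t, p) ∉ {q : ℝ × Par Q | TopLt Q q.1 q.2} from h5), zero_mul]
    · rw [vw_of_not_valid (z := (ℓ, p)) h4, zero_mul, mul_zero]

/-! ### Crude bound -/

theorem crude_tree (hΦ : AdmissiblePotential Φ) {γ : ℝ} {env : Space3 → ℝ≥0∞} {A : ℝ≥0∞}
    (hE : Env γ f₀ env A) {lam kap : ℝ} (hkap : kap < γ) (T : ℝ) (P : CTree) {ε : ℝ}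
    (hε : 0 ≤ ε) {T' : ℝ} (hT : T' ≤ T) (ℓ : PhasePoint) :
    ∫⁻ p : Par P, vw Φ ε P T' (ℓ, p) * kw Φ ε (kE f₀ lam kap) P (ℓ, p) ≤
      (ENNReal.ofReal lam ^ P.leaves * (A * A ^ P.size) *
        ENNReal.ofReal (Real.exp ((P.size : ℝ) ^ 2 / (2 * ((γ - kap) / 4)))) *
        ∫⁻ p : Par P, bx T ((γ - kap) / 2) P p) * wG ((γ - kap) / 2) ℓ.2 := by
  set C : ℝ≥0∞ := ENNReal.ofReal lam ^ P.leaves * (A * A ^ P.size) *
        ENNReal.ofReal (Real.exp ((P.size : ℝ) ^ 2 / (2 * ((γ - kap) / 4)))) with hC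
  have hc : 0 < γ - kap := sub_pos.2 hkap
  have hpt : ∀ p : Par P, vw Φ ε P T' (ℓ, p) * kw Φ ε (kE f₀ lam kap) P (ℓ, p) ≤
      (C * wG ((γ - kap) / 2) ℓ.2) * bx T ((γ - kap) / 2) P p := by
    intro p
    by_cases hV : Valid Φ ε P T' ℓ.2 p
    swap
    · rw [vw_of_not_valid (z := (ℓ, p)) hV, zero_mul]
      exact bot_le
    have hV0 : Valid Φ 0 P T' ℓ.2 p := valid_mono hε le_rfl hV
    rw [vw_of_valid (z := (ℓ, p)) hV, kw_kE (f₀ := f₀) (s := 0) hΦ hV.1, phE_of_adm hV.1]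
    set E := ‖ℓ.2‖ ^ 2 + nodeEn P p with hEdef
    have hE0 : 0 ≤ E := add_nonneg (sq_nonneg _) (nodeEn_nonneg P p)
    have hwt := wt_le hΦ P ℓ.2 p hV.1
    have hfp : fp Φ f₀ ε P ℓ p ≤ (A * A ^ P.size) * ENNReal.ofReal (Real.exp (-γ * E)) := by
      refine (fp_le hΦ hE ε P ℓ p hV.1 _ (by simp : dist (lines Φ ε P ℓ p (root P)).1
        (lines Φ ε P ℓ p (root P)).1 ≤ 1)).trans ?_
      gcongr
      exact hE.le_A _
    have hbx : ENNReal.ofReal (Real.exp (-((γ - kap) / 2) * E)) ≤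
        wG ((γ - kap) / 2) ℓ.2 * bx T ((γ - kap) / 2) P p := by
      have h2 := gau_nodeEn_le_bx ((γ - kap) / 2) P hT ℓ.2 p hV0
      rw [wG_eq_gau]
      calc ENNReal.ofReal (Real.exp (-((γ - kap) / 2) * E))
          = gau ((γ - kap) / 2) ℓ.2 *
            ENNReal.ofReal (Real.exp (-((γ - kap) / 2) * nodeEn P p)) := by
            unfold gau
            rw [← ENNReal.ofReal_mul (Real.exp_pos _).le, ← Real.exp_add]
            congr 2
            rw [hEdef]; ring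
        _ ≤ _ := by gcongr
    have e1 : ENNReal.ofReal (2 * Real.sqrt E) ^ P.size *
        (ENNReal.ofReal (Real.exp (kap * E)) * ENNReal.ofReal (Real.exp (-γ * E))) =
        ENNReal.ofReal ((2 * Real.sqrt E) ^ P.size * Real.exp (-(γ - kap) * E)) := by
      rw [← ENNReal.ofReal_mul (Real.exp_pos _).le, ← Real.exp_add,
        ENNReal.ofReal_mul (p := (2 * Real.sqrt E) ^ P.size) (by positivity),
        ENNReal.ofReal_pow (p := 2 * Real.sqrt E) (by positivity)]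
      congr 3
      ring
    calc wt Φ P ℓ.2 p * (ENNReal.ofReal lam ^ P.leaves * ENNReal.ofReal (Real.exp (kap * E)) *
          fp Φ f₀ ε P ℓ p)
        ≤ ENNReal.ofReal (2 * Real.sqrt E) ^ P.size * (ENNReal.ofReal lam ^ P.leaves *
          ENNReal.ofReal (Real.exp (kap * E)) *
            ((A * A ^ P.size) * ENNReal.ofReal (Real.exp (-γ * E)))) := by gcongr
      _ = (ENNReal.ofReal lam ^ P.leaves * (A * A ^ P.size)) *
          ENNReal.ofReal ((2 * Real.sqrt E) ^ P.size * Real.exp (-(γ - kap) * E)) := by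
          rw [← e1]; ring
      _ ≤ (ENNReal.ofReal lam ^ P.leaves * (A * A ^ P.size)) *
          ENNReal.ofReal (Real.exp ((P.size : ℝ) ^ 2 / (2 * ((γ - kap) / 4))) *
            Real.exp (-((γ - kap) / 2) * E)) :=
          mul_le_mul_right (ENNReal.ofReal_le_ofReal (pow_mul_exp_le hc P.size hE0)) _
      _ = C * ENNReal.ofReal (Real.exp (-((γ - kap) / 2) * E)) := by
          rw [ENNReal.ofReal_mul (Real.exp_pos _).le, hC]
          ring
      _ ≤ C * (wG ((γ - kap) / 2) ℓ.2 * bx T ((γ - kap) / 2) P p) := by gcongr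
      _ = _ := by ring
  refine (lintegral_mono hpt).trans (le_of_eq ?_)
  rw [lintegral_const_mul _ (measurable_bx T ((γ - kap) / 2) P)]
  ring

/-- **crude bound**, uniform in `ε` and in the horizon -/
theorem exists_crude (hΦ : AdmissiblePotential Φ)
    (hg : HasSummableGaussianBound (2 * β) (fun x v => f₀ (x, v))) (lam : ℝ) {kap : ℝ}
    (hkap : kap < 2 * β) (T : ℝ) (K : ℕ) :
    ∃ c : ℝ≥0∞, c ≠ ∞ ∧ ∀ ε : ℝ, 0 ≤ ε → ∀ T' : ℝ, T' ≤ T →
      Crude Φ ε T' (kE f₀ lam kap) K c ((2 * β - kap) / 2) := by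
  obtain ⟨env, A, hE⟩ := exists_env hg
  set C : CTree → ℝ≥0∞ := fun P => (ENNReal.ofReal lam ^ P.leaves * (A * A ^ P.size) *
        ENNReal.ofReal (Real.exp ((P.size : ℝ) ^ 2 / (2 * ((2 * β - kap) / 4)))) *
        ∫⁻ p : Par P, bx T ((2 * β - kap) / 2) P p) with hC
  refine ⟨∑ P ∈ GIVStep383.trees K, C P, ?_, fun ε hε T' hT' ℓ => ?_⟩
  · refine (ENNReal.sum_lt_top.2 fun P _ => ?_).ne
    have h1 := lintegral_bx_lt_top T (δ := (2 * β - kap) / 2) (by linarith) P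
    refine ENNReal.mul_lt_top (ENNReal.mul_lt_top (ENNReal.mul_lt_top
      (ENNReal.pow_lt_top ENNReal.ofReal_lt_top)
      (ENNReal.mul_lt_top hE.A_ne.lt_top (ENNReal.pow_lt_top hE.A_ne.lt_top)))
      ENNReal.ofReal_lt_top) h1
  · have h1 : ∑' P : CTree, (if P.leaves ≤ K then
        ∫⁻ p : Par P, vw Φ ε P T' (ℓ, p) * kw Φ ε (kE f₀ lam kap) P (ℓ, p) else 0) =
        ∑ P ∈ GIVStep383.trees K, (if P.leaves ≤ K then
          ∫⁻ p : Par P, vw Φ ε P T' (ℓ, p) * kw Φ ε (kE f₀ lam kap) P (ℓ, p) else 0) :=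
      tsum_eq_sum fun P hP => if_neg fun h => hP (GIVStep383.mem_trees.2 h)
    rw [h1, Finset.sum_mul]
    refine Finset.sum_le_sum fun P hP => ?_
    rw [if_pos (GIVStep383.mem_trees.1 hP)]
    exact crude_tree hΦ hE hkap T P hε hT' ℓ

/-! ### Control by size class -/

/-- the excess: distance of the quenched densities to their limits -/
def EX (Φ : Space3 → ℝ) (f₀ : PhasePoint → ℝ) (f : ℝ → PhasePoint → ℝ) (T lam kap : ℝ) (K : ℕ)
    (ε tw : ℝ) {n : ℕ} (w : Config n) (q : ℝ × PhasePoint) : ℝ≥0∞ :=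
  ∑ Q ∈ GIVStep383.trees K, absd (Q1815.Dw Φ f₀ Q (phE Φ lam kap Q) ε tw q.1 q.2 w)
    (Q1815.D0 Φ f₀ f T Q (phE Φ lam kap Q) tw q.1 q.2)

theorem measurable_EX2 {T₀ tw : ℝ} (X : Q1815.Ctx Φ β T f₀ f T₀ tw) (lam kap : ℝ) (K : ℕ) {ε : ℝ}
    (hε : 0 < ε) (n : ℕ) : Measurable fun q : Config n × (ℝ × PhasePoint) =>
      EX Φ f₀ f T lam kap K ε tw q.1 q.2 := by
  unfold EX
  exact Finset.measurable_sum _ fun P _ =>
    measurable_absd (Q1815.measurable_Dw_n X.hΦ X.cont.measurable (measurable_phE X.hΦ lam kap P)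
      hε tw n)
      ((Q1815.measurable_D0 X.hΦ X.hβ X.hT X.sol X.htw.1
        (measurable_phE X.hΦ lam kap P)).comp measurable_snd)

/-- **control** of the densities of the exit recursion -/
theorem ctrl {T₀ tw : ℝ} (X : Q1815.Ctx Φ β T f₀ f T₀ tw) {h₀ kap lam C b : ℝ}
    (hK : Seg814.KinC Φ T f h₀ kap lam C b) {lam₁ : ℝ} (h1 : 0 < lam₁) (h2 : lam₁ ≤ lam)
    {T' : ℝ} (hT' : T' ≤ tw + h₀) (K : ℕ) (ε : ℝ) {n : ℕ} (w : Config n) :
    Ctrl Φ ε T' (kE f₀ lam₁ kap)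
      (fun Q y => GIV566.unhitInd Φ ε (Q1815.hidM Φ ε Q y.1 y.2) tw w) K
      (ENNReal.ofReal lam₁ * (ENNReal.ofReal (lam / lam₁) * ENNReal.ofReal C))
      (ENNReal.ofReal (lam₁ / lam)) b (EX Φ f₀ f T lam₁ kap K ε tw w) := by
  intro m hm t ht ℓ
  have hs : t ∈ Icc 0 (tw + h₀) := ⟨ht.1.le, ht.2.le.trans hT'⟩
  set D : CTree → ℝ≥0∞ := fun Q => Q1815.Dw Φ f₀ Q (phE Φ lam₁ kap Q) ε tw t ℓ w with hD
  set D₀ : CTree → ℝ≥0∞ := fun Q => Q1815.D0 Φ f₀ f T Q (phE Φ lam₁ kap Q) tw t ℓ with hD₀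
  have e1 : DP Φ ε T' (kE f₀ lam₁ kap)
      (fun Q y => GIV566.unhitInd Φ ε (Q1815.hidM Φ ε Q y.1 y.2) tw w)
      (fun Q => Q.leaves = m) (t, ℓ) ≤
      ∑' Q : CTree, ((if Q.leaves = m then D₀ Q else 0) +
        if Q ∈ GIVStep383.trees K then absd (D Q) (D₀ Q) else 0) := by
    unfold DP
    refine ENNReal.tsum_le_tsum fun Q => ?_
    by_cases h : Q.leaves = m
    · rw [if_pos h, if_pos h, if_pos (GIVStep383.mem_trees.2 (h.le.trans hm)),
        dn_eq_Dw X.hΦ ht.2.le Q ℓ w]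
      exact le_add_absd _ _
    · rw [if_neg h]
      exact bot_le
  refine e1.trans ?_
  rw [ENNReal.tsum_add]
  refine add_le_add ?_ ?_
  · rcases Nat.eq_zero_or_pos m with rfl | hm1
    · have h0 : ∀ Q : CTree, (if Q.leaves = 0 then D₀ Q else 0) = 0 := fun Q => by
        have := one_le_leaves Q
        rw [if_neg (by omega)]
      simp only [h0, tsum_zero]
      exact bot_le
    · refine (Q1815.D0_size_le X.hΦ X.hβ X.hT X.sol hK (φ := fun Q => phE Φ lam₁ kap Q)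
        (M := ENNReal.ofReal lam₁) ENNReal.ofReal_ne_top h1 h2 X.htw hs ℓ
        (fun P p ha => phE_le X.hΦ ha) m).trans ?_
      have h3 := Q1815.pow_pred_le h1 (h1.trans_le h2) (ρ := ENNReal.ofReal (lam₁ / lam)) le_rfl hm1
      calc ENNReal.ofReal lam₁ * ENNReal.ofReal (lam₁ / lam) ^ (m - 1) *
            (ENNReal.ofReal C * wG b ℓ.2)
          ≤ ENNReal.ofReal lam₁ * (ENNReal.ofReal (lam / lam₁) * ENNReal.ofReal (lam₁ / lam) ^ m) *
            (ENNReal.ofReal C * wG b ℓ.2) := by gcongr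
        _ = _ := by ring
  · rw [tsum_eq_sum (s := GIVStep383.trees K) fun Q hQ => if_neg hQ]
    refine le_of_eq (Finset.sum_congr rfl fun Q hQ => ?_)
    rw [if_pos hQ]

end Crest.Agent.R122.QExit814

end
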