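import Crest.Agent.R122.RealT_811
import Crest.Agent.R122.NoDbl_255
import Crest.Agent.R122.E6Facts_879

/-!
# Trees added to a marked world (row 122, (1.4)), helper811

* `treeW Φ ε P z`: the initial particles of the tree as a marked world; `lineOf_add`,
  `lineOf_add_add`.
* `touched_tree`, `touched_tree_add`: `Z.Touched (treeW) s → Z.Touched (lines F) s`,
  `(Z + treeW).Touched B s → (Z + lines F).Touched B s`, `F = lineML Φ ε P z`, and equivalences if no
  clean particle has two lines in its past (`ND`).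
* `nd_of_famNL`: `ND` from helper255's `FamNL`.
-/

set_option autoImplicit false
set_option linter.unusedSectionVars false

open MeasureTheory Set Filter Topology
open scoped ENNReal
open Crest.AnalysisR.Kinetic
open Crest.Agent.R122.Flow671 Crest.Agent.R122.Loc45 Crest.Agent.R122.Ins45
open Crest.Agent.R122.Causal291 Crest.Agent.R122.Inf879 Crest.Agent.R122.EDefs602
open Crest.Agent.R122.Lines255
open Crest.Agent.R122.Kin796 Crest.Agent.R122.Kin796.CTree Crest.Agent.R122.Tree674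
open Crest.Agent.R122.PathFlow968 Crest.Agent.R122.TreeLines335
open Crest.Agent.R122.MWFam255 (FamNL)

namespace Crest.Agent.R122.RealL811

noncomputable section

open scoped Classical

/-! ### No double lines -/

section nd

variable {α : Type} [Fintype α] {Φ : Space3 → ℝ} {ε : ℝ} {K : ℕ}

/-- At time `s` no visible particle which is clean in the real world `W` has two lines of the family
`D` in its past in the world `W'` with lines. -/
def ND (Φ : Space3 → ℝ) (ε : ℝ) (K : ℕ) (W W' : MW α) (D : Set α) (s : ℝ) : Prop :=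
  ∀ x, (x ∈ D → W'.b x ≤ s) → ¬ W.Inf Φ ε K s x → (BC (W'.C Φ ε) s x ∩ D).Subsingleton

theorem nd_empty (W W' : MW α) (s : ℝ) : ND Φ ε K W W' ∅ s := fun x _ _ => by
  rw [inter_empty]
  exact subsingleton_empty

end nd

section fam

variable {ι κ : Type} [Fintype ι] [Fintype κ] {Φ : Space3 → ℝ} {ε s v T : ℝ} {K : ℕ} {Z : MW ι}
  {ls : κ → ML} {W : MW (ι ⊕ κ)} {D : Set (ι ⊕ κ)}

/-- A real past from a past in the world with lines. -/
theorem RL.past_real {α : Type} [Fintype α] {W W' : MW α} {D : Set α}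
    (h : RL Φ ε K W W' D v) (hΦ : AdmissiblePotential Φ) (hε : 0 < ε) {t r : ℝ} {i k : α}
    (ht : t ≤ v) (hi : i ∈ D → W'.b i ≤ t) (hp : Past (W'.C Φ ε) t i r k) (hk : k ∈ D → W'.b k ≤ r) :
    Past (W.C Φ ε) t i r k :=
  (past_trC ht).1 ((Lines255.past_iff h.closed_tr (h.repl hΦ hε).symm (h.lines hΦ hε) hi).2
    (Or.inl ⟨(past_trC ht).2 hp, hk⟩))

/-- An infected particle of the world with lines is visible. -/
theorem RL.born_of_inf {α : Type} [Fintype α] {W W' : MW α} {D : Set α}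
    (h : RL Φ ε K W W' D v) (hΦ : AdmissiblePotential Φ) (hε : 0 < ε) {r : ℝ} {y : α} (hr : r ≤ v)
    (hI : W'.Inf Φ ε K r y) (hy : y ∈ D) : W'.b y ≤ r := by
  by_contra hlt
  push Not at hlt
  have h4 := msize_unborn (h.lines hΦ hε) hy hlt (m' := W'.m)
  rw [msize_trC hr] at h4
  have h5 := h.clean y hy
  have h6 : K < msize (W'.C Φ ε) W'.m r y := hI
  omega

/-- **No double lines from pairwise absence of links** (helper255). -/
theorem nd_of_famNL (hΦ : AdmissiblePotential Φ) (hε : 0 < ε) (h : FamNL Φ ε K T Z ls s)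
    (hR : RL Φ ε K W (Z.add (MW.lines ls)) D v) (hsv : s ≤ v) (hD : D ⊆ range Sum.inr)
    (hm : ∀ x ∈ D, (Z.add (MW.lines ls)).b x ≤ v →
      msize (W.C Φ ε) W.m ((Z.add (MW.lines ls)).b x) x = (Z.add (MW.lines ls)).m x)
    {t : ℝ} (ht0 : 0 ≤ t) (ht : t ≤ s) : ND Φ ε K W (Z.add (MW.lines ls)) D t := by
  intro i hi hcl
  refine (MWFam255.past_unique hΦ hε h ht0 ht ?_).anti (inter_subset_inter_right _ hD)
  intro v' y hp hv0 r hr hrv hI
  have hrs : r < s := (hrv.trans_le hp.le).trans_le ht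
  have hreal : W.Inf Φ ε K r y := (hR.inf_iff hΦ hε hm (hrs.le.trans hsv) fun _ _ =>
    (MWFam255.past_unique_lt hΦ hε h hr hrs y).anti (inter_subset_inter_right _ hD)).2 hI
  have hvis : y ∈ D → (Z.add (MW.lines ls)).b y ≤ r :=
    hR.born_of_inf hΦ hε (hrs.le.trans hsv) hI
  have hpast : Past (W.C Φ ε) t i r y :=
    hR.past_real hΦ hε (ht.trans hsv) hi (hp.mono hrv.le) hvis
  exact hcl (Infd.of_past hpast hreal)

end fam

/-! ### The worlds -/

/-- The initial particles of a tree as a marked world. -/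
def treeW (Φ : Space3 → ℝ) (ε : ℝ) (P : CTree) (z : PhasePoint × Par P) : MW (Idx P) :=
  ⟨fun _ => 0, Tree674.lines Φ ε P z.1 z.2, fun _ => 1⟩

section worlds

variable {ι β : Type} (Φ : Space3 → ℝ) (ε : ℝ) (Z : MW ι) (B : MW β) (P : CTree)
  (z : PhasePoint × Par P)

theorem lineOf_add : LineOf Φ ε (Z.add (treeW Φ ε P z))
    (Z.add (MW.lines (lineML Φ ε P z))) P z Sum.inr where
  b _ := rfl
  z _ := rfl
  m _ := rfl
  off_b x hx := by
    rcases x with x | x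
    · rfl
    · exact absurd ⟨x, rfl⟩ hx
  off_z x hx := by
    rcases x with x | x
    · rfl
    · exact absurd ⟨x, rfl⟩ hx
  off_m x hx := by
    rcases x with x | x
    · rfl
    · exact absurd ⟨x, rfl⟩ hx

theorem lineOf_add_add : LineOf Φ ε ((Z.add (treeW Φ ε P z)).add B)
    ((Z.add (MW.lines (lineML Φ ε P z))).add B) P z (fun k => Sum.inl (Sum.inr k)) where
  b _ := rfl
  z _ := rfl
  m _ := rfl
  off_b x hx := by
    rcases x with (x | x) | x
    · rfl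
    · exact absurd ⟨x, rfl⟩ hx
    · rfl
  off_z x hx := by
    rcases x with (x | x) | x
    · rfl
    · exact absurd ⟨x, rfl⟩ hx
    · rfl
  off_m x hx := by
    rcases x with (x | x) | x
    · rfl
    · exact absurd ⟨x, rfl⟩ hx
    · rfl

end worlds

section touch

variable {ι β : Type} [Fintype ι] [Fintype β] {Φ : Space3 → ℝ} {ε v T' s : ℝ} {K : ℕ}
  {Z : MW ι} {B : MW β} {P : CTree} {z : PhasePoint × Par P}

/-- The data for the world `Z + tree`. -/
theorem rl_add (hΦ : AdmissiblePotential Φ) (hε : 0 < ε) (hV : Valid Φ ε P T' z.1.2 z.2)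
    (hS : Sep Φ ε P T' z.1 z.2) (hv : v ≤ T') (hv0 : 0 ≤ v) (hK : P.leaves ≤ K)
    (h : TreeIn Φ ε (Z.add (treeW Φ ε P z)) P z Sum.inr v)
    (hok : (Z.add (treeW Φ ε P z)).Ok Φ ε)
    (hok' : (Z.add (MW.lines (lineML Φ ε P z))).Ok Φ ε) (hb : ∀ x, 0 ≤ Z.b x) :
    RL Φ ε K (Z.add (treeW Φ ε P z)) (Z.add (MW.lines (lineML Φ ε P z))) (range Sum.inr) v :=
  h.rl hΦ hε hV hS hv (lineOf_add Φ ε Z P z) hok hok' (by
    rintro (x | x)
    · exact hb x
    · exact le_rfl) hv0 hK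

/-- The data for the world `Z + tree + B`. -/
theorem rl_add_add (hΦ : AdmissiblePotential Φ) (hε : 0 < ε) (hV : Valid Φ ε P T' z.1.2 z.2)
    (hS : Sep Φ ε P T' z.1 z.2) (hv : v ≤ T') (hv0 : 0 ≤ v) (hK : P.leaves ≤ K)
    (h : TreeIn Φ ε ((Z.add (treeW Φ ε P z)).add B) P z (fun k => Sum.inl (Sum.inr k)) v)
    (hok : ((Z.add (treeW Φ ε P z)).add B).Ok Φ ε)
    (hok' : ((Z.add (MW.lines (lineML Φ ε P z))).add B).Ok Φ ε) (hb : ∀ x, 0 ≤ Z.b x)
    (hB : ∀ x, 0 ≤ B.b x) :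
    RL Φ ε K ((Z.add (treeW Φ ε P z)).add B) ((Z.add (MW.lines (lineML Φ ε P z))).add B)
      (range fun k : Idx P => (Sum.inl (Sum.inr k) : (ι ⊕ Idx P) ⊕ β)) v :=
  h.rl hΦ hε hV hS hv (lineOf_add_add Φ ε Z B P z) hok hok' (by
    rintro ((x | x) | x)
    · exact hb x
    · exact le_rfl
    · exact hB x) hv0 hK

theorem compat_add (hΦ : AdmissiblePotential Φ) (hε : 0 < ε) (Z : MW ι) (P : CTree)
    (z : PhasePoint × Par P) :
    Compat (Z.path Φ ε) (Z.path Φ ε) ((Z.add (treeW Φ ε P z)).path Φ ε)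
      ((Z.add (MW.lines (lineML Φ ε P z))).path Φ ε) (id : ι → ι) Sum.inl ∅
      (range (Sum.inr : Idx P → ι ⊕ Idx P)) Z.b (Z.add (MW.lines (lineML Φ ε P z))).b where
  mem_iff k := ⟨fun h => absurd h (notMem_empty _), fun ⟨x, hx⟩ => by cases hx⟩
  exit k h := absurd h (notMem_empty _)
  new₁ j h := absurd h (notMem_empty _)
  new₂ j _ _ k := by
    rintro ⟨x, hx⟩
    cases hx
  out₁ k _ := rfl
  out₂ k _ := by
    rw [MW.path_zero hΦ hε, MW.path_zero hΦ hε]
    rfl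
  fam k h := absurd h (notMem_empty _)
  fam' k h := absurd h (notMem_empty _)

theorem compat_add_add (hΦ : AdmissiblePotential Φ) (hε : 0 < ε) (Z : MW ι) (B : MW β)
    (P : CTree) (z : PhasePoint × Par P) :
    Compat ((Z.add (treeW Φ ε P z)).path Φ ε) ((Z.add (MW.lines (lineML Φ ε P z))).path Φ ε)
      (((Z.add (treeW Φ ε P z)).add B).path Φ ε)
      (((Z.add (MW.lines (lineML Φ ε P z))).add B).path Φ ε) (id : ι ⊕ Idx P → ι ⊕ Idx P) Sum.inl
      (range (Sum.inr : Idx P → ι ⊕ Idx P))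
      (range fun k : Idx P => (Sum.inl (Sum.inr k) : (ι ⊕ Idx P) ⊕ β))
      (Z.add (MW.lines (lineML Φ ε P z))).b ((Z.add (MW.lines (lineML Φ ε P z))).add B).b where
  mem_iff k := by
    constructor
    · rintro ⟨x, rfl⟩
      exact ⟨x, rfl⟩
    · rintro ⟨x, hx⟩
      exact ⟨x, Sum.inl_injective hx⟩
  exit k _ := rfl
  new₁ j _ hj := absurd ⟨j, rfl⟩ hj
  new₂ j hj hj' := by
    obtain ⟨x, rfl⟩ := hj
    exact absurd ⟨_, rfl⟩ hj'
  out₁ k hk := by
    rw [MW.path_zero hΦ hε, MW.path_zero hΦ hε]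
    rcases k with k | k
    · rfl
    · exact absurd ⟨k, rfl⟩ hk
  out₂ k hk := by
    rw [MW.path_zero hΦ hε, MW.path_zero hΦ hε]
    rcases k with k | k
    · rfl
    · exact absurd ⟨k, rfl⟩ hk
  fam k hk := by
    rw [MW.path_zero hΦ hε, MW.path_zero hΦ hε]
    rfl
  fam' k hk := by
    rw [MW.path_zero hΦ hε, MW.path_zero hΦ hε]
    rfl

/-- **A touch by the real tree is a touch by its lines.** -/
theorem touched_tree (hΦ : AdmissiblePotential Φ) (hε : 0 < ε) (hZ : Z.Ok Φ ε)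
    (hb : ∀ x, 0 ≤ Z.b x)
    (h : RL Φ ε K (Z.add (treeW Φ ε P z)) (Z.add (MW.lines (lineML Φ ε P z))) (range Sum.inr) v)
    (hs : s ≤ v) (ht : Z.Touched Φ ε K (treeW Φ ε P z) s) :
    Z.Touched Φ ε K (MW.lines (lineML Φ ε P z)) s :=
  touched_lines hΦ hε (RL.refl hZ hb) h (compat_add hΦ hε Z P z) hs ht

/-- **A touch of the real world by `B` is a touch of the world with lines.** -/
theorem touched_tree_add (hΦ : AdmissiblePotential Φ) (hε : 0 < ε)
    (h₁ : RL Φ ε K (Z.add (treeW Φ ε P z)) (Z.add (MW.lines (lineML Φ ε P z))) (range Sum.inr) v)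
    (h₂ : RL Φ ε K ((Z.add (treeW Φ ε P z)).add B) ((Z.add (MW.lines (lineML Φ ε P z))).add B)
      (range fun k : Idx P => (Sum.inl (Sum.inr k) : (ι ⊕ Idx P) ⊕ β)) v)
    (hs : s ≤ v) (ht : (Z.add (treeW Φ ε P z)).Touched Φ ε K B s) :
    (Z.add (MW.lines (lineML Φ ε P z))).Touched Φ ε K B s :=
  touched_lines hΦ hε h₁ h₂ (compat_add_add hΦ hε Z B P z) hs ht

/-- Touch times: `θ(Z, lines F) ≤ θ(Z, tree)` (horizon `T ≤ v`). -/
theorem theta_tree_le {T : ℝ} (hΦ : AdmissiblePotential Φ) (hε : 0 < ε) (hZ : Z.Ok Φ ε)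
    (hb : ∀ x, 0 ≤ Z.b x)
    (h : RL Φ ε K (Z.add (treeW Φ ε P z)) (Z.add (MW.lines (lineML Φ ε P z))) (range Sum.inr) v)
    (hT : T ≤ v) :
    Z.theta Φ ε K T (MW.lines (lineML Φ ε P z)) ≤ Z.theta Φ ε K T (treeW Φ ε P z) :=
  CausalGen291.theta_le_theta fun _ hs ht => touched_tree hΦ hε hZ hb h (hs.2.trans hT) ht

/-- Touch times: `θ(Z + lines F, B) ≤ θ(Z + tree, B)` (horizon `T ≤ v`). -/
theorem theta_tree_add_le {T : ℝ} (hΦ : AdmissiblePotential Φ) (hε : 0 < ε)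
    (h₁ : RL Φ ε K (Z.add (treeW Φ ε P z)) (Z.add (MW.lines (lineML Φ ε P z))) (range Sum.inr) v)
    (h₂ : RL Φ ε K ((Z.add (treeW Φ ε P z)).add B) ((Z.add (MW.lines (lineML Φ ε P z))).add B)
      (range fun k : Idx P => (Sum.inl (Sum.inr k) : (ι ⊕ Idx P) ⊕ β)) v) (hT : T ≤ v) :
    (Z.add (MW.lines (lineML Φ ε P z))).theta Φ ε K T B ≤
      (Z.add (treeW Φ ε P z)).theta Φ ε K T B :=
  CausalGen291.theta_le_theta fun _ hs ht => touched_tree_add hΦ hε h₁ h₂ (hs.2.trans hT) ht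

/-- **The converse** at a time at which there are no double lines. -/
theorem touched_tree_add_rev (hΦ : AdmissiblePotential Φ) (hε : 0 < ε)
    (h₁ : RL Φ ε K (Z.add (treeW Φ ε P z)) (Z.add (MW.lines (lineML Φ ε P z))) (range Sum.inr) v)
    (h₂ : RL Φ ε K ((Z.add (treeW Φ ε P z)).add B) ((Z.add (MW.lines (lineML Φ ε P z))).add B)
      (range fun k : Idx P => (Sum.inl (Sum.inr k) : (ι ⊕ Idx P) ⊕ β)) v)
    (hm₁ : ∀ x ∈ range (Sum.inr : Idx P → ι ⊕ Idx P),
      (Z.add (MW.lines (lineML Φ ε P z))).b x ≤ v →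
      msize ((Z.add (treeW Φ ε P z)).C Φ ε) (Z.add (treeW Φ ε P z)).m
        ((Z.add (MW.lines (lineML Φ ε P z))).b x) x = (Z.add (MW.lines (lineML Φ ε P z))).m x)
    (hm₂ : ∀ x ∈ range (fun k : Idx P => (Sum.inl (Sum.inr k) : (ι ⊕ Idx P) ⊕ β)),
      ((Z.add (MW.lines (lineML Φ ε P z))).add B).b x ≤ v →
      msize (((Z.add (treeW Φ ε P z)).add B).C Φ ε) ((Z.add (treeW Φ ε P z)).add B).m
        (((Z.add (MW.lines (lineML Φ ε P z))).add B).b x) x =
          ((Z.add (MW.lines (lineML Φ ε P z))).add B).m x)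
    (hs : s ≤ v)
    (hN₁ : ND Φ ε K (Z.add (treeW Φ ε P z)) (Z.add (MW.lines (lineML Φ ε P z)))
      (range Sum.inr) s)
    (hN₂ : ND Φ ε K ((Z.add (treeW Φ ε P z)).add B) ((Z.add (MW.lines (lineML Φ ε P z))).add B)
      (range fun k : Idx P => (Sum.inl (Sum.inr k) : (ι ⊕ Idx P) ⊕ β)) s)
    (ht : (Z.add (MW.lines (lineML Φ ε P z))).Touched Φ ε K B s) :
    (Z.add (treeW Φ ε P z)).Touched Φ ε K B s :=
  (touched_lines_iff hΦ hε h₁ h₂ (compat_add_add hΦ hε Z B P z) hs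
    (fun x => h₁.inf_iff hΦ hε hm₁ hs (hN₁ x)) (fun x => h₂.inf_iff hΦ hε hm₂ hs (hN₂ x))).2 ht

/-- Exact marks, world `Z + tree`. -/
theorem marks_add (hΦ : AdmissiblePotential Φ) (hε : 0 < ε) (hV : Valid Φ ε P T' z.1.2 z.2)
    (hS : Sep Φ ε P T' z.1 z.2) (hv : v ≤ T')
    (h : TreeIn Φ ε (Z.add (treeW Φ ε P z)) P z Sum.inr v) :
    ∀ x ∈ range (Sum.inr : Idx P → ι ⊕ Idx P),
      (Z.add (MW.lines (lineML Φ ε P z))).b x ≤ v →
      msize ((Z.add (treeW Φ ε P z)).C Φ ε) (Z.add (treeW Φ ε P z)).m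
        ((Z.add (MW.lines (lineML Φ ε P z))).b x) x = (Z.add (MW.lines (lineML Φ ε P z))).m x := by
  rintro _ ⟨k, rfl⟩ hb
  exact h.size_eq hΦ hε hV hS hv hb

/-- Exact marks, world `Z + tree + B`. -/
theorem marks_add_add (hΦ : AdmissiblePotential Φ) (hε : 0 < ε) (hV : Valid Φ ε P T' z.1.2 z.2)
    (hS : Sep Φ ε P T' z.1 z.2) (hv : v ≤ T')
    (h : TreeIn Φ ε ((Z.add (treeW Φ ε P z)).add B) P z (fun k => Sum.inl (Sum.inr k)) v) :
    ∀ x ∈ range (fun k : Idx P => (Sum.inl (Sum.inr k) : (ι ⊕ Idx P) ⊕ β)),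
      ((Z.add (MW.lines (lineML Φ ε P z))).add B).b x ≤ v →
      msize (((Z.add (treeW Φ ε P z)).add B).C Φ ε) ((Z.add (treeW Φ ε P z)).add B).m
        (((Z.add (MW.lines (lineML Φ ε P z))).add B).b x) x =
          ((Z.add (MW.lines (lineML Φ ε P z))).add B).m x := by
  rintro _ ⟨k, rfl⟩ hb
  exact h.size_eq hΦ hε hV hS hv hb

end touch

end

end Crest.Agent.R122.RealL811
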