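import Crest.Agent.R122.OneMW_45

/-!
# A closed family of a marked world is replaced by marked lines (row 122, E_FINAL (1.4)), helper811

`W` : real world, `W'` : the world on the same labels in which the particles of `D` are lines, born at
their exit times `W'.b`. Everything is up to a horizon `v` (closed).

* `RL Φ ε K W W' D v`: the data (closedness only up to `v`; lines born after `v` are arbitrary, but
  clean).
* `RL.agree`, `RL.ct_iff`, `RL.lines`: visible particles have the same paths and contacts up to `v`.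
* `RL.inf`: infected in `W` at `s ≤ v` implies infected in `W'`; `RL.inf_iff` with equal marks if no
  clean particle has two lines in its past.
* `touched_lines`, `touched_lines_iff`: the same for touches, for a pair of worlds.
-/

set_option autoImplicit false
set_option linter.unusedSectionVars false

open MeasureTheory Set Filter Topology
open scoped ENNReal
open Crest.AnalysisR.Kinetic
open Crest.Agent.R122.Flow671 Crest.Agent.R122.Loc45 Crest.Agent.R122.Ins45
open Crest.Agent.R122.Causal291 Crest.Agent.R122.Inf879 Crest.Agent.R122.EDefs602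
open Crest.Agent.R122.Lines255 Crest.Agent.R122.Repl302

namespace Crest.Agent.R122.RealL811

noncomputable section

open scoped Classical

/-! ### Truncation of contact relations -/

section trunc

variable {α : Type}

/-- Contacts at times `≤ v`. -/
def trC (v : ℝ) (C : ℝ → α → α → Prop) : ℝ → α → α → Prop := fun s j k => s ≤ v ∧ C s j k

variable {C C₁ C₂ : ℝ → α → α → Prop} {v t s : ℝ} {i k : α}

theorem past_trC (ht : t ≤ v) : Past (trC v C) t i s k ↔ Past C t i s k := by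
  constructor
  · exact fun h => h.mono_rel fun _ _ _ hc => hc.2
  · intro h
    induction h with
    | root h => exact .root h
    | step h hc hs ih => exact .step ih ⟨h.le.trans ht, hc⟩ hs

/-- An exploration which uses only contacts at times `≤ v` can be started at `v`. -/
theorem past_of_trC (h : Past (trC v C) t i s k) (hs : s ≤ v) : Past C v i s k := by
  revert hs
  induction h with
  | root _ => exact fun hs => .root hs
  | step _ hc hs ih => exact fun _ => .step (ih hc.1) hc.2 hs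

theorem msize_trC [Fintype α] {m : α → ℕ} (ht : t ≤ v) : msize (trC v C) m t i = msize C m t i := by
  unfold msize
  refine Finset.sum_congr rfl fun k _ => ?_
  have h1 : k ∈ BC (trC v C) t i ↔ k ∈ BC C t i := past_trC ht
  simp only [h1]

theorem infd_trC [Fintype α] {m : α → ℕ} {K : ℕ} (ht : t ≤ v) :
    Infd (trC v C) m K t i ↔ Infd C m K t i := by
  unfold Infd
  rw [msize_trC ht]

variable {β γ : Type} {X : Type*} {B : ℝ → β → β → Prop} {z₁ : ℝ → α → X}
  {z₂ : ℝ → β → X} {e₁ : γ → α} {e₂ : γ → β} {x : γ}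

theorem fut_trC (hs : s ≤ v) : CausalGen291.Fut (trC v C) z₁ (trC v B) z₂ e₁ e₂ s x ↔
    CausalGen291.Fut C z₁ B z₂ e₁ e₂ s x := by
  constructor
  · intro h
    clear hs
    induction h with
    | init h h0 => exact .init h h0
    | new₁ j hj hc h0 hs => exact .new₁ j hj hc.2 h0 hs
    | new₂ j hj hc h0 hs => exact .new₂ j hj hc.2 h0 hs
    | chain₁ _ hc hs ih => exact .chain₁ ih hc.2 hs
    | chain₂ _ hc hs ih => exact .chain₂ ih hc.2 hs
  · intro h
    revert hs
    induction h with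
    | init h h0 => exact fun _ => .init h h0
    | new₁ j hj hc h0 hs => exact fun hv => .new₁ j hj ⟨hs.trans hv, hc⟩ h0 hs
    | new₂ j hj hc h0 hs => exact fun hv => .new₂ j hj ⟨hs.trans hv, hc⟩ h0 hs
    | chain₁ _ hc hs ih => exact fun hv => .chain₁ (ih (hs.trans hv)) ⟨hs.trans hv, hc⟩ hs
    | chain₂ _ hc hs ih => exact fun hv => .chain₂ (ih (hs.trans hv)) ⟨hs.trans hv, hc⟩ hs

end trunc

/-! ### One world -/

variable {α : Type} [Fintype α] {Φ : Space3 → ℝ} {ε v : ℝ} {K : ℕ} {W W' : MW α} {D : Set α}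

/-- `W'` is the world `W` in which the closed family `D` has been replaced by its exit lines, up to
the horizon `v`. -/
structure RL (Φ : Space3 → ℝ) (ε : ℝ) (K : ℕ) (W W' : MW α) (D : Set α) (v : ℝ) : Prop where
  ok : W.Ok Φ ε
  ok' : W'.Ok Φ ε
  b0 : ∀ x, 0 ≤ W.b x
  le : ∀ x, W.b x ≤ W'.b x
  bD : ∀ x ∈ D, W.b x ≤ v
  off_b : ∀ x, x ∉ D → W'.b x = W.b x
  off_z : ∀ x, x ∉ D → W'.z x = W.z x
  off_m : ∀ x, x ∉ D → W'.m x = W.m x
  /-- before its exit a member meets only members which have not exited -/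
  closed : ∀ s j k, s ≤ v → j ∈ D → s ≤ W'.b j → W.C Φ ε s j k → k ∈ D ∧ s ≤ W'.b k
  /-- the lines of `W'` are the exit lines -/
  line : ∀ x ∈ D, W'.b x ≤ v → W'.z x = lineAt (W'.b x) (W.path Φ ε (W'.b x) x) 0
  mark : ∀ x ∈ D, W'.b x ≤ v → msize (W.C Φ ε) W.m (W'.b x) x ≤ W'.m x
  clean : ∀ x ∈ D, W'.m x ≤ K
  cleanD : ∀ x ∈ D, v < W'.b x → msize (W.C Φ ε) W.m v x ≤ K

/-- The trivial replacement. -/
theorem RL.refl {Z : MW α} (hZ : Z.Ok Φ ε) (hb : ∀ x, 0 ≤ Z.b x) : RL Φ ε K Z Z ∅ v where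
  ok := hZ
  ok' := hZ
  b0 := hb
  le _ := le_rfl
  bD _ h := absurd h (notMem_empty _)
  off_b _ _ := rfl
  off_z _ _ := rfl
  off_m _ _ := rfl
  closed _ _ _ _ h := absurd h (notMem_empty _)
  line _ h := absurd h (notMem_empty _)
  mark _ h := absurd h (notMem_empty _)
  clean _ h := absurd h (notMem_empty _)
  cleanD _ h := absurd h (notMem_empty _)

namespace RL

variable (h : RL Φ ε K W W' D v) (hΦ : AdmissiblePotential Φ) (hε : 0 < ε)

/-- The exit times cut at the horizon. -/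
def cutB (W W' : MW α) (D : Set α) (v : ℝ) (x : α) : ℝ := if x ∈ D then min (W'.b x) v else W.b x

theorem cutB_of_mem {x : α} (hx : x ∈ D) : cutB W W' D v x = min (W'.b x) v := if_pos hx

theorem cutB_of_not_mem {x : α} (hx : x ∉ D) : cutB W W' D v x = W.b x := if_neg hx

include h in
theorem le_cutB (x : α) : W.b x ≤ cutB W W' D v x := by
  by_cases hx : x ∈ D
  · rw [cutB_of_mem hx]
    exact le_min (h.le x) (h.bD x hx)
  · rw [cutB_of_not_mem hx]

include h in
theorem cutB_le (x : α) : cutB W W' D v x ≤ W'.b x := by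
  by_cases hx : x ∈ D
  · rw [cutB_of_mem hx]
    exact min_le_left _ _
  · rw [cutB_of_not_mem hx, h.off_b x hx]

include h in
theorem cutB_eq {x : α} (hx : x ∈ D → W'.b x ≤ v) : cutB W W' D v x = W'.b x := by
  by_cases hD : x ∈ D
  · rw [cutB_of_mem hD, min_eq_left (hx hD)]
  · rw [cutB_of_not_mem hD, h.off_b x hD]

include h in
theorem closed_cut : Closed (W.C Φ ε) D (cutB W W' D v) := by
  intro s j k hj hs hc
  rw [cutB_of_mem hj] at hs
  have h1 : s ≤ v := hs.trans (min_le_right _ _)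
  obtain ⟨h2, h3⟩ := h.closed s j k h1 hj (hs.trans (min_le_left _ _)) hc
  refine ⟨h2, ?_⟩
  rw [cutB_of_mem h2]
  exact le_min h3 h1

include h hΦ hε in
theorem bw_cut : BWorld Φ ε (cutB W W' D v) 0 (rebirthPath (cutB W W' D v) (W.path Φ ε)) :=
  bworld_of_closed hΦ hε h.ok.bw h.le_cutB (fun _ hi => cutB_of_not_mem hi) h.closed_cut

include h in
theorem b0' (x : α) : 0 ≤ W'.b x := (h.b0 x).trans (h.le x)

include h hΦ hε in
/-- **Visible particles have the same paths up to the horizon.** -/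
theorem agree {t : ℝ} (ht : 0 ≤ t) (htv : t ≤ v) {x : α} (hx : W'.b x ≤ t) :
    W'.path Φ ε t x = W.path Φ ε t x := by
  have key := BWorld.agree_own hΦ hε h.ok'.bw (h.bw_cut hΦ hε) (e := (id : α → α)) (f := id)
    Function.injective_id Function.injective_id (S := {x | x ∈ D → W'.b x ≤ v}) (A := ∅)
    (a := 0) (T := v) le_rfl le_rfl ?_ (fun _ h => absurd h (notMem_empty _)) ?_ ?_ ?_
    x (fun _ => hx.trans htv) t ⟨ht, htv⟩
  · have h1 : W'.path Φ ε t x = rebirthPath (cutB W W' D v) (W.path Φ ε) t x := key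
    rw [h1, rebirthPath_of_le ((h.cutB_le x).trans hx)]
  · intro m hm t _
    rcases hm with hm | hm
    · have hm' : m ∈ D → W'.b m ≤ v := hm
      simp only [id_eq]
      rw [h.cutB_eq hm']
    · exact absurd hm (notMem_empty _)
  · intro m hm
    have hm' : m ∈ D → W'.b m ≤ v := hm
    change W'.path Φ ε 0 m = rebirthPath (cutB W W' D v) (W.path Φ ε) 0 m
    rw [MW.path_zero hΦ hε]
    by_cases hD : m ∈ D
    · have h1 : 0 ≤ cutB W W' D v m := (h.b0 m).trans (h.le_cutB m)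
      rw [rebirthPath_of_ge h1, h.cutB_eq hm']
      exact h.line m hD (hm' hD)
    · rw [h.ok.bw.rebirth_eq hΦ hε (cutB_of_not_mem hD) le_rfl, MW.path_zero hΦ hε]
      exact h.off_z m hD
  · intro t ht m _ _ k hk hne
    exfalso
    refine hne k (Or.inl fun hkD => ?_) rfl
    have hk' : W'.b k ≤ t := hk
    exact hk'.trans ht.2.le
  · intro t ht m _ _ k hk hne
    exfalso
    refine hne k (Or.inl fun hkD => ?_) rfl
    by_contra hlt
    push Not at hlt
    have hk' : cutB W W' D v k ≤ t := hk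
    rw [cutB_of_mem hkD, min_eq_right hlt.le] at hk'
    exact absurd ht.2 (not_lt.2 hk')

include h hΦ hε in
theorem dist_eq {s : ℝ} (hs : s ≤ v) {j k : α} (hj : W'.b j ≤ s) (hk : W'.b k ≤ s) :
    dist (W'.path Φ ε s j).1 (W'.path Φ ε s k).1 = dist (W.path Φ ε s j).1 (W.path Φ ε s k).1 := by
  have h0 : 0 ≤ s := (h.b0' j).trans hj
  rw [h.agree hΦ hε h0 hs hj, h.agree hΦ hε h0 hs hk]

include h hΦ hε in
theorem C_of_C' {s : ℝ} (hs : s ≤ v) {j k : α} (hc : W'.C Φ ε s j k) : W.C Φ ε s j k := by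
  refine ⟨(h.le j).trans hc.1, (h.le k).trans hc.2.1, hc.2.2.1.imp id fun h' =>
    h'.imp (fun h' => (h.le j).trans_lt h') fun h' => (h.le k).trans_lt h', ?_⟩
  rw [← h.dist_eq hΦ hε hs hc.1 hc.2.1]
  exact hc.2.2.2

include h hΦ hε in
/-- **The contact relations are related as in `Lines255.Lines`.** -/
theorem lines : Lines (trC v (W.C Φ ε)) (trC v (W'.C Φ ε)) D W'.b where
  of_strict s j k hc hj hk := by
    refine ⟨hc.1, ?_⟩
    have hj1 : W'.b j ≤ s := by
      by_cases hjD : j ∈ D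
      · exact (hj hjD).le
      · rw [h.off_b j hjD]; exact hc.2.1
    have hk1 : W'.b k ≤ s := by
      by_cases hkD : k ∈ D
      · exact (hk hkD).le
      · rw [h.off_b k hkD]; exact hc.2.2.1
    refine ⟨hj1, hk1, ?_, ?_⟩
    · by_cases hjD : j ∈ D
      · exact Or.inr (Or.inl (hj hjD))
      by_cases hkD : k ∈ D
      · exact Or.inr (Or.inr (hk hkD))
      rw [h.off_b j hjD, h.off_b k hkD]
      exact hc.2.2.2.1
    · rw [h.dist_eq hΦ hε hc.1 hj1 hk1]
      exact hc.2.2.2.2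
  sub s j k hc := ⟨hc.1, h.C_of_C' hΦ hε hc.1 hc.2⟩
  left s j k hc _ := hc.2.1
  right s j k hc _ := hc.2.2.1

include h in
theorem closed_tr : Closed (trC v (W.C Φ ε)) D W'.b := fun s j k hj hs hc =>
  h.closed s j k hc.1 hj hs hc.2

include h in
theorem msize_exit_le (x : α) (hx : x ∈ D) :
    msize (trC v (W.C Φ ε)) W.m (W'.b x) x ≤ K := by
  rcases le_or_gt (W'.b x) v with h1 | h1
  · rw [msize_trC h1]
    exact (h.mark x hx h1).trans (h.clean x hx)
  · refine le_trans ?_ (h.cleanD x hx h1)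
    -- contacts after `v` are not counted
    refine msize_mono_of_subset fun k hk => ?_
    exact past_of_trC (t := W'.b x) hk ((h.b0 x).trans (h.bD x hx))

include h hΦ hε in
theorem repl : Repl (trC v (W.C Φ ε)) (trC v (W'.C Φ ε)) W.m D W'.b K where
  symm _ _ _ hc := ⟨hc.1, MW.C_symm _ hc.2⟩
  closed := h.closed_tr
  lines := h.lines hΦ hε
  pos j _ := h.b0' j
  clean j hj := h.msize_exit_le j hj

include h in
/-- A line which is reached at a time `≤ s` has been born. -/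
theorem born_of_mem_BC {s : ℝ} {x k : α} (hx : x ∈ D → W'.b x ≤ s)
    (hk : k ∈ BC (W'.C Φ ε) s x) (hkD : k ∈ D) : W'.b k ≤ s := by
  have hk' : Past (W'.C Φ ε) s x 0 k := hk
  rcases hk'.cases' with rfl | ⟨s', j, _, h2, _, h4⟩
  · exact hx hkD
  · exact h4.2.1.trans h2

include h hΦ hε in
theorem lmark_le {s : ℝ} (hs : s ≤ v) {k : α} (hk : k ∈ D → W'.b k ≤ s) :
    lmark (trC v (W.C Φ ε)) W.m D W'.b k ≤ W'.m k := by
  by_cases hD : k ∈ D
  · rw [lmark_of_mem hD, msize_trC ((hk hD).trans hs)]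
    exact h.mark k hD ((hk hD).trans hs)
  · rw [lmark_of_not_mem hD, h.off_m k hD]

include h hΦ hε in
/-- **Infected in the real world implies infected in the world with lines.** -/
theorem inf {s : ℝ} (hs : s ≤ v) {x : α} (hx : W.Inf Φ ε K s x) : W'.Inf Φ ε K s x := by
  have h1 : Infd (trC v (W.C Φ ε)) W.m K s x := (infd_trC hs).2 hx
  have h2 := (h.repl hΦ hε).infd_lines h1
  by_cases hv : x ∈ D → W'.b x ≤ s
  · have h3 : msize (trC v (W'.C Φ ε)) (lmark (trC v (W.C Φ ε)) W.m D W'.b) s x ≤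
        msize (W'.C Φ ε) W'.m s x := by
      rw [msize_trC hs]
      unfold msize
      refine Finset.sum_le_sum fun k _ => ?_
      by_cases hk : k ∈ BC (W'.C Φ ε) s x
      · rw [if_pos hk, if_pos hk]
        exact h.lmark_le hΦ hε hs fun hkD => h.born_of_mem_BC hv hk hkD
      · rw [if_neg hk]
        exact Nat.zero_le _
    exact lt_of_lt_of_le h2 h3
  · exfalso
    push Not at hv
    have h4 := msize_unborn (h.lines hΦ hε) hv.1 hv.2 (m' := lmark (trC v (W.C Φ ε)) W.m D W'.b)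
    rw [lmark_of_mem hv.1] at h4
    have h5 := h.msize_exit_le x hv.1
    have h6 : K < msize (trC v (W'.C Φ ε)) (lmark (trC v (W.C Φ ε)) W.m D W'.b) s x := h2
    omega

include h hΦ hε in
/-- **Infections are equal** if the marks are exact and no clean particle has two lines in its
past. -/
theorem inf_iff (hm : ∀ x ∈ D, W'.b x ≤ v → msize (W.C Φ ε) W.m (W'.b x) x = W'.m x) {s : ℝ}
    (hs : s ≤ v) {x : α} (hN : (x ∈ D → W'.b x ≤ s) → ¬ W.Inf Φ ε K s x →
      (BC (W'.C Φ ε) s x ∩ D).Subsingleton) : W.Inf Φ ε K s x ↔ W'.Inf Φ ε K s x := by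
  refine ⟨h.inf hΦ hε hs, fun hx => ?_⟩
  by_contra hno
  have hBC : BC (trC v (W'.C Φ ε)) s x = BC (W'.C Φ ε) s x := by
    ext k
    exact past_trC hs
  have h1 := (infd_iff_all (K := K) (i := x) (t := s) (m := W.m) h.closed_tr
    (h.repl hΦ hε).symm (h.lines hΦ hε) (fun j hj => h.b0' j) (fun j hj => h.msize_exit_le j hj)
    (fun hi hcl => by
      rw [hBC]
      exact hN hi fun hI => hcl ((infd_trC hs).2 hI))).not.1 (fun hI => hno ((infd_trC hs).1 hI))
  by_cases hv : x ∈ D → W'.b x ≤ s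
  · refine h1 (lt_of_lt_of_eq hx ?_)
    rw [msize_trC hs]
    unfold msize
    refine Finset.sum_congr rfl fun k _ => ?_
    by_cases hk : k ∈ BC (W'.C Φ ε) s x
    · rw [if_pos hk, if_pos hk]
      by_cases hD : k ∈ D
      · have h2 := h.born_of_mem_BC hv hk hD
        rw [lmark_of_mem hD, msize_trC (h2.trans hs), hm k hD (h2.trans hs)]
      · rw [lmark_of_not_mem hD, h.off_m k hD]
    · rw [if_neg hk, if_neg hk]
  · push Not at hv
    have h4 := msize_unborn (h.lines hΦ hε) hv.1 hv.2 (m' := W'.m)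
    rw [msize_trC hs] at h4
    have h5 := h.clean x hv.1
    have h6 : K < msize (W'.C Φ ε) W'.m s x := hx
    omega

end RL

/-! ### Touches of a pair of worlds -/

section pair

variable {α₁ α₂ κ : Type} [Fintype α₁] [Fintype α₂] {W₁ W₁' : MW α₁} {W₂ W₂' : MW α₂}
  {D₁ : Set α₁} {D₂ : Set α₂} {e₁ : κ → α₁} {e₂ : κ → α₂}

/-- **A touch of the real worlds is a touch of the worlds with lines.** -/
theorem touched_lines (hΦ : AdmissiblePotential Φ) (hε : 0 < ε) (h₁ : RL Φ ε K W₁ W₁' D₁ v)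
    (h₂ : RL Φ ε K W₂ W₂' D₂ v)
    (hc : Compat (W₁.path Φ ε) (W₁'.path Φ ε) (W₂.path Φ ε) (W₂'.path Φ ε) e₁ e₂ D₁ D₂
      W₁'.b W₂'.b) {s : ℝ} (hs : s ≤ v)
    (ht : CausalGen291.Touched (W₁.C Φ ε) (W₁.path Φ ε) (W₂.C Φ ε) (W₂.path Φ ε) e₁ e₂
      (W₁.Inf Φ ε K) (W₂.Inf Φ ε K) s) :
    CausalGen291.Touched (W₁'.C Φ ε) (W₁'.path Φ ε) (W₂'.C Φ ε) (W₂'.path Φ ε) e₁ e₂
      (W₁'.Inf Φ ε K) (W₂'.Inf Φ ε K) s := by
  have hf : ∀ k, CausalGen291.Fut (W₁.C Φ ε) (W₁.path Φ ε) (W₂.C Φ ε) (W₂.path Φ ε) e₁ e₂ s k ↔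
      CausalGen291.Fut (W₁'.C Φ ε) (W₁'.path Φ ε) (W₂'.C Φ ε) (W₂'.path Φ ε) e₁ e₂ s k := by
    intro k
    have h3 := fut_iff (s := s) (k := k) hc h₁.closed_tr h₂.closed_tr (h₁.repl hΦ hε).symm
      (h₂.repl hΦ hε).symm (h₁.lines hΦ hε) (h₂.lines hΦ hε)
    rw [fut_trC hs, fut_trC hs] at h3
    exact h3
  rcases ht with ⟨k, hk, h⟩ | ⟨j, hj, h⟩ | ⟨j, hj, h⟩
  · exact Or.inl ⟨k, (hf k).1 hk, h.imp (h₁.inf hΦ hε hs) (h₂.inf hΦ hε hs)⟩
  · exact Or.inr (Or.inl ⟨j, hj, h₁.inf hΦ hε hs h⟩)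
  · exact Or.inr (Or.inr ⟨j, hj, h₂.inf hΦ hε hs h⟩)

/-- **Touches are the same** if the infections are the same. -/
theorem touched_lines_iff (hΦ : AdmissiblePotential Φ) (hε : 0 < ε) (h₁ : RL Φ ε K W₁ W₁' D₁ v)
    (h₂ : RL Φ ε K W₂ W₂' D₂ v)
    (hc : Compat (W₁.path Φ ε) (W₁'.path Φ ε) (W₂.path Φ ε) (W₂'.path Φ ε) e₁ e₂ D₁ D₂
      W₁'.b W₂'.b) {s : ℝ} (hs : s ≤ v)
    (hI₁ : ∀ x, W₁.Inf Φ ε K s x ↔ W₁'.Inf Φ ε K s x)
    (hI₂ : ∀ x, W₂.Inf Φ ε K s x ↔ W₂'.Inf Φ ε K s x) :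
    CausalGen291.Touched (W₁.C Φ ε) (W₁.path Φ ε) (W₂.C Φ ε) (W₂.path Φ ε) e₁ e₂
      (W₁.Inf Φ ε K) (W₂.Inf Φ ε K) s ↔
    CausalGen291.Touched (W₁'.C Φ ε) (W₁'.path Φ ε) (W₂'.C Φ ε) (W₂'.path Φ ε) e₁ e₂
      (W₁'.Inf Φ ε K) (W₂'.Inf Φ ε K) s := by
  have hf : ∀ k, CausalGen291.Fut (W₁.C Φ ε) (W₁.path Φ ε) (W₂.C Φ ε) (W₂.path Φ ε) e₁ e₂ s k ↔
      CausalGen291.Fut (W₁'.C Φ ε) (W₁'.path Φ ε) (W₂'.C Φ ε) (W₂'.path Φ ε) e₁ e₂ s k := by
    intro k
    have h3 := fut_iff (s := s) (k := k) hc h₁.closed_tr h₂.closed_tr (h₁.repl hΦ hε).symm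
      (h₂.repl hΦ hε).symm (h₁.lines hΦ hε) (h₂.lines hΦ hε)
    rw [fut_trC hs, fut_trC hs] at h3
    exact h3
  unfold CausalGen291.Touched
  simp only [hf, hI₁, hI₂]

end pair

end

end Crest.Agent.R122.RealL811
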