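import Crest.Agent.R122.R6Tree_974
import Crest.Agent.R122.RealOne_796

/-!
# The contact of `e` with the root of a real cluster, inequality 3 (row 122, helper796)

From `h : Real6 Φ ε K te T' P z w θ` (`V = treeW`, `d = dL θ`, `e = eL θ`, `F = lineML Φ ε P z`,
`r = root P`, `s = cT ε z e`, `q = cD ε z e`):

* `realIn6` : `RealIn` for `X = w + V + d`, `W = w + lines F + d`.
* `freeFar6` : `e` is far from `w + V + d` before `s`.
* `Enc6` : the encounter event in `Z0 (MW.cfg w) F r d`.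
* `okLd6`, `okLde6` : `w + F + d`, `w + F + d + e` are good; `hit6`, `outL6_eq`, `outC6_eq` : the hit
  in the world with lines; `one6` : the field `one` of `E6FactsA` for `A = V`;
  `thetaL_root6` : the root line reborn.
-/

set_option autoImplicit false
set_option linter.unusedSectionVars false

open MeasureTheory Set Filter Topology
open scoped ENNReal
open Crest.AnalysisR.Kinetic
open Crest.Agent.R122.Flow671 hiding rel
open Crest.Agent.R122.Loc45 Crest.Agent.R122.Causal291 Crest.Agent.R122.MWAlg255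
open Crest.Agent.R122.Inf879 Crest.Agent.R122.EDefs602 Crest.Agent.R122.Lines255
open Crest.Agent.R122.Kin796 Crest.Agent.R122.Kin796.CTree Crest.Agent.R122.Tree674
open Crest.Agent.R122.PathFlow968 Crest.Agent.R122.TreeLines335 Crest.Agent.R122.Relabel674
open Crest.Agent.R122.GC311 Crest.Agent.R122.Line285
open Crest.Agent.R122.Scat818 Crest.Agent.R122.OCout796 Crest.Agent.R122.Ins45
open Crest.Agent.R122.Boost969 (LSt)
open Crest.Agent.R122.Pair292 (Lab)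
open Crest.Agent.R122.OneC285 (cT cB cD cX cfT rt)
open Crest.Agent.R122.PairD292 Crest.Agent.R122.R6Tree974

namespace Crest.Agent.R122.One796

noncomputable section

open scoped Classical

variable {Φ : Space3 → ℝ} {ε te T' R : ℝ} {K : ℕ} {P : CTree} {z : PhasePoint × Par P} {m : ℕ}
  {w : Config m} {θ : Lab × LSt}

/-- The real world `w + V + d`. -/
abbrev X6 (Φ : Space3 → ℝ) (ε : ℝ) (P : CTree) (z : PhasePoint × Par P) {m : ℕ} (w : Config m)
    (d : ML) : MW ((Fin m ⊕ Idx P) ⊕ Unit) :=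
  ((MW.cfg w).add (RealL811.treeW Φ ε P z)).ins d

/-- The world `w + F + d` with the lines of the tree. -/
abbrev W6 (Φ : Space3 → ℝ) (ε : ℝ) (P : CTree) (z : PhasePoint × Par P) {m : ℕ} (w : Config m)
    (d : ML) : MW ((Fin m ⊕ Idx P) ⊕ Unit) :=
  ((MW.cfg w).add (MW.lines (lineML Φ ε P z))).ins d

/-- The labels of the tree. -/
abbrev f6 (P : CTree) (m : ℕ) : Idx P → (Fin m ⊕ Idx P) ⊕ Unit := fun k => Sum.inl (Sum.inr k)

/-- The world `w + d + exits`. -/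
abbrev Z6 (Φ : Space3 → ℝ) (ε : ℝ) (P : CTree) (z : PhasePoint × Par P) {m : ℕ} (w : Config m)
    (d : ML) : MW ((Fin m ⊕ Unit) ⊕ {k : Idx P // k ≠ root P}) :=
  Decomp811.Z0 (MW.cfg w) (lineML Φ ε P z) (root P) d

/-- Relabelling of `w + V + d`. -/
abbrev g6 (P : CTree) (m : ℕ) : (Fin m ⊕ Idx P) ⊕ Unit ≃ Fin (P.leaves + m) ⊕ Unit :=
  Equiv.sumCongr (gE P m) (Equiv.refl Unit)

theorem comap6 (d : ML) : ((MW.cfg (Fin.append (cfT Φ ε P z) w)).ins d).comap (g6 P m) =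
    X6 Φ ε P z w d := by
  unfold X6
  rw [← comap1, EquivE416.ins_comap]

theorem lines6 (A : MW (Idx P)) (ls : Idx P → ML) (d : ML) :
    lw (((MW.cfg w).add A).ins d) (f6 P m) ls = ((MW.cfg w).add (MW.lines ls)).ins d := by
  have h1 : lw ((MW.cfg w).add A) (Sum.inr : Idx P → Fin m ⊕ Idx P) ls =
      (MW.cfg w).add (MW.lines ls) := by
    have hinj : Function.Injective (Sum.inr : Idx P → Fin m ⊕ Idx P) := Sum.inr_injective
    have hoff : ∀ x : Fin m, (Sum.inl x : Fin m ⊕ Idx P) ∉ range (Sum.inr : Idx P → _) := by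
      rintro x ⟨y, hy⟩
      cases hy
    have e1 : ∀ x, (lw ((MW.cfg w).add A) (Sum.inr : Idx P → Fin m ⊕ Idx P) ls).b x =
        ((MW.cfg w).add (MW.lines ls)).b x := by
      rintro (x | x)
      · rw [lw_b_off (hoff x)]; rfl
      · exact lw_b hinj x
    have e2 : ∀ x, (lw ((MW.cfg w).add A) (Sum.inr : Idx P → Fin m ⊕ Idx P) ls).z x =
        ((MW.cfg w).add (MW.lines ls)).z x := by
      rintro (x | x)
      · rw [lw_z_off (hoff x)]; rfl
      · exact lw_z hinj x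
    have e3 : ∀ x, (lw ((MW.cfg w).add A) (Sum.inr : Idx P → Fin m ⊕ Idx P) ls).m x =
        ((MW.cfg w).add (MW.lines ls)).m x := by
      rintro (x | x)
      · rw [lw_m_off (hoff x)]; rfl
      · exact lw_m hinj x
    have h2 : ∀ {α : Type} (Y Y' : MW α), (∀ x, Y.b x = Y'.b x) → (∀ x, Y.z x = Y'.z x) →
        (∀ x, Y.m x = Y'.m x) → Y = Y' := by
      intro α Y Y' a1 a2 a3
      cases Y
      cases Y'
      simp only at a1 a2 a3
      rw [MW.mk.injEq]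
      exact ⟨funext a1, funext a2, funext a3⟩
    exact h2 _ _ e1 e2 e3
  have h3 := lw_add (Z := (MW.cfg w).add A) (ls := ls)
    (f := (Sum.inr : Idx P → Fin m ⊕ Idx P)) Sum.inr_injective (MW.line d)
  rw [h1] at h3
  exact h3

/-- The root is far from everybody after its release. -/
theorem far6 (hΦ : AdmissiblePotential Φ) (hε : 0 < ε) (h : Real6 Φ ε K te T' P z w θ) (t : ℝ)
    (ht : rel P z.2 (root P) < t) (hts : t ≤ cT ε z (eL θ)) (x : (Fin m ⊕ Idx P) ⊕ Unit)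
    (hx : x ≠ f6 P m (root P)) (hb : (X6 Φ ε P z w (dL θ)).b x ≤ t) :
    ε < dist ((X6 Φ ε P z w (dL θ)).path Φ ε t (f6 P m (root P))).1
      ((X6 Φ ε P z w (dL θ)).path Φ ε t x).1 := by
  have hc := R6.cut2 hΦ hε h
  have hs := R6.cT_pos h
  have h0 : 0 < t := (rel_nonneg hε.le h.real.valid.2 _).trans_lt ht
  rw [← comap6, EquivE416.path_comap hΦ hε, EquivE416.path_comap hΦ hε]
  rw [← comap6] at hb
  by_contra hle
  rw [not_lt] at hle
  set W0 := (MW.cfg (Fin.append (cfT Φ ε P z) w)).ins (dL θ) with hW0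
  have hC : W0.C Φ ε t (g6 P m (f6 P m (root P))) (g6 P m x) :=
    ⟨h0.le, hb, Or.inr (Or.inl h0), hle⟩
  obtain ⟨y', h1, h2, h3⟩ := hc.closed (root P) t (g6 P m x) h0.le hts
    (by rw [PathFlow968.prot_root]; exact hts) hC
  have h4 : Ct (path Φ ε P z.1 z.2) ε t (root P) y' := h3
  rcases (ct_iff hΦ hε h.real.valid h.real.sep ⟨h0.le, hts⟩).1 h4 with h5 | h5 | h5
  · subst h5
    exact hx ((g6 P m).injective h1)
  · exact absurd ht (not_lt.2 (Ins45.inWindow_rel hε.le h.real.valid.2 h5).1)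
  · exact absurd ht (not_lt.2 (Ins45.inWindow_rel hε.le h.real.valid.2 h5).2)

/-- **`RealIn` for `w + V + d`.** -/
theorem realIn6 (hΦ : AdmissiblePotential Φ) (hε : 0 < ε) (h : Real6 Φ ε K te T' P z w θ) :
    RealIn Φ ε (cT ε z (eL θ)) (X6 Φ ε P z w (dL θ)) (W6 Φ ε P z w (dL θ)) P z (f6 P m) where
  lines := lines6 _ _ _
  ok := R6.ok2' hΦ hε h
  b0 := by
    rintro ((x | x) | x)
    · exact le_rfl
    · exact le_rfl
    · exact h.okL.d0.le
  pos := R6.cT_pos h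
  valid := h.real.valid
  tree := R6.in2' hΦ hε h
  far := far6 hΦ hε h

/-- `e` does not meet `w + V + d` before the contact. -/
theorem freeFar6 (hΦ : AdmissiblePotential Φ) (hε : 0 < ε) (h : Real6 Φ ε K te T' P z w θ) :
    FreeFarW Φ ε (X6 Φ ε P z w (dL θ)) (eL θ) (cT ε z (eL θ)) := by
  have hle := h.meet.le
  rw [h.time] at hle
  have h1 := far_of_lt_mT2 (Φ := Φ) (ε := ε) (T := te)
    (Z := Zd (Fin.append (cfT Φ ε P z) w) θ) (l := eL θ) (s₁ := cT ε z (eL θ)) h.time.ge hle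
  intro t k ht hts hk hlt
  rw [← comap6] at hk hlt ⊢
  rw [EquivE416.path_comap hΦ hε]
  have h2 := h1 t (g6 P m k) ht hts hk hlt
  rw [← lpos_eq]
  exact h2

theorem okXe6 (hΦ : AdmissiblePotential Φ) (hε : 0 < ε) (h : Real6 Φ ε K te T' P z w θ) :
    ((X6 Φ ε P z w (dL θ)).ins (eL θ)).Ok Φ ε := R6.ok3' hΦ hε h

theorem lt6 (h : Real6 Φ ε K te T' P z w θ) : (eL θ).1.1 < cT ε z (eL θ) := by
  have h1 := h.meet.lt
  rwa [h.time] at h1

/-- **The encounter event.** -/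
abbrev Enc6 (Φ : Space3 → ℝ) (ε R : ℝ) (P : CTree) (z : PhasePoint × Par P) {m : ℕ}
    (w : Config m) (θ : Lab × LSt) : Prop :=
  EncE Φ ε R (Z6 Φ ε P z w (dL θ)) z.1 (cT ε z (eL θ)) (cD ε z (eL θ))

theorem rest6 (d : ML) : (rest (W6 Φ ε P z w d) (f6 P m (root P))).comap
    (famE (Fin m) (Idx P) (root P)) = Z6 Φ ε P z w d := rest_fam _ _ _ _

/-- The world `w + F + d` is good. -/
theorem okLd6 (hΦ : AdmissiblePotential Φ) (hε : 0 < ε) (h : Real6 Φ ε K te T' P z w θ)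
    (hOk : (Z6 Φ ε P z w (dL θ)).Ok Φ ε) : (W6 Φ ε P z w (dL θ)).Ok Φ ε :=
  (realIn6 hΦ hε h).okLn hΦ hε (rest6 _) hOk

/-- The world `w + F + d + e` is good. -/
theorem okLde6 (hΦ : AdmissiblePotential Φ) (hε : 0 < ε) (h : Real6 Φ ε K te T' P z w θ)
    (hOk : (Z6 Φ ε P z w (dL θ)).Ok Φ ε) : ((W6 Φ ε P z w (dL θ)).ins (eL θ)).Ok Φ ε :=
  (realIn6 hΦ hε h).okLn_ins hΦ hε (okLd6 hΦ hε h hOk) h.okL.e0.le (lt6 h) (freeFar6 hΦ hε h)
    (okXe6 hΦ hε h)

/-- **The hit in the world `w + F + d`**: `e` meets first the root line; the outgoing lines. -/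
theorem hit6 (hΦ : AdmissiblePotential Φ) (hε : 0 < ε) (h : Real6 Φ ε K te T' P z w θ)
    (hOk : (Z6 Φ ε P z w (dL θ)).Ok Φ ε) (hE : Enc6 Φ ε R P z w θ) :
    Hit Φ ε (((MW.cfg w).add (MW.lines (lineML Φ ε P z))).ins (dL θ)) (eL θ)
      (Sum.inl (Sum.inr (root P))) (cT ε z (eL θ))
      (cT ε z (eL θ) + outT Φ ε (cD ε z (eL θ))) :=
  ((realIn6 hΦ hε h).hit hΦ hε (rest6 _) hOk h.okL.e0.le (lt6 h) (freeFar6 hΦ hε h)
    (okXe6 hΦ hε h) hE).1

theorem outL6_eq (hΦ : AdmissiblePotential Φ) (hε : 0 < ε) (h : Real6 Φ ε K te T' P z w θ)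
    (hOk : (Z6 Φ ε P z w (dL θ)).Ok Φ ε) (hE : Enc6 Φ ε R P z w θ) :
    outL6 Φ ε P z (eL θ) (some false) =
      outL Φ ε (((MW.cfg w).add (MW.lines (lineML Φ ε P z))).ins (dL θ)) (eL θ)
        (Sum.inl (Sum.inr (root P))) (cT ε z (eL θ) + outT Φ ε (cD ε z (eL θ))) :=
  ((realIn6 hΦ hε h).hit hΦ hε (rest6 _) hOk h.okL.e0.le (lt6 h) (freeFar6 hΦ hε h)
    (okXe6 hΦ hε h) hE).2.1.symm

theorem outC6_eq (hΦ : AdmissiblePotential Φ) (hε : 0 < ε) (h : Real6 Φ ε K te T' P z w θ)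
    (hOk : (Z6 Φ ε P z w (dL θ)).Ok Φ ε) (hE : Enc6 Φ ε R P z w θ) :
    outL6 Φ ε P z (eL θ) (some true) =
      outC Φ ε (((MW.cfg w).add (MW.lines (lineML Φ ε P z))).ins (dL θ)) (eL θ)
        (Sum.inl (Sum.inr (root P))) (cT ε z (eL θ) + outT Φ ε (cD ε z (eL θ))) :=
  ((realIn6 hΦ hε h).hit hΦ hε (rest6 _) hOk h.okL.e0.le (lt6 h) (freeFar6 hΦ hε h)
    (okXe6 hΦ hε h) hE).2.2.symm

/-- The root line reborn at the exit time of the encounter has the touch time of the root line. -/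
theorem thetaL_root6 (hΦ : AdmissiblePotential Φ) (hε : 0 < ε) (h : Real6 Φ ε K te T' P z w θ)
    (hOk : (Z6 Φ ε P z w (dL θ)).Ok Φ ε) (hE : Enc6 Φ ε R P z w θ) (K' : ℕ) (T : ℝ) :
    (Z6 Φ ε P z w (dL θ)).thetaL Φ ε K' T (outL6 Φ ε P z (eL θ) none) =
      (Z6 Φ ε P z w (dL θ)).thetaL Φ ε K' T (lineML Φ ε P z (root P)) :=
  (realIn6 hΦ hε h).thetaL_root hΦ hε (rest6 _) hOk h.okL.e0.le (lt6 h) (freeFar6 hΦ hε h) hE T

/-- **The field `one` of `E6FactsA`** for the real cluster, root line reborn. -/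
theorem one6' (hΦ : AdmissiblePotential Φ) (hε : 0 < ε) (h : Real6 Φ ε K te T' P z w θ)
    (hK : (eL θ).2 + P.leaves ≤ K) (hOk : (Z6 Φ ε P z w (dL θ)).Ok Φ ε)
    (hOkL : ((Z6 Φ ε P z w (dL θ)).ins (outL6 Φ ε P z (eL θ) (some false))).Ok Φ ε)
    (hE : Enc6 Φ ε R P z w θ) (T : ℝ) :
    min ((Z6 Φ ε P z w (dL θ)).thetaL Φ ε K T (outL6 Φ ε P z (eL θ) none))
      (min ((Z6 Φ ε P z w (dL θ)).thetaL Φ ε K T (outL6 Φ ε P z (eL θ) (some false)))
        (((Z6 Φ ε P z w (dL θ)).ins (outL6 Φ ε P z (eL θ) (some false))).thetaL Φ ε K T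
          (outL6 Φ ε P z (eL θ) (some true)))) ≤
      (X6 Φ ε P z w (dL θ)).thetaL Φ ε K T (eL θ) :=
  (realIn6 hΦ hε h).one hΦ hε (rest6 _) h.okL.e0.le (lt6 h) (freeFar6 hΦ hε h)
    (okXe6 hΦ hε h) hK hOk hOkL hE T

/-- **The field `one` of `E6FactsA`** for the real cluster, root line born at its release. -/
theorem one6 (hΦ : AdmissiblePotential Φ) (hε : 0 < ε) (h : Real6 Φ ε K te T' P z w θ)
    (hK : (eL θ).2 + P.leaves ≤ K) (hOk : (Z6 Φ ε P z w (dL θ)).Ok Φ ε)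
    (hOkL : ((Z6 Φ ε P z w (dL θ)).ins (outL6 Φ ε P z (eL θ) (some false))).Ok Φ ε)
    (hE : Enc6 Φ ε R P z w θ) (T : ℝ) :
    min ((Decomp811.Z0 (MW.cfg w) (lineML Φ ε P z) (root P) (dL θ)).thetaL Φ ε K T
        (lineML Φ ε P z (root P)))
      (min ((Decomp811.Z0 (MW.cfg w) (lineML Φ ε P z) (root P) (dL θ)).thetaL Φ ε K T
        (outL6 Φ ε P z (eL θ) (some false)))
        (((Decomp811.Z0 (MW.cfg w) (lineML Φ ε P z) (root P) (dL θ)).ins
          (outL6 Φ ε P z (eL θ) (some false))).thetaL Φ ε K T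
          (outL6 Φ ε P z (eL θ) (some true)))) ≤
      (((MW.cfg w).add (RealL811.treeW Φ ε P z)).ins (dL θ)).thetaL Φ ε K T (eL θ) := by
  have h1 := one6' hΦ hε h hK hOk hOkL hE T
  rw [thetaL_root6 hΦ hε h hOk hE K T] at h1
  exact h1

end

end Crest.Agent.R122.One796
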