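import Crest.Agent.R122.InEq2TLine_335

/-!
# Own clusters of the exits of a tree (helper335)

`lastS P i` : the leaves under the last node of `i` (`mk P i` many).  Up to the release time of `i`
the particles of `lastS P i` are in contact only with each other.
-/

set_option autoImplicit false
set_option linter.unusedSectionVars false

open MeasureTheory Set Filter Topology
open Crest.AnalysisR.Kinetic
open Crest.Agent.R122.Flow671 Crest.Agent.R122.Causal291
open Crest.Agent.R122.Inf879 Crest.Agent.R122.GC311 Crest.Agent.R122.EDefs602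
open Crest.Agent.R122.Kin796 Crest.Agent.R122.Kin796.CTree Crest.Agent.R122.Tree674
open Crest.Agent.R122.PathFlow968 Crest.Agent.R122.TreeLines335
open Crest.Agent.R122.RtG302

namespace Crest.Agent.R122.InEq2T

noncomputable section

open scoped Classical

/-- Leaves under the last node of `i`. -/
def lastS : ∀ P : CTree, Idx P → Finset (Idx P)
  | leaf => fun _ => Finset.univ
  | node l r => Sum.elim
      (fun i => if i = root l then Finset.univ else (lastS l i).map ⟨Sum.inl, Sum.inl_injective⟩)
      (fun i => if i = root r then Finset.univ else (lastS r i).map ⟨Sum.inr, Sum.inr_injective⟩)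

theorem card_idx : ∀ P : CTree, Fintype.card (Idx P) = P.leaves
  | leaf => rfl
  | node l r => by
      show Fintype.card (Idx l ⊕ Idx r) = l.leaves + r.leaves
      rw [Fintype.card_sum, card_idx l, card_idx r]

theorem card_lastS : ∀ (P : CTree) (i : Idx P), (lastS P i).card = mk P i
  | leaf, _ => rfl
  | node l r, Sum.inl i => by
      simp only [lastS, TreeLines335.mk, Sum.elim_inl]
      split_ifs
      · rw [Finset.card_univ, card_idx]
      · rw [Finset.card_map, card_lastS l i]
  | node l r, Sum.inr i => by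
      simp only [lastS, TreeLines335.mk, Sum.elim_inr]
      split_ifs
      · rw [Finset.card_univ, card_idx]
      · rw [Finset.card_map, card_lastS r i]

theorem mem_lastS : ∀ (P : CTree) (i : Idx P), i ∈ lastS P i
  | leaf, _ => Finset.mem_univ _
  | node l r, Sum.inl i => by
      simp only [lastS, Sum.elim_inl]
      split_ifs
      · exact Finset.mem_univ _
      · exact Finset.mem_map_of_mem _ (mem_lastS l i)
  | node l r, Sum.inr i => by
      simp only [lastS, Sum.elim_inr]
      split_ifs
      · exact Finset.mem_univ _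
      · exact Finset.mem_map_of_mem _ (mem_lastS r i)

/-- The set `lastS P i` is closed under the collision windows up to the release time of `i`. -/
theorem lastS_closed {Φ : Space3 → ℝ} {ε : ℝ} (hε : 0 ≤ ε) : ∀ {P : CTree} {T : ℝ} {v : Space3}
    {p : Par P}, Ord Φ ε P T v p → ∀ i y k s, y ∈ lastS P i → s ≤ TreeLines335.rel P p i →
    (InWindow Φ ε P v p y k s ∨ InWindow Φ ε P v p k y s) → k ∈ lastS P i
  | leaf, _, _, _, _, _, _, _, _, _, _, _ => Finset.mem_univ _
  | node l r, T, v, p, ho, Sum.inl i, y, k, s, hy, hs, hw => by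
      by_cases hi : i = root l
      · simp only [lastS, Sum.elim_inl, if_pos hi]
        exact Finset.mem_univ _
      simp only [lastS, Sum.elim_inl, if_neg hi, Finset.mem_map, Function.Embedding.coeFn_mk] at hy ⊢
      simp only [TreeLines335.rel, Sum.elim_inl, if_neg hi] at hs
      obtain ⟨y', hy', rfl⟩ := hy
      have hlt : TreeLines335.rel l p.2.1 i < Tree674.sin Φ ε v p.1 :=
        TreeLines335.rel_lt hε ho.2.1 ho.2.2.1 i
      rcases hw with hw | hw
      · rcases hw with ⟨_, _, h3, _⟩ | ⟨i', j', h1, rfl, h3⟩ | ⟨i', j', h1, _, _⟩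
        · exact absurd (h3.trans hs) (not_le.2 hlt)
        · have : y' = i' := Sum.inl_injective h1
          subst this
          exact ⟨j', lastS_closed hε ho.2.2.1 i y' j' s hy' hs (Or.inl h3), rfl⟩
        · cases h1
      · rcases hw with ⟨_, h2, _, _⟩ | ⟨i', j', rfl, h2, h3⟩ | ⟨i', j', _, h2, _⟩
        · cases h2
        · have : y' = j' := Sum.inl_injective h2
          subst this
          exact ⟨i', lastS_closed hε ho.2.2.1 i y' i' s hy' hs (Or.inr h3), rfl⟩
        · cases h2
  | node l r, T, v, p, ho, Sum.inr i, y, k, s, hy, hs, hw => by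
      by_cases hi : i = root r
      · simp only [lastS, Sum.elim_inr, if_pos hi]
        exact Finset.mem_univ _
      simp only [lastS, Sum.elim_inr, if_neg hi, Finset.mem_map, Function.Embedding.coeFn_mk] at hy ⊢
      simp only [TreeLines335.rel, Sum.elim_inr, if_neg hi] at hs
      obtain ⟨y', hy', rfl⟩ := hy
      have hlt : TreeLines335.rel r p.2.2 i < Tree674.sin Φ ε v p.1 :=
        TreeLines335.rel_lt hε ho.2.1 ho.2.2.2 i
      rcases hw with hw | hw
      · rcases hw with ⟨h1, _, _, _⟩ | ⟨i', j', h1, _, _⟩ | ⟨i', j', h1, rfl, h3⟩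
        · cases h1
        · cases h1
        · have : y' = i' := Sum.inr_injective h1
          subst this
          exact ⟨j', lastS_closed hε ho.2.2.2 i y' j' s hy' hs (Or.inl h3), rfl⟩
      · rcases hw with ⟨_, _, h3, _⟩ | ⟨i', j', _, h2, _⟩ | ⟨i', j', rfl, h2, h3⟩
        · exact absurd (h3.trans hs) (not_le.2 hlt)
        · cases h2
        · have : y' = j' := Sum.inr_injective h2
          subst this
          exact ⟨i', lastS_closed hε ho.2.2.2 i y' i' s hy' hs (Or.inr h3), rfl⟩

section world

variable {κ : Type} [Fintype κ] {Φ : Space3 → ℝ} {ε T v : ℝ} {m : ℕ} {X : κ → PhasePoint}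
  {P : CTree} {z : PhasePoint × Par P} {e : Idx P → κ} {g : Fin m → κ}

/-- The own past of an exit consists of the leaves under its last node. -/
theorem own_past (hΦ : AdmissiblePotential Φ) (hε : 0 < ε) (hT : 0 ≤ T)
    (hV : Valid Φ ε P T z.1.2 z.2) (hS : Sep Φ ε P T z.1 z.2) (hvT : v ≤ T)
    (h : ShadowS Φ ε (treeStr Φ ε P T z hε hT hV) v X e g) {x : Idx P} (hx : x ≠ root P)
    (hxv : prot P T z.2 x < v) {r : ℝ} {q : κ}
    (hp : Past (Ct (pth Φ ε X) ε) (prot P T z.2 x) (e x) r q) :
    0 ≤ r → ∃ y ∈ lastS P x, e y = q ∧ r ≤ prot P T z.2 y := by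
  induction hp with
  | @root r hr => exact fun _ => ⟨x, mem_lastS P x, rfl, hr⟩
  | @step r s' q q' hq hc hr ih =>
    intro h0
    have h0' : 0 ≤ s' := h0.trans hr
    obtain ⟨y, hy, rfl, hy2⟩ := ih h0'
    have hs'x : s' ≤ prot P T z.2 x := hq.le
    have hs'v : s' < v := hs'x.trans_lt hxv
    obtain ⟨y', rfl, hy2'⟩ := h.sealed ⟨h0', hs'v⟩ (x := y) hy2 hc
    have hy2'' : s' ≤ prot P T z.2 y' := hy2'
    refine ⟨y', ?_, rfl, hr.trans hy2''⟩
    have hc' : Ct (path Φ ε P z.1 z.2) ε s' y y' := by
      unfold Ct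
      have h1 : pth Φ ε X s' (e y) = path Φ ε P z.1 z.2 s' y := h.agree y s' h0' hs'v.le hy2
      have h2 : pth Φ ε X s' (e y') = path Φ ε P z.1 z.2 s' y' := h.agree y' s' h0' hs'v.le hy2'
      rw [← h1, ← h2]
      exact hc
    rcases (ct_iff hΦ hε hV hS ⟨h0', (hs'v.le.trans hvT)⟩).1 hc' with h3 | h3
    · rw [← h3]; exact hy
    · refine lastS_closed hε.le hV.2 x y y' s' hy ?_ h3
      rw [rel_eq_prot P T z.2 x hx]
      exact hs'x

/-- The own cluster of an exit has at most `mk` members. -/
theorem own_card (hΦ : AdmissiblePotential Φ) (hε : 0 < ε) (hT : 0 ≤ T)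
    (hV : Valid Φ ε P T z.1.2 z.2) (hS : Sep Φ ε P T z.1 z.2) (hvT : v ≤ T)
    (h : ShadowS Φ ε (treeStr Φ ε P T z hε hT hV) v X e g) {x : Idx P} (hx : x ≠ root P)
    (hxv : prot P T z.2 x < v) :
    (BC (Ct (pth Φ ε X) ε) (prot P T z.2 x) (e x)).ncard ≤ mk P x := by
  have h1 : BC (Ct (pth Φ ε X) ε) (prot P T z.2 x) (e x) ⊆ e '' (lastS P x : Set (Idx P)) := by
    intro q hq
    obtain ⟨y, hy, hyq, _⟩ := own_past hΦ hε hT hV hS hvT h hx hxv hq le_rfl
    exact ⟨y, hy, hyq⟩
  refine (Set.ncard_le_ncard h1 (Set.toFinite _)).trans ?_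
  rw [Set.ncard_image_of_injective _ h.e_inj, Set.ncard_coe_finset, card_lastS]

end world

end

end Crest.Agent.R122.InEq2T
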