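import Crest.Agent.R122.RealL_811
import Crest.Agent.R122.TreeOwn_335

/-!
# A collision tree in a marked world is replaced by its exit lines (row 122, (1.4)), helper811

* `TreeIn Φ ε W P z e v`: in the marked world `W` (any births) the particles `e k` follow the tree
  `(P, z)`, up to the horizon `v` and up to their release times `rel` (the root up to its last
  contact).
* `LineOf W W' P z e`: `W'` is `W` with the particles `e k` replaced by `lineML Φ ε P z k`.
* `TreeIn.rl`: the data `RL`; `TreeIn.size_eq`: the own size of an exit is its mark `mk P x`.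
-/

set_option autoImplicit false
set_option linter.unusedSectionVars false

open MeasureTheory Set Filter Topology
open scoped ENNReal
open Crest.AnalysisR.Kinetic
open Crest.Agent.R122.Flow671 Crest.Agent.R122.Loc45 Crest.Agent.R122.Ins45
open Crest.Agent.R122.Causal291 Crest.Agent.R122.Inf879 Crest.Agent.R122.EDefs602
open Crest.Agent.R122.Lines255
open Crest.Agent.R122.Kin796 Crest.Agent.R122.Kin796.CTree Crest.Agent.R122.Tree674
open Crest.Agent.R122.PathFlow968 Crest.Agent.R122.TreeLines335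
open Crest.Agent.R122.InEq2T (lastS lastS_closed mem_lastS card_lastS)

namespace Crest.Agent.R122.RealL811

noncomputable section

open scoped Classical

/-! ### Trees -/

section tree

variable {Φ : Space3 → ℝ} {ε : ℝ}

/-- Collision windows end not later than the release times. -/
theorem inWindow_rel (hε : 0 ≤ ε) : ∀ {P : CTree} {T : ℝ} {v : Space3} {p : Par P},
    Ord Φ ε P T v p → ∀ {i j : Idx P} {u : ℝ}, InWindow Φ ε P v p i j u →
      0 < u ∧ u ≤ TreeLines335.rel P p i ∧ u ≤ TreeLines335.rel P p j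
  | leaf, _, _, _, _, _, _, _, h => absurd h id
  | node l r, T, v, p, ho, i, j, u, h => by
      rcases h with ⟨rfl, rfl, h1, h2⟩ | ⟨i', j', rfl, rfl, h⟩ | ⟨i', j', rfl, rfl, h⟩
      · refine ⟨ho.2.1.trans_le h1, ?_, ?_⟩ <;> simpa [TreeLines335.rel] using h2
      · obtain ⟨h0, h1, h2⟩ := inWindow_rel hε ho.2.2.1 h
        have hs : Tree674.sin Φ ε v p.1 ≤ p.1.1 := sin_le hε v p.1
        have hl := fun k => (rel_lt hε ho.2.1 ho.2.2.1 k).le.trans hs
        refine ⟨h0, ?_, ?_⟩
        · simp only [TreeLines335.rel, Sum.elim_inl]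
          split_ifs
          · exact h1.trans (hl i')
          · exact h1
        · simp only [TreeLines335.rel, Sum.elim_inl]
          split_ifs
          · exact h2.trans (hl j')
          · exact h2
      · obtain ⟨h0, h1, h2⟩ := inWindow_rel hε ho.2.2.2 h
        have hs : Tree674.sin Φ ε v p.1 ≤ p.1.1 := sin_le hε v p.1
        have hl := fun k => (rel_lt hε ho.2.1 ho.2.2.2 k).le.trans hs
        refine ⟨h0, ?_, ?_⟩
        · simp only [TreeLines335.rel, Sum.elim_inr]
          split_ifs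
          · exact h1.trans (hl i')
          · exact h1
        · simp only [TreeLines335.rel, Sum.elim_inr]
          split_ifs
          · exact h2.trans (hl j')
          · exact h2

theorem lastS_root : ∀ P : CTree, lastS P (root P) = Finset.univ
  | leaf => rfl
  | node l r => by simp [lastS, root]

/-- The contacts of a tree (collision windows). -/
def Cw (Φ : Space3 → ℝ) (ε : ℝ) (P : CTree) (v : Space3) (p : Par P) (u : ℝ) (i j : Idx P) :
    Prop := InWindow Φ ε P v p i j u ∨ InWindow Φ ε P v p j i u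

/-- The own past of `x` contains all the leaves under its last node. -/
theorem past_lastS (hε : 0 ≤ ε) : ∀ {P : CTree} {T : ℝ} {v : Space3} {p : Par P},
    Ord Φ ε P T v p → ∀ x, ∀ y ∈ lastS P x,
      Past (Cw Φ ε P v p) (TreeLines335.rel P p x) x 0 y
  | leaf, _, _, _, _, x, y, _ => by
      have : y = x := rfl
      subst this
      exact .root le_rfl
  | node l r, T, v, p, ho, x, y, hy => by
      have hs : Tree674.sin Φ ε v p.1 ≤ p.1.1 := sin_le hε v p.1
      have hs0 : 0 < Tree674.sin Φ ε v p.1 := ho.2.1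
      have hl : ∀ x', ∀ y' ∈ lastS l x', Past (Cw Φ ε (node l r) v p)
          (TreeLines335.rel l p.2.1 x') (Sum.inl x') 0 (Sum.inl y') := fun x' y' h' =>
        past_map (e := Sum.inl) (fun u i j h => h.imp (fun h => Or.inr (Or.inl ⟨i, j, rfl, rfl, h⟩))
          (fun h => Or.inr (Or.inl ⟨j, i, rfl, rfl, h⟩))) (past_lastS hε ho.2.2.1 x' y' h')
      have hr : ∀ x', ∀ y' ∈ lastS r x', Past (Cw Φ ε (node l r) v p)
          (TreeLines335.rel r p.2.2 x') (Sum.inr x') 0 (Sum.inr y') := fun x' y' h' =>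
        past_map (e := Sum.inr) (fun u i j h => h.imp (fun h => Or.inr (Or.inr ⟨i, j, rfl, rfl, h⟩))
          (fun h => Or.inr (Or.inr ⟨j, i, rfl, rfl, h⟩))) (past_lastS hε ho.2.2.2 x' y' h')
      have hL : ∀ y', Past (Cw Φ ε (node l r) v p) p.1.1 (Sum.inl (root l)) 0 (Sum.inl y') :=
        fun y' => Past.trans (.root ((rel_lt hε hs0 ho.2.2.1 _).le.trans hs))
          (hl (root l) y' (by rw [lastS_root]; exact Finset.mem_univ _))
      have hR : ∀ y', Past (Cw Φ ε (node l r) v p) p.1.1 (Sum.inr (root r)) 0 (Sum.inr y') :=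
        fun y' => Past.trans (.root ((rel_lt hε hs0 ho.2.2.2 _).le.trans hs))
          (hr (root r) y' (by rw [lastS_root]; exact Finset.mem_univ _))
      have hc : Cw Φ ε (node l r) v p p.1.1 (Sum.inl (root l)) (Sum.inr (root r)) :=
        Or.inl (Or.inl ⟨rfl, rfl, hs, le_rfl⟩)
      have hc' : Cw Φ ε (node l r) v p p.1.1 (Sum.inr (root r)) (Sum.inl (root l)) :=
        Or.inr (Or.inl ⟨rfl, rfl, hs, le_rfl⟩)
      rcases x with x | x
      · by_cases hx : x = root l
        · subst hx
          have h1 : TreeLines335.rel (node l r) p (Sum.inl (root l)) = p.1.1 := by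
            simp [TreeLines335.rel]
          rw [h1]
          rcases y with y | y
          · exact hL y
          · exact Past.trans (.step (.root le_rfl) hc le_rfl) (hR y)
        · have h1 : TreeLines335.rel (node l r) p (Sum.inl x) = TreeLines335.rel l p.2.1 x := by
            simp [TreeLines335.rel, hx]
          rw [h1]
          simp only [lastS, Sum.elim_inl, if_neg hx, Finset.mem_map,
            Function.Embedding.coeFn_mk] at hy
          obtain ⟨y', hy', rfl⟩ := hy
          exact hl x y' hy'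
      · by_cases hx : x = root r
        · subst hx
          have h1 : TreeLines335.rel (node l r) p (Sum.inr (root r)) = p.1.1 := by
            simp [TreeLines335.rel]
          rw [h1]
          rcases y with y | y
          · exact Past.trans (.step (.root le_rfl) hc' le_rfl) (hL y)
          · exact hR y
        · have h1 : TreeLines335.rel (node l r) p (Sum.inr x) = TreeLines335.rel r p.2.2 x := by
            simp [TreeLines335.rel, hx]
          rw [h1]
          simp only [lastS, Sum.elim_inr, if_neg hx, Finset.mem_map,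
            Function.Embedding.coeFn_mk] at hy
          obtain ⟨y', hy', rfl⟩ := hy
          exact hr x y' hy'

end tree

/-! ### Trees in marked worlds -/

variable {α : Type} [Fintype α] {Φ : Space3 → ℝ} {ε v T' : ℝ} {K : ℕ} {W W' : MW α} {P : CTree}
  {z : PhasePoint × Par P} {e : Idx P → α}

/-- In the world `W` the particles `e k` follow the tree `(P, z)` up to the horizon `v`, up to their
release times. -/
structure TreeIn (Φ : Space3 → ℝ) (ε : ℝ) (W : MW α) (P : CTree) (z : PhasePoint × Par P)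
    (e : Idx P → α) (v : ℝ) : Prop where
  inj : Function.Injective e
  born : ∀ k, W.b (e k) = 0
  one : ∀ k, W.m (e k) = 1
  agree : ∀ k u, 0 ≤ u → u ≤ v → u ≤ TreeLines335.rel P z.2 k →
    W.path Φ ε u (e k) = path Φ ε P z.1 z.2 u k
  sealed : ∀ k u j, 0 ≤ u → u ≤ v → u ≤ TreeLines335.rel P z.2 k → W.C Φ ε u (e k) j →
    ∃ m, e m = j ∧ u ≤ TreeLines335.rel P z.2 m

/-- `W'` is `W` with the particles `e k` replaced by the marked lines of the tree. -/
structure LineOf (Φ : Space3 → ℝ) (ε : ℝ) (W W' : MW α) (P : CTree) (z : PhasePoint × Par P)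
    (e : Idx P → α) : Prop where
  b : ∀ k, W'.b (e k) = TreeLines335.rel P z.2 k
  z : ∀ k, W'.z (e k) = back (lineML Φ ε P z k).1
  m : ∀ k, W'.m (e k) = mk P k
  off_b : ∀ x, x ∉ range e → W'.b x = W.b x
  off_z : ∀ x, x ∉ range e → W'.z x = W.z x
  off_m : ∀ x, x ∉ range e → W'.m x = W.m x

namespace TreeIn

variable (h : TreeIn Φ ε W P z e v) (hΦ : AdmissiblePotential Φ) (hε : 0 < ε)
  (hV : Valid Φ ε P T' z.1.2 z.2) (hS : Sep Φ ε P T' z.1 z.2) (hv : v ≤ T')

theorem mono {v' : ℝ} (h : TreeIn Φ ε W P z e v) (hv' : v' ≤ v) : TreeIn Φ ε W P z e v' where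
  inj := h.inj
  born := h.born
  one := h.one
  agree k u h0 hu hr := h.agree k u h0 (hu.trans hv') hr
  sealed k u j h0 hu hr hc := h.sealed k u j h0 (hu.trans hv') hr hc

include h hΦ hε hV in
theorem C_of_window {u : ℝ} (huv : u ≤ v) {i j : Idx P}
    (hw : Cw Φ ε P z.1.2 z.2 u i j) : W.C Φ ε u (e i) (e j) := by
  have key : ∀ i j, InWindow Φ ε P z.1.2 z.2 i j u → W.C Φ ε u (e i) (e j) := by
    intro i j hw
    obtain ⟨h0, h1, h2⟩ := inWindow_rel hε.le hV.2 hw
    refine ⟨by rw [h.born]; exact h0.le, by rw [h.born]; exact h0.le,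
      Or.inr (Or.inl (by rw [h.born]; exact h0)), ?_⟩
    rw [h.agree i u h0.le huv h1, h.agree j u h0.le huv h2]
    exact InWindow.dist_le hΦ hε P T' z.1 z.2 hV i j u hw
  rcases hw with hw | hw
  · exact key i j hw
  · exact MW.C_symm _ (key j i hw)

include h hΦ hε hV hS hv in
theorem window_of_C {u : ℝ} (h0 : 0 ≤ u) (huv : u ≤ v) {i j : Idx P}
    (hi : u ≤ TreeLines335.rel P z.2 i) (hj : u ≤ TreeLines335.rel P z.2 j)
    (hc : W.C Φ ε u (e i) (e j)) : i = j ∨ Cw Φ ε P z.1.2 z.2 u i j := by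
  have hc' : Ct (path Φ ε P z.1 z.2) ε u i j := by
    unfold Ct
    rw [← h.agree i u h0 huv hi, ← h.agree j u h0 huv hj]
    exact hc.2.2.2
  exact (ct_iff hΦ hε hV hS ⟨h0, huv.trans hv⟩).1 hc'

include h hΦ hε hV hS hv in
/-- The own past of an exit. -/
theorem own_past {x : Idx P} (hxv : TreeLines335.rel P z.2 x ≤ v) {r : ℝ} {q : α}
    (hp : Past (W.C Φ ε) (TreeLines335.rel P z.2 x) (e x) r q) :
    0 ≤ r → ∃ y ∈ lastS P x, e y = q ∧ r ≤ TreeLines335.rel P z.2 y := by
  induction hp with
  | @root r hr => exact fun _ => ⟨x, mem_lastS P x, rfl, hr⟩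
  | @step r s' q q' hq hc hr ih =>
    intro h0
    have h0' : 0 ≤ s' := h0.trans hr
    obtain ⟨y, hy, rfl, hy2⟩ := ih h0'
    have hs'x : s' ≤ TreeLines335.rel P z.2 x := hq.le
    obtain ⟨y', rfl, hy2'⟩ := h.sealed y s' q' h0' (hs'x.trans hxv) hy2 hc
    refine ⟨y', ?_, rfl, hr.trans hy2'⟩
    rcases h.window_of_C hΦ hε hV hS hv h0' (hs'x.trans hxv) hy2 hy2' hc with h3 | h3
    · rw [← h3]; exact hy
    · exact lastS_closed hε.le hV.2 x y y' s' hy hs'x h3

include h in
/-- The past of a member at a time at which it is protected stays in the tree. -/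
theorem past_mem {x : Idx P} {t : ℝ} (htv : t ≤ v) (htx : t ≤ TreeLines335.rel P z.2 x) {r : ℝ}
    {q : α} (hp : Past (W.C Φ ε) t (e x) r q) :
    0 ≤ r → ∃ y, e y = q ∧ r ≤ TreeLines335.rel P z.2 y := by
  induction hp with
  | @root r hr => exact fun _ => ⟨x, rfl, hr.trans htx⟩
  | @step r s' q q' hq hc hr ih =>
    intro h0
    have h0' : 0 ≤ s' := h0.trans hr
    obtain ⟨y, rfl, hy2⟩ := ih h0'
    obtain ⟨y', rfl, hy2'⟩ := h.sealed y s' q' h0' (hq.le.trans htv) hy2 hc
    exact ⟨y', rfl, hr.trans hy2'⟩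

include h hΦ hε hV hS hv in
/-- **The own cluster of an exit.** -/
theorem bc_eq {x : Idx P} (hxv : TreeLines335.rel P z.2 x ≤ v) :
    BC (W.C Φ ε) (TreeLines335.rel P z.2 x) (e x) = e '' (lastS P x : Set (Idx P)) := by
  ext q
  constructor
  · intro hq
    obtain ⟨y, hy, hyq, _⟩ := h.own_past hΦ hε hV hS hv hxv hq le_rfl
    exact ⟨y, hy, hyq⟩
  · rintro ⟨y, hy, rfl⟩
    have h1 := past_lastS hε.le hV.2 x y hy
    have h2 : Past (fun u i j => u ≤ v ∧ Cw Φ ε P z.1.2 z.2 u i j) (TreeLines335.rel P z.2 x) x 0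
        y := (past_trC (C := Cw Φ ε P z.1.2 z.2) hxv).2 h1
    exact past_map (e := e) (fun u i j hc => h.C_of_window hΦ hε hV hc.1 hc.2) h2

theorem msize_image {C : ℝ → α → α → Prop} {t : ℝ} {i : α} (e : Idx P → α)
    (hinj : Function.Injective e) {m : α → ℕ} (hm : ∀ k, m (e k) = 1) (S : Finset (Idx P))
    (hS : BC C t i = e '' (S : Set (Idx P))) : msize C m t i = S.card := by
  rw [msize_eq_filter]
  have h1 : (Finset.univ.filter fun k => k ∈ BC C t i) = S.map ⟨e, hinj⟩ := by
    ext k
    rw [Finset.mem_filter, hS]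
    simp
  rw [h1, Finset.sum_map]
  simp only [Function.Embedding.coeFn_mk, hm]
  simp

include h hΦ hε hV hS hv in
/-- **The own size of an exit is its mark.** -/
theorem size_eq {x : Idx P} (hxv : TreeLines335.rel P z.2 x ≤ v) :
    msize (W.C Φ ε) W.m (TreeLines335.rel P z.2 x) (e x) = TreeLines335.mk P x := by
  rw [msize_image e h.inj h.one (lastS P x) (h.bc_eq hΦ hε hV hS hv hxv), card_lastS]

include h in
/-- The size of a protected member is at most the number of leaves. -/
theorem size_le {x : Idx P} {t : ℝ} (htv : t ≤ v) (htx : t ≤ TreeLines335.rel P z.2 x) :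
    msize (W.C Φ ε) W.m t (e x) ≤ P.leaves := by
  rw [msize_eq_filter]
  have h1 : (Finset.univ.filter fun k => k ∈ BC (W.C Φ ε) t (e x)) ⊆
      (Finset.univ : Finset (Idx P)).map ⟨e, h.inj⟩ := by
    intro k hk
    obtain ⟨y, rfl, _⟩ := h.past_mem htv htx (Finset.mem_filter.1 hk).2 le_rfl
    simp
  refine (Finset.sum_le_sum_of_subset h1).trans ?_
  rw [Finset.sum_map]
  simp only [Function.Embedding.coeFn_mk, h.one]
  simp [Tree674.card_idx]

include h hΦ hε hV hS hv in
/-- **The replacement data of a tree.** -/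
theorem rl (hL : LineOf Φ ε W W' P z e) (hok : W.Ok Φ ε) (hok' : W'.Ok Φ ε)
    (hb : ∀ x, 0 ≤ W.b x) (hv0 : 0 ≤ v) (hK : P.leaves ≤ K) :
    RL Φ ε K W W' (range e) v where
  ok := hok
  ok' := hok'
  b0 := hb
  le x := by
    by_cases hx : x ∈ range e
    · obtain ⟨k, rfl⟩ := hx
      rw [h.born, hL.b]
      exact rel_nonneg hε.le hV.2 k
    · rw [hL.off_b x hx]
  bD x hx := by
    obtain ⟨k, rfl⟩ := hx
    rw [h.born]
    exact hv0
  off_b := hL.off_b
  off_z := hL.off_z
  off_m := hL.off_m
  closed s j k hs hj hsj hc := by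
    obtain ⟨x, rfl⟩ := hj
    rw [hL.b] at hsj
    have h0 : 0 ≤ s := by
      have := hc.1
      rw [h.born] at this
      exact this
    obtain ⟨m, rfl, hm⟩ := h.sealed x s k h0 hs hsj hc
    exact ⟨⟨m, rfl⟩, by rw [hL.b]; exact hm⟩
  line x hx hxv := by
    obtain ⟨k, rfl⟩ := hx
    rw [hL.b] at hxv
    have h0 := rel_nonneg hε.le hV.2 k
    rw [hL.z, hL.b, h.agree k _ h0 hxv le_rfl,
      RtG302.path_after_rel hε P T' z.1 z.2 hV k _ le_rfl, back_eq_lineAt]
    rfl
  mark x hx hxv := by
    obtain ⟨k, rfl⟩ := hx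
    rw [hL.b] at hxv ⊢
    rw [h.size_eq hΦ hε hV hS hv hxv, hL.m]
  clean x hx := by
    obtain ⟨k, rfl⟩ := hx
    rw [hL.m]
    exact (mk_le P k).trans hK
  cleanD x hx hxv := by
    obtain ⟨k, rfl⟩ := hx
    rw [hL.b] at hxv
    exact (h.size_le le_rfl hxv.le).trans hK

end TreeIn

end

end Crest.Agent.R122.RealL811
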