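import Crest.Agent.R122.OneCDefs_285
import Crest.Agent.R122.NGBind_317
import Crest.Agent.R122.RtG_302
import Crest.Agent.R122.InEq2Hist_311

/-!
# Reduction to good trees, deterministic part (row 122, helper674)

* `hTreeC_of_hTreeP` : the history strictly before `s` is the closed history at `s`, if the top node
  is finished and the root has no contact at `s`.
* `red_det` : a real cluster seen at time `s` is bad (D5), in exact contact (`Tie`), mid-encounter,
  `TreeBad`, or a real tree with unhit protected tubes.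
* `spdW_le_pre` : the speed of the root at time `s` from the initial energies of the strict past.
-/

set_option autoImplicit false
set_option linter.unusedSectionVars false

open MeasureTheory Set Filter Topology
open scoped ENNReal NNReal
open Crest.AnalysisR.Kinetic
open Crest.Agent.R122.Flow671 Crest.Agent.R122.Loc45 Crest.Agent.R122.Causal291
open Crest.Agent.R122.Inf879 Crest.Agent.R122.GC311 Crest.Agent.R122.EDefs602
open Crest.Agent.R122.Kin796 Crest.Agent.R122.Kin796.CTree Crest.Agent.R122.Tree674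
open Crest.Agent.R122.Relabel674 Crest.Agent.R122.PathFlow968 Crest.Agent.R122.InEq2
open Crest.Agent.R122.RtG302 Crest.Agent.R122.TreeLines335 Crest.Agent.R122.OneC285
open Crest.Agent.R122.GIV566

noncomputable section

open scoped Classical

namespace Crest.Agent.R122.Red674

variable {Φ : Space3 → ℝ} {ε T' te tw u₀ s : ℝ}

/-! ### Exact contacts -/

/-- At time `s` the particle `i` is at distance exactly `ε` of another particle. -/
def Tie (Φ : Space3 → ℝ) (ε : ℝ) {n : ℕ} (X : Config n) (i : Fin n) (s : ℝ) : Prop :=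
  ∃ r, r ≠ i ∧ dist (pth Φ ε X s i).1 (pth Φ ε X s r).1 = ε

theorem ct_symm {κ : Type} [Fintype κ] {Z : κ → PhasePoint} {t : ℝ} {i j : κ}
    (h : Ct (pth Φ ε Z) ε t i j) : Ct (pth Φ ε Z) ε t j i := by
  have h' : dist _ _ ≤ ε := h
  show dist _ _ ≤ ε
  rwa [dist_comm]

/-- A contact which is not old is an exact contact. -/
theorem tie_of_new (hΦ : AdmissiblePotential Φ) (hε : 0 < ε) {n : ℕ} {X : Config n} {i r : Fin n}
    (hr : r ≠ i) (hc : Ct (pth Φ ε X) ε s i r) (ho : ¬ OldCt (Ct (pth Φ ε X) ε) s i r) :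
    Tie Φ ε X i s := by
  refine ⟨r, hr, le_antisymm hc ?_⟩
  have h1 : ∀ᶠ t in 𝓝[<] s, ε ≤ dist (pth Φ ε X t i).1 (pth Φ ε X t r).1 := by
    have h2 : ∀ᶠ t in 𝓝[<] s, ¬ Ct (pth Φ ε X) ε t i r := not_frequently.1 ho
    filter_upwards [h2] with t ht
    exact (not_le.1 ht).le
  have h3 : Tendsto (fun t => dist (pth Φ ε X t i).1 (pth Φ ε X t r).1) (𝓝[<] s)
      (𝓝 (dist (pth Φ ε X s i).1 (pth Φ ε X s r).1)) :=
    ((continuous_dist_pth hΦ hε X i r).tendsto s).mono_left nhdsWithin_le_nhds
  exact ge_of_tendsto h3 h1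

/-! ### From the strict past to the closed past -/

theorem topLt_iff {P : CTree} {p : Par P} (hs : 0 < s) : TopLt P s p ↔ topOut P p < s := by
  cases P with
  | leaf => exact ⟨fun _ => hs, fun _ => trivial⟩
  | node l r => exact Iff.rfl

theorem exists_topLt {P : CTree} {p : Par P} (hs : 0 < s) (h : TopLt P s p) :
    ∃ t, 0 ≤ t ∧ t < s ∧ TopLt P t p := by
  have h1 := (topLt_iff hs).1 h
  obtain ⟨t, ht1, ht2⟩ := exists_between (max_lt h1 hs)
  have h0 : 0 < t := (le_max_right _ _).trans_lt ht1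
  exact ⟨t, h0.le, ht2, (topLt_iff h0).2 ((le_max_left _ _).trans_lt ht1)⟩

/-- The particles other than the root are released before the end of the top node. -/
theorem prot_lt_of_topLt (hε : 0 < ε) {P : CTree} {ℓ : PhasePoint} {p : Par P}
    (hv : Valid Φ ε P T' ℓ.2 p) (hs : 0 < s) (hsT : s ≤ T') (h : TopLt P s p) {x : Idx P}
    (hx : x ≠ Tree674.root P) : prot P T' p x < s := by
  obtain ⟨t, ht0, hts, ht⟩ := exists_topLt hs h
  have hvt : Valid Φ ε P t ℓ.2 p := (valid_iff_top (hts.le.trans hsT)).2 ⟨hv, ht⟩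
  rw [PathFlow968.prot_eq_of_ne P T' t p hx]
  exact (PathFlow968.prot_le hε.le P t ℓ.2 p hvt.2 x).trans_lt hts

/-- If the root has no contact at `s`, the closed past at `s` is the strict past. -/
theorem past_of_no_contact {ι : Type*} {C : ℝ → ι → ι → Prop} {i : ι}
    (hno : ∀ r, r ≠ i → ¬ C s i r) {s' : ℝ} {j : ι} (h : Past C s i s' j) :
    j = i ∨ ∃ r < s, s' ≤ r ∧ Past C r i s' j := by
  induction h with
  | root _ => exact Or.inl rfl
  | @step s₂ s₁ j₁ k h1 hc hs ih =>
    rcases ih with rfl | ⟨r, hr, hsr, hp⟩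
    · by_cases hk : k = j₁
      · exact Or.inl hk
      · right
        have h2 : s₁ ≤ s := h1.le
        have h3 : s₁ < s := by
          rcases h2.lt_or_eq with h3 | h3
          · exact h3
          · subst h3
            exact absurd hc (hno k hk)
        exact ⟨s₁, h3, hs, .step (.root le_rfl) hc hs⟩
    · exact Or.inr ⟨r, hr, hs.trans hsr, .step hp hc hs⟩

section hist

variable {κ : Type} [Fintype κ] {Z : κ → PhasePoint} {i : κ} {P : CTree} {ℓ : PhasePoint}
  {p : Par P} {e : Idx P → κ}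

/-- **The closed history at `s`** from the history strictly before `s`. -/
theorem hTreeC_of_hTreeP (hΦ : AdmissiblePotential Φ) (hε : 0 < ε) (hs : 0 < s) (hsT : s ≤ T')
    (h : HTreeP Φ ε T' s Z i P ℓ p e) (ht : TopLt P s p)
    (hno : ∀ r, r ≠ i → ¬ Ct (pth Φ ε Z) ε s i r) : HTreeC Φ ε T' s Z i P ℓ p e := by
  refine ⟨h.valid, h.sep, h.root, h.inj, h.top.le, ?_, ?_⟩
  · intro k t ht0 hts hk
    rcases hts.lt_or_eq with h1 | h1
    · exact h.agree k t ht0 h1 hk
    · subst h1
      have c1 : Continuous fun r => pth Φ ε Z r (e k) := continuous_pth hΦ hε Z (e k)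
      have c2 : Continuous fun r => path Φ ε P ℓ p r k :=
        (continuous_apply k).comp (Tree674.continuous_path hΦ hε h.valid)
      have c3 : ∀ᶠ r in 𝓝[<] t, pth Φ ε Z r (e k) = path Φ ε P ℓ p r k := by
        filter_upwards [self_mem_nhdsWithin, mem_nhdsWithin_of_mem_nhds (lt_mem_nhds hs)] with r
          hr hr0
        exact h.agree k r (le_of_lt hr0) hr ((le_of_lt hr).trans hk)
      have c4 : Tendsto (fun r => pth Φ ε Z r (e k)) (𝓝[<] t) (𝓝 (pth Φ ε Z t (e k))) :=
        (c1.tendsto t).mono_left nhdsWithin_le_nhds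
      have c5 : Tendsto (fun r => path Φ ε P ℓ p r k) (𝓝[<] t) (𝓝 (path Φ ε P ℓ p t k)) :=
        (c2.tendsto t).mono_left nhdsWithin_le_nhds
      exact tendsto_nhds_unique (c4.congr' c3) c5
  · intro t htI j
    rcases htI.2.lt_or_eq with h1 | h1
    · rw [← h.past t htI.1 h1 j]
      constructor
      · intro hp
        rcases past_of_no_contact hno hp with rfl | ⟨r, hr, htr, hp'⟩
        · exact mem_pre_self h1
        · exact ⟨r, ⟨htr, hr⟩, hp'⟩
      · rintro ⟨r, hr, hp⟩
        exact past_root_mono hr.2.le hp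
    · subst h1
      constructor
      · intro hp
        rcases past_of_no_contact hno hp with rfl | ⟨r, hr, htr, _⟩
        · refine ⟨Tree674.root P, h.root, ?_⟩
          rw [Final973.prot_root]
          exact hsT
        · exact absurd htr (not_le.2 hr)
      · rintro ⟨m, rfl, hm⟩
        by_cases hx : m = Tree674.root P
        · subst hx
          rw [h.root]
          exact .root le_rfl
        · exact absurd hm (not_le.2 (prot_lt_of_topLt hε h.valid hs hsT ht hx))

/-- If the top node is not finished at `s`, the root is in its last collision window. -/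
theorem mid_of_hTreeP (h : HTreeP Φ ε T' s Z i P ℓ p e) (ht : ¬ TopLt P s p) :
    Mid317.Mid Φ ε s P ℓ.2 p := by
  cases P with
  | leaf => exact absurd trivial ht
  | node l r =>
    have h1 : ¬ p.1.1 < s := ht
    have h2 : Tree674.sin Φ ε ℓ.2 p.1 < s := h.top
    exact ⟨(valid_node_iff.1 h.valid).1.1, h2.le, not_lt.1 h1⟩

end hist

/-! ### Unhit protected tubes -/

theorem rel_le_of_topLt (hε : 0 < ε) {P : CTree} {ℓ : PhasePoint} {p : Par P}
    (hv : Valid Φ ε P T' ℓ.2 p) (hs : 0 < s) (hsT : s ≤ T') (h : TopLt P s p) (x : Idx P) :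
    rel P p x ≤ min (prot P T' p x) s := by
  by_cases hx : x = Tree674.root P
  · subst hx
    rw [Final973.prot_root]
    cases P with
    | leaf =>
      rw [show rel leaf p (Tree674.root leaf) = 0 from rfl]
      exact le_min (hs.le.trans hsT) hs.le
    | node l r =>
      rw [rel_root_node]
      have h1 : p.1.1 < s := h
      exact le_min (h1.le.trans hsT) h1.le
  · rw [rel_eq_prot P T' p x hx]
    exact le_min le_rfl (prot_lt_of_topLt hε hv hs hsT h hx).le

/-- The protected tubes cut at the end of the top node. -/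
theorem unhit_ptube (hΦ : AdmissiblePotential Φ) (hε : 0 < ε) {P : CTree} {z : PhasePoint × Par P}
    (hv : Valid Φ ε P T' z.1.2 z.2) (hsep : Sep Φ ε P T' z.1 z.2) (hs : 0 < s) (hsT : s ≤ T')
    (ht : TopLt P s z.2) {m : ℕ} {w : Config m}
    (h : unhit Φ ε (protT Φ ε P T' z) (min s tw) w) : unhit Φ ε (ptube Φ ε P z) tw w := by
  intro x j u hu
  have h1 := rel_le_of_topLt hε hv hs hsT ht x
  have hu1 : u ≤ rel P z.2 x := hu.2.trans (min_le_left _ _)
  have hu2 : u ≤ min (prot P T' z.2 x) (min s tw) :=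
    le_min (hu1.trans (h1.trans (min_le_left _ _)))
      (le_min (hu1.trans (h1.trans (min_le_right _ _))) (hu.2.trans (min_le_right _ _)))
  have h2 := h x j u ⟨hu.1, hu2⟩
  have huT : u ≤ T' := (hu2.trans (min_le_right _ _)).trans ((min_le_left _ _).trans hsT)
  have h3 : Hid424.curve Φ ε P z.1 z.2 x u = (path Φ ε P z.1 z.2 u x).1 := by
    unfold Hid424.curve
    rw [PathFlow968.path_eq_flow hΦ hε hv hsep ⟨hu.1, huT⟩]
  show ε < dist (Hid424.curve Φ ε P z.1 z.2 x u) _
  rw [h3]
  exact h2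

/-! ### The dichotomy -/

section det

variable {k m : ℕ} {V : Config k} {w : Config m} {j : Fin k}

/-- An enumeration of the block is a relabelling of the cluster. -/
theorem bad_of_enum (hΦ : AdmissiblePotential Φ) {k' : ℕ} {e : Fin k' ↪ Fin (k + m)} {j' : Fin k'}
    (he : ∀ x, x ∈ block k m ↔ x ∈ range e) (hj : e j' = Fin.castAdd m j)
    (hb : Chain726.badFam Φ T' te ε k' (fun x => (Fin.append V w : Config (k + m)) (e x)) j') :
    Chain726.badFam Φ T' te ε k V j := by
  have hr : range e = (block k m : Set (Fin (k + m))) := by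
    ext x; rw [← he x]; rfl
  have hk : k' = k := by
    have h1 := congrArg Set.ncard hr
    rw [Set.ncard_coe_finset, ← image_univ, ncard_image_of_injective _ e.injective, ncard_univ,
      Nat.card_eq_fintype_card, Fintype.card_fin] at h1
    rw [h1]
    unfold block
    rw [Finset.card_map, Finset.card_univ, Fintype.card_fin]
  subst hk
  have hmem : ∀ x, ∃ y : Fin k', Fin.castAdd m y = e x := by
    intro x
    have h1 : e x ∈ block k' m := (he _).2 ⟨x, rfl⟩
    unfold block at h1
    obtain ⟨y, _, hy⟩ := Finset.mem_map.1 h1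
    exact ⟨y, hy⟩
  choose f hf using hmem
  have hfi : Function.Injective f := fun x y hxy => e.injective (by rw [← hf x, ← hf y, hxy])
  set σ : Equiv.Perm (Fin k') := Equiv.ofBijective f
    ((Finite.injective_iff_bijective).1 hfi) with hσ
  have h1 : (fun x => (Fin.append V w : Config (k' + m)) (e x)) = fun x => V (σ x) := by
    funext x
    rw [← hf x, Fin.append_left]
    rfl
  have h2 : σ j' = j := Fin.castAdd_injective k' m (by
    rw [← hj]
    exact hf j')
  rw [h1] at hb
  rw [← h2]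
  have h3 := Chain726.permCov_badFam hΦ T' te ε k' σ.symm (σ j') (fun x => V (σ x))
    (by rw [Equiv.symm_apply_apply]; exact hb)
  simp only [Equiv.apply_symm_apply] at h3
  exact h3

/-- The good alternative of the reduction. -/
def GoodRed (Φ : Space3 → ℝ) (ε tw T' : ℝ) {k m : ℕ} (V : Config k) (w : Config m) (j : Fin k)
    (s : ℝ) : Prop :=
  ∃ (P : CTree) (e : Idx P ≃ Fin k) (z : PhasePoint × Par P), e (Tree674.root P) = j ∧
    (∀ x, V (e x) = Tree674.lines Φ ε P z.1 z.2 x) ∧
    Valid Φ ε P T' z.1.2 z.2 ∧ Sep Φ ε P T' z.1 z.2 ∧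
    RealTree674.RealTree Φ ε s (Fin.append V w) (Fin.castAdd m j) P z.1 z.2
      (fun x => Fin.castAdd m (e x)) ∧
    GIV566.unhit Φ ε (ptube Φ ε P z) tw w

/-- The cluster is a tree seen in the middle of the last collision of the root. -/
def MidBad (Φ : Space3 → ℝ) (ε T' : ℝ) {k : ℕ} (V : Config k) (j : Fin k) (s : ℝ) : Prop :=
  ∃ (P : CTree) (e : Idx P ≃ Fin k) (z : PhasePoint × Par P), e (Tree674.root P) = j ∧
    (∀ x, V (e x) = Tree674.lines Φ ε P z.1 z.2 x) ∧
    Valid Φ ε P T' z.1.2 z.2 ∧ Sep Φ ε P T' z.1 z.2 ∧ Mid317.Mid Φ ε s P z.1.2 z.2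

/-- **The dichotomy.** -/
theorem red_det (hΦ : AdmissiblePotential Φ) (hε : 0 < ε) (htw0 : 0 ≤ tw) (htw : tw ≤ u₀)
    (hs : 0 < s) (hste : s ≤ te) (hte : te < T') (K' : ℕ)
    (hV : V ∈ PairExcluded ε k) (hw : w ∈ PairExcluded ε m) (hp : Perp ε V w)
    (hpre : preC Φ ε (Fin.append V w : Config (k + m)) s (Fin.castAdd m j) = block k m) :
    Chain726.badFam Φ T' te ε k V j ∨ Tie Φ ε (Fin.append V w : Config (k + m)) (Fin.castAdd m j) s ∨
      MidBad Φ ε T' V j s ∨ TreeBad Φ ε K' u₀ T' V w j ∨ GoodRed Φ ε tw T' V w j s := by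
  set X : Config (k + m) := Fin.append V w with hX
  have hXE : X ∈ PairExcluded ε (k + m) := (append_mem_pairExcluded_iff V w).2 ⟨hV, hw, hp⟩
  have hsT : s ≤ T' := hste.trans hte.le
  have hT0 : 0 ≤ T' := hs.le.trans hsT
  have hpre' : ∀ x, x ∈ Inf879.pre (Ct (pth Φ ε X) ε) (Fin.castAdd m j) s 0 ↔ x ∈ block k m := by
    intro x
    rw [← hpre, mem_preC_iff_pre X hs]
  rcases Chain726.det_fin_pre hΦ hε hXE (T := T') ⟨hs, hste⟩ hte (Fin.castAdd m j) with
    ⟨P, ℓ, p, e, h⟩ | ⟨k', e, j', _, he, hj, hb⟩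
  swap
  · exact Or.inl (bad_of_enum hΦ (fun x => by rw [← hpre' x, he x]) hj hb)
  right
  have hr : range e = (block k m : Set (Fin (k + m))) := by
    rw [h.range_eq hε hT0 hs]
    ext x
    exact hpre' x
  obtain ⟨e₀, he₀⟩ := exists_equiv_block h.inj hr
  have hroot : e₀ (Tree674.root P) = j := Fin.castAdd_injective k m (by
    rw [← h.root, he₀]; rfl)
  have hlines : ∀ x, V (e₀ x) = Tree674.lines Φ ε P ℓ p x := by
    intro x
    rw [← h.lines_eq hΦ hε hT0 hs x, he₀, hX]
    show _ = (Fin.append V w : Config (k + m)) (Fin.castAdd m (e₀ x))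
    rw [Fin.append_left]
  by_cases ht : TopLt P s p
  swap
  · exact Or.inr (Or.inl ⟨P, e₀, (ℓ, p), hroot, hlines, h.valid, h.sep, mid_of_hTreeP h ht⟩)
  have hold : ∀ r, r ≠ Fin.castAdd m j → ¬ OldCt (Ct (pth Φ ε X) ε) s (Fin.castAdd m j) r := by
    intro r hr' ho
    have h1 := (h.mid hΦ hε hs hsT hr' ho).2
    exact absurd ((topLt_iff hs).1 ht) (not_lt.2 h1)
  by_cases htie : Tie Φ ε X (Fin.castAdd m j) s
  · exact Or.inl htie
  right; right
  have hno : ∀ r, r ≠ Fin.castAdd m j → ¬ Ct (pth Φ ε X) ε s (Fin.castAdd m j) r :=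
    fun r hr' hc => htie (tie_of_new hΦ hε hr' hc (hold r hr'))
  have hC := hTreeC_of_hTreeP hΦ hε hs hsT h ht hno
  rcases hTreeC_unhit_or_treeBad (K' := K') hΦ hε hs.le hsT htw0 htw hV hw hp hC hr with h1 | h1
  swap
  · exact Or.inl h1
  right
  have hR := Mid317.realTree_of_hTreeC hε hsT hC ht
  rw [he₀] at hR
  exact ⟨P, e₀, (ℓ, p), hroot, hlines, h.valid, h.sep, hR,
    unhit_ptube hΦ hε h.valid h.sep hs hsT ht h1⟩

end det

/-! ### Speed of the root -/

/-- The speed at time `s` is bounded by the initial energies of the strict past. -/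
theorem spdW_le_pre (hΦ : AdmissiblePotential Φ) (hε : 0 < ε) {n : ℕ} {Z : Config n}
    (hZ : Z ∈ PairExcluded ε n) (hs : 0 < s) (i : Fin n) (M : ℝ≥0) :
    Hit167.spdW Φ ε M Z i s ≤ Mid317.cS Φ M * eW Z (preC Φ ε Z s i) := by
  obtain ⟨s₀, h0, hs0, hBC⟩ := exists_BC_eq_pre (C := Ct (pth Φ ε Z) ε) (i := i) hs
  have h1 : ∀ᶠ t in 𝓝[<] s, Hit167.spdW Φ ε M Z i t ≤ Mid317.cS Φ M * eW Z (preC Φ ε Z s i) := by
    filter_upwards [self_mem_nhdsWithin, mem_nhdsWithin_of_mem_nhds (lt_mem_nhds hs0)] with t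
      hts hst
    have hst' : s₀ < t := hst
    have h2 := Mid317.spdW_le hΦ hε hZ (h0.trans hst'.le) i M
    have h3 : (Master566.bc Φ ε Z t i).toFinset = preC Φ ε Z s i := by
      ext x
      rw [Set.mem_toFinset, mem_preC_iff_pre Z hs]
      show x ∈ BC (Ct (pth Φ ε Z) ε) t i ↔ _
      rw [hBC t hst'.le hts]
    rw [← h3]
    exact h2
  have h4 : Tendsto (fun t => Hit167.spdW Φ ε M Z i t) (𝓝[<] s) (𝓝 (Hit167.spdW Φ ε M Z i s)) := by
    have h5 : Continuous fun t => Hit167.spdW Φ ε M Z i t := by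
      unfold Hit167.spdW
      exact continuous_const.add (continuous_pth hΦ hε Z i).snd.enorm
    exact (h5.tendsto s).mono_left nhdsWithin_le_nhds
  exact le_of_tendsto h4 h1

end Crest.Agent.R122.Red674

end
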