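import Crest.Agent.R122.Reborn_45
import Crest.Agent.R122.MWFam2_255

/-!
# Links of reborn lines (row 122, LN1, helper255)

A line `l` without contact in `Z + l` up to `σ` (`NoCt`, helper45) and the same line born at `σ`
(`reb l σ`) have the same clean closures; every link of the reborn line is a link of the line.

* `cf_reb`, `ci_reb` : clean closures.
* `link_reb`, `link_reb_right`, `noLink_reb`.
* `pairNL_reb` : families in which some of the lines are reborn.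
-/

set_option autoImplicit false
set_option linter.unusedSectionVars false

open MeasureTheory Set Filter Topology
open Crest.AnalysisR.Kinetic
open Crest.Agent.R122.Causal291 Crest.Agent.R122.CausalGen291
open Crest.Agent.R122.Inf879 Crest.Agent.R122.EDefs602 Crest.Agent.R122.Ins45
open Crest.Agent.R122.MWFam255

namespace Crest.Agent.R122.RelC255

noncomputable section

open scoped Classical

/-! ### Self-contacts are irrelevant for the clean closure -/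

section self

variable {α β γ : Type} {X : Type*} {C₁ : ℝ → β → β → Prop} {z₁ : ℝ → β → X}
  {C C' : ℝ → α → α → Prop} {z₂ z₂' : ℝ → α → X} {e₁ : γ → β} {e₂ : γ → α} {a s : ℝ}
  {P₁ : ℝ → β → Prop} {P₂ P₂' : ℝ → α → Prop} {x : γ}

theorem cfut_mono_ne (he : Function.Injective e₂) (h : ∀ s j k, j ≠ k → C s j k → C' s j k)
    (h0 : ∀ k, z₂ 0 (e₂ k) = z₂' 0 (e₂ k)) (hP : ∀ s k, P₂' s k → P₂ s k)
    (hp : CFut C₁ z₁ C z₂ e₁ e₂ a P₁ P₂ s x) : CFut C₁ z₁ C' z₂' e₁ e₂ a P₁ P₂' s x := by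
  have hcl : ∀ {s k}, CleanB a P₁ P₂ e₁ e₂ s k → CleanB a P₁ P₂' e₁ e₂ s k :=
    fun hc u h1 h2 => ⟨(hc u h1 h2).1, fun h3 => (hc u h1 h2).2 (hP _ _ h3)⟩
  induction hp with
  | init hne hs => exact .init (by rw [← h0]; exact hne) hs
  | new₁ j hj hc h1 hs hk => exact .new₁ j hj hc h1 hs (hcl hk)
  | new₂ j hj hc h1 hs hk =>
    exact .new₂ j hj (h _ _ _ (fun he' => hj ⟨_, he'.symm⟩) hc) h1 hs (hcl hk)
  | chain₁ _ hc hs hk ih => exact .chain₁ ih hc hs (hcl hk)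
  | @chain₂ s₁ s₂ k l _ hc hs hk ih =>
    by_cases hkl : l = k
    · subst hkl
      exact ih.mono hs
    · exact .chain₂ ih (h _ _ _ (fun he' => hkl (he he')) hc) hs (hcl hk)

end self

variable {ι κ μ : Type} [Fintype ι] [Fintype κ] [Fintype μ]
variable {Φ : Space3 → ℝ} {ε T s σ : ℝ} {K : ℕ} {Z : MW ι} {l : ML} {B : MW μ}

/-- The clean closure of the reborn line. -/
theorem cf_reb (hΦ : AdmissiblePotential Φ) (hε : 0 < ε) (h : NoCt Φ ε Z l σ)
    (hZl : (Z.ins l).Ok Φ ε) {k : ι} :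
    CF Φ ε K Z (MW.line (reb l σ)) s k ↔ CF Φ ε K Z (MW.line l) s k := by
  have hz : ∀ k : ι, (Z.ins (reb l σ)).path Φ ε 0 (Sum.inl k) =
      (Z.ins l).path Φ ε 0 (Sum.inl k) := fun k => by
    rw [h.path_reb hΦ hε hZl le_rfl]
  exact ⟨cfut_mono_ne Sum.inl_injective (fun s j k hjk => (h.C_reb hΦ hε hZl s j k hjk).1) hz
      fun s k => (h.inf_reb hΦ hε hZl k).2,
    cfut_mono_ne Sum.inl_injective (fun s j k hjk => (h.C_reb hΦ hε hZl s j k hjk).2)
      (fun k => (hz k).symm) fun s k => (h.inf_reb hΦ hε hZl k).1⟩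

theorem ci_reb (hΦ : AdmissiblePotential Φ) (hε : 0 < ε) (h : NoCt Φ ε Z l σ)
    (hZl : (Z.ins l).Ok Φ ε) {x : ι ⊕ Unit} :
    CI Φ ε K Z (MW.line (reb l σ)) s x ↔ CI Φ ε K Z (MW.line l) s x :=
  forall_congr' fun _ => imp_congr Iff.rfl (cf_reb hΦ hε h hZl)

/-- A contact of the reborn line is a contact of the line. -/
theorem cx_reb (hΦ : AdmissiblePotential Φ) (hε : 0 < ε) (h : NoCt Φ ε Z l σ)
    (hZl : (Z.ins l).Ok Φ ε) (hs : 0 ≤ s) {x : ι ⊕ Unit} {y : ι ⊕ μ}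
    (hc : MW.CX Φ ε Z (MW.line (reb l σ)) B s x y) : MW.CX Φ ε Z (MW.line l) B s x y := by
  obtain ⟨h1, h2, h3, h4⟩ := hc
  have hb : (Z.add (MW.line l)).b x ≤ (Z.add (MW.line (reb l σ))).b x := h.b_le x
  have hp : (Z.add (MW.line (reb l σ))).path Φ ε s x = (Z.add (MW.line l)).path Φ ε s x :=
    congrFun (h.path_reb hΦ hε hZl hs) x
  refine ⟨hb.trans h1, h2, h3.imp id (fun h' => h'.imp (fun h' => hb.trans_lt h') id), ?_⟩
  rwa [hp] at h4

/-- **A link of the reborn line is a link of the line.** -/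
theorem link_reb (hΦ : AdmissiblePotential Φ) (hε : 0 < ε) (h : NoCt Φ ε Z l σ)
    (hZl : (Z.ins l).Ok Φ ε) (hl : Z.LINK Φ ε K (MW.line (reb l σ)) B s) :
    Z.LINK Φ ε K (MW.line l) B s := by
  rw [link_iff] at hl ⊢
  obtain ⟨u, hu, ⟨k, hk, hk'⟩ | ⟨x, y, hx, hy, hc⟩⟩ := hl
  · exact ⟨u, hu, Or.inl ⟨k, (cf_reb hΦ hε h hZl).1 hk, hk'⟩⟩
  · exact ⟨u, hu, Or.inr ⟨x, y, (ci_reb hΦ hε h hZl).1 hx, hy, cx_reb hΦ hε h hZl hu.1 hc⟩⟩

theorem link_reb_right (hΦ : AdmissiblePotential Φ) (hε : 0 < ε) (h : NoCt Φ ε Z l σ)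
    (hZl : (Z.ins l).Ok Φ ε) (hl : Z.LINK Φ ε K B (MW.line (reb l σ)) s) :
    Z.LINK Φ ε K B (MW.line l) s :=
  link_symm (link_reb hΦ hε h hZl (link_symm hl))

/-- The touch time of the reborn line, `theta` form. -/
theorem theta_reb (hΦ : AdmissiblePotential Φ) (hε : 0 < ε) (h : NoCt Φ ε Z l σ)
    (hZl : (Z.ins l).Ok Φ ε) (K : ℕ) (T : ℝ) :
    Z.theta Φ ε K T (MW.line (reb l σ)) = Z.theta Φ ε K T (MW.line l) :=
  h.thetaL_reb hΦ hε hZl T

theorem noLink_reb (hΦ : AdmissiblePotential Φ) (hε : 0 < ε) (h : NoCt Φ ε Z l σ)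
    (hZl : (Z.ins l).Ok Φ ε) (hn : MW.NoLink Φ ε K T Z (MW.line l) B) :
    MW.NoLink Φ ε K T Z (MW.line (reb l σ)) B := by
  intro s h0 hsT hA hB hl
  rw [theta_reb hΦ hε h hZl] at hA
  exact hn s h0 hsT hA hB (link_reb hΦ hε h hZl hl)

theorem noLink_reb_right (hΦ : AdmissiblePotential Φ) (hε : 0 < ε) (h : NoCt Φ ε Z l σ)
    (hZl : (Z.ins l).Ok Φ ε) (hn : MW.NoLink Φ ε K T Z B (MW.line l)) :
    MW.NoLink Φ ε K T Z B (MW.line (reb l σ)) :=
  (noLink_reb hΦ hε h hZl hn.symm).symm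

/-- `l'` is `l`, or `l` reborn at a time before its first contact in `Z`. -/
def RebOf (Φ : Space3 → ℝ) (ε : ℝ) (Z : MW ι) (l l' : ML) : Prop :=
  l' = l ∨ ∃ σ, NoCt Φ ε Z l σ ∧ l' = reb l σ

theorem RebOf.noLink (hΦ : AdmissiblePotential Φ) (hε : 0 < ε) {l' : ML}
    (h : RebOf Φ ε Z l l') (hZl : (Z.ins l).Ok Φ ε) (hn : MW.NoLink Φ ε K T Z (MW.line l) B) :
    MW.NoLink Φ ε K T Z (MW.line l') B := by
  rcases h with rfl | ⟨σ, hσ, rfl⟩
  · exact hn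
  · exact noLink_reb hΦ hε hσ hZl hn

/-- **Families of pairwise unlinked lines: some of the lines are reborn.** -/
theorem pairNL_reb (hΦ : AdmissiblePotential Φ) (hε : 0 < ε) {ls ls' : κ → ML}
    (hok : ∀ k, (Z.ins (ls k)).Ok Φ ε) (h : PairNL Φ ε K T Z ls)
    (hr : ∀ k, RebOf Φ ε Z (ls k) (ls' k)) : PairNL Φ ε K T Z ls' := by
  intro j k hjk
  exact (hr j).noLink hΦ hε (hok j) ((hr k).noLink hΦ hε (hok k) (h j k hjk).symm).symm

end

end Crest.Agent.R122.RelC255
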