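import Crest.Agent.R122.ForOk_424
import Crest.Agent.R122.ForGate2_424
import Crest.Agent.R122.RetTop_424

/-!
# Row 122 (helper424): `RetFacts` and `RetIn` from the deterministic alternative for forests

* `ForDet Φ T K Ps E` : the deterministic alternative for the event `E` of a forest of type `Ps`.
* `retFacts_of_det`, `retIn_of_det`.
-/

set_option autoImplicit false
set_option linter.unusedSectionVars false

open MeasureTheory Set Filter Topology
open scoped Classical ENNReal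
open Crest.AnalysisR.Kinetic
open Crest.Agent.R122.GC311 Crest.Agent.R122.EDefs602
open Crest.Agent.R122.LN2 Crest.Agent.R122.Kin796 Crest.Agent.R122.BH167
open Crest.Agent.R122.Ret424 Crest.Agent.R122.Gate424
open Crest.Agent.R122.RtG302 (AllOk)
open Crest.Agent.R122.Forest399 (FIdx FPar flines FValid FVS)
open Crest.Agent.R122.Final973 (PerpC)

noncomputable section

namespace Crest.Agent.R122.Ret424

variable {Φ : Space3 → ℝ} {f₀ : PhasePoint → ℝ} {T : ℝ} {s : ℕ} {Ps : Fin s → CTree}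

/-- **The deterministic alternative** for an event `E` of a forest and the gas: run from a
sub-structure, bad partition, bad hit. -/
def ForDet (Φ : Space3 → ℝ) (T : ℝ) (K : ℕ) {s : ℕ} (Ps : Fin s → CTree)
    (E : (ε t : ℝ) → (m : ℕ) → FPar Ps → Config m → Prop) : Prop :=
  ∀ L : ℕ, ∃ (N : ℕ) (C R' : ℝ) (N' K' : ℕ), ∀ R > 0, ∀ ς > 0, ∃ ε₁ : ℝ, 0 < ε₁ ∧
    ∀ ε : ℝ, 0 < ε → ε < ε₁ → ∀ (t : Icc (0 : ℝ) T) (n : ℕ) (q : FPar Ps) (w : Config n),
      w ∈ PairExcluded ε n → q ∈ FVS Φ ε Ps t → PerpC ε (flines Φ ε Ps q) w →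
      AllOk Φ ε w (fexL Φ ε Ps q) → E ε t n q w →
      RunS Φ ε t K L (b0 Ps) (flines Φ ε Ps q) w ∨
        BadGas Φ T C R ς ε N s Finset.univ (b0 Ps) (flines Φ ε Ps q) w ∨
        BadHitGas (BPos Φ T) Φ T C R' ε N' K' s Finset.univ (b0 Ps) (flines Φ ε Ps q) w

theorem retFacts_of_det {β : ℝ} {f : ℝ → PhasePoint → ℝ} (hD : Master566.KData Φ β T f₀ f)
    (hlink : ∀ (s : ℕ) (Ps : Fin s → CTree) (x y : FEx Ps), x ≠ y → ∀ K : ℕ,
      ForDet Φ T K Ps (LinkEv Φ K Ps x y))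
    (hret : ∀ (s : ℕ) (Ps : Fin s → CTree) (x : FEx Ps) (i : Fin s) (K : ℕ),
      ForDet Φ T K Ps (RetEv Φ K Ps x i)) : RetFacts Φ f₀ T where
  ok := forOk hD.adm T
  link s Ps x y hxy K := forNull_of_det2 hD (hlink s Ps x y hxy K)
  ret s Ps x i K := forNull_of_det2 hD (hret s Ps x i K)

theorem retIn_of_det {β : ℝ} {f : ℝ → PhasePoint → ℝ} (hD : Master566.KData Φ β T f₀ f)
    (hlink : ∀ (s : ℕ) (Ps : Fin s → CTree) (x y : FEx Ps), x ≠ y → ∀ K : ℕ,
      ForDet Φ T K Ps (LinkEv Φ K Ps x y))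
    (hret : ∀ (s : ℕ) (Ps : Fin s → CTree) (x : FEx Ps) (i : Fin s) (K : ℕ),
      ForDet Φ T K Ps (RetEv Φ K Ps x i)) : Top602.RetIn Φ f₀ f T :=
  retIn_of_facts hD (retFacts_of_det hD hlink hret)

end Crest.Agent.R122.Ret424

end
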