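import Crest.Agent.R122.RealX_974
import Crest.Agent.R122.HidMW_879
import Crest.Agent.R122.LNRet_383

/-!
# A test line which does not return to the tree (row 122, X3), helper974

`Z` base world, `V = treeW Φ ε P z` real in `Z + V` up to the horizon `v` (`TreeIn`), `F = lineML` its
lines, `l` a test line, `FamNL Z (F + l) v` (no touch of a single line before `v`, no link of two
lines up to `v`), and the clean influence of `l` in `Z + l` does not come near the tubes of the tree
(`¬ RetC`). Then the tree is real in `Z + V + l` up to `v`.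

* `path_l₂` : visible particles of `Z + F + l` : coloured by `l`, or as in `Z + V`.
* `avoid` : they stay away from the hidden members.
* `treeIn_ins` : `TreeIn` in `Z + V + l`.
-/

set_option autoImplicit false
set_option linter.unusedSectionVars false

open MeasureTheory Set Filter Topology
open scoped ENNReal
open Crest.AnalysisR.Kinetic
open Crest.Agent.R122.Flow671 hiding rel
open Crest.Agent.R122.Loc45 Crest.Agent.R122.Ins45
open Crest.Agent.R122.Causal291 Crest.Agent.R122.Inf879 Crest.Agent.R122.EDefs602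
open Crest.Agent.R122.Lines255 Crest.Agent.R122.MWAlg255 Crest.Agent.R122.Decomp811
open Crest.Agent.R122.Kin796 Crest.Agent.R122.Kin796.CTree Crest.Agent.R122.Tree674
open Crest.Agent.R122.TreeLines335 Crest.Agent.R122.PathFlow968
open Crest.Agent.R122.MWFam255 (FamNL PairNL CF Col)
open Crest.Agent.R122.E6Hyp879 (E6Hyp withD)
open Crest.Agent.R122.RealL811 (RL ND DF nd_fam compat_ins touched_lines touched_lines_iff treeW)
open Crest.Agent.R122.OneC285 (ptube)
open Crest.Agent.R122.RealX974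

namespace Crest.Agent.R122.RetIn974

noncomputable section

open scoped Classical

variable {ι : Type} [Fintype ι] {Φ : Space3 → ℝ} {ε T T' v u : ℝ} {K : ℕ} {Z : MW ι} {P : CTree}
  {z : PhasePoint × Par P} {l : ML}

/-- Hypotheses for the insertion of a test line. -/
structure RetHypX (Φ : Space3 → ℝ) (ε : ℝ) (K : ℕ) (T T' v : ℝ) (Z : MW ι) (P : CTree)
    (z : PhasePoint × Par P) (l : ML) : Prop where
  valid : Valid Φ ε P T' z.1.2 z.2
  sep : Sep Φ ε P T' z.1 z.2
  hv : v ≤ T'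
  hK : P.leaves ≤ K
  pos : ∀ x, 0 ≤ Z.b x
  l0 : 0 ≤ l.1.1
  tree : RealL811.TreeIn Φ ε (Z.add (treeW Φ ε P z)) P z Sum.inr v
  ok : (Z.add (treeW Φ ε P z)).Ok Φ ε
  okl : ((Z.add (treeW Φ ε P z)).ins l).Ok Φ ε
  /-- no touch before `v`, no link up to `v` -/
  fam : FamNL Φ ε K T Z (withD (lineML Φ ε P z) l) v
  ret : ¬ LNEv383.RetC Φ ε ε K T Z l (ptube Φ ε P z)
  /-- at time `0` the tree is away from the particles of `Z` -/
  sep0 : ∀ (k : Idx P) x, Z.b x ≤ 0 → ε < dist (Tree674.lines Φ ε P z.1 z.2 k).1 (Z.z x).1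

namespace RetHypX

variable (h : RetHypX Φ ε K T T' v Z P z l)

include h in
theorem v0 : 0 ≤ v := h.fam.s0

include h in
theorem famF (hΦ : AdmissiblePotential Φ) (hε : 0 < ε) :
    FamNL Φ ε K T Z (lineML Φ ε P z) v where
  ok := MWFam255.okFam_comp hΦ hε h.fam.ok (E6Hyp879.inlEmb (Idx P) Unit)
  s0 := h.fam.s0
  sT := h.fam.sT
  le k := h.fam.le (Sum.inl k)
  nl j k hjk := h.fam.nl (Sum.inl j) (Sum.inl k) fun h => hjk (Sum.inl_injective h)

include h in
theorem okL (hΦ : AdmissiblePotential Φ) (hε : 0 < ε) :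
    (Z.add (MW.lines (lineML Φ ε P z))).Ok Φ ε := (h.famF hΦ hε).ok.lines hΦ hε

include h in
theorem okLl (hΦ : AdmissiblePotential Φ) (hε : 0 < ε) :
    ((Z.add (MW.lines (lineML Φ ε P z))).ins l).Ok Φ ε :=
  MWFam255.ok_lines_add hΦ hε h.fam.ok (E6Hyp879.inlEmb (Idx P) Unit)
    (⟨fun _ : Unit => Sum.inr (), fun _ _ _ => rfl⟩ : Unit ↪ Idx P ⊕ Unit)
    fun _ _ h => by cases h

include h in
theorem rl (hΦ : AdmissiblePotential Φ) (hε : 0 < ε) :
    RL Φ ε K (Z.add (treeW Φ ε P z)) (Z.add (MW.lines (lineML Φ ε P z))) (range Sum.inr) v :=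
  RealL811.rl_add hΦ hε h.valid h.sep h.hv h.v0 h.hK h.tree h.ok (h.okL hΦ hε) h.pos

/-- The world `Z + F + l`, relabelled. -/
theorem path_comap_withD (hΦ : AdmissiblePotential Φ) (hε : 0 < ε) (F : Idx P → ML)
    (y : (ι ⊕ Idx P) ⊕ Unit) :
    ((Z.add (MW.lines F)).ins l).path Φ ε u y =
      (Z.add (MW.lines (withD F l))).path Φ ε u (Equiv.sumAssoc ι (Idx P) Unit y) := by
  rw [← comap_withD, EquivE416.path_comap hΦ hε, Equiv.symm_apply_apply]

include h in
/-- **Visible particles of `Z + F + l`**: coloured by `l`, or as in `Z + V`. -/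
theorem path_vis (hΦ : AdmissiblePotential Φ) (hε : 0 < ε) (hu : u ∈ Icc 0 v)
    {y : (ι ⊕ Idx P) ⊕ Unit}
    (hy : ((Z.add (MW.lines (lineML Φ ε P z))).ins l).b y ≤ u) :
    (y = Sum.inr () ∧ ((Z.add (MW.lines (lineML Φ ε P z))).ins l).path Φ ε u y =
        (Z.ins l).path Φ ε u (Sum.inr ())) ∨
    (∃ i, y = Sum.inl (Sum.inl i) ∧ CF Φ ε K Z (MW.line l) u i ∧
      ((Z.add (MW.lines (lineML Φ ε P z))).ins l).path Φ ε u y =
        (Z.ins l).path Φ ε u (Sum.inl i)) ∨
    (∃ y₀, y = Sum.inl y₀ ∧ ((Z.add (MW.lines (lineML Φ ε P z))).ins l).path Φ ε u y =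
      (Z.add (treeW Φ ε P z)).path Φ ε u y₀) := by
  have hfam := h.fam
  have hfamF := h.famF hΦ hε
  have key : ∀ y₀ : ι ⊕ Idx P, (Z.add (MW.lines (lineML Φ ε P z))).b y₀ ≤ u →
      (Z.add (MW.lines (lineML Φ ε P z))).path Φ ε u y₀ =
        (Z.add (treeW Φ ε P z)).path Φ ε u y₀ := fun y₀ hy₀ =>
    (h.rl hΦ hε).agree hΦ hε hu.1 hu.2 hy₀
  rw [path_comap_withD hΦ hε]
  by_cases hx : ∃ j, Col Φ ε K Z (withD (lineML Φ ε P z) l) j u
      (Equiv.sumAssoc ι (Idx P) Unit y)
  · obtain ⟨j, hj⟩ := hx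
    have hp := hj.path hΦ hε hfam hu
    rcases j with k | w
    · -- coloured by a line of the tree
      right; right
      have hnl : y ≠ Sum.inr () := by
        rintro rfl
        rcases hj with hj | ⟨i, hi, _⟩
        · have : (Sum.inr () : Idx P ⊕ Unit) = Sum.inl k := Sum.inr_injective hj
          cases this
        · cases hi
      rcases y with y₀ | w
      swap
      · exact absurd rfl hnl
      refine ⟨y₀, rfl, ?_⟩
      have hcol : Col Φ ε K Z (lineML Φ ε P z) k u y₀ := by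
        rcases y₀ with i | k'
        · rcases hj with hj | ⟨i', hi, hi'⟩
          · cases hj
          · rw [show i = i' from Sum.inl_injective hi]
            exact Or.inr ⟨i', rfl, hi'⟩
        · rcases hj with hj | ⟨i', hi, hi'⟩
          · left
            have : (Sum.inl k' : Idx P ⊕ Unit) = Sum.inl k := Sum.inr_injective hj
            rw [Sum.inl_injective this]
          · cases hi
      have hp' := hcol.path hΦ hε hfamF hu
      rw [hp, ← key y₀ hy, hp']
      congr 1
      rcases y₀ with i | k' <;> rfl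
    · -- coloured by `l`
      rcases hj with hj | ⟨i, hi, hi'⟩
      · left
        have hy' : y = Sum.inr () := by
          rcases y with (i | k) | w'
          · cases hj
          · have : (Sum.inl k : Idx P ⊕ Unit) = Sum.inr w := Sum.inr_injective hj
            cases this
          · rfl
        refine ⟨hy', ?_⟩
        rw [hp, hy']
        rfl
      · right; left
        have hy' : y = Sum.inl (Sum.inl i) := by
          rcases y with (i' | k) | w'
          · rw [show i' = i from Sum.inl_injective hi]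
          · cases hi
          · cases hi
        refine ⟨i, hy', hi', ?_⟩
        rw [hp, hy']
        rfl
  · -- no colour
    push Not at hx
    right; right
    obtain ⟨i, hi, hp, _⟩ := MWFam255.path_no_col hΦ hε hfam hu hx
    have hy' : y = Sum.inl (Sum.inl i) := by
      rcases y with (i' | k) | w'
      · rw [show i' = i from Sum.inl_injective hi]
      · cases hi
      · cases hi
    subst hy'
    refine ⟨Sum.inl i, rfl, ?_⟩
    have hx' : ∀ j, ¬ Col Φ ε K Z (lineML Φ ε P z) j u (Sum.inl i) := by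
      rintro j (hj | ⟨i', hi', hj'⟩)
      · cases hj
      · exact hx (Sum.inl j) (Or.inr ⟨i', by rw [← Sum.inl_injective hi']; rfl, hj'⟩)
    obtain ⟨i₂, hi₂, hp₂, _⟩ := MWFam255.path_no_col hΦ hε hfamF hu hx'
    have hii : i = i₂ := Sum.inl_injective hi₂
    rw [hp, ← key (Sum.inl i) hy, hp₂, hii]

/-- The tube of the tree is its path. -/
theorem curve_eq (hΦ : AdmissiblePotential Φ) (hε : 0 < ε) (hV : Valid Φ ε P T' z.1.2 z.2)
    (hS : Sep Φ ε P T' z.1 z.2) (hu : u ∈ Icc 0 T') (k : Idx P) :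
    (ptube Φ ε P z).c k u = (path Φ ε P z.1 z.2 u k).1 :=
  Hid424.curve_eq_path hΦ hε (X := z.1.1) (v := z.1.2) hV hS hu k

include h in
/-- **The visible particles of `Z + F + l` stay away from the hidden members.** -/
theorem avoid (hΦ : AdmissiblePotential Φ) (hε : 0 < ε) (hu : u ∈ Icc 0 v) {k : Idx P}
    (hk : u ≤ rel P z.2 k) {y : (ι ⊕ Idx P) ⊕ Unit}
    (hy : ((Z.add (MW.lines (lineML Φ ε P z))).ins l).b y ≤ u)
    (hvis : ∀ k', y = Sum.inl (Sum.inr k') → rel P z.2 k' < u) :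
    ε < dist ((Z.add (treeW Φ ε P z)).path Φ ε u (Sum.inr k)).1
      (((Z.add (MW.lines (lineML Φ ε P z))).ins l).path Φ ε u y).1 := by
  have huT' : u ∈ Icc 0 T' := ⟨hu.1, hu.2.trans h.hv⟩
  have huT : u ∈ Icc 0 T := ⟨hu.1, hu.2.trans h.fam.sT⟩
  have hul : u ≤ Z.thetaL Φ ε K T l := hu.2.trans (h.fam.le (Sum.inr ()))
  have hcur : ((Z.add (treeW Φ ε P z)).path Φ ε u (Sum.inr k)).1 = (ptube Φ ε P z).c k u := by
    rw [h.tree.agree k u hu.1 hu.2 hk, curve_eq hΦ hε h.valid h.sep huT']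
  have hnear : ∀ q, ¬ RtG302.near ε (ptube Φ ε P z) u q →
      ε < dist ((Z.add (treeW Φ ε P z)).path Φ ε u (Sum.inr k)).1 q := by
    intro q hq
    by_contra hle
    rw [hcur] at hle
    exact hq ⟨k, hk, not_lt.1 hle⟩
  rcases h.path_vis hΦ hε hu hy with ⟨rfl, hp⟩ | ⟨i, rfl, hi, hp⟩ | ⟨y₀, rfl, hp⟩
  · rw [hp]
    exact hnear _ fun hn => h.ret ⟨u, huT, hul, Or.inl ⟨hy, hn⟩⟩
  · rw [hp]
    exact hnear _ fun hn => h.ret ⟨u, huT, hul, Or.inr ⟨i, hi, hn⟩⟩
  · rw [hp]
    by_contra hle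
    push Not at hle
    have hy₀ : (Z.add (MW.lines (lineML Φ ε P z))).b y₀ ≤ u := hy
    rcases hu.1.lt_or_eq with h0 | h0
    · -- a contact
      have hb : (Z.add (treeW Φ ε P z)).b y₀ ≤ u := by
        rcases y₀ with i | k'
        · exact hy₀
        · exact hu.1
      have hc : (Z.add (treeW Φ ε P z)).C Φ ε u (Sum.inr k) y₀ :=
        ⟨hu.1, hb, Or.inr (Or.inl h0), hle⟩
      obtain ⟨k', hk', hk2⟩ := h.tree.sealed k u y₀ hu.1 hu.2 hk hc
      exact absurd (hvis k' (by rw [← hk'])) (not_lt.2 hk2)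
    · -- time `0`
      subst h0
      rcases y₀ with i | k'
      · rw [MW.path_zero hΦ hε] at hle
        exact absurd (h.sep0 k i hy₀) (not_lt.2 hle)
      · exact absurd (hvis k' rfl) (not_lt.2 (rel_nonneg hε.le h.valid.2 k'))

include h in
/-- The data of `Hid_879`. -/
theorem hidHyp (hΦ : AdmissiblePotential Φ) (hε : 0 < ε) :
    Hid879.HidHyp Φ ε v (Z.add (treeW Φ ε P z)).b ((Z.add (treeW Φ ε P z)).path Φ ε)
      ((Z.add (treeW Φ ε P z)).ins l).b (((Z.add (treeW Φ ε P z)).ins l).path Φ ε)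
      ((Z.add (MW.lines (lineML Φ ε P z))).ins l).b
      (((Z.add (MW.lines (lineML Φ ε P z))).ins l).path Φ ε) Sum.inl
      (DF ι (Idx P)) where
  hX := h.ok.bw
  hX' := h.okl.bw
  hW := (h.okLl hΦ hε).bw
  inj := Sum.inl_injective
  sub := by
    rintro _ ⟨k, rfl⟩
    exact ⟨Sum.inr k, rfl⟩
  birth _ := rfl
  off y hy := by
    rcases y with (i | k) | w
    · rfl
    · exact absurd ⟨k, rfl⟩ hy
    · rfl
  le y := by
    rcases y with (i | k) | w
    · exact le_rfl
    · exact rel_nonneg hε.le h.valid.2 k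
    · exact le_rfl
  pos := by
    rintro _ ⟨k, rfl⟩
    exact rel_nonneg hε.le h.valid.2 k
  init a := by
    rw [MW.path_zero hΦ hε, MW.path_zero hΦ hε]
    rfl
  init' y hy := by
    rw [MW.path_zero hΦ hε, MW.path_zero hΦ hε]
    rcases y with (i | k) | w
    · rfl
    · exact absurd ⟨k, rfl⟩ hy
    · rfl
  match_ a ha hat := by
    obtain ⟨k, hk⟩ := ha
    have hka : Sum.inr k = a := Sum.inl_injective hk
    subst hka
    have h0 := rel_nonneg hε.le h.valid.2 k
    have hat' : rel P z.2 k ≤ v := hat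
    have h1 : ((Z.add (MW.lines (lineML Φ ε P z))).ins l).path Φ ε (rel P z.2 k)
        (Sum.inl (Sum.inr k)) = (lineML Φ ε P z k).1.2 :=
      Hid879.path_birth hΦ hε (h.okLl hΦ hε).bw (l := (lineML Φ ε P z k).1) rfl rfl h0
    have h2 : (Z.add (treeW Φ ε P z)).path Φ ε (rel P z.2 k) (Sum.inr k) =
        (lineML Φ ε P z k).1.2 := by
      rw [h.tree.agree k _ h0 hat' le_rfl,
        RtG302.path_after_rel hε P T' z.1 z.2 h.valid k _ le_rfl]
      rfl
    exact h1.trans h2.symm
  closed u hu a a' ha hua ha' hd := by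
    obtain ⟨k, hk⟩ := ha
    have hka : Sum.inr k = a := Sum.inl_injective hk
    subst hka
    have hua' : u ≤ rel P z.2 k := hua
    rcases hu.1.lt_or_eq with h0 | h0
    · have hc : (Z.add (treeW Φ ε P z)).C Φ ε u (Sum.inr k) a' :=
        ⟨hu.1, ha', Or.inr (Or.inl h0), hd⟩
      obtain ⟨k', rfl, hk2⟩ := h.tree.sealed k u a' hu.1 hu.2 hua' hc
      exact ⟨⟨k', rfl⟩, hk2⟩
    · subst h0
      rcases a' with i | k'
      · rw [MW.path_zero hΦ hε] at hd
        exact absurd (h.sep0 k i ha') (not_lt.2 hd)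
      · exact ⟨⟨k', rfl⟩, rel_nonneg hε.le h.valid.2 k'⟩
  avoid u hu a ha hua y hy hvis := by
    obtain ⟨k, hk⟩ := ha
    have hka : Sum.inr k = a := Sum.inl_injective hk
    subst hka
    refine h.avoid hΦ hε hu hua hy fun k' hk' => ?_
    by_contra hlt
    exact hvis ⟨⟨k', hk'.symm⟩, by rw [hk']; exact not_lt.1 hlt⟩

include h in
/-- **The tree is real in `Z + V + l`.** -/
theorem treeIn_ins (hΦ : AdmissiblePotential Φ) (hε : 0 < ε) :
    RealL811.TreeIn Φ ε ((Z.add (treeW Φ ε P z)).ins l) P z (fun k => Sum.inl (Sum.inr k)) v := by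
  have hag := (h.hidHyp hΦ hε).agree hΦ hε h.v0
  refine ⟨Sum.inl_injective.comp Sum.inr_injective, fun _ => rfl, fun _ => rfl, ?_, ?_⟩
  · intro k u h0 huv hk
    rw [(hag u ⟨h0, huv⟩).1 (Sum.inr k) ⟨k, rfl⟩ hk]
    exact h.tree.agree k u h0 huv hk
  · intro k u j h0 huv hk hc
    by_contra hno
    push Not at hno
    have hvis : ∀ k', j = Sum.inl (Sum.inr k') → rel P z.2 k' < u := fun k' hk' =>
      hno k' hk'.symm
    have hb : ((Z.add (MW.lines (lineML Φ ε P z))).ins l).b j ≤ u := by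
      rcases j with (i | k') | w
      · exact hc.2.1
      · exact (hvis k' rfl).le
      · exact hc.2.1
    have h1 := h.avoid hΦ hε ⟨h0, huv⟩ hk hb hvis
    rw [← (hag u ⟨h0, huv⟩).1 (Sum.inr k) ⟨k, rfl⟩ hk,
      ← (hag u ⟨h0, huv⟩).2 j fun _ => hb] at h1
    exact absurd hc.2.2.2 (not_le.2 h1)

end RetHypX

end

end Crest.Agent.R122.RetIn974
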