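import Mathlib

/-!
# Row 122 (helper424): integration of products over finite products of spaces

* `lmarginal_prod_mul` : integrating out a product of one-coordinate functions.
* `lintegral_pi_one` : one marked coordinate, `lintegral_pi_two` : two marked coordinates.
-/

set_option autoImplicit false
set_option linter.unusedSectionVars false

open MeasureTheory Set
open scoped ENNReal

namespace Crest.Agent.R122.Ret424

variable {δ : Type*} [Fintype δ] [DecidableEq δ] {X : δ → Type*} [∀ i, MeasurableSpace (X i)]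
variable (μ : ∀ i, Measure (X i)) [∀ i, SigmaFinite (μ i)]

/-- Integrating out a product of one-coordinate functions. -/
theorem lmarginal_prod_mul (A : Finset δ) {g : ∀ i, X i → ℝ≥0∞} (hg : ∀ i, Measurable (g i))
    (G : (∀ i, X i) → ℝ≥0∞) (hGm : Measurable G)
    (hG : ∀ x i (y : X i), i ∈ A → G (Function.update x i y) = G x) (x : ∀ i, X i) :
    (∫⋯∫⁻_A, (fun q => (∏ i ∈ A, g i (q i)) * G q) ∂μ) x =
      (∏ i ∈ A, ∫⁻ y, g i y ∂μ i) * G x := by
  induction A using Finset.induction_on generalizing G x with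
  | empty => simp
  | @insert a A ha ih =>
    have hm : Measurable fun q : ∀ i, X i => (∏ i ∈ insert a A, g i (q i)) * G q :=
      (Finset.measurable_prod _ fun i _ => (hg i).comp (measurable_pi_apply i)).mul hGm
    rw [lmarginal_insert' _ hm ha]
    have e1 : (fun x : ∀ i, X i => ∫⁻ xᵢ, (∏ i ∈ insert a A, g i (Function.update x a xᵢ i)) *
        G (Function.update x a xᵢ) ∂μ a) =
        fun q => (∏ i ∈ A, g i (q i)) * ((∫⁻ y, g a y ∂μ a) * G q) := by
      funext q
      have e2 : ∀ y : X a, (∏ i ∈ insert a A, g i (Function.update q a y i)) *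
          G (Function.update q a y) = g a y * ((∏ i ∈ A, g i (q i)) * G q) := by
        intro y
        rw [Finset.prod_insert ha, Function.update_self, hG q a y (Finset.mem_insert_self a A)]
        have e3 : ∏ i ∈ A, g i (Function.update q a y i) = ∏ i ∈ A, g i (q i) := by
          refine Finset.prod_congr rfl fun i hi => ?_
          rw [Function.update_of_ne]
          rintro rfl
          exact ha hi
        rw [e3, mul_assoc]
      simp_rw [e2]
      rw [lintegral_mul_const _ (hg a)]
      ring
    rw [e1, ih (fun q => (∫⁻ y, g a y ∂μ a) * G q) (hGm.const_mul _) (fun q i y hi => by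
      rw [hG q i y (Finset.mem_insert_of_mem hi)]) x, Finset.prod_insert ha]
    ring

/-- One marked coordinate. -/
theorem lintegral_pi_one {g : ∀ i, X i → ℝ≥0∞} (hg : ∀ i, Measurable (g i)) (i : δ)
    {F : X i → ℝ≥0∞} (hF : Measurable F) (x₀ : ∀ i, X i) :
    ∫⁻ q, (∏ k, g k (q k)) * F (q i) ∂Measure.pi μ =
      (∏ k ∈ Finset.univ.erase i, ∫⁻ y, g k y ∂μ k) * ∫⁻ a, g i a * F a ∂μ i := by
  have hm : Measurable fun q : ∀ i, X i => (∏ k, g k (q k)) * F (q i) :=
    (Finset.measurable_prod _ fun k _ => (hg k).comp (measurable_pi_apply k)).mul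
      (hF.comp (measurable_pi_apply i))
  have e0 : (fun q : ∀ i, X i => (∏ k, g k (q k)) * F (q i)) =
      fun q => (∏ k ∈ Finset.univ.erase i, g k (q k)) * (g i (q i) * F (q i)) := by
    funext q
    rw [← Finset.mul_prod_erase Finset.univ (fun k => g k (q k)) (Finset.mem_univ i)]
    ring
  rw [lintegral_eq_lmarginal_univ x₀]
  rw [lmarginal_erase _ hm (Finset.mem_univ i)]
  have hm1 : Measurable fun q : ∀ i, X i => g i (q i) * F (q i) :=
    ((hg i).comp (measurable_pi_apply i)).mul (hF.comp (measurable_pi_apply i))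
  have e1 : ∀ x : ∀ i, X i, (∫⋯∫⁻_Finset.univ.erase i,
      (fun q => (∏ k, g k (q k)) * F (q i)) ∂μ) x =
      (∏ k ∈ Finset.univ.erase i, ∫⁻ y, g k y ∂μ k) * (g i (x i) * F (x i)) := by
    intro x
    rw [e0]
    refine lmarginal_prod_mul μ _ hg (fun q => g i (q i) * F (q i)) hm1 (fun q k y hk => ?_) x
    have hki : i ≠ k := (Finset.ne_of_mem_erase hk).symm
    rw [Function.update_of_ne hki]
  simp_rw [e1, Function.update_self]
  rw [lintegral_const_mul]
  exact (hg i).mul hF

/-- Two marked coordinates. -/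
theorem lintegral_pi_two {g : ∀ i, X i → ℝ≥0∞} (hg : ∀ i, Measurable (g i)) {i j : δ}
    (hij : i ≠ j) {F : X i → X j → ℝ≥0∞} (hF : Measurable fun p : X i × X j => F p.1 p.2)
    (x₀ : ∀ i, X i) :
    ∫⁻ q, (∏ k, g k (q k)) * F (q i) (q j) ∂Measure.pi μ =
      (∏ k ∈ (Finset.univ.erase i).erase j, ∫⁻ y, g k y ∂μ k) *
        ∫⁻ b, g j b * ∫⁻ a, g i a * F a b ∂μ i ∂μ j := by
  have hj : j ∈ Finset.univ.erase i := Finset.mem_erase.2 ⟨hij.symm, Finset.mem_univ j⟩
  have hFm : Measurable fun q : ∀ i, X i => F (q i) (q j) :=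
    hF.comp ((measurable_pi_apply i).prodMk (measurable_pi_apply j))
  have hm : Measurable fun q : ∀ i, X i => (∏ k, g k (q k)) * F (q i) (q j) :=
    (Finset.measurable_prod _ fun k _ => (hg k).comp (measurable_pi_apply k)).mul hFm
  rw [lintegral_eq_lmarginal_univ x₀]
  rw [lmarginal_erase' _ hm (Finset.mem_univ i)]
  -- integrate the coordinate `i` first
  have hswap : Measurable fun p : X j × X i => F p.2 p.1 := hF.comp measurable_swap
  have hgF : Measurable fun p : X j × X i => g i p.2 * F p.2 p.1 :=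
    ((hg i).comp measurable_snd).mul hswap
  have hI : Measurable fun b : X j => ∫⁻ a, g i a * F a b ∂μ i := hgF.lintegral_prod_right'
  have e1 : (fun x : ∀ i, X i => ∫⁻ xᵢ, (∏ k, g k (Function.update x i xᵢ k)) *
      F (Function.update x i xᵢ i) (Function.update x i xᵢ j) ∂μ i) =
      fun x => (∏ k ∈ Finset.univ.erase i, g k (x k)) * ∫⁻ a, g i a * F a (x j) ∂μ i := by
    funext x
    have e2 : ∀ y : X i, (∏ k, g k (Function.update x i y k)) *
        F (Function.update x i y i) (Function.update x i y j) =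
        (∏ k ∈ Finset.univ.erase i, g k (x k)) * (g i y * F y (x j)) := by
      intro y
      rw [← Finset.mul_prod_erase Finset.univ _ (Finset.mem_univ i), Function.update_self,
        Function.update_of_ne hij.symm]
      have e3 : ∏ k ∈ Finset.univ.erase i, g k (Function.update x i y k) =
          ∏ k ∈ Finset.univ.erase i, g k (x k) := by
        refine Finset.prod_congr rfl fun k hk => ?_
        rw [Function.update_of_ne (Finset.ne_of_mem_erase hk)]
      rw [e3]
      ring
    simp_rw [e2]
    rw [lintegral_const_mul]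
    exact (hg i).mul (hF.comp (measurable_id.prodMk measurable_const))
  rw [e1]
  have hm2 : Measurable fun x : ∀ i, X i => (∏ k ∈ Finset.univ.erase i, g k (x k)) *
      ∫⁻ a, g i a * F a (x j) ∂μ i :=
    (Finset.measurable_prod _ fun k _ => (hg k).comp (measurable_pi_apply k)).mul
      (hI.comp (measurable_pi_apply j))
  rw [lmarginal_erase _ hm2 hj]
  have hm1 : Measurable fun q : ∀ i, X i => g j (q j) * ∫⁻ a, g i a * F a (q j) ∂μ i :=
    ((hg j).comp (measurable_pi_apply j)).mul (hI.comp (measurable_pi_apply j))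
  have e4 : ∀ x : ∀ i, X i, (∫⋯∫⁻_(Finset.univ.erase i).erase j,
      (fun x => (∏ k ∈ Finset.univ.erase i, g k (x k)) * ∫⁻ a, g i a * F a (x j) ∂μ i) ∂μ) x =
      (∏ k ∈ (Finset.univ.erase i).erase j, ∫⁻ y, g k y ∂μ k) *
        (g j (x j) * ∫⁻ a, g i a * F a (x j) ∂μ i) := by
    intro x
    have e5 : (fun x : ∀ i, X i => (∏ k ∈ Finset.univ.erase i, g k (x k)) *
        ∫⁻ a, g i a * F a (x j) ∂μ i) =
        fun x => (∏ k ∈ (Finset.univ.erase i).erase j, g k (x k)) *
          (g j (x j) * ∫⁻ a, g i a * F a (x j) ∂μ i) := by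
      funext x
      rw [← Finset.mul_prod_erase (Finset.univ.erase i) (fun k => g k (x k)) hj]
      ring
    rw [e5]
    refine lmarginal_prod_mul μ _ hg _ hm1 (fun q k y hk => ?_) x
    have hkj : j ≠ k := (Finset.ne_of_mem_erase hk).symm
    rw [Function.update_of_ne hkj]
  simp_rw [e4, Function.update_self]
  rw [lintegral_const_mul]
  exact (hg j).mul hI

end Crest.Agent.R122.Ret424
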