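import Crest.Agent.R122.RtGDet_302
import Crest.Agent.R122.FinalDefs_973
import Crest.Agent.R122.Hit3_167

/-!
# Row 122 (helper424): forests which are unhit by the gas alone but hit in the real world

* `FEx Ps`, `fexL` : exit lines of a forest, `forestStr` : its structure (helper302's `Str`).
* `exists_fail` : first failure of real avoidance.
* `ret_cases` : **deterministic reduction** of `retF` to: an exit line has touched, two exit lines
  are linked, return of (the influence of) one exit line to the protected tubes of one tree.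
-/

set_option autoImplicit false
set_option linter.unusedSectionVars false

open MeasureTheory Set Filter Topology
open Crest.AnalysisR.Kinetic
open Crest.Agent.R122.Flow671 Crest.Agent.R122.Loc45 Crest.Agent.R122.Ins45
open Crest.Agent.R122.Causal291 Crest.Agent.R122.EDefs602
open Crest.Agent.R122.Kin796 Crest.Agent.R122.Kin796.CTree Crest.Agent.R122.Tree674
open Crest.Agent.R122.PathFlow968 Crest.Agent.R122.TreeLines335 Crest.Agent.R122.GIV566
open Crest.Agent.R122.GC311 Crest.Agent.R122.Hit167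
open Crest.Agent.R122.RtG302 (Str Shadow near AllOk LinkEx RetL RetM RetEx RetLn protT)
open Crest.Agent.R122.Forest399 (FIdx FPar flines fpath FValid FSep FVS)
open Crest.Agent.R122.Final973 (FT froot Avoid PerpC)

noncomputable section

open scoped Classical

namespace Crest.Agent.R122.Ret424

variable {Φ : Space3 → ℝ} {ε : ℝ} {s : ℕ} {Ps : Fin s → CTree} {t T : ℝ} {q : FPar Ps}

/-- Labels of the exit lines of a forest. -/
abbrev FEx (Ps : Fin s → CTree) : Type := {k : FIdx Ps // k.2 ≠ root (Ps k.1)}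

/-- Exit lines of a forest. -/
def fexL (Φ : Space3 → ℝ) (ε : ℝ) (Ps : Fin s → CTree) (q : FPar Ps) (x : FEx Ps) : ML :=
  lineML Φ ε (Ps x.1.1) (q x.1.1) x.1.2

/-- release times -/
def fprot (Ps : Fin s → CTree) (t : ℝ) (q : FPar Ps) (k : FIdx Ps) : ℝ :=
  prot (Ps k.1) t (q k.1).2 k.2

theorem fprot_nonneg (hε : 0 < ε) (ht : 0 ≤ t) (hV : FValid Φ ε Ps t q) (k : FIdx Ps) :
    0 ≤ fprot Ps t q k := Final973.prot_nonneg' hε.le ht hV k

/-- The structure of a valid forest, roots protected up to `t`. -/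
def forestStr (hε : 0 < ε) (ht : 0 ≤ t) (hV : FValid Φ ε Ps t q) : Str (FIdx Ps) (FEx Ps) where
  c u k := fpath Φ ε Ps q u k
  σ := fprot Ps t q
  j := Subtype.val
  ls := fexL Φ ε Ps q
  j_inj := Subtype.val_injective
  birth x := rel_eq_prot (Ps x.1.1) t (q x.1.1).2 x.1.2 x.2
  state x := by
    have h1 := rel_eq_prot (Ps x.1.1) t (q x.1.1).2 x.1.2 x.2
    show _ = path Φ ε (Ps x.1.1) (q x.1.1).1 (q x.1.1).2
      (prot (Ps x.1.1) t (q x.1.1).2 x.1.2) x.1.2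
    rw [RtG302.path_after_rel hε (Ps x.1.1) t (q x.1.1).1 (q x.1.1).2 (hV x.1.1) _ _ h1.le, ← h1]
    rfl
  nonneg := fprot_nonneg hε ht hV

theorem ne_root_of_lt {k : FIdx Ps} {v : ℝ} (hv : v ≤ t) (h : fprot Ps t q k < v) :
    k.2 ≠ root (Ps k.1) := by
  intro hr
  unfold fprot at h
  rw [hr, PathFlow968.prot_root] at h
  exact absurd hv (not_le.2 h)

/-- The protected legs are isolated in the isolated world of the forest. -/
theorem iso_forest (hΦ : AdmissiblePotential Φ) (hε : 0 < ε) (hv : FValid Φ ε Ps t q)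
    (hs : FSep Φ ε Ps t q) :
    Iso (pth Φ ε (flines Φ ε Ps q)) ε (fam (fprot Ps t q)) t := by
  rintro u hu ⟨i, k⟩ hk ⟨i', j⟩ hj
  have hut : u ∈ Icc 0 t := ⟨hu.1, hu.2.le⟩
  rw [Final973.pth_flines hΦ hε hv hs hut]
  have hj' : fprot Ps t q ⟨i', j⟩ < u := not_le.1 hj
  by_cases hii : i = i'
  · subst hii
    refine hs.1 i k j ?_ u hut ?_ ?_
    · rintro rfl
      exact absurd hk (not_le.2 hj')
    · intro hw
      exact absurd (Final973.inWindow_prot (Ps i) hε.le (hv i).2 hw).2 (not_le.2 hj')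
    · intro hw
      exact absurd (Final973.inWindow_prot (Ps i) hε.le (hv i).2 hw).1 (not_le.2 hj')
  · exact hs.2 i i' hii k j u hut

section fail

variable {m : ℕ} {w : Config m}

/-- The real configuration. -/
abbrev rW (Φ : Space3 → ℝ) (ε : ℝ) (Ps : Fin s → CTree) (q : FPar Ps) {m : ℕ} (w : Config m) :
    FIdx Ps ⊕ Fin m → PhasePoint := Sum.elim (flines Φ ε Ps q) w

/-- A failure of real avoidance at time `v`. -/
def FailAt (Φ : Space3 → ℝ) (ε : ℝ) (Ps : Fin s → CTree) (t : ℝ) (q : FPar Ps) {m : ℕ}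
    (w : Config m) (v : ℝ) : Prop :=
  ∃ (k : FIdx Ps) (l : FIdx Ps ⊕ Fin m), v ≤ fprot Ps t q k ∧
    (∀ k', l = Sum.inl k' → fprot Ps t q k' < v) ∧
    dist (fpath Φ ε Ps q v k).1 (pth Φ ε (rW Φ ε Ps q w) v l).1 ≤ ε

/-- **First failure of real avoidance.** -/
theorem exists_fail (hΦ : AdmissiblePotential Φ) (hε : 0 < ε) (ht : 0 ≤ t)
    (hv : FValid Φ ε Ps t q) (hs : FSep Φ ε Ps t q)
    (hX : rW Φ ε Ps q w ∈ Dom Φ (FIdx Ps ⊕ Fin m))
    (hA : ¬ Avoid Φ ε (flines Φ ε Ps q) w (froot Ps) t) :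
    ∃ v ∈ Icc 0 t, Iso (pth Φ ε (rW Φ ε Ps q w)) ε (fun u => Sum.inl '' fam (fprot Ps t q) u) v ∧
      (∀ u ∈ Icc 0 v, ∀ k, u ≤ fprot Ps t q k →
        fpath Φ ε Ps q u k = pth Φ ε (rW Φ ε Ps q w) u (Sum.inl k)) ∧
      FailAt Φ ε Ps t q w v := by
  set X := rW Φ ε Ps q w with hXdef
  set V := flines Φ ε Ps q with hVdef
  set σ := fprot Ps t q with hσ
  have hVD : V ∈ Dom Φ (FIdx Ps) := Final973.flines_mem_Dom hε ht hv hs
  have hloc : LocUniq ε t (pth Φ ε V) (pth Φ ε X) := locUniq_pth hΦ hε t hVD hX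
  have hzV : ∀ i, ContinuousOn (fun u => pth Φ ε V u i) (Icc 0 t) :=
    fun i => (continuous_pth hΦ hε V i).continuousOn
  have hzX : ∀ i, ContinuousOn (fun u => pth Φ ε X u i) (Icc 0 t) :=
    fun i => (continuous_pth hΦ hε X i).continuousOn
  have hinj : Function.Injective (Sum.inl : FIdx Ps → FIdx Ps ⊕ Fin m) := Sum.inl_injective
  have h0 : ∀ i ∈ fam σ 0, pth Φ ε V 0 i = pth Φ ε X 0 (Sum.inl i) := by
    intro i _
    have e1 : pth Φ ε V 0 = V := flow_zero hΦ hε V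
    have e2 : pth Φ ε X 0 = X := flow_zero hΦ hε X
    rw [e1, e2]
    rfl
  have hI1 : Iso (pth Φ ε V) ε (fam σ) t := iso_forest hΦ hε hv hs
  have hAn : Anti (fam σ) t := fam_anti σ t
  have hag : ∀ v, v ≤ t → Iso (pth Φ ε X) ε (fun u => Sum.inl '' fam σ u) v →
      ∀ u ∈ Icc 0 v, ∀ k, u ≤ σ k → fpath Φ ε Ps q u k = pth Φ ε X u (Sum.inl k) := by
    intro v hvt hI2 u hu k hk
    have := Iso.agree hzV hzX hloc hinj hvt (hAn.mono hvt) h0 (hI1.mono hvt) hI2 u hu k hk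
    rw [← this, Final973.pth_flines hΦ hε hv hs ⟨hu.1, hu.2.trans hvt⟩]
  rcases iso_or_first_touch hzV hzX hloc hinj le_rfl hAn h0 hI1 with hI | ⟨v, hv', hI, l, hl, i', hi',
    hd⟩
  · -- the failure is at the final time
    refine ⟨t, ⟨ht, le_rfl⟩, hI, hag t le_rfl hI, ?_⟩
    rw [Final973.avoid_iff_avoidP hΦ hε ht hv hs] at hA
    unfold Final973.AvoidP at hA
    rw [Forest399.flinesM_of_valid hv] at hA
    push Not at hA
    obtain ⟨k, j, u, hu, hj, hd⟩ := hA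
    have hut : u ≤ t := hu.2.trans (Final973.prot_le' hε.le hv k)
    rcases lt_or_eq_of_le hut with h1 | h1
    · exfalso
      have h2 := hI u ⟨hu.1, h1⟩ (Sum.inl k) ⟨k, hu.2, rfl⟩ j (by
        rintro ⟨k', hk', rfl⟩
        exact absurd (hj k' rfl) (not_lt.2 hk'))
      rw [← hag t le_rfl hI u ⟨hu.1, hut⟩ k hu.2,
        ← Final973.pth_flines hΦ hε hv hs ⟨hu.1, hut⟩] at h2
      exact absurd hd (not_le.2 h2)
    · subst h1
      refine ⟨k, j, hu.2, hj, ?_⟩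
      rw [← Final973.pth_flines hΦ hε hv hs ⟨hu.1, le_rfl⟩]
      exact hd
  · obtain ⟨k, hk, rfl⟩ := hi'
    refine ⟨v, ⟨hv'.1, hv'.2.le⟩, hI, hag v hv'.2.le hI, k, l, hk, ?_, ?_⟩
    · rintro k' rfl
      by_contra hle
      push Not at hle
      exact hl ⟨k', hle, rfl⟩
    · rw [hag v hv'.2.le hI v ⟨hv'.1, le_rfl⟩ k hk]
      exact hd

/-- The shadow of the forest in the real world up to the first failure. -/
theorem forest_shadow (hε : 0 < ε) (ht : 0 ≤ t)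
    (hV : FValid Φ ε Ps t q) (hX : rW Φ ε Ps q w ∈ Dom Φ (FIdx Ps ⊕ Fin m)) {v : ℝ} (hvt : v ≤ t)
    (hI : Iso (pth Φ ε (rW Φ ε Ps q w)) ε (fun u => Sum.inl '' fam (fprot Ps t q) u) v)
    (hag : ∀ u ∈ Icc 0 v, ∀ k, u ≤ fprot Ps t q k →
        fpath Φ ε Ps q u k = pth Φ ε (rW Φ ε Ps q w) u (Sum.inl k)) :
    Shadow Φ ε (forestStr hε ht hV) v (rW Φ ε Ps q w) Sum.inl Sum.inr where
  dom := hX
  e_inj := Sum.inl_injective
  g_inj := Sum.inr_injective
  cover := by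
    rintro (a | b)
    · exact Or.inl ⟨a, rfl⟩
    · exact Or.inr ⟨b, rfl⟩
  disj x i h := by cases h
  exits k hk := ⟨⟨k, ne_root_of_lt hvt hk⟩, rfl⟩
  agree x u h0 hu hx := (hag u ⟨h0, hu⟩ x hx).symm
  iso u hu x hx l hl := by
    refine (hI u hu (Sum.inl x) ⟨x, hx, rfl⟩ l ?_).le
    rintro ⟨y, hy, hyl⟩
    exact absurd (hl y hyl) (not_lt.2 hy)

/-- The protected tubes of the forest (explicit paths). -/
def FTp (Φ : Space3 → ℝ) (ε : ℝ) (Ps : Fin s → CTree) (t : ℝ) (q : FPar Ps) : Tubes (FIdx Ps) :=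
  ⟨fun k u => (fpath Φ ε Ps q u k).1, fprot Ps t q⟩

theorem near_FTp {v : ℝ} {x : Space3} (h : near ε (FTp Φ ε Ps t q) v x) :
    ∃ i, near ε (protT Φ ε (Ps i) t (q i)) v x := by
  obtain ⟨k, h1, h2⟩ := h
  exact ⟨k.1, k.2, h1, h2⟩

/-- **Deterministic reduction.** -/
theorem ret_cases (hΦ : AdmissiblePotential Φ) (hε : 0 < ε) (ht : 0 ≤ t) (hq : q ∈ FVS Φ ε Ps t)
    (hw : w ∈ PairExcluded ε m) (hu : unhit Φ ε (FT Φ ε Ps t q) t w)
    (hA : ¬ Avoid Φ ε (flines Φ ε Ps q) w (froot Ps) t)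
    (hOk : AllOk Φ ε w (fexL Φ ε Ps q)) (K : ℕ) :
    (∃ x, (MW.cfg w).thetaL Φ ε K t (fexL Φ ε Ps q x) ≤ t) ∨
      (∃ x y, x ≠ y ∧ ¬ MW.NoLink Φ ε K t (MW.cfg w) (MW.line (fexL Φ ε Ps q x))
        (MW.line (fexL Φ ε Ps q y))) ∨
      ∃ x i, RetL Φ ε K t w (fexL Φ ε Ps q x) (protT Φ ε (Ps i) t (q i)) ∨
        RetM Φ ε K t w (fexL Φ ε Ps q x) (protT Φ ε (Ps i) t (q i)) := by
  obtain ⟨hv, hs⟩ := hq
  -- the real world is excluded
  have hperp : PerpC ε (flines Φ ε Ps q) w := Final973.perpC_of_unhit hΦ hε ht hv hs hu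
  have hX : rW Φ ε Ps q w ∈ Dom Φ (FIdx Ps ⊕ Fin m) := by
    refine Dom_of_far hε ?_
    rintro (a | a) (b | b) hab
    · exact (Forest399.FSep.zero Ps hε.le ht hv hs (fun h => hab (by rw [h]))).le
    · exact (hperp a b).le
    · have := (hperp b a).le
      rw [dist_comm] at this
      exact this
    · exact (hw a b (fun h => hab (by rw [h]))).le
  obtain ⟨v, hvt, hI, hag, k, l, hk, hl, hd⟩ := exists_fail hΦ hε ht hv hs hX hA
  have hS := forest_shadow (w := w) hε ht hv hX hvt.2 hI hag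
  have hnear : near ε (FTp Φ ε Ps t q) v (pth Φ ε (rW Φ ε Ps q w) v l).1 := ⟨k, hk, hd⟩
  have hwX : (fun i => rW Φ ε Ps q w (Sum.inr i)) = w := rfl
  have hlink : LinkEx Φ ε K t w (fexL Φ ε Ps q) → ∃ x y, x ≠ y ∧
      ¬ MW.NoLink Φ ε K t (MW.cfg w) (MW.line (fexL Φ ε Ps q x)) (MW.line (fexL Φ ε Ps q y)) := by
    intro h
    unfold LinkEx MWFam255.PairNL at h
    push Not at h
    exact h
  rcases l with k' | i
  · -- a released member returns
    rcases hS.det_exit (K := K) (O := FTp Φ ε Ps t q) hΦ hε (u₀ := t) hvt hOk (k := k') (hl k' rfl)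
      hnear with ⟨x, hx⟩ | h | ⟨x, u, hu', hT, hb, hn⟩
    · exact Or.inl ⟨x, hx.trans hvt.2⟩
    · exact Or.inr (Or.inl (hlink h))
    · obtain ⟨i, hi⟩ := near_FTp hn
      exact Or.inr (Or.inr ⟨x, i, Or.inr ⟨u, hu', hT, hb, hi⟩⟩)
  · -- a particle of the gas
    have hghost : ¬ near ε (FTp Φ ε Ps t q) v (pth Φ ε w v i).1 := by
      rintro ⟨a, ha, hda⟩
      have h1 := hu a i v ⟨hvt.1, le_min ha hvt.2⟩
      rw [Final973.FT_c_eq hΦ hε hv hs a hvt, Final973.pth_flines hΦ hε hv hs hvt] at h1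
      exact absurd hda (not_le.2 h1)
    rcases hS.det (K := K) (O := FTp Φ ε Ps t q) hΦ hε (u₀ := t) hvt hOk (i := i)
      (fun h => hghost (h.2 hnear)) with ⟨x, hx⟩ | h | ⟨x, u, hu', hT, j, hF, hn⟩
    · exact Or.inl ⟨x, hx.trans hvt.2⟩
    · exact Or.inr (Or.inl (hlink h))
    · refine Or.inr (Or.inr ?_)
      rcases hn with hn | hn
      · obtain ⟨i, hi⟩ := near_FTp hn
        exact ⟨x, i, Or.inl ⟨u, hu', hT, j, hF, Or.inl hi⟩⟩
      · obtain ⟨i, hi⟩ := near_FTp hn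
        exact ⟨x, i, Or.inl ⟨u, hu', hT, j, hF, Or.inr hi⟩⟩

end fail

end Crest.Agent.R122.Ret424

end
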