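import Crest.Agent.R122.RtGMass_522

/-!
# Row 122, gas level of H12 / F3 (helper522): majorants in tree coordinates

* `MajE Φ f₀ ε T P E c` : the energy weight `wQ` of the event `E` (tree parameters `z`, gas `w`; the
  tree valid and separated at the horizon `T`, `w` non-overlapping) has a jointly measurable majorant
  of mass at most `c`.  No measurability of `E` is needed.
* `NullE`, `SmallE` : the event has small mass for every fixed cut-off `K` and `ε → 0`, resp. for `K`
  large, then `ε → 0` (568's `EvK`, `Ev`).  Calculus: `mono`, `or`, `exists_fin`, `finset`.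
* `ways_gc`, `ways_MS` : mass of `ways` of a measurable tree functional.
* `exists_cfg` : from `MajE` for all trees with at most `K` leaves to a majorant of configurations.
-/

set_option autoImplicit false

open MeasureTheory Set Filter Topology
open scoped Classical ENNReal
open Crest.AnalysisR.Kinetic
open Crest.Agent.R122.Flow671 Crest.Agent.R122.Loc45 Crest.Agent.R122.Causal291
open Crest.Agent.R122.Inf879 Crest.Agent.R122.GC311 Crest.Agent.R122.EDefs602
open Crest.Agent.R122.Kin796 Crest.Agent.R122.Kin796.CTree Crest.Agent.R122.Tree674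
open Crest.Agent.R122.Relabel674 Crest.Agent.R122.TreeBound335 Crest.Agent.R122.ToTree335
open Crest.Agent.R122.InEq2 Crest.Agent.R122.Major522 Crest.Agent.R122.TreeLines335
open Crest.Agent.R122.LineMeas994 Crest.Agent.R122.EBasic602

noncomputable section

namespace Crest.Agent.R122.Gas522

variable {Φ : Space3 → ℝ} {f₀ : PhasePoint → ℝ} {ε T : ℝ} {P : CTree}

/-! ### Algebra of `TP` -/

theorem TP_zero : TP Φ f₀ ε T P (fun _ _ _ => 0) = 0 := by
  unfold TP
  have h : ∀ z : PhasePoint × Par P, {z : PhasePoint × Par P | Valid Φ ε P T z.1.2 z.2}.indicator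
      (fun z => wt Φ P z.1.2 z.2 * (pf Φ f₀ ε P z * gcE f₀ ε fun (m : ℕ) (_ : Config m) => 0)) z =
      0 := by
    intro z
    simp [gcE_zero]
  simp only [h, lintegral_zero]

theorem TP_add (hΦ : AdmissiblePotential Φ) (hf : Measurable f₀)
    {H H' : PhasePoint × Par P → (m : ℕ) → Config m → ℝ≥0∞} (hH : MeasTP P H)
    (hH' : MeasTP P H') :
    TP Φ f₀ ε T P (fun z m w => H z m w + H' z m w) = TP Φ f₀ ε T P H + TP Φ f₀ ε T P H' := by
  have h := TP_finset_sum (ε := ε) (T := T) (P := P) hΦ hf (Finset.univ : Finset Bool)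
    (G := fun b => if b then H else H') (fun b _ => by cases b <;> simp [hH, hH'])
  simpa using h

/-! ### Events with small mass -/

/-- The energy weight of the event `E` has a measurable majorant of mass at most `c`. -/
def MajE (Φ : Space3 → ℝ) (f₀ : PhasePoint → ℝ) (ε T : ℝ) (P : CTree)
    (E : PhasePoint × Par P → (m : ℕ) → Config m → Prop) (c : ℝ≥0∞) : Prop :=
  ∃ H : PhasePoint × Par P → (m : ℕ) → Config m → ℝ≥0∞, MeasTP P H ∧
    (∀ z m w, Valid Φ ε P T z.1.2 z.2 → Sep Φ ε P T z.1 z.2 → w ∈ PairExcluded ε m →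
      E z m w → wQ Φ ε P z ≤ H z m w) ∧ TP Φ f₀ ε T P H ≤ c

section maj

variable {E E' : PhasePoint × Par P → (m : ℕ) → Config m → Prop} {c c' : ℝ≥0∞}

theorem MajE.mono (h : MajE Φ f₀ ε T P E c)
    (hE : ∀ z m w, Valid Φ ε P T z.1.2 z.2 → Sep Φ ε P T z.1 z.2 → w ∈ PairExcluded ε m →
      E' z m w → E z m w) (hc : c ≤ c') : MajE Φ f₀ ε T P E' c' := by
  obtain ⟨H, hH, hle, hm⟩ := h
  exact ⟨H, hH, fun z m w hV hS hw h => hle z m w hV hS hw (hE z m w hV hS hw h), hm.trans hc⟩

theorem MajE.or (hΦ : AdmissiblePotential Φ) (hf : Measurable f₀) (h : MajE Φ f₀ ε T P E c)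
    (h' : MajE Φ f₀ ε T P E' c') : MajE Φ f₀ ε T P (fun z m w => E z m w ∨ E' z m w) (c + c') := by
  obtain ⟨H, hH, hle, hm⟩ := h
  obtain ⟨H', hH', hle', hm'⟩ := h'
  refine ⟨fun z m w => H z m w + H' z m w, fun m => (hH m).add (hH' m),
    fun z m w hV hS hw h => ?_, ?_⟩
  · rcases h with h | h
    · exact (hle z m w hV hS hw h).trans le_self_add
    · exact (hle' z m w hV hS hw h).trans le_add_self
  · rw [TP_add hΦ hf hH hH']
    exact add_le_add hm hm'

theorem MajE.false (c : ℝ≥0∞) : MajE Φ f₀ ε T P (fun _ _ _ => False) c :=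
  ⟨fun _ _ _ => 0, fun _ => measurable_const, fun _ _ _ _ _ _ h => h.elim, by
    rw [TP_zero]; exact zero_le⟩

theorem MajE.finset (hΦ : AdmissiblePotential Φ) (hf : Measurable f₀) {α : Type*} (s : Finset α)
    {E : α → PhasePoint × Par P → (m : ℕ) → Config m → Prop} {c : α → ℝ≥0∞}
    (h : ∀ a ∈ s, MajE Φ f₀ ε T P (E a) (c a)) :
    MajE Φ f₀ ε T P (fun z m w => ∃ a ∈ s, E a z m w) (∑ a ∈ s, c a) := by
  induction s using Finset.induction_on with
  | empty => exact (MajE.false 0).mono (fun _ _ _ _ _ _ h => by simpa using h) zero_le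
  | insert a s ha ih =>
    rw [Finset.sum_insert ha]
    refine ((h a (Finset.mem_insert_self a s)).or hΦ hf
      (ih fun b hb => h b (Finset.mem_insert_of_mem hb))).mono ?_ le_rfl
    rintro z m w - - - ⟨b, hb, hE⟩
    rcases Finset.mem_insert.1 hb with rfl | hb
    · exact Or.inl hE
    · exact Or.inr ⟨b, hb, hE⟩

/-- Constructor from a majorant of the indicator (weight outside the gas expectation). -/
theorem MajE.of_one (hΦ : AdmissiblePotential Φ) {H : PhasePoint × Par P → (m : ℕ) → Config m → ℝ≥0∞}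
    (hH : MeasTP P H) (hle : ∀ z m w, Valid Φ ε P T z.1.2 z.2 → Sep Φ ε P T z.1 z.2 →
      w ∈ PairExcluded ε m → E z m w → 1 ≤ H z m w)
    (hm : ∫⁻ z : PhasePoint × Par P, {z : PhasePoint × Par P | Valid Φ ε P T z.1.2 z.2}.indicator
      (fun z => wt Φ P z.1.2 z.2 * (pf Φ f₀ ε P z * (wQ Φ ε P z * gcE f₀ ε fun m w => H z m w)))
        z ≤ c) :
    MajE Φ f₀ ε T P E c := by
  refine ⟨fun z m w => wQ Φ ε P z * H z m w, fun m => ?_, fun z m w hV hS hw h => ?_, ?_⟩
  · exact ((measurable_wQ hΦ P).comp measurable_fst).mul (hH m)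
  · calc wQ Φ ε P z = wQ Φ ε P z * 1 := (mul_one _).symm
      _ ≤ _ := mul_le_mul_right (hle z m w hV hS hw h) _
  · refine le_trans (le_of_eq ?_) hm
    unfold TP
    refine lintegral_congr fun z => ?_
    congr 1
    funext z
    rw [gcE_const_mul f₀ ε (wQ_ne_top z)]

end maj

/-- Null event: for every cut-off `K`, mass `→ 0` as `ε → 0`. -/
def NullE (Φ : Space3 → ℝ) (f₀ : PhasePoint → ℝ) (T : ℝ) (P : CTree)
    (E : ℕ → ℝ → PhasePoint × Par P → (m : ℕ) → Config m → Prop) : Prop :=
  ∀ δ : ℝ, 0 < δ → EvK fun K ε => MajE Φ f₀ ε T P (E K ε) (ENNReal.ofReal δ)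

/-- Small event: for `K` large, then `ε` small. -/
def SmallE (Φ : Space3 → ℝ) (f₀ : PhasePoint → ℝ) (T : ℝ) (P : CTree)
    (E : ℕ → ℝ → PhasePoint × Par P → (m : ℕ) → Config m → Prop) : Prop :=
  ∀ δ : ℝ, 0 < δ → Ev fun K ε => MajE Φ f₀ ε T P (E K ε) (ENNReal.ofReal δ)

section null

variable {E E' : ℕ → ℝ → PhasePoint × Par P → (m : ℕ) → Config m → Prop}

theorem NullE.small (h : NullE Φ f₀ T P E) : SmallE Φ f₀ T P E := fun δ hδ => (h δ hδ).ev

theorem NullE.mono (h : NullE Φ f₀ T P E)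
    (hE : ∀ K ε z m w, 0 < ε → Valid Φ ε P T z.1.2 z.2 → Sep Φ ε P T z.1 z.2 →
      w ∈ PairExcluded ε m → E' K ε z m w → E K ε z m w) : NullE Φ f₀ T P E' :=
  fun δ hδ => (h δ hδ).mono fun K ε hε hh =>
    hh.mono (fun z m w hV hS hw h => hE K ε z m w hε hV hS hw h) le_rfl

theorem SmallE.mono (h : SmallE Φ f₀ T P E)
    (hE : ∀ K ε z m w, 0 < ε → Valid Φ ε P T z.1.2 z.2 → Sep Φ ε P T z.1 z.2 →
      w ∈ PairExcluded ε m → E' K ε z m w → E K ε z m w) : SmallE Φ f₀ T P E' :=
  fun δ hδ => (h δ hδ).mono fun K ε hε hh =>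
    hh.mono (fun z m w hV hS hw h => hE K ε z m w hε hV hS hw h) le_rfl

/-- The event is only needed for large `K`. -/
theorem SmallE.mono_ev (h : SmallE Φ f₀ T P E) (K₀ : ℕ)
    (hE : ∀ K, K₀ ≤ K → ∀ ε z m w, 0 < ε → Valid Φ ε P T z.1.2 z.2 → Sep Φ ε P T z.1 z.2 →
      w ∈ PairExcluded ε m → E' K ε z m w → E K ε z m w) : SmallE Φ f₀ T P E' :=
  fun δ hδ => ((h δ hδ).and (Ev.of_le K₀ (p := fun K _ => K₀ ≤ K) fun K hK _ _ => hK)).mono
    fun K ε hε hh => hh.1.mono (fun z m w hV hS hw h => hE K hh.2 ε z m w hε hV hS hw h) le_rfl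

theorem half_add_half {δ : ℝ} (hδ : 0 < δ) :
    ENNReal.ofReal (δ / 2) + ENNReal.ofReal (δ / 2) = ENNReal.ofReal δ := by
  rw [← ENNReal.ofReal_add (by positivity) (by positivity), add_halves]

theorem NullE.or (hΦ : AdmissiblePotential Φ) (hf : Measurable f₀) (h : NullE Φ f₀ T P E)
    (h' : NullE Φ f₀ T P E') : NullE Φ f₀ T P fun K ε z m w => E K ε z m w ∨ E' K ε z m w :=
  fun δ hδ => ((h (δ / 2) (by positivity)).and (h' (δ / 2) (by positivity))).mono
    fun K ε _ hh => (hh.1.or hΦ hf hh.2).mono (fun _ _ _ _ _ _ h => h) (half_add_half hδ).le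

theorem SmallE.or (hΦ : AdmissiblePotential Φ) (hf : Measurable f₀) (h : SmallE Φ f₀ T P E)
    (h' : SmallE Φ f₀ T P E') : SmallE Φ f₀ T P fun K ε z m w => E K ε z m w ∨ E' K ε z m w :=
  fun δ hδ => ((h (δ / 2) (by positivity)).and (h' (δ / 2) (by positivity))).mono
    fun K ε _ hh => (hh.1.or hΦ hf hh.2).mono (fun _ _ _ _ _ _ h => h) (half_add_half hδ).le

theorem NullE.false : NullE Φ f₀ T P fun _ _ _ _ _ => False :=
  fun _ _ => EvK.of_forall fun _ _ _ => MajE.false _

theorem NullE.exists_finset (hΦ : AdmissiblePotential Φ) (hf : Measurable f₀) {α : Type*}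
    (s : Finset α) {E : α → ℕ → ℝ → PhasePoint × Par P → (m : ℕ) → Config m → Prop}
    (h : ∀ a ∈ s, NullE Φ f₀ T P (E a)) :
    NullE Φ f₀ T P fun K ε z m w => ∃ a ∈ s, E a K ε z m w := by
  induction s using Finset.induction_on with
  | empty => exact NullE.false.mono fun _ _ _ _ _ _ _ _ _ h => by simpa using h
  | insert a s _ ih =>
    refine ((h a (Finset.mem_insert_self a s)).or hΦ hf
      (ih fun b hb => h b (Finset.mem_insert_of_mem hb))).mono ?_
    rintro K ε z m w - - - - ⟨b, hb, hE⟩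
    rcases Finset.mem_insert.1 hb with rfl | hb
    · exact Or.inl hE
    · exact Or.inr ⟨b, hb, hE⟩

theorem SmallE.exists_finset (hΦ : AdmissiblePotential Φ) (hf : Measurable f₀) {α : Type*}
    (s : Finset α) {E : α → ℕ → ℝ → PhasePoint × Par P → (m : ℕ) → Config m → Prop}
    (h : ∀ a ∈ s, SmallE Φ f₀ T P (E a)) :
    SmallE Φ f₀ T P fun K ε z m w => ∃ a ∈ s, E a K ε z m w := by
  induction s using Finset.induction_on with
  | empty =>
    exact (NullE.false.small).mono fun _ _ _ _ _ _ _ _ _ h => by simpa using h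
  | insert a s _ ih =>
    refine ((h a (Finset.mem_insert_self a s)).or hΦ hf
      (ih fun b hb => h b (Finset.mem_insert_of_mem hb))).mono ?_
    rintro K ε z m w - - - - ⟨b, hb, hE⟩
    rcases Finset.mem_insert.1 hb with rfl | hb
    · exact Or.inl hE
    · exact Or.inr ⟨b, hb, hE⟩

/-- An event independent of `K` which implies a small event is null. -/
theorem SmallE.null {E₀ : ℝ → PhasePoint × Par P → (m : ℕ) → Config m → Prop}
    (h : SmallE Φ f₀ T P E) (K₀ : ℕ)
    (hE : ∀ K, K₀ ≤ K → ∀ ε z m w, 0 < ε → Valid Φ ε P T z.1.2 z.2 → Sep Φ ε P T z.1 z.2 →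
      w ∈ PairExcluded ε m → E₀ ε z m w → E K ε z m w) :
    NullE Φ f₀ T P fun _ => E₀ := by
  intro δ hδ
  obtain ⟨K₁, h⟩ := h δ hδ
  obtain ⟨ε₀, hε₀, h⟩ := h (max K₀ K₁) (le_max_right _ _)
  exact EvK.of_eps hε₀ fun _ ε hε hlt => (h ε hε hlt).mono
    (fun z m w hV hS hw h => hE _ (le_max_left _ _) ε z m w hε hV hS hw h) le_rfl

end null

/-! ### Mass of `ways` -/

section ways

variable {H : (P : CTree) → PhasePoint × Par P → (m : ℕ) → Config m → ℝ≥0∞}

theorem measurable_waysH (hΦ : AdmissiblePotential Φ) (hε : 0 < ε) (hH : MeasTS H) (k m : ℕ)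
    (j : Fin k) : Measurable fun q : Config k × Config m =>
      ways Φ ε T (fun P z => H P z m q.2) q.1 j := by
  unfold ways
  refine Measurable.tsum fun P => Finset.measurable_sum _ fun e _ => ?_
  by_cases he : e (root P) = j
  · simp only [he, true_and]
    have hVe : Measurable fun q : Config k × Config m => (fun x => q.1 (e x) : Idx P → PhasePoint) :=
      measurable_pi_iff.2 fun x => (measurable_pi_apply (e x)).comp measurable_fst
    refine Measurable.ite (hVe (measurableSet_skel hΦ hε P T)) ?_ measurable_const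
    have h1 : Measurable fun q : Config k × Config m =>
        (Tree674.inv Φ ε P T (fun x => q.1 (e x)), q.2) :=
      ((measurable_inv hΦ hε P T).comp hVe).prodMk measurable_snd
    exact (hH P m).comp h1
  · simp only [he, false_and, if_false]
    exact measurable_const

/-- **Mass of `ways` in tree coordinates**, no interaction between the cluster and the gas. -/
theorem ways_gc (hΦ : AdmissiblePotential Φ) (hf : Measurable f₀) (hε : 0 < ε)
    (hH : MeasTS H) :
    ∑' k : ℕ, activity ε ^ k / (k.factorial : ℝ≥0∞) * ∫⁻ V : Config k, gcWeight f₀ ε k V *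
        ∑ j : Fin k, gcE f₀ ε (fun m w => ways Φ ε T (fun P z => H P z m w) V j) ≤
      activity ε * TS Φ f₀ ε T H := by
  set HI : (P : CTree) → PhasePoint × Par P → ℝ≥0∞ := fun P z =>
    gcE f₀ ε fun m w => H P z m w with hHI
  set G : (P : CTree) → PhasePoint × Par P → ℝ≥0∞ := fun P z => pfM Φ f₀ ε P z * HI P z with hGdef
  have hHI' : ∀ P, Measurable (HI P) := fun P =>
    measurable_gcE_par hf (F := fun z m w => H P z m w) fun m => hH P m
  have hG : ∀ P, Measurable (G P) := fun P => (measurable_pfM hΦ hf P).mul (hHI' P)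
  have key : ∀ (k : ℕ) (V : Config k), gcWeight f₀ ε k V *
        ∑ j : Fin k, gcE f₀ ε (fun m w => ways Φ ε T (fun P z => H P z m w) V j) ≤
      ∑ j : Fin k, ways Φ ε T G V j := by
    intro k V
    by_cases hV : V ∈ PairExcluded ε k
    swap
    · have h0 : gcWeight f₀ ε k V = 0 := by simp [gcWeight, Set.indicator_of_notMem hV]
      rw [h0, zero_mul]
      exact zero_le
    have hgw : gcWeight f₀ ε k V = ∏ i, ENNReal.ofReal (f₀ (V i)) := by
      simp [gcWeight, Set.indicator_of_mem hV]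
    rw [Finset.mul_sum]
    refine Finset.sum_le_sum fun j _ => ?_
    rw [gcE_ways hf (G := fun m w P z => H P z m w)
      (fun m P z => (hH P m).comp (measurable_const.prodMk measurable_id)), mul_ways]
    refine ways_mono fun P e _ hW => ?_
    obtain ⟨hval, hlin⟩ := lines_inv hΦ hε hW
    have h4 : pfM Φ f₀ ε P (Tree674.inv Φ ε P T fun x => V (e x)) = gcWeight f₀ ε k V := by
      rw [pfM_of_adm hval.1, hgw]
      unfold pf
      rw [hlin]
      exact Fintype.prod_equiv e _ _ fun x => rfl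
    simp only [hGdef, hHI, h4]
    exact le_rfl
  refine (ENNReal.tsum_le_tsum fun k =>
    mul_le_mul_right (lintegral_mono fun V => key k V) _).trans ?_
  have h5 := tree_bound_tsum hΦ hε (T := T) hG (F := fun k V j => ways Φ ε T G V j)
    (fun k V j => le_rfl)
  refine h5.trans (mul_le_mul_right (ENNReal.tsum_le_tsum fun P => lintegral_mono fun z => ?_) _)
  by_cases hz : Valid Φ ε P T z.1.2 z.2
  · rw [indicator_of_mem (show z ∈ {z : PhasePoint × Par P | Valid Φ ε P T z.1.2 z.2} from hz),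
      indicator_of_mem (show z ∈ {z : PhasePoint × Par P | Valid Φ ε P T z.1.2 z.2} from hz)]
    simp only [hGdef, pfM_of_adm hz.1]
    exact le_rfl
  · rw [indicator_of_notMem
      (show z ∉ {z : PhasePoint × Par P | Valid Φ ε P T z.1.2 z.2} from hz)]
    exact zero_le

/-- The same with the exclusion between the cluster and the gas. -/
theorem ways_MS (hΦ : AdmissiblePotential Φ) (hf : Measurable f₀) (hε : 0 < ε)
    (hH : MeasTS H) :
    MS f₀ ε (fun _ m V w j => ways Φ ε T (fun P z => H P z m w) V j) ≤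
      activity ε * TS Φ f₀ ε T H := by
  have h := to_tree1 (Φ := Φ) hΦ hf hε (T := T) hH
    (F := fun _ m V w j => ways Φ ε T (fun P z => H P z m w) V j)
    (B := fun _ _ _ _ _ => 0) (fun _ _ _ => measurable_const)
    (fun k m V w j _ _ _ => le_self_add)
  have h0 : MS f₀ ε (fun _ _ _ _ _ => 0) = 0 := by
    unfold MS
    simp [gcE_zero]
  rwa [h0, add_zero] at h

end ways

/-! ### From trees to configurations -/

/-- energy weight of a configuration -/
def wV {k : ℕ} (V : Config k) : ℝ≥0∞ := ∑ i, ENNReal.ofReal (1 + ‖(V i).2‖ ^ 2)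

theorem measurable_wV (k : ℕ) : Measurable (wV : Config k → ℝ≥0∞) := by
  unfold wV
  refine Finset.measurable_sum _ fun i _ => ?_
  have h : Measurable fun V : Config k => V i := measurable_pi_apply i
  exact ((h.snd.norm.pow_const 2).const_add 1).ennreal_ofReal

theorem wV_ne_top {k : ℕ} (V : Config k) : wV V ≠ ∞ := by
  unfold wV
  exact ENNReal.sum_ne_top.2 fun i _ => ENNReal.ofReal_ne_top

theorem one_le_wV {k : ℕ} (V : Config k) (j : Fin k) : 1 ≤ wV V := by
  unfold wV
  refine le_trans ?_ (Finset.single_le_sum (f := fun i => ENNReal.ofReal (1 + ‖(V i).2‖ ^ 2))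
    (fun _ _ => zero_le) (Finset.mem_univ j))
  rw [← ENNReal.ofReal_one]
  exact ENNReal.ofReal_le_ofReal (by nlinarith [sq_nonneg ‖(V j).2‖])

theorem wV_block {k m : ℕ} (V : Config k) (w : Config m) :
    eW (Fin.append V w : Config (k + m)) (block k m) = wV V := by
  unfold eW block wV
  rw [Finset.sum_map]
  have h1 : ∀ j : Fin k, (Fin.append V w : Config (k + m)) (Fin.castAddEmb m j) = V j :=
    fun j => Fin.append_left V w j
  simp only [h1]

/-- One functional for all trees with at most `K` leaves. -/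
theorem exists_TS {K : ℕ} {E : (P : CTree) → PhasePoint × Par P → (m : ℕ) → Config m → Prop}
    {c : ℝ≥0∞} (h : ∀ P, P.leaves ≤ K → MajE Φ f₀ ε T P (E P) c) :
    ∃ H : (P : CTree) → PhasePoint × Par P → (m : ℕ) → Config m → ℝ≥0∞, MeasTS H ∧
      (∀ P, P.leaves ≤ K → ∀ z m w, Valid Φ ε P T z.1.2 z.2 → Sep Φ ε P T z.1 z.2 →
        w ∈ PairExcluded ε m → E P z m w → wQ Φ ε P z ≤ H P z m w) ∧
      (∀ P, ¬ P.leaves ≤ K → ∀ z m w, H P z m w = 0) ∧
      TS Φ f₀ ε T H ≤ (GIVStep383.trees K).card * c := by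
  choose H hH hle hm using h
  set G : (P : CTree) → PhasePoint × Par P → (m : ℕ) → Config m → ℝ≥0∞ := fun P z m w =>
    if hP : P.leaves ≤ K then H P hP z m w else 0 with hG
  have hG1 : ∀ P (hP : P.leaves ≤ K), G P = H P hP := by
    intro P hP
    funext z m w
    simp only [hG, dif_pos hP]
  have hG0 : ∀ P, ¬ P.leaves ≤ K → G P = fun _ _ _ => 0 := by
    intro P hP
    funext z m w
    simp only [hG, dif_neg hP]
  refine ⟨G, fun P m => ?_, fun P hP z m w hV hS hw h => ?_, fun P hP z m w => ?_, ?_⟩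
  · by_cases hP : P.leaves ≤ K
    · rw [hG1 P hP]; exact hH P hP m
    · rw [hG0 P hP]; exact measurable_const
  · rw [hG1 P hP]; exact hle P hP z m w hV hS hw h
  · rw [hG0 P hP]
  · rw [TS_eq_tsum, tsum_eq_sum (s := GIVStep383.trees K)]
    · calc ∑ P ∈ GIVStep383.trees K, TP Φ f₀ ε T P (G P)
          ≤ ∑ _P ∈ GIVStep383.trees K, c := Finset.sum_le_sum fun P hP => by
            have hP' := GIVStep383.mem_trees.1 hP
            rw [hG1 P hP']
            exact hm P hP'
        _ = _ := by rw [Finset.sum_const, nsmul_eq_mul]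
    · intro P hP
      have hP' : ¬ P.leaves ≤ K := fun h => hP (GIVStep383.mem_trees.2 h)
      rw [hG0 P hP', TP_zero]

/-- **Majorant of configurations.** `M` dominates the energy weight of the cluster on the event;
both masses (with and without exclusion) are bounded. -/
theorem exists_cfg (hΦ : AdmissiblePotential Φ) (hf : Measurable f₀) (hε : 0 < ε) {K : ℕ}
    {E : (P : CTree) → PhasePoint × Par P → (m : ℕ) → Config m → Prop} {c : ℝ≥0∞}
    (h : ∀ P, P.leaves ≤ K → MajE Φ f₀ ε T P (E P) c) :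
    ∃ M : (k m : ℕ) → Config k → Config m → Fin k → ℝ≥0∞, MeasMS M ∧
      (∀ (P : CTree) (k m : ℕ) (V : Config k) (w : Config m) (e : Idx P ≃ Fin k)
        (z : PhasePoint × Par P), P.leaves ≤ K → Valid Φ ε P T z.1.2 z.2 →
        Sep Φ ε P T z.1 z.2 → (∀ x, V (e x) = lines Φ ε P z.1 z.2 x) →
        w ∈ PairExcluded ε m → E P z m w → wV V ≤ M k m V w (e (root P))) ∧
      MS f₀ ε M ≤ activity ε * ((GIVStep383.trees K).card * c) ∧
      ∑' k : ℕ, activity ε ^ k / (k.factorial : ℝ≥0∞) * ∫⁻ V : Config k, gcWeight f₀ ε k V *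
        ∑ j : Fin k, gcE f₀ ε (fun m w => M k m V w j) ≤
          activity ε * ((GIVStep383.trees K).card * c) := by
  obtain ⟨H, hH, hle, -, hm⟩ := exists_TS h
  refine ⟨fun _ m V w j => ways Φ ε T (fun P z => H P z m w) V j,
    fun k m j => measurable_waysH hΦ hε hH k m j, ?_,
    (ways_MS hΦ hf hε hH).trans (mul_le_mul_right hm _),
    (ways_gc hΦ hf hε hH).trans (mul_le_mul_right hm _)⟩
  intro P k m V w e z hK hV hS hlin hw hE
  have h1 := le_ways hΦ hε (G := fun P z => H P z m w) (P := P) (e := e) (j := e (root P))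
    (ℓ := z.1) (p := z.2) rfl hV hlin
  refine le_trans ?_ h1
  have h2 : wV V = wQ Φ ε P z := by
    rw [wQ_eq hV.1]
    unfold wV
    exact (Fintype.sum_equiv e _ _ fun x => by rw [hlin x]).symm
  rw [h2]
  exact hle P hK z m w hV hS hw hE

end Crest.Agent.R122.Gas522

end
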