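import Crest.Agent.R122.ReplOwn_302
import Crest.Agent.R122.BPair_45
import Crest.Agent.R122.EInf_879
import Crest.Agent.R122.MWAlg_255
import Crest.Agent.R122.TreeLines_335
import Crest.Agent.R122.Decomp3E_811
import Crest.Agent.R122.RealTree_674
import Crest.Agent.R122.LocFlow_45

/-!
# Real world = world with exit lines, up to a time `v` (row 122, blocks A9 and H12), helper302

`G : Str κ' Ex` is an isolated structure: members `κ'` with their own motion `c` and release times
`σ`, and marked exit lines `ls x` of the members `j x`. `X` is a gas configuration consisting of the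
members of the structure (labelled by `e`) and of the particles of `w` (labelled by `g`).
`Shadow G v X e g`: on `[0, v)` the protected legs are isolated in the world of `X` and follow `c`.
Then the paths of the particles of `w` up to time `v` are the paths in the world
`w + (exit lines born before v)`.

* `path_after_rel` : after its release a particle of a tree is on its final line.
* `treeStr` : the structure of a collision tree (exit lines without the root line).
-/

set_option autoImplicit false
set_option linter.unusedSectionVars false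

open MeasureTheory Set Filter Topology
open Crest.AnalysisR.Kinetic
open Crest.Agent.R122.Flow671 Crest.Agent.R122.Loc45 Crest.Agent.R122.Ins45
open Crest.Agent.R122.Causal291 Crest.Agent.R122.Inf879 Crest.Agent.R122.EDefs602
open Crest.Agent.R122.Kin796 Crest.Agent.R122.Kin796.CTree Crest.Agent.R122.Tree674
open Crest.Agent.R122.PathFlow968 Crest.Agent.R122.TreeLines335
open Crest.Agent.R122.Decomp811 Crest.Agent.R122.MWAlg255

namespace Crest.Agent.R122.RtG302

noncomputable section

open scoped Classical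

/-! ### Isolated structures -/

/-- An isolated structure with its exit lines. -/
structure Str (κ' Ex : Type) where
  /-- motion of the isolated structure -/
  c : ℝ → κ' → PhasePoint
  /-- release times -/
  σ : κ' → ℝ
  /-- the member of an exit line -/
  j : Ex → κ'
  /-- the exit lines -/
  ls : Ex → ML
  j_inj : Function.Injective j
  birth : ∀ x, (ls x).1.1 = σ (j x)
  state : ∀ x, (ls x).1.2 = c (σ (j x)) (j x)
  nonneg : ∀ k, 0 ≤ σ k

theorem back_eq_lineAt (l : ℝ × PhasePoint) : back l = lineAt l.1 l.2 0 := by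
  unfold back lineAt
  refine Prod.ext ?_ rfl
  simp only
  rw [zero_sub, neg_smul, sub_eq_add_neg]

section key

variable {κ' Ex κ : Type} [Fintype κ'] [Fintype Ex] [Fintype κ]
variable {Φ : Space3 → ℝ} {ε v : ℝ} {G : Str κ' Ex} {m : ℕ} {X : κ → PhasePoint} {e : κ' → κ}
  {g : Fin m → κ}

/-- The exit lines born before `v`. -/
def Str.born (G : Str κ' Ex) (v : ℝ) : Finset Ex := Finset.univ.filter fun x => G.σ (G.j x) < v

theorem Str.mem_born {x : Ex} : x ∈ G.born v ↔ G.σ (G.j x) < v := by
  simp [Str.born]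

/-- The protected legs are isolated on `[0, v)` and follow the motion of the isolated structure. -/
structure Shadow (Φ : Space3 → ℝ) (ε : ℝ) (G : Str κ' Ex) (v : ℝ) (X : κ → PhasePoint)
    (e : κ' → κ) (g : Fin m → κ) : Prop where
  dom : X ∈ Dom Φ κ
  e_inj : Function.Injective e
  g_inj : Function.Injective g
  cover : ∀ q, q ∈ range e ∨ q ∈ range g
  disj : ∀ x i, e x ≠ g i
  exits : ∀ k, G.σ k < v → k ∈ range G.j
  agree : ∀ x s, 0 ≤ s → s ≤ v → s ≤ G.σ x → pth Φ ε X s (e x) = G.c s x
  iso : ∀ s ∈ Ico 0 v, ∀ x, s ≤ G.σ x → ∀ q, (∀ y, e y = q → G.σ y < s) →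
    ε ≤ dist (pth Φ ε X s (e x)).1 (pth Φ ε X s q).1

/-- exit times cut at `v` -/
def cutT (G : Str κ' Ex) (v : ℝ) (e : κ' → κ) (q : κ) : ℝ :=
  if h : ∃ x, e x = q then min (G.σ h.choose) v else 0

theorem cutT_e (he : Function.Injective e) (x : κ') : cutT G v e (e x) = min (G.σ x) v := by
  have h : ∃ y, e y = e x := ⟨x, rfl⟩
  unfold cutT
  rw [dif_pos h, he h.choose_spec]

theorem cutT_g {i : Fin m} (hd : ∀ x, e x ≠ g i) : cutT G v e (g i) = 0 := by
  unfold cutT
  rw [dif_neg]
  rintro ⟨x, hx⟩
  exact hd x hx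

theorem Shadow.bworld (h : Shadow Φ ε G v X e g) (hΦ : AdmissiblePotential Φ) (hε : 0 < ε)
    (hv0 : 0 ≤ v) :
    BWorld Φ ε (cutT G v e) 0 (rebirthPath (cutT G v e) (pth Φ ε X)) := by
  have hX : BWorld Φ ε (fun _ : κ => (0 : ℝ)) 0 (pth Φ ε X) :=
    World.bworld (world_flow hΦ hε h.dom) fun _ => le_rfl
  have hnn : ∀ q, 0 ≤ cutT G v e q := by
    intro q
    rcases h.cover q with ⟨x, rfl⟩ | ⟨i, rfl⟩
    · rw [cutT_e h.e_inj]; exact le_min (G.nonneg x) hv0
    · rw [cutT_g fun x => h.disj x i]
  refine hX.rebirth hΦ hε hnn fun t ht i j hi _ hj' => ?_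
  -- the hidden particle
  rcases h.cover j with ⟨x, rfl⟩ | ⟨j, rfl⟩
  swap
  · rw [cutT_g fun x => h.disj x j] at hj'
    exact absurd hj' (not_lt.2 ht)
  rw [cutT_e h.e_inj] at hj'
  have hx : t < G.σ x := hj'.trans_le (min_le_left _ _)
  have htv : t < v := hj'.trans_le (min_le_right _ _)
  rw [dist_comm]
  -- strictly after its release
  have key : ∀ s, t < s → s < v → s < G.σ x → ∀ y, G.σ y ≤ t →
      ε ≤ dist (pth Φ ε X s (e x)).1 (pth Φ ε X s (e y)).1 := by
    intro s hts hsv hsx y hy
    refine h.iso s ⟨ht.trans hts.le, hsv⟩ x hsx.le _ fun y' hy' => ?_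
    rw [h.e_inj hy']
    exact hy.trans_lt hts
  rcases h.cover i with ⟨y, rfl⟩ | ⟨i, rfl⟩
  · rw [cutT_e h.e_inj] at hi
    have hy : G.σ y ≤ t := by
      rcases min_le_iff.1 hi with h1 | h1
      · exact h1
      · exact absurd h1 (not_le.2 htv)
    have hc : Continuous fun s => dist (pth Φ ε X s (e x)).1 (pth Φ ε X s (e y)).1 := by
      have h1 : ∀ q, Continuous fun s => (pth Φ ε X s q).1 := fun q =>
        continuous_fst.comp ((continuous_apply q).comp (world_flow hΦ hε h.dom).continuous)
      exact (h1 _).dist (h1 _)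
    have h2 : ∀ᶠ s in 𝓝[>] t, ε ≤ dist (pth Φ ε X s (e x)).1 (pth Φ ε X s (e y)).1 := by
      filter_upwards [Ioo_mem_nhdsGT htv, Ioo_mem_nhdsGT hx] with s hs hs'
      exact key s hs.1 hs.2 hs'.2 y hy
    exact ge_of_tendsto (hc.continuousWithinAt (s := Ioi t)) h2
  · refine h.iso t ⟨ht, htv⟩ x hx.le _ fun y hy => absurd hy (h.disj y i)

/-- The labelling of the particles of the world `w + (exit lines born before v)` in the real
world. -/
def Str.lab (G : Str κ' Ex) (v : ℝ) (e : κ' → κ) (g : Fin m → κ) : Fin m ⊕ G.born v → κ :=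
  Sum.elim g fun a => e (G.j a)

/-- The world of `w` and of the exit lines born before `v`. -/
def Str.wL (G : Str κ' Ex) (v : ℝ) (w : Config m) : MW (Fin m ⊕ G.born v) :=
  (MW.cfg w).add (sub G.ls (G.born v))

/-- **Key lemma.** Up to time `v` the visible particles have in the real world the paths of the
world `w + (exit lines born before v)`. -/
theorem Shadow.path_eq_aux (h : Shadow Φ ε G v X e g) (hΦ : AdmissiblePotential Φ) (hε : 0 < ε)
    (hv0 : 0 ≤ v)
    (hOk : BWorld Φ ε (G.wL v fun i => X (g i)).b 0 ((G.wL v fun i => X (g i)).path Φ ε))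
    {t : ℝ} (ht : t ∈ Icc 0 v) (a : Fin m ⊕ G.born v) :
    (G.wL v fun i => X (g i)).path Φ ε t a =
      rebirthPath (cutT G v e) (pth Φ ε X) t (G.lab v e g a) := by
  set Y := (G.wL v fun i => X (g i)) with hY
  have hR := h.bworld hΦ hε hv0
  have hEinj : Function.Injective (G.lab v e g) := by
    rintro (a | a) (b | b) hab
    · exact congrArg Sum.inl (h.g_inj hab)
    · exact absurd hab.symm (h.disj _ _)
    · exact absurd hab (h.disj _ _)
    · exact congrArg Sum.inr (Subtype.ext (G.j_inj (h.e_inj hab)))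
  have hbirth : ∀ a, cutT G v e (G.lab v e g a) = Y.b a := by
    rintro (a | a)
    · change cutT G v e (g a) = 0
      exact cutT_g fun x => h.disj x a
    · change cutT G v e (e (G.j a)) = (G.ls a).1.1
      rw [cutT_e h.e_inj, G.birth, min_eq_left (Str.mem_born.1 a.2).le]
  have key := BWorld.agree_own hΦ hε hR hOk (e := G.lab v e g) (f := id) hEinj
    Function.injective_id (S := univ) (A := ∅) (a := 0) (T := v) le_rfl le_rfl
    (fun a _ t _ => by rw [hbirth a]; rfl) (fun _ h => absurd h (notMem_empty _)) ?_ ?_ ?_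
  · exact (key a (mem_univ _) t ht).symm
  · rintro (a | a) _
    · change rebirthPath (cutT G v e) (pth Φ ε X) 0 (g a) = Y.path Φ ε 0 (Sum.inl a)
      rw [rebirthPath_of_le (by rw [cutT_g fun x => h.disj x a]), MW.path_zero hΦ hε]
      show flow Φ ε 0 X (g a) = _
      rw [Flow671.flow_zero hΦ hε]
      rfl
    · change rebirthPath (cutT G v e) (pth Φ ε X) 0 (e (G.j a)) = Y.path Φ ε 0 (Sum.inr a)
      have ha : G.σ (G.j a) < v := Str.mem_born.1 a.2
      rw [rebirthPath_of_ge (by rw [cutT_e h.e_inj]; exact le_min (G.nonneg _) hv0),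
        cutT_e h.e_inj, min_eq_left ha.le, h.agree _ _ (G.nonneg _) ha.le le_rfl,
        MW.path_zero hΦ hε]
      change _ = back (G.ls a).1
      rw [back_eq_lineAt, G.birth, G.state]
  · intro t ht a _ _ k hk hne
    exfalso
    rcases h.cover k with ⟨x, rfl⟩ | ⟨j, rfl⟩
    · rw [cutT_e h.e_inj] at hk
      have hx : G.σ x < v := by
        rcases min_le_iff.1 hk with h1 | h1
        · exact h1.trans_lt ht.2
        · exact absurd h1 (not_le.2 ht.2)
      obtain ⟨y, rfl⟩ := h.exits x hx
      exact hne (Sum.inr ⟨y, Str.mem_born.2 hx⟩) (Or.inl (mem_univ _)) rfl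
    · exact hne (Sum.inl j) (Or.inl (mem_univ _)) rfl
  · intro t ht a _ _ k _ hne
    exact absurd rfl (hne k (Or.inl (mem_univ _)))

/-- **Key lemma**, particles of `w`. -/
theorem Shadow.path_eq (h : Shadow Φ ε G v X e g) (hΦ : AdmissiblePotential Φ) (hε : 0 < ε)
    (hv0 : 0 ≤ v)
    (hOk : BWorld Φ ε (G.wL v fun i => X (g i)).b 0 ((G.wL v fun i => X (g i)).path Φ ε))
    {t : ℝ} (ht : t ∈ Icc 0 v) (i : Fin m) :
    (G.wL v fun i => X (g i)).path Φ ε t (Sum.inl i) = pth Φ ε X t (g i) := by
  rw [h.path_eq_aux hΦ hε hv0 hOk ht]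
  refine rebirthPath_of_le ?_
  change cutT G v e (g i) ≤ t
  rw [cutT_g fun x => h.disj x i]
  exact ht.1

/-- **Key lemma**, exit lines after their births. -/
theorem Shadow.path_eq_exit (h : Shadow Φ ε G v X e g) (hΦ : AdmissiblePotential Φ) (hε : 0 < ε)
    (hv0 : 0 ≤ v)
    (hOk : BWorld Φ ε (G.wL v fun i => X (g i)).b 0 ((G.wL v fun i => X (g i)).path Φ ε))
    {t : ℝ} (ht : t ∈ Icc 0 v) (a : G.born v) (ha : G.σ (G.j a) ≤ t) :
    (G.wL v fun i => X (g i)).path Φ ε t (Sum.inr a) = pth Φ ε X t (e (G.j a)) := by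
  rw [h.path_eq_aux hΦ hε hv0 hOk ht]
  refine rebirthPath_of_le ?_
  change cutT G v e (e (G.j a)) ≤ t
  rw [cutT_e h.e_inj]
  exact (min_le_left _ _).trans ha

end key

/-! ### Trees -/

/-- After its release time a particle of a tree is on its final line. -/
theorem path_after_rel {Φ : Space3 → ℝ} {ε : ℝ} (hε : 0 < ε) : ∀ (P : CTree) (T : ℝ)
    (ℓ : PhasePoint) (p : Par P), Valid Φ ε P T ℓ.2 p → ∀ i u, TreeLines335.rel P p i ≤ u →
      path Φ ε P ℓ p u i = onLine (fin Φ ε P ℓ p i) u
  | leaf, _, _, _, _, _, _, _ => rfl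
  | node l r, T, ℓ, p, h, i, u, hu => by
      have hsin : Tree674.sin Φ ε ℓ.2 p.1 < p.1.1 := sin_lt hε h.1.1
      have hl := path_after_rel hε l (Tree674.sin Φ ε ℓ.2 p.1) (inMap Φ ε ℓ p.1).1 p.2.1
        (Valid.left h)
      have hr := path_after_rel hε r (Tree674.sin Φ ε ℓ.2 p.1) (inMap Φ ε ℓ p.1).2 p.2.2
        (Valid.right h)
      simp only [path, fin]
      rcases i with i | i
      · by_cases hi : i = root l
        · subst hi
          have hu' : p.1.1 ≤ u := by simpa [TreeLines335.rel] using hu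
          rw [if_neg (not_le.2 (hsin.trans_le hu'))]
          simp [colPath, hu']
        · have hu' : TreeLines335.rel l p.2.1 i ≤ u := by
            simpa [TreeLines335.rel, hi] using hu
          split_ifs
          · simp only [Sum.elim_inl]
            rw [hl i u hu', Function.update_of_ne hi]
          · simp only [Sum.elim_inl]
            rw [Function.update_of_ne hi, Function.update_of_ne hi, hl i u hu']
      · by_cases hi : i = root r
        · subst hi
          have hu' : p.1.1 ≤ u := by simpa [TreeLines335.rel] using hu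
          rw [if_neg (not_le.2 (hsin.trans_le hu'))]
          simp [colPath, hu']
        · have hu' : TreeLines335.rel r p.2.2 i ≤ u := by
            simpa [TreeLines335.rel, hi] using hu
          split_ifs
          · simp only [Sum.elim_inr]
            rw [hr i u hu', Function.update_of_ne hi]
          · simp only [Sum.elim_inr]
            rw [Function.update_of_ne hi, Function.update_of_ne hi, hr i u hu']

/-- Exit lines of a tree (the root line is not included). -/
def exL (Φ : Space3 → ℝ) (ε : ℝ) (P : CTree) (z : PhasePoint × Par P) :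
    {x : Idx P // x ≠ root P} → ML := exF (lineML Φ ε P z) (root P)

/-- The structure of a valid collision tree, root protected up to `T`. -/
def treeStr (Φ : Space3 → ℝ) (ε : ℝ) (P : CTree) (T : ℝ) (z : PhasePoint × Par P) (hε : 0 < ε)
    (hT : 0 ≤ T) (hV : Valid Φ ε P T z.1.2 z.2) : Str (Idx P) {x : Idx P // x ≠ root P} where
  c := path Φ ε P z.1 z.2
  σ := prot P T z.2
  j := Subtype.val
  ls := exL Φ ε P z
  j_inj := Subtype.val_injective
  birth x := rel_eq_prot P T z.2 x x.2
  state x := by
    have h1 := rel_eq_prot P T z.2 x x.2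
    rw [path_after_rel hε P T z.1 z.2 hV _ _ h1.le]
    show onLine (fin Φ ε P z.1 z.2 x) (TreeLines335.rel P z.2 x) = _
    rw [h1]
  nonneg x := PathFlow968.prot_nonneg hε.le P hT z.1.2 z.2 hV.2 x

theorem tree_exits {P : CTree} {T v : ℝ} {p : Par P} (hvT : v ≤ T) {x : Idx P}
    (hx : prot P T p x < v) : x ≠ root P := by
  rintro rfl
  rw [PathFlow968.prot_root] at hx
  exact absurd hvT (not_le.2 hx)

end

end Crest.Agent.R122.RtG302
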