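import Crest.Agent.R122.RtGGas_522
import Crest.Agent.R122.RtGDet_302
import Crest.Agent.R122.InEq2Fun_311
import Crest.Agent.R122.InEq2TDet_335

/-!
# Row 122, gas level of H12 / F3 (helper522): real tree versus ghost tubes

Inputs (tree coordinates, literal): `LinkNull` (two exit lines are linked), `RetNull` (the influence
of an exit line returns to the protected tubes), `OkNull` (bad worlds).

* `smallE_touch` : touched exit lines have small mass (from `TN u₀`).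
* `BadX`, `smallE_badX` : the exceptional event of helper302's dichotomy.
* `GhostHit`, `nullE_ghost` : **H12**: the protected legs are isolated in the real world up to a time
  `v ≤ u₀`, but the protected tubes are hit by the gas alone before `v`.
* `ghost_cfg` : the same for configurations (measurable majorant, time free); `badX_evM` : the
  exceptional event at an auxiliary cut-off `K'`, helper370's form (F3).
* `bnd_FR`, `bnd_FRC` : helper311's `Bnd` for the terms `FR`, `FRC` of inequality 2'.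
-/

set_option autoImplicit false

open MeasureTheory Set Filter Topology
open scoped Classical ENNReal
open Crest.AnalysisR.Kinetic
open Crest.Agent.R122.Flow671 Crest.Agent.R122.Loc45 Crest.Agent.R122.Causal291
open Crest.Agent.R122.Inf879 Crest.Agent.R122.GC311 Crest.Agent.R122.EDefs602
open Crest.Agent.R122.Kin796 Crest.Agent.R122.Kin796.CTree Crest.Agent.R122.Tree674
open Crest.Agent.R122.Relabel674 Crest.Agent.R122.TreeBound335 Crest.Agent.R122.ToTree335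
open Crest.Agent.R122.InEq2 Crest.Agent.R122.Major522 Crest.Agent.R122.TreeLines335
open Crest.Agent.R122.LineMeas994 Crest.Agent.R122.EBasic602 Crest.Agent.R122.RtG302
open Crest.Agent.R122.GIV566

noncomputable section

namespace Crest.Agent.R122.Gas522

variable {Φ : Space3 → ℝ} {f₀ : PhasePoint → ℝ} {ε T u₀ : ℝ} {P : CTree}

/-! ### Touched exit lines -/

/-- Hypotheses on the initial datum and on the line parameters. -/
structure LineHyp (f₀ : PhasePoint → ℝ) (γ : ℝ → ℝ) (ρ : ℝ≥0∞) (u₀ C b b' : ℝ) : Prop where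
  meas : Measurable f₀
  C_nonneg : 0 ≤ C
  bound : ∀ z, f₀ z ≤ C * Real.exp (-b * ‖z.2‖ ^ 2)
  b'_pos : 0 < b'
  b'_lt : b' < b
  γ_meas : Measurable γ
  γ_le : ∀ τ, 0 < τ → τ ≤ u₀ → γ τ ≤ b'
  ρ_ne_zero : ρ ≠ 0
  ρ_ne_top : ρ ≠ ∞

/-- An exit line of the tree touches the gas by the time `u₀`. -/
def TouchX (Φ : Space3 → ℝ) (ε : ℝ) (K : ℕ) (u₀ : ℝ) (P : CTree) (z : PhasePoint × Par P)
    {m : ℕ} (w : Config m) : Prop :=
  ∃ x : {x : Idx P // x ≠ root P}, (MW.cfg w).thetaL Φ ε K u₀ (exL Φ ε P z x) ≤ u₀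

theorem smallE_touch {γ : ℝ → ℝ} {ρ : ℝ≥0∞} {C b b' : ℝ} (hΦ : AdmissiblePotential Φ)
    (hL : LineHyp f₀ γ ρ u₀ C b b') (hTN : TN Φ f₀ γ ρ u₀) (T : ℝ) (P : CTree) :
    SmallE Φ f₀ T P fun K ε z _ w => P.leaves ≤ K ∧ TouchX Φ ε K u₀ P z w := by
  intro δ hδ
  obtain ⟨C', hC', h⟩ := exists_mass hΦ hL.meas hL.C_nonneg hL.bound hL.b'_pos hL.b'_lt
    hL.γ_meas hL.ρ_ne_zero hL.ρ_ne_top P T
  set s : Finset (Idx P) := Finset.univ.filter fun x => x ≠ root P with hs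
  have hc : (s.card : ℝ≥0∞) * C' ≠ ∞ := ENNReal.mul_ne_top (ENNReal.natCast_ne_top _) hC'
  obtain ⟨δ', hδ', hx⟩ := exists_mul_le hc hδ
  refine ((small_iff.1 hTN δ' hδ').and (Ev.of_le P.leaves (p := fun K _ => P.leaves ≤ K)
    fun K hK _ _ => hK)).mono fun K ε hε hh => ?_
  have h1 : ∀ x ∈ s, MajE Φ f₀ ε T P (fun z _ w =>
      (MW.cfg w).thetaL Φ ε K u₀ (lineML Φ ε P z x) ≤ u₀) (C' * tnMass Φ f₀ γ ρ ε K u₀) := by
    intro x hxs
    refine ⟨mX Φ ε K u₀ P x, measTP_mX hΦ hε K u₀ P x, fun z m w hV _ _ hE => ?_,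
      h ε T u₀ K hε le_rfl hh.2 hL.γ_le x (Finset.mem_filter.1 hxs).2⟩
    unfold mX
    rw [lineMM_of_adm ε hV.1, if_pos hE, mul_one]
  refine (MajE.finset hΦ hL.meas s h1).mono ?_ ?_
  · rintro z m w - - - ⟨-, x, hx⟩
    exact ⟨x.1, Finset.mem_filter.2 ⟨Finset.mem_univ _, x.2⟩, hx⟩
  · rw [Finset.sum_const, nsmul_eq_mul, ← mul_assoc]
    exact hx _ hh.1

/-! ### Inputs -/

/-- **Input LINK**: two different exit lines are linked in the gas before they touch. -/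
def LinkNull (Φ : Space3 → ℝ) (f₀ : PhasePoint → ℝ) (T u₀ : ℝ) : Prop :=
  ∀ (P : CTree) (x y : Idx P), x ≠ root P → y ≠ root P → x ≠ y →
    NullE Φ f₀ T P fun K ε z _ w => P.leaves ≤ K ∧ ¬ MW.NoLink Φ ε K u₀ (MW.cfg w)
      (MW.line (lineML Φ ε P z x)) (MW.line (lineML Φ ε P z y))

/-- **Input RET**: the influence of an exit line which has not touched returns to the protected
tubes. -/
def RetNull (Φ : Space3 → ℝ) (f₀ : PhasePoint → ℝ) (T u₀ : ℝ) : Prop :=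
  ∀ (P : CTree) (x : Idx P), x ≠ root P →
    NullE Φ f₀ T P fun K ε z _ w => P.leaves ≤ K ∧
      RetL Φ ε K u₀ w (lineML Φ ε P z x) (protT Φ ε P T z)

/-- **Input RETLN**: an exit line which has not touched returns itself to the protected tubes (only
for forests and F3). -/
def RetMNull (Φ : Space3 → ℝ) (f₀ : PhasePoint → ℝ) (T u₀ : ℝ) : Prop :=
  ∀ (P : CTree) (x : Idx P), x ≠ root P →
    NullE Φ f₀ T P fun K ε z _ w => P.leaves ≤ K ∧
      RetM Φ ε K u₀ w (lineML Φ ε P z x) (protT Φ ε P T z)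

/-- **Input OK**: some world `w + exit lines` is not good. -/
def OkNull (Φ : Space3 → ℝ) (f₀ : PhasePoint → ℝ) (T : ℝ) : Prop :=
  ∀ P : CTree, NullE Φ f₀ T P fun _ ε z _ w => ¬ AllOk Φ ε w (exL Φ ε P z)

/-- The inputs of H12. -/
structure RtGInp (Φ : Space3 → ℝ) (f₀ : PhasePoint → ℝ) (T u₀ : ℝ) : Prop where
  link : LinkNull Φ f₀ T u₀
  ret : RetNull Φ f₀ T u₀
  ok : OkNull Φ f₀ T

theorem nullE_linkEx (hΦ : AdmissiblePotential Φ) (hf : Measurable f₀)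
    (h : LinkNull Φ f₀ T u₀) (P : CTree) :
    NullE Φ f₀ T P fun K ε z _ w => P.leaves ≤ K ∧ LinkEx Φ ε K u₀ w (exL Φ ε P z) := by
  set s : Finset (Idx P × Idx P) := Finset.univ.filter fun q =>
    q.1 ≠ root P ∧ q.2 ≠ root P ∧ q.1 ≠ q.2 with hs
  have h1 := NullE.exists_finset (T := T) (P := P) hΦ hf s (E := fun q K ε z _ w =>
    P.leaves ≤ K ∧ ¬ MW.NoLink Φ ε K u₀ (MW.cfg w) (MW.line (lineML Φ ε P z q.1))
      (MW.line (lineML Φ ε P z q.2))) fun q hq => by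
        obtain ⟨-, h1, h2, h3⟩ := Finset.mem_filter.1 hq
        exact h P q.1 q.2 h1 h2 h3
  refine h1.mono fun K ε z m w _ _ _ _ hE => ?_
  obtain ⟨hK, hE⟩ := hE
  unfold LinkEx MWFam255.PairNL at hE
  push Not at hE
  obtain ⟨j, k, hjk, hl⟩ := hE
  exact ⟨(j.1, k.1), Finset.mem_filter.2 ⟨Finset.mem_univ _, j.2, k.2,
    fun h => hjk (Subtype.ext h)⟩, hK, hl⟩

theorem nullE_retEx (hΦ : AdmissiblePotential Φ) (hf : Measurable f₀)
    (h : RetNull Φ f₀ T u₀) (P : CTree) :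
    NullE Φ f₀ T P fun K ε z _ w => P.leaves ≤ K ∧
      RetEx Φ ε K u₀ w (exL Φ ε P z) (protT Φ ε P T z) := by
  set s : Finset (Idx P) := Finset.univ.filter fun x => x ≠ root P with hs
  have h1 := NullE.exists_finset (T := T) (P := P) hΦ hf s (E := fun x K ε z _ w =>
    P.leaves ≤ K ∧ RetL Φ ε K u₀ w (lineML Φ ε P z x) (protT Φ ε P T z)) fun x hx =>
      h P x (Finset.mem_filter.1 hx).2
  refine h1.mono fun K ε z m w _ _ _ _ hE => ?_
  obtain ⟨hK, x, hx⟩ := hE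
  exact ⟨x.1, Finset.mem_filter.2 ⟨Finset.mem_univ _, x.2⟩, hK, hx⟩

theorem nullE_retLn (hΦ : AdmissiblePotential Φ) (hf : Measurable f₀)
    (h : RetMNull Φ f₀ T u₀) (P : CTree) :
    NullE Φ f₀ T P fun K ε z _ w => P.leaves ≤ K ∧
      RetLn Φ ε K u₀ w (exL Φ ε P z) (protT Φ ε P T z) := by
  set s : Finset (Idx P) := Finset.univ.filter fun x => x ≠ root P with hs
  have h1 := NullE.exists_finset (T := T) (P := P) hΦ hf s (E := fun x K ε z _ w =>
    P.leaves ≤ K ∧ RetM Φ ε K u₀ w (lineML Φ ε P z x) (protT Φ ε P T z)) fun x hx =>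
      h P x (Finset.mem_filter.1 hx).2
  refine h1.mono fun K ε z m w _ _ _ _ hE => ?_
  obtain ⟨hK, x, hx⟩ := hE
  exact ⟨x.1, Finset.mem_filter.2 ⟨Finset.mem_univ _, x.2⟩, hK, hx⟩

/-! ### The exceptional event -/

/-- The exceptional event of the dichotomy at cut-off `K`. -/
def BadX (Φ : Space3 → ℝ) (ε : ℝ) (K : ℕ) (T u₀ : ℝ) (P : CTree) (z : PhasePoint × Par P)
    {m : ℕ} (w : Config m) : Prop :=
  TouchX Φ ε K u₀ P z w ∨ ¬ AllOk Φ ε w (exL Φ ε P z) ∨ LinkEx Φ ε K u₀ w (exL Φ ε P z) ∨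
    RetEx Φ ε K u₀ w (exL Φ ε P z) (protT Φ ε P T z)

section badX

variable {γ : ℝ → ℝ} {ρ : ℝ≥0∞} {C b b' : ℝ}

theorem smallE_badX (hΦ : AdmissiblePotential Φ) (hL : LineHyp f₀ γ ρ u₀ C b b')
    (hTN : TN Φ f₀ γ ρ u₀) (hin : RtGInp Φ f₀ T u₀) (P : CTree) :
    SmallE Φ f₀ T P fun K ε z _ w => P.leaves ≤ K ∧ BadX Φ ε K T u₀ P z w := by
  refine ((smallE_touch hΦ hL hTN T P).or hΦ hL.meas ((hin.ok P).small.or hΦ hL.meas
    ((nullE_linkEx hΦ hL.meas hin.link P).small.or hΦ hL.meas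
      (nullE_retEx hΦ hL.meas hin.ret P).small))).mono ?_
  rintro K ε z m w - - - - ⟨hK, h⟩
  rcases h with h | h | h | h
  · exact Or.inl ⟨hK, h⟩
  · exact Or.inr (Or.inl h)
  · exact Or.inr (Or.inr (Or.inl ⟨hK, h⟩))
  · exact Or.inr (Or.inr (Or.inr ⟨hK, h⟩))

/-- Real tree versus ghost tubes: the protected legs are isolated in the real world up to a time
`v ≤ u₀`, but a protected tube is hit by the gas alone by the time `v`. -/
def GhostHit (Φ : Space3 → ℝ) (ε T u₀ : ℝ) (P : CTree) (z : PhasePoint × Par P) {m : ℕ}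
    (w : Config m) : Prop :=
  ∃ (k : ℕ) (V : Config k) (e : Idx P ≃ Fin k) (v : ℝ), v ∈ Icc 0 u₀ ∧
    Fin.append V w ∈ Dom Φ (Fin (k + m)) ∧
    Cut Φ ε T v (Fin.append V w) P z (Fin.castAdd m ∘ e) ∧ ¬ unhit Φ ε (protT Φ ε P T z) v w

theorem badX_of_ghostHit (hΦ : AdmissiblePotential Φ) (hε : 0 < ε) (hT : 0 ≤ T) (hu : u₀ ≤ T)
    {K : ℕ} {z : PhasePoint × Par P} {m : ℕ} {w : Config m} (hV : Valid Φ ε P T z.1.2 z.2)
    (h : GhostHit Φ ε T u₀ P z w) : BadX Φ ε K T u₀ P z w := by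
  obtain ⟨k, V, e, v, hv, hD, hcut, hhit⟩ := h
  by_cases hOk : AllOk Φ ε w (exL Φ ε P z)
  swap
  · exact Or.inr (Or.inl hOk)
  rcases hcut.h12 (K := K) hΦ hε hT hV (hv.2.trans hu) hv hD e hOk hhit with ⟨x, hx⟩ | h | h
  · exact Or.inl ⟨x, hx.trans hv.2⟩
  · exact Or.inr (Or.inr (Or.inl h))
  · exact Or.inr (Or.inr (Or.inr h))

/-- **H12.** -/
theorem nullE_ghost (hΦ : AdmissiblePotential Φ) (hL : LineHyp f₀ γ ρ u₀ C b b')
    (hTN : TN Φ f₀ γ ρ u₀) (hT : 0 ≤ T) (hu : u₀ ≤ T) (hin : RtGInp Φ f₀ T u₀) (P : CTree) :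
    NullE Φ f₀ T P fun _ ε z _ w => GhostHit Φ ε T u₀ P z w :=
  (smallE_badX hΦ hL hTN hin P).null P.leaves fun _ hK _ _ _ _ hε hV _ _ h =>
    ⟨hK, badX_of_ghostHit hΦ hε hT hu hV h⟩

/-- For all trees with at most `K` leaves. -/
theorem exists_ghost (hΦ : AdmissiblePotential Φ) (hL : LineHyp f₀ γ ρ u₀ C b b')
    (hTN : TN Φ f₀ γ ρ u₀) (hT : 0 ≤ T) (hu : u₀ ≤ T) (hin : RtGInp Φ f₀ T u₀) (K : ℕ) {δ : ℝ}
    (hδ : 0 < δ) : ∃ ε₀ : ℝ, 0 < ε₀ ∧ ∀ ε : ℝ, 0 < ε → ε < ε₀ → ∀ P : CTree, P.leaves ≤ K →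
      MajE Φ f₀ ε T P (fun z _ w => GhostHit Φ ε T u₀ P z w)
        (ENNReal.ofReal δ / (GIVStep383.trees K).card) := by
  have hc : ((GIVStep383.trees K).card : ℝ≥0∞) ≠ ∞ := ENNReal.natCast_ne_top _
  obtain ⟨δ', hδ', hx⟩ := exists_mul_le hc hδ
  have h1 := Ev.finset (GIVStep383.trees K) (P := fun P _ ε =>
    MajE Φ f₀ ε T P (fun z _ w => GhostHit Φ ε T u₀ P z w) (ENNReal.ofReal δ'))
    fun P _ => (nullE_ghost hΦ hL hTN hT hu hin P δ' hδ').ev
  obtain ⟨K₀, h1⟩ := h1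
  obtain ⟨ε₀, hε₀, h1⟩ := h1 K₀ le_rfl
  refine ⟨ε₀, hε₀, fun ε hε hlt P hP => (h1 ε hε hlt P (GIVStep383.mem_trees.2 hP)).mono
    (fun _ _ _ _ _ _ h => h) ?_⟩
  have hpos : ((GIVStep383.trees K).card : ℝ≥0∞) ≠ 0 := by
    have : (GIVStep383.trees K).card ≠ 0 :=
      Finset.card_ne_zero_of_mem (GIVStep383.mem_trees.2 hP)
    exact_mod_cast this
  rw [ENNReal.le_div_iff_mul_le (Or.inl hpos) (Or.inl hc), mul_comm]
  exact hx _ le_rfl

/-- The functional of trees. -/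
theorem exists_ghost_TS (hΦ : AdmissiblePotential Φ) (hL : LineHyp f₀ γ ρ u₀ C b b')
    (hTN : TN Φ f₀ γ ρ u₀) (hT : 0 ≤ T) (hu : u₀ ≤ T) (hin : RtGInp Φ f₀ T u₀) (K : ℕ) {δ : ℝ}
    (hδ : 0 < δ) : ∃ ε₀ : ℝ, 0 < ε₀ ∧ ∀ ε : ℝ, 0 < ε → ε < ε₀ →
    ∃ H : (P : CTree) → PhasePoint × Par P → (m : ℕ) → Config m → ℝ≥0∞, MeasTS H ∧
      (∀ P, P.leaves ≤ K → ∀ z m w, Valid Φ ε P T z.1.2 z.2 → Sep Φ ε P T z.1 z.2 →
        w ∈ PairExcluded ε m → GhostHit Φ ε T u₀ P z w → wQ Φ ε P z ≤ H P z m w) ∧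
      TS Φ f₀ ε T H ≤ ENNReal.ofReal δ := by
  obtain ⟨ε₀, hε₀, h⟩ := exists_ghost hΦ hL hTN hT hu hin K hδ
  refine ⟨ε₀, hε₀, fun ε hε hlt => ?_⟩
  obtain ⟨H, hH, hle, -, hm⟩ := exists_TS (h ε hε hlt)
  exact ⟨H, hH, hle, hm.trans ENNReal.mul_div_le⟩

/-! ### Histories and cuts -/

theorem cut_of_hTreeC {κ : Type} [Fintype κ] {Z : κ → PhasePoint} {i : κ} {e : Idx P → κ}
    {z : PhasePoint × Par P} {σ v : ℝ} (h : HTreeC Φ ε T σ Z i P z.1 z.2 e) (hv : v ≤ σ) :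
    Cut Φ ε T v Z P z e where
  inj := h.inj
  agree k s h0 hs hk := h.agree k s h0 (hs.trans hv) hk
  avoid s hs k hk j hj := by
    have hsσ : s ≤ σ := hs.2.trans hv
    by_contra hno
    push Not at hno
    have hk' : Past (Ct (pth Φ ε Z) ε) σ i s (e k) :=
      (h.past s ⟨hs.1, hsσ⟩ (e k)).2 ⟨k, rfl, hk⟩
    have hc : Ct (pth Φ ε Z) ε s (e k) j := by
      unfold Ct
      rw [h.agree k s hs.1 hsσ hk]
      exact hno
    obtain ⟨m', hm', hm2⟩ := (h.past s ⟨hs.1, hsσ⟩ j).1 (hk'.contact hc)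
    exact absurd (hj m' hm') (not_lt.2 hm2)

/-- A labelling of a tree with range the first block. -/
theorem exists_equiv_of_range {ι : Type} {k m : ℕ} {e : ι → Fin (k + m)}
    (hi : Function.Injective e) (hr : range e = ((block k m : Finset (Fin (k + m))) : Set _)) :
    ∃ e' : ι ≃ Fin k, e = Fin.castAdd m ∘ e' := by
  have h1 : ∀ x, ∃ y : Fin k, Fin.castAdd m y = e x := fun x => by
    have : e x ∈ ((block k m : Finset (Fin (k + m))) : Set _) := hr ▸ mem_range_self x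
    exact mem_block.1 (Finset.mem_coe.1 this)
  choose f hf using h1
  have hfi : Function.Injective f := fun x y hxy => hi (by rw [← hf x, ← hf y, hxy])
  have hfs : Function.Surjective f := fun y => by
    have h2 : Fin.castAdd m y ∈ range e := by
      rw [hr]
      exact Finset.mem_coe.2 (castAdd_mem_block y)
    obtain ⟨x, hx⟩ := h2
    refine ⟨x, ?_⟩
    have h3 : Fin.castAdd m (f x) = Fin.castAdd m y := by rw [hf x, hx]
    exact Fin.castAdd_injective k m h3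
  exact ⟨Equiv.ofBijective f ⟨hfi, hfs⟩, funext fun x => (hf x).symm⟩

end badX

/-! ### Inequality 2' -/

section ineq2

variable {γ : ℝ → ℝ} {ρ : ℝ≥0∞} {C b b' : ℝ}

/-- From a majorant of the ghost hits of trees with at most `K` leaves to `Bnd`. -/
theorem bnd_of_ghost (hΦ : AdmissiblePotential Φ) (hε : 0 < ε) {K : ℕ}
    {q : ℝ≥0∞} {H : (P : CTree) → PhasePoint × Par P → (m : ℕ) → Config m → ℝ≥0∞}
    (hH : MeasTS H)
    (hle : ∀ P, P.leaves ≤ K → ∀ z m w, Valid Φ ε P T z.1.2 z.2 → Sep Φ ε P T z.1 z.2 →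
        w ∈ PairExcluded ε m → GhostHit Φ ε T u₀ P z w → wQ Φ ε P z ≤ H P z m w)
    (hq : TS Φ f₀ ε T H ≤ q)
    {F : (k m : ℕ) → Config k → Config m → Fin k → ℝ≥0∞}
    (hF : ∀ (k m : ℕ) (V : Config k) (w : Config m) (j : Fin k), V ∈ PairExcluded ε k →
      w ∈ PairExcluded ε m → Perp ε V w → F k m V w j ≠ 0 →
      F k m V w j ≤ (activity ε)⁻¹ * eW (Fin.append V w : Config (k + m)) (block k m) ∧
      ∃ (P : CTree) (z : PhasePoint × Par P) (e : Idx P ≃ Fin k) (v : ℝ), P.leaves ≤ K ∧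
        e (root P) = j ∧ Valid Φ ε P T z.1.2 z.2 ∧ Sep Φ ε P T z.1 z.2 ∧
        (∀ x, V (e x) = lines Φ ε P z.1 z.2 x) ∧ v ∈ Icc 0 u₀ ∧
        Cut Φ ε T v (Fin.append V w) P z (Fin.castAdd m ∘ e) ∧
        ¬ unhit Φ ε (protT Φ ε P T z) v w) : Bnd Φ f₀ ε T F q := by
  have ha0 := activity_ne_zero hε
  have hat := activity_ne_top ε
  refine Bnd.of_H (H := fun P z m w => (activity ε)⁻¹ * H P z m w)
    (fun P m => (hH P m).const_mul _) ?_ ?_
  · intro k m V w j hV hw hp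
    by_cases h0 : F k m V w j = 0
    · rw [h0]; exact zero_le
    obtain ⟨h1, P, z, e, v, hK, hj, hval, hsep, hlin, hv, hcut, hhit⟩ :=
      hF k m V w j hV hw hp h0
    refine h1.trans (le_ways_of hΦ hε e hj hval hlin ?_)
    rw [eW_block e hval.1 hlin]
    exact mul_le_mul_right (hle P hK z m w hval hsep hw
      ⟨k, V, e, v, hv, append_dom hε hV hw hp, hcut, hhit⟩) _
  · rw [TS_const_mul (ENNReal.inv_ne_top.2 ha0), ← mul_assoc,
      ENNReal.mul_inv_cancel ha0 hat, one_mul]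
    exact hq

/-- **The term `FR` of inequality 2'.** -/
theorem bnd_FR (hΦ : AdmissiblePotential Φ) {A : EPar} (htw : 0 ≤ A.tw) (hT : A.te ≤ T)
    (hte : A.tw ≤ A.te) (hL : LineHyp f₀ γ ρ A.tw C b b') (hTN : TN Φ f₀ γ ρ A.tw)
    (hin : RtGInp Φ f₀ T A.tw) {δ : ℝ} (hδ : 0 < δ) :
    EvK fun K ε => Bnd Φ f₀ ε T (FR Φ ε K A T) (ENNReal.ofReal δ) := by
  intro K
  have hT0 : 0 ≤ T := (htw.trans hte).trans hT
  obtain ⟨ε₀, hε₀, h⟩ := exists_ghost_TS hΦ hL hTN hT0 (hte.trans hT) hin K hδ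
  refine ⟨ε₀, hε₀, fun ε hε hlt => ?_⟩
  obtain ⟨H, hH, hle, hm⟩ := h ε hε hlt
  refine bnd_of_ghost hΦ hε hH hle hm fun k m V w j hV hw hp hne => ?_
  unfold FR at hne ⊢
  by_cases hJ : JI Φ ε K A V w j ∧ HT Φ ε K A T V w j ∧ ¬ HTU Φ ε K A T V w j
  swap
  · rw [if_neg hJ] at hne
    exact absurd rfl hne
  rw [if_pos hJ]
  refine ⟨le_rfl, ?_⟩
  obtain ⟨⟨hpre, hjoin, -⟩, ⟨P, ℓ, p, e, hHT⟩, hnU⟩ := hJ
  have hσ : A.tw < sgm Φ ε K A V w j := hjoin.1
  have hσ0 : 0 < sgm Φ ε K A V w j := htw.trans_lt hσ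
  have hrange : range e = ((block k m : Finset (Fin (k + m))) : Set _) := by
    rw [hHT.range_eq hε hT0 hσ0, ← hpre]
    ext i
    rw [Finset.mem_coe]
    exact (mem_preC_iff_pre _ hσ0 _ _).symm
  obtain ⟨e', he'⟩ := exists_equiv_of_range hHT.inj hrange
  subst he'
  have hk : k ≤ K := by
    have h1 := card_preC_le (K := K) (T := A.te) hΦ hε (w := cat V w)
      (q := Fin.castAdd m j) hσ0
    have h2 : preC Φ ε (cat V w) (iTime Φ ε K A.te (cat V w) (Fin.castAdd m j))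
      (Fin.castAdd m j) = block k m := hpre
    rw [h2, card_block] at h1
    exact h1
  have hPk : P.leaves = k := by
    have := Fintype.card_congr e'
    rwa [card_idx, Fintype.card_fin] at this
  refine ⟨P, (ℓ, p), e', A.tw, by rw [hPk]; exact hk, ?_, hHT.valid, hHT.sep, ?_,
    ⟨htw, le_rfl⟩, InEq2T.cut_of_hTreeP (z := (ℓ, p)) hHT hσ, ?_⟩
  · have h1 := hHT.root
    exact Fin.castAdd_injective k m h1
  · intro x
    have h1 := hHT.lines_eq hΦ hε hT0 hσ0 x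
    have h2 : (cat V w) ((Fin.castAdd m ∘ e') x) = V (e' x) := Fin.append_left V w (e' x)
    rw [h2] at h1
    exact h1
  · intro hun
    exact hnU ⟨P, ℓ, p, _, hHT, hun⟩

/-- **The term `FRC` of inequality 2'** (level `2K`, closed histories). -/
theorem bnd_FRC (hΦ : AdmissiblePotential Φ) {A : EPar} (htw : 0 ≤ A.tw) (hT : A.te ≤ T)
    (hte : A.tw ≤ A.te) (hL : LineHyp f₀ γ ρ A.tw C b b') (hTN : TN Φ f₀ γ ρ A.tw)
    (hin : RtGInp Φ f₀ T A.tw) {δ : ℝ} (hδ : 0 < δ) :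
    EvK fun K ε => Bnd Φ f₀ ε T (FRC Φ ε K A T) (ENNReal.ofReal δ) := by
  intro K
  have hT0 : 0 ≤ T := (htw.trans hte).trans hT
  obtain ⟨ε₀, hε₀, h⟩ := exists_ghost_TS hΦ hL hTN hT0 (hte.trans hT) hin (2 * K) hδ
  refine ⟨ε₀, hε₀, fun ε hε hlt => ?_⟩
  obtain ⟨H, hH, hle, hm⟩ := h ε hε hlt
  refine bnd_of_ghost hΦ hε hH hle hm fun k m V w j hV hw hp hne => ?_
  unfold FRC at hne ⊢
  by_cases hJ : JC Φ ε K A V w j ∧ HTc Φ ε K A T V w j ∧ ¬ HTUc Φ ε K A T V w j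
  swap
  · rw [if_neg hJ] at hne
    exact absurd rfl hne
  rw [if_pos hJ]
  refine ⟨le_rfl, ?_⟩
  obtain ⟨⟨hpre, hjoin, -, hsize⟩, ⟨P, ℓ, p, e, hHT⟩, hnU⟩ := hJ
  have hσ : A.tw < sgm Φ ε K A V w j := hjoin.1
  have hσ0 : 0 < sgm Φ ε K A V w j := htw.trans_lt hσ
  have hBC : BC (Ct (pth Φ ε (cat V w)) ε) (sgm Φ ε K A V w j) (Fin.castAdd m j) =
      ((block k m : Finset (Fin (k + m))) : Set _) := by
    rw [← hpre, Set.coe_toFinset]
  have hrange : range e = ((block k m : Finset (Fin (k + m))) : Set _) := by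
    rw [hHT.range_eq hε hT0 hσ0.le, hBC]
  obtain ⟨e', he'⟩ := exists_equiv_of_range hHT.inj hrange
  subst he'
  have hk : k ≤ 2 * K := by
    have h1 : gasSize Φ ε (k + m) (cat V w) (sgm Φ ε K A V w j) (Fin.castAdd m j) =
        (BC (Ct (pth Φ ε (cat V w)) ε) (sgm Φ ε K A V w j) (Fin.castAdd m j)).ncard := rfl
    rw [h1, hBC, Set.ncard_coe_finset, card_block] at hsize
    exact hsize
  have hPk : P.leaves = k := by
    have := Fintype.card_congr e'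
    rwa [card_idx, Fintype.card_fin] at this
  refine ⟨P, (ℓ, p), e', A.tw, by rw [hPk]; exact hk, ?_, hHT.valid, hHT.sep, ?_,
    ⟨htw, le_rfl⟩, cut_of_hTreeC (z := (ℓ, p)) hHT hσ.le, ?_⟩
  · have h1 := hHT.root
    exact Fin.castAdd_injective k m h1
  · intro x
    have h1 := hHT.lines_eq hΦ hε hT0 hσ0.le x
    have h2 : (cat V w) ((Fin.castAdd m ∘ e') x) = V (e' x) := Fin.append_left V w (e' x)
    rw [h2] at h1
    exact h1
  · intro hun
    exact hnU ⟨P, ℓ, p, _, hHT, hun⟩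

end ineq2

/-! ### Configuration forms -/

section cfgs

variable {γ : ℝ → ℝ} {ρ : ℝ≥0∞} {C b b' : ℝ}

/-- **H12, configuration form**, energy weight `act⁻¹ Wt V`, time free. -/
theorem ghost_cfg (hΦ : AdmissiblePotential Φ) (hL : LineHyp f₀ γ ρ u₀ C b b')
    (hTN : TN Φ f₀ γ ρ u₀) (hT : 0 ≤ T) (hu : u₀ ≤ T) (hin : RtGInp Φ f₀ T u₀) (K : ℕ) {δ : ℝ}
    (hδ : 0 < δ) : ∃ ε₀ : ℝ, 0 < ε₀ ∧ ∀ ε : ℝ, 0 < ε → ε < ε₀ →
    ∃ N : (k m : ℕ) → Config k → Config m → Fin k → ℝ≥0∞, MeasMS N ∧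
      (∀ (P : CTree) (k m : ℕ) (V : Config k) (w : Config m) (e : Idx P ≃ Fin k)
        (z : PhasePoint × Par P) (v : ℝ), P.leaves ≤ K → V ∈ PairExcluded ε k →
        w ∈ PairExcluded ε m → Perp ε V w → Valid Φ ε P T z.1.2 z.2 → Sep Φ ε P T z.1 z.2 →
        (∀ x, V (e x) = lines Φ ε P z.1 z.2 x) → v ∈ Icc 0 u₀ →
        Cut Φ ε T v (Fin.append V w) P z (Fin.castAdd m ∘ e) →
        unhit Φ ε (protT Φ ε P T z) v w ∨ (activity ε)⁻¹ * wV V ≤ N k m V w (e (root P))) ∧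
      MS f₀ ε N ≤ ENNReal.ofReal δ := by
  obtain ⟨ε₀, hε₀, h⟩ := exists_ghost hΦ hL hTN hT hu hin K hδ
  refine ⟨ε₀, hε₀, fun ε hε hlt => ?_⟩
  obtain ⟨M, hM, hle, hm, -⟩ := exists_cfg hΦ hL.meas hε (h ε hε hlt)
  have ha0 := activity_ne_zero hε
  have hat := activity_ne_top ε
  refine ⟨fun k m V w j => (activity ε)⁻¹ * M k m V w j, fun k m j => (hM k m j).const_mul _,
    ?_, ?_⟩
  · intro P k m V w e z v hK hV hw hp hval hsep hlin hv hcut
    by_cases hun : unhit Φ ε (protT Φ ε P T z) v w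
    · exact Or.inl hun
    · exact Or.inr (mul_le_mul_right (hle P k m V w e z hK hval hsep hlin hw
        ⟨k, V, e, v, hv, append_dom hε hV hw hp, hcut, hun⟩) _)
  · rw [MS_const_mul (ENNReal.inv_ne_top.2 ha0)]
    calc (activity ε)⁻¹ * MS f₀ ε M
        ≤ (activity ε)⁻¹ * (activity ε * ((GIVStep383.trees K).card *
          (ENNReal.ofReal δ / (GIVStep383.trees K).card))) := mul_le_mul_right hm _
      _ = (GIVStep383.trees K).card * (ENNReal.ofReal δ / (GIVStep383.trees K).card) := by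
          rw [← mul_assoc, ENNReal.inv_mul_cancel ha0 hat, one_mul]
      _ ≤ ENNReal.ofReal δ := ENNReal.mul_div_le

/-- Mass of a functional of a cluster of at most `K` particles and of the gas, no exclusion
(helper370's `evMass`). -/
def evM (f₀ : PhasePoint → ℝ) (ε : ℝ) (K : ℕ)
    (B : (k : ℕ) → Config k → Fin k → (m : ℕ) → Config m → ℝ≥0∞) : ℝ≥0∞ :=
  ∑ k ∈ Finset.range (K + 1), (activity ε)⁻¹ * (activity ε ^ k / (k.factorial : ℝ≥0∞) *
    ∫⁻ V : Config k, gcWeight f₀ ε k V * ∑ j : Fin k, wV V * gcE f₀ ε fun m w => B k V j m w)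

/-- From trees to indicators of configurations. -/
theorem exists_evM (hΦ : AdmissiblePotential Φ) (hf : Measurable f₀) (hε : 0 < ε) {K : ℕ}
    {E : (P : CTree) → PhasePoint × Par P → (m : ℕ) → Config m → Prop} {c : ℝ≥0∞}
    (h : ∀ P, P.leaves ≤ K → MajE Φ f₀ ε T P (E P) c) :
    ∃ B : (k : ℕ) → Config k → Fin k → (m : ℕ) → Config m → ℝ≥0∞,
      (∀ k j m, Measurable fun p : Config k × Config m => B k p.1 j m p.2) ∧
      (∀ (P : CTree) (k m : ℕ) (V : Config k) (w : Config m) (e : Idx P ≃ Fin k)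
        (z : PhasePoint × Par P), P.leaves ≤ K → Valid Φ ε P T z.1.2 z.2 →
        Sep Φ ε P T z.1 z.2 → (∀ x, V (e x) = lines Φ ε P z.1 z.2 x) →
        w ∈ PairExcluded ε m → E P z m w → 1 ≤ B k V (e (root P)) m w) ∧
      evM f₀ ε K B ≤ (GIVStep383.trees K).card * c := by
  obtain ⟨M, hM, hle, -, hm⟩ := exists_cfg hΦ hf hε h
  have ha0 := activity_ne_zero hε
  have hat := activity_ne_top ε
  refine ⟨fun k V j m w => (wV V)⁻¹ * M k m V w j, fun k j m => ?_, ?_, ?_⟩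
  · exact ((measurable_wV k).comp measurable_fst).inv.mul (hM k m j)
  · intro P k m V w e z hK hval hsep hlin hw hE
    have h1 := hle P k m V w e z hK hval hsep hlin hw hE
    have h0 : wV V ≠ 0 := (lt_of_lt_of_le zero_lt_one (one_le_wV V (e (root P)))).ne'
    calc (1 : ℝ≥0∞) = (wV V)⁻¹ * wV V := (ENNReal.inv_mul_cancel h0 (wV_ne_top V)).symm
      _ ≤ _ := mul_le_mul_right h1 _
  · have h1 : ∀ (k : ℕ) (V : Config k) (j : Fin k),
        wV V * gcE f₀ ε (fun m w => (wV V)⁻¹ * M k m V w j) = gcE f₀ ε fun m w => M k m V w j := by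
      intro k V j
      have h0 : wV V ≠ 0 := (lt_of_lt_of_le zero_lt_one (one_le_wV V j)).ne'
      rw [gcE_const_mul f₀ ε (ENNReal.inv_ne_top.2 h0), ← mul_assoc,
        ENNReal.mul_inv_cancel h0 (wV_ne_top V), one_mul]
    unfold evM
    simp only [h1]
    rw [← Finset.mul_sum]
    calc (activity ε)⁻¹ * ∑ k ∈ Finset.range (K + 1), activity ε ^ k / (k.factorial : ℝ≥0∞) *
          ∫⁻ V : Config k, gcWeight f₀ ε k V * ∑ j : Fin k, gcE f₀ ε (fun m w => M k m V w j)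
        ≤ (activity ε)⁻¹ * (activity ε * ((GIVStep383.trees K).card * c)) :=
          mul_le_mul_right ((ENNReal.sum_le_tsum _).trans hm) _
      _ = _ := by rw [← mul_assoc, ENNReal.inv_mul_cancel ha0 hat, one_mul]

/-- **The exceptional event at an auxiliary cut-off `K'`, configuration form** (F3, forests): touched
exit lines, bad worlds, links, returns of influences and of exit lines to the protected tubes. -/
theorem badX_evM (hΦ : AdmissiblePotential Φ) (hL : LineHyp f₀ γ ρ u₀ C b b')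
    (hTN : TN Φ f₀ γ ρ u₀) (hin : RtGInp Φ f₀ T u₀) (hm : RetMNull Φ f₀ T u₀) (K : ℕ) {δ : ℝ}
    (hδ : 0 < δ) : Ev fun K' ε =>
    ∃ B : (k : ℕ) → Config k → Fin k → (m : ℕ) → Config m → ℝ≥0∞,
      (∀ k j m, Measurable fun p : Config k × Config m => B k p.1 j m p.2) ∧
      (∀ (P : CTree) (k m : ℕ) (V : Config k) (w : Config m) (e : Idx P ≃ Fin k)
        (z : PhasePoint × Par P), P.leaves ≤ K → Valid Φ ε P T z.1.2 z.2 →
        Sep Φ ε P T z.1 z.2 → (∀ x, V (e x) = lines Φ ε P z.1 z.2 x) →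
        w ∈ PairExcluded ε m → (BadX Φ ε K' T u₀ P z w ∨
          RetLn Φ ε K' u₀ w (exL Φ ε P z) (protT Φ ε P T z)) → 1 ≤ B k V (e (root P)) m w) ∧
      evM f₀ ε K B ≤ ENNReal.ofReal δ := by
  have hc : ((GIVStep383.trees K).card : ℝ≥0∞) ≠ ∞ := ENNReal.natCast_ne_top _
  obtain ⟨δ', hδ', hx⟩ := exists_mul_le hc hδ
  have h0 : ∀ P ∈ GIVStep383.trees K, Ev fun K' ε => MajE Φ f₀ ε T P (fun z _ w =>
      BadX Φ ε K' T u₀ P z w ∨ RetLn Φ ε K' u₀ w (exL Φ ε P z) (protT Φ ε P T z))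
        (ENNReal.ofReal δ') := by
    intro P _
    have h1 := (smallE_badX hΦ hL hTN hin P).or hΦ hL.meas (nullE_retLn hΦ hL.meas hm P).small
    exact h1.mono_ev P.leaves (E' := fun K' ε z _ w => BadX Φ ε K' T u₀ P z w ∨
      RetLn Φ ε K' u₀ w (exL Φ ε P z) (protT Φ ε P T z)) (fun K' hK' ε z m w _ _ _ _ hE => by
        rcases hE with hE | hE
        · exact Or.inl ⟨hK', hE⟩
        · exact Or.inr ⟨hK', hE⟩) δ' hδ'
  refine (Ev.finset (GIVStep383.trees K) (P := fun P K' ε => MajE Φ f₀ ε T P (fun z _ w =>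
      BadX Φ ε K' T u₀ P z w ∨ RetLn Φ ε K' u₀ w (exL Φ ε P z) (protT Φ ε P T z))
        (ENNReal.ofReal δ')) h0).mono fun K' ε hε hh => ?_
  obtain ⟨B, hB, hle, hmass⟩ := exists_evM (K := K) hΦ hL.meas hε
    (E := fun P z _ w => BadX Φ ε K' T u₀ P z w ∨
      RetLn Φ ε K' u₀ w (exL Φ ε P z) (protT Φ ε P T z)) (c := ENNReal.ofReal δ')
    fun P hP => hh P (GIVStep383.mem_trees.2 hP)
  exact ⟨B, hB, hle, hmass.trans (hx _ le_rfl)⟩

end cfgs

end Crest.Agent.R122.Gas522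

end
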