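import Crest.Agent.R122.ToTree_335
import Crest.Agent.R122.LineMeas_994
import Crest.Agent.R122.RtGKey_302
import Crest.Agent.R122.MeasEDefs_416
import Crest.Agent.R122.NGin_416

/-!
# Row 122, H12 (helper416): measurable majorant of the touched exits (for 302)

* `measurable_ways` : joint measurability of `ways` of a jointly measurable tree functional;
* `ways_mass` : Mecke'd mass of `Wt V * ways (G · · m w) V j` in tree coordinates;
* `touchN` : majorant of `∃ x ≠ root, (cfg w).thetaL Φ ε K' u₀ (exL x) ≤ u₀`; `one_le_touchN`,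
  `measurable_touchN`, `touchN_mass`.
-/

set_option autoImplicit false
set_option linter.unusedSectionVars false

open MeasureTheory Set Filter Topology
open scoped Classical ENNReal
open Crest.AnalysisR.Kinetic
open Crest.Agent.R122.Kin796 Crest.Agent.R122.Kin796.CTree Crest.Agent.R122.Tree674
open Crest.Agent.R122.Relabel674 Crest.Agent.R122.TreeBound335 Crest.Agent.R122.GC311
open Crest.Agent.R122.ToTree335 Crest.Agent.R122.EDefs602 Crest.Agent.R122.TreeLines335
open Crest.Agent.R122.LineMeas994 Crest.Agent.R122.NG416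

noncomputable section

namespace Crest.Agent.R122.RtGTouch416

variable {Φ : Space3 → ℝ} {f₀ : PhasePoint → ℝ} {ε : ℝ}

/-! ## `ways` of parametrised functionals -/

theorem measurable_ways {Ω : Type*} [MeasurableSpace Ω] (hΦ : AdmissiblePotential Φ) (hε : 0 < ε)
    {T : ℝ} {G : Ω → (P : CTree) → PhasePoint × Par P → ℝ≥0∞}
    (hG : ∀ P, Measurable fun q : Ω × (PhasePoint × Par P) => G q.1 P q.2) {k : ℕ} (j : Fin k)
    {V : Ω → Config k} (hV : Measurable V) :
    Measurable fun ω => ways Φ ε T (G ω) (V ω) j := by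
  unfold ways
  refine Measurable.tsum fun P => Finset.measurable_sum _ fun e _ => ?_
  by_cases he : e (root P) = j
  · simp only [he, true_and]
    have hVe : Measurable fun ω => (fun x => V ω (e x) : Idx P → PhasePoint) :=
      measurable_pi_iff.2 fun x => (measurable_pi_apply (e x)).comp hV
    refine Measurable.ite (hVe (measurableSet_skel hΦ hε P T)) ?_ measurable_const
    exact (hG P).comp (measurable_id.prodMk ((measurable_inv hΦ hε P T).comp hVe))
  · simp only [he, false_and, if_false]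
    exact measurable_const

/-- energy weight of the lines of a tree -/
def WtL (Φ : Space3 → ℝ) (ε : ℝ) (P : CTree) (z : PhasePoint × Par P) : ℝ≥0∞ :=
  ∑ i, ENNReal.ofReal (1 + ‖(lines Φ ε P z.1 z.2 i).2‖ ^ 2)

/-- its measurable version -/
def WtLM (Φ : Space3 → ℝ) (ε : ℝ) (P : CTree) (z : PhasePoint × Par P) : ℝ≥0∞ :=
  ∑ i, ENNReal.ofReal (1 + ‖(linesM Φ ε P z.1 z.2 i).2‖ ^ 2)

theorem WtLM_of_adm {P : CTree} {z : PhasePoint × Par P} (h : Adm Φ P z.1.2 z.2) :
    WtLM Φ ε P z = WtL Φ ε P z := by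
  unfold WtLM WtL
  rw [linesM_of_adm ε h]

theorem measurable_WtLM (hΦ : AdmissiblePotential Φ) (P : CTree) : Measurable (WtLM Φ ε P) := by
  unfold WtLM
  refine Finset.measurable_sum _ fun i _ => ?_
  have h : Measurable fun z : PhasePoint × Par P => linesM Φ ε P z.1 z.2 i :=
    (measurable_pi_apply i).comp (measurable_linesM hΦ ε P)
  exact (((h.snd.norm).pow_const 2).const_add 1).ennreal_ofReal

/-- **Mass of `ways`** in tree coordinates, energy weight. -/
theorem ways_mass (hΦ : AdmissiblePotential Φ) (hf : Measurable f₀) (hε : 0 < ε) {T : ℝ}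
    {G : (m : ℕ) → Config m → (P : CTree) → PhasePoint × Par P → ℝ≥0∞}
    (hG : ∀ m P, Measurable fun q : Config m × (PhasePoint × Par P) => G m q.1 P q.2) :
    ∑' k : ℕ, activity ε ^ k / (k.factorial : ℝ≥0∞) * ∫⁻ V : Config k, gcWeight f₀ ε k V *
        gcE f₀ ε (fun m w => perpInd ε V w * ∑ j : Fin k, Wt V * ways Φ ε T (G m w) V j) ≤
      activity ε * ∑' P : CTree, ∫⁻ z : PhasePoint × Par P,
        {z : PhasePoint × Par P | Valid Φ ε P T z.1.2 z.2}.indicator
          (fun z => wt Φ P z.1.2 z.2 * (pf Φ f₀ ε P z * (WtL Φ ε P z *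
            gcE f₀ ε (fun m w => G m w P z)))) z := by
  have h := to_tree (α := Unit) hΦ hf hε (Measure.dirac ()) (T := T)
    (H := fun P z m w _ => WtLM Φ ε P z * G m w P z)
    (fun P m => by
      have h1 : Measurable fun q : (PhasePoint × Par P) × (Config m × Unit) =>
          G m q.2.1 P q.1 := (hG m P).comp (measurable_snd.fst.prodMk measurable_fst)
      exact ((measurable_WtLM hΦ P).comp measurable_fst).mul h1)
    (F := fun k m V w j _ => Wt V * ways Φ ε T (G m w) V j) (B := fun _ _ _ _ _ _ => 0)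
    (fun k m j => measurable_const)
    (fun k m V w j a hV hw hp => by
      rw [add_zero, mul_ways]
      refine ways_mono fun P e he hW => ?_
      obtain ⟨hval, hlin⟩ := lines_inv hΦ hε hW
      refine mul_le_mul_left (le_of_eq ?_) _
      rw [WtLM_of_adm hval.1]
      unfold WtL Wt
      rw [hlin]
      exact (Fintype.sum_equiv e _ _ fun x => rfl).symm)
  simp only [lintegral_dirac, Finset.sum_const_zero, mul_zero, gcE_zero, lintegral_zero,
    tsum_zero, add_zero] at h
  refine h.trans (mul_le_mul_right (ENNReal.tsum_le_tsum fun P => lintegral_mono fun z => ?_) _)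
  by_cases hz : Valid Φ ε P T z.1.2 z.2
  · rw [indicator_of_mem (show z ∈ {z : PhasePoint × Par P | Valid Φ ε P T z.1.2 z.2} from hz),
      indicator_of_mem (show z ∈ {z : PhasePoint × Par P | Valid Φ ε P T z.1.2 z.2} from hz)]
    have hfin : WtL Φ ε P z ≠ ∞ := by
      unfold WtL
      exact ENNReal.sum_ne_top.2 fun i _ => ENNReal.ofReal_ne_top
    simp only [WtLM_of_adm hz.1]
    rw [gcE_const_mul f₀ ε hfin]
  · rw [indicator_of_notMem
      (show z ∉ {z : PhasePoint × Par P | Valid Φ ε P T z.1.2 z.2} from hz)]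
    exact zero_le

/-! ## Touched exits -/

/-- tree functional of the touched exits -/
def TG (Φ : Space3 → ℝ) (ε : ℝ) (K K' : ℕ) (u₀ : ℝ) (m : ℕ) (w : Config m) (P : CTree)
    (z : PhasePoint × Par P) : ℝ≥0∞ :=
  if P.leaves ≤ K ∧ ∃ x : {x : Idx P // x ≠ root P},
    (MW.cfg w).thetaL Φ ε K' u₀ (lineMM Φ ε P z x) ≤ u₀ then 1 else 0

theorem measurable_TG (hΦ : AdmissiblePotential Φ) (hε : 0 < ε) (K K' : ℕ) (u₀ : ℝ) (m : ℕ)
    (P : CTree) : Measurable fun q : Config m × (PhasePoint × Par P) =>
      TG Φ ε K K' u₀ m q.1 P q.2 := by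
  unfold TG
  by_cases hK : P.leaves ≤ K
  · simp only [hK, true_and]
    refine Measurable.ite ?_ measurable_const measurable_const
    have : {q : Config m × (PhasePoint × Par P) | ∃ x : {x : Idx P // x ≠ root P},
        (MW.cfg q.1).thetaL Φ ε K' u₀ (lineMM Φ ε P q.2 x) ≤ u₀} =
        ⋃ x : {x : Idx P // x ≠ root P}, {q : Config m × (PhasePoint × Par P) |
          (MW.cfg q.1).thetaL Φ ε K' u₀ (lineMM Φ ε P q.2 x) ≤ u₀} := by
      ext q; simp
    rw [this]
    refine MeasurableSet.iUnion fun x => measurableSet_le ?_ measurable_const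
    have hZ : Crest.Agent.R122.MeasE416.MeasW fun q : Config m × (PhasePoint × Par P) => MW.cfg q.1 :=
      Crest.Agent.R122.MeasE416.MeasW.cfg measurable_fst
    have hl : Measurable fun q : Config m × (PhasePoint × Par P) => lineMM Φ ε P q.2 x :=
      (measurable_lineMM hΦ ε P x).comp measurable_snd
    exact hZ.thetaL hΦ hε hl K' measurable_const
  · simp only [hK, false_and, if_false]
    exact measurable_const

/-- **Majorant of the touched exits.** -/
def touchN (Φ : Space3 → ℝ) (ε : ℝ) (K K' : ℕ) (T u₀ : ℝ) (k m : ℕ) (V : Config k) (w : Config m)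
    (j : Fin k) : ℝ≥0∞ := ways Φ ε T (TG Φ ε K K' u₀ m w) V j

theorem measurable_touchN (hΦ : AdmissiblePotential Φ) (hε : 0 < ε) (K K' : ℕ) (T u₀ : ℝ)
    (k m : ℕ) (j : Fin k) : Measurable fun q : Config k × Config m =>
      touchN Φ ε K K' T u₀ k m q.1 q.2 j := by
  have h0 : ∀ P : CTree, Measurable fun q : (Config k × Config m) × (PhasePoint × Par P) =>
      TG Φ ε K K' u₀ m q.1.2 P q.2 := by
    intro P
    have h1 := measurable_TG hΦ hε K K' u₀ m P
    have h2 : Measurable fun q : (Config k × Config m) × (PhasePoint × Par P) =>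
      (q.1.2, q.2) := measurable_fst.snd.prodMk measurable_snd
    have h3 := Measurable.comp h1 h2
    exact h3
  have h := measurable_ways (Ω := Config k × Config m) hΦ hε (T := T)
    (G := fun q => TG Φ ε K K' u₀ m q.2) h0 j (V := fun q => q.1) measurable_fst
  unfold touchN
  exact h

theorem one_le_touchN (hΦ : AdmissiblePotential Φ) (hε : 0 < ε) {K K' : ℕ} {T u₀ : ℝ} {k m : ℕ}
    {V : Config k} {w : Config m} {j : Fin k} {P : CTree} {e : Idx P ≃ Fin k}
    {z : PhasePoint × Par P} (h0 : e (root P) = j) (hv : Valid Φ ε P T z.1.2 z.2)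
    (hV : ∀ x, V (e x) = lines Φ ε P z.1 z.2 x) (hK : P.leaves ≤ K)
    {x : {x : Idx P // x ≠ root P}} (hx : (MW.cfg w).thetaL Φ ε K' u₀
      (Crest.Agent.R122.RtG302.exL Φ ε P z x) ≤ u₀) :
    1 ≤ touchN Φ ε K K' T u₀ k m V w j := by
  have h1 := le_ways hΦ hε (G := TG Φ ε K K' u₀ m w) h0 hv hV
  refine le_trans ?_ h1
  unfold TG
  rw [if_pos]
  refine ⟨hK, x, ?_⟩
  have e1 : lineMM Φ ε P (z.1, z.2) x = lineML Φ ε P z x := lineMM_of_adm ε hv.1 x
  rw [e1]
  exact hx

/-- **Mass of the touched exits**, tree side literally the left-hand side of `RtGMass_522`. -/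
theorem touchN_mass (hΦ : AdmissiblePotential Φ) (hf : Measurable f₀) (hε : 0 < ε) (K K' : ℕ)
    (T u₀ : ℝ) :
    ∑' k : ℕ, activity ε ^ k / (k.factorial : ℝ≥0∞) * ∫⁻ V : Config k, gcWeight f₀ ε k V *
        gcE f₀ ε (fun m w => perpInd ε V w * ∑ j : Fin k, Wt V *
          touchN Φ ε K K' T u₀ k m V w j) ≤
      activity ε * ∑' P : CTree, if P.leaves ≤ K then ∫⁻ z : PhasePoint × Par P,
        {z : PhasePoint × Par P | Valid Φ ε P T z.1.2 z.2}.indicator
          (fun z => wt Φ P z.1.2 z.2 * (pf Φ f₀ ε P z * (WtL Φ ε P z *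
            ∑ x : {x : Idx P // x ≠ root P}, gcE f₀ ε (fun _ w =>
              if (MW.cfg w).thetaL Φ ε K' u₀ (Crest.Agent.R122.RtG302.exL Φ ε P z x) ≤ u₀ then 1 else 0)))) z
        else 0 := by
  refine (ways_mass hΦ hf hε (fun m P => measurable_TG hΦ hε K K' u₀ m P)).trans
    (mul_le_mul_right (ENNReal.tsum_le_tsum fun P => ?_) _)
  by_cases hK : P.leaves ≤ K
  · rw [if_pos hK]
    refine lintegral_mono fun z => ?_
    by_cases hz : Valid Φ ε P T z.1.2 z.2
    · rw [indicator_of_mem (show z ∈ {z : PhasePoint × Par P | Valid Φ ε P T z.1.2 z.2} from hz),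
        indicator_of_mem (show z ∈ {z : PhasePoint × Par P | Valid Φ ε P T z.1.2 z.2} from hz)]
      refine mul_le_mul_right (mul_le_mul_right (mul_le_mul_right ?_ _) _) _
      have hm : ∀ (x : {x : Idx P // x ≠ root P}) (m : ℕ), Measurable fun w : Config m =>
          (if (MW.cfg w).thetaL Φ ε K' u₀ (Crest.Agent.R122.RtG302.exL Φ ε P z x) ≤ u₀ then (1 : ℝ≥0∞)
            else 0) := by
        intro x m
        refine Measurable.ite (measurableSet_le ?_ measurable_const) measurable_const
          measurable_const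
        have hZ : Crest.Agent.R122.MeasE416.MeasW fun w : Config m => MW.cfg w :=
          Crest.Agent.R122.MeasE416.MeasW.cfg measurable_id
        exact hZ.thetaL hΦ hε (l := fun _ => Crest.Agent.R122.RtG302.exL Φ ε P z x) measurable_const K'
          measurable_const
      have h2 := gcE_finset_sum hf ε (Finset.univ : Finset {x : Idx P // x ≠ root P})
        (F := fun x m w => if (MW.cfg w).thetaL Φ ε K' u₀ (Crest.Agent.R122.RtG302.exL Φ ε P z x) ≤ u₀ then
          (1 : ℝ≥0∞) else 0) (fun x _ m => hm x m)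
      rw [← h2]
      refine gcE_mono f₀ ε fun m w _ => ?_
      unfold TG
      by_cases hT : P.leaves ≤ K ∧ ∃ x : {x : Idx P // x ≠ root P},
          (MW.cfg w).thetaL Φ ε K' u₀ (lineMM Φ ε P z x) ≤ u₀
      · rw [if_pos hT]
        obtain ⟨-, x, hx⟩ := hT
        rw [lineMM_of_adm ε hz.1] at hx
        refine le_trans ?_ (Finset.single_le_sum (f := fun x : {x : Idx P // x ≠ root P} =>
          if (MW.cfg w).thetaL Φ ε K' u₀ (Crest.Agent.R122.RtG302.exL Φ ε P z x) ≤ u₀ then (1 : ℝ≥0∞) else 0)
          (fun _ _ => bot_le) (Finset.mem_univ x))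
        have hx' : (MW.cfg w).thetaL Φ ε K' u₀ (Crest.Agent.R122.RtG302.exL Φ ε P z x) ≤ u₀ := hx
        simp only [if_pos hx']
        exact le_rfl
      · rw [if_neg hT]
        exact zero_le
    · rw [indicator_of_notMem
        (show z ∉ {z : PhasePoint × Par P | Valid Φ ε P T z.1.2 z.2} from hz)]
      exact zero_le
  · rw [if_neg hK]
    have h0 : ∀ z : PhasePoint × Par P, gcE f₀ ε (fun m w => TG Φ ε K K' u₀ m w P z) = 0 := by
      intro z
      have : (fun (m : ℕ) (w : Config m) => TG Φ ε K K' u₀ m w P z) = fun _ _ => 0 := by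
        funext m w
        unfold TG
        rw [if_neg fun hc => hK hc.1]
      rw [this, gcE_zero]
    simp only [h0, mul_zero, indicator_zero, lintegral_zero, le_refl]

end Crest.Agent.R122.RtGTouch416

end
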