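import Crest.Agent.R122.AltGen_151
import Crest.Agent.R122.BPair_45
import Crest.Agent.R122.CausalNewton_291
import Crest.Agent.R122.EDefs_602

/-!
# Real versus ghost (row 122, board H12 / F3), deterministic part (helper151)

Two worlds `1` and `2` with common part `κ` (typically: `1` = the gas `w` alone, `2` = `w` together
with a cluster `D` and finitely many inserted lines; the particles of `D` and the lines are the
particles of the world `2` which are not common).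

* `loc2_bworld`, `pair_pth`, `loc2_pth`: instances of `Pair` / `Loc2` for worlds with births and for
  flows.
* `RChain`: an explicit alteration chain `k 0, …, k n` (distinct particles, closed contacts at the
  alteration times `θ 0 ≤ … ≤ θ n < u`) whose source is not protected at the time `θ 0`.
* `exists_rChain`: if a target is hit by `j` at time `u` in the world `1` but not in the world `2`,
  then `j` is the end of such a chain.
* `touched_or_clean`: either the difference has touched the infection at time `u`, or all particles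
  of the chain are clean at time `u` in both worlds.
* `rtg`: the form used for (RtG): protected tubes which are unhit in the real world and hit in the
  ghost world.
-/

set_option autoImplicit false

open Set Filter Topology
open Crest.AnalysisR.Kinetic

namespace Crest.Agent.R122.RtG151

open Crest.Agent.R122.Causal291 Crest.Agent.R122.CausalGen291 Crest.Agent.R122.AltGen151
open Crest.Agent.R122.Ins45 Crest.Agent.R122.Inf879 Crest.Agent.R122.Flow671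

/-! ### Instances -/

/-- `Loc2` for worlds with births. -/
theorem loc2_bworld {Φ : Space3 → ℝ} {ε : ℝ} {ι₁ ι₂ κ : Type} [Fintype ι₁] [Fintype ι₂]
    (hΦ : AdmissiblePotential Φ) (hε : 0 < ε) {b₁ : ι₁ → ℝ} {b₂ : ι₂ → ℝ}
    {X₁ : ℝ → ι₁ → PhasePoint} {X₂ : ℝ → ι₂ → PhasePoint} (h₁ : BWorld Φ ε b₁ 0 X₁)
    (h₂ : BWorld Φ ε b₂ 0 X₂) {e₁ : κ → ι₁} {e₂ : κ → ι₂} (he₁ : Function.Injective e₁)
    (he₂ : Function.Injective e₂) (hb : ∀ k, b₁ (e₁ k) = b₂ (e₂ k)) (T : ℝ) :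
    Loc2 T (CtB b₁ X₁ ε) X₁ (CtB b₂ X₂ ε) X₂ e₁ e₂ := by
  intro G U a b ha hab hbT hc₁ hc₂ hU h0 s hs k hk
  refine BWorld.agree_own hΦ hε h₁ h₂ he₁ he₂ (S := G) (A := U) (a := a) (T := b) ha ha
    (fun m _ t _ => by rw [hb m]) (fun m hm t ht => hU t ⟨ht.1, ht.2.le⟩ m hm) h0 ?_ ?_ k hk s hs
  · intro t ht m hm hbm j hbj hne
    refine h₁.le_dist_of_not_ctB (ha.trans ht.1) ht.2 hbm hbj fun r hr hc => ?_
    refine hc₁ r ⟨ht.1.trans hr.1.le, hr.2.le⟩ m hm j ?_ hc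
    rintro ⟨m', hm', rfl⟩
    exact hne m' hm' rfl
  · intro t ht m hm hbm j hbj hne
    refine h₂.le_dist_of_not_ctB (ha.trans ht.1) ht.2 hbm hbj fun r hr hc => ?_
    refine hc₂ r ⟨ht.1.trans hr.1.le, hr.2.le⟩ m hm j ?_ hc
    rintro ⟨m', hm', rfl⟩
    exact hne m' hm' rfl

/-- `Pair` for two flows. -/
theorem pair_pth {Φ : Space3 → ℝ} {ε : ℝ} {ι₁ ι₂ κ : Type} [Fintype ι₁] [Fintype ι₂]
    (hΦ : AdmissiblePotential Φ) (hε : 0 < ε) {Z₁ : ι₁ → PhasePoint} {Z₂ : ι₂ → PhasePoint}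
    (h₁ : Z₁ ∈ Dom Φ ι₁) (h₂ : Z₂ ∈ Dom Φ ι₂) {e₁ : κ → ι₁} {e₂ : κ → ι₂}
    (he₁ : Function.Injective e₁) (he₂ : Function.Injective e₂) (T : ℝ) :
    Pair T (Ct (pth Φ ε Z₁) ε) (pth Φ ε Z₁) (Ct (pth Φ ε Z₂) ε) (pth Φ ε Z₂) e₁ e₂ where
  inj₁ := he₁
  inj₂ := he₂
  symm₁ _ _ _ h := h.symm
  symm₂ _ _ _ h := h.symm
  closed₁ j k _ := isClosed_Icc.inter (isClosed_ct_pth hΦ hε Z₁ j k)
  closed₂ j k _ := isClosed_Icc.inter (isClosed_ct_pth hΦ hε Z₂ j k)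
  eqc k := isClosed_Icc.inter (isClosed_eq (continuous_pth hΦ hε Z₁ (e₁ k))
    (continuous_pth hΦ hε Z₂ (e₂ k)))
  loc G a b ha hab hbT hc₁ hc₂ h0 s hs k hk := by
    have : Finite κ := Finite.of_injective e₁ he₁
    refine locUniq_pth hΦ hε b h₁ h₂ G (fun l => e₁ l) (fun l => e₂ l) a b
      (fun l l' h => Subtype.ext (he₁ h)) (fun l l' h => Subtype.ext (he₂ h)) ha hab le_rfl
      ?_ ?_ (fun l => h0 l l.2) s hs ⟨k, hk⟩
    · intro r hr l j hj
      by_contra hlt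
      push Not at hlt
      refine hc₁ r hr l l.2 j ?_ hlt.le
      rintro ⟨m, hm, rfl⟩
      exact hj ⟨⟨m, hm⟩, rfl⟩
    · intro r hr l j hj
      by_contra hlt
      push Not at hlt
      refine hc₂ r hr l l.2 j ?_ hlt.le
      rintro ⟨m, hm, rfl⟩
      exact hj ⟨⟨m, hm⟩, rfl⟩
  coh s _ k l hk hl := by
    unfold Ct
    rw [hk, hl]

/-- `Loc2` for two flows. -/
theorem loc2_pth {Φ : Space3 → ℝ} {ε : ℝ} {ι₁ ι₂ κ : Type} [Fintype ι₁] [Fintype ι₂]
    (hΦ : AdmissiblePotential Φ) (hε : 0 < ε) {Z₁ : ι₁ → PhasePoint} {Z₂ : ι₂ → PhasePoint}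
    (h₁ : Z₁ ∈ Dom Φ ι₁) (h₂ : Z₂ ∈ Dom Φ ι₂) {e₁ : κ → ι₁} {e₂ : κ → ι₂}
    (he₁ : Function.Injective e₁) (he₂ : Function.Injective e₂) (T : ℝ) :
    Loc2 T (Ct (pth Φ ε Z₁) ε) (pth Φ ε Z₁) (Ct (pth Φ ε Z₂) ε) (pth Φ ε Z₂) e₁ e₂ := by
  classical
  intro G U a b ha hab hbT hc₁ hc₂ hU h0 s hs k hk
  have : Finite κ := Finite.of_injective e₁ he₁
  -- the shared neighbours outside `G`
  have hinj : ∀ {ι : Type} (e : κ → ι), Function.Injective e →
      Function.Injective (Sum.elim (fun l : G => e l) (fun l : (U \ G : Set κ) => e l)) := by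
    intro ι e he
    rintro (⟨x, hx⟩ | ⟨x, hx⟩) (⟨y, hy⟩ | ⟨y, hy⟩) hxy
    · have := he hxy; subst this; rfl
    · have : x = y := he hxy
      subst this
      exact absurd hx hy.2
    · have : x = y := he hxy
      subst this
      exact absurd hy hx.2
    · have := he hxy; subst this; rfl
  refine locUniq2_pth hΦ hε b h₁ h₂ G (U \ G : Set κ) (fun l => e₁ l) (fun l => e₂ l)
    (fun l => e₁ l) (fun l => e₂ l) a b (hinj e₁ he₁) (hinj e₂ he₂) ha hab le_rfl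
    ?_ ?_ (fun r hr l => hU r hr l l.2.1) (fun l => h0 l l.2) s hs ⟨k, hk⟩
  · intro r hr l j hj hj'
    by_contra hlt
    push Not at hlt
    refine hc₁ r hr l l.2 j ?_ hlt.le
    rintro ⟨m, hm, rfl⟩
    by_cases hmG : m ∈ G
    · exact hj ⟨⟨m, hmG⟩, rfl⟩
    · exact hj' ⟨⟨m, hm.resolve_left hmG, hmG⟩, rfl⟩
  · intro r hr l j hj hj'
    by_contra hlt
    push Not at hlt
    refine hc₂ r hr l l.2 j ?_ hlt.le
    rintro ⟨m, hm, rfl⟩
    by_cases hmG : m ∈ G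
    · exact hj ⟨⟨m, hmG⟩, rfl⟩
    · exact hj' ⟨⟨m, hm.resolve_left hmG, hmG⟩, rfl⟩

/-! ### Chains with unprotected source -/

variable {ι₁ ι₂ κ : Type} {X : Type*}

/-- An explicit alteration chain of distinct common particles, ending before time `u`, whose source
is a particle which is not common and (if it belongs to the world `2`) is not protected (`Pr`) at the
time of the first contact of the chain. -/
structure RChain (C₁ : ℝ → ι₁ → ι₁ → Prop) (z₁ : ℝ → ι₁ → X) (C₂ : ℝ → ι₂ → ι₂ → Prop)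
    (z₂ : ℝ → ι₂ → X) (e₁ : κ → ι₁) (e₂ : κ → ι₂) (Pr : ℝ → ι₂ → Prop) (u : ℝ) (n : ℕ)
    (θ : ℕ → ℝ) (k : ℕ → κ) : Prop extends AChain C₁ z₁ C₂ z₂ e₁ e₂ n θ k where
  lt : θ n < u
  src' : (∃ j, j ∉ range e₁ ∧ C₁ (θ 0) j (e₁ (k 0))) ∨
    ∃ j, j ∉ range e₂ ∧ ¬ Pr (θ 0) j ∧ C₂ (θ 0) j (e₂ (k 0))

section chain

variable {C₁ : ℝ → ι₁ → ι₁ → Prop} {C₂ : ℝ → ι₂ → ι₂ → Prop}
variable {z₁ : ℝ → ι₁ → X} {z₂ : ℝ → ι₂ → X} {e₁ : κ → ι₁} {e₂ : κ → ι₂} {T : ℝ}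
variable {Pr : ℝ → ι₂ → Prop} {u : ℝ} {n : ℕ} {θ : ℕ → ℝ} {k : ℕ → κ}

theorem RChain.time_lt (h : RChain C₁ z₁ C₂ z₂ e₁ e₂ Pr u n θ k) {i : ℕ} (hi : i ≤ n) :
    θ i < u := (h.toAChain.mono_le hi le_rfl).trans_lt h.lt

theorem RChain.time_nonneg (h : RChain C₁ z₁ C₂ z₂ e₁ e₂ Pr u n θ k) {i : ℕ} (hi : i ≤ n) :
    0 ≤ θ i := (h.alt i hi).nonneg

theorem RChain.fut_u (h : RChain C₁ z₁ C₂ z₂ e₁ e₂ Pr u n θ k) {i : ℕ} (hi : i ≤ n) :
    Fut C₁ z₁ C₂ z₂ e₁ e₂ u (k i) := (h.toAChain.fut hi).mono (h.time_lt hi).le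

/-- A chain of alterations with unprotected source, from a difference at time `u`. The protected
region `Pr` of the world `2` is closed under contacts and contains no common particle up to time
`u`. -/
theorem exists_rChain [Finite ι₁] [Finite ι₂] [Finite κ]
    (hp : Pair T C₁ z₁ C₂ z₂ e₁ e₂) (hloc : Loc2 T C₁ z₁ C₂ z₂ e₁ e₂)
    (h0 : ∀ k, z₁ 0 (e₁ k) = z₂ 0 (e₂ k)) (hu : u ∈ Icc 0 T)
    (hPr : ∀ s, 0 ≤ s → s < u → ∀ p q, Pr s p → C₂ s p q → Pr s q)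
    (hun : ∀ s, 0 ≤ s → s < u → ∀ l, ¬ Pr s (e₂ l)) {j : κ}
    (hd : z₁ u (e₁ j) ≠ z₂ u (e₂ j)) :
    ∃ (n : ℕ) (θ : ℕ → ℝ) (k : ℕ → κ), RChain C₁ z₁ C₂ z₂ e₁ e₂ Pr u n θ k ∧ k n = j := by
  obtain ⟨n, θ, k, hch, hlt, hkn⟩ := exists_aChain hp hloc h0 hu hd
  have h00 : 0 ≤ θ 0 := (hch.alt 0 (Nat.zero_le _)).nonneg
  have h0u : θ 0 < u := (hch.mono_le (Nat.zero_le _) le_rfl).trans_lt hlt
  refine ⟨n, θ, k, ⟨hch, hlt, ?_⟩, hkn⟩
  rcases hch.src with h | ⟨i, hi, hc⟩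
  · exact Or.inl h
  · exact Or.inr ⟨i, hi, fun hPi => hun (θ 0) h00 h0u (k 0) (hPr (θ 0) h00 h0u i _ hPi hc), hc⟩

/-- Either the difference of the two worlds has touched the infection at time `u`, or all particles
of the chain and all particles which are not common are clean at time `u`, in both worlds. -/
theorem touched_or_clean {P₁ : ℝ → ι₁ → Prop} {P₂ : ℝ → ι₂ → Prop}
    (h : RChain C₁ z₁ C₂ z₂ e₁ e₂ Pr u n θ k) :
    Touched C₁ z₁ C₂ z₂ e₁ e₂ P₁ P₂ u ∨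
      ((∀ i ≤ n, ¬ P₁ u (e₁ (k i)) ∧ ¬ P₂ u (e₂ (k i))) ∧ (∀ j, j ∉ range e₁ → ¬ P₁ u j) ∧
        ∀ j, j ∉ range e₂ → ¬ P₂ u j) := by
  by_cases ht : Touched C₁ z₁ C₂ z₂ e₁ e₂ P₁ P₂ u
  · exact Or.inl ht
  · refine Or.inr ⟨fun i hi => ⟨fun hP => ht ?_, fun hP => ht ?_⟩, fun j hj hP => ht ?_,
      fun j hj hP => ht ?_⟩
    · exact Or.inl ⟨k i, h.fut_u hi, Or.inl hP⟩
    · exact Or.inl ⟨k i, h.fut_u hi, Or.inr hP⟩
    · exact Or.inr (Or.inl ⟨j, hj, hP⟩)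
    · exact Or.inr (Or.inr ⟨j, hj, hP⟩)

/-- **Real versus ghost, deterministic part.** `Pr s p` : the particle `p` of the world `2` is
protected at time `s`; the protected region is closed under contacts and contains no common particle
up to time `u` (the structure is unhit in the real world). If at time `u` the common particle `j` of
the world `1` alone is at a forbidden state (`Hit`, a neighbourhood of the protected tubes or of a
fixed obstacle), while in the world `2` this state would be a contact with a protected particle (or is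
excluded by assumption), then either the difference of the two worlds has touched the infection
before or at time `u`, or there is a chain of alterations between clean particles from an
unprotected particle to `j`. -/
theorem rtg [Finite ι₁] [Finite ι₂] [Finite κ]
    (hp : Pair T C₁ z₁ C₂ z₂ e₁ e₂) (hloc : Loc2 T C₁ z₁ C₂ z₂ e₁ e₂)
    (h0 : ∀ k, z₁ 0 (e₁ k) = z₂ 0 (e₂ k)) (hu : u ∈ Icc 0 T)
    (hPr : ∀ s, 0 ≤ s → s ≤ u → ∀ p q, Pr s p → C₂ s p q → Pr s q)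
    (hun : ∀ s, 0 ≤ s → s ≤ u → ∀ l, ¬ Pr s (e₂ l)) {Hit : X → Prop} {j : κ}
    (hhit : Hit (z₁ u (e₁ j))) (hnot : Hit (z₂ u (e₂ j)) → ∃ p, Pr u p ∧ C₂ u p (e₂ j))
    (P₁ : ℝ → ι₁ → Prop) (P₂ : ℝ → ι₂ → Prop) :
    Touched C₁ z₁ C₂ z₂ e₁ e₂ P₁ P₂ u ∨
      ∃ (n : ℕ) (θ : ℕ → ℝ) (k : ℕ → κ), RChain C₁ z₁ C₂ z₂ e₁ e₂ Pr u n θ k ∧ k n = j ∧
        (∀ i ≤ n, ¬ P₁ u (e₁ (k i)) ∧ ¬ P₂ u (e₂ (k i))) ∧ (∀ j, j ∉ range e₁ → ¬ P₁ u j) ∧
        ∀ j, j ∉ range e₂ → ¬ P₂ u j := by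
  have hd : z₁ u (e₁ j) ≠ z₂ u (e₂ j) := by
    intro heq
    rw [heq] at hhit
    obtain ⟨p, hp', hc⟩ := hnot hhit
    exact hun u hu.1 le_rfl j (hPr u hu.1 le_rfl p _ hp' hc)
  obtain ⟨n, θ, k, hch, hkn⟩ := exists_rChain hp hloc h0 hu (fun s hs hsu => hPr s hs hsu.le)
    (fun s hs hsu => hun s hs hsu.le) hd
  rcases touched_or_clean (P₁ := P₁) (P₂ := P₂) hch with h | h
  · exact Or.inl h
  · exact Or.inr ⟨n, θ, k, hch, hkn, h⟩

/-- The converse comparison: hit in the real world `2`, not hit in the world `1` alone. -/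
theorem rtg' [Finite ι₁] [Finite ι₂] [Finite κ]
    (hp : Pair T C₁ z₁ C₂ z₂ e₁ e₂) (hloc : Loc2 T C₁ z₁ C₂ z₂ e₁ e₂)
    (h0 : ∀ k, z₁ 0 (e₁ k) = z₂ 0 (e₂ k)) (hu : u ∈ Icc 0 T)
    (hPr : ∀ s, 0 ≤ s → s < u → ∀ p q, Pr s p → C₂ s p q → Pr s q)
    (hun : ∀ s, 0 ≤ s → s < u → ∀ l, ¬ Pr s (e₂ l)) {Hit : X → Prop} {j : κ}
    (hhit : Hit (z₂ u (e₂ j))) (hnot : ¬ Hit (z₁ u (e₁ j)))
    (P₁ : ℝ → ι₁ → Prop) (P₂ : ℝ → ι₂ → Prop) :
    Touched C₁ z₁ C₂ z₂ e₁ e₂ P₁ P₂ u ∨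
      ∃ (n : ℕ) (θ : ℕ → ℝ) (k : ℕ → κ), RChain C₁ z₁ C₂ z₂ e₁ e₂ Pr u n θ k ∧ k n = j ∧
        (∀ i ≤ n, ¬ P₁ u (e₁ (k i)) ∧ ¬ P₂ u (e₂ (k i))) ∧ (∀ j, j ∉ range e₁ → ¬ P₁ u j) ∧
        ∀ j, j ∉ range e₂ → ¬ P₂ u j := by
  have hd : z₁ u (e₁ j) ≠ z₂ u (e₂ j) := by
    intro heq
    rw [← heq] at hhit
    exact hnot hhit
  obtain ⟨n, θ, k, hch, hkn⟩ := exists_rChain hp hloc h0 hu hPr hun hd
  rcases touched_or_clean (P₁ := P₁) (P₂ := P₂) hch with h | h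
  · exact Or.inl h
  · exact Or.inr ⟨n, θ, k, hch, hkn, h⟩

end chain

/-! ### Explorations as protected regions -/

section explore

variable {C : ℝ → ι₂ → ι₂ → Prop} {R : Set (ι₂ × ℝ)}

/-- Protected by the exploration of the roots `R` (pairs particle, time). -/
def PrR (C : ℝ → ι₂ → ι₂ → Prop) (R : Set (ι₂ × ℝ)) (s : ℝ) (p : ι₂) : Prop :=
  ∃ r ∈ R, Past C r.2 r.1 s p

theorem PrR.contact {s : ℝ} {p q : ι₂} (h : PrR C R s p) (hc : C s p q) : PrR C R s q := by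
  obtain ⟨r, hr, h⟩ := h
  exact ⟨r, hr, h.contact hc⟩

theorem PrR.anti {s s' : ℝ} {p : ι₂} (h : PrR C R s' p) (hs : s ≤ s') : PrR C R s p := by
  obtain ⟨r, hr, h⟩ := h
  exact ⟨r, hr, h.mono hs⟩

/-- Unhit: no common particle is ever protected as soon as none is protected at time `0`. -/
theorem PrR.unhit {e₂ : κ → ι₂} (h : ∀ l, ¬ PrR C R 0 (e₂ l)) {s : ℝ} (hs : 0 ≤ s) (l : κ) :
    ¬ PrR C R s (e₂ l) := fun h' => h l (h'.anti hs)

end explore

/-! ### The gas with an isolated cluster in front: `w` and `V ++ w` -/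

section append

variable {Φ : Space3 → ℝ} {ε : ℝ}

/-- **(RtG), gas form.** `V : Config k` a cluster, `w : Config m` the rest; roots `R` in `V`. If no
particle of `w` belongs to the exploration of `R` in the world `V ++ w`, and in the world `w` alone
the particle `j` is at time `u ≤ T` within `ε` of a particle `p` which is protected at time `u` (its
position in the world `V ++ w`), then either the difference of the worlds `w` and `V ++ w` has touched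
the infection (rules `P₁`, `P₂`) at time `u`, or there is an alteration chain of clean particles of
`w` from a particle of `V` after its last protected time to `j`. -/
theorem rtg_append (hΦ : AdmissiblePotential Φ) (hε : 0 < ε) {k m : ℕ} {V : Config k}
    {w : Config m} (hVW : Fin.append V w ∈ Dom Φ (Fin (k + m))) (R : Set (Fin (k + m) × ℝ))
    (hun : ∀ l : Fin m, ¬ PrR (Ct (pth Φ ε (Fin.append V w)) ε) R 0 (Fin.natAdd k l))
    {u : ℝ} (hu : 0 ≤ u) {p : Fin (k + m)} (hpr : PrR (Ct (pth Φ ε (Fin.append V w)) ε) R u p)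
    {j : Fin m} (hhit : dist (pth Φ ε (Fin.append V w) u p).1 (pth Φ ε w u j).1 ≤ ε)
    (P₁ : ℝ → Fin m → Prop) (P₂ : ℝ → Fin (k + m) → Prop) :
    Touched (Ct (pth Φ ε w) ε) (pth Φ ε w) (Ct (pth Φ ε (Fin.append V w)) ε)
        (pth Φ ε (Fin.append V w)) id (Fin.natAdd k) P₁ P₂ u ∨
      ∃ (n : ℕ) (θ : ℕ → ℝ) (q : ℕ → Fin m),
        RChain (Ct (pth Φ ε w) ε) (pth Φ ε w) (Ct (pth Φ ε (Fin.append V w)) ε)
          (pth Φ ε (Fin.append V w)) id (Fin.natAdd k)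
          (PrR (Ct (pth Φ ε (Fin.append V w)) ε) R) u n θ q ∧ q n = j ∧
        (∀ i ≤ n, ¬ P₁ u (q i) ∧ ¬ P₂ u (Fin.natAdd k (q i))) ∧
        ∀ i : Fin k, ¬ P₂ u (Fin.castAdd m i) := by
  have hw : w ∈ Dom Φ (Fin m) := by
    have := dom_comp hVW (e := Fin.natAdd k) (Fin.natAdd_injective m k)
    simpa using this
  have hp := pair_pth hΦ hε hw hVW (e₁ := (id : Fin m → Fin m)) (e₂ := Fin.natAdd k)
    Function.injective_id (Fin.natAdd_injective m k) u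
  have hl := loc2_pth hΦ hε hw hVW (e₁ := (id : Fin m → Fin m)) (e₂ := Fin.natAdd k)
    Function.injective_id (Fin.natAdd_injective m k) u
  have h0 : ∀ l : Fin m, pth Φ ε w 0 (id l) = pth Φ ε (Fin.append V w) 0 (Fin.natAdd k l) := by
    intro l
    simp only [pth, flow_zero hΦ hε, id_eq, Fin.append_right]
  rcases rtg hp hl h0 ⟨hu, le_rfl⟩
    (Pr := PrR (Ct (pth Φ ε (Fin.append V w)) ε) R) (fun s _ _ p q h hc => h.contact hc)
    (fun s hs _ l => PrR.unhit hun hs l)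
    (Hit := fun x : PhasePoint => dist (pth Φ ε (Fin.append V w) u p).1 x.1 ≤ ε) (j := j) hhit
    (fun h => ⟨p, hpr, h⟩) P₁ P₂ with h | ⟨n, θ, q, h1, h2, h3, -, h5⟩
  · exact Or.inl h
  · refine Or.inr ⟨n, θ, q, h1, h2, h3, fun i => h5 _ ?_⟩
    rintro ⟨l, hl⟩
    have := congrArg Fin.val hl
    simp only [Fin.val_natAdd, Fin.val_castAdd] at this
    have := i.2
    omega

end append

/-! ### Marked worlds (`EDefs_602`) -/

section mw

open Crest.Agent.R122.EDefs602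

variable {Φ : Space3 → ℝ} {ε : ℝ} {ι κ' : Type} [Fintype ι] [Fintype κ']

/-- A marked world is regular: its evolution is a world with births and particles born together
separate. -/
structure Reg (Φ : Space3 → ℝ) (ε : ℝ) (Z : MW ι) : Prop where
  bw : BWorld Φ ε Z.b 0 (Z.path Φ ε)
  sep : BirthSep Z.b (Z.path Φ ε) ε

theorem pair_add (hΦ : AdmissiblePotential Φ) (hε : 0 < ε) {Z : MW ι} {A : MW κ'}
    (hZ : Reg Φ ε Z) (hZA : Reg Φ ε (Z.add A)) (T : ℝ) :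
    Pair T (Z.C Φ ε) (Z.path Φ ε) ((Z.add A).C Φ ε) ((Z.add A).path Φ ε) id Sum.inl :=
  BWorld.pair hΦ hε hZ.bw hZA.bw Function.injective_id Sum.inl_injective (fun _ => rfl) hZ.sep
    hZA.sep T

theorem loc2_add (hΦ : AdmissiblePotential Φ) (hε : 0 < ε) {Z : MW ι} {A : MW κ'}
    (hZ : Reg Φ ε Z) (hZA : Reg Φ ε (Z.add A)) (T : ℝ) :
    Loc2 T (Z.C Φ ε) (Z.path Φ ε) ((Z.add A).C Φ ε) ((Z.add A).path Φ ε) id Sum.inl :=
  loc2_bworld hΦ hε hZ.bw hZA.bw Function.injective_id Sum.inl_injective (fun _ => rfl) T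

theorem path_zero (hΦ : AdmissiblePotential Φ) (hε : 0 < ε) (Z : MW ι) : Z.path Φ ε 0 = Z.z :=
  evo_self hΦ hε Z.b 0 Z.z

theorem path_add_zero (hΦ : AdmissiblePotential Φ) (hε : 0 < ε) (Z : MW ι) (A : MW κ') (k : ι) :
    Z.path Φ ε 0 (id k) = (Z.add A).path Φ ε 0 (Sum.inl k) := by
  rw [path_zero hΦ hε, path_zero hΦ hε]
  rfl

/-- **(RtG), marked worlds.** `Z` the world without the structure, `A` the structure (a cluster as
gas particles, exit lines, inserted lines), `R` roots in `Z.add A`. If no particle of `Z` belongs to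
the exploration of `R` in `Z.add A`, and in `Z` alone the particle `j` (born) is at time `u` within
`ε` of a protected particle `p` of `Z.add A`, then either `A` has touched `Z` at time `u`, or there
is an alteration chain of clean particles of `Z` from an unprotected particle of `A` to `j`. -/
theorem rtg_add (hΦ : AdmissiblePotential Φ) (hε : 0 < ε) {Z : MW ι} {A : MW κ'} (K : ℕ)
    (hZ : Reg Φ ε Z) (hZA : Reg Φ ε (Z.add A)) (R : Set ((ι ⊕ κ') × ℝ))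
    (hun : ∀ l : ι, ¬ PrR ((Z.add A).C Φ ε) R 0 (Sum.inl l)) {u : ℝ} (hu : 0 ≤ u)
    {p : ι ⊕ κ'} (hpr : PrR ((Z.add A).C Φ ε) R u p) (hpb : (Z.add A).b p ≤ u) {j : ι}
    (hjb : Z.b j ≤ u) (hb : (Z.add A).b p < u ∨ Z.b j < u)
    (hhit : dist ((Z.add A).path Φ ε u p).1 (Z.path Φ ε u j).1 ≤ ε) :
    Z.Touched Φ ε K A u ∨
      ∃ (n : ℕ) (θ : ℕ → ℝ) (q : ℕ → ι),
        RChain (Z.C Φ ε) (Z.path Φ ε) ((Z.add A).C Φ ε) ((Z.add A).path Φ ε) id Sum.inl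
          (PrR ((Z.add A).C Φ ε) R) u n θ q ∧ q n = j ∧
        (∀ i ≤ n, ¬ Z.Inf Φ ε K u (q i) ∧ ¬ (Z.add A).Inf Φ ε K u (Sum.inl (q i))) ∧
        ∀ i : κ', ¬ (Z.add A).Inf Φ ε K u (Sum.inr i) := by
  rcases rtg (pair_add hΦ hε hZ hZA u) (loc2_add hΦ hε hZ hZA u) (path_add_zero hΦ hε Z A)
    ⟨hu, le_rfl⟩ (Pr := PrR ((Z.add A).C Φ ε) R) (fun s _ _ p q h hc => h.contact hc)
    (fun s hs _ l => PrR.unhit hun hs l)
    (Hit := fun x : PhasePoint => dist ((Z.add A).path Φ ε u p).1 x.1 ≤ ε) (j := j) hhit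
    (fun h => ⟨p, hpr, hpb, hjb, Or.inr hb, h⟩) (Z.Inf Φ ε K) ((Z.add A).Inf Φ ε K) with
    h | ⟨n, θ, q, h1, h2, h3, -, h5⟩
  · exact Or.inl h
  · exact Or.inr ⟨n, θ, q, h1, h2, h3, fun i => h5 _ (by rintro ⟨l, hl⟩; exact absurd hl (by simp))⟩

end mw

end Crest.Agent.R122.RtG151
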