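import Crest.Agent.R122.Weight_984

/-!
# Section E, inequality 3, special terms: measure-theoretic core (helper994)

* `W_add`, `W_lip`: the weight `exp (-L x)` is multiplicative and `L`-Lipschitz;
* `stieltjes`: closed form of (W2): the inclusive weight, integrated over all lines touched at a
  time `≥ s₁`, is at most `1 / L` times the weight just before `s₁` (no atom condition);
* `spA_core`: SP-A, the cluster `V` touched first is fixed entirely and the line `d` is integrated;
* `spB_core`: SP-B, the line `d` touched first is fixed and the line `k` of the cluster is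
  integrated.
-/

set_option autoImplicit false

open MeasureTheory Set Filter
open scoped ENNReal Topology

namespace Crest.Agent.R122.SP994

open Crest.Agent.R122.Weight984

/-! ## The weight -/

theorem W_add {L : ℝ} (x y : ℝ≥0∞) : W L (x + y) = W L x * W L y := by
  rcases eq_or_ne x ∞ with rfl | hx
  · simp [W_top]
  rcases eq_or_ne y ∞ with rfl | hy
  · simp [W_top]
  have hxy : x + y ≠ ∞ := ENNReal.add_ne_top.2 ⟨hx, hy⟩
  rw [W_of_ne hxy, W_of_ne hx, W_of_ne hy, ← ENNReal.ofReal_mul (Real.exp_pos _).le,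
    ← Real.exp_add, ENNReal.toReal_add hx hy]
  congr 2
  ring

/-- The weight is `L`-Lipschitz (one-sided form). -/
theorem W_lip {L : ℝ} (hL : 0 < L) {x y δ : ℝ≥0∞} (h : y ≤ x + δ) :
    W L x ≤ W L y + ENNReal.ofReal L * δ := by
  rcases eq_or_ne x ∞ with rfl | hx
  · simp [W_top]
  rcases eq_or_ne δ ∞ with rfl | hδ
  · rw [ENNReal.mul_top (by simpa using hL)]
    simp
  have hxd : x + δ ≠ ∞ := ENNReal.add_ne_top.2 ⟨hx, hδ⟩
  have hy : y ≠ ∞ := ne_top_of_le_ne_top hxd h
  have h' : y.toReal ≤ x.toReal + δ.toReal := by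
    have := ENNReal.toReal_mono hxd h
    rwa [ENNReal.toReal_add hx hδ] at this
  rw [W_of_ne hx, W_of_ne hy]
  have hd : ENNReal.ofReal L * δ = ENNReal.ofReal (L * δ.toReal) := by
    rw [ENNReal.ofReal_mul hL.le, ENNReal.ofReal_toReal hδ]
  rw [hd, ← ENNReal.ofReal_add (Real.exp_pos _).le (mul_nonneg hL.le ENNReal.toReal_nonneg)]
  apply ENNReal.ofReal_le_ofReal
  set a := x.toReal
  set b := y.toReal
  set c := δ.toReal
  have hc : 0 ≤ c := ENNReal.toReal_nonneg
  have ha : 0 ≤ a := ENNReal.toReal_nonneg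
  have h1 : Real.exp (-(L * a)) * Real.exp (-(L * c)) ≤ Real.exp (-(L * b)) := by
    rw [← Real.exp_add]
    apply Real.exp_le_exp.2
    nlinarith
  have h2 : 1 - L * c ≤ Real.exp (-(L * c)) := by
    have := Real.add_one_le_exp (-(L * c))
    linarith
  have h3 : Real.exp (-(L * a)) ≤ 1 := by
    apply Real.exp_le_one_iff.2
    nlinarith
  have h4 : 0 < Real.exp (-(L * a)) := Real.exp_pos _
  have h5 : Real.exp (-(L * a)) * (1 - L * c) ≤ Real.exp (-(L * a)) * Real.exp (-(L * c)) :=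
    mul_le_mul_of_nonneg_left h2 h4.le
  nlinarith [mul_nonneg hL.le hc]

/-! ## Closed Stieltjes inequality -/

/-- **(W2), closed form.**  `ν` measure on the test lines, `θ` touch times; the inclusive weight
`exp (-L ν {θ ≤ θ ω})`, integrated over the lines touched at a time `≥ s₁`, is at most
`(1 / L) exp (-L ν {θ < s₁})`. -/
theorem stieltjes {Ω : Type*} [MeasurableSpace Ω] {L : ℝ} (hL : 0 < L) (ν : Measure Ω) [SFinite ν]
    {θ : Ω → ℝ} (hθ : Measurable θ) (s₁ : ℝ) :
    ∫⁻ ω in {ω | s₁ ≤ θ ω}, W L (ν {ω' | θ ω' ≤ θ ω}) ∂ν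
      ≤ ENNReal.ofReal (1 / L) * W L (ν {ω' | θ ω' < s₁}) := by
  classical
  set S : Set Ω := {ω | s₁ ≤ θ ω} with hS
  have hSm : MeasurableSet S := hθ measurableSet_Ici
  set ν' : Measure Ω := ν.restrict S with hν'
  set θ' : Ω → EReal := fun ω => ((θ ω : ℝ) : EReal) with hθ'
  have hθ'm : Measurable θ' := measurable_coe_real_ereal.comp hθ
  have key := lintegral_W_X_le hL ν' hθ'm ⊥
  have huniv : {ω | (⊥ : EReal) < θ' ω} = univ := by
    ext ω; simp [hθ', EReal.bot_lt_coe]
  have hX0 : X ν' θ' ⊥ = 0 := by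
    unfold X
    have : {ω | θ' ω ≤ (⊥ : EReal)} = ∅ := by
      ext ω; simp [hθ']
    rw [this, measure_empty]
  rw [huniv, Measure.restrict_univ, hX0, W_zero, mul_one] at key
  have hdec : ∀ ω ∈ S, ν {ω' | θ ω' ≤ θ ω} = ν {ω' | θ ω' < s₁} + X ν' θ' (θ' ω) := by
    intro ω hω
    have hset : {ω' | θ ω' ≤ θ ω} = {ω' | θ ω' < s₁} ∪ ({ω' | θ ω' ≤ θ ω} ∩ S) := by
      ext ω'
      simp only [mem_union, mem_inter_iff, mem_ofPred_eq, hS]
      constructor
      · intro h
        rcases lt_or_ge (θ ω') s₁ with h' | h'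
        · exact Or.inl h'
        · exact Or.inr ⟨h, h'⟩
      · rintro (h | h)
        · exact h.le.trans hω
        · exact h.1
    have hdisj : Disjoint {ω' | θ ω' < s₁} ({ω' | θ ω' ≤ θ ω} ∩ S) := by
      rw [Set.disjoint_left]
      intro ω' h1 h2
      exact absurd (show s₁ ≤ θ ω' from h2.2) (not_le.2 h1)
    have hm1 : MeasurableSet ({ω' | θ ω' ≤ θ ω} ∩ S) := (hθ measurableSet_Iic).inter hSm
    rw [hset, measure_union hdisj hm1]
    congr 1
    unfold X
    have hm2 : {ω' | θ' ω' ≤ θ' ω} = {ω' | θ ω' ≤ θ ω} := by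
      ext ω'; simp [hθ']
    have hm3 : MeasurableSet {ω' | θ ω' ≤ θ ω} := hθ measurableSet_Iic
    rw [hm2, hν', Measure.restrict_apply hm3]
  have hXm : Measurable fun ω => X ν' θ' (θ' ω) := (X_mono ν' θ').measurable.comp hθ'm
  calc ∫⁻ ω in S, W L (ν {ω' | θ ω' ≤ θ ω}) ∂ν
      = ∫⁻ ω in S, W L (ν {ω' | θ ω' < s₁}) * W L (X ν' θ' (θ' ω)) ∂ν := by
        refine setLIntegral_congr_fun hSm fun ω hω => ?_
        rw [hdec ω hω, W_add]
    _ = W L (ν {ω' | θ ω' < s₁}) * ∫⁻ ω in S, W L (X ν' θ' (θ' ω)) ∂ν :=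
        lintegral_const_mul _ ((measurable_W L).comp hXm)
    _ ≤ W L (ν {ω' | θ ω' < s₁}) * ENNReal.ofReal (1 / L) := by gcongr
    _ = ENNReal.ofReal (1 / L) * W L (ν {ω' | θ ω' < s₁}) := mul_comm _ _

/-- (W2) for real touch times, strict form. -/
theorem stieltjes_lt {Ω : Type*} [MeasurableSpace Ω] {L : ℝ} (hL : 0 < L) (ν : Measure Ω)
    [SFinite ν] {θ : Ω → ℝ} (hθ : Measurable θ) (s₁ : ℝ) :
    ∫⁻ ω in {ω | s₁ < θ ω}, W L (ν {ω' | θ ω' ≤ θ ω}) ∂ν
      ≤ ENNReal.ofReal (1 / L) * W L (ν {ω' | θ ω' ≤ s₁}) := by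
  set θ' : Ω → EReal := fun ω => ((θ ω : ℝ) : EReal) with hθ'
  have hθ'm : Measurable θ' := measurable_coe_real_ereal.comp hθ
  have key := lintegral_W_X_le hL ν hθ'm (s₁ : EReal)
  have h1 : {ω | (s₁ : EReal) < θ' ω} = {ω | s₁ < θ ω} := by
    ext ω; simp [hθ']
  have h2 : ∀ s : ℝ, X ν θ' (s : EReal) = ν {ω' | θ ω' ≤ s} := by
    intro s
    unfold X
    congr 1
    ext ω'; simp [hθ']
  rw [h1, h2] at key
  have h3 : (fun ω => W L (X ν θ' (θ' ω))) = fun ω => W L (ν {ω' | θ ω' ≤ θ ω}) := by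
    funext ω
    exact congrArg (W L) (h2 (θ ω))
  rwa [h3] at key

/-! ## SP-A: the cluster touched first is fixed entirely -/

section spA

variable {V Λ : Type*} [MeasurableSpace V] [MeasurableSpace Λ]

theorem measurable_touched {θ : V → Λ → ℝ} (hθ : Measurable (fun p : V × Λ => θ p.1 p.2))
    (lam : Measure Λ) [SFinite lam] {s : V → ℝ} (hs : Measurable s) :
    Measurable fun v => lam {l | θ v l < s v} := by
  have hm : MeasurableSet {p : V × Λ | θ p.1 p.2 < s p.1} :=
    measurableSet_lt hθ (hs.comp measurable_fst)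
  exact measurable_measure_prodMk_left hm

theorem measurable_touched_le {θ : V → Λ → ℝ} (hθ : Measurable (fun p : V × Λ => θ p.1 p.2))
    (lam : Measure Λ) [SFinite lam] :
    Measurable fun p : V × Λ => lam {l | θ p.1 l ≤ θ p.1 p.2} := by
  have hm : MeasurableSet {q : (V × Λ) × Λ | θ q.1.1 q.2 ≤ θ q.1.1 q.1.2} :=
    measurableSet_le (hθ.comp ((measurable_fst.comp measurable_fst).prodMk measurable_snd))
      (hθ.comp measurable_fst)
  exact measurable_measure_prodMk_left hm

/-- **SP-A core** (fixed gas world).  `m` = measure on the clusters `V` (with link time), `lam` =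
line measure, `ρ` = joint law of `(V, d)` (second line `e` integrated out), dominated by
`c • m ⊗ lam`; `G` = quenched weight of `V`; `θD V` = first touch time of the lines of `V`,
`θ V d` = touch time of `d` in the world with `V`. -/
theorem spA_core {L : ℝ} (hL : 0 < L) (m : Measure V) [SFinite m] (lam : Measure Λ) [SFinite lam]
    (ρ : Measure (V × Λ)) (c : ℝ≥0∞) (hR : ρ ≤ c • m.prod lam) {G : V → ℝ≥0∞} (hG : Measurable G)
    {θD : V → ℝ} (hθD : Measurable θD) {θ : V → Λ → ℝ}
    (hθ : Measurable (fun p : V × Λ => θ p.1 p.2)) (t' : ℝ) :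
    ∫⁻ p, G p.1 * {p : V × Λ | θD p.1 ≤ θ p.1 p.2 ∧ θ p.1 p.2 ≤ t'}.indicator
        (fun p => W L (lam {l | θ p.1 l ≤ θ p.1 p.2})) p ∂ρ
      ≤ c * ENNReal.ofReal (1 / L) *
        ∫⁻ v, G v * {v | θD v ≤ t'}.indicator (fun v => W L (lam {l | θ v l < θD v})) v ∂m := by
  classical
  have hX := measurable_touched_le hθ lam
  have hset : MeasurableSet {p : V × Λ | θD p.1 ≤ θ p.1 p.2 ∧ θ p.1 p.2 ≤ t'} :=
    (measurableSet_le (hθD.comp measurable_fst) hθ).inter (measurableSet_le hθ measurable_const)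
  have hF : Measurable fun p : V × Λ => G p.1 *
      {p : V × Λ | θD p.1 ≤ θ p.1 p.2 ∧ θ p.1 p.2 ≤ t'}.indicator
        (fun p => W L (lam {l | θ p.1 l ≤ θ p.1 p.2})) p :=
    (hG.comp measurable_fst).mul (((measurable_W L).comp hX).indicator hset)
  calc ∫⁻ p, G p.1 * {p : V × Λ | θD p.1 ≤ θ p.1 p.2 ∧ θ p.1 p.2 ≤ t'}.indicator
        (fun p => W L (lam {l | θ p.1 l ≤ θ p.1 p.2})) p ∂ρ
      ≤ ∫⁻ p, G p.1 * {p : V × Λ | θD p.1 ≤ θ p.1 p.2 ∧ θ p.1 p.2 ≤ t'}.indicator
        (fun p => W L (lam {l | θ p.1 l ≤ θ p.1 p.2})) p ∂(c • m.prod lam) :=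
        lintegral_mono' hR le_rfl
    _ = c * ∫⁻ v, ∫⁻ d, G v * {p : V × Λ | θD p.1 ≤ θ p.1 p.2 ∧ θ p.1 p.2 ≤ t'}.indicator
        (fun p => W L (lam {l | θ p.1 l ≤ θ p.1 p.2})) (v, d) ∂lam ∂m := by
        rw [lintegral_smul_measure, smul_eq_mul, lintegral_prod _ hF.aemeasurable]
    _ ≤ c * ∫⁻ v, ENNReal.ofReal (1 / L) *
          (G v * {v | θD v ≤ t'}.indicator (fun v => W L (lam {l | θ v l < θD v})) v) ∂m := by
        gcongr with v
        have hθv : Measurable (θ v) := hθ.comp measurable_prodMk_left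
        by_cases hv : θD v ≤ t'
        · rw [indicator_of_mem (show v ∈ {v | θD v ≤ t'} from hv)]
          have hmeas : Measurable fun d => {p : V × Λ | θD p.1 ≤ θ p.1 p.2 ∧ θ p.1 p.2 ≤ t'}.indicator
              (fun p => W L (lam {l | θ p.1 l ≤ θ p.1 p.2})) (v, d) :=
            (((measurable_W L).comp hX).indicator hset).comp measurable_prodMk_left
          rw [lintegral_const_mul _ hmeas]
          calc G v * ∫⁻ d, {p : V × Λ | θD p.1 ≤ θ p.1 p.2 ∧ θ p.1 p.2 ≤ t'}.indicator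
                (fun p => W L (lam {l | θ p.1 l ≤ θ p.1 p.2})) (v, d) ∂lam
              ≤ G v * ∫⁻ d in {d | θD v ≤ θ v d}, W L (lam {l | θ v l ≤ θ v d}) ∂lam := by
                refine mul_le_mul_right ?_ _
                have hms : MeasurableSet {d | θD v ≤ θ v d} := hθv measurableSet_Ici
                rw [← lintegral_indicator hms]
                refine lintegral_mono fun d => ?_
                by_cases hd : (v, d) ∈ {p : V × Λ | θD p.1 ≤ θ p.1 p.2 ∧ θ p.1 p.2 ≤ t'}
                · rw [indicator_of_mem hd, indicator_of_mem (show d ∈ {d | θD v ≤ θ v d} from hd.1)]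
                · rw [indicator_of_notMem hd]; exact zero_le
            _ ≤ G v * (ENNReal.ofReal (1 / L) * W L (lam {l | θ v l < θD v})) := by
                gcongr
                exact stieltjes hL lam hθv (θD v)
            _ = ENNReal.ofReal (1 / L) * (G v * W L (lam {l | θ v l < θD v})) := by ring
        · have : ∀ d, {p : V × Λ | θD p.1 ≤ θ p.1 p.2 ∧ θ p.1 p.2 ≤ t'}.indicator
              (fun p => W L (lam {l | θ p.1 l ≤ θ p.1 p.2})) (v, d) = 0 := by
            intro d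
            apply indicator_of_notMem
            rintro ⟨h1, h2⟩
            exact hv (h1.trans h2)
          simp [this]
    _ = c * ENNReal.ofReal (1 / L) *
        ∫⁻ v, G v * {v | θD v ≤ t'}.indicator (fun v => W L (lam {l | θ v l < θD v})) v ∂m := by
        rw [lintegral_const_mul, mul_assoc]
        exact hG.mul (((measurable_W L).comp (measurable_touched hθ lam hθD)).indicator
          (measurableSet_le hθD measurable_const))

end spA

/-! ## SP-B: the line touched first is fixed -/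

section spB

variable {Λ : Type*} [MeasurableSpace Λ]

/-- **SP-B core** (fixed gas world).  `θ₀ d` = touch time of the first line `d`, `θ d k` = touch
time of `k` in the world with `d`. -/
theorem spB_core {L : ℝ} (hL : 0 < L) (lam : Measure Λ) [SFinite lam] {θ₀ : Λ → ℝ}
    (hθ₀ : Measurable θ₀) {θ : Λ → Λ → ℝ} (hθ : Measurable (fun p : Λ × Λ => θ p.1 p.2))
    (S : Set Λ) :
    ∫⁻ d in S, ∫⁻ k in {k | θ₀ d ≤ θ d k}, W L (lam {l | θ d l ≤ θ d k}) ∂lam ∂lam
      ≤ ENNReal.ofReal (1 / L) * ∫⁻ d in S, W L (lam {l | θ d l < θ₀ d}) ∂lam := by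
  have hm : Measurable fun d => W L (lam {l | θ d l < θ₀ d}) :=
    (measurable_W L).comp (measurable_touched hθ lam hθ₀)
  rw [← lintegral_const_mul _ hm]
  refine lintegral_mono fun d => ?_
  exact stieltjes hL lam (hθ.comp measurable_prodMk_left) (θ₀ d)

end spB

end Crest.Agent.R122.SP994
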