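import Crest.Prelude.Def_KineticLimit

/-!
# Row 122, block F2: two-body scattering, part 1

Radial profile, gradient of a radial potential, cut-off forces.
-/

set_option autoImplicit false

open MeasureTheory Filter Set
open scoped Topology NNReal
open Crest.AnalysisR.Kinetic

noncomputable section

namespace Crest.Agent.R122.Scat818

/-! ### Gradient of a radial potential -/

lemma gradient_comp_isometry {Φ : Space3 → ℝ} (hrad : ∀ q q' : Space3, ‖q‖ = ‖q'‖ → Φ q = Φ q')
    (R : Space3 ≃ₗᵢ[ℝ] Space3) (q : Space3) :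
    gradient Φ (R q) = R (gradient Φ q) := by
  have hcomp : Φ ∘ R = Φ := by
    funext x; exact hrad _ _ (R.norm_map x)
  have h1 : fderiv ℝ (Φ ∘ R.toContinuousLinearEquiv) q
      = (fderiv ℝ Φ (R.toContinuousLinearEquiv q)).comp
        (R.toContinuousLinearEquiv : Space3 →L[ℝ] Space3) :=
    R.toContinuousLinearEquiv.comp_right_fderiv
  have h2 : Φ ∘ R.toContinuousLinearEquiv = Φ := hcomp
  rw [h2] at h1
  apply ext_inner_right ℝ
  intro y
  rw [← R.apply_symm_apply y, R.inner_map_map, inner_gradient_left, inner_gradient_left, h1]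
  simp

lemma exists_gradient_eq_smul {Φ : Space3 → ℝ} (hrad : ∀ q q' : Space3, ‖q‖ = ‖q'‖ → Φ q = Φ q')
    (q : Space3) : ∃ c : ℝ, gradient Φ q = c • q := by
  have h := gradient_comp_isometry hrad ((Submodule.span ℝ {q}).reflection) q
  have h2 : (Submodule.span ℝ {q}).reflection q = q :=
    Submodule.reflection_mem_subspace_eq_self (Submodule.mem_span_singleton_self q)
  rw [h2] at h
  have h3 : gradient Φ q ∈ Submodule.span ℝ {q} :=
    (Submodule.reflection_eq_self_iff _).1 h.symm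
  obtain ⟨c, hc⟩ := Submodule.mem_span_singleton.1 h3
  exact ⟨c, hc.symm⟩

lemma gradient_zero {Φ : Space3 → ℝ} (hrad : ∀ q q' : Space3, ‖q‖ = ‖q'‖ → Φ q = Φ q') :
    gradient Φ 0 = 0 := by
  obtain ⟨c, hc⟩ := exists_gradient_eq_smul hrad 0
  rw [hc, smul_zero]

/-! ### The radial profile -/

/-- a fixed unit vector -/
def e0 : Space3 := EuclideanSpace.single 0 1

@[simp] lemma norm_e0 : ‖e0‖ = 1 := by simp [e0]

/-- radial profile of the potential -/
def prof (Φ : Space3 → ℝ) (r : ℝ) : ℝ := Φ (r • e0)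

variable {Φ : Space3 → ℝ}

lemma eq_prof (hΦ : AdmissiblePotential Φ) (q : Space3) : Φ q = prof Φ ‖q‖ := by
  apply hΦ.radial
  rw [norm_smul, norm_e0, mul_one, norm_norm]

lemma prof_neg (hΦ : AdmissiblePotential Φ) (r : ℝ) : prof Φ (-r) = prof Φ r := by
  apply hΦ.radial
  rw [norm_smul, norm_smul, norm_neg]

lemma prof_abs (hΦ : AdmissiblePotential Φ) (r : ℝ) : prof Φ |r| = prof Φ r := by
  apply hΦ.radial
  rw [norm_smul, norm_smul, Real.norm_eq_abs, abs_abs, Real.norm_eq_abs]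

lemma prof_eq_zero (hΦ : AdmissiblePotential Φ) {r : ℝ} (hr : 1 ≤ r) : prof Φ r = 0 := by
  apply hΦ.eq_zero_of_one_le_norm
  rw [norm_smul, norm_e0, mul_one, Real.norm_eq_abs]
  exact hr.trans (le_abs_self r)

lemma contDiffAt_of_ne (hΦ : AdmissiblePotential Φ) {q : Space3} (hq : q ≠ 0) :
    ContDiffAt ℝ 2 Φ q :=
  hΦ.contDiff_away_from_origin.contDiffAt (isOpen_ne.mem_nhds hq)

lemma prof_contDiffAt (hΦ : AdmissiblePotential Φ) {r : ℝ} (hr : r ≠ 0) :
    ContDiffAt ℝ 2 (prof Φ) r := by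
  have h1 : ContDiffAt ℝ 2 (fun s : ℝ => s • e0) r := by fun_prop
  have h2 : r • e0 ≠ 0 := by
    intro h
    have := congrArg norm h
    rw [norm_smul, norm_e0, mul_one, norm_zero, norm_eq_zero] at this
    exact hr this
  exact ContDiffAt.comp r (contDiffAt_of_ne hΦ h2) h1

lemma prof_contDiffOn (hΦ : AdmissiblePotential Φ) : ContDiffOn ℝ 2 (prof Φ) (Ioi 0) :=
  fun _ hr => (prof_contDiffAt hΦ (ne_of_gt hr)).contDiffWithinAt

lemma prof_differentiableAt (hΦ : AdmissiblePotential Φ) {r : ℝ} (hr : r ≠ 0) :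
    DifferentiableAt ℝ (prof Φ) r :=
  (prof_contDiffAt hΦ hr).differentiableAt (by norm_num)

lemma prof_hasDerivAt (hΦ : AdmissiblePotential Φ) {r : ℝ} (hr : r ≠ 0) :
    HasDerivAt (prof Φ) (deriv (prof Φ) r) r :=
  (prof_differentiableAt hΦ hr).hasDerivAt

lemma prof_continuousAt (hΦ : AdmissiblePotential Φ) {r : ℝ} (hr : r ≠ 0) :
    ContinuousAt (prof Φ) r :=
  (prof_differentiableAt hΦ hr).continuousAt

lemma deriv_prof_contDiffOn (hΦ : AdmissiblePotential Φ) :
    ContDiffOn ℝ 1 (deriv (prof Φ)) (Ioi 0) :=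
  (prof_contDiffOn hΦ).deriv_of_isOpen isOpen_Ioi (by norm_num)

lemma deriv_prof_contDiffAt (hΦ : AdmissiblePotential Φ) {r : ℝ} (hr : 0 < r) :
    ContDiffAt ℝ 1 (deriv (prof Φ)) r :=
  (deriv_prof_contDiffOn hΦ).contDiffAt (isOpen_Ioi.mem_nhds hr)

lemma deriv_prof_continuousAt (hΦ : AdmissiblePotential Φ) {r : ℝ} (hr : 0 < r) :
    ContinuousAt (deriv (prof Φ)) r :=
  (deriv_prof_contDiffAt hΦ hr).continuousAt

lemma deriv_prof_eq_zero (hΦ : AdmissiblePotential Φ) {r : ℝ} (hr : 1 ≤ r) :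
    deriv (prof Φ) r = 0 := by
  have hr0 : r ≠ 0 := by linarith
  have h1 : HasDerivWithinAt (prof Φ) (deriv (prof Φ) r) (Ici r) r :=
    (prof_hasDerivAt hΦ hr0).hasDerivWithinAt
  have h2 : HasDerivWithinAt (prof Φ) 0 (Ici r) r := by
    have h3 : HasDerivWithinAt (fun _ : ℝ => (0:ℝ)) 0 (Ici r) r := hasDerivWithinAt_const _ _ _
    refine h3.congr (fun y hy => prof_eq_zero hΦ (hr.trans hy)) (prof_eq_zero hΦ hr)
  exact (uniqueDiffWithinAt_Ici r).eq_deriv _ h1 h2

lemma inner_gradient_self (hΦ : AdmissiblePotential Φ) (q : Space3) :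
    inner ℝ q (gradient Φ q) = deriv (prof Φ) ‖q‖ * ‖q‖ := by
  by_cases hq : q = 0
  · rw [hq, inner_zero_left, norm_zero, mul_zero]
  have hnq : ‖q‖ ≠ 0 := norm_ne_zero_iff.2 hq
  have hd : DifferentiableAt ℝ Φ q := (contDiffAt_of_ne hΦ hq).differentiableAt (by norm_num)
  rw [real_inner_comm, inner_gradient_left]
  -- derivative of t ↦ Φ (t • q) at 1
  have h1 : HasDerivAt (fun t : ℝ => Φ (t • q)) (fderiv ℝ Φ q q) 1 := by
    have h2 : HasDerivAt (fun t : ℝ => t • q) q 1 := by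
      simpa using (hasDerivAt_id (1:ℝ)).smul_const q
    have h3 : HasFDerivAt Φ (fderiv ℝ Φ q) ((1:ℝ) • q) := by
      rw [one_smul]; exact hd.hasFDerivAt
    exact h3.comp_hasDerivAt (1:ℝ) h2
  have h4 : HasDerivAt (fun t : ℝ => Φ (t • q)) (deriv (prof Φ) ‖q‖ * ‖q‖) 1 := by
    have h5 : (fun t : ℝ => Φ (t • q)) = fun t => prof Φ (t * ‖q‖) := by
      funext t
      rw [eq_prof hΦ, norm_smul, Real.norm_eq_abs]
      have : |t| * ‖q‖ = |t * ‖q‖| := by rw [abs_mul, abs_of_nonneg (norm_nonneg q)]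
      rw [this, prof_abs hΦ]
    rw [h5]
    have h6 : HasDerivAt (fun t : ℝ => t * ‖q‖) ‖q‖ 1 := by
      simpa using (hasDerivAt_id (1:ℝ)).mul_const ‖q‖
    have h7 : HasDerivAt (prof Φ) (deriv (prof Φ) ‖q‖) ((1:ℝ) * ‖q‖) := by
      rw [one_mul]; exact prof_hasDerivAt hΦ hnq
    exact h7.comp (1:ℝ) h6
  exact h1.unique h4

lemma gradient_eq (hΦ : AdmissiblePotential Φ) (q : Space3) :
    gradient Φ q = (deriv (prof Φ) ‖q‖ / ‖q‖) • q := by
  by_cases hq : q = 0
  · rw [hq, gradient_zero hΦ.radial, smul_zero]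
  have hnq : ‖q‖ ≠ 0 := norm_ne_zero_iff.2 hq
  obtain ⟨c, hc⟩ := exists_gradient_eq_smul hΦ.radial q
  have h := inner_gradient_self hΦ q
  rw [hc, inner_smul_right, real_inner_self_eq_norm_sq] at h
  rw [hc]
  congr 1
  field_simp
  have : (c * ‖q‖) * ‖q‖ = deriv (prof Φ) ‖q‖ * ‖q‖ := by rw [← h]; ring
  exact mul_right_cancel₀ hnq this

lemma gradient_eq_zero (hΦ : AdmissiblePotential Φ) {q : Space3} (hq : 1 ≤ ‖q‖) :
    gradient Φ q = 0 := by
  rw [gradient_eq hΦ, deriv_prof_eq_zero hΦ hq, zero_div, zero_smul]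

lemma norm_gradient (hΦ : AdmissiblePotential Φ) {q : Space3} (hq : q ≠ 0) :
    ‖gradient Φ q‖ = |deriv (prof Φ) ‖q‖| := by
  have hnq : ‖q‖ ≠ 0 := norm_ne_zero_iff.2 hq
  rw [gradient_eq hΦ, norm_smul, Real.norm_eq_abs, abs_div, abs_of_nonneg (norm_nonneg q)]
  field_simp

/-- lower bound from stability -/
lemma exists_lower_bound (hΦ : AdmissiblePotential Φ) :
    ∃ C : ℝ, 0 ≤ C ∧ ∀ q : Space3, q ≠ 0 → -C ≤ Φ q := by
  obtain ⟨B, hB, h⟩ := hΦ.stable
  refine ⟨2 * B, by linarith, fun q hq => ?_⟩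
  have h2 := h 2 ![q, 0] (by
    intro i j hij
    fin_cases i <;> fin_cases j <;> simp_all)
  simp only [pairEnergy, Fin.sum_univ_two] at h2
  simp at h2
  linarith

lemma exists_lower_bound' (hΦ : AdmissiblePotential Φ) :
    ∃ C : ℝ, 0 ≤ C ∧ ∀ r : ℝ, r ≠ 0 → -C ≤ prof Φ r := by
  obtain ⟨C, hC, h⟩ := exists_lower_bound hΦ
  refine ⟨C, hC, fun r hr => h _ ?_⟩
  intro h0
  have := congrArg norm h0
  rw [norm_smul, norm_e0, mul_one, norm_zero, norm_eq_zero] at this
  exact hr this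

/-! ### Regularity of the force -/

/-- the relative acceleration -/
def force (Φ : Space3 → ℝ) (q : Space3) : Space3 := -(2 : ℝ) • gradient Φ q

lemma gradient_apply (q : Space3) (i : Fin 3) :
    (gradient Φ q) i = fderiv ℝ Φ q (EuclideanSpace.single i 1) := by
  rw [← inner_gradient_left, real_inner_comm, EuclideanSpace.inner_single_left]
  simp

lemma contDiffAt_gradient {q : Space3} (h : ContDiffAt ℝ 2 Φ q) :
    ContDiffAt ℝ 1 (gradient Φ) q := by
  rw [contDiffAt_euclidean]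
  intro i
  have h1 : (fun x => (gradient Φ x) i) = fun x => fderiv ℝ Φ x (EuclideanSpace.single i 1) := by
    funext x; exact gradient_apply x i
  rw [h1]
  have h2 : ContDiffAt ℝ 1 (fderiv ℝ Φ) q := h.fderiv_right (by norm_num)
  exact h2.clm_apply contDiffAt_const

lemma contDiffAt_force {q : Space3} (h : ContDiffAt ℝ 2 Φ q) :
    ContDiffAt ℝ 1 (force Φ) q :=
  (contDiffAt_gradient h).const_smul (-(2 : ℝ))

lemma contDiffAt_force_of_ne (hΦ : AdmissiblePotential Φ) {q : Space3} (hq : q ≠ 0) :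
    ContDiffAt ℝ 1 (force Φ) q :=
  contDiffAt_force (contDiffAt_of_ne hΦ hq)

lemma force_eq_zero (hΦ : AdmissiblePotential Φ) {q : Space3} (hq : 1 ≤ ‖q‖) :
    force Φ q = 0 := by
  rw [force, gradient_eq_zero hΦ hq, smul_zero]

lemma force_isometry (hΦ : AdmissiblePotential Φ) (R : Space3 ≃ₗᵢ[ℝ] Space3) (q : Space3) :
    force Φ (R q) = R (force Φ q) := by
  rw [force, force, gradient_comp_isometry hΦ.radial, map_smul]

lemma exists_force_eq_smul (hΦ : AdmissiblePotential Φ) (q : Space3) :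
    ∃ c : ℝ, force Φ q = c • q := by
  obtain ⟨c, hc⟩ := exists_gradient_eq_smul hΦ.radial q
  exact ⟨-2 * c, by rw [force, hc, smul_smul]⟩

lemma inner_force_self (hΦ : AdmissiblePotential Φ) (q : Space3) :
    inner ℝ q (force Φ q) = -2 * (deriv (prof Φ) ‖q‖ * ‖q‖) := by
  rw [force, inner_smul_right, inner_gradient_self hΦ]

lemma hasCompactSupport_of_eq_zero {f : Space3 → Space3} (h : ∀ q : Space3, 1 ≤ ‖q‖ → f q = 0) :
    HasCompactSupport f := by
  apply HasCompactSupport.intro (isCompact_closedBall (0 : Space3) 1)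
  intro x hx
  apply h
  rw [mem_closedBall_zero_iff, not_le] at hx
  exact hx.le

/-- For every `δ > 0` there is a globally Lipschitz acceleration agreeing with the true one at
distance at least `δ` from the origin (everywhere if the potential is twice continuously
differentiable). -/
lemma exists_lipschitz_force (hΦ : AdmissiblePotential Φ) {δ : ℝ} (hδ : 0 < δ) :
    ∃ a : Space3 → Space3, (∃ K : ℝ≥0, LipschitzWith K a) ∧
      (∀ q, δ ≤ ‖q‖ → a q = force Φ q) ∧ (ContDiff ℝ 2 Φ → ∀ q, a q = force Φ q) := by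
  by_cases hC : ContDiff ℝ 2 Φ
  · refine ⟨force Φ, ?_, fun _ _ => rfl, fun _ _ => rfl⟩
    have h1 : ContDiff ℝ 1 (force Φ) := by
      rw [contDiff_iff_contDiffAt]
      exact fun q => contDiffAt_force hC.contDiffAt
    exact h1.lipschitzWith_of_hasCompactSupport
      (hasCompactSupport_of_eq_zero fun q hq => force_eq_zero hΦ hq) (by norm_num)
  · let χ : ContDiffBump (0 : Space3) := ⟨δ / 4, δ / 2, by linarith, by linarith⟩
    refine ⟨fun q => (1 - χ q) • force Φ q, ?_, ?_, fun h => absurd h hC⟩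
    · have h1 : ContDiff ℝ 1 (fun q => (1 - χ q) • force Φ q) := by
        rw [contDiff_iff_contDiffAt]
        intro q
        by_cases hq : q = 0
        · have h2 : (fun q => (1 - χ q) • force Φ q) =ᶠ[𝓝 q] fun _ => 0 := by
            rw [hq]
            filter_upwards [χ.eventuallyEq_one] with x hx
            rw [hx]; simp
          exact contDiffAt_const.congr_of_eventuallyEq h2
        · have h3 : ContDiffAt ℝ 1 (fun q => 1 - χ q) q :=
            contDiffAt_const.sub (χ.contDiff.contDiffAt)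
          exact h3.smul (contDiffAt_force_of_ne hΦ hq)
      exact h1.lipschitzWith_of_hasCompactSupport
        (hasCompactSupport_of_eq_zero fun q hq => by
          show (1 - χ q) • force Φ q = 0
          rw [force_eq_zero hΦ hq, smul_zero]) (by norm_num)
    · intro q hq
      have h4 : χ q = 0 := by
        apply χ.zero_of_le_dist
        rw [dist_zero_right]
        show δ / 2 ≤ ‖q‖
        linarith
      show (1 - χ q) • force Φ q = force Φ q
      rw [h4, sub_zero, one_smul]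

end Crest.Agent.R122.Scat818
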