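import Crest.Agent.R122.Scat1_818
import Crest.Agent.R122.FlowLip_671

/-!
# Row 122, block F2: two-body scattering, part 2

The relative flow `q'' = -2 ∇Φ(q)`: conservation laws, uniqueness, completeness, continuity.
-/

set_option autoImplicit false

open MeasureTheory Filter Set
open scoped Topology NNReal
open Crest.AnalysisR.Kinetic

noncomputable section

namespace Crest.Agent.R122.Scat818

open Flow671

variable {Φ : Space3 → ℝ}

/-- Global solutions of the relative problem. -/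
structure IsRel (Φ : Space3 → ℝ) (q p : ℝ → Space3) : Prop where
  pos : ∀ s, HasDerivAt q (p s) s
  vel : ∀ s, HasDerivAt p (force Φ (q s)) s

/-- Regular positions: nonzero, or arbitrary if the potential is `C²`. -/
def Reg (Φ : Space3 → ℝ) (x : Space3) : Prop := x ≠ 0 ∨ ContDiff ℝ 2 Φ

lemma Reg.contDiffAt (hΦ : AdmissiblePotential Φ) {x : Space3} (h : Reg Φ x) :
    ContDiffAt ℝ 2 Φ x := by
  rcases h with h | h
  · exact contDiffAt_of_ne hΦ h
  · exact h.contDiffAt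

lemma Reg.differentiableAt (hΦ : AdmissiblePotential Φ) {x : Space3} (h : Reg Φ x) :
    DifferentiableAt ℝ Φ x := (h.contDiffAt hΦ).differentiableAt (by norm_num)

lemma reg_of_norm_pos {x : Space3} (h : 0 < ‖x‖) : Reg Φ x := Or.inl (norm_pos_iff.1 h)

lemma isOpen_reg (Φ : Space3 → ℝ) : IsOpen {x : Space3 | Reg Φ x} := by
  by_cases h : ContDiff ℝ 2 Φ
  · have : {x : Space3 | Reg Φ x} = univ := eq_univ_of_forall fun x => Or.inr h
    rw [this]; exact isOpen_univ
  · have : {x : Space3 | Reg Φ x} = {x | x ≠ 0} := by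
      ext x
      exact ⟨fun hx => hx.resolve_right h, fun hx => Or.inl hx⟩
    rw [this]; exact isOpen_ne

lemma reg_isometry {x : Space3} (R : Space3 ≃ₗᵢ[ℝ] Space3) (h : Reg Φ x) : Reg Φ (R x) := by
  rcases h with h | h
  · exact Or.inl (fun h0 => h (by simpa using h0))
  · exact Or.inr h

namespace IsRel

variable {q p : ℝ → Space3}

lemma shift (h : IsRel Φ q p) (c : ℝ) : IsRel Φ (fun s => q (c + s)) (fun s => p (c + s)) := by
  refine ⟨fun s => ?_, fun s => ?_⟩
  · simpa [Function.comp_def] using (h.pos (c + s)).scomp s ((hasDerivAt_id s).const_add c)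
  · simpa [Function.comp_def] using (h.vel (c + s)).scomp s ((hasDerivAt_id s).const_add c)

lemma reverse (h : IsRel Φ q p) : IsRel Φ (fun s => q (-s)) (fun s => -p (-s)) := by
  refine ⟨fun s => ?_, fun s => ?_⟩
  · simpa [Function.comp_def] using (h.pos (-s)).scomp s (hasDerivAt_neg s)
  · simpa [Function.comp_def] using ((h.vel (-s)).scomp s (hasDerivAt_neg s)).fun_neg

lemma isometry (hΦ : AdmissiblePotential Φ) (h : IsRel Φ q p) (R : Space3 ≃ₗᵢ[ℝ] Space3) :
    IsRel Φ (fun s => R (q s)) (fun s => R (p s)) := by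
  refine ⟨fun s => ?_, fun s => ?_⟩
  · exact (R.toContinuousLinearEquiv : Space3 →L[ℝ] Space3).hasFDerivAt.comp_hasDerivAt s (h.pos s)
  · rw [force_isometry hΦ]
    exact (R.toContinuousLinearEquiv : Space3 →L[ℝ] Space3).hasFDerivAt.comp_hasDerivAt s (h.vel s)

lemma continuous_q (h : IsRel Φ q p) : Continuous q :=
  continuous_iff_continuousAt.2 fun s => (h.pos s).continuousAt

lemma continuous_p (h : IsRel Φ q p) : Continuous p :=
  continuous_iff_continuousAt.2 fun s => (h.vel s).continuousAt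

end IsRel

/-- Energy of the relative motion. -/
def en (Φ : Space3 → ℝ) (x v : Space3) : ℝ := ‖v‖ ^ 2 + 4 * Φ x

lemma hasDerivAt_norm_sq {p : ℝ → Space3} {p' : Space3} {s : ℝ} (h : HasDerivAt p p' s) :
    HasDerivAt (fun s => ‖p s‖ ^ 2) (2 * inner ℝ (p s) p') s := by
  have := h.norm_sq
  simpa using this

lemma IsRel.hasDerivAt_en (hΦ : AdmissiblePotential Φ) {q p : ℝ → Space3} (h : IsRel Φ q p) {s : ℝ}
    (hs : Reg Φ (q s)) : HasDerivAt (fun s => en Φ (q s) (p s)) 0 s := by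
  have h1 := hasDerivAt_norm_sq (h.vel s)
  have h2 : HasDerivAt (fun s => Φ (q s)) (fderiv ℝ Φ (q s) (p s)) s :=
    (hs.differentiableAt hΦ).hasFDerivAt.comp_hasDerivAt s (h.pos s)
  have h3 := h1.add (h2.const_mul 4)
  have h4 : 2 * inner ℝ (p s) (force Φ (q s)) + 4 * fderiv ℝ Φ (q s) (p s) = 0 := by
    rw [← inner_gradient_left, force, inner_smul_right, real_inner_comm]; ring
  rw [h4] at h3
  exact h3

lemma IsRel.energy_Icc (hΦ : AdmissiblePotential Φ) {q p : ℝ → Space3} (h : IsRel Φ q p) {a b : ℝ}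
    (hab : a ≤ b) (hreg : ∀ s ∈ Icc a b, Reg Φ (q s)) :
    en Φ (q b) (p b) = en Φ (q a) (p a) := by
  have := constant_of_has_deriv_right_zero (f := fun s => en Φ (q s) (p s)) (a := a) (b := b)
    (fun s hs => (h.hasDerivAt_en hΦ (hreg s hs)).continuousAt.continuousWithinAt)
    (fun s hs => (h.hasDerivAt_en hΦ (hreg s (Ico_subset_Icc_self hs))).hasDerivWithinAt)
  exact this b ⟨hab, le_rfl⟩

lemma IsRel.reg_pos (hΦ : AdmissiblePotential Φ) {q p : ℝ → Space3} (h : IsRel Φ q p)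
    (h0 : Reg Φ (q 0)) {s : ℝ} (hs : 0 ≤ s) : Reg Φ (q s) := by
  by_cases hC : ContDiff ℝ 2 Φ
  · exact Or.inr hC
  have hcore := hΦ.origin.resolve_left hC
  have h0' : q 0 ≠ 0 := h0.resolve_right hC
  left
  intro hqs
  -- first vanishing time
  have hcomp : IsCompact {t ∈ Icc 0 s | q t = 0} := by
    apply isCompact_Icc.of_isClosed_subset _ (sep_subset _ _)
    exact isClosed_Icc.inter (isClosed_eq h.continuous_q continuous_const)
  obtain ⟨t1, ⟨⟨ht10, ht1s⟩, hqt1⟩, hleast⟩ := hcomp.exists_isLeast ⟨s, ⟨⟨hs, le_rfl⟩, hqs⟩⟩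
  have ht1pos : 0 < t1 := by
    rcases lt_or_eq_of_le ht10 with h' | h'
    · exact h'
    · exact absurd (h' ▸ hqt1) h0'
  have hne : ∀ t ∈ Ico 0 t1, q t ≠ 0 := by
    intro t ht hqt
    have := hleast ⟨⟨ht.1, ht.2.le.trans ht1s⟩, hqt⟩
    linarith [ht.2]
  have hE : ∀ t ∈ Ico 0 t1, 4 * Φ (q t) ≤ en Φ (q 0) (p 0) := by
    intro t ht
    have := h.energy_Icc hΦ ht.1 (fun u hu => Or.inl (hne u ⟨hu.1, hu.2.trans_lt ht.2⟩))
    rw [← this, en]
    nlinarith [sq_nonneg ‖p t‖]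
  have hlim : Tendsto q (𝓝[<] t1) (𝓝[≠] 0) := by
    rw [tendsto_nhdsWithin_iff]
    refine ⟨?_, ?_⟩
    · have := (h.continuous_q.tendsto t1).mono_left (nhdsWithin_le_nhds (s := Iio t1))
      rwa [hqt1] at this
    · filter_upwards [Ioo_mem_nhdsLT ht1pos] with t ht
      exact hne t ⟨ht.1.le, ht.2⟩
  have hinf := hcore.comp hlim
  have h1 := hinf.eventually_gt_atTop (en Φ (q 0) (p 0) / 4)
  have h2 : ∀ᶠ t in 𝓝[<] t1, t ∈ Ioo 0 t1 := Ioo_mem_nhdsLT ht1pos
  obtain ⟨t, ht1, ht2⟩ := (h1.and h2).exists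
  have h3 := hE t ⟨ht2.1.le, ht2.2⟩
  simp only [Function.comp_apply] at ht1
  linarith

lemma IsRel.reg (hΦ : AdmissiblePotential Φ) {q p : ℝ → Space3} (h : IsRel Φ q p)
    (h0 : Reg Φ (q 0)) (s : ℝ) : Reg Φ (q s) := by
  rcases le_total 0 s with hs | hs
  · exact h.reg_pos hΦ h0 hs
  · have := h.reverse.reg_pos hΦ (by simpa using h0) (s := -s) (by linarith)
    simpa using this

lemma IsRel.energy (hΦ : AdmissiblePotential Φ) {q p : ℝ → Space3} (h : IsRel Φ q p)
    (h0 : Reg Φ (q 0)) (s : ℝ) : en Φ (q s) (p s) = en Φ (q 0) (p 0) := by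
  rcases le_total 0 s with hs | hs
  · exact h.energy_Icc hΦ hs fun u _ => h.reg hΦ h0 u
  · exact (h.energy_Icc hΦ hs fun u _ => h.reg hΦ h0 u).symm

/-- squared angular momentum -/
def am (x v : Space3) : ℝ := ‖x‖ ^ 2 * ‖v‖ ^ 2 - (inner ℝ x v) ^ 2

lemma am_nonneg (x v : Space3) : 0 ≤ am x v := by
  have := abs_real_inner_le_norm x v
  have h2 : (inner ℝ x v) ^ 2 ≤ (‖x‖ * ‖v‖) ^ 2 := by
    rw [← sq_abs (inner ℝ x v)]
    gcongr
  unfold am
  nlinarith [mul_pow ‖x‖ ‖v‖ 2]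

lemma IsRel.hasDerivAt_inner (hΦ : AdmissiblePotential Φ) {q p : ℝ → Space3} (h : IsRel Φ q p)
    (s : ℝ) : HasDerivAt (fun s => inner ℝ (q s) (p s))
      (‖p s‖ ^ 2 - 2 * (deriv (prof Φ) ‖q s‖ * ‖q s‖)) s := by
  have h1 := (h.pos s).inner ℝ (h.vel s)
  have h2 : inner ℝ (q s) (force Φ (q s)) + inner ℝ (p s) (p s)
      = ‖p s‖ ^ 2 - 2 * (deriv (prof Φ) ‖q s‖ * ‖q s‖) := by
    rw [inner_force_self hΦ, real_inner_self_eq_norm_sq]; ring
  rw [h2] at h1
  exact h1

lemma IsRel.am_const (hΦ : AdmissiblePotential Φ) {q p : ℝ → Space3} (h : IsRel Φ q p) (s : ℝ) :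
    am (q s) (p s) = am (q 0) (p 0) := by
  have hd : ∀ s, HasDerivAt (fun s => am (q s) (p s)) 0 s := by
    intro s
    obtain ⟨c, hc⟩ := exists_force_eq_smul hΦ (q s)
    have h1 := hasDerivAt_norm_sq (h.pos s)
    have h2 := hasDerivAt_norm_sq (h.vel s)
    have h3 := (h.pos s).inner ℝ (h.vel s)
    have h4 := (h1.mul h2).sub (h3.pow 2)
    have h5 : 2 * inner ℝ (q s) (p s) * ‖p s‖ ^ 2 + ‖q s‖ ^ 2 * (2 * inner ℝ (p s) (force Φ (q s)))
        - (2 : ℕ) * (inner ℝ (q s) (p s)) ^ (2 - 1)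
          * (inner ℝ (q s) (force Φ (q s)) + inner ℝ (p s) (p s)) = 0 := by
      rw [hc, inner_smul_right, inner_smul_right, real_inner_self_eq_norm_sq,
        real_inner_self_eq_norm_sq, real_inner_comm (q s) (p s)]
      push_cast
      ring
    rw [h5] at h4
    exact h4
  exact is_const_of_deriv_eq_zero (fun s => (hd s).differentiableAt) (fun s => (hd s).deriv) s 0

/-! ### Cut-off forces and completeness -/

/-- The phase-space field of an acceleration. -/
def fld (a : Space3 → Space3) (z : Space3 × Space3) : Space3 × Space3 := (z.2, a z.1)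

lemma lipschitzWith_fld {a : Space3 → Space3} {K : ℝ≥0} (ha : LipschitzWith K a) :
    LipschitzWith (max 1 K) (fld a) := by
  have h1 : LipschitzWith 1 (fun z : Space3 × Space3 => z.2) := LipschitzWith.prod_snd
  have h2 : LipschitzWith K (fun z : Space3 × Space3 => a z.1) := by
    have := ha.comp (LipschitzWith.prod_fst (α := Space3) (β := Space3))
    rw [mul_one] at this
    exact this
  exact h1.prodMk h2

/-- The set of regular phase points. -/
def RegSet (Φ : Space3 → ℝ) : Set (Space3 × Space3) := {z | Reg Φ z.1}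

lemma isOpen_regSet (Φ : Space3 → ℝ) : IsOpen (RegSet Φ) :=
  (isOpen_reg Φ).preimage continuous_fst

lemma isSol_iff (hΦ : AdmissiblePotential Φ) {γ : ℝ → Space3 × Space3} :
    IsSol (fld (force Φ)) (RegSet Φ) γ ↔
      IsRel Φ (fun t => (γ t).1) (fun t => (γ t).2) ∧ Reg Φ (γ 0).1 := by
  constructor
  · intro h
    refine ⟨⟨fun s => ?_, fun s => ?_⟩, (h 0).1⟩
    · exact (h s).2.fst
    · exact (h s).2.snd
  · rintro ⟨h, h0⟩ t
    refine ⟨h.reg hΦ h0 t, ?_⟩
    exact (h.pos t).prodMk (h.vel t)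

/-- **Cut-off data at energy `E`.** -/
lemma exists_cut (hΦ : AdmissiblePotential Φ) (E : ℝ) :
    ∃ δ : ℝ, 0 < δ ∧ ∃ a : Space3 → Space3, (∃ K : ℝ≥0, LipschitzWith K a) ∧
      (∀ x, Reg Φ x → 4 * Φ x ≤ E → δ ≤ ‖x‖ ∨ ContDiff ℝ 2 Φ) ∧
      (∀ x, δ / 2 ≤ ‖x‖ → a x = force Φ x) ∧ (ContDiff ℝ 2 Φ → ∀ x, a x = force Φ x) := by
  by_cases hC : ContDiff ℝ 2 Φ
  · obtain ⟨a, ha, _, h2⟩ := exists_lipschitz_force hΦ one_pos
    exact ⟨1, one_pos, a, ha, fun _ _ _ => Or.inr hC, fun x _ => h2 hC x, fun _ x => h2 hC x⟩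
  · have hcore := hΦ.origin.resolve_left hC
    have h1 : ∀ᶠ x in 𝓝[≠] (0 : Space3), E / 4 < Φ x := hcore.eventually_gt_atTop _
    rw [eventually_nhdsWithin_iff, Metric.eventually_nhds_iff] at h1
    obtain ⟨δ, hδ, h1⟩ := h1
    obtain ⟨a, ha, h2, h3⟩ := exists_lipschitz_force hΦ (half_pos hδ)
    refine ⟨δ, hδ, a, ha, fun x hx hE => Or.inl ?_, h2, h3⟩
    by_contra hlt
    rw [not_le] at hlt
    have := h1 (y := x) (by rwa [dist_zero_right]) (hx.resolve_right hC)
    linarith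

/-- In the cut-off flow, a solution started at a regular point of energy at most `E` is a true
solution. -/
lemma isRel_of_cut (hΦ : AdmissiblePotential Φ) {E δ : ℝ} (hδ : 0 < δ) {a : Space3 → Space3}
    (h1 : ∀ x, Reg Φ x → 4 * Φ x ≤ E → δ ≤ ‖x‖ ∨ ContDiff ℝ 2 Φ)
    (h2 : ∀ x, δ / 2 ≤ ‖x‖ → a x = force Φ x) (h3 : ContDiff ℝ 2 Φ → ∀ x, a x = force Φ x)
    {q p : ℝ → Space3} (hq : ∀ s, HasDerivAt q (p s) s) (hp : ∀ s, HasDerivAt p (a (q s)) s)
    (h0 : Reg Φ (q 0)) (hE : en Φ (q 0) (p 0) ≤ E) : IsRel Φ q p := by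
  by_cases hC : ContDiff ℝ 2 Φ
  · exact ⟨hq, fun s => by rw [← h3 hC]; exact hp s⟩
  -- it suffices to bound the norm from below
  have key : ∀ (q p : ℝ → Space3), (∀ s, HasDerivAt q (p s) s) → (∀ s, HasDerivAt p (a (q s)) s) →
      Reg Φ (q 0) → en Φ (q 0) (p 0) ≤ E → ∀ s, 0 ≤ s → δ ≤ ‖q s‖ := by
    intro q p hq hp h0 hE s hs
    by_contra hlt
    rw [not_le] at hlt
    have hqc : Continuous q := continuous_iff_continuousAt.2 fun s => (hq s).continuousAt
    have hx0 : δ ≤ ‖q 0‖ := by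
      refine (h1 (q 0) h0 ?_).resolve_right hC
      have : 4 * Φ (q 0) ≤ en Φ (q 0) (p 0) := by unfold en; nlinarith [sq_nonneg ‖p 0‖]
      linarith
    -- choose a level c
    obtain ⟨c, hc1, hc2⟩ : ∃ c, max (δ / 2) ‖q s‖ < c ∧ c < δ :=
      exists_between (max_lt (by linarith) hlt)
    have hcδ : δ / 2 < c := (le_max_left _ _).trans_lt hc1
    have hcs : ‖q s‖ < c := (le_max_right _ _).trans_lt hc1
    have hcomp : IsCompact {t ∈ Icc 0 s | ‖q t‖ ≤ c} := by
      apply isCompact_Icc.of_isClosed_subset _ (sep_subset _ _)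
      exact isClosed_Icc.inter (isClosed_le hqc.norm continuous_const)
    obtain ⟨t1, ⟨⟨ht10, ht1s⟩, hqt1⟩, hleast⟩ := hcomp.exists_isLeast ⟨s, ⟨⟨hs, le_rfl⟩, hcs.le⟩⟩
    have hgt : ∀ t ∈ Ico 0 t1, c < ‖q t‖ := by
      intro t ht
      by_contra hle
      rw [not_lt] at hle
      have := hleast ⟨⟨ht.1, ht.2.le.trans ht1s⟩, hle⟩
      linarith [ht.2]
    have ht1pos : 0 < t1 := by
      rcases lt_or_eq_of_le ht10 with h' | h'
      · exact h'
      · rw [← h'] at hqt1; linarith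
    have hge : c ≤ ‖q t1‖ := by
      have hcl : t1 ∈ closure (Ico 0 t1) := by
        rw [closure_Ico (ne_of_lt ht1pos)]; exact ⟨ht10, le_rfl⟩
      have : closure (Ico 0 t1) ⊆ {t | c ≤ ‖q t‖} :=
        closure_minimal (fun t ht => (hgt t ht).le) (isClosed_le continuous_const hqc.norm)
      exact this hcl
    have hall : ∀ t ∈ Icc 0 t1, c ≤ ‖q t‖ := by
      intro t ht
      rcases lt_or_eq_of_le ht.2 with h' | h'
      · exact (hgt t ⟨ht.1, h'⟩).le
      · rw [h']; exact hge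
    -- energy on [0,t1]
    have hreg : ∀ t ∈ Icc 0 t1, Reg Φ (q t) := fun t ht =>
      reg_of_norm_pos (by linarith [hall t ht])
    have hder : ∀ t ∈ Icc 0 t1, HasDerivAt (fun s => en Φ (q s) (p s)) 0 t := by
      intro t ht
      have hat : a (q t) = force Φ (q t) := h2 _ (by linarith [hall t ht])
      have e1 := hasDerivAt_norm_sq (hp t)
      have e2 : HasDerivAt (fun s => Φ (q s)) (fderiv ℝ Φ (q t) (p t)) t :=
        ((hreg t ht).differentiableAt hΦ).hasFDerivAt.comp_hasDerivAt t (hq t)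
      have e3 := e1.add (e2.const_mul 4)
      have e4 : 2 * inner ℝ (p t) (a (q t)) + 4 * fderiv ℝ Φ (q t) (p t) = 0 := by
        rw [hat, ← inner_gradient_left, force, inner_smul_right, real_inner_comm]; ring
      rw [e4] at e3
      exact e3
    have hen : en Φ (q t1) (p t1) = en Φ (q 0) (p 0) :=
      constant_of_has_deriv_right_zero (f := fun s => en Φ (q s) (p s)) (a := 0) (b := t1)
        (fun s hs => (hder s hs).continuousAt.continuousWithinAt)
        (fun s hs => (hder s (Ico_subset_Icc_self hs)).hasDerivWithinAt) t1 ⟨ht10, le_rfl⟩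
    have : δ ≤ ‖q t1‖ := by
      refine (h1 (q t1) (hreg t1 ⟨ht10, le_rfl⟩) ?_).resolve_right hC
      have : 4 * Φ (q t1) ≤ en Φ (q t1) (p t1) := by unfold en; nlinarith [sq_nonneg ‖p t1‖]
      linarith
    linarith
  have hbd : ∀ s, δ ≤ ‖q s‖ := by
    intro s
    rcases le_total 0 s with hs | hs
    · exact key q p hq hp h0 hE s hs
    · have := key (fun s => q (-s)) (fun s => -p (-s))
        (fun s => by simpa [Function.comp_def] using (hq (-s)).scomp s (hasDerivAt_neg s))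
        (fun s => by
          simpa [Function.comp_def] using ((hp (-s)).scomp s (hasDerivAt_neg s)).fun_neg)
        (by simpa using h0) (by simpa [en] using hE) (-s) (by linarith)
      simpa using this
  exact ⟨hq, fun s => by rw [← h2 (q s) (by linarith [hbd s])]; exact hp s⟩

/-- The relative field is complete on regular phase points. -/
theorem complete_rel (hΦ : AdmissiblePotential Φ) : Complete (fld (force Φ)) (RegSet Φ) := by
  refine ⟨?_, ?_⟩
  · intro z hz
    have h1 : ContDiffAt ℝ 1 (fld (force Φ)) z := by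
      have h2 : ContDiffAt ℝ 1 (force Φ) z.1 :=
        contDiffAt_force (Reg.contDiffAt hΦ hz)
      exact contDiffAt_snd.prodMk (h2.comp z contDiffAt_fst)
    obtain ⟨K, t, ht, hK⟩ := h1.exists_lipschitzOnWith
    exact ⟨K, t, mem_nhdsWithin_of_mem_nhds ht, hK⟩
  · intro z hz
    obtain ⟨δ, hδ, a, ⟨K, hK⟩, h1, h2, h3⟩ := exists_cut hΦ (en Φ z.1 z.2)
    have hc := complete_of_lipschitz (lipschitzWith_fld hK)
    refine ⟨fun t => gflow (fld a) univ t z, hc.flow_zero z, ?_⟩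
    rw [isSol_iff hΦ]
    have hd := fun t => hc.hasDerivAt (mem_univ z) t
    refine ⟨isRel_of_cut hΦ hδ h1 h2 h3 (fun s => (hd s).fst) (fun s => (hd s).snd) ?_ ?_, ?_⟩
    · rw [hc.flow_zero]; exact hz
    · rw [hc.flow_zero]
    · rw [hc.flow_zero]; exact hz

/-- **The relative flow.** -/
def relFlow (Φ : Space3 → ℝ) (t : ℝ) (z : Space3 × Space3) : Space3 × Space3 :=
  gflow (fld (force Φ)) (RegSet Φ) t z

lemma isRel_relFlow (hΦ : AdmissiblePotential Φ) {z : Space3 × Space3} (hz : Reg Φ z.1) :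
    IsRel Φ (fun t => (relFlow Φ t z).1) (fun t => (relFlow Φ t z).2) :=
  ((isSol_iff hΦ).1 ((complete_rel hΦ).isSol (x := z) hz)).1

lemma relFlow_zero (hΦ : AdmissiblePotential Φ) (z : Space3 × Space3) : relFlow Φ 0 z = z :=
  (complete_rel hΦ).flow_zero z

lemma relFlow_add (hΦ : AdmissiblePotential Φ) (s t : ℝ) (z : Space3 × Space3) :
    relFlow Φ (s + t) z = relFlow Φ t (relFlow Φ s z) := (complete_rel hΦ).flow_add s t z

lemma reg_relFlow (hΦ : AdmissiblePotential Φ) {z : Space3 × Space3} (hz : Reg Φ z.1) (t : ℝ) :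
    Reg Φ (relFlow Φ t z).1 := (complete_rel hΦ).flow_mem (x := z) hz t

/-- Uniqueness. -/
lemma IsRel.eq_relFlow (hΦ : AdmissiblePotential Φ) {q p : ℝ → Space3} (h : IsRel Φ q p)
    (h0 : Reg Φ (q 0)) (t : ℝ) : (q t, p t) = relFlow Φ t (q 0, p 0) :=
  (complete_rel hΦ).eq_flow (γ := fun t => (q t, p t)) ((isSol_iff hΦ).2 ⟨h, h0⟩) t

lemma IsRel.q_eq (hΦ : AdmissiblePotential Φ) {q p : ℝ → Space3} (h : IsRel Φ q p)
    (h0 : Reg Φ (q 0)) (t : ℝ) : q t = (relFlow Φ t (q 0, p 0)).1 := by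
  rw [← h.eq_relFlow hΦ h0 t]

lemma IsRel.p_eq (hΦ : AdmissiblePotential Φ) {q p : ℝ → Space3} (h : IsRel Φ q p)
    (h0 : Reg Φ (q 0)) (t : ℝ) : p t = (relFlow Φ t (q 0, p 0)).2 := by
  rw [← h.eq_relFlow hΦ h0 t]

lemma relFlow_isometry (hΦ : AdmissiblePotential Φ) (R : Space3 ≃ₗᵢ[ℝ] Space3) {z : Space3 × Space3}
    (hz : Reg Φ z.1) (t : ℝ) :
    relFlow Φ t (R z.1, R z.2) = (R (relFlow Φ t z).1, R (relFlow Φ t z).2) := by
  have h := ((isRel_relFlow hΦ hz).isometry hΦ R).eq_relFlow hΦ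
    (by
      show Reg Φ (R (relFlow Φ 0 z).1)
      rw [relFlow_zero hΦ]; exact reg_isometry R hz) t
  simp only [relFlow_zero hΦ] at h
  exact h.symm

lemma relFlow_reverse (hΦ : AdmissiblePotential Φ) {z : Space3 × Space3}
    (hz : Reg Φ z.1) (t : ℝ) :
    relFlow Φ t (z.1, -z.2) = ((relFlow Φ (-t) z).1, -(relFlow Φ (-t) z).2) := by
  have h := ((isRel_relFlow hΦ hz).reverse).eq_relFlow hΦ
    (by
      show Reg Φ (relFlow Φ (-0) z).1
      rw [neg_zero, relFlow_zero hΦ]; exact hz) t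
  simp only [neg_zero, relFlow_zero hΦ] at h
  exact h.symm

lemma en_relFlow (hΦ : AdmissiblePotential Φ) {z : Space3 × Space3} (hz : Reg Φ z.1) (t : ℝ) :
    en Φ (relFlow Φ t z).1 (relFlow Φ t z).2 = en Φ z.1 z.2 := by
  have := (isRel_relFlow hΦ hz).energy hΦ
    (by
      show Reg Φ (relFlow Φ 0 z).1
      rw [relFlow_zero hΦ]; exact hz) t
  simpa only [relFlow_zero hΦ] using this

lemma am_relFlow (hΦ : AdmissiblePotential Φ) {z : Space3 × Space3} (hz : Reg Φ z.1) (t : ℝ) :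
    am (relFlow Φ t z).1 (relFlow Φ t z).2 = am z.1 z.2 := by
  have := (isRel_relFlow hΦ hz).am_const hΦ t
  simpa only [relFlow_zero hΦ] using this

/-- Below a given energy, the relative flow is the flow of a globally Lipschitz field. -/
theorem exists_relFlow_eq_cut (hΦ : AdmissiblePotential Φ) (E : ℝ) :
    ∃ a : Space3 → Space3, (∃ K : ℝ≥0, LipschitzWith K a) ∧
      ∀ z : Space3 × Space3, Reg Φ z.1 → en Φ z.1 z.2 ≤ E → ∀ t : ℝ,
        relFlow Φ t z = gflow (fld a) univ t z := by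
  obtain ⟨δ, hδ, a, ⟨K, hK⟩, h1, h2, h3⟩ := exists_cut hΦ E
  have hc := complete_of_lipschitz (lipschitzWith_fld hK)
  refine ⟨a, ⟨K, hK⟩, fun z hz hE t => ?_⟩
  have hd := fun t => hc.hasDerivAt (mem_univ z) t
  have hrel : IsRel Φ (fun t => (gflow (fld a) univ t z).1) (fun t => (gflow (fld a) univ t z).2) :=
    isRel_of_cut hΦ hδ h1 h2 h3 (fun s => (hd s).fst) (fun s => (hd s).snd)
      (by rw [hc.flow_zero]; exact hz) (by rw [hc.flow_zero]; exact hE)
  have h := hrel.eq_relFlow hΦ (by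
    show Reg Φ (gflow (fld a) univ 0 z).1
    rw [hc.flow_zero]; exact hz) t
  simp only [hc.flow_zero] at h
  exact h.symm

/-- Joint continuity of the relative flow on regular data. -/
theorem continuousOn_relFlow (hΦ : AdmissiblePotential Φ) :
    ContinuousOn (fun p : ℝ × (Space3 × Space3) => relFlow Φ p.1 p.2) (univ ×ˢ RegSet Φ) := by
  rintro ⟨t0, z0⟩ ⟨_, hz0⟩
  have hz0' : Reg Φ z0.1 := hz0
  obtain ⟨a, ⟨K, hK⟩, h⟩ := exists_relFlow_eq_cut hΦ (en Φ z0.1 z0.2 + 1)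
  have hcont := continuous_flow (lipschitzWith_fld hK)
  apply ContinuousAt.continuousWithinAt
  have hΦc : ContinuousAt Φ z0.1 := (hz0'.differentiableAt hΦ).continuousAt
  have hen : ContinuousAt (fun z : Space3 × Space3 => en Φ z.1 z.2) z0 := by
    unfold en
    have h1 : ContinuousAt (fun z : Space3 × Space3 => Φ z.1) z0 :=
      ContinuousAt.comp (f := fun z : Space3 × Space3 => z.1) hΦc continuous_fst.continuousAt
    exact ((continuous_snd.norm.pow 2).continuousAt).add (h1.const_mul 4)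
  have hev1 : ∀ᶠ z in 𝓝 z0, en Φ z.1 z.2 < en Φ z0.1 z0.2 + 1 :=
    hen.eventually_lt continuousAt_const (by linarith)
  have hev2 : ∀ᶠ z in 𝓝 z0, Reg Φ z.1 := (isOpen_regSet Φ).mem_nhds hz0
  have hev : (fun p : ℝ × (Space3 × Space3) => gflow (fld a) univ p.1 p.2) =ᶠ[𝓝 (t0, z0)]
      fun p => relFlow Φ p.1 p.2 := by
    have := (continuous_snd.tendsto (t0, z0)).eventually (hev1.and hev2)
    filter_upwards [this] with p hp
    exact (h p.2 hp.2 hp.1.le p.1).symm
  exact hcont.continuousAt.congr hev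

end Crest.Agent.R122.Scat818
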