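import Crest.Agent.R122.Coll3_674

/-!
Row 122, block C (helper674), C1: **the two-body identity**.

`Vset Φ ε T` = valid (root line, node) pairs (admissible, exit time `< T`, entrance time `> 0`);
`inMap` maps them injectively to pairs of incoming lines, with left inverse `outD`; the measure
`‖v - w‖ dℓ ds dw dy` is mapped to `ε⁻² dℓ₁ dℓ₂` on the image `outD ⁻¹' Vset`.
-/

set_option autoImplicit false

open MeasureTheory Set Filter Topology
open Crest.AnalysisR.Kinetic
open scoped ENNReal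

noncomputable section

namespace Crest.Agent.R122.Tree674

open Kin796 Kin796.CTree Disc416 Scat818 Flow671 Flux663

variable {Φ : Space3 → ℝ}

/-- valid pairs (root line, node) -/
def Vset (Φ : Space3 → ℝ) (ε T : ℝ) : Set (PhasePoint × NodeP) :=
  {z | Adm1 Φ z.1.2 z.2 ∧ z.2.1 < T ∧ 0 < Tree674.sin Φ ε z.1.2 z.2}

theorem measurableSet_Vset (hΦ : AdmissiblePotential Φ) (ε T : ℝ) :
    MeasurableSet (Vset Φ ε T) := by
  have h : Vset Φ ε T = ({z | Adm1 Φ z.1.2 z.2} ∩ {z | z.2.1 < T}) ∩ {z | 0 < sinM Φ ε z} := by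
    ext z
    constructor
    · rintro ⟨h1, h2, h3⟩
      refine ⟨⟨h1, h2⟩, ?_⟩
      show 0 < sinM Φ ε z
      rw [sinM_of_adm h1]; exact h3
    · rintro ⟨⟨h1, h2⟩, h3⟩
      refine ⟨h1, h2, ?_⟩
      have h3' : 0 < sinM Φ ε z := h3
      rwa [sinM_of_adm h1] at h3'
  rw [h]
  refine ((measurableSet_adm1 hΦ).inter ?_).inter
    (measurableSet_lt measurable_const (measurable_sinM hΦ ε))
  exact measurableSet_lt (by fun_prop) measurable_const

theorem Vset_subset_GN (ε T : ℝ) : Vset Φ ε T ⊆ GN := fun _ hz => ⟨hz.1.1, hz.1.2.1⟩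

/-- outgoing data of a pair of lines -/
def outD (Φ : Space3 → ℝ) (ε T : ℝ) (q : PhasePoint × PhasePoint) : PhasePoint × NodeP :=
  nodeO ε (sc Φ ε T q)

theorem measurable_outD (hΦ : AdmissiblePotential Φ) {ε : ℝ} (hε : 0 < ε) (T : ℝ) :
    Measurable (outD Φ ε T) :=
  (measurable_nodeO ε).comp (measurePreserving_sc hΦ hε T).measurable

/-- **`outD` is a left inverse of `inMap`** on the valid set. -/
theorem outD_inMap (hΦ : AdmissiblePotential Φ) {ε : ℝ} (hε : 0 < ε) {T : ℝ}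
    {z : PhasePoint × NodeP} (hz : z ∈ Vset Φ ε T) : outD Φ ε T (inMap Φ ε z.1 z.2) = z := by
  unfold outD
  rw [sc_inMap hΦ hε hz.1 hz.2.2.le hz.2.1.le, nodeO_outLine hε hz.1.2.1]

/-- **`inMap` is a right inverse of `outD`** on the image. -/
theorem inMap_outD (hΦ : AdmissiblePotential Φ) {ε : ℝ} (hε : 0 < ε) {T : ℝ}
    {q : PhasePoint × PhasePoint} (hq : outD Φ ε T q ∈ Vset Φ ε T) :
    inMap Φ ε (outD Φ ε T q).1 (outD Φ ε T q).2 = q := by
  rw [inMap_eq_scInv hΦ hε hq.1 hq.2.2.le hq.2.1.le]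
  have h1 : (sc Φ ε T q).1.2 ≠ (sc Φ ε T q).2.2 := hq.1.2.1
  have h2 : outLine ε (outD Φ ε T q).1 (outD Φ ε T q).2 = (sc Φ ε T q).2 := outLine_nodeO hε h1
  rw [h2]
  exact scInv_sc hΦ hε T q

theorem outD_mem_iff (hΦ : AdmissiblePotential Φ) {ε : ℝ} (hε : 0 < ε) {T : ℝ}
    {q : PhasePoint × PhasePoint} :
    outD Φ ε T q ∈ Vset Φ ε T ↔ ∃ z ∈ Vset Φ ε T, inMap Φ ε z.1 z.2 = q := by
  constructor
  · intro h
    exact ⟨_, h, inMap_outD hΦ hε h⟩
  · rintro ⟨z, hz, rfl⟩
    rwa [outD_inMap hΦ hε hz]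

/-- **The two-body identity.** -/
theorem twoBody (hΦ : AdmissiblePotential Φ) {ε : ℝ} (hε : 0 < ε) (T : ℝ)
    {H : (PhasePoint × NodeP) × (PhasePoint × PhasePoint) → ℝ≥0∞} (hH : Measurable H) :
    ENNReal.ofReal (ε ^ 2) * ∫⁻ z : PhasePoint × NodeP, (Vset Φ ε T).indicator
        (fun z => ENNReal.ofReal ‖z.1.2 - z.2.2.1‖ * H (z, inMap Φ ε z.1 z.2)) z =
      ∫⁻ q : PhasePoint × PhasePoint, (outD Φ ε T ⁻¹' Vset Φ ε T).indicator
        (fun q => H (outD Φ ε T q, q)) q := by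
  have hV := measurableSet_Vset hΦ ε T
  have hsi := (measurePreserving_scInv hΦ hε T).measurable
  have hn := measurable_nodeO ε
  -- the function of the outgoing pair
  set K : PhasePoint × PhasePoint → ℝ≥0∞ := (nodeO ε ⁻¹' Vset Φ ε T).indicator
    (fun q => H (nodeO ε q, scInv Φ ε T q)) with hK
  have hKm : Measurable K := (hH.comp (hn.prodMk hsi)).indicator (hn hV)
  -- right side
  have hR : ∫⁻ q : PhasePoint × PhasePoint, (outD Φ ε T ⁻¹' Vset Φ ε T).indicator
        (fun q => H (outD Φ ε T q, q)) q = ∫⁻ q, K q := by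
    rw [← (measurePreserving_sc hΦ hε T).lintegral_comp hKm]
    refine lintegral_congr fun q => ?_
    rw [hK]
    by_cases hq : outD Φ ε T q ∈ Vset Φ ε T
    · rw [indicator_of_mem (by exact hq), indicator_of_mem (by exact hq), scInv_sc hΦ hε]
      rfl
    · rw [indicator_of_notMem (by exact hq), indicator_of_notMem (by exact hq)]
  rw [hR]
  -- a measurable version of the integrand on the left
  have hinM := measurable_inM hΦ ε
  have hL : ∀ z : PhasePoint × NodeP, (Vset Φ ε T).indicator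
        (fun z => ENNReal.ofReal ‖z.1.2 - z.2.2.1‖ * H (z, inMap Φ ε z.1 z.2)) z =
      (Vset Φ ε T).indicator
        (fun z => ENNReal.ofReal ‖z.1.2 - z.2.2.1‖ * H (z, inM Φ ε z)) z := by
    intro z
    by_cases hz : z ∈ Vset Φ ε T
    · rw [indicator_of_mem hz, indicator_of_mem hz, inM_of_adm hz.1]
    · rw [indicator_of_notMem hz, indicator_of_notMem hz]
  have hLm : Measurable ((Vset Φ ε T).indicator
        (fun z : PhasePoint × NodeP => ENNReal.ofReal ‖z.1.2 - z.2.2.1‖ * H (z, inM Φ ε z))) := by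
    refine Measurable.indicator ?_ hV
    have h1 : Measurable fun z : PhasePoint × NodeP => ENNReal.ofReal ‖z.1.2 - z.2.2.1‖ := by
      fun_prop
    exact h1.mul (hH.comp (measurable_id.prodMk hinM))
  simp only [hL]
  have hP1 : (volume : Measure (PhasePoint × NodeP)) =
      (volume : Measure PhasePoint).prod (volume : Measure NodeP) := rfl
  have hP2 : (volume : Measure (PhasePoint × PhasePoint)) =
      (volume : Measure PhasePoint).prod (volume : Measure PhasePoint) := rfl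
  rw [hP1, hP2, lintegral_prod _ hLm.aemeasurable,
    lintegral_prod _ hKm.aemeasurable, ← lintegral_const_mul' _ _ ENNReal.ofReal_ne_top]
  refine lintegral_congr fun ℓ => ?_
  have hKℓ : Measurable fun ℓo : PhasePoint => K (ℓ, ℓo) :=
    hKm.comp (measurable_const.prodMk measurable_id)
  have h1 := lintegral_outLine hε ℓ hKℓ
  have h2 : ∀ ℓo : PhasePoint, {ℓo | nodeO ε (ℓ, ℓo) ∈ GN}.indicator (fun ℓo => K (ℓ, ℓo)) ℓo =
      K (ℓ, ℓo) := by
    intro ℓo
    by_cases h : nodeO ε (ℓ, ℓo) ∈ GN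
    · rw [indicator_of_mem (by exact h)]
    · rw [indicator_of_notMem (by exact h), hK, indicator_of_notMem]
      exact fun h' => h (Vset_subset_GN ε T h')
  simp only [h2] at h1
  rw [h1]
  congr 1
  refine lintegral_congr fun a => ?_
  by_cases hG : (ℓ, a) ∈ GN
  · have eR : {a : NodeP | (ℓ, a) ∈ GN}.indicator
        (fun a => ENNReal.ofReal ‖ℓ.2 - a.2.1‖ * K (ℓ, outLine ε ℓ a)) a =
        ENNReal.ofReal ‖ℓ.2 - a.2.1‖ * K (ℓ, outLine ε ℓ a) :=
      indicator_of_mem (show a ∈ {a : NodeP | (ℓ, a) ∈ GN} from hG) _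
    rw [eR]
    have hne : ℓ.2 ≠ a.2.1 := hG.2
    by_cases hz : (ℓ, a) ∈ Vset Φ ε T
    · have hm : (ℓ, outLine ε ℓ a) ∈ nodeO ε ⁻¹' Vset Φ ε T := by
        show nodeO ε (ℓ, outLine ε ℓ a) ∈ Vset Φ ε T
        rw [nodeO_outLine hε hne]; exact hz
      rw [indicator_of_mem hz, hK, indicator_of_mem hm]
      rw [nodeO_outLine hε hne, ← inMap_eq_scInv hΦ hε hz.1 hz.2.2.le hz.2.1.le, inM_of_adm hz.1]
    · have hm : (ℓ, outLine ε ℓ a) ∉ nodeO ε ⁻¹' Vset Φ ε T := by
        intro h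
        have h' : nodeO ε (ℓ, outLine ε ℓ a) ∈ Vset Φ ε T := h
        rw [nodeO_outLine hε hne] at h'
        exact hz h'
      rw [indicator_of_notMem hz, hK, indicator_of_notMem hm, mul_zero]
  · rw [indicator_of_notMem (fun h => hG (Vset_subset_GN ε T h)), indicator_of_notMem (by exact hG)]

end Crest.Agent.R122.Tree674

end
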