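import Crest.Agent.R122.ForestInt_399
import Crest.Agent.R122.TwoBody_674

/-!
Row 122, block C (helper399): measurability of validity + separation.
-/

set_option autoImplicit false

open MeasureTheory Set Filter Topology Crest.AnalysisR.Kinetic
open scoped Classical ENNReal

noncomputable section

namespace Crest.Agent.R122.Forest399

open Kin796 Kin796.CTree Disc416 Tree674 TreeEps399

/-! ### An abstract lemma -/

/-- outside of two closed intervals, with a margin -/
def Out (a b a' b' δ u : ℝ) : Prop := (u < a - δ ∨ b + δ < u) ∧ (u < a' - δ ∨ b' + δ < u)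

theorem measurableSet_outside {Ω : Type*} [MeasurableSpace Ω] {V : Set Ω} (hV : MeasurableSet V)
    {d : Ω → ℝ → ℝ} (hm : ∀ u, Measurable (V.indicator fun z => d z u))
    (hc : ∀ z ∈ V, Continuous (d z)) {a b a' b' : Ω → ℝ} (ha : Measurable a) (hb : Measurable b)
    (ha' : Measurable a') (hb' : Measurable b') (ε T : ℝ) :
    MeasurableSet {z | z ∈ V ∧ ∀ u ∈ Icc 0 T, ¬ (a z ≤ u ∧ u ≤ b z) → ¬ (a' z ≤ u ∧ u ≤ b' z) →
      ε < d z u} := by
  obtain ⟨D, hDc, hDd⟩ := TopologicalSpace.exists_countable_dense (Icc (0 : ℝ) T)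
  have hset : {z | z ∈ V ∧ ∀ u ∈ Icc 0 T, ¬ (a z ≤ u ∧ u ≤ b z) → ¬ (a' z ≤ u ∧ u ≤ b' z) →
      ε < d z u} = V ∩ ⋂ m : ℕ, ⋃ n : ℕ, ⋂ u ∈ D,
        ({z | Out (a z) (b z) (a' z) (b' z) (1 / (m + 1)) (u : ℝ)}ᶜ ∪
          {z | ε + 1 / (n + 1) ≤ V.indicator (fun z => d z u) z}) := by
    ext z
    simp only [mem_ofPred_eq, mem_inter_iff, mem_iInter, mem_iUnion, mem_union, mem_compl_iff]
    constructor
    · rintro ⟨hz, h⟩
      refine ⟨hz, fun m => ?_⟩
      have hδ : (0 : ℝ) < 1 / (m + 1) := by positivity
      set δ : ℝ := 1 / (m + 1) with hδd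
      set K : Set ℝ := Icc 0 T ∩ {u | (u ≤ a z - δ ∨ b z + δ ≤ u) ∧ (u ≤ a' z - δ ∨ b' z + δ ≤ u)}
        with hK
      have hKc : IsCompact K := by
        refine isCompact_Icc.inter_right ?_
        refine IsClosed.inter (IsClosed.union ?_ ?_) (IsClosed.union ?_ ?_)
        · exact isClosed_le continuous_id continuous_const
        · exact isClosed_le continuous_const continuous_id
        · exact isClosed_le continuous_id continuous_const
        · exact isClosed_le continuous_const continuous_id
      have hout : ∀ u ∈ K, ε < d z u := by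
        rintro u ⟨hu1, hu2, hu3⟩
        refine h u hu1 ?_ ?_
        · rintro ⟨h1, h2⟩
          rcases hu2 with h3 | h3 <;> linarith
        · rintro ⟨h1, h2⟩
          rcases hu3 with h3 | h3 <;> linarith
      rcases K.eq_empty_or_nonempty with hKe | hKn
      · refine ⟨0, fun u hu => Or.inl fun ho => ?_⟩
        have : (u : ℝ) ∈ K := ⟨u.2, ho.1.imp le_of_lt le_of_lt, ho.2.imp le_of_lt le_of_lt⟩
        rw [hKe] at this
        exact this
      · obtain ⟨u0, hu0, hmin⟩ := hKc.exists_isMinOn hKn (hc z hz).continuousOn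
        obtain ⟨n, hn⟩ := exists_nat_one_div_lt (sub_pos.2 (hout u0 hu0))
        refine ⟨n, fun u hu => ?_⟩
        by_cases ho : Out (a z) (b z) (a' z) (b' z) δ (u : ℝ)
        · right
          have hu' : (u : ℝ) ∈ K := ⟨u.2, ho.1.imp le_of_lt le_of_lt, ho.2.imp le_of_lt le_of_lt⟩
          have h1 : d z u0 ≤ d z u := hmin hu'
          rw [indicator_of_mem hz]
          linarith
        · exact Or.inl ho
    · rintro ⟨hz, h⟩
      refine ⟨hz, fun u hu hn hn' => ?_⟩
      have key : ∀ {x y : ℝ}, ¬ (x ≤ u ∧ u ≤ y) → ∃ η > 0, ∀ δ : ℝ, δ ≤ η → u < x - δ ∨ y + δ < u := by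
        intro x y hxy
        rcases lt_or_ge u x with h1 | h1
        · refine ⟨(x - u) / 2, by linarith, fun δ hδ => Or.inl (by linarith)⟩
        · have h2 : y < u := by
            by_contra h3
            exact hxy ⟨h1, not_lt.1 h3⟩
          exact ⟨(u - y) / 2, by linarith, fun δ hδ => Or.inr (by linarith)⟩
      obtain ⟨η1, hη1, h1⟩ := key hn
      obtain ⟨η2, hη2, h2⟩ := key hn'
      obtain ⟨m, hm'⟩ := exists_nat_one_div_lt (lt_min hη1 hη2)
      obtain ⟨n, hn2⟩ := h m
      have hδ : (1 : ℝ) / (m + 1) ≤ η1 := (hm'.trans_le (min_le_left _ _)).le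
      have hδ' : (1 : ℝ) / (m + 1) ≤ η2 := (hm'.trans_le (min_le_right _ _)).le
      set δ : ℝ := 1 / (m + 1) with hδd
      by_contra hcon
      rw [not_lt] at hcon
      have hnpos : (0 : ℝ) < 1 / (n + 1) := by positivity
      -- open set in the subtype
      let U : Set (Icc (0 : ℝ) T) := {x | Out (a z) (b z) (a' z) (b' z) δ (x : ℝ) ∧
        d z x < ε + 1 / (n + 1)}
      have hUo : IsOpen U := by
        have c0 : Continuous fun x : Icc (0 : ℝ) T => (x : ℝ) := continuous_subtype_val
        refine IsOpen.inter (IsOpen.inter (IsOpen.union ?_ ?_) (IsOpen.union ?_ ?_)) ?_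
        · exact isOpen_lt c0 continuous_const
        · exact isOpen_lt continuous_const c0
        · exact isOpen_lt c0 continuous_const
        · exact isOpen_lt continuous_const c0
        · exact isOpen_lt ((hc z hz).comp c0) continuous_const
      have hUn : U.Nonempty := ⟨⟨u, hu⟩, ⟨h1 δ hδ, h2 δ hδ'⟩, by
        show d z u < ε + 1 / (n + 1)
        linarith⟩
      obtain ⟨x, hxU, hxD⟩ := hDd.inter_open_nonempty U hUo hUn
      rcases hn2 x hxD with h3 | h3
      · exact h3 hxU.1
      · rw [indicator_of_mem hz] at h3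
        exact absurd hxU.2 (not_lt.2 h3)
  rw [hset]
  refine hV.inter (MeasurableSet.iInter fun m => MeasurableSet.iUnion fun n =>
    MeasurableSet.biInter hDc fun u _ => MeasurableSet.union (MeasurableSet.compl ?_) ?_)
  · refine MeasurableSet.inter (MeasurableSet.union ?_ ?_) (MeasurableSet.union ?_ ?_)
    · exact measurableSet_lt measurable_const (ha.sub_const _)
    · exact measurableSet_lt (hb.add_const _) measurable_const
    · exact measurableSet_lt measurable_const (ha'.sub_const _)
    · exact measurableSet_lt (hb'.add_const _) measurable_const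
  · exact measurableSet_le measurable_const (hm u)

variable {Φ : Space3 → ℝ} {s : ℕ} {ε : ℝ}

/-! ### Measurable windows -/

theorem exists_window (hΦ : AdmissiblePotential Φ) (ε : ℝ) (P : CTree) (i j : Idx P) :
    ∃ a b : Space3 × Par P → ℝ, Measurable a ∧ Measurable b ∧ ∀ v p, Adm Φ P v p → ∀ u : ℝ,
      InWindow Φ ε P v p i j u ↔ a (v, p) ≤ u ∧ u ≤ b (v, p) := by
  have S := Scat818.scatFacts hΦ
  induction P with
  | leaf =>
    refine ⟨fun _ => 1, fun _ => 0, measurable_const, measurable_const, fun v p _ u => ?_⟩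
    constructor
    · exact fun h => h.elim
    · rintro ⟨h1, h2⟩; linarith
  | node l r hl hr =>
    have hem : ∃ a b : Space3 × Par (node l r) → ℝ, Measurable a ∧ Measurable b ∧ ∀ v p u,
        False ↔ a (v, p) ≤ u ∧ u ≤ b (v, p) := by
      refine ⟨fun _ => 1, fun _ => 0, measurable_const, measurable_const, fun v p u => ?_⟩
      constructor
      · exact fun h => h.elim
      · rintro ⟨h1, h2⟩; linarith
    have hnode : Measurable fun z : Space3 × Par (node l r) => ((z.1, z.2.1) : Space3 × NodeP) :=
      measurable_fst.prodMk (measurable_fst.comp measurable_snd)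
    have hout : Measurable fun z : Space3 × Par (node l r) => Kin416.outV Φ z.1 z.2.1.2 :=
      (Kin416.measurable_outV S).comp (f := fun z : Space3 × Par (node l r) => (z.1, z.2.1.2))
        (measurable_fst.prodMk (measurable_snd.comp (measurable_fst.comp measurable_snd)))
    rcases i with i | i <;> rcases j with j | j
    · obtain ⟨a, b, ha, hb, hab⟩ := hl i j
      have hm : Measurable fun z : Space3 × Par (node l r) =>
          (((Kin416.outV Φ z.1 z.2.1.2).1, z.2.2.1) : Space3 × Par l) :=
        (measurable_fst.comp hout).prodMk (measurable_fst.comp (measurable_snd.comp measurable_snd))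
      refine ⟨_, _, ha.comp hm, hb.comp hm, fun v p hA u => ?_⟩
      have h1 := hab (preV Φ v p.1).1 p.2.1 hA.2.1 u
      have h2 := TreeF399.preV_eq hA.1
      rw [Function.comp_apply, Function.comp_apply, ← h2, ← h1]
      exact PathFlow968.inWindow_inl
    · by_cases hij : i = root l ∧ j = root r
      · obtain ⟨rfl, rfl⟩ := hij
        refine ⟨fun z => (NS Φ).indicator (fun z => Tree674.sin Φ ε z.1 z.2) (z.1, z.2.1),
          fun z => z.2.1.1, (measurable_sin hΦ ε).comp hnode,
          measurable_fst.comp (measurable_fst.comp measurable_snd), fun v p hA u => ?_⟩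
        have h1 : (NS Φ).indicator (fun z => Tree674.sin Φ ε z.1 z.2) (v, p.1) =
            Tree674.sin Φ ε v p.1 := indicator_of_mem (show (v, p.1) ∈ NS Φ from hA.1) _
        have h2 := PathFlow968.inWindow_inl_inr (Φ := Φ) (ε := ε) (v := v) (p := p)
          (i := root l) (j := root r) (u := u)
        refine h2.trans ⟨fun h => ⟨?_, h.2.2.2⟩, fun h => ⟨rfl, rfl, ?_, h.2⟩⟩
        · exact h1.le.trans h.2.2.1
        · exact h1.ge.trans h.1
      · obtain ⟨a, b, ha, hb, hab⟩ := hem
        refine ⟨a, b, ha, hb, fun v p hA u => ?_⟩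
        rw [← hab v p u]
        have h2 := PathFlow968.inWindow_inl_inr (Φ := Φ) (ε := ε) (v := v) (p := p)
          (i := i) (j := j) (u := u)
        exact h2.trans ⟨fun h => hij ⟨h.1, h.2.1⟩, fun h => h.elim⟩
    · obtain ⟨a, b, ha, hb, hab⟩ := hem
      refine ⟨a, b, ha, hb, fun v p hA u => ?_⟩
      rw [← hab v p u]
      exact ⟨fun h => PathFlow968.inWindow_inr_inl h, fun h => h.elim⟩
    · obtain ⟨a, b, ha, hb, hab⟩ := hr i j
      have hm : Measurable fun z : Space3 × Par (node l r) =>
          (((Kin416.outV Φ z.1 z.2.1.2).2, z.2.2.2) : Space3 × Par r) :=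
        (measurable_snd.comp hout).prodMk (measurable_snd.comp (measurable_snd.comp measurable_snd))
      refine ⟨_, _, ha.comp hm, hb.comp hm, fun v p hA u => ?_⟩
      have h1 := hab (preV Φ v p.1).2 p.2.2 hA.2.2 u
      have h2 := TreeF399.preV_eq hA.1
      rw [Function.comp_apply, Function.comp_apply, ← h2, ← h1]
      exact PathFlow968.inWindow_inr

/-! ### Continuity of the trajectories -/

theorem continuous_path (hΦ : AdmissiblePotential Φ) (hε : 0 < ε) : ∀ (P : CTree) (T : ℝ)
    (ℓ : PhasePoint) (p : Par P), Valid Φ ε P T ℓ.2 p → ∀ i,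
      Continuous fun u => path Φ ε P ℓ p u i
  | leaf, _, ℓ, _, _, _ => by
      show Continuous fun u => onLine ℓ u
      unfold onLine
      fun_prop
  | node l r, T, ℓ, p, hv, i => by
      have hL := continuous_path hΦ hε l _ (inMap Φ ε ℓ p.1).1 p.2.1
        (PathFlow968.Valid.left hv)
      have hR := continuous_path hΦ hε r _ (inMap Φ ε ℓ p.1).2 p.2.2
        (PathFlow968.Valid.right hv)
      have hP := PathFlow968.continuous_pairPath (Φ := Φ) hε hv.1.1
      have hgl : ∀ {f g : ℝ → PhasePoint}, Continuous f → Continuous g →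
          (∀ u, u = Tree674.sin Φ ε ℓ.2 p.1 → f u = g u) →
          Continuous fun u => if u ≤ Tree674.sin Φ ε ℓ.2 p.1 then f u else g u := by
        intro f g hf hg h
        exact Continuous.if_le hf hg continuous_id continuous_const h
      have hbef : ∀ u, u ≤ Tree674.sin Φ ε ℓ.2 p.1 → path Φ ε (node l r) ℓ p u i =
          Sum.elim (path Φ ε l (inMap Φ ε ℓ p.1).1 p.2.1 u)
            (path Φ ε r (inMap Φ ε ℓ p.1).2 p.2.2 u) i := fun u hu => by
        rw [PathFlow968.path_node_before ℓ p hu]
      have haft : ∀ u, Tree674.sin Φ ε ℓ.2 p.1 ≤ u → path Φ ε (node l r) ℓ p u i =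
          Sum.elim
            (Function.update (path Φ ε l (inMap Φ ε ℓ p.1).1 p.2.1 u) (root l)
              (pairPath Φ ε ℓ p.1 u).1)
            (Function.update (path Φ ε r (inMap Φ ε ℓ p.1).2 p.2.2 u) (root r)
              (pairPath Φ ε ℓ p.1 u).2) i := fun u hu => by
        rw [PathFlow968.path_node_after hΦ hε hv hu]
      have hcb : Continuous fun u => Sum.elim (path Φ ε l (inMap Φ ε ℓ p.1).1 p.2.1 u)
            (path Φ ε r (inMap Φ ε ℓ p.1).2 p.2.2 u) i := by
        rcases i with i | i
        · exact hL i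
        · exact hR i
      have hca : Continuous fun u => Sum.elim
            (Function.update (path Φ ε l (inMap Φ ε ℓ p.1).1 p.2.1 u) (root l)
              (pairPath Φ ε ℓ p.1 u).1)
            (Function.update (path Φ ε r (inMap Φ ε ℓ p.1).2 p.2.2 u) (root r)
              (pairPath Φ ε ℓ p.1 u).2) i := by
        rcases i with i | i
        · simp only [Sum.elim_inl]
          by_cases hi : i = root l
          · subst hi
            simp only [Function.update_self]
            exact continuous_fst.comp hP
          · simp only [Function.update_of_ne hi]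
            exact hL i
        · simp only [Sum.elim_inr]
          by_cases hi : i = root r
          · subst hi
            simp only [Function.update_self]
            exact continuous_snd.comp hP
          · simp only [Function.update_of_ne hi]
            exact hR i
      have h := hgl hcb hca (fun u hu => by rw [← hbef u hu.le, ← haft u hu.ge])
      convert h using 1
      funext u
      split_ifs with hu
      · exact hbef u hu
      · exact haft u (not_le.1 hu).le

end Crest.Agent.R122.Forest399

end
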