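import Crest.Agent.R122.StrN2_998
import Crest.Agent.R122.PairRep_581

/-!
# Shapes of the continued pair laws (row 122, block H4), helper998

* `TrN`, `iter_Tr` : the action of the translations after `j` steps.
* `le_iter` : domination by finitely many structure laws is inherited by `bindN`.
* `shpN` : the shape (helper581) of the `j`-th continuation; `rep_iter`.
-/

set_option autoImplicit false
set_option linter.unusedSectionVars false
set_option maxHeartbeats 400000

open MeasureTheory ProbabilityTheory Set Filter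
open scoped ENNReal Classical Topology
open Crest.AnalysisR.Kinetic
open Crest.Agent.R122.Kin796 Crest.Agent.R122.GC311
open Crest.Agent.R122.EDefs602
open Crest.Agent.R122.Boost969 (LSt posAt SprL)
open Crest.Agent.R122.Kin416 (gau measurable_gau)
open Crest.Agent.R122.Pair292 hiding ML
open Crest.Agent.R122.PairD292 (dL eL)
open Crest.Agent.R122.LN2
open Crest.Agent.R122.PairReal998
open Crest.Agent.R122.PairRep581

noncomputable section

namespace Crest.Agent.R122.StrN998

variable {Φ : Space3 → ℝ} {ε te b₀ : ℝ} {q : ℕ → ℝ≥0∞}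

/-! ## Translations -/

/-- The action of the translations after `j` steps. -/
def TrN {Θ : Type} (Tr : Space3 → Θ → Θ) : (j : ℕ) → Space3 → Th Θ j → Th Θ j
  | 0 => Tr
  | j + 1 => fun a x => (TrN Tr j a x.1, shF a x.2)

section tr

variable {Θ κ : Type} [MeasurableSpace Θ] [Fintype κ] {S : SD Θ κ}

theorem iter_Tr (j : ℕ) : (S.iter Φ ε b₀ te q j).Tr = TrN S.Tr j := by
  induction j with
  | zero => rfl
  | succ j ih =>
    funext a x
    show ((S.iter Φ ε b₀ te q j).Tr a x.1, shF a x.2) = _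
    rw [ih]
    rfl

end tr

/-! ## Domination by finitely many structure laws -/

/-- Domination of a pair law by finitely many structure laws. -/
def LeS {ι : Type} [Fintype ι] {Θ κ : ι → Type} [∀ s, MeasurableSpace (Θ s)]
    (ν : Measure (Lab × LSt)) (S : ∀ s, SD (Θ s) (κ s)) : Prop :=
  ∀ F : Lab × LSt → ℝ≥0∞, Measurable F →
    ∫⁻ p, F p ∂ν ≤ ∑ s, ∫⁻ x, F ((S s).pr x) ∂(S s).m

section le

variable {ι : Type} [Fintype ι] {Θ κ : ι → Type} [∀ s, MeasurableSpace (Θ s)]
  [∀ s, Fintype (κ s)] {S : ∀ s, SD (Θ s) (κ s)} {ν : Measure (Lab × LSt)}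

theorem LeS.step (h : LeS ν S) (hS : ∀ s, (S s).Ok) (hΦ : AdmissiblePotential Φ) (hε : 0 < ε)
    (hq : ∀ m, q m ≠ ∞) :
    LeS (ν.bind (K3 Φ ε b₀ te q)) (fun s => (S s).step Φ ε b₀ te q) := by
  intro F hF
  have hk := isSFiniteKernel_K3 (Φ := Φ) (ε := ε) (b₀ := b₀) (te := te) hq
  have hsf := fun s => (hS s).sf
  rw [Measure.lintegral_bind (Kernel.aemeasurable _) hF.aemeasurable]
  refine (h _ hF.lintegral_kernel).trans (le_of_eq (Finset.sum_congr rfl fun s _ => ?_))
  have h1 := (SD.real_map (S := S s) (hS s).mpr).step (b₀ := b₀) (te := te) hΦ hε hq (hS s).mpr F hF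
  rw [← h1, Measure.lintegral_bind (Kernel.aemeasurable _) hF.aemeasurable,
    lintegral_map hF.lintegral_kernel (hS s).mpr]

theorem LeS.iter (h : LeS ν S) (hS : ∀ s, (S s).Ok) (hΦ : AdmissiblePotential Φ) (hε : 0 < ε)
    (hq : ∀ m, q m ≠ ∞) (j : ℕ) :
    LeS (bindN ν (K3 Φ ε b₀ te q) j) (fun s => (S s).iter Φ ε b₀ te q j) := by
  induction j with
  | zero => exact h
  | succ j ih => exact ih.step (fun s => (hS s).iter hΦ j) hΦ hε hq

end le

/-! ## Shapes -/

/-- The shape of the `j`-th continuation of a family of structures. -/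
def shpN {Θ κ : Type} [MeasurableSpace Θ] [Fintype κ] (S : ℝ → SD Θ κ) (Tr : Space3 → Θ → Θ)
    (Φ : Space3 → ℝ) (b₀ te : ℝ) (q : ℕ → ℝ≥0∞) (j : ℕ) : Shp where
  Θ := Th Θ j
  κ := Ka κ j
  m := fun ε => ((S ε).iter Φ ε b₀ te q j).m
  b := fun ε => ((S ε).iter Φ ε b₀ te q j).b
  z := fun ε => ((S ε).iter Φ ε b₀ te q j).z
  Tr := TrN Tr j
  th := fun ε => ((S ε).iter Φ ε b₀ te q j).pr

/-- **Representation of the continued pair laws.** (`Ok` for all `ε > 0`, s-finite for all `ε`.) -/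
theorem rep_iter {ι : Type} [Fintype ι] {Θ κ : ι → Type} [∀ s, MeasurableSpace (Θ s)]
    [∀ s, Fintype (κ s)] {S : ∀ s, ℝ → SD (Θ s) (κ s)} {Tr : ∀ s, Space3 → Θ s → Θ s}
    {ν : ℝ → Measure (Lab × LSt)} (hS : ∀ s ε, 0 < ε → (S s ε).Ok) (hsf : ∀ s ε, SFinite (S s ε).m)
    (h : ∀ ε, 0 < ε → LeS (ν ε) fun s => S s ε) (hΦ : AdmissiblePotential Φ)
    (hq : ∀ m, q m ≠ ∞) (j : ℕ) :
    Rep (fun ε => bindN (ν ε) (K3 Φ ε b₀ te q) j)
      (fun s => shpN (S s) (Tr s) Φ b₀ te q j) where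
  sf s ε := by
    show SFinite ((S s ε).iter Φ ε b₀ te q j).m
    induction j with
    | zero => exact hsf s ε
    | succ j ih =>
      have := ih
      exact inferInstanceAs (SFinite (((S s ε).iter Φ ε b₀ te q j).step Φ ε b₀ te q).m)
  mth s ε hε := ((hS s ε hε).iter hΦ j).mpr
  le ε hε F hF := (h ε hε).iter (fun s => hS s ε hε) hΦ hε hq j F hF

end Crest.Agent.R122.StrN998

end
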