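import Crest.Agent.R122.BirthsEvo_45
import Crest.Agent.R122.Sweep_815

/-!
# Simultaneous arrivals are negligible (row 122, N6 / H15)

Worlds with births `b` (45's `evo`): for a.e. initial configuration no two different pairs of
particles are at distance exactly `ε` at the same time.

* `shell_le` : volume of a spherical shell.
* `two_shells_le` : two different pairs in the shell of width `η` : mass `≤ (C η)²`.
* `ae_no_simul` : the statement for worlds with births (time grid + Liouville).
* `ae_dist_ne_at` : at a fixed time no pair is at distance exactly `ε`.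
* `ae_bworld` : a.e. configuration gives a world with births.
-/

set_option autoImplicit false
set_option linter.unusedSectionVars false

open MeasureTheory Set Filter Topology
open scoped ENNReal NNReal
open Crest.AnalysisR.Kinetic
open Crest.Agent.R122.Flow671 Crest.Agent.R122.Loc45 Crest.Agent.R122.Ins45
open Crest.Agent.R122.Sweep815

namespace Crest.Agent.R122.Simul984

noncomputable section

/-! ### Shells -/

/-- The spherical shell `{x : |dist x y - ε| ≤ η}` has volume at most `8 η ε² c₃`. -/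
theorem shell_le (y : Space3) {ε η : ℝ} (hη : 0 ≤ η) (h : η ≤ ε) :
    volume {x : Space3 | |dist x y - ε| ≤ η} ≤ ENNReal.ofReal (8 * η * ε ^ 2) * c3 := by
  have hε : 0 ≤ ε := hη.trans h
  have hsub : {x : Space3 | |dist x y - ε| ≤ η} ⊆
      Metric.closedBall y (ε + η) \ Metric.ball y (ε - η) := by
    intro x hx
    have hx' := abs_le.1 (show |dist x y - ε| ≤ η from hx)
    refine ⟨Metric.mem_closedBall.2 (by linarith), fun hb => ?_⟩
    have := Metric.mem_ball.1 hb
    linarith
  refine (measure_mono hsub).trans ?_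
  rw [measure_sdiff (Metric.ball_subset_closedBall.trans
    (Metric.closedBall_subset_closedBall (by linarith))) measurableSet_ball.nullMeasurableSet
    measure_ball_lt_top.ne]
  have hb : volume (Metric.ball y (ε - η)) = ENNReal.ofReal (ε - η) ^ 3 * c3 := by
    rw [EuclideanSpace.volume_ball_fin_three]; rfl
  rw [hb, vol_closedBall, ← ENNReal.ofReal_pow (by linarith), ← ENNReal.ofReal_pow (by linarith)]
  rw [tsub_le_iff_right, ← add_mul, ← ENNReal.ofReal_add (by positivity) (by
    have : 0 ≤ ε - η := by linarith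
    positivity)]
  gcongr
  nlinarith [mul_nonneg hη hε, mul_nonneg hη (sub_nonneg.2 h), mul_nonneg (mul_nonneg hη hε) hε,
    mul_nonneg (mul_nonneg hη hη) (sub_nonneg.2 h), mul_nonneg (mul_nonneg hη hε) (sub_nonneg.2 h)]

theorem measurableSet_shell {ι : Type*} (a a' : ι) (ε η : ℝ) :
    MeasurableSet {Z : ι → PhasePoint | |dist (Z a).1 (Z a').1 - ε| ≤ η} := by
  have h : Measurable fun Z : ι → PhasePoint => |dist (Z a).1 (Z a').1 - ε| := by
    have h1 : Measurable fun Z : ι → PhasePoint => dist (Z a).1 (Z a').1 :=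
      (measurable_pi_apply a).fst.dist (measurable_pi_apply a').fst
    exact continuous_abs.measurable.comp (h1.sub_const ε)
  exact measurableSet_le h measurable_const

/-- Two different pairs in the shell: `a` is not a member of the second pair. -/
theorem two_shells_le {ι : Type*} [Fintype ι] (μ₀ : Measure PhasePoint) [IsFiniteMeasure μ₀]
    {σ : ℝ≥0∞} {η ε : ℝ} (hσ : ∀ y : Space3, μ₀ {z | |dist z.1 y - ε| ≤ η} ≤ σ)
    {a a' c c' : ι} (haa' : a ≠ a') (hcc' : c ≠ c') (hac : a ≠ c) (hac' : a ≠ c') :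
    Measure.pi (fun _ : ι => μ₀) {Z | |dist (Z a).1 (Z a').1 - ε| ≤ η ∧
      |dist (Z c).1 (Z c').1 - ε| ≤ η} ≤ σ * σ * (1 + μ₀ univ) ^ Fintype.card ι := by
  classical
  set SA : Set (ι → PhasePoint) := {Z | |dist (Z a).1 (Z a').1 - ε| ≤ η} with hSA
  set SC : Set (ι → PhasePoint) := {Z | |dist (Z c).1 (Z c').1 - ε| ≤ η} with hSC
  have hmA : MeasurableSet SA := measurableSet_shell a a' ε η
  have hmC : MeasurableSet SC := measurableSet_shell c c' ε η
  have hmAC : MeasurableSet (SA ∩ SC) := hmA.inter hmC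
  set f : (ι → PhasePoint) → ℝ≥0∞ := (SA ∩ SC).indicator 1 with hf
  set g : (ι → PhasePoint) → ℝ≥0∞ := SC.indicator 1 with hg
  have hfm : Measurable f := measurable_one.indicator hmAC
  have hgm : Measurable g := measurable_one.indicator hmC
  let x₀ : ι → PhasePoint := fun _ => 0
  have e0 : Measure.pi (fun _ : ι => μ₀) (SA ∩ SC) = (∫⋯∫⁻_Finset.univ, f ∂(fun _ : ι => μ₀)) x₀ := by
    rw [← lintegral_eq_lmarginal_univ, hf, lintegral_indicator_one hmAC]
  have e1 : (Finset.univ : Finset ι) = insert a (Finset.univ.erase a) :=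
    (Finset.insert_erase (Finset.mem_univ a)).symm
  have hG : (fun x => ∫⁻ z, f (Function.update x a z) ∂μ₀) ≤ fun x => σ * g x := by
    intro x
    have h1 : ∀ z, f (Function.update x a z) ≤
        {z : PhasePoint | |dist z.1 (x a').1 - ε| ≤ η}.indicator (fun _ => g x) z := by
      intro z
      by_cases hz : Function.update x a z ∈ SA ∩ SC
      · have hz1 : |dist (Function.update x a z a).1 (Function.update x a z a').1 - ε| ≤ η := hz.1
        have hz2 : |dist (Function.update x a z c).1 (Function.update x a z c').1 - ε| ≤ η := hz.2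
        rw [Function.update_self, Function.update_of_ne haa'.symm] at hz1
        rw [Function.update_of_ne hac.symm, Function.update_of_ne hac'.symm] at hz2
        have hxC : x ∈ SC := hz2
        rw [indicator_of_mem (show z ∈ {z : PhasePoint | |dist z.1 (x a').1 - ε| ≤ η} from hz1)]
        rw [hf, indicator_of_mem hz, hg, indicator_of_mem hxC]
        exact le_rfl
      · rw [hf, indicator_of_notMem hz]
        exact bot_le
    have hms : MeasurableSet {z : PhasePoint | |dist z.1 (x a').1 - ε| ≤ η} := by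
      have h : Continuous fun z : PhasePoint => |dist z.1 (x a').1 - ε| := by fun_prop
      exact measurableSet_le h.measurable measurable_const
    calc ∫⁻ z, f (Function.update x a z) ∂μ₀
        ≤ ∫⁻ z, {z : PhasePoint | |dist z.1 (x a').1 - ε| ≤ η}.indicator (fun _ => g x) z ∂μ₀ :=
          lintegral_mono h1
      _ = g x * μ₀ {z | |dist z.1 (x a').1 - ε| ≤ η} := by
          rw [lintegral_indicator hms, setLIntegral_const]
      _ ≤ g x * σ := by gcongr; exact hσ _
      _ = σ * g x := mul_comm _ _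
  have hca : c ∈ Finset.univ.erase a := Finset.mem_erase.2 ⟨hac.symm, Finset.mem_univ _⟩
  have e2 : Finset.univ.erase a = insert c ((Finset.univ.erase a).erase c) :=
    (Finset.insert_erase hca).symm
  have hG2 : (fun x => ∫⁻ z, σ * g (Function.update x c z) ∂μ₀) ≤ fun _ => σ * σ := by
    intro x
    have hms : MeasurableSet {z : PhasePoint | |dist z.1 (x c').1 - ε| ≤ η} := by
      have h : Continuous fun z : PhasePoint => |dist z.1 (x c').1 - ε| := by fun_prop
      exact measurableSet_le h.measurable measurable_const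
    have h1 : ∀ z, σ * g (Function.update x c z) ≤
        {z : PhasePoint | |dist z.1 (x c').1 - ε| ≤ η}.indicator (fun _ => σ) z := by
      intro z
      by_cases hz : Function.update x c z ∈ SC
      · have hz1 : |dist (Function.update x c z c).1 (Function.update x c z c').1 - ε| ≤ η := hz
        rw [Function.update_self, Function.update_of_ne hcc'.symm] at hz1
        rw [indicator_of_mem (show z ∈ {z : PhasePoint | |dist z.1 (x c').1 - ε| ≤ η} from hz1)]
        rw [hg, indicator_of_mem hz, Pi.one_apply, mul_one]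
      · rw [hg, indicator_of_notMem hz, mul_zero]
        exact bot_le
    calc ∫⁻ z, σ * g (Function.update x c z) ∂μ₀
        ≤ ∫⁻ z, {z : PhasePoint | |dist z.1 (x c').1 - ε| ≤ η}.indicator (fun _ => σ) z ∂μ₀ :=
          lintegral_mono h1
      _ = σ * μ₀ {z | |dist z.1 (x c').1 - ε| ≤ η} := by
          rw [lintegral_indicator hms, setLIntegral_const]
      _ ≤ σ * σ := by gcongr; exact hσ _
  have hconst : ∀ s : Finset ι, (∫⋯∫⁻_s, (fun _ : ι → PhasePoint => σ * σ) ∂(fun _ : ι => μ₀)) x₀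
      ≤ σ * σ * (1 + μ₀ univ) ^ Fintype.card ι := by
    intro s
    unfold lmarginal
    rw [lintegral_const, Measure.pi_univ]
    simp only [Finset.prod_const, Finset.card_univ, Fintype.card_coe]
    refine mul_le_mul_right ?_ _
    calc μ₀ univ ^ s.card ≤ (1 + μ₀ univ) ^ s.card := by gcongr; exact le_add_self
      _ ≤ (1 + μ₀ univ) ^ Fintype.card ι :=
          pow_le_pow_right₀ le_self_add (Finset.card_le_univ s)
  change Measure.pi (fun _ : ι => μ₀) (SA ∩ SC) ≤ _
  rw [e0, e1, lmarginal_insert' f hfm (Finset.notMem_erase a _)]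
  calc (∫⋯∫⁻_Finset.univ.erase a, (fun x => ∫⁻ z, f (Function.update x a z) ∂μ₀)
          ∂(fun _ : ι => μ₀)) x₀
      ≤ (∫⋯∫⁻_Finset.univ.erase a, (fun x => σ * g x) ∂(fun _ : ι => μ₀)) x₀ :=
        lmarginal_mono hG x₀
    _ = (∫⋯∫⁻_insert c ((Finset.univ.erase a).erase c), (fun x => σ * g x)
          ∂(fun _ : ι => μ₀)) x₀ := by rw [← e2]
    _ = (∫⋯∫⁻_(Finset.univ.erase a).erase c, (fun x => ∫⁻ z, σ * g (Function.update x c z) ∂μ₀)
          ∂(fun _ : ι => μ₀)) x₀ := by
        rw [lmarginal_insert' (fun x => σ * g x) (hgm.const_mul σ) (Finset.notMem_erase c _)]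
    _ ≤ (∫⋯∫⁻_(Finset.univ.erase a).erase c, (fun _ => σ * σ) ∂(fun _ : ι => μ₀)) x₀ :=
        lmarginal_mono hG2 x₀
    _ ≤ _ := hconst _

/-- One pair in the shell. -/
theorem one_shell_le {ι : Type*} [Fintype ι] (μ₀ : Measure PhasePoint) [IsFiniteMeasure μ₀]
    {σ : ℝ≥0∞} {η ε : ℝ} (hσ : ∀ y : Space3, μ₀ {z | |dist z.1 y - ε| ≤ η} ≤ σ)
    {a a' : ι} (haa' : a ≠ a') :
    Measure.pi (fun _ : ι => μ₀) {Z | |dist (Z a).1 (Z a').1 - ε| ≤ η}
      ≤ σ * (1 + μ₀ univ) ^ Fintype.card ι := by
  classical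
  set SA : Set (ι → PhasePoint) := {Z | |dist (Z a).1 (Z a').1 - ε| ≤ η} with hSA
  have hmA : MeasurableSet SA := measurableSet_shell a a' ε η
  set f : (ι → PhasePoint) → ℝ≥0∞ := SA.indicator 1 with hf
  have hfm : Measurable f := measurable_one.indicator hmA
  let x₀ : ι → PhasePoint := fun _ => 0
  have e0 : Measure.pi (fun _ : ι => μ₀) SA = (∫⋯∫⁻_Finset.univ, f ∂(fun _ : ι => μ₀)) x₀ := by
    rw [← lintegral_eq_lmarginal_univ, hf, lintegral_indicator_one hmA]
  have e1 : (Finset.univ : Finset ι) = insert a (Finset.univ.erase a) :=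
    (Finset.insert_erase (Finset.mem_univ a)).symm
  have hG : (fun x => ∫⁻ z, f (Function.update x a z) ∂μ₀) ≤ fun _ => σ := by
    intro x
    have hms : MeasurableSet {z : PhasePoint | |dist z.1 (x a').1 - ε| ≤ η} := by
      have h : Continuous fun z : PhasePoint => |dist z.1 (x a').1 - ε| := by fun_prop
      exact measurableSet_le h.measurable measurable_const
    have h1 : ∀ z, f (Function.update x a z) ≤
        {z : PhasePoint | |dist z.1 (x a').1 - ε| ≤ η}.indicator (fun _ => 1) z := by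
      intro z
      by_cases hz : Function.update x a z ∈ SA
      · have hz1 : |dist (Function.update x a z a).1 (Function.update x a z a').1 - ε| ≤ η := hz
        rw [Function.update_self, Function.update_of_ne haa'.symm] at hz1
        rw [indicator_of_mem (show z ∈ {z : PhasePoint | |dist z.1 (x a').1 - ε| ≤ η} from hz1)]
        rw [hf, indicator_of_mem hz, Pi.one_apply]
      · rw [hf, indicator_of_notMem hz]
        exact bot_le
    calc ∫⁻ z, f (Function.update x a z) ∂μ₀
        ≤ ∫⁻ z, {z : PhasePoint | |dist z.1 (x a').1 - ε| ≤ η}.indicator (fun _ => 1) z ∂μ₀ :=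
          lintegral_mono h1
      _ = μ₀ {z | |dist z.1 (x a').1 - ε| ≤ η} := by
          rw [lintegral_indicator hms, setLIntegral_const, one_mul]
      _ ≤ σ := hσ _
  have hconst : ∀ s : Finset ι, (∫⋯∫⁻_s, (fun _ : ι → PhasePoint => σ) ∂(fun _ : ι => μ₀)) x₀
      ≤ σ * (1 + μ₀ univ) ^ Fintype.card ι := by
    intro s
    unfold lmarginal
    rw [lintegral_const, Measure.pi_univ]
    simp only [Finset.prod_const, Finset.card_univ, Fintype.card_coe]
    refine mul_le_mul_right ?_ _
    calc μ₀ univ ^ s.card ≤ (1 + μ₀ univ) ^ s.card := by gcongr; exact le_add_self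
      _ ≤ (1 + μ₀ univ) ^ Fintype.card ι :=
          pow_le_pow_right₀ le_self_add (Finset.card_le_univ s)
  rw [e0, e1, lmarginal_insert' f hfm (Finset.notMem_erase a _)]
  exact (lmarginal_mono hG x₀).trans (hconst _)

/-! ### Time regularity -/

section world

variable {Φ : Space3 → ℝ} {ε : ℝ} {ι : Type*} [Fintype ι] {b : ι → ℝ} {t₀ : ℝ}
  {X : ℝ → ι → PhasePoint}

theorem bworld_deriv_pos (hX : BWorld Φ ε b t₀ X) {t : ℝ} (ht : t₀ ≤ t) (i : ι) :
    HasDerivWithinAt (fun s => (X s i).1) (X t i).2 (Ici t) t := by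
  have h1 := hX.der t ht
  have h2 : HasDerivWithinAt (fun s => X s i) (bf Φ ε b t (X t) i) (Ici t) t :=
    (hasDerivWithinAt_pi.1 h1) i
  exact (ContinuousLinearMap.fst ℝ Space3 Space3).hasFDerivAt.comp_hasDerivWithinAt t h2

/-- A world with births moves with speed at most `V` if the velocities are bounded by `V`. -/
theorem bworld_dist_le (hX : BWorld Φ ε b t₀ X) {u t V : ℝ} (hu : t₀ ≤ u) (hut : u ≤ t) (i : ι)
    (hV : ∀ r ∈ Ico u t, ‖(X r i).2‖ ≤ V) : dist (X u i).1 (X t i).1 ≤ V * (t - u) := by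
  have h := norm_image_sub_le_of_norm_deriv_right_le_segment (f := fun s => (X s i).1)
    (f' := fun s => (X s i).2) (a := u) (b := t) (C := V)
    ((hX.cont_pos i).mono fun r hr => hu.trans hr.1)
    (fun r hr => bworld_deriv_pos hX (hu.trans hr.1) i) hV t ⟨hut, le_rfl⟩
  rw [dist_comm, dist_eq_norm]
  exact h

/-- Distances between two particles change at most with speed `2 V`. -/
theorem bworld_dist_sub_le (hX : BWorld Φ ε b t₀ X) {u t V : ℝ} (hu : t₀ ≤ u) (hut : u ≤ t)
    (i j : ι) (hVi : ∀ r ∈ Ico u t, ‖(X r i).2‖ ≤ V) (hVj : ∀ r ∈ Ico u t, ‖(X r j).2‖ ≤ V) :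
    |dist (X u i).1 (X u j).1 - dist (X t i).1 (X t j).1| ≤ 2 * V * (t - u) := by
  have h1 := bworld_dist_le hX hu hut i hVi
  have h2 := bworld_dist_le hX hu hut j hVj
  have h3 := dist_dist_dist_le (X u i).1 (X u j).1 (X t i).1 (X t j).1
  rw [Real.dist_eq] at h3
  linarith

/-- On a compact time interval a world with births is bounded. -/
theorem bworld_bounded (hX : BWorld Φ ε b t₀ X) (T : ℝ) :
    ∃ N : ℕ, ∀ t ∈ Icc t₀ T, ∀ i, ‖(X t i).1‖ ≤ N ∧ ‖(X t i).2‖ ≤ N := by
  have h : ∀ i, ∃ M : ℝ, ∀ t ∈ Icc t₀ T, ‖X t i‖ ≤ M := fun i =>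
    isCompact_Icc.exists_bound_of_continuousOn ((hX.cont_apply i).mono fun t ht => ht.1)
  choose M hM using h
  obtain ⟨N, hN⟩ := exists_nat_ge (∑ i, |M i|)
  refine ⟨N, fun t ht i => ?_⟩
  have h1 : ‖X t i‖ ≤ N := (hM i t ht).trans ((le_abs_self _).trans
    ((Finset.single_le_sum (f := fun i => |M i|) (fun j _ => abs_nonneg _)
      (Finset.mem_univ i)).trans hN))
  exact ⟨(norm_fst_le _).trans h1, (norm_snd_le _).trans h1⟩

end world

/-! ### Boxes -/

/-- Phase points of size at most `N`. -/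
def box (N : ℝ) : Set PhasePoint := {z | ‖z.1‖ ≤ N ∧ ‖z.2‖ ≤ N}

theorem box_eq (N : ℝ) : box N = Metric.closedBall (0 : Space3) N ×ˢ Metric.closedBall (0 : Space3) N := by
  ext z
  simp [box]

theorem measurableSet_box (N : ℝ) : MeasurableSet (box N) := by
  rw [box_eq]
  exact measurableSet_closedBall.prod measurableSet_closedBall

theorem volume_box_lt_top (N : ℝ) : volume (box N) < ∞ := by
  rw [box_eq, Measure.volume_eq_prod, Measure.prod_prod]
  exact ENNReal.mul_lt_top measure_closedBall_lt_top measure_closedBall_lt_top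

instance (N : ℝ) : IsFiniteMeasure ((volume : Measure PhasePoint).restrict (box N)) :=
  ⟨by rw [Measure.restrict_apply_univ]; exact volume_box_lt_top N⟩

theorem box_shell_le (N : ℝ) (y : Space3) {ε η : ℝ} (hη : 0 ≤ η) (h : η ≤ ε) :
    ((volume : Measure PhasePoint).restrict (box N)) {z | |dist z.1 y - ε| ≤ η} ≤
      ENNReal.ofReal (8 * η * ε ^ 2) * c3 * volume (Metric.closedBall (0 : Space3) N) := by
  have hms : MeasurableSet {z : PhasePoint | |dist z.1 y - ε| ≤ η} := by
    have h : Continuous fun z : PhasePoint => |dist z.1 y - ε| := by fun_prop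
    exact measurableSet_le h.measurable measurable_const
  rw [Measure.restrict_apply hms]
  have hsub : {z : PhasePoint | |dist z.1 y - ε| ≤ η} ∩ box N ⊆
      {x : Space3 | |dist x y - ε| ≤ η} ×ˢ Metric.closedBall (0 : Space3) N := by
    intro z hz
    refine ⟨hz.1, ?_⟩
    simpa using hz.2.2
  refine (measure_mono hsub).trans ?_
  rw [Measure.volume_eq_prod, Measure.prod_prod]
  gcongr
  exact shell_le y hη h

section main

variable {ι : Type*} [Fintype ι]

/-- Configurations of the box with two different pairs in the shell of width `η`. -/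
theorem volume_two_le (N : ℝ) {ε η : ℝ} (hη : 0 ≤ η) (h : η ≤ ε) {a a' c c' : ι} (haa' : a ≠ a')
    (hcc' : c ≠ c') (hac : a ≠ c) (hac' : a ≠ c') :
    volume {Z : ι → PhasePoint | (∀ i, Z i ∈ box N) ∧ |dist (Z a).1 (Z a').1 - ε| ≤ η ∧
      |dist (Z c).1 (Z c').1 - ε| ≤ η} ≤
      (ENNReal.ofReal (8 * η * ε ^ 2) * c3 * volume (Metric.closedBall (0 : Space3) N)) ^ 2 *
        (1 + volume (box N)) ^ Fintype.card ι := by
  have hms : MeasurableSet {Z : ι → PhasePoint | |dist (Z a).1 (Z a').1 - ε| ≤ η ∧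
      |dist (Z c).1 (Z c').1 - ε| ≤ η} :=
    (measurableSet_shell a a' ε η).inter (measurableSet_shell c c' ε η)
  have h1 := two_shells_le ((volume : Measure PhasePoint).restrict (box N))
    (fun y => box_shell_le N y hη h) haa' hcc' hac hac'
  rw [← Measure.restrict_pi_pi, Measure.restrict_apply hms, Measure.restrict_apply_univ,
    ← volume_pi] at h1
  rw [sq]
  refine le_trans (measure_mono ?_) h1
  intro Z hZ
  exact ⟨hZ.2, fun i _ => hZ.1 i⟩

variable {Φ : Space3 → ℝ} {ε : ℝ}

/-- **No two different pairs are at distance exactly `ε` at the same time** (first form: `a` is not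
a member of the second pair, bounded time interval). -/
theorem ae_no_simul_aux (hΦ : AdmissiblePotential Φ) (hε : 0 < ε) (b : ι → ℝ) (t₀ : ℝ) {T : ℝ}
    (hT : 0 < T) {a a' c c' : ι} (haa' : a ≠ a') (hcc' : c ≠ c') (hac : a ≠ c) (hac' : a ≠ c') :
    ∀ᵐ Z : ι → PhasePoint, BWorld Φ ε b t₀ (fun t => evo Φ ε b t₀ t Z) →
      ∀ t ∈ Icc t₀ (t₀ + T), dist (evo Φ ε b t₀ t Z a).1 (evo Φ ε b t₀ t Z a').1 = ε →
        dist (evo Φ ε b t₀ t Z c).1 (evo Φ ε b t₀ t Z c').1 ≠ ε := by
  -- the bad set intersected with bounded worlds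
  set Bad : ℕ → Set (ι → PhasePoint) := fun N => {Z | BWorld Φ ε b t₀ (fun t => evo Φ ε b t₀ t Z) ∧
    (∀ t ∈ Icc t₀ (t₀ + T), ∀ i, ‖(evo Φ ε b t₀ t Z i).1‖ ≤ N ∧ ‖(evo Φ ε b t₀ t Z i).2‖ ≤ N) ∧
    ∃ t ∈ Icc t₀ (t₀ + T), dist (evo Φ ε b t₀ t Z a).1 (evo Φ ε b t₀ t Z a').1 = ε ∧
      dist (evo Φ ε b t₀ t Z c).1 (evo Φ ε b t₀ t Z c').1 = ε} with hBad
  have key : ∀ N : ℕ, volume (Bad N) = 0 := by
    intro N
    set C : ℝ≥0∞ := (ENNReal.ofReal (8 * (2 * N * T) * ε ^ 2) * c3 *
      volume (Metric.closedBall (0 : Space3) N)) ^ 2 * (1 + volume (box N)) ^ Fintype.card ι with hC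
    have hCtop : C ≠ ∞ := by
      refine ENNReal.mul_ne_top (ENNReal.pow_ne_top (ENNReal.mul_ne_top (ENNReal.mul_ne_top
        ENNReal.ofReal_ne_top ENNReal.ofReal_ne_top) measure_closedBall_lt_top.ne))
        (ENNReal.pow_ne_top (ENNReal.add_ne_top.2 ⟨ENNReal.one_ne_top, (volume_box_lt_top N).ne⟩))
    have hM : ∀ M : ℕ, 0 < M → 2 * N * T / M ≤ ε →
        volume (Bad N) ≤ 2 * C * ENNReal.ofReal (1 / M) := by
      intro M hM0 hMε
      have hMr : (0 : ℝ) < M := by exact_mod_cast hM0
      set η : ℝ := 2 * N * T / M with hη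
      have hη0 : 0 ≤ η := by positivity
      set A : Set (ι → PhasePoint) := {Z | (∀ i, Z i ∈ box N) ∧ |dist (Z a).1 (Z a').1 - ε| ≤ η ∧
        |dist (Z c).1 (Z c').1 - ε| ≤ η} with hA
      have hAm : MeasurableSet A := by
        have h1 : MeasurableSet {Z : ι → PhasePoint | ∀ i, Z i ∈ box N} := by
          have : {Z : ι → PhasePoint | ∀ i, Z i ∈ box N} = univ.pi fun _ => box N := by
            ext Z; simp
          rw [this]
          exact MeasurableSet.univ_pi fun _ => measurableSet_box _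
        exact h1.inter ((measurableSet_shell a a' ε η).inter (measurableSet_shell c c' ε η))
      set u : ℕ → ℝ := fun k => t₀ + k * (T / M) with hu
      have hsub : Bad N ⊆ ⋃ k ∈ Finset.range (M + 1), (evo Φ ε b t₀ (u k)) ⁻¹' A := by
        rintro Z ⟨hW, hb, t, ht, h1, h2⟩
        have hδ : 0 < T / M := div_pos hT hMr
        set k : ℕ := ⌊(t - t₀) / (T / M)⌋₊ with hk
        have hx0 : 0 ≤ (t - t₀) / (T / M) := div_nonneg (by linarith [ht.1]) hδ.le
        have hk1 : (k : ℝ) ≤ (t - t₀) / (T / M) := Nat.floor_le hx0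
        have hk2 : (t - t₀) / (T / M) < k + 1 := Nat.lt_floor_add_one _
        have hkM : k ≤ M := by
          have h3 : (t - t₀) / (T / M) ≤ M := by
            rw [div_le_iff₀ hδ]
            have : (M : ℝ) * (T / M) = T := by field_simp
            rw [this]
            linarith [ht.2]
          exact_mod_cast (hk1.trans h3)
        have huk : u k ≤ t := by
          rw [le_div_iff₀ hδ] at hk1
          simp only [hu]; linarith
        have hukt : t - u k ≤ T / M := by
          rw [div_lt_iff₀ hδ] at hk2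
          simp only [hu]; linarith
        have hu0 : t₀ ≤ u k := by simp only [hu]; linarith [mul_nonneg (Nat.cast_nonneg (α := ℝ) k) hδ.le]
        have hcl : ∀ i j, |dist (evo Φ ε b t₀ (u k) Z i).1 (evo Φ ε b t₀ (u k) Z j).1 -
            dist (evo Φ ε b t₀ t Z i).1 (evo Φ ε b t₀ t Z j).1| ≤ η := by
          intro i j
          have h3 := bworld_dist_sub_le hW hu0 huk i j (V := N)
            (fun r hr => (hb r ⟨hu0.trans hr.1, hr.2.le.trans ht.2⟩ i).2)
            (fun r hr => (hb r ⟨hu0.trans hr.1, hr.2.le.trans ht.2⟩ j).2)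
          refine h3.trans ?_
          calc 2 * (N : ℝ) * (t - u k) ≤ 2 * N * (T / M) := by gcongr
            _ = η := by rw [hη]; ring
        simp only [mem_iUnion, Finset.mem_range]
        refine ⟨k, by omega, ?_⟩
        refine ⟨fun i => hb (u k) ⟨hu0, huk.trans ht.2⟩ i, ?_, ?_⟩
        · have := hcl a a'; rwa [h1] at this
        · have := hcl c c'; rwa [h2] at this
      calc volume (Bad N) ≤ volume (⋃ k ∈ Finset.range (M + 1), (evo Φ ε b t₀ (u k)) ⁻¹' A) :=
            measure_mono hsub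
        _ ≤ ∑ k ∈ Finset.range (M + 1), volume ((evo Φ ε b t₀ (u k)) ⁻¹' A) :=
            measure_biUnion_finset_le _ _
        _ = ∑ _k ∈ Finset.range (M + 1), volume A := by
            refine Finset.sum_congr rfl fun k _ => ?_
            exact (measurePreserving_evo hΦ hε b t₀ (u k)).measure_preimage hAm.nullMeasurableSet
        _ = (M + 1 : ℝ≥0∞) * volume A := by
            rw [Finset.sum_const, Finset.card_range, nsmul_eq_mul]; push_cast; rfl
        _ ≤ (M + 1 : ℝ≥0∞) * ((ENNReal.ofReal (8 * η * ε ^ 2) * c3 *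
              volume (Metric.closedBall (0 : Space3) N)) ^ 2 *
              (1 + volume (box N)) ^ Fintype.card ι) := by
            gcongr
            exact volume_two_le N hη0 hMε haa' hcc' hac hac'
        _ ≤ 2 * C * ENNReal.ofReal (1 / M) := by
            have e1 : ENNReal.ofReal (8 * η * ε ^ 2) =
                ENNReal.ofReal (8 * (2 * N * T) * ε ^ 2) * ENNReal.ofReal (1 / M) := by
              rw [← ENNReal.ofReal_mul (by positivity)]
              congr 1
              rw [hη]; ring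
            have e2 : (M + 1 : ℝ≥0∞) * ENNReal.ofReal (1 / M) ≤ 2 := by
              have : (M + 1 : ℝ≥0∞) = ENNReal.ofReal (M + 1) := by
                rw [ENNReal.ofReal_add hMr.le zero_le_one, ENNReal.ofReal_natCast,
                  ENNReal.ofReal_one]
              rw [this, ← ENNReal.ofReal_mul (by positivity)]
              have h2 : (2 : ℝ≥0∞) = ENNReal.ofReal 2 := by simp
              rw [h2]
              refine ENNReal.ofReal_le_ofReal ?_
              rw [mul_one_div, div_le_iff₀ hMr]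
              have : (1 : ℝ) ≤ M := by exact_mod_cast hM0
              linarith
            rw [e1, hC]
            set p := ENNReal.ofReal (8 * (2 * N * T) * ε ^ 2)
            set q := ENNReal.ofReal (1 / (M : ℝ))
            set v := volume (Metric.closedBall (0 : Space3) N)
            set w := (1 + volume (box N)) ^ Fintype.card ι
            calc (M + 1 : ℝ≥0∞) * ((p * q * c3 * v) ^ 2 * w)
                = ((M + 1 : ℝ≥0∞) * q) * ((p * c3 * v) ^ 2 * w) * q := by ring
              _ ≤ 2 * ((p * c3 * v) ^ 2 * w) * q := by gcongr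
    -- let `M → ∞`
    have hlim : Tendsto (fun M : ℕ => 2 * C * ENNReal.ofReal (1 / (M : ℝ))) atTop (𝓝 0) := by
      have h1 : Tendsto (fun M : ℕ => ENNReal.ofReal (1 / (M : ℝ))) atTop (𝓝 0) := by
        have := ENNReal.tendsto_ofReal (tendsto_one_div_atTop_nhds_zero_nat (𝕜 := ℝ))
        simpa using this
      have h2 := ENNReal.Tendsto.const_mul h1 (a := 2 * C)
        (Or.inr (ENNReal.mul_ne_top (by simp) hCtop))
      simpa using h2
    refine le_antisymm (ge_of_tendsto hlim ?_) bot_le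
    have hev1 : ∀ᶠ M : ℕ in atTop, 2 * (N : ℝ) * T / M ≤ ε := by
      have : Tendsto (fun M : ℕ => 2 * (N : ℝ) * T / M) atTop (𝓝 0) :=
        tendsto_const_div_atTop_nhds_zero_nat _
      exact (this.eventually (Iio_mem_nhds hε)).mono fun M h => le_of_lt h
    filter_upwards [hev1, eventually_gt_atTop 0] with M h1 h2 using hM M h2 h1
  have hunion : volume (⋃ N, Bad N) = 0 := measure_iUnion_null key
  have hae : ∀ᵐ Z : ι → PhasePoint, Z ∉ ⋃ N, Bad N := measure_eq_zero_iff_ae_notMem.1 hunion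
  filter_upwards [hae] with Z hZ hW t ht h1 h2
  obtain ⟨N, hN⟩ := bworld_bounded hW (t₀ + T)
  exact hZ (mem_iUnion.2 ⟨N, hW, hN, t, ht, h1, h2⟩)

end main

section final

variable {ι : Type*} [Fintype ι] {Φ : Space3 → ℝ} {ε : ℝ}

/-- A.e. configuration has no two particles at the same position. -/
theorem ae_pos_ne {i j : ι} (hij : i ≠ j) : ∀ᵐ Z : ι → PhasePoint, (Z i).1 ≠ (Z j).1 := by
  classical
  have hms : MeasurableSet {Z : ι → PhasePoint | (Z i).1 = (Z j).1} :=
    measurableSet_eq_fun (measurable_pi_apply i).fst (measurable_pi_apply j).fst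
  rw [ae_iff]
  simp only [not_not]
  set f : (ι → PhasePoint) → ℝ≥0∞ := {Z : ι → PhasePoint | (Z i).1 = (Z j).1}.indicator 1 with hf
  have hfm : Measurable f := measurable_one.indicator hms
  have e0 : volume {Z : ι → PhasePoint | (Z i).1 = (Z j).1} =
      (∫⋯∫⁻_Finset.univ, f ∂(fun _ : ι => (volume : Measure PhasePoint))) 0 := by
    rw [← lintegral_eq_lmarginal_univ, hf, lintegral_indicator_one hms, volume_pi]
  have e1 : (Finset.univ : Finset ι) = insert i (Finset.univ.erase i) :=
    (Finset.insert_erase (Finset.mem_univ i)).symm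
  have hG : (fun x : ι → PhasePoint => ∫⁻ z, f (Function.update x i z)) = fun _ => 0 := by
    funext x
    have h1 : ∀ z, f (Function.update x i z) =
        ({(x j).1} ×ˢ univ : Set PhasePoint).indicator 1 z := by
      intro z
      have : Function.update x i z ∈ {Z : ι → PhasePoint | (Z i).1 = (Z j).1} ↔
          z ∈ ({(x j).1} ×ˢ univ : Set PhasePoint) := by
        simp [Function.update_of_ne hij.symm]
      by_cases hz : Function.update x i z ∈ {Z : ι → PhasePoint | (Z i).1 = (Z j).1}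
      · rw [hf, indicator_of_mem hz, indicator_of_mem (this.1 hz)]; rfl
      · rw [hf, indicator_of_notMem hz, indicator_of_notMem fun h => hz (this.2 h)]
    simp only [h1]
    rw [lintegral_indicator_one ((measurableSet_singleton _).prod MeasurableSet.univ),
      Measure.volume_eq_prod, Measure.prod_prod]
    simp
  rw [e0, e1, lmarginal_insert' f hfm (Finset.notMem_erase i _), hG]
  simp [lmarginal]

/-- At a fixed time no pair is at the same position. -/
theorem ae_pos_ne_at (hΦ : AdmissiblePotential Φ) (hε : 0 < ε) (b : ι → ℝ) (t₀ t : ℝ) :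
    ∀ᵐ Z : ι → PhasePoint, ∀ i j, i ≠ j → (evo Φ ε b t₀ t Z i).1 ≠ (evo Φ ε b t₀ t Z j).1 := by
  rw [ae_all_iff]; intro i
  rw [ae_all_iff]; intro j
  rw [ae_all_iff]; intro hij
  exact (measurePreserving_evo hΦ hε b t₀ t).quasiMeasurePreserving.ae (ae_pos_ne hij)

/-- A.e. configuration gives a world with births. -/
theorem ae_bworld (hΦ : AdmissiblePotential Φ) (hε : 0 < ε) (b : ι → ℝ) (t₀ : ℝ) :
    ∀ᵐ Z : ι → PhasePoint, BWorld Φ ε b t₀ (fun t => evo Φ ε b t₀ t Z) := by
  have h1 : ∀ᵐ Z : ι → PhasePoint, ∀ k, ∀ i j, i ≠ j →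
      (evo Φ ε b t₀ (b k) Z i).1 ≠ (evo Φ ε b t₀ (b k) Z j).1 :=
    ae_all_iff.2 fun k => ae_pos_ne_at hΦ hε b t₀ (b k)
  filter_upwards [ae_pos_ne_at hΦ hε b t₀ t₀, h1] with Z h2 h3
  refine bworld_evo hΦ hε (Or.inr fun i j hij _ _ => ?_) fun k _ =>
    Or.inr fun i j hij _ _ => h3 k i j hij
  have := h2 i j hij
  rwa [evo_self hΦ hε] at this

/-- At a fixed time (a birth time, an end of a window) no pair is at distance exactly `ε`. -/
theorem ae_dist_ne_at (hΦ : AdmissiblePotential Φ) (hε : 0 < ε) (b : ι → ℝ) (t₀ t : ℝ) :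
    ∀ᵐ Z : ι → PhasePoint, ∀ i j, i ≠ j →
      dist (evo Φ ε b t₀ t Z i).1 (evo Φ ε b t₀ t Z j).1 ≠ ε := by
  rw [ae_all_iff]; intro i
  rw [ae_all_iff]; intro j
  rw [ae_all_iff]; intro hij
  refine (measurePreserving_evo hΦ hε b t₀ t).quasiMeasurePreserving.ae
    (p := fun Z : ι → PhasePoint => dist (Z i).1 (Z j).1 ≠ ε) ?_
  have key : ∀ N : ℕ, volume {Z : ι → PhasePoint | (∀ k, Z k ∈ box N) ∧
      dist (Z i).1 (Z j).1 = ε} = 0 := by
    intro N
    have hms : MeasurableSet {Z : ι → PhasePoint | |dist (Z i).1 (Z j).1 - ε| ≤ 0} :=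
      measurableSet_shell i j ε 0
    have h1 := one_shell_le (ι := ι) ((volume : Measure PhasePoint).restrict (box N))
      (fun y => box_shell_le N y le_rfl hε.le) hij
    rw [← Measure.restrict_pi_pi, Measure.restrict_apply hms, ← volume_pi] at h1
    have h2 : ENNReal.ofReal (8 * (0 : ℝ) * ε ^ 2) = 0 := by simp
    rw [h2, zero_mul, zero_mul, zero_mul] at h1
    refine le_antisymm ((measure_mono ?_).trans h1) bot_le
    intro Z hZ
    refine ⟨?_, fun i _ => hZ.1 i⟩
    change |dist (Z i).1 (Z j).1 - ε| ≤ 0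
    rw [hZ.2]; simp
  have hun : volume (⋃ N : ℕ, {Z : ι → PhasePoint | (∀ k, Z k ∈ box N) ∧
      dist (Z i).1 (Z j).1 = ε}) = 0 := measure_iUnion_null key
  filter_upwards [measure_eq_zero_iff_ae_notMem.1 hun] with Z hZ h
  obtain ⟨N, hN⟩ := exists_nat_ge (∑ k, ‖Z k‖)
  refine hZ (mem_iUnion.2 ⟨N, fun k => ?_, h⟩)
  have h1 : ‖Z k‖ ≤ N := (Finset.single_le_sum (f := fun k => ‖Z k‖)
    (fun j _ => norm_nonneg _) (Finset.mem_univ k)).trans hN
  exact ⟨(norm_fst_le _).trans h1, (norm_snd_le _).trans h1⟩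

/-- **N6, fixed births.** For a.e. configuration no two different pairs of particles are at distance
exactly `ε` at the same time `t ≥ t₀`. -/
theorem ae_no_simul (hΦ : AdmissiblePotential Φ) (hε : 0 < ε) (b : ι → ℝ) (t₀ : ℝ) :
    ∀ᵐ Z : ι → PhasePoint, ∀ t, t₀ ≤ t → ∀ a a' c c', a ≠ a' → c ≠ c' → s(a, a') ≠ s(c, c') →
      dist (evo Φ ε b t₀ t Z a).1 (evo Φ ε b t₀ t Z a').1 = ε →
        dist (evo Φ ε b t₀ t Z c).1 (evo Φ ε b t₀ t Z c').1 ≠ ε := by
  have h1 : ∀ᵐ Z : ι → PhasePoint, ∀ (T : ℕ) (a a' c c' : ι), a ≠ a' → c ≠ c' → a ≠ c → a ≠ c' →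
      ∀ t ∈ Icc t₀ (t₀ + (T + 1 : ℝ)),
        dist (evo Φ ε b t₀ t Z a).1 (evo Φ ε b t₀ t Z a').1 = ε →
        dist (evo Φ ε b t₀ t Z c).1 (evo Φ ε b t₀ t Z c').1 ≠ ε := by
    rw [ae_all_iff]; intro T
    rw [ae_all_iff]; intro a
    rw [ae_all_iff]; intro a'
    rw [ae_all_iff]; intro c
    rw [ae_all_iff]; intro c'
    rw [ae_all_iff]; intro h1
    rw [ae_all_iff]; intro h2
    rw [ae_all_iff]; intro h3
    rw [ae_all_iff]; intro h4
    filter_upwards [ae_no_simul_aux hΦ hε b t₀ (T := (T + 1 : ℝ)) (by positivity) h1 h2 h3 h4,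
      ae_bworld hΦ hε b t₀] with Z hZ hW
    exact hZ hW
  filter_upwards [h1] with Z hZ t ht a a' c c' haa' hcc' hne hd hd'
  obtain ⟨T, hT⟩ := exists_nat_ge (t - t₀)
  have htI : t ∈ Icc t₀ (t₀ + (T + 1 : ℝ)) := ⟨ht, by linarith⟩
  by_cases hac : a = c
  · subst hac
    -- then `a' ∉ {a, c'}`
    have h3 : a' ≠ c' := fun h => hne (by rw [h])
    exact hZ T a' a a c' haa'.symm hcc' haa'.symm h3 t htI (by rwa [dist_comm]) hd'
  · by_cases hac' : a = c'
    · subst hac'
      have h3 : a' ≠ c := fun h => hne (by rw [h]; exact Sym2.eq_swap)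
      exact hZ T a' a c a haa'.symm hcc' h3 haa'.symm t htI (by rwa [dist_comm]) hd'
    · exact hZ T a a' c c' haa' hcc' hac hac' t htI hd hd'

end final

end

end Crest.Agent.R122.Simul984
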