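import Crest.Agent.R122.SizeX1_974
import Crest.Agent.R122.BandUp_674
import Crest.Agent.R122.InEq2Defs_311
import Crest.Agent.R122.UnwJ_410

/-!
# Row 122 (helper974), size crossing (SX), part 2: real clusters seen at a later time

* `bandX ε K₁ K s` : gas mass at time `s` of the particles with `K₁ < |bc| ≤ K`, weight
  `eW (bc)` (energy weight of the cluster).
* `NGC`, `RGC` : the two inputs at gas level (D5 and H12), Mecke form, uniform in `s`.
* `BandUpX` : the upper bound by the two-time tree integrals; `bandUpX_of : NGC → RGC → BandUpX`.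
* `ofReal_speed_le` : `1 + |v_i(s)|²` is at most `(2 B + 2) eW (bc (i, s))`.
* `exists_bandX`, `SX`, `SX_speed` : geometric bound and smallness, uniform in `s ∈ [tw, te]`.
-/

set_option autoImplicit false

open MeasureTheory Set Filter
open scoped ENNReal Topology Classical NNReal
open Crest.AnalysisR.Kinetic Crest.Agent.R122.Kin796 Crest.Agent.R122.Disc416
  Crest.Agent.R122.Tree674 Crest.Agent.R122.TreeLim974 Crest.Agent.R122.GIV566
  Crest.Agent.R122.Band974 Crest.Agent.R122.GC311 Crest.Agent.R122.Causal291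
  Crest.Agent.R122.Master566 Crest.Agent.R122.Relabel674 Crest.Agent.R122.EDefs602
  Crest.Agent.R122.InEq2 Crest.Agent.R122.RealTree674

noncomputable section

namespace Crest.Agent.R122.SizeX974

open CTree

variable {Φ : Space3 → ℝ} {f₀ : PhasePoint → ℝ} {f : ℝ → PhasePoint → ℝ} {β T tw te T' ε : ℝ}

/-! ### Definitions -/

/-- mass at time `s` of the particles with `K₁ < |bc| ≤ K`, weight `eW` of the cluster -/
def bandX (Φ : Space3 → ℝ) (f₀ : PhasePoint → ℝ) (ε : ℝ) (K₁ K : ℕ) (s : ℝ) : ℝ≥0∞ :=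
  gcE f₀ ε fun n Z => (activity ε)⁻¹ * ∑ i : Fin n,
    if (bc Φ ε Z s i).toFinset.card ∈ Ioc K₁ K then eW Z (bc Φ ε Z s i).toFinset else 0

/-- **D5 at gas level**: up to a small majorant every real cluster of at most `K` particles, seen
at any time `s ≤ te`, is a valid and separated tree at the horizon `T'`. -/
def NGC (Φ : Space3 → ℝ) (f₀ : PhasePoint → ℝ) (te T' : ℝ) : Prop :=
  ∀ (K : ℕ) (δ : ℝ), 0 < δ → ∃ ε₀ : ℝ, 0 < ε₀ ∧ ∀ ε : ℝ, 0 < ε → ε < ε₀ →
    ∃ B : (k m : ℕ) → Config k → Config m → Fin k → ℝ≥0∞, MeasMS B ∧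
      MS f₀ ε B ≤ activity ε * ENNReal.ofReal δ ∧
      ∀ (k m : ℕ) (V : Config k) (w : Config m) (j : Fin k), k ≤ K → V ∈ PairExcluded ε k →
        w ∈ PairExcluded ε m → Perp ε V w → ∀ s ∈ Icc 0 te,
        (bc Φ ε (Fin.append V w) s (Fin.castAdd m j)).toFinset = block k m →
        (∃ P ℓ p e, HTreeC Φ ε T' s (Fin.append V w : Config (k + m)) (Fin.castAdd m j) P ℓ p e) ∨
          eW (Fin.append V w : Config (k + m)) (block k m) ≤ B k m V w j

/-- **H12 at gas level**: up to a small majorant, a real tree seen at a time `s ∈ [tw, te]` has its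
protected tubes unhit up to `tw` by the rest of the gas alone. -/
def RGC (Φ : Space3 → ℝ) (f₀ : PhasePoint → ℝ) (tw te T' : ℝ) : Prop :=
  ∀ (K : ℕ) (δ : ℝ), 0 < δ → ∃ ε₀ : ℝ, 0 < ε₀ ∧ ∀ ε : ℝ, 0 < ε → ε < ε₀ →
    ∃ B : (k m : ℕ) → Config k → Config m → Fin k → ℝ≥0∞, MeasMS B ∧
      MS f₀ ε B ≤ activity ε * ENNReal.ofReal δ ∧
      ∀ (k m : ℕ) (V : Config k) (w : Config m) (j : Fin k), k ≤ K → V ∈ PairExcluded ε k →
        w ∈ PairExcluded ε m → Perp ε V w → ∀ s ∈ Icc tw te,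
        (bc Φ ε (Fin.append V w) s (Fin.castAdd m j)).toFinset = block k m →
        ∀ (P : CTree) (ℓ : PhasePoint) (p : Par P) (e : Idx P → Fin (k + m)),
        HTreeC Φ ε T' s (Fin.append V w : Config (k + m)) (Fin.castAdd m j) P ℓ p e →
        ¬ unhit Φ ε (PT Φ ε P T' ℓ p) tw w →
          eW (Fin.append V w : Config (k + m)) (block k m) ≤ B k m V w j

/-- the upper bound of the size band by the two-time tree integrals, uniform in `s ∈ [tw, te]` -/
def BandUpX (Φ : Space3 → ℝ) (f₀ : PhasePoint → ℝ) (tw te T' : ℝ) : Prop :=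
  ∀ (K₁ K : ℕ) (δ : ℝ), 0 < δ → ∃ ε₀ : ℝ, 0 < ε₀ ∧ ∀ ε : ℝ, 0 < ε → ε < ε₀ →
    ∀ s ∈ Icc tw te,
      bandX Φ f₀ ε K₁ K s ≤ ∑ P ∈ bandT K₁ K, JX Φ f₀ ε P tw T' + ENNReal.ofReal δ

/-! ### The tree functional -/

/-- the functional of the tree coordinates and the rest -/
def HX (Φ : Space3 → ℝ) (ε tw T' : ℝ) (K₁ K : ℕ) (P : CTree)
    (z : PhasePoint × Par P) (m : ℕ) (w : Config m) : ℝ≥0∞ :=
  if (z ∈ goodS Φ ε P T' ∧ P.leaves ∈ Ioc K₁ K) ∧ unhit Φ ε (PTm Φ ε P T' z.1 z.2) tw w then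
    wQ Φ ε P z else 0

theorem measurable_HX (hΦ : AdmissiblePotential Φ) (hε : 0 < ε) (tw T' : ℝ) (K₁ K : ℕ) :
    MeasTS (HX Φ ε tw T' K₁ K) := by
  intro P m
  unfold HX
  refine Measurable.ite ?_ ((measurable_wQ hΦ P).comp measurable_fst) measurable_const
  have h1 : MeasurableSet {q : (PhasePoint × Par P) × Config m |
      q.1 ∈ goodS Φ ε P T' ∧ P.leaves ∈ Ioc K₁ K} := by
    by_cases hS : P.leaves ∈ Ioc K₁ K
    · simp only [hS, and_true]
      exact measurable_fst (measurableSet_goodS hΦ hε P T')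
    · simp only [hS, and_false]
      exact MeasurableSet.const False
  refine h1.inter ?_
  exact measurableSet_unhit' hΦ hε (w := fun q : (PhasePoint × Par P) × Config m => q.2)
    measurable_snd
    (S := fun q : (PhasePoint × Par P) × Config m => PTm Φ ε P T' q.1.1 q.1.2)
    (fun q i => Hid424.continuous_curveM hΦ hε P q.1.1 q.1.2 i)
    (fun i s => (Hid424.measurable_curveM hΦ hε P i).comp
      (f := fun q : (PhasePoint × Par P) × Config m => (s, q.1))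
      (measurable_const.prodMk measurable_fst))
    (fun i => (measurable_prot P i).comp (f := fun q : (PhasePoint × Par P) × Config m =>
      (T', q.1.2)) (measurable_const.prodMk measurable_fst.snd)) measurable_const

/-- `unhit` for the protected tubes and their measurable version, two times -/
theorem unhit_PT2_iff (hΦ : AdmissiblePotential Φ) (hε : 0 < ε) {P : CTree} {ℓ : PhasePoint}
    {p : Par P} (hv : Valid Φ ε P T' ℓ.2 p) (hs : Sep Φ ε P T' ℓ p) {ι : Type*}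
    [Fintype ι] (w : ι → PhasePoint) : unhit Φ ε (PT Φ ε P T' ℓ p) tw w ↔
      unhit Φ ε (PTm Φ ε P T' ℓ p) tw w := by
  refine GIVUse424.unhit_congr rfl fun i s hs' => ?_
  show (path Φ ε P ℓ p s i).1 = Hid424.curveM Φ ε P ℓ p i s
  rw [Hid424.curveM_of_adm (ℓ := ℓ) hv.1]
  obtain ⟨X, v⟩ := ℓ
  have h1 : s ≤ T' := (hs'.2.trans (min_le_left _ _)).trans
    (PathFlow968.prot_le hε.le P T' v p hv.2 i)
  exact (Hid424.curve_eq_path hΦ hε hv hs ⟨hs'.1, h1⟩ i).symm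

theorem wQ_eq_WtT {P : CTree} {z : PhasePoint × Par P} (h : Adm Φ P z.1.2 z.2) :
    wQ Φ ε P z = WtT Φ P z := by
  rw [wQ_eq h]
  unfold WtT
  refine Finset.sum_congr rfl fun i _ => ?_
  rw [Hid424.lines_vel ε P z.1 z.2 i]

theorem WtT_ne_top (P : CTree) (z : PhasePoint × Par P) : WtT Φ P z ≠ ∞ := by
  unfold WtT
  exact ENNReal.sum_ne_top.2 fun i _ => ENNReal.ofReal_ne_top

theorem gcE_HX (hΦ : AdmissiblePotential Φ) (hε : 0 < ε) (K₁ K : ℕ) (P : CTree)
    (z : PhasePoint × Par P) :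
    gcE f₀ ε (fun m w => HX Φ ε tw T' K₁ K P z m w) =
      if z ∈ goodS Φ ε P T' ∧ P.leaves ∈ Ioc K₁ K then
        WtT Φ P z * uG Φ f₀ ε (PT Φ ε P T' z.1 z.2) tw else 0 := by
  by_cases h : z ∈ goodS Φ ε P T' ∧ P.leaves ∈ Ioc K₁ K
  · rw [if_pos h]
    unfold uG
    rw [← gcE_const_mul f₀ ε (WtT_ne_top P z)]
    refine gcE_congr f₀ ε fun m w _ => ?_
    unfold HX unhitInd
    have h2 := unhit_PT2_iff (tw := tw) hΦ hε h.1.1 h.1.2 w
    by_cases hu : unhit Φ ε (PT Φ ε P T' z.1 z.2) tw w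
    · rw [if_pos ⟨h, h2.1 hu⟩, if_pos hu, mul_one, wQ_eq_WtT h.1.1.1]
    · rw [if_neg fun h' => hu (h2.2 h'.2), if_neg hu, mul_zero]
  · rw [if_neg h]
    have e : (fun (m : ℕ) (w : Config m) => HX Φ ε tw T' K₁ K P z m w) = fun _ _ => 0 := by
      funext m w
      unfold HX
      exact if_neg fun h' => h h'.1
    rw [e, gcE_zero]

theorem TS_HX (hΦ : AdmissiblePotential Φ) (hε : 0 < ε) (K₁ K : ℕ) :
    TS Φ f₀ ε T' (HX Φ ε tw T' K₁ K) = ∑ P ∈ bandT K₁ K, JX Φ f₀ ε P tw T' := by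
  have h1 : ∀ P : CTree, ∫⁻ z : PhasePoint × Par P,
      {z : PhasePoint × Par P | Valid Φ ε P T' z.1.2 z.2}.indicator
        (fun z => wt Φ P z.1.2 z.2 * (ToTree335.pf Φ f₀ ε P z *
          gcE f₀ ε fun m w => HX Φ ε tw T' K₁ K P z m w)) z =
      if P ∈ bandT K₁ K then JX Φ f₀ ε P tw T' else 0 := by
    intro P
    by_cases hP : P ∈ bandT K₁ K
    · rw [if_pos hP]
      have hl : P.leaves ∈ Ioc K₁ K := mem_bandT.1 hP
      unfold JX
      refine lintegral_congr fun z => ?_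
      by_cases hz : z ∈ goodS Φ ε P T'
      · rw [indicator_of_mem hz, indicator_of_mem (show z ∈ {z : PhasePoint × Par P |
          Valid Φ ε P T' z.1.2 z.2} from hz.1), gcE_HX hΦ hε, if_pos ⟨hz, hl⟩]
      · rw [indicator_of_notMem hz]
        by_cases hz' : z ∈ {z : PhasePoint × Par P | Valid Φ ε P T' z.1.2 z.2}
        · rw [indicator_of_mem hz', gcE_HX hΦ hε, if_neg fun h => hz h.1, mul_zero, mul_zero]
        · rw [indicator_of_notMem hz']
    · rw [if_neg hP]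
      have hl : ¬ P.leaves ∈ Ioc K₁ K := fun h => hP (mem_bandT.2 h)
      have h0 : ∀ z : PhasePoint × Par P,
          {z : PhasePoint × Par P | Valid Φ ε P T' z.1.2 z.2}.indicator
            (fun z => wt Φ P z.1.2 z.2 * (ToTree335.pf Φ f₀ ε P z *
              gcE f₀ ε fun m w => HX Φ ε tw T' K₁ K P z m w)) z = 0 := by
        intro z
        by_cases hz' : z ∈ {z : PhasePoint × Par P | Valid Φ ε P T' z.1.2 z.2}
        · rw [indicator_of_mem hz', gcE_HX hΦ hε, if_neg fun h => hl h.2, mul_zero, mul_zero]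
        · rw [indicator_of_notMem hz']
      simp only [h0, lintegral_zero]
  unfold InEq2.TS
  simp only [h1]
  rw [tsum_eq_sum (s := bandT K₁ K) fun P hP => if_neg hP]
  exact Finset.sum_congr rfl fun P hP => if_pos hP

/-- In the world `V ++ w`: a tree history of the cluster `V` is labelled by `V`. -/
theorem hTreeC_append {k m : ℕ} {V : Config k} {w : Config m} {j : Fin k} {s : ℝ}
    (hε : 0 < ε) (hT' : 0 ≤ T') (hs : 0 ≤ s)
    (hb : (bc Φ ε (Fin.append V w) s (Fin.castAdd m j)).toFinset = block k m)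
    {P : CTree} {ℓ : PhasePoint} {p : Par P} {e₀ : Idx P → Fin (k + m)}
    (h : HTreeC Φ ε T' s (Fin.append V w) (Fin.castAdd m j) P ℓ p e₀) :
    ∃ e : Idx P ≃ Fin k, e (Tree674.root P) = j ∧ (fun x => Fin.castAdd m (e x)) = e₀ := by
  have hr : ∀ a : Fin (k + m), a ∈ range e₀ ↔ ∃ j : Fin k, Fin.castAdd m j = a := by
    intro a
    rw [h.range_eq hε hT' hs, ← mem_block, ← hb, Set.mem_toFinset]
    rfl
  have h1 : ∀ x, ∃ j : Fin k, Fin.castAdd m j = e₀ x := fun x => (hr _).1 (mem_range_self x)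
  choose e1 he1 using h1
  have hinj : Function.Injective e1 := by
    intro x y hxy
    apply h.inj
    rw [← he1 x, ← he1 y, hxy]
  have hsurj : Function.Surjective e1 := by
    intro j'
    obtain ⟨x, hx⟩ := (hr (Fin.castAdd m j')).2 ⟨j', rfl⟩
    refine ⟨x, Fin.castAdd_injective k m ?_⟩
    rw [he1 x, hx]
  refine ⟨Equiv.ofBijective e1 ⟨hinj, hsurj⟩, ?_, funext he1⟩
  apply Fin.castAdd_injective k m
  show Fin.castAdd m (e1 (Tree674.root P)) = _
  rw [he1, h.root]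

/-- Mecke formula for the size band. -/
theorem bandX_eq (hf : Measurable f₀) (hΦ : AdmissiblePotential Φ) (hε : 0 < ε) {s : ℝ}
    (hs : 0 ≤ s) (K₁ K : ℕ) : bandX Φ f₀ ε K₁ K s = (activity ε)⁻¹ * MS f₀ ε fun k m V w j =>
      if (bc Φ ε (Fin.append V w) s (Fin.castAdd m j)).toFinset = block k m then
        (if k ∈ Ioc K₁ K then eW (Fin.append V w : Config (k + m)) (block k m) else 0) else 0 := by
  have hM1 := bc_mecke hf hΦ hε hs
    (F := fun n i B Z => if B.card ∈ Ioc K₁ K then eW Z B else 0)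
    (fun n σ i B Z _ => by
      rw [Finset.card_map, eW_equiv])
    (fun n i B => by
      by_cases hB : B.card ∈ Ioc K₁ K
      · simp only [if_pos hB]; exact measurable_eW B
      · simp only [if_neg hB]; exact measurable_const)
  have ha' : (activity ε)⁻¹ ≠ ∞ := ENNReal.inv_ne_top.2 (FM167.activity_ne_zero hε)
  unfold bandX
  rw [gcE_const_mul f₀ ε ha', hM1]
  unfold MS
  simp only [card_block]

/-- **The real side of SX.** -/
theorem bandUpX_of (hf : Measurable f₀) (hΦ : AdmissiblePotential Φ) (htw : 0 ≤ tw)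
    (hT' : 0 ≤ T') (hN : NGC Φ f₀ te T') (hR : RGC Φ f₀ tw te T') :
    BandUpX Φ f₀ tw te T' := by
  intro K₁ K δ hδ
  obtain ⟨ε₁, hε₁, h1⟩ := hN K (δ / 2) (half_pos hδ)
  obtain ⟨ε₂, hε₂, h2⟩ := hR K (δ / 2) (half_pos hδ)
  refine ⟨min ε₁ ε₂, lt_min hε₁ hε₂, fun ε hε hlt s hs => ?_⟩
  obtain ⟨B1, hB1m, hB1, hB1p⟩ := h1 ε hε (hlt.trans_le (min_le_left _ _))
  obtain ⟨B2, hB2m, hB2, hB2p⟩ := h2 ε hε (hlt.trans_le (min_le_right _ _))
  have hs0 : 0 ≤ s := htw.trans hs.1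
  rw [bandX_eq hf hΦ hε hs0 K₁ K]
  have ha := FM167.activity_ne_zero hε
  have ha' := FM167.activity_ne_top ε
  have hT := to_tree1 (f₀ := f₀) hΦ hf hε (T := T') (H := HX Φ ε tw T' K₁ K)
    (measurable_HX hΦ hε tw T' K₁ K)
    (F := fun k m V w j =>
      if (bc Φ ε (Fin.append V w) s (Fin.castAdd m j)).toFinset = block k m then
        (if k ∈ Ioc K₁ K then eW (Fin.append V w : Config (k + m)) (block k m) else 0) else 0)
    (B := fun k m V w j => B1 k m V w j + B2 k m V w j)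
    (fun k m j => (hB1m k m j).add (hB2m k m j))
    (fun k m V w j hV hw hp => by
      by_cases hb : (bc Φ ε (Fin.append V w) s (Fin.castAdd m j)).toFinset = block k m
      swap
      · simp only [if_neg hb]; exact zero_le
      by_cases hk : k ∈ Ioc K₁ K
      swap
      · simp only [if_pos hb, if_neg hk]; exact zero_le
      simp only [if_pos hb, if_pos hk]
      rcases hB1p k m V w j hk.2 hV hw hp s ⟨hs0, hs.2⟩ hb with h | h
      swap
      · exact h.trans ((le_add_right le_rfl).trans le_add_self)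
      obtain ⟨P, ℓ, p, e₀, h⟩ := h
      by_cases hu : unhit Φ ε (PT Φ ε P T' ℓ p) tw w
      swap
      · exact (hB2p k m V w j hk.2 hV hw hp s hs hb P ℓ p e₀ h hu).trans
          (le_add_self.trans le_add_self)
      obtain ⟨e, he, he₀⟩ := hTreeC_append hε hT' hs0 hb h
      subst he₀
      have hlk : P.leaves = k := by
        have := Fintype.card_congr e
        rwa [card_idx, Fintype.card_fin] at this
      have hlin : ∀ x, V (e x) = lines Φ ε P ℓ p x := by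
        intro x
        have h3 := h.lines_eq hΦ hε hT' hs0 x
        rw [Fin.append_left] at h3
        exact h3
      refine le_trans ?_ (le_add_right (TreeBound335.le_ways hΦ hε
        (G := fun P z => HX Φ ε tw T' K₁ K P z m w) he h.valid hlin))
      show _ ≤ HX Φ ε tw T' K₁ K P (ℓ, p) m w
      unfold HX
      rw [if_pos ⟨⟨⟨h.valid, h.sep⟩, by rw [hlk]; exact hk⟩,
        (unhit_PT2_iff hΦ hε h.valid h.sep w).1 hu⟩, ← eW_block (z := (ℓ, p)) e h.valid.1 hlin])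
  rw [TS_HX hΦ hε, MS_add hf hB2m] at hT
  calc (activity ε)⁻¹ * MS f₀ ε _ ≤ (activity ε)⁻¹ *
        (activity ε * ∑ P ∈ bandT K₁ K, JX Φ f₀ ε P tw T' + (MS f₀ ε B1 + MS f₀ ε B2)) := by
        gcongr
    _ ≤ (activity ε)⁻¹ * (activity ε * ∑ P ∈ bandT K₁ K, JX Φ f₀ ε P tw T' +
        (activity ε * ENNReal.ofReal (δ / 2) + activity ε * ENNReal.ofReal (δ / 2))) := by
        gcongr
    _ = ((activity ε)⁻¹ * activity ε) * (∑ P ∈ bandT K₁ K, JX Φ f₀ ε P tw T' +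
        (ENNReal.ofReal (δ / 2) + ENNReal.ofReal (δ / 2))) := by ring
    _ = ∑ P ∈ bandT K₁ K, JX Φ f₀ ε P tw T' + ENNReal.ofReal δ := by
        rw [ENNReal.inv_mul_cancel ha ha', one_mul,
          ← ENNReal.ofReal_add (by positivity) (by positivity), add_halves]

/-! ### Speeds -/

/-- The kinetic energy of a particle at time `s` is at most the weight of its cluster. -/
theorem speed_sq_le (hΦ : AdmissiblePotential Φ) (hε : 0 < ε) {n : ℕ} {w : Config n}
    (hw : w ∈ PairExcluded ε n) {s : ℝ} (hs : 0 ≤ s) (i : Fin n) :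
    (1 / 2) * ‖(pth Φ ε w s i).2‖ ^ 2 ≤
      Energy410.Wt (Loc45.stabB Φ) w (BC (Ct (pth Φ ε w) ε) s i) := by
  have hfar : ∀ i j : Fin n, i ≠ j → ε ≤ dist (w i).1 (w j).1 := fun i j h => (hw i j h).le
  have W := Energy410.world_flow hΦ hε hfar s
  set z : ℝ → Fin n → PhasePoint := fun t => Flow671.flow Φ ε t w with hz
  set A : ℝ → Finset (Fin n) := fun r => Finset.univ.filter fun k => Past (Ct z ε) s i r k with hA
  have hmem : ∀ r k, k ∈ A r ↔ Past (Ct z ε) s i r k := by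
    intro r k; simp [hA]
  have hanti : ∀ r r', 0 ≤ r → r ≤ r' → r' ≤ s → A r' ⊆ A r := by
    intro r r' _ h2 _ k hk
    rw [hmem] at hk ⊢
    exact hk.mono h2
  have hiso : ∀ r, 0 ≤ r → r ≤ s → ∀ i ∈ A r, ∀ j ∉ A r, ε < dist (z r i).1 (z r j).1 := by
    intro r _ _ i hi j hj
    by_contra hle
    push Not at hle
    rw [hmem] at hi hj
    exact hj (hi.contact hle)
  have h1 := Energy410.antitone_family hΦ hε W hanti hiso s hs le_rfl
  have h2 := W.stab s ⟨hs, le_rfl⟩ (A s)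
  have hz0 : z 0 = w := Flow671.flow_zero hΦ hε w
  have h0 : Energy410.eng Φ ε (A 0) (z 0) + Loc45.stabB Φ * (A 0).card =
      Energy410.Wt (Loc45.stabB Φ) w (BC (Ct (pth Φ ε w) ε) s i) := by
    have h3 : BC (Ct (pth Φ ε w) ε) s i = ((A 0 : Finset (Fin n)) : Set (Fin n)) := by
      ext k
      rw [Finset.mem_coe, hmem]
      rfl
    rw [h3, Energy410.Wt_coe, Energy410.eng_eq_kin hΦ hε fun i _ j _ hij => W.init i j hij,
      Finset.sum_add_distrib, Finset.mul_sum, Finset.sum_const, nsmul_eq_mul, hz0]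
    ring
  have hi : i ∈ A s := (hmem s i).2 (.root le_rfl)
  have h4 := Finset.single_le_sum (f := fun i => ‖(z s i).2‖ ^ 2)
    (fun _ _ => sq_nonneg _) hi
  have e1 : (pth Φ ε w s i).2 = (z s i).2 := rfl
  rw [← h0, e1]
  linarith

/-- **The speed of a particle is controlled by the weight of its cluster.** -/
theorem ofReal_speed_le (hΦ : AdmissiblePotential Φ) (hε : 0 < ε) {n : ℕ} {w : Config n}
    (hw : w ∈ PairExcluded ε n) {s : ℝ} (hs : 0 ≤ s) (i : Fin n) :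
    ENNReal.ofReal (1 + ‖(pth Φ ε w s i).2‖ ^ 2) ≤
      ENNReal.ofReal (Unw410.cB Φ) * eW w (bc Φ ε w s i).toFinset := by
  have hB := Loc45.stabB_nonneg Φ
  have h1 := speed_sq_le hΦ hε hw hs i
  have h2 : BC (Ct (pth Φ ε w) ε) s i = (((bc Φ ε w s i).toFinset : Finset (Fin n)) :
      Set (Fin n)) := by
    rw [Set.coe_toFinset]; rfl
  rw [h2, Energy410.Wt_coe] at h1
  set D := (bc Φ ε w s i).toFinset with hD
  have hiD : i ∈ D := by
    rw [hD, Set.mem_toFinset]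
    exact .root hs
  unfold eW
  rw [← ENNReal.ofReal_sum_of_nonneg fun b _ => by positivity,
    ← ENNReal.ofReal_mul (Unw410.cB_pos Φ).le]
  refine ENNReal.ofReal_le_ofReal ?_
  have h3 : (1 : ℝ) ≤ ∑ b ∈ D, (1 + ‖(w b).2‖ ^ 2) := by
    have h4 := Finset.single_le_sum (f := fun b => 1 + ‖(w b).2‖ ^ 2)
      (fun b _ => by positivity) hiD
    nlinarith [sq_nonneg ‖(w i).2‖]
  have h5 : ∑ b ∈ D, ((1 / 2) * ‖(w b).2‖ ^ 2 + Loc45.stabB Φ) ≤
      (1 / 2 + Loc45.stabB Φ) * ∑ b ∈ D, (1 + ‖(w b).2‖ ^ 2) := by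
    rw [Finset.mul_sum]
    refine Finset.sum_le_sum fun b _ => ?_
    nlinarith [sq_nonneg ‖(w b).2‖, mul_nonneg hB (sq_nonneg ‖(w b).2‖)]
  unfold Unw410.cB
  nlinarith

/-! ### Smallness -/

/-- geometric bound of the size band, uniform in `s ∈ [tw, te]` -/
def SXB (Φ : Space3 → ℝ) (f₀ : PhasePoint → ℝ) (r C tw te : ℝ) : Prop :=
  ∀ (K₁ K : ℕ) (δ : ℝ), 0 < δ → ∃ ε₀ : ℝ, 0 < ε₀ ∧ ∀ ε : ℝ, 0 < ε → ε < ε₀ →
    ∀ s ∈ Icc tw te, bandX Φ f₀ ε K₁ K s ≤ ENNReal.ofReal (r ^ K₁ * C + δ)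

/-- **(SX)**: constants once and for all. -/
theorem exists_bandX (hD : KData Φ β T f₀ f) :
    ∃ h₀ r C : ℝ, 0 < h₀ ∧ 0 < r ∧ r < 1 ∧ 0 ≤ C ∧ ∀ tw ∈ Icc 0 T, ∀ te T' : ℝ,
      T' ∈ Icc 0 (tw + h₀) → GIV Φ f₀ f T tw → NGC Φ f₀ te T' → RGC Φ f₀ tw te T' →
        SXB Φ f₀ r C tw te := by
  obtain ⟨h₀, r, C, hh₀, hr, hr1, hC, h⟩ := exists_JX_tail hD
  refine ⟨h₀, r, C, hh₀, hr, hr1, hC, fun tw htw te T' hT' hG hN hR K₁ K δ hδ => ?_⟩
  have hfm : Measurable f₀ := hD.contDiff.continuous.measurable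
  obtain ⟨ε₁, hε₁, h1⟩ := bandUpX_of hfm hD.adm htw.1 hT'.1 hN hR K₁ K (δ / 2) (half_pos hδ)
  obtain ⟨ε₂, hε₂, h2⟩ := h tw htw T' hT' hG K₁ K (δ / 2) (half_pos hδ)
  refine ⟨min ε₁ ε₂, lt_min hε₁ hε₂, fun ε hε hlt s hs => ?_⟩
  calc bandX Φ f₀ ε K₁ K s ≤ ∑ P ∈ bandT K₁ K, JX Φ f₀ ε P tw T' + ENNReal.ofReal (δ / 2) :=
        h1 ε hε (hlt.trans_le (min_le_left _ _)) s hs
    _ ≤ ENNReal.ofReal (r ^ K₁ * C + δ / 2) + ENNReal.ofReal (δ / 2) := by
        gcongr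
        exact h2 ε hε (hlt.trans_le (min_le_right _ _))
    _ = ENNReal.ofReal (r ^ K₁ * C + δ) := by
        rw [← ENNReal.ofReal_add (by positivity) (by positivity)]
        congr 1
        ring

/-- the size band with any lower size `k₁ K → ∞` is small, uniformly in `s ∈ [tw, te]` -/
theorem SXB.small {r C : ℝ} (hr : 0 < r) (hr1 : r < 1) (h : SXB Φ f₀ r C tw te)
    {k₁ k₂ : ℕ → ℕ} (hk : Tendsto k₁ atTop atTop) :
    Small fun K ε => ⨆ s ∈ Icc tw te, bandX Φ f₀ ε (k₁ K) (k₂ K) s := by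
  intro δ hδ
  have h1 : Tendsto (fun K : ℕ => r ^ (k₁ K) * C) atTop (𝓝 0) := by
    have := ((tendsto_pow_atTop_nhds_zero_of_lt_one hr.le hr1).comp hk).mul_const C
    simpa using this
  obtain ⟨K₀, hK₀⟩ := eventually_atTop.1 (h1.eventually (gt_mem_nhds (half_pos hδ)))
  refine ⟨K₀, fun K hK => ?_⟩
  obtain ⟨ε₀, hε₀, h2⟩ := h (k₁ K) (k₂ K) (δ / 2) (half_pos hδ)
  refine ⟨ε₀, hε₀, fun ε h3 h4 => iSup₂_le fun s hs => (h2 ε h3 h4 s hs).trans
    (ENNReal.ofReal_le_ofReal ?_)⟩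
  have h5 : r ^ k₁ K * C < δ / 2 := hK₀ K hK
  linarith

/-- mass of the size band at time `s`, weight `1 + |v_i(s)|²` -/
def bandV (Φ : Space3 → ℝ) (f₀ : PhasePoint → ℝ) (ε : ℝ) (K₁ K : ℕ) (s : ℝ) : ℝ≥0∞ :=
  gcE f₀ ε fun n Z => (activity ε)⁻¹ * ∑ i : Fin n,
    if (bc Φ ε Z s i).toFinset.card ∈ Ioc K₁ K then
      ENNReal.ofReal (1 + ‖(pth Φ ε Z s i).2‖ ^ 2) else 0

theorem bandV_le (hΦ : AdmissiblePotential Φ) (hε : 0 < ε) {s : ℝ}
    (hs : 0 ≤ s) (K₁ K : ℕ) :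
    bandV Φ f₀ ε K₁ K s ≤ ENNReal.ofReal (Unw410.cB Φ) * bandX Φ f₀ ε K₁ K s := by
  unfold bandV bandX
  rw [← gcE_const_mul f₀ ε ENNReal.ofReal_ne_top]
  refine gcE_mono f₀ ε fun n Z hZ => ?_
  have hsum : ∑ i : Fin n, (if (bc Φ ε Z s i).toFinset.card ∈ Ioc K₁ K then
      ENNReal.ofReal (1 + ‖(pth Φ ε Z s i).2‖ ^ 2) else 0) ≤
      ENNReal.ofReal (Unw410.cB Φ) * ∑ i : Fin n,
        (if (bc Φ ε Z s i).toFinset.card ∈ Ioc K₁ K then
          eW Z (bc Φ ε Z s i).toFinset else 0) := by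
    rw [Finset.mul_sum]
    refine Finset.sum_le_sum fun i _ => ?_
    by_cases h : (bc Φ ε Z s i).toFinset.card ∈ Ioc K₁ K
    · rw [if_pos h, if_pos h]
      exact ofReal_speed_le hΦ hε hZ hs i
    · rw [if_neg h, if_neg h, mul_zero]
  calc (activity ε)⁻¹ * ∑ i : Fin n, (if (bc Φ ε Z s i).toFinset.card ∈ Ioc K₁ K then
      ENNReal.ofReal (1 + ‖(pth Φ ε Z s i).2‖ ^ 2) else 0)
      ≤ (activity ε)⁻¹ * (ENNReal.ofReal (Unw410.cB Φ) * ∑ i : Fin n,
        (if (bc Φ ε Z s i).toFinset.card ∈ Ioc K₁ K then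
          eW Z (bc Φ ε Z s i).toFinset else 0)) := by gcongr
    _ = _ := mul_left_comm _ _ _

end Crest.Agent.R122.SizeX974
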