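import Crest.Agent.R122.SizeX2_974
import Crest.Agent.R122.NEK_370
import Crest.Agent.R122.TopDefs_602

/-!
# Row 122 (helper974), size crossing (SX), part 3: F7, window form

* `ne_of_jsup` : `JSup t` gives `NE s` for `s ≤ t`.
* `SXB.band` : the band bound of helper370 at every time of the window.
* `exists_nek` : F7, window form: `GIV tw`, `JSup te`, `NGC`, `RGC` give `NEK s`, `s ∈ [tw, te]`.
-/

set_option autoImplicit false

open MeasureTheory Set Filter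
open scoped ENNReal Topology Classical NNReal
open Crest.AnalysisR.Kinetic Crest.Agent.R122.Kin796 Crest.Agent.R122.Disc416
  Crest.Agent.R122.Tree674 Crest.Agent.R122.TreeLim974 Crest.Agent.R122.GIV566
  Crest.Agent.R122.Band974 Crest.Agent.R122.GC311 Crest.Agent.R122.Causal291
  Crest.Agent.R122.Master566 Crest.Agent.R122.Relabel674 Crest.Agent.R122.EDefs602
  Crest.Agent.R122.InEq2 Crest.Agent.R122.RealTree674 Crest.Agent.R122.NEK370
  Crest.Agent.R122.EW370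

noncomputable section

namespace Crest.Agent.R122.SizeX974

open CTree

variable {Φ : Space3 → ℝ} {f₀ : PhasePoint → ℝ} {f : ℝ → PhasePoint → ℝ} {β T tw te T' ε : ℝ}

/-! ### No escape -/

/-- The weighted number of infected particles dominates their number. -/
theorem escMass_le_JE (hΦ : AdmissiblePotential Φ) (hε : 0 < ε) {K : ℕ} {s : ℝ} (hs : 0 ≤ s) :
    escMass Φ f₀ ε K s ≤ EDefs602.JE Φ f₀ ε K s := by
  unfold escMass EDefs602.JE
  refine gcE_mono f₀ ε fun n w hw => mul_le_mul_right ?_ _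
  have hfar : ∀ i j : Fin n, i ≠ j → ε ≤ dist (w i).1 (w j).1 := fun i j h => (hw i j h).le
  have W := Energy410.world_flow hΦ hε hfar s
  have h2 := W.stab s ⟨hs, le_rfl⟩ (EW370.bad Φ ε K (w : Config n) s)
  have h3 : (0 : ℝ) ≤ ∑ i ∈ EW370.bad Φ ε K (w : Config n) s,
      ‖(Flow671.flow Φ ε s w i).2‖ ^ 2 := Finset.sum_nonneg fun i _ => sq_nonneg _
  have h4 : (Finset.univ.filter fun i : Fin n => K < (bc Φ ε w s i).ncard).card =
      (EW370.bad Φ ε K (w : Config n) s).card := rfl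
  rw [h4, ← ENNReal.ofReal_natCast]
  refine ENNReal.ofReal_le_ofReal ?_
  have h5 : (0 : ℝ) ≤ ((EW370.bad Φ ε K (w : Config n) s).card : ℝ) := Nat.cast_nonneg _
  nlinarith

theorem ne_of_jsup (hΦ : AdmissiblePotential Φ) {t s : ℝ} (h : Top602.JSup Φ f₀ t)
    (hs : s ∈ Icc 0 t) : NE Φ f₀ s := by
  intro δ hδ
  obtain ⟨K₀, hK₀⟩ := h δ hδ
  obtain ⟨ε₀, hε₀, h1⟩ := hK₀ K₀ le_rfl
  refine ⟨K₀, ε₀, hε₀, fun ε hε hlt => (escMass_le_JE hΦ hε hs.1).trans (le_trans ?_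
    (h1 ε hε hlt))⟩
  exact le_iSup₂_of_le (f := fun (s : ℝ) (_ : s ∈ Icc 0 t) => EDefs602.JE Φ f₀ _ _ s) s hs le_rfl

/-! ### F7, window form -/

theorem bandMass_le_bandX (K₁ K : ℕ) {s : ℝ} (hs : 0 ≤ s) :
    bandMass Φ f₀ ε K₁ K s ≤ bandX Φ f₀ ε K₁ K s := by
  unfold bandMass sizeMass bandX
  refine gcE_mono f₀ ε fun n Z _ => mul_le_mul_right ?_ _
  rw [cnt_eq]
  refine Finset.sum_le_sum fun i _ => ?_
  rw [Set.ncard_eq_toFinset_card']
  by_cases h : (bc Φ ε Z s i).toFinset.card ∈ Ioc K₁ K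
  · rw [indicator_of_mem h, if_pos h]
    have hi : i ∈ (bc Φ ε Z s i).toFinset := by
      rw [Set.mem_toFinset]
      exact .root hs
    unfold eW
    refine le_trans ?_ (Finset.single_le_sum
      (f := fun b => ENNReal.ofReal (1 + ‖(Z b).2‖ ^ 2)) (fun _ _ => bot_le) hi)
    rw [← ENNReal.ofReal_one]
    refine ENNReal.ofReal_le_ofReal ?_
    have := sq_nonneg ‖(Z i).2‖
    linarith
  · rw [indicator_of_notMem h]
    exact bot_le

theorem SXB.band {r C : ℝ} (h : SXB Φ f₀ r C tw te) (htw : 0 ≤ tw) {s : ℝ}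
    (hs : s ∈ Icc tw te) : Band Φ f₀ s fun K => r ^ K * C := by
  intro K₁ K δ hδ
  obtain ⟨ε₀, hε₀, h1⟩ := h K₁ K δ hδ
  exact ⟨ε₀, hε₀, fun ε hε hlt =>
    (bandMass_le_bandX K₁ K (htw.trans hs.1)).trans (h1 ε hε hlt s hs)⟩

/-- **F7, window form.** -/
theorem exists_nek (hD : KData Φ β T f₀ f) :
    ∃ h₀ : ℝ, 0 < h₀ ∧ ∀ tw ∈ Icc 0 T, ∀ te T' : ℝ, T' ∈ Icc 0 (tw + h₀) →
      GIV Φ f₀ f T tw → NGC Φ f₀ te T' → RGC Φ f₀ tw te T' → Top602.JSup Φ f₀ te →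
        ∀ s ∈ Icc tw te, NEK Φ f₀ s := by
  obtain ⟨h₀, r, C, hh₀, hr, hr1, hC, h⟩ := exists_bandX hD
  refine ⟨h₀, hh₀, fun tw htw te T' hT' hG hN hR hJ s hs => ?_⟩
  have h1 := h tw htw te T' hT' hG hN hR
  exact NEK_of_geometric hD.adm hD.contDiff.continuous.measurable
    (ne_of_jsup hD.adm hJ ⟨htw.1.trans hs.1, hs.2⟩) hr.le hr1 hC (h1.band htw.1 hs)

end Crest.Agent.R122.SizeX974
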