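import Crest.Agent.R122.SizeX2_974

/-!
# Row 122 (helper974), size crossing (SX), part 5: the tail of the tree sums (case (C) of Ineq2)

`TS_tail` : the tree sum over `K₁ < leaves ≤ K` with unhit protected tubes is `∑ JX`.
`exists_tail` : it is small, for the sizes `(K, 2K]`, on every short window.
-/

set_option autoImplicit false

open MeasureTheory Set Filter
open scoped ENNReal Topology Classical NNReal
open Crest.AnalysisR.Kinetic Crest.Agent.R122.Kin796 Crest.Agent.R122.Disc416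
  Crest.Agent.R122.Tree674 Crest.Agent.R122.TreeLim974 Crest.Agent.R122.GIV566
  Crest.Agent.R122.Band974 Crest.Agent.R122.GC311 Crest.Agent.R122.Causal291
  Crest.Agent.R122.Master566 Crest.Agent.R122.Relabel674 Crest.Agent.R122.EDefs602
  Crest.Agent.R122.InEq2 Crest.Agent.R122.RealTree674

noncomputable section

namespace Crest.Agent.R122.SizeX974

open CTree

variable {Φ : Space3 → ℝ} {f₀ : PhasePoint → ℝ} {f : ℝ → PhasePoint → ℝ} {β T tw te T' ε : ℝ}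

/-- the tail functional -/
def HT (Φ : Space3 → ℝ) (ε tw T' : ℝ) (K₁ K : ℕ) (P : CTree) (z : PhasePoint × Par P) (m : ℕ)
    (w : Config m) : ℝ≥0∞ :=
  if K₁ < P.leaves ∧ P.leaves ≤ K ∧ z ∈ goodS Φ ε P T' then
    wQ Φ ε P z * unhitInd Φ ε (PT Φ ε P T' z.1 z.2) tw w else 0

theorem gcE_HT (K₁ K : ℕ) (P : CTree) (z : PhasePoint × Par P) :
    gcE f₀ ε (fun m w => HT Φ ε tw T' K₁ K P z m w) =
      if z ∈ goodS Φ ε P T' ∧ P.leaves ∈ Ioc K₁ K then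
        WtT Φ P z * uG Φ f₀ ε (PT Φ ε P T' z.1 z.2) tw else 0 := by
  by_cases h : z ∈ goodS Φ ε P T' ∧ P.leaves ∈ Ioc K₁ K
  · rw [if_pos h]
    unfold uG
    rw [← gcE_const_mul f₀ ε (WtT_ne_top P z)]
    refine gcE_congr f₀ ε fun m w _ => ?_
    unfold HT
    rw [if_pos ⟨h.2.1, h.2.2, h.1⟩, wQ_eq_WtT h.1.1.1]
  · rw [if_neg h]
    have e : (fun (m : ℕ) (w : Config m) => HT Φ ε tw T' K₁ K P z m w) = fun _ _ => 0 := by
      funext m w
      unfold HT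
      exact if_neg fun h' => h ⟨h'.2.2, h'.1, h'.2.1⟩
    rw [e, gcE_zero]

theorem TS_tail (hΦ : AdmissiblePotential Φ) (hε : 0 < ε) (K₁ K : ℕ) :
    TS Φ f₀ ε T' (HT Φ ε tw T' K₁ K) = ∑ P ∈ bandT K₁ K, JX Φ f₀ ε P tw T' := by
  rw [← TS_HX hΦ hε]
  unfold InEq2.TS
  refine tsum_congr fun P => lintegral_congr fun z => ?_
  by_cases hz : z ∈ {z : PhasePoint × Par P | Valid Φ ε P T' z.1.2 z.2}
  · rw [indicator_of_mem hz, indicator_of_mem hz, gcE_HT, gcE_HX hΦ hε]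
  · rw [indicator_of_notMem hz, indicator_of_notMem hz]

/-- **The tail of the tree sums is small** (request of helper311). -/
theorem exists_tail (hD : KData Φ β T f₀ f) :
    ∃ h₀ : ℝ, 0 < h₀ ∧ ∀ tw ∈ Icc 0 T, ∀ T' ∈ Icc 0 (tw + h₀), GIV Φ f₀ f T tw →
      ∀ k₁ k₂ : ℕ → ℕ, Tendsto k₁ atTop atTop →
        Small fun K ε => TS Φ f₀ ε T' (HT Φ ε tw T' (k₁ K) (k₂ K)) := by
  obtain ⟨h₀, r, C, hh₀, hr, hr1, hC, h⟩ := exists_JX_tail hD
  refine ⟨h₀, hh₀, fun tw htw T' hT' hG k₁ k₂ hk => ?_⟩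
  have h1 := JX_small (h₀ := h₀) (k₂ := k₂) hr hr1 hC (h tw htw T' hT' hG) hk
  intro δ hδ
  obtain ⟨K₀, h2⟩ := h1 δ hδ
  refine ⟨K₀, fun K hK => ?_⟩
  obtain ⟨ε₀, hε₀, h3⟩ := h2 K hK
  refine ⟨ε₀, hε₀, fun ε hε hlt => ?_⟩
  exact (TS_tail hD.adm hε _ _).trans_le (h3 ε hε hlt)

/-- the literal form of helper311 (#10645) -/
theorem exists_tail' (hD : KData Φ β T f₀ f) :
    ∃ h₀ : ℝ, 0 < h₀ ∧ ∀ tw ∈ Icc 0 T, ∀ T' ∈ Icc 0 (tw + h₀), GIV Φ f₀ f T tw →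
      Small fun K ε => TS Φ f₀ ε T' (fun P z _ w =>
        if K < P.leaves ∧ P.leaves ≤ 2 * K ∧ z ∈ goodS Φ ε P T' then
          wQ Φ ε P z * unhitInd Φ ε (PT Φ ε P T' z.1 z.2) tw w else 0) := by
  obtain ⟨h₀, hh₀, h⟩ := exists_tail hD
  exact ⟨h₀, hh₀, fun tw htw T' hT' hG => h tw htw T' hT' hG (fun K => K) (fun K => 2 * K)
    tendsto_id⟩

end Crest.Agent.R122.SizeX974
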