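import Crest.Agent.R122.Link6G_796
import Crest.Agent.R122.GateOsPX_973
import Crest.Agent.R122.E6Str_491
import Crest.Agent.R122.LNS3_674

/-!
# Row 122, LINK6 (helper399): the gateway for the structures which are realised with the tree

* `PairAt` : the structure is a pair structure of helper491 on its isolated system.
* `PT` : the second line meets the root of the tree, in the system of the gas (`PTree`).
* `PtIn`, `LvIn` : `PT`, `PairAt` hold off bad families and null events.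
* `gNull_of_pt` : **the gateway**: off runs, bad partitions, bad hits, an event of realised structures
  is null.
-/

set_option autoImplicit false
set_option linter.unusedSectionVars false

open MeasureTheory Set Filter Topology
open scoped Classical ENNReal
open Crest.AnalysisR.Kinetic
open Crest.Agent.R122.GC311 Crest.Agent.R122.EDefs602
open Crest.Agent.R122.Kin796 Crest.Agent.R122.Kin796.CTree Crest.Agent.R122.Tree674
open Crest.Agent.R122.TreeLines335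
open Crest.Agent.R122.Gate424 Crest.Agent.R122.Gate973 Crest.Agent.R122.LN2 Crest.Agent.R122.BH167
open Crest.Agent.R122.Boost969 (LSt)
open Crest.Agent.R122.Pair292 (Lab)
open Crest.Agent.R122.PairD292
open Crest.Agent.R122.PairRep581 (Shp ShpOk osP)
open Crest.Agent.R122.GateOsP424 (osB osZ)
open Crest.Agent.R122.OPX973 (OPX anT)
open Crest.Agent.R122.VLInst442 Crest.Agent.R122.PWInst442 Crest.Agent.R122.LNEv968
open Crest.Agent.R122.LNPart424 Crest.Agent.R122.LNS674 Crest.Agent.R122.LNTree410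
open Crest.Agent.R122.StrG491 (Pair PTree)

noncomputable section

namespace Crest.Agent.R122.Slot1399

/-! ### Realised structures -/

/-- The structure `(b, V)` is a pair structure with the lines of `θ`, on its isolated system. -/
def PairAt {κ : Type} [Fintype κ] (Φ : Space3 → ℝ) (T ε c : ℝ) (b : κ → ℝ) (V : κ → PhasePoint)
    (θ : Lab × LSt) : Prop :=
  ∃ (R : ℝ → κ → κ → Prop) (cl : κ → Finset κ) (bD : κ → ℝ) (x y : κ),
    Pair (VLMeas973.vsys Φ T ε b) c V R Finset.univ cl bD x y (dL θ).1 (eL θ).1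

/-- The labels of the tree. -/
abbrev eT (n : ℕ) (P : CTree) (κ : Type) [Fintype κ] : Idx P ↪ Fin n ⊕ (Idx P ⊕ κ) :=
  Function.Embedding.inl.trans (strE n (Idx P ⊕ κ))

/-- The second line of the structure meets the root of the tree, in the system of the gas. -/
def PT (Φ : Space3 → ℝ) (T ε c te : ℝ) (P : CTree) (S : Shp) (q : (PhasePoint × Par P) × S.Θ)
    {n : ℕ} (w : Config n) : Prop :=
  ∃ (R : ℝ → Fin n ⊕ (Idx P ⊕ S.κ) → Fin n ⊕ (Idx P ⊕ S.κ) → Prop)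
    (π : Finset (Fin n ⊕ (Idx P ⊕ S.κ)))
    (cl : Fin n ⊕ (Idx P ⊕ S.κ) → Finset (Fin n ⊕ (Idx P ⊕ S.κ)))
    (bD : Fin n ⊕ (Idx P ⊕ S.κ) → ℝ) (x y : Idx P ⊕ S.κ),
    PTree (gsys Φ T ε n (osB P S ε q)) c (Sum.elim w (osZ Φ P S ε q)) R π cl bD (Sum.inr x)
      (Sum.inr y) (dL (S.th ε q.2)).1 (eL (S.th ε q.2)) te P q.1 (eT n P S.κ) ∧
    π ∪ part (eT n P S.κ) = pS n (Idx P ⊕ S.κ)

/-- Events of (tree, structure) and the gas. -/
abbrev Ev (P : CTree) (S : Shp) : Type :=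
  ℝ → (n : ℕ) → ((PhasePoint × Par P) × S.Θ) → Config n → Prop

/-- **A property of the structures holds on `G`** off bad families and null events. -/
def AltIn (Φ : Space3 → ℝ) (f₀ : PhasePoint → ℝ) (te T : ℝ) (K : ℕ) (P : CTree) (S : Shp)
    (G X : Ev P S) : Prop :=
  ∃ (B : ℝ → ℝ → ℝ → Unit → (n : ℕ) → ((PhasePoint × Par P) × S.Θ) → Config n → Prop)
    (Ht : ℝ → Unit → (n : ℕ) → ((PhasePoint × Par P) × S.Θ) → Config n → Prop),
    BadF f₀ (osP Φ f₀ te T K P S) B ∧ GNull f₀ (osP Φ f₀ te T K P S) Ht ∧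
    ∀ R > 0, ∀ ς > 0, ∃ ε₁ : ℝ, 0 < ε₁ ∧ ∀ ε : ℝ, 0 < ε → ε < ε₁ → ∀ n q (w : Config n),
      w ∈ PairExcluded ε n → G ε n q w → X ε n q w ∨ B R ς ε () n q w ∨ Ht ε () n q w

/-- The structures are realised, every connectivity constant `c ≥ 1`. -/
def LvIn (Φ : Space3 → ℝ) (f₀ : PhasePoint → ℝ) (te T : ℝ) (K : ℕ) (P : CTree) (S : Shp)
    (G : Ev P S) : Prop :=
  ∀ c : ℝ, 1 ≤ c → AltIn Φ f₀ te T K P S G fun ε _ q _ =>
    PairAt Φ T ε c (S.b ε q.2) (S.z ε q.2) (S.th ε q.2)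

/-- (tree, structure) is realised, every connectivity constant `c ≥ 1`. -/
def PtIn (Φ : Space3 → ℝ) (f₀ : PhasePoint → ℝ) (te T : ℝ) (K : ℕ) (P : CTree) (S : Shp)
    (G : Ev P S) : Prop :=
  ∀ c : ℝ, 1 ≤ c → AltIn Φ f₀ te T K P S G fun ε _ q w => PT Φ T ε c te P S q w

section alt

variable {Φ : Space3 → ℝ} {f₀ : PhasePoint → ℝ} {te T : ℝ} {K : ℕ} {P : CTree} {S : Shp}
  {G G' X X' : Ev P S}

theorem AltIn.mono (h : AltIn Φ f₀ te T K P S G X)
    (hG : ∀ ε n q (w : Config n), 0 < ε → w ∈ PairExcluded ε n → G' ε n q w → G ε n q w)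
    (hX : ∀ ε n q (w : Config n), 0 < ε → w ∈ PairExcluded ε n → G' ε n q w → X ε n q w →
      X' ε n q w) : AltIn Φ f₀ te T K P S G' X' := by
  obtain ⟨B, Ht, hB, hH, h⟩ := h
  refine ⟨B, Ht, hB, hH, fun R hR ς hς => ?_⟩
  obtain ⟨ε₁, h0, h1⟩ := h R hR ς hς
  exact ⟨ε₁, h0, fun ε hε hlt n q w hw hg =>
    (h1 ε hε hlt n q w hw (hG ε n q w hε hw hg)).imp_left (hX ε n q w hε hw hg)⟩

/-- Two properties. -/
theorem AltIn.and (hf : Measurable f₀) (h : AltIn Φ f₀ te T K P S G X)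
    (h' : AltIn Φ f₀ te T K P S G X') :
    AltIn Φ f₀ te T K P S G fun ε n q w => X ε n q w ∧ X' ε n q w := by
  obtain ⟨B, Ht, hB, hH, h⟩ := h
  obtain ⟨B', Ht', hB', hH', h'⟩ := h'
  refine ⟨_, _, hB.or hf hB', hH.or hf hH', fun R hR ς hς => ?_⟩
  obtain ⟨ε₁, h0, h1⟩ := h R hR ς hς
  obtain ⟨ε₂, h2, h3⟩ := h' R hR ς hς
  refine ⟨min ε₁ ε₂, lt_min h0 h2, fun ε hε hlt n q w hw hg => ?_⟩
  rcases h1 ε hε (hlt.trans_le (min_le_left _ _)) n q w hw hg with h4 | h4 | h4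
  · rcases h3 ε hε (hlt.trans_le (min_le_right _ _)) n q w hw hg with h5 | h5 | h5
    · exact Or.inl ⟨h4, h5⟩
    · exact Or.inr (Or.inl (Or.inr h5))
    · exact Or.inr (Or.inr (Or.inr h5))
  · exact Or.inr (Or.inl (Or.inl h4))
  · exact Or.inr (Or.inr (Or.inl h4))

/-- A null event. -/
theorem AltIn.of_gNull (hf : Measurable f₀) (hB : ∃ B, BadF f₀ (osP Φ f₀ te T K P S) B)
    {E : Ev P S} (h : GNull f₀ (osP Φ f₀ te T K P S) fun ε _ n q w => E ε n q w) :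
    AltIn Φ f₀ te T K P S G fun ε n q w => ¬ E ε n q w := by
  obtain ⟨B, hB⟩ := hB
  refine ⟨B, fun ε _ n q w => E ε n q w, hB, h, fun R _ ς _ => ⟨1, one_pos,
    fun ε _ _ n q w _ _ => ?_⟩⟩
  by_cases hE : E ε n q w
  · exact Or.inr (Or.inr hE)
  · exact Or.inl hE

end alt

/-! ### The gateway -/

variable {Φ : Space3 → ℝ} {f₀ : PhasePoint → ℝ} {bg γ β T te : ℝ} {ρ : Space3 → ℝ≥0∞}
  {gl : ℝ → ℝ} {rm : ℝ≥0∞} {P : CTree} {S : Shp} {K : ℕ}

/-- **The gateway**: off runs, bad partitions, bad hits, the event `E` of realised structures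
implies `¬ X`, `X` true off bad families and null events. -/
theorem gNull_of_alt (h : OPX Φ f₀ bg γ β T te ρ S gl rm) (K' : ℕ) {E : Ev P S} {X : ℝ → Ev P S}
    (hX : ∀ c : ℝ, 1 ≤ c → AltIn Φ f₀ te T K P S E (X c))
    (hdet : ∀ L : ℕ, ∃ (c : ℝ) (N : ℕ), 1 ≤ c ∧ ∀ R > 0, ∀ ς > 0, ∃ ε₁ : ℝ, 0 < ε₁ ∧
      ∀ ε : ℝ, 0 < ε → ε < ε₁ → 2 * (R * ε) ≤ ς → ∀ n q (w : Config n),
        w ∈ PairExcluded ε n → E ε n q w → X c ε n q w →
        ¬ RunS Φ ε T K' L (osB P S ε q) (osZ Φ P S ε q) w →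
        ¬ BadGas Φ T c R ς ε N 1 (anT P S) (osB P S ε q) (osZ Φ P S ε q) w →
        ¬ BadHitGas (bpos Φ (T + 1) T) Φ T c 1 ε N N 1 (anT P S) (osB P S ε q)
          (osZ Φ P S ε q) w → False) :
    GNull f₀ (osP Φ f₀ te T K P S) (fun ε _ n q w => E ε n q w) := by
  refine h.gNull_of_alt (u := T) le_rfl K' fun L => ?_
  obtain ⟨c, N, hc, hdet⟩ := hdet L
  obtain ⟨B, Ht, hB, hH, hal⟩ := hX c hc
  refine ⟨N, c, T + 1, T, B, Ht, by linarith [h.T_pos], hB, hH, fun R hR ς hς => ?_⟩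
  obtain ⟨ε₁, h0, h1⟩ := hal R hR ς hς
  obtain ⟨ε₂, h2, h3⟩ := hdet R hR ς hς
  refine ⟨min (min ε₁ ε₂) (ς / (2 * R)), lt_min (lt_min h0 h2) (by positivity),
    fun ε hε hlt n q w hw hE => ?_⟩
  have hl1 : ε < ε₁ := hlt.trans_le ((min_le_left _ _).trans (min_le_left _ _))
  have hl2 : ε < ε₂ := hlt.trans_le ((min_le_left _ _).trans (min_le_right _ _))
  have hl3 : 2 * (R * ε) ≤ ς := by
    have h4 : ε < ς / (2 * R) := hlt.trans_le (min_le_right _ _)
    rw [lt_div_iff₀ (by positivity)] at h4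
    linarith
  by_cases e1 : RunS Φ ε T K' L (osB P S ε q) (osZ Φ P S ε q) w
  · exact Or.inl e1
  by_cases e2 : BadGas Φ T c R ς ε N 1 (anT P S) (osB P S ε q) (osZ Φ P S ε q) w
  · exact Or.inr (Or.inl e2)
  by_cases e3 : BadHitGas (bpos Φ (T + 1) T) Φ T c 1 ε N N 1 (anT P S) (osB P S ε q)
      (osZ Φ P S ε q) w
  · exact Or.inr (Or.inr (Or.inl e3))
  rcases h1 ε hε hl1 n q w hw hE with e4 | e4
  · exact absurd e3 fun _ => h3 ε hε hl2 hl3 n q w hw hE e4 e1 e2 e3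
  · exact Or.inr (Or.inr (Or.inr e4))

end Crest.Agent.R122.Slot1399

end
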