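import Crest.Agent.R122.PairAlt_291
import Crest.Agent.R122.LvAll_726
import Crest.Agent.R122.OpxWin_796

/-!
# Row 122, LINK6 (helper399): the realisation hypothesis for the structures of all windows

* `lvHyp_famB` : the facts of all levels of the real base shapes (helper726's `lv_all`).
* `pairAlt_win` : `PairAlt` for the structures `itW` of all windows, every `c ≥ 1`.
-/

set_option autoImplicit false
set_option linter.unusedSectionVars false

open MeasureTheory Set Filter Topology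
open scoped Classical ENNReal
open Crest.AnalysisR.Kinetic
open Crest.Agent.R122.GC311 Crest.Agent.R122.EDefs602 Crest.Agent.R122.LN2
open Crest.Agent.R122.Kin796 Crest.Agent.R122.Kin796.CTree Crest.Agent.R122.Tree674
open Crest.Agent.R122.Boost969 (LSt)
open Crest.Agent.R122.Pair292 (Lab)
open Crest.Agent.R122.PairD292 Crest.Agent.R122.Top602
open Crest.Agent.R122.Mark307 (BPar)
open Crest.Agent.R122.Master566 (KData)
open Crest.Agent.R122.I3In566 (Adm3)
open Crest.Agent.R122.NuL735 (NPar nuL Ix famB)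
open Crest.Agent.R122.CaseC658 (qK)
open Crest.Agent.R122.PairRep581 Crest.Agent.R122.StrN998
open Crest.Agent.R122.NuC85 (nW)
open Crest.Agent.R122.OpxWin796 (itW)
open Crest.Agent.R122.Link6796

noncomputable section

namespace Crest.Agent.R122.SlotsWin399

variable {Φ : Space3 → ℝ} {β T : ℝ} {f₀ : PhasePoint → ℝ} {f : ℝ → PhasePoint → ℝ}
  {γ : ℝ → ℝ} {ρ : ℝ≥0∞} {h₀ kap lam C g : ℝ} {B : BPar}

/-- **The facts of all levels** of the real base shapes. -/
theorem lvHyp_famB (hΦ : AdmissiblePotential Φ) (N : NPar) {K₁ : ℕ} (s : Ix N.m₀) {b₀ te T' c : ℝ}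
    {q : ℕ → ℝ≥0∞} (hc : 1 ≤ c) (hte : N.te = te) (hT' : N.T' = T') (M j : ℕ) :
    PairAlt291.LvHyp (famB Φ K₁ N s) Φ b₀ te q T' c M j
      fun ε x => BasePair45.Good0 Φ ε N.te N.T' s.1.1 x := by
  intro R ς ε hR hς hε h1 h2 n w x h0 hh hB
  have h3 := Lv726.lv_all (b₀ := b₀) (te := te) (q := q) (te₀ := N.te) (T := T') (T' := N.T')
    (T₁ := T') (N₁ := M) (K := K₁) (w := w) hc hΦ hε h2 (by positivity) (by rw [hte]; exact h1) h1
    hT'.ge le_rfl j h0 hh hB
  exact ⟨h3.conn, h3.tl, h3.pairD⟩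

/-- **`PairAlt` for the structures of all windows.** -/
theorem pairAlt_win (hD : KData Φ β T f₀ f) (hA : Adm3 Φ β T f γ ρ h₀ kap lam C g B)
    (hρ : ρ ≠ ∞) (Cf : ℝ) (m : ℕ) {L : ℝ} {tw te : ℝ} (htw : 0 ≤ tw) (hlt : tw < te)
    (hth : te < tw + h₀) (j K : ℕ) (P : CTree) (s : Ix (nW β Cf g ρ h₀ m tw te).m₀) {c : ℝ}
    (hc : 1 ≤ c) :
    PairAlt Φ f₀ (epar γ ρ L tw te) (tw + h₀) K P
      (itW Φ B C lam te (nW β Cf g ρ h₀ m tw te) j K s) c := by
  have hb0 := hA.b0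
  have hbs : B.b₀ ≤ B.bs := hA.ok.b0s
  have h1 := hA.bs
  have h2 := hA.bg
  obtain ⟨ρd, C₀, he⟩ := exists_env (γ' := B.b₀) (γ := 2 * β) (by linarith [hD.beta_pos])
    hD.gaussian
  refine PairAlt291.pairAlt_famB (Q := epar γ ρ L tw te) (γ := B.b₀) (β := B.b₀ / 2)
    (β' := B.b₀ / 4) (ρ := ρd) (C₀ := C₀) (b₀ := B.b₀) (nW β Cf g ρ h₀ m tw te) s hD.adm ?_ ?_
    ?_ ?_ hρ he.meas hD.contDiff.continuous.measurable (OpxWin796.lintegral_le_one hD) he hb0
    le_rfl ?_ ?_ (OpxWin796.tsum_qK_ne_top C lam K) ?_ ?_ j 0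
    (lvHyp_famB hD.adm _ s hc rfl rfl 0 j)
  · show B.b₀ ≤ 2 * β
    linarith [hD.beta_pos]
  · exact h2
  · show B.b₀ / 2 < 2 * β
    linarith [hD.beta_pos]
  · show B.b₀ / 2 < g
    linarith
  · linarith
  · linarith
  · linarith
  · exact hth

end Crest.Agent.R122.SlotsWin399

end
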