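import Crest.Agent.R122.SlotsNl_399
import Crest.Agent.R122.SlotsWin_399
import Crest.Agent.R122.SlotOkG_424
import Crest.Agent.R122.LkSlot_974
import Crest.Agent.R122.LinkNWin_581
import Crest.Agent.R122.I3Slots_837

/-!
# Row 122, LINK6 (helper399): `Slots6G` for the structures of all windows, `I3LeavesIn`

* `slots6G_of_dac` : all fields of `Slots6G`, from `OPX`, `PairAlt` and `DAc` (the law of the first
  line is absolutely continuous).
* `DAcW` : `DAc` for the structures `itW` of all windows; `slots6G_win`, `i3Leaves_win`.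
* `i3LeavesIn_of_dac` : helper837's `I3LeavesIn` from `DAcW`.
-/

set_option autoImplicit false
set_option linter.unusedSectionVars false
set_option maxHeartbeats 400000

open MeasureTheory Set Filter Topology
open scoped Classical ENNReal
open Crest.AnalysisR.Kinetic
open Crest.Agent.R122.GC311 Crest.Agent.R122.EDefs602 Crest.Agent.R122.LN2
open Crest.Agent.R122.Kin796 Crest.Agent.R122.Kin796.CTree Crest.Agent.R122.Tree674
open Crest.Agent.R122.PairD292 Crest.Agent.R122.Top602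
open Crest.Agent.R122.Mark307 (BPar)
open Crest.Agent.R122.Master566 (KData)
open Crest.Agent.R122.I3In566 (Adm3)
open Crest.Agent.R122.NuL735 (NPar nuL Ix famB)
open Crest.Agent.R122.CaseC658 (qK)
open Crest.Agent.R122.PairRep581 (Shp ShpOk osP)
open Crest.Agent.R122.StrN998 (itS)
open Crest.Agent.R122.NuC85 (nW)
open Crest.Agent.R122.OpxWin796 (itW)
open Crest.Agent.R122.OPX973 (OPX)
open Crest.Agent.R122.OkInd942 (DAc)
open Crest.Agent.R122.I3Slots837 (I3Leaves I3LeavesIn)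
open Crest.Agent.R122.Link6796

noncomputable section

namespace Crest.Agent.R122.Slots6Fin399

section one

variable {Φ : Space3 → ℝ} {f₀ : PhasePoint → ℝ} {bg γ β T' te' : ℝ} {ρ : Space3 → ℝ≥0∞}
  {P : CTree} {S : Shp} {K : ℕ} {Q : EPar}

/-- **All fields of `Slots6G`.** -/
theorem slots6G_of_dac (h : OPX Φ f₀ bg γ β T' Q.te ρ S Q.γ Q.ρ) (hte0 : 0 ≤ Q.te)
    (hte : Q.te < T') (hP : ∀ c : ℝ, 1 ≤ c → PairAlt Φ f₀ Q T' K P S c) (hd : DAc S te')
    (hte' : te' ≤ T') : Slots6G Φ f₀ Q T' K P S where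
  ok := SlotOk424.slotOkG_of_dac h hte hd hte' le_rfl (hP 1 le_rfl)
  nl0 R _ := SlotsNl399.gNull_nl0 h hte (fun c hc => (hP c hc).pairAltE) R
  nl1 R _ := SlotsNl399.gNull_nl1 h hte (fun c hc => (hP c hc).pairAltE) R
  nl2 R _ := SlotsNl399.gNull_nl2 h hte (fun c hc => (hP c hc).pairAltE) R
  near R _ := LNEv383.gNull_near h hte0 hte (fun c hc => (hP c hc).pairAltE) R
  lk R _ := LkSlot974.slot_lk h hte (hP 1 le_rfl) hd R

end one

section win

variable {Φ : Space3 → ℝ} {β T : ℝ} {f₀ : PhasePoint → ℝ} {f : ℝ → PhasePoint → ℝ}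
  {γ : ℝ → ℝ} {ρ : ℝ≥0∞} {h₀ kap lam C g : ℝ} {B : BPar}

/-- The first line of the structures of all windows has an absolutely continuous law. -/
def DAcW (Φ : Space3 → ℝ) : Prop :=
  ∀ (N : NPar) (b₀ te : ℝ) (q : ℕ → ℝ≥0∞) (j K : ℕ) (s : Ix N.m₀),
    DAc (itS (famB Φ K N s) Φ b₀ te q j) N.T'

/-- **`Slots6G` for the structures of all windows.** -/
theorem slots6G_win (hd : DAcW Φ) (hD : KData Φ β T f₀ f)
    (hA : Adm3 Φ β T f γ ρ h₀ kap lam C g B) (hγ : Measurable γ) (hρ : ρ ≠ ∞) (Cf : ℝ) (m : ℕ)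
    (L : ℝ) {tw te : ℝ} (htw : 0 ≤ tw) (hlt : tw < te) (hT : te ≤ T) (hth : te < tw + h₀)
    (j K : ℕ) (P : CTree) (s : Ix (nW β Cf g ρ h₀ m tw te).m₀) :
    Slots6G Φ f₀ (epar γ ρ L tw te) (tw + h₀) K P
      (itW Φ B C lam te (nW β Cf g ρ h₀ m tw te) j K s) := by
  obtain ⟨ρd, hO⟩ := OpxWin796.opx_win hD hA hγ hρ Cf m
  exact slots6G_of_dac (Q := epar γ ρ L tw te) (hO htw hlt hT hth.le j K s) (htw.trans hlt.le)
    hth (fun c hc => SlotsWin399.pairAlt_win hD hA hρ Cf m htw hlt hth j K P s hc)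
    (hd (nW β Cf g ρ h₀ m tw te) B.b₀ te (qK C lam K) j K s) le_rfl

/-- **The gateway facts of one window.** -/
theorem i3Leaves_win (hd : DAcW Φ) (hD : KData Φ β T f₀ f)
    (hA : Adm3 Φ β T f γ ρ h₀ kap lam C g B) (hγ : Measurable γ) (hρ : ρ ≠ ∞) (Cf : ℝ) (m : ℕ)
    (L : ℝ) {tw te : ℝ} (htw : 0 ≤ tw) (hlt : tw < te) (hT : te ≤ T) (hth : te < tw + h₀) :
    I3Leaves Φ f₀ (epar γ ρ L tw te) (tw + h₀) B.b₀ (qK C lam) (nW β Cf g ρ h₀ m tw te) where
  linkN j K s := LinkNWin581.linkNB_win hD hA hρ Cf m L htw hlt hth j K s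
  slots6 j K P s _ := slots6G_win hd hD hA hγ hρ Cf m L htw hlt hT hth j K P s

/-- **The gateway facts of all windows.** -/
theorem i3LeavesIn_of_dac (hd : DAcW Φ) (hD : KData Φ β T f₀ f) : I3LeavesIn Φ β f₀ f T :=
  ⟨1, one_pos, 1, one_pos, 0, zero_lt_one, fun _ _ _ _ _ hl _ _ _ _ _ hA Cf m =>
    ⟨1, one_pos, 0, fun _ L _ _ _ _ _ _ hw _ hlt hth =>
      i3Leaves_win hd hD hA hl.measurable (hl.hi.trans_le le_top).ne Cf m L hw.nonneg hlt hw.le_T
        hth⟩⟩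

end win

end Crest.Agent.R122.Slots6Fin399

end
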