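import Crest.Agent.R122.Slot1_399
import Crest.Agent.R122.LkGate_796
import Crest.Agent.R122.LNS3d_968
import Crest.Agent.R122.GxDet_365

/-!
# Row 122, LINK6 (helper399): the fields `nl0`, `nl1`, `nl2` of `Slots6G`

From the closed gateway `gNull_of_alt` (Slot1_399), the realisation `PairAlt` (helpers 796, 291) and
the deterministic theorems of helpers 304 (`nl0_det`, `nl1_det`) and 968 (`nl2_det`).
-/

set_option autoImplicit false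
set_option linter.unusedSectionVars false

open MeasureTheory Set Filter Topology
open scoped Classical ENNReal
open Crest.AnalysisR.Kinetic
open Crest.Agent.R122.GC311 Crest.Agent.R122.EDefs602
open Crest.Agent.R122.Kin796 Crest.Agent.R122.Kin796.CTree Crest.Agent.R122.Tree674
open Crest.Agent.R122.TreeLines335
open Crest.Agent.R122.Gate424 Crest.Agent.R122.Gate973 Crest.Agent.R122.LN2 Crest.Agent.R122.BH167
open Crest.Agent.R122.Boost969 (LSt)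
open Crest.Agent.R122.Pair292 (Lab)
open Crest.Agent.R122.PairD292
open Crest.Agent.R122.PairRep581 (Shp ShpOk osP)
open Crest.Agent.R122.GateOsP424 (osB osZ)
open Crest.Agent.R122.OPX973 (OPX anT)
open Crest.Agent.R122.VLInst442 Crest.Agent.R122.PWInst442 Crest.Agent.R122.LNEv968
open Crest.Agent.R122.LNPart424 Crest.Agent.R122.LNS674 Crest.Agent.R122.LNTree410
open Crest.Agent.R122.StrG491 (Pair PTree)
open Crest.Agent.R122.OneC285 (cT cD)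
open Crest.Agent.R122.Slot1399 (Ev AltIn)
open Crest.Agent.R122.LNEv383 (PairQ PTreeQ PairAltE ptreeQ_of_pairQ anT_nonempty)
open Crest.Agent.R122.Link6796

noncomputable section

namespace Crest.Agent.R122.SlotsNl399

variable {Φ : Space3 → ℝ} {f₀ : PhasePoint → ℝ} {bg γ β te T' : ℝ} {ρ : Space3 → ℝ≥0∞}
  {gl : ℝ → ℝ} {rm : ℝ≥0∞} {P : CTree} {S : Shp} {K : ℕ} {Q : EPar}

/-- The realisation as `AltIn`. -/
theorem altIn_of_pairAlt {R : ℝ} {c : ℝ} (hΦ : AdmissiblePotential Φ) (hte : Q.te < T')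
    (hP : PairAltE Φ f₀ Q T' K P S c) {G : Ev P S}
    (hG : ∀ ε n q (w : Config n), G ε n q w → Gx6 Φ ε R K Q T' P q.1 w (S.th ε q.2)) :
    AltIn Φ f₀ Q.te T' K P S G fun ε n q w => PTreeQ Φ T' Q.te ε c P S n w q := by
  obtain ⟨B, Ht, hB, hH, h⟩ := hP
  refine ⟨B, Ht, hB, hH, fun r hr ς hς => ?_⟩
  obtain ⟨ε₁, h0, h1⟩ := h r hr ς hς
  refine ⟨ε₁, h0, fun ε hε hlt n q w hw hg => ?_⟩
  rcases h1 ε hε hlt n q w hw ⟨R, hG ε n q w hg⟩ with h2 | h2 | h2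
  · exact Or.inr (Or.inl h2)
  · exact Or.inr (Or.inr h2)
  · exact Or.inl (ptreeQ_of_pairQ hΦ hε hte (hG ε n q w hg) h2)

/-- **The field `nl0`.** -/
theorem gNull_nl0 (h : OPX Φ f₀ bg γ β T' Q.te ρ S gl rm) (hte : Q.te < T')
    (hP : ∀ c : ℝ, 1 ≤ c → PairAltE Φ f₀ Q T' K P S c) (R : ℝ) :
    GNull f₀ (osP Φ f₀ Q.te T' K P S) (fun ε _ _ q w =>
      Gx6 Φ ε R K Q T' P q.1 w (S.th ε q.2) ∧ Ok6 Φ ε P q.1 w (S.th ε q.2) ∧
        ¬ Nl0 Φ ε K Q.te P q.1 w (S.th ε q.2)) := by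
  refine Slot1399.gNull_of_alt h K (E := fun ε _ q w =>
      Gx6 Φ ε R K Q T' P q.1 w (S.th ε q.2) ∧ Ok6 Φ ε P q.1 w (S.th ε q.2) ∧
        ¬ Nl0 Φ ε K Q.te P q.1 w (S.th ε q.2))
    (X := fun c ε n q w => PTreeQ Φ T' Q.te ε c P S n w q)
    (fun c hc => altIn_of_pairAlt h.adm hte (hP c hc) fun _ _ _ _ hE => hE.1)
    fun L => ⟨1, 2 * (Fintype.card (Idx P ⊕ S.κ) + 2 * K * (L + 2)), le_rfl,
      fun r hr ς hς => ⟨1, one_pos, fun ε hε _ hrς n q w hw hE hX hRun hB hBH => ?_⟩⟩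
  obtain ⟨hG, hok, hN⟩ := hE
  obtain ⟨Rc, π, cl, bD, x, y, hPT, hπ⟩ := hX
  exact hN (LNS3a304.nl0_det hPT hπ hw h.adm hε h.T_pos.le hte.le le_rfl hrς le_rfl le_rfl
    (lt_add_one T') anT_nonempty (by omega) hB hBH hRun hok.ok₁)

/-- **The field `nl1`.** -/
theorem gNull_nl1 (h : OPX Φ f₀ bg γ β T' Q.te ρ S gl rm) (hte : Q.te < T')
    (hP : ∀ c : ℝ, 1 ≤ c → PairAltE Φ f₀ Q T' K P S c) (R : ℝ) :
    GNull f₀ (osP Φ f₀ Q.te T' K P S) (fun ε _ _ q w =>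
      Gx6 Φ ε R K Q T' P q.1 w (S.th ε q.2) ∧ Ok6 Φ ε P q.1 w (S.th ε q.2) ∧
        Nl0 Φ ε K Q.te P q.1 w (S.th ε q.2) ∧ ¬ Nl1 Φ ε K Q.te P q.1 w (S.th ε q.2)) := by
  refine Slot1399.gNull_of_alt h K (E := fun ε _ q w =>
      Gx6 Φ ε R K Q T' P q.1 w (S.th ε q.2) ∧ Ok6 Φ ε P q.1 w (S.th ε q.2) ∧
        Nl0 Φ ε K Q.te P q.1 w (S.th ε q.2) ∧ ¬ Nl1 Φ ε K Q.te P q.1 w (S.th ε q.2))
    (X := fun c ε n q w => PTreeQ Φ T' Q.te ε c P S n w q)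
    (fun c hc => altIn_of_pairAlt h.adm hte (hP c hc) fun _ _ _ _ hE => hE.1)
    fun L => ⟨1, 2 * (Fintype.card (Idx P ⊕ S.κ) + 2 * K * (L + 2)), le_rfl,
      fun r hr ς hς => ⟨1, one_pos, fun ε hε _ hrς n q w hw hE hX hRun hB hBH => ?_⟩⟩
  obtain ⟨hG, hok, -, hN⟩ := hE
  obtain ⟨Rc, π, cl, bD, x, y, hPT, hπ⟩ := hX
  exact hN (LNS3a304.nl1_det hPT hπ hw h.adm hε h.T_pos.le hte.le le_rfl hrς le_rfl le_rfl
    (lt_add_one T') anT_nonempty (by omega) hB hBH hRun hok.ok₁)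

/-- **The field `nl2`.** -/
theorem gNull_nl2 (h : OPX Φ f₀ bg γ β T' Q.te ρ S gl rm) (hte : Q.te < T')
    (hP : ∀ c : ℝ, 1 ≤ c → PairAltE Φ f₀ Q T' K P S c) (R : ℝ) :
    GNull f₀ (osP Φ f₀ Q.te T' K P S) (fun ε _ _ q w =>
      Gx6 Φ ε R K Q T' P q.1 w (S.th ε q.2) ∧ Ok6 Φ ε P q.1 w (S.th ε q.2) ∧
        Nl0 Φ ε K Q.te P q.1 w (S.th ε q.2) ∧ Nl1 Φ ε K Q.te P q.1 w (S.th ε q.2) ∧
        ¬ Nl2 Φ ε K Q.te P q.1 w (S.th ε q.2)) := by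
  refine Slot1399.gNull_of_alt h K (E := fun ε _ q w =>
      Gx6 Φ ε R K Q T' P q.1 w (S.th ε q.2) ∧ Ok6 Φ ε P q.1 w (S.th ε q.2) ∧
        Nl0 Φ ε K Q.te P q.1 w (S.th ε q.2) ∧ Nl1 Φ ε K Q.te P q.1 w (S.th ε q.2) ∧
        ¬ Nl2 Φ ε K Q.te P q.1 w (S.th ε q.2))
    (X := fun c ε n q w => PTreeQ Φ T' Q.te ε c P S n w q)
    (fun c hc => altIn_of_pairAlt h.adm hte (hP c hc) fun _ _ _ _ hE => hE.1)
    fun L => ⟨1, 4 * (Fintype.card (Idx P ⊕ S.κ) + 2 * K * (L + 2)), le_rfl,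
      fun r hr ς hς => ⟨(T' - Q.te) / (2 * r), div_pos (by linarith) (by positivity),
        fun ε hε hlt hrς n q w hw hE hX hRun hB hBH => ?_⟩⟩
  obtain ⟨hG, hok, -, -, hN⟩ := hE
  obtain ⟨Rc, π, cl, bD, x, y, hPT, hπ⟩ := hX
  have e2 : Q.te + 2 * (r * ε) < T' := by
    have := (lt_div_iff₀ (by positivity : (0 : ℝ) < 2 * r)).1 hlt
    linarith
  have hlT : cT ε q.1 (eL (S.th ε q.2)) + 2 * (r * ε) < T' :=
    (add_le_add (GxDet365.cT_le_te hG) le_rfl).trans_lt e2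
  have key := LNS968.nl2_det hPT hπ hw h.adm hε h.T_pos.le hte.le le_rfl hrς le_rfl le_rfl
    (lt_add_one T') anT_nonempty (K := K) (m := L) le_rfl hB hBH hRun hlT hok.ok₁ hok.ok₂
    (GxDet365.noB_d h.adm hε hG) (fun k => by
      cases k
      · exact GxDet365.noB_out h.adm hε hG (some true)
      · exact GxDet365.noB_out h.adm hε hG (some false))
  exact hN key

end Crest.Agent.R122.SlotsNl399

end
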