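import Crest.Agent.R122.OneCDefs_285
import Crest.Agent.R122.Direct4_658
import Crest.Agent.R122.UnwJ_410

/-!
# INEQUALITY 1 (row 122, board H2): split of the touch functional

* `mT_mem` : the first contact time is attained.
* `exists_meet` : a line which touches before `T` and is not born in contact meets a particle.
* `split_touch` : `touchW ≤ born in contact + direct + ∑_i 1[clM ≠ ∅] touchW`.
* `bLine` : expectation against the lines born at time `τ`.
-/

set_option autoImplicit false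
set_option linter.unusedSectionVars false

open MeasureTheory Set Filter
open scoped ENNReal Classical Topology
open Crest.AnalysisR.Kinetic
open Crest.Agent.R122.GC311 Crest.Agent.R122.Flow671
open Crest.Agent.R122.EDefs602 Crest.Agent.R122.Unw410 Crest.Agent.R122.Direct658

noncomputable section

namespace Crest.Agent.R122.OneC285

variable {Φ : Space3 → ℝ} {ε : ℝ} {K : ℕ} {n : ℕ} {w : Config n} {l : ML} {T : ℝ}

theorem continuous_lpos (l : ML) : Continuous (lpos l) := by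
  unfold lpos
  fun_prop

theorem isClosed_mSet (hΦ : AdmissiblePotential Φ) (hε : 0 < ε) (w : Config n) (l : ML) :
    IsClosed (mSet Φ ε w l) := by
  have hcont : Continuous fun s => flow Φ ε s w := flow_continuous_time hΦ hε w
  have h : mSet Φ ε w l = {s | l.1.1 ≤ s} ∩ ⋃ i, {s | dist (lpos l s) (flow Φ ε s w i).1 ≤ ε} := by
    ext s
    simp only [mSet, mem_ofPred_eq, mem_inter_iff, mem_iUnion]
  rw [h]
  refine (isClosed_le continuous_const continuous_id).inter
    (isClosed_iUnion_of_finite fun i => ?_)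
  exact isClosed_le ((continuous_lpos l).dist
    (continuous_fst.comp ((continuous_apply i).comp hcont))) continuous_const

theorem bddBelow_mSet (w : Config n) (l : ML) : BddBelow (mSet Φ ε w l) :=
  ⟨l.1.1, fun _ h => h.1⟩

theorem mT_mem (hΦ : AdmissiblePotential Φ) (hε : 0 < ε) (h : (mSet Φ ε w l).Nonempty) :
    mT Φ ε w l ∈ mSet Φ ε w l :=
  (isClosed_mSet hΦ hε w l).csInf_mem h (bddBelow_mSet w l)

theorem mT_le {s : ℝ} (h : s ∈ mSet Φ ε w l) : mT Φ ε w l ≤ s := csInf_le (bddBelow_mSet w l) h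

/-- Before its first contact the free line is far from the gas. -/
theorem far_of_lt {s : ℝ} (h1 : l.1.1 ≤ s) (h2 : s < mT Φ ε w l) (i : Fin n) :
    ε < dist (lpos l s) (flow Φ ε s w i).1 := by
  by_contra h
  push Not at h
  exact absurd (mT_le (Φ := Φ) (ε := ε) (w := w) (l := l) ⟨h1, i, h⟩) (not_le.2 h2)

theorem lpos_birth (l : ML) : lpos l l.1.1 = l.1.2.1 := by
  unfold lpos back
  simp

/-- The line is born in contact with the gas. -/
def BornIn (Φ : Space3 → ℝ) (ε : ℝ) {n : ℕ} (w : Config n) (l : ML) : Prop :=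
  ∃ i, dist l.1.2.1 (flow Φ ε l.1.1 w i).1 ≤ ε

theorem touch_contact (hΦ : AdmissiblePotential Φ) (hε : 0 < ε) (hw : w ∈ PairExcluded ε n)
    (hl : 0 < l.1.1) (hm : l.2 ≤ K) (hb : ¬ BornIn Φ ε w l)
    (h : (MW.cfg w).thetaL Φ ε K T l ≤ T) : ∃ s ∈ mSet Φ ε w l, s ≤ T := by
  have hne : ∀ i, (flow Φ ε l.1.1 w i).1 ≠ l.1.2.1 := by
    intro i hi
    refine hb ⟨i, ?_⟩
    rw [hi, dist_self]
    exact hε.le
  have hZ := cfg_ok hΦ hε hw
  have hZl := ins_ok hΦ hε hw hl hne
  by_contra hno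
  push Not at hno
  have hT0 : 0 ≤ T := by
    have := (EBasic602.theta_le_horizon_iff.1 h)
    obtain ⟨s, hs, _⟩ := this
    exact hs.1.trans hs.2
  have hfar : ∀ s k, s < T + 1 / 2 → s ≤ T →
      ¬ ((MW.cfg w).ins l).C Φ ε s (Sum.inr ()) (Sum.inl k) := by
    intro s k _ hsT
    -- first contact before `T`
    set S : Set ℝ := {r | r ∈ Icc 0 T ∧ ∃ k, ((MW.cfg w).ins l).C Φ ε r (Sum.inr ()) (Sum.inl k)}
      with hS
    intro hc
    have hS0 : 0 ≤ s := hl.le.trans (MW.C_born hc)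
    have hScl : IsClosed S := by
      have : S = ⋃ k, {r | r ∈ Icc 0 T ∧
          ((MW.cfg w).ins l).C Φ ε r (Sum.inr ()) (Sum.inl k)} := by
        ext r
        simp only [hS, mem_ofPred_eq, mem_iUnion]
        exact ⟨fun ⟨h1, k, h2⟩ => ⟨k, h1, h2⟩, fun ⟨k, h1, h2⟩ => ⟨h1, k, h2⟩⟩
      rw [this]
      exact isClosed_iUnion_of_finite fun k => hZl.closed T _ _
    have hSne : S.Nonempty := ⟨s, ⟨hS0, hsT⟩, k, hc⟩
    have hSbd : BddBelow S := ⟨0, fun r hr => hr.1.1⟩
    obtain ⟨hr1, k₁, hc₁⟩ := hScl.csInf_mem hSne hSbd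
    set r₁ := sInf S with hr₁
    have hno' : ∀ r j, r < r₁ → ¬ ((MW.cfg w).ins l).C Φ ε r (Sum.inr ()) (Sum.inl j) := by
      intro r j hr hcr
      have h0 : 0 ≤ r := hl.le.trans (MW.C_born hcr)
      exact absurd (csInf_le hSbd (show r ∈ S from ⟨⟨h0, hr.le.trans hr1.2⟩, j, hcr⟩))
        (not_le.2 hr)
    have h1 := ins_agree hΦ hε hZ hZl hno' (t := r₁) ⟨hr1.1, le_rfl⟩ k₁
    have h2 := ins_free hΦ hε hZl hno' (t := r₁) ⟨hr1.1, le_rfl⟩
    obtain ⟨hc1, hc2, hc3, hc4⟩ := hc₁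
    rw [h2, ← h1, path_cfg hΦ hε hw hr1.1] at hc4
    exact absurd hr1.2 (not_le.2 (hno r₁ ⟨hc1, k₁, hc4⟩))
  obtain ⟨r, hr, x, k, hc⟩ := MW.exists_contact_le_theta hΦ hε hZ hZl hT0 h
    (by rw [Finset.univ_unique, Finset.sum_singleton]; exact hm)
  have hrT : r ≤ T := hr.2.trans h
  cases x
  exact hfar r k (by linarith) hrT hc

/-- A line which touches before `T` and is not born in contact with the gas meets a particle. -/
theorem exists_meet (hΦ : AdmissiblePotential Φ) (hε : 0 < ε) (hw : w ∈ PairExcluded ε n)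
    (hl : 0 < l.1.1) (hm : l.2 ≤ K) (hb : ¬ BornIn Φ ε w l)
    (h : (MW.cfg w).thetaL Φ ε K T l ≤ T) : ∃ i, Meet Φ ε T w l i := by
  obtain ⟨s, hs, hsT⟩ := touch_contact hΦ hε hw hl hm hb h
  have hne : (mSet Φ ε w l).Nonempty := ⟨s, hs⟩
  obtain ⟨h1, i, h2⟩ := mT_mem hΦ hε hne
  refine ⟨i, hne, lt_of_le_of_ne h1 ?_, (mT_le hs).trans hsT, h2⟩
  intro heq
  rw [← heq, lpos_birth] at h2
  exact hb ⟨i, h2⟩

theorem clM_nonempty {i : Fin n} (h : CMeet Φ ε K T w l i) :
    (clM Φ ε K T n w i l).Nonempty := by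
  unfold clM
  rw [if_pos h]
  exact ⟨i, by unfold preC; simp⟩

/-- **Split of the touch functional.** -/
theorem split_touch (hΦ : AdmissiblePotential Φ) (hε : 0 < ε) {P : EPar} (hL : 0 ≤ P.L)
    (hw : w ∈ PairExcluded ε n) (hl : 0 < l.1.1) (hm : l.2 ≤ K) :
    (MW.cfg w).touchW Φ ε K P l ≤ (if BornIn Φ ε w l then 1 else 0) + (dirW Φ ε K P w l +
      ∑ i : Fin n, if (clM Φ ε K P.te n w i l).Nonempty then (MW.cfg w).touchW Φ ε K P l else 0) := by
  by_cases hb : BornIn Φ ε w l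
  · rw [if_pos hb]
    refine le_trans ?_ le_self_add
    unfold MW.touchW
    split_ifs
    · exact Weight984.W_le_one hL _
    · exact zero_le_one
  by_cases hθ : P.tw < (MW.cfg w).thetaL Φ ε K P.te l ∧ (MW.cfg w).thetaL Φ ε K P.te l ≤ P.te
  swap
  · have : (MW.cfg w).touchW Φ ε K P l = 0 := by unfold MW.touchW; rw [if_neg hθ]
    rw [this]
    exact zero_le
  obtain ⟨i, hi⟩ := exists_meet hΦ hε hw hl hm hb hθ.2
  refine le_trans ?_ le_add_self
  by_cases hinf : (MW.cfg w).Inf Φ ε K (mT Φ ε w l) i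
  · refine le_trans ?_ le_self_add
    unfold dirW
    rw [if_pos ⟨i, hi, hinf⟩]
  · refine le_trans ?_ le_add_self
    refine le_trans (le_of_eq ?_) (Finset.single_le_sum (f := fun i : Fin n =>
      if (clM Φ ε K P.te n w i l).Nonempty then (MW.cfg w).touchW Φ ε K P l else 0)
      (fun _ _ => zero_le) (Finset.mem_univ i))
    rw [if_pos (clM_nonempty ⟨hi, hinf⟩)]

end Crest.Agent.R122.OneC285

end
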