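import Crest.Agent.R122.QExitBind3_837
import Crest.Agent.R122.OneCDefs_285
import Crest.Agent.R122.SizeCross_815

/-!
# Row 122 (helper837): `StmtEX`, the exits of a contact structure (INEQUALITY 1)

* `ex_inner_le` : flux of the test line integrated out, at fixed tree and gas.
* `os_ex_le_ts` : the structure integral of the exits is below a tree integral `TS`.
* `lintegral_lineM_cut` : lines born before `te` in `lineM .. T'`.
* `stmtEX` : `StmtEX Φ f₀ Q T' m₀ (C₀ r^m₀)`, constants uniform in the windows and horizons.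
-/

set_option autoImplicit false

open MeasureTheory Set Filter Topology
open Crest.AnalysisR.Kinetic
open scoped ENNReal

noncomputable section

open scoped Classical

namespace Crest.Agent.R122.QExit837

open Kin796 Kin796.CTree Disc416 Scat818 Flow671 Flux663 Tree674 Mark307
open Crest.Agent.R122.GIV566 Crest.Agent.R122.TreeLines335 Crest.Agent.R122.QExit814
open Crest.Agent.R122.Hid424 Crest.Agent.R122.RtG302 Crest.Agent.R122.GC311
open Crest.Agent.R122.InEq2 Crest.Agent.R122.ToTree335 Crest.Agent.R122.Boltz814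
open Crest.Agent.R122.EDefs602 Crest.Agent.R122.Master566 Crest.Agent.R122.OneC285
open Crest.Agent.R122.OneC423 Crest.Agent.R122.XC815

variable {Φ : Space3 → ℝ} {f₀ : PhasePoint → ℝ} {f : ℝ → PhasePoint → ℝ} {ε : ℝ}

/-! ### Lines born before `te` -/

/-- cut-off of a test functional: lines born before `te` -/
def cutG (te : ℝ) (G : LF) : LF := fun m w l => if l.1.1 ≤ te then G m w l else 0

theorem measLF_cutG {te : ℝ} {G : LF} (hG : MeasLF G) : MeasLF (cutG te G) := by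
  intro m
  unfold cutG
  refine Measurable.ite ?_ (hG m) measurable_const
  exact measurableSet_le (measurable_snd.fst.fst) measurable_const

theorem cutG_le {te : ℝ} {G : LF} (m : ℕ) (w : Config m) (l : EDefs602.ML) :
    cutG te G m w l ≤ G m w l := by
  unfold cutG
  split_ifs
  · exact le_rfl
  · exact bot_le

/-- Lines born before `te` in `lineM γ ρ K T'`. -/
theorem lintegral_lineM_cut {γ : ℝ → ℝ} (hγ : Measurable γ) (ρ : ℝ≥0∞) (K : ℕ) {te T' : ℝ}
    {g : EDefs602.ML → ℝ≥0∞} (hg : Measurable g) :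
    ∫⁻ l, (if l.1.1 ≤ te then g l else 0) ∂(lineM γ ρ K T') ≤ ∫⁻ l, g l ∂(lineM γ ρ K te) := by
  have hD : Measurable (lineD γ ρ K) := EBasic602.measurable_lineD hγ
  have hc : Measurable fun l : EDefs602.ML => if l.1.1 ≤ te then g l else 0 :=
    Measurable.ite (measurableSet_le (measurable_fst.fst) measurable_const) hg measurable_const
  unfold lineM
  rw [lintegral_withDensity_eq_lintegral_mul _ hD hc, lintegral_withDensity_eq_lintegral_mul _ hD hg]
  unfold lineV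
  have m1 : Measurable fun l : EDefs602.ML => (lineD γ ρ K * fun l : EDefs602.ML =>
      if l.1.1 ≤ te then g l else 0) l := hD.mul hc
  have m2 : Measurable fun l : EDefs602.ML => (lineD γ ρ K * g) l := hD.mul hg
  rw [lintegral_prod _ m1.aemeasurable, lintegral_prod _ m2.aemeasurable]
  have n1 : Measurable fun q : ℝ × PhasePoint => ∫⁻ n : ℕ, (lineD γ ρ K * fun l : EDefs602.ML =>
      if l.1.1 ≤ te then g l else 0) (q, n) ∂Measure.count := m1.lintegral_prod_right'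
  have n2 : Measurable fun q : ℝ × PhasePoint => ∫⁻ n : ℕ, (lineD γ ρ K * g) (q, n)
      ∂Measure.count := m2.lintegral_prod_right'
  rw [lintegral_prod _ n1.aemeasurable, lintegral_prod _ n2.aemeasurable]
  rw [← lintegral_indicator measurableSet_Ioc, ← lintegral_indicator measurableSet_Ioc]
  refine lintegral_mono fun τ => ?_
  by_cases h1 : τ ∈ Ioc 0 T'
  · rw [indicator_of_mem h1]
    by_cases h2 : τ ≤ te
    · rw [indicator_of_mem (show τ ∈ Ioc 0 te from ⟨h1.1, h2⟩)]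
      refine le_of_eq (lintegral_congr fun y => lintegral_congr fun n => ?_)
      show lineD γ ρ K ((τ, y), n) * (if τ ≤ te then g ((τ, y), n) else 0) = _
      rw [if_pos h2]
      rfl
    · have h0 : ∫⁻ y : PhasePoint, ∫⁻ n : ℕ, (lineD γ ρ K * fun l : EDefs602.ML =>
          if l.1.1 ≤ te then g l else 0) ((τ, y), n) ∂Measure.count = 0 := by
        have h3 : ∀ (y : PhasePoint) (n : ℕ), (lineD γ ρ K * fun l : EDefs602.ML =>
            if l.1.1 ≤ te then g l else 0) ((τ, y), n) = 0 := by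
          intro y n
          show lineD γ ρ K ((τ, y), n) * (if τ ≤ te then g ((τ, y), n) else 0) = 0
          rw [if_neg h2, mul_zero]
        simp only [h3, lintegral_zero]
      rw [h0]
      exact bot_le
  · rw [indicator_of_notMem h1]
    exact bot_le

/-! ### The flux of the test line -/

/-- The exit lines are born before the contact. -/
theorem rel_le_of_ct (hε : 0 ≤ ε) {P : CTree} {te : ℝ} {z : PhasePoint × Par P} {e : ℝ × PhasePoint}
    (h : (z, e) ∈ ctSet Φ ε te P) {i : Idx P} (hi : i ≠ root P) : TreeLines335.rel P z.2 i ≤ te := by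
  have hv : Valid Φ ε P te z.1.2 z.2 := valid_of_mem_ctSet h
  rw [rel_eq_prot P te z.2 i hi]
  exact PathFlow968.prot_le hε P te z.1.2 z.2 hv.2 i

theorem sum_filter_eq {P : CTree} (g : Idx P → ℝ≥0∞) :
    ∑ i ∈ Finset.univ.filter (fun i : Idx P => i ≠ root P), g i =
      ∑ x : {i : Idx P // i ≠ root P}, g x :=
  Finset.sum_subtype _ (fun x => by simp) g

theorem tsum_markW_le (ρ : ℝ≥0∞) (K : ℕ) : ∑' n : ℕ, markW ρ K n ≤ (1 - ρ)⁻¹ := by
  rw [← ENNReal.tsum_geometric]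
  exact ENNReal.tsum_le_tsum fun n => EBasic602.markW_le K n

/-- constant of the flux -/
def cF (te g0 : ℝ) (ρ : ℝ≥0∞) : ℝ≥0∞ :=
  ENNReal.ofReal te * ENNReal.ofReal Real.pi * cV g0 * (1 - ρ)⁻¹

theorem cF_ne_top {te g0 : ℝ} (hg : 0 < g0) {ρ : ℝ≥0∞} (hρ : ρ < 1) : cF te g0 ρ ≠ ∞ := by
  unfold cF
  refine ENNReal.mul_ne_top (ENNReal.mul_ne_top (ENNReal.mul_ne_top ENNReal.ofReal_ne_top
    ENNReal.ofReal_ne_top) (cV_ne_top hg)) ?_
  rw [Ne, ENNReal.inv_eq_top, tsub_eq_zero_iff_le]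
  exact not_le.2 hρ

theorem cF_mono {te te' g0 : ℝ} (h : te ≤ te') (ρ : ℝ≥0∞) : cF te g0 ρ ≤ cF te' g0 ρ := by
  unfold cF
  have := ENNReal.ofReal_le_ofReal h
  gcongr

/-- The exits of a tree and the ghost indicator. -/
def exG (Φ : Space3 → ℝ) (ε tw te : ℝ) (G : LF) (P : CTree) (z : PhasePoint × Par P) (m : ℕ)
    (w : Config m) : ℝ≥0∞ :=
  unhitInd Φ ε (treeT Φ ε P z.1 z.2 (TreeLines335.rel P z.2)) tw w *
    ∑ x : {i : Idx P // i ≠ root P}, cutG te G m w (lineML Φ ε P z x)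

theorem exG_ne_top {tw te : ℝ} {G : LF} (hG1 : ∀ m w l, G m w l ≤ 1) {P : CTree}
    {z : PhasePoint × Par P} {m : ℕ} {w : Config m} : exG Φ ε tw te G P z m w ≠ ∞ := by
  unfold exG
  refine ENNReal.mul_ne_top (ne_top_of_le_ne_top ENNReal.one_ne_top unhitInd_le_one) ?_
  refine ENNReal.sum_ne_top.2 fun x _ => ?_
  exact ne_top_of_le_ne_top ENNReal.one_ne_top ((cutG_le m w _).trans (hG1 m w _))

/-- the integrand of `StmtEX` -/
def HEX (Φ : Space3 → ℝ) (ε : ℝ) (K : ℕ) (Q : EPar) (T' : ℝ) (m₀ : ℕ) (G : LF) : SF :=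
  fun P z m w l => (if m₀ < P.leaves ∧ Sep Φ ε P T' z.1 z.2 then smI K P l else 0) *
    (uI Φ ε Q.tw P z w *
      ∑ i ∈ Finset.univ.filter (fun i : Idx P => i ≠ root P), G m w (lineML Φ ε P z i))

/-- majorant after integration of the test line -/
def HTS (Φ : Space3 → ℝ) (ε : ℝ) (K : ℕ) (Q : EPar) (T' : ℝ) (m₀ : ℕ) (g0 : ℝ) (G : LF)
    (P : CTree) (z : PhasePoint × Par P) (m : ℕ) (w : Config m) : ℝ≥0∞ :=
  if P.leaves ≤ K ∧ Sep Φ ε P T' z.1 z.2 then
    (if m₀ ≤ P.size then cF Q.te g0 Q.ρ * ENNReal.ofReal (1 + ‖z.1.2‖) else 0) *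
      exG Φ ε Q.tw Q.te G P z m w else 0

theorem ex_inner_le (hΦ : AdmissiblePotential Φ) (hε : 0 < ε) {K : ℕ} {Q : EPar}
    (hγ : Measurable Q.γ) {g0 τ : ℝ} (hτ : 0 < τ) (hg : g0 ≤ Q.γ τ) {T' : ℝ} {m₀ : ℕ} {G : LF}
    (hG1 : ∀ m w l, G m w l ≤ 1) {P : CTree} (z : PhasePoint × Par P) (m : ℕ) (w : Config m) :
    ∫⁻ l, {l : EDefs602.ML | (z, l.1) ∈ ctSet Φ ε Q.te P}.indicator
      (fun l => lineD Q.γ Q.ρ K l * HEX Φ ε K Q T' m₀ G P z m w l) l ∂(baseM (Measure.dirac τ)) ≤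
      ENNReal.ofReal (ε ^ 2) * HTS Φ ε K Q T' m₀ g0 G P z m w := by
  by_cases hc : (m₀ < P.leaves ∧ Sep Φ ε P T' z.1 z.2) ∧ P.leaves ≤ K
  · obtain ⟨⟨hm, hs⟩, hK⟩ := hc
    have hsz : m₀ ≤ P.size := by
      have := CTree.leaves_eq P
      omega
    have hpt : ∀ l : EDefs602.ML, {l : EDefs602.ML | (z, l.1) ∈ ctSet Φ ε Q.te P}.indicator
        (fun l => lineD Q.γ Q.ρ K l * HEX Φ ε K Q T' m₀ G P z m w l) l ≤
        {l : EDefs602.ML | (z, l.1) ∈ ctSet Φ ε Q.te P}.indicator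
          (fun l => lineD Q.γ Q.ρ K l * (fun _ : ℕ => (1 : ℝ≥0∞)) l.2) l *
          exG Φ ε Q.tw Q.te G P z m w := by
      intro l
      by_cases hl : l ∈ {l : EDefs602.ML | (z, l.1) ∈ ctSet Φ ε Q.te P}
      · rw [indicator_of_mem hl, indicator_of_mem hl, mul_one]
        refine mul_le_mul' le_rfl ?_
        unfold HEX
        rw [if_pos ⟨hm, hs⟩]
        have h1 : smI K P l ≤ 1 := by
          unfold smI
          split_ifs
          · exact le_rfl
          · exact bot_le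
        refine (mul_le_mul' h1 le_rfl).trans (le_of_eq ?_)
        rw [one_mul, sum_filter_eq]
        unfold exG
        congr 1
        refine Finset.sum_congr rfl fun x _ => ?_
        unfold cutG
        rw [if_pos (show (lineML Φ ε P z x).1.1 ≤ Q.te from rel_le_of_ct hε.le hl x.2)]
      · rw [indicator_of_notMem hl]
        exact bot_le
    refine (lintegral_mono hpt).trans ?_
    rw [lintegral_mul_const' _ _ (exG_ne_top hG1)]
    have hfl := ct_flux_le hΦ hε z (te := Q.te) hτ hγ hg Q.ρ K (fun _ : ℕ => (1 : ℝ≥0∞))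
    refine (mul_le_mul' hfl le_rfl).trans ?_
    have h2 : ∑' n : ℕ, markW Q.ρ K n * (1 : ℝ≥0∞) ≤ (1 - Q.ρ)⁻¹ := by
      simp only [mul_one]
      exact tsum_markW_le Q.ρ K
    unfold HTS
    rw [if_pos ⟨hK, hs⟩, if_pos hsz]
    unfold cF
    calc ENNReal.ofReal (ε ^ 2) * (ENNReal.ofReal Q.te * ENNReal.ofReal Real.pi * cV g0 *
          (ENNReal.ofReal (1 + ‖z.1.2‖) * ∑' n : ℕ, markW Q.ρ K n * (1 : ℝ≥0∞))) *
          exG Φ ε Q.tw Q.te G P z m w
        ≤ ENNReal.ofReal (ε ^ 2) * (ENNReal.ofReal Q.te * ENNReal.ofReal Real.pi * cV g0 *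
          (ENNReal.ofReal (1 + ‖z.1.2‖) * (1 - Q.ρ)⁻¹)) *
          exG Φ ε Q.tw Q.te G P z m w := by gcongr
      _ = _ := by ring
  · have h0 : ∀ l : EDefs602.ML, {l : EDefs602.ML | (z, l.1) ∈ ctSet Φ ε Q.te P}.indicator
        (fun l => lineD Q.γ Q.ρ K l * HEX Φ ε K Q T' m₀ G P z m w l) l = 0 := by
      intro l
      by_cases hl : l ∈ {l : EDefs602.ML | (z, l.1) ∈ ctSet Φ ε Q.te P}
      · rw [indicator_of_mem hl]
        have h1 : HEX Φ ε K Q T' m₀ G P z m w l = 0 := by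
          unfold HEX
          by_cases h2 : m₀ < P.leaves ∧ Sep Φ ε P T' z.1 z.2
          · have h3 : ¬ P.leaves ≤ K := fun h => hc ⟨h2, h⟩
            have h4 : smI K P l = 0 := by
              unfold smI
              rw [if_neg]
              omega
            rw [if_pos h2, h4, zero_mul]
          · rw [if_neg h2, zero_mul]
        rw [h1, mul_zero]
      · rw [indicator_of_notMem hl]
    simp only [h0, lintegral_zero]
    exact bot_le

/-- **The structure integral of the exits is a tree integral.** -/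
theorem os_ex_le_ts (hΦ : AdmissiblePotential Φ) (hε : 0 < ε) {K : ℕ} {Q : EPar}
    (hγ : Measurable Q.γ) {g0 τ : ℝ} (hτ : 0 < τ) (hg : g0 ≤ Q.γ τ) {T' : ℝ} {m₀ : ℕ} {G : LF}
    (hG1 : ∀ m w l, G m w l ≤ 1) :
    OS Φ f₀ ε K Q T' (Measure.dirac τ) (HEX Φ ε K Q T' m₀ G) ≤
      InEq2.TS Φ f₀ ε T' (HTS Φ ε K Q T' m₀ g0 G) := by
  have hact : activity ε * ENNReal.ofReal (ε ^ 2) = 1 := by
    unfold activity
    rw [← ENNReal.ofReal_mul (by positivity), inv_mul_cancel₀ (by positivity),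
      ENNReal.ofReal_one]
  unfold OS InEq2.TS
  rw [← ENNReal.tsum_mul_left]
  refine ENNReal.tsum_le_tsum fun P => ?_
  rw [← lintegral_const_mul' _ _ (show activity ε ≠ ∞ from ENNReal.ofReal_ne_top)]
  refine lintegral_mono fun z => ?_
  by_cases hV : Valid Φ ε P T' z.1.2 z.2
  · rw [indicator_of_mem (show z ∈ {z : PhasePoint × Par P | Valid Φ ε P T' z.1.2 z.2} from hV),
      indicator_of_mem (show z ∈ {z : PhasePoint × Par P | Valid Φ ε P T' z.1.2 z.2} from hV)]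
    have h1 : gcE f₀ ε (fun m w => ∫⁻ l, {l : EDefs602.ML | (z, l.1) ∈ ctSet Φ ε Q.te P}.indicator
        (fun l => lineD Q.γ Q.ρ K l * HEX Φ ε K Q T' m₀ G P z m w l) l
          ∂(baseM (Measure.dirac τ))) ≤
        ENNReal.ofReal (ε ^ 2) * gcE f₀ ε (fun m w => HTS Φ ε K Q T' m₀ g0 G P z m w) := by
      rw [← gcE_const_mul f₀ ε ENNReal.ofReal_ne_top]
      exact gcE_mono f₀ ε fun m w _ => ex_inner_le hΦ hε hγ hτ hg hG1 z m w
    calc activity ε * (wt Φ P z.1.2 z.2 * (ToTree335.pf Φ f₀ ε P z * gcE f₀ ε (fun m w =>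
          ∫⁻ l, {l : EDefs602.ML | (z, l.1) ∈ ctSet Φ ε Q.te P}.indicator
            (fun l => lineD Q.γ Q.ρ K l * HEX Φ ε K Q T' m₀ G P z m w l) l
              ∂(baseM (Measure.dirac τ)))))
        ≤ activity ε * (wt Φ P z.1.2 z.2 * (ToTree335.pf Φ f₀ ε P z *
            (ENNReal.ofReal (ε ^ 2) *
              gcE f₀ ε (fun m w => HTS Φ ε K Q T' m₀ g0 G P z m w)))) := by
          gcongr
      _ = (activity ε * ENNReal.ofReal (ε ^ 2)) * (wt Φ P z.1.2 z.2 *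
            (ToTree335.pf Φ f₀ ε P z *
              gcE f₀ ε (fun m w => HTS Φ ε K Q T' m₀ g0 G P z m w))) := by ring
      _ = _ := by rw [hact, one_mul]
  · rw [indicator_of_notMem (show z ∉ {z : PhasePoint × Par P | Valid Φ ε P T' z.1.2 z.2} from hV),
      mul_zero]
    exact bot_le

/-! ### The statement -/

/-- **(EX)** : `StmtEX` of `OneCDefs_285`, constants uniform in the windows, the horizons and the
size cut-off. -/
theorem stmtEX {β T : ℝ} (hD : KData Φ β T f₀ f) {h₀ kap lam C b : ℝ}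
    (hK : Seg814.KinC Φ T f h₀ kap lam C b) (hkap : kap ≤ β) :
    ∃ g₁ : ℝ, 0 < g₁ ∧ ∃ ρ₁ : ℝ≥0∞, ρ₁ < 1 ∧ ∃ r : ℝ≥0∞, r < 1 ∧
      ∀ (γ : ℝ → ℝ) (ρ : ℝ≥0∞), Measurable γ → ρ₁ ≤ ρ → ρ < 1 →
      ∀ g0 : ℝ, 0 < g0 → ∃ C₀ : ℝ≥0∞, C₀ ≠ ∞ ∧
      ∀ (Q : EPar), Q.γ = γ → Q.ρ = ρ → Q.tw ∈ Icc 0 T → GIV566.GIV Φ f₀ f T Q.tw → Q.te ≤ T →
      (∀ τ ∈ Ioc 0 Q.te, g0 ≤ γ τ) →
      ∀ T' : ℝ, 0 < T' → T' ≤ Q.tw + h₀ → (∀ τ ∈ Ioc 0 T', γ τ ≤ g₁) →
      ∀ m₀ : ℕ, StmtEX Φ f₀ Q T' m₀ (C₀ * r ^ m₀) := by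
  have hΦ := hD.adm
  have hf : Measurable f₀ := hD.contDiff.continuous.measurable
  have hlam : 1 < lam := hK.2.2.1
  have hkap0 : 0 < kap := hK.2.1
  -- `1 < lam₀ < lam₁ < lam`
  set lam₁ : ℝ := (1 + lam) / 2 with hl₁
  set lam₀ : ℝ := (1 + lam₁) / 2 with hl₀
  have h1 : 1 < lam₁ := by rw [hl₁]; linarith
  have h2 : lam₁ < lam := by rw [hl₁]; linarith
  have h3 : 1 < lam₀ := by rw [hl₀]; linarith
  have h4 : lam₀ < lam₁ := by rw [hl₀]; linarith
  obtain ⟨g₁, hg₁, ρ₁, hρ₁, C₁, hC₁, hQ⟩ := exists_qx hD hK hkap h1 h2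
  obtain ⟨M₀, hM₀, hw⟩ := exists_wQ Φ h3 h4 hkap0
  refine ⟨g₁, hg₁, ρ₁, hρ₁, ENNReal.ofReal (lam₀ / lam₁), ?_, ?_⟩
  · rw [← ENNReal.ofReal_one]
    exact (ENNReal.ofReal_lt_ofReal_iff one_pos).2 ((div_lt_one (by linarith)).2 h4)
  intro γ ρ hγ hρ hρ1 g0 hg0
  set c : ℝ≥0∞ := cF T g0 ρ * (2 * M₀) with hc
  have hct : c ≠ ∞ := ENNReal.mul_ne_top (cF_ne_top hg0 hρ1)
    (ENNReal.mul_ne_top (by norm_num) hM₀)
  refine ⟨c * C₁, ENNReal.mul_ne_top hct hC₁, ?_⟩
  intro Q hQγ hQρ htw hG hte hlow T' hT' hT'h hup m₀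
  have hδ := fun K => hQ γ ρ hρ Q.tw htw hG T' hT' hT'h hup K
  choose δ hδ0 hδ1 using hδ
  set r : ℝ≥0∞ := ENNReal.ofReal (lam₀ / lam₁) with hr
  have hrt : r ≠ ∞ := ENNReal.ofReal_ne_top
  have hMt : c * r ^ m₀ ≠ ∞ := ENNReal.mul_ne_top hct (ENNReal.pow_ne_top hrt)
  refine ⟨fun K ε => c * r ^ m₀ * δ K ε, ?_, ?_⟩
  · -- nullity
    intro K a ha
    have h := ENNReal.Tendsto.const_mul (a := c * r ^ m₀) (hδ0 K) (Or.inr hMt)
    rw [mul_zero] at h
    have h5 : ∀ᶠ x in 𝓝[>] (0 : ℝ), c * r ^ m₀ * δ K x ≤ ENNReal.ofReal a :=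
      (h.eventually (gt_mem_nhds (ENNReal.ofReal_pos.2 ha))).mono fun _ h => le_of_lt h
    rw [eventually_nhdsWithin_iff, Metric.eventually_nhds_iff] at h5
    obtain ⟨η, hη, h6⟩ := h5
    refine ⟨η, hη, fun x hx hxη => h6 ?_ hx⟩
    rw [Real.dist_eq, sub_zero, abs_of_pos hx]
    exact hxη
  · intro K ε hε G hGm hG1 τ hτ
    have hγQ : Measurable Q.γ := by rw [hQγ]; exact hγ
    have hgτ : g0 ≤ Q.γ τ := by rw [hQγ]; exact hlow τ hτ
    have s1 := os_ex_le_ts (f₀ := f₀) hΦ hε (K := K) (T' := T') (m₀ := m₀) hγQ hτ.1 hgτ hG1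
    have hQX := hδ1 K ε hε
    have s2 : InEq2.TS Φ f₀ ε T' (HTS Φ ε K Q T' m₀ g0 G) ≤ (c * r ^ m₀) *
        (C₁ * gcE f₀ ε (fun m w => ∫⁻ l, cutG Q.te G m w l ∂EDefs602.lineM γ ρ K T') +
          δ K ε) := by
      refine hQX.ts_rel hΦ hf hε (φ := cutG Q.te G) (measLF_cutG hGm)
        (fun m w l => (cutG_le m w l).trans (hG1 m w l)) hMt
        (th := fun P z => if m₀ ≤ P.size then cF Q.te g0 Q.ρ * (2 * wQ Φ ε P z) else 0)
        (fun P => ?_) (fun P z hz => ?_) (b := fun P z => TreeLines335.rel P z.2)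
        (fun P z i => le_rfl) (fun P z m w hz => ?_)
      · by_cases hP : m₀ ≤ P.size
        · simp only [if_pos hP]
          exact ((measurable_wQ hΦ P).const_mul 2).const_mul _
        · simp only [if_neg hP]
          exact measurable_const
      · have h7 := hw m₀ ε T' P z hz
        by_cases hP : m₀ ≤ P.size
        · rw [if_pos hP] at h7
          show (if m₀ ≤ P.size then cF Q.te g0 Q.ρ * (2 * wQ Φ ε P z) else 0) ≤ _
          rw [if_pos hP]
          have h8 : cF Q.te g0 Q.ρ ≤ cF T g0 ρ := by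
            rw [hQρ]
            exact cF_mono hte ρ
          calc cF Q.te g0 Q.ρ * (2 * wQ Φ ε P z) ≤ cF T g0 ρ * (2 * (M₀ * r ^ m₀ *
                ENNReal.ofReal lam₁ ^ P.size *
                ENNReal.ofReal (Real.exp (kap * Seg814.eng Φ P z.1.2 z.2)))) := by gcongr
            _ = _ := by rw [hc]; ring
        · show (if m₀ ≤ P.size then cF Q.te g0 Q.ρ * (2 * wQ Φ ε P z) else 0) ≤ _
          rw [if_neg hP]
          exact bot_le
      · unfold HTS
        by_cases hcs : P.leaves ≤ K ∧ Sep Φ ε P T' z.1 z.2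
        · rw [if_pos hcs, if_pos hcs]
          refine mul_le_mul' ?_ le_rfl
          by_cases hP : m₀ ≤ P.size
          · rw [if_pos hP, if_pos hP]
            exact mul_le_mul' le_rfl (root_le_wQ hΦ hz)
          · rw [if_neg hP, if_neg hP]
        · rw [if_neg hcs, if_neg hcs]
    refine (s1.trans s2).trans ?_
    rw [mul_add]
    refine add_le_add ?_ le_rfl
    have h9 : gcE f₀ ε (fun m w => ∫⁻ l, cutG Q.te G m w l ∂EDefs602.lineM γ ρ K T') ≤
        gcE f₀ ε (fun m w => ∫⁻ l, G m w l ∂(lineM Q.γ Q.ρ K Q.te)) := by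
      refine gcE_mono f₀ ε fun m w _ => ?_
      rw [hQγ, hQρ]
      exact lintegral_lineM_cut hγ ρ K ((hGm m).comp (measurable_const.prodMk measurable_id))
    calc c * r ^ m₀ * (C₁ * gcE f₀ ε (fun m w => ∫⁻ l, cutG Q.te G m w l
          ∂EDefs602.lineM γ ρ K T'))
        ≤ c * r ^ m₀ * (C₁ * gcE f₀ ε (fun m w => ∫⁻ l, G m w l ∂(lineM Q.γ Q.ρ K Q.te))) := by
          gcongr
      _ = _ := by ring

end Crest.Agent.R122.QExit837

end
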