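import Crest.Agent.R122.Nu0_566
import Crest.Agent.R122.SizeCross_815
import Crest.Agent.R122.NS_423

/-!
# The NS term of INEQUALITY 1 (row 122, section E4, board row 11c): `StmtNS`

* `JJ` : contact integral of a line functional at a root line, at time `s`;
* `JJ_le`, `measurable_JJ`;
* `OS_eq_JJ` : the structure integral of a line of the contact in terms of the quenched densities;
* `stmtNS` : `StmtNS` of `OneCDefs_285`.
-/

set_option autoImplicit false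
set_option linter.unusedSectionVars false

open MeasureTheory Set Filter
open scoped ENNReal Topology Classical
open Crest.AnalysisR.Kinetic Crest.Agent.R122.Kin796 Crest.Agent.R122.Disc416
  Crest.Agent.R122.Kin416 Crest.Agent.R122.Tree674
  Crest.Agent.R122.Hid424 Crest.Agent.R122.Quench815 Crest.Agent.R122.QDens815
  Crest.Agent.R122.GC311 Crest.Agent.R122.EDefs602 Crest.Agent.R122.OneC285
  Crest.Agent.R122.OneC423 Crest.Agent.R122.Q1815 Crest.Agent.R122.Master566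

noncomputable section

namespace Crest.Agent.R122.StmtNS692

open CTree

variable {Φ : Space3 → ℝ} {f₀ : PhasePoint → ℝ} {f : ℝ → PhasePoint → ℝ} {β T : ℝ}

/-! ### The contact integral -/

/-- Contact integral at time `s` of the line functional `H` at the root line `ℓ` (time `0`
extension) of a cluster with `j` particles; `E` = line, `μ` = mark. -/
def JJ (γ : ℝ) (ρ : ℝ≥0∞) (K : ℕ) (E : ℝ → Space3 → OCout796.CD → OCout796.Ln) (μ : ℕ → ℕ → ℕ)
    (H : ML → ℝ≥0∞) (s : ℝ) (ℓ : PhasePoint) (j : ℕ) : ℝ≥0∞ :=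
  ∑' n : ℕ, ∫⁻ v : Space3, ENNReal.ofReal ‖v - ℓ.2‖ * ∫⁻ b in impactDisc (v - ℓ.2),
    wG γ v * markW ρ K n *
      (if n + j ≤ K then H (E s (ℓ.1 + s • ℓ.2) (v, ℓ.2, b), μ n j) else 0) ∂μHE[2]

theorem measurable_JJ {E : ℝ → Space3 → OCout796.CD → OCout796.Ln}
    (hE : Measurable fun q : ℝ × (Space3 × OCout796.CD) => E q.1 q.2.1 q.2.2) {Ω : Type*}
    [MeasurableSpace Ω] {H : Ω → ML → ℝ≥0∞} (hH : Measurable (Function.uncurry H))
    {s : Ω → ℝ} (hs : Measurable s) {ℓ : Ω → PhasePoint} (hℓ : Measurable ℓ)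
    (γ : ℝ) (ρ : ℝ≥0∞) (K : ℕ) (μ : ℕ → ℕ → ℕ) (j : ℕ) :
    Measurable fun ω => JJ γ ρ K E μ (H ω) (s ω) (ℓ ω) j := by
  unfold JJ
  refine Measurable.tsum fun n => ?_
  refine Measurable.lintegral_prod_right' (f := fun q : Ω × Space3 =>
    ENNReal.ofReal ‖q.2 - (ℓ q.1).2‖ * ∫⁻ b in impactDisc (q.2 - (ℓ q.1).2),
      wG γ q.2 * markW ρ K n * (if n + j ≤ K then
        H q.1 (E (s q.1) ((ℓ q.1).1 + s q.1 • (ℓ q.1).2) (q.2, (ℓ q.1).2, b), μ n j) else 0)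
          ∂μHE[2]) ?_
  refine OC663.measurable_flux_disc (α := Ω × Space3) (γ := fun q => q.2 - (ℓ q.1).2)
    (measurable_snd.sub (measurable_snd.comp (hℓ.comp measurable_fst)))
    (f := fun q b => wG γ q.2 * markW ρ K n * (if n + j ≤ K then
        H q.1 (E (s q.1) ((ℓ q.1).1 + s q.1 • (ℓ q.1).2) (q.2, (ℓ q.1).2, b), μ n j) else 0)) ?_
  have h1 : Measurable fun q : (Ω × Space3) × Space3 => wG γ q.1.2 * markW ρ K n :=
    ((NS423.measurable_wG' γ).comp (measurable_snd.comp measurable_fst)).mul_const _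
  refine h1.mul ?_
  by_cases hn : n + j ≤ K
  · simp only [if_pos hn]
    have hℓ' : Measurable fun q : (Ω × Space3) × Space3 => ℓ q.1.1 :=
      hℓ.comp (measurable_fst.comp measurable_fst)
    have hs' : Measurable fun q : (Ω × Space3) × Space3 => s q.1.1 :=
      hs.comp (measurable_fst.comp measurable_fst)
    have hd : Measurable fun q : (Ω × Space3) × Space3 =>
        ((q.1.2, (ℓ q.1.1).2, q.2) : OCout796.CD) :=
      (measurable_snd.comp measurable_fst).prodMk (hℓ'.snd.prodMk measurable_snd)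
    have h2 : Measurable fun q : (Ω × Space3) × Space3 =>
        E (s q.1.1) ((ℓ q.1.1).1 + s q.1.1 • (ℓ q.1.1).2) (q.1.2, (ℓ q.1.1).2, q.2) :=
      hE.comp (f := fun q : (Ω × Space3) × Space3 => ((s q.1.1,
        ((ℓ q.1.1).1 + s q.1.1 • (ℓ q.1.1).2, (q.1.2, (ℓ q.1.1).2, q.2))) :
          ℝ × (Space3 × OCout796.CD)))
        (hs'.prodMk ((hℓ'.fst.add (hs'.smul hℓ'.snd)).prodMk hd))
    exact hH.comp (f := fun q : (Ω × Space3) × Space3 => ((q.1.1,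
      (E (s q.1.1) ((ℓ q.1.1).1 + s q.1.1 • (ℓ q.1.1).2) (q.1.2, (ℓ q.1.1).2, q.2), μ n j)) :
        Ω × ML)) ((measurable_fst.comp measurable_fst).prodMk (h2.prodMk measurable_const))
  · simp only [if_neg hn]
    exact measurable_const

theorem JJ_of_lt {γ : ℝ} {ρ : ℝ≥0∞} {K : ℕ} {E : ℝ → Space3 → OCout796.CD → OCout796.Ln}
    {μ : ℕ → ℕ → ℕ} {H : ML → ℝ≥0∞} {s : ℝ} {ℓ : PhasePoint} {j : ℕ} (hj : K < j) :
    JJ γ ρ K E μ H s ℓ j = 0 := by
  unfold JJ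
  have : ∀ n : ℕ, ¬ n + j ≤ K := fun n h => absurd hj (not_lt.2 (le_of_add_le_right h))
  simp [this]

/-- constant of the bound of `JJ` -/
def cJ (g0 : ℝ) (ρ : ℝ≥0∞) : ℝ≥0∞ := (1 - ρ)⁻¹ * (ENNReal.ofReal Real.pi * XC815.cV g0) + 1

theorem cJ_ne_top {g0 : ℝ} (hg0 : 0 < g0) {ρ : ℝ≥0∞} (hρ : ρ < 1) : cJ g0 ρ ≠ ∞ := by
  unfold cJ
  refine ENNReal.add_ne_top.2 ⟨ENNReal.mul_ne_top ?_ (ENNReal.mul_ne_top ENNReal.ofReal_ne_top
    (XC815.cV_ne_top hg0)), ENNReal.one_ne_top⟩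
  rw [Ne, ENNReal.inv_eq_top, tsub_eq_zero_iff_le]
  exact not_le.2 hρ

theorem cJ_ne_zero (g0 : ℝ) (ρ : ℝ≥0∞) : cJ g0 ρ ≠ 0 := by
  unfold cJ
  simp

theorem JJ_le {γ g0 : ℝ} (hg : g0 ≤ γ) (ρ : ℝ≥0∞) (K : ℕ)
    (E : ℝ → Space3 → OCout796.CD → OCout796.Ln) (μ : ℕ → ℕ → ℕ) {H : ML → ℝ≥0∞}
    (hH : ∀ l, H l ≤ 1) (s : ℝ) (ℓ : PhasePoint) (j : ℕ) :
    JJ γ ρ K E μ H s ℓ j ≤ cJ g0 ρ * ENNReal.ofReal (1 + ‖ℓ.2‖) := by
  have h1 : ∀ n : ℕ, ∫⁻ v : Space3, ENNReal.ofReal ‖v - ℓ.2‖ * ∫⁻ b in impactDisc (v - ℓ.2),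
      wG γ v * markW ρ K n *
        (if n + j ≤ K then H (E s (ℓ.1 + s • ℓ.2) (v, ℓ.2, b), μ n j) else 0) ∂μHE[2] ≤
      ρ ^ n * (ENNReal.ofReal Real.pi * XC815.cV g0 * ENNReal.ofReal (1 + ‖ℓ.2‖)) := by
    intro n
    have h2 : ∀ v : Space3, ENNReal.ofReal ‖v - ℓ.2‖ * ∫⁻ b in impactDisc (v - ℓ.2),
        wG γ v * markW ρ K n *
          (if n + j ≤ K then H (E s (ℓ.1 + s • ℓ.2) (v, ℓ.2, b), μ n j) else 0) ∂μHE[2] ≤
        (ρ ^ n * (ENNReal.ofReal Real.pi * ENNReal.ofReal (1 + ‖ℓ.2‖))) *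
          (wG g0 v * ENNReal.ofReal (1 + ‖v‖)) := by
      intro v
      by_cases hvu : v - ℓ.2 = 0
      · rw [hvu, norm_zero, ENNReal.ofReal_zero, zero_mul]
        exact bot_le
      · have h3 : ∫⁻ b in impactDisc (v - ℓ.2), wG γ v * markW ρ K n *
            (if n + j ≤ K then H (E s (ℓ.1 + s • ℓ.2) (v, ℓ.2, b), μ n j) else 0) ∂μHE[2] ≤
            wG g0 v * ρ ^ n * ENNReal.ofReal Real.pi := by
          refine (lintegral_mono (g := fun _ => wG g0 v * ρ ^ n) fun b => ?_).trans ?_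
          · calc wG γ v * markW ρ K n *
                  (if n + j ≤ K then H (E s (ℓ.1 + s • ℓ.2) (v, ℓ.2, b), μ n j) else 0)
                ≤ wG g0 v * ρ ^ n * 1 := by
                  refine mul_le_mul' (mul_le_mul' (Kin796.wG_anti hg v)
                    (EBasic602.markW_le K n)) ?_
                  split_ifs
                  · exact hH _
                  · exact zero_le
              _ = _ := mul_one _
          · rw [lintegral_const, Measure.restrict_apply_univ, measure_impactDisc hvu]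
        calc ENNReal.ofReal ‖v - ℓ.2‖ * ∫⁻ b in impactDisc (v - ℓ.2), wG γ v * markW ρ K n *
              (if n + j ≤ K then H (E s (ℓ.1 + s • ℓ.2) (v, ℓ.2, b), μ n j) else 0) ∂μHE[2]
            ≤ (ENNReal.ofReal (1 + ‖v‖) * ENNReal.ofReal (1 + ‖ℓ.2‖)) *
              (wG g0 v * ρ ^ n * ENNReal.ofReal Real.pi) :=
              mul_le_mul' (XC815.norm_sub_le_mul v ℓ.2) h3
          _ = _ := by ring
    refine (lintegral_mono h2).trans (le_of_eq ?_)
    have hm : Measurable fun v : Space3 => wG g0 v * ENNReal.ofReal (1 + ‖v‖) := by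
      unfold wG
      fun_prop
    rw [lintegral_const_mul _ hm]
    unfold XC815.cV
    ring
  unfold JJ
  refine (ENNReal.tsum_le_tsum h1).trans ?_
  rw [ENNReal.tsum_mul_right, ENNReal.tsum_geometric]
  calc (1 - ρ)⁻¹ * (ENNReal.ofReal Real.pi * XC815.cV g0 * ENNReal.ofReal (1 + ‖ℓ.2‖))
      = (1 - ρ)⁻¹ * (ENNReal.ofReal Real.pi * XC815.cV g0) * ENNReal.ofReal (1 + ‖ℓ.2‖) := by ring
    _ ≤ _ := mul_le_mul' le_self_add le_rfl

/-! ### The line integral at a tree -/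

variable {P : CTree}

/-- the integrand over the test line -/
def hL (γ : ℝ → ℝ) (ρ : ℝ≥0∞) (K : ℕ) (E : ℝ → Space3 → OCout796.CD → OCout796.Ln)
    (μ : ℕ → ℕ → ℕ) (ε : ℝ) (P : CTree) (z : PhasePoint × Par P) (H : ML → ℝ≥0∞) (l : ML) : ℝ≥0∞ :=
  lineD γ ρ K l * (smI K P l * H (E (cT ε z l) (cX ε z l) (cD ε z l), μ l.2 P.leaves))

theorem measurable_hL {γ : ℝ → ℝ} (hγ : Measurable γ) (ρ : ℝ≥0∞) (K : ℕ)
    {E : ℝ → Space3 → OCout796.CD → OCout796.Ln}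
    (hE : Measurable fun q : ℝ × (Space3 × OCout796.CD) => E q.1 q.2.1 q.2.2) (μ : ℕ → ℕ → ℕ)
    (ε : ℝ) (z : PhasePoint × Par P) {H : ML → ℝ≥0∞} (hH : Measurable H) :
    Measurable (hL γ ρ K E μ ε P z H) := by
  have hz : Measurable fun l : ML => ((z, l) : (PhasePoint × Par P) × ML) := measurable_prodMk_left
  have h1 : Measurable fun l : ML => ((cT ε z l, (cX ε z l, cD ε z l)) :
      ℝ × (Space3 × OCout796.CD)) :=
    ((Nu0566.measurable_cT ε P).comp hz).prodMk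
      (((Nu0566.measurable_cX ε P).comp hz).prodMk ((Nu0566.measurable_cD ε P).comp hz))
  have h2 : Measurable fun l : ML => E (cT ε z l) (cX ε z l) (cD ε z l) := hE.comp h1
  have h3 : Measurable fun l : ML => μ l.2 P.leaves :=
    (measurable_from_top (f := fun n : ℕ => μ n P.leaves)).comp measurable_snd
  have h4 : Measurable fun l : ML => smI K P l := by
    unfold smI
    exact (measurable_from_top (f := fun n : ℕ => if n + P.leaves ≤ K then (1 : ℝ≥0∞) else 0)).comp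
      measurable_snd
  unfold hL
  exact (EBasic602.measurable_lineD hγ).mul (h4.mul (hH.comp (h2.prodMk h3)))

theorem lintegral_hL (hΦ : AdmissiblePotential Φ) {ε : ℝ} (hε : 0 < ε) {γ : ℝ → ℝ}
    (hγ : Measurable γ) (ρ : ℝ≥0∞) (K : ℕ)
    {E : ℝ → Space3 → OCout796.CD → OCout796.Ln}
    (hE : Measurable fun q : ℝ × (Space3 × OCout796.CD) => E q.1 q.2.1 q.2.2) (μ : ℕ → ℕ → ℕ)
    (z : PhasePoint × Par P) {H : ML → ℝ≥0∞} (hH : Measurable H) (te τ : ℝ) :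
    ∫⁻ l, {l : ML | (z, l.1) ∈ ctSet Φ ε te P}.indicator (hL γ ρ K E μ ε P z H) l
        ∂(baseM (Measure.dirac τ)) =
      ENNReal.ofReal (ε ^ 2) * ∫⁻ s in Ioc τ te, {s | s ≤ te ∧ Valid Φ ε P s z.1.2 z.2}.indicator
        (fun s => JJ (γ τ) ρ K E μ H s z.1 P.leaves) s := by
  rw [lintegral_ct hΦ hε z (Measure.dirac τ) (measurable_hL hγ ρ K hE μ ε z hH), lintegral_dirac]
  congr 1
  have e : ∀ s : ℝ, ctInt ε s z.1 τ (hL γ ρ K E μ ε P z H) =
      JJ (γ τ) ρ K E μ H s z.1 P.leaves := by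
    intro s
    unfold ctInt JJ
    refine tsum_congr fun n => lintegral_congr fun v => ?_
    by_cases hv : v - z.1.2 = 0
    · rw [hv, norm_zero, ENNReal.ofReal_zero, zero_mul, zero_mul]
    · congr 1
      refine setLIntegral_congr_fun (measurableSet_impactDisc _) fun b hb => ?_
      have e1 := Nu0566.cT_lineAt hε z s τ n hb hv
      have e2 := Nu0566.cX_lineAt hε z s τ n hb hv
      have e3 := Nu0566.cD_lineAt hε z s τ n hb hv
      show lineD γ ρ K (lineAt ε s z.1 τ v b n) * (smI K P (lineAt ε s z.1 τ v b n) *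
        H (E (cT ε z (lineAt ε s z.1 τ v b n)) (cX ε z (lineAt ε s z.1 τ v b n))
          (cD ε z (lineAt ε s z.1 τ v b n)), μ (lineAt ε s z.1 τ v b n).2 P.leaves)) = _
      rw [e1, e2, e3]
      have e4 : lineD γ ρ K (lineAt ε s z.1 τ v b n) = wG (γ τ) v * markW ρ K n := rfl
      have e5 : (lineAt ε s z.1 τ v b n).2 = n := rfl
      rw [e4, e5]
      unfold smI
      rw [e5]
      by_cases hn : n + P.leaves ≤ K
      · rw [if_pos hn, if_pos hn, one_mul]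
      · rw [if_neg hn, if_neg hn, zero_mul]
  simp only [e]

/-! ### The structure integral -/

/-- the test function of the quenched densities -/
def tJ (γ : ℝ) (ρ : ℝ≥0∞) (K : ℕ) (E : ℝ → Space3 → OCout796.CD → OCout796.Ln) (μ : ℕ → ℕ → ℕ)
    (τ : ℝ) (H : ML → ℝ≥0∞) (y : ℝ × PhasePoint) (j : ℕ) : ℝ≥0∞ :=
  if τ < y.1 then JJ γ ρ K E μ H y.1 y.2 j else 0

theorem measurable_tJ {E : ℝ → Space3 → OCout796.CD → OCout796.Ln}
    (hE : Measurable fun q : ℝ × (Space3 × OCout796.CD) => E q.1 q.2.1 q.2.2) {Ω : Type*}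
    [MeasurableSpace Ω] {H : Ω → ML → ℝ≥0∞} (hH : Measurable (Function.uncurry H))
    {y : Ω → ℝ × PhasePoint} (hy : Measurable y)
    (γ : ℝ) (ρ : ℝ≥0∞) (K : ℕ) (μ : ℕ → ℕ → ℕ) (τ : ℝ) (j : ℕ) :
    Measurable fun ω => tJ γ ρ K E μ τ (H ω) (y ω) j := by
  unfold tJ
  exact Measurable.ite (measurableSet_lt measurable_const hy.fst)
    (measurable_JJ hE hH hy.fst hy.snd γ ρ K μ j) measurable_const

theorem tJ_le {γ g0 : ℝ} (hg : g0 ≤ γ) (ρ : ℝ≥0∞) (K : ℕ)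
    (E : ℝ → Space3 → OCout796.CD → OCout796.Ln) (μ : ℕ → ℕ → ℕ) (τ : ℝ) {H : ML → ℝ≥0∞}
    (hH : ∀ l, H l ≤ 1) (y : ℝ × PhasePoint) (j : ℕ) :
    tJ γ ρ K E μ τ H y j ≤ cJ g0 ρ * ENNReal.ofReal (1 + ‖y.2.2‖) := by
  unfold tJ
  split_ifs
  · exact JJ_le hg ρ K E μ hH y.1 y.2 j
  · exact zero_le

/-- joint measurability of the weighted avoidance, in the time, too -/
theorem measurable_gwM (hΦ : AdmissiblePotential Φ) (hf : Measurable f₀)
    {φ : ℝ × PhasePoint × Par P → ℝ≥0∞} (hφ : Measurable φ) {ε : ℝ} (hε : 0 < ε) (tw : ℝ)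
    (n : ℕ) : Measurable fun q : (Config n × (PhasePoint × Par P)) × ℝ =>
      gw Φ f₀ P φ ε q.2 q.1.2.1 q.1.2.2 *
        GIV566.unhitInd Φ ε (hidM Φ ε P q.1.2.1 q.1.2.2) tw q.1.1 := by
  refine ((measurable_gw hΦ hf hφ ε).comp
    (f := fun q : (Config n × (PhasePoint × Par P)) × ℝ =>
      ((q.2, q.1.2.1), q.1.2.2)) (by fun_prop)).mul ?_
  have h := measurable_unhit_hidM hΦ hε P (tw := tw) (W := PhasePoint × Par P)
      (ℓ := fun z => z.1) measurable_fst (p := fun z => z.2) measurable_snd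
  exact h.comp (f := fun q : (Config n × (PhasePoint × Par P)) × ℝ =>
    ((⟨n, q.1.1⟩ : Σ n : ℕ, Config n), q.1.2))
    (((measurable_sigmaMk' n).comp measurable_fst.fst).prodMk measurable_fst.snd)

theorem gw_hidM {φ : ℝ × PhasePoint × Par P → ℝ≥0∞} {ε s tw : ℝ} {z : PhasePoint × Par P} {n : ℕ}
    {w : Config n} : gw Φ f₀ P φ ε s z.1 z.2 * GIV566.unhitInd Φ ε (hid Φ ε P z.1 z.2) tw w =
      gw Φ f₀ P φ ε s z.1 z.2 * GIV566.unhitInd Φ ε (hidM Φ ε P z.1 z.2) tw w := by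
  by_cases hV : Valid Φ ε P s z.1.2 z.2
  · rw [hidM_of_adm (ℓ := z.1) hV.1]
  · rw [gw_of_not_valid hV, zero_mul, zero_mul]

/-- expansion over the tree parameters, `gcE` inside -/
theorem gcE_Dw_mul (hΦ : AdmissiblePotential Φ) (hf : Measurable f₀)
    {φ : ℝ × PhasePoint × Par P → ℝ≥0∞} (hφ : Measurable φ) {ε : ℝ} (hε : 0 < ε) (tw : ℝ)
    (κ : Measure ℝ) [SFinite κ] {θ : (n : ℕ) → Config n → ℝ × PhasePoint → ℝ≥0∞}
    (hθ : ∀ n, Measurable fun q : Config n × (ℝ × PhasePoint) => θ n q.1 q.2) :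
    gcE f₀ ε (fun n w => ∫⁻ y : ℝ × PhasePoint, Dw Φ f₀ P φ ε tw y.1 y.2 w * θ n w y
        ∂(κ.prod volume)) =
      ∫⁻ z : PhasePoint × Par P, gcE f₀ ε (fun n w => ∫⁻ s, gw Φ f₀ P φ ε s z.1 z.2 *
        GIV566.unhitInd Φ ε (hidM Φ ε P z.1 z.2) tw w * θ n w (s, z.1) ∂κ) := by
  have hM : ∀ n, Measurable fun q : (Config n × (PhasePoint × Par P)) × ℝ =>
      gw Φ f₀ P φ ε q.2 q.1.2.1 q.1.2.2 *
        GIV566.unhitInd Φ ε (hidM Φ ε P q.1.2.1 q.1.2.2) tw q.1.1 * θ n q.1.1 (q.2, q.1.2.1) :=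
    fun n => (measurable_gwM hΦ hf hφ hε tw n).mul ((hθ n).comp
      (f := fun q : (Config n × (PhasePoint × Par P)) × ℝ => (q.1.1, (q.2, q.1.2.1)))
      (by fun_prop))
  have hM2 : ∀ n, Measurable fun q : Config n × (PhasePoint × Par P) => ∫⁻ s,
      gw Φ f₀ P φ ε s q.2.1 q.2.2 *
        GIV566.unhitInd Φ ε (hidM Φ ε P q.2.1 q.2.2) tw q.1 * θ n q.1 (s, q.2.1) ∂κ :=
    fun n => (hM n).lintegral_prod_right'
  rw [BadHit370.lintegral_gcE hf ε (volume : Measure (PhasePoint × Par P))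
    (F := fun n (z : PhasePoint × Par P) (w : Config n) => ∫⁻ s, gw Φ f₀ P φ ε s z.1 z.2 *
        GIV566.unhitInd Φ ε (hidM Φ ε P z.1 z.2) tw w * θ n w (s, z.1) ∂κ)
    (fun n => (hM2 n).comp measurable_swap)]
  congr 1
  funext n w
  rw [lintegral_Dw_mul hΦ hf hφ hε tw κ w
    (θ := fun y => θ n w y) ((hθ n).comp measurable_prodMk_left)]
  simp only [gw_hidM]
  have hM3 : Measurable fun q : ℝ × (PhasePoint × Par P) => gw Φ f₀ P φ ε q.1 q.2.1 q.2.2 *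
      GIV566.unhitInd Φ ε (hidM Φ ε P q.2.1 q.2.2) tw w * θ n w (q.1, q.2.1) :=
    (hM n).comp (f := fun q : ℝ × (PhasePoint × Par P) => ((w, q.2), q.1)) (by fun_prop)
  exact lintegral_lintegral_swap (f := fun (s : ℝ) (z : PhasePoint × Par P) =>
    gw Φ f₀ P φ ε s z.1 z.2 *
      GIV566.unhitInd Φ ε (hidM Φ ε P z.1 z.2) tw w * θ n w (s, z.1)) hM3.aemeasurable

/-- the structure integral of a line of the contact -/
def osN (Φ : Space3 → ℝ) (f₀ : PhasePoint → ℝ) (ε : ℝ) (K : ℕ) (Q : EPar) (T' τ : ℝ)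
    (E : ℝ → Space3 → OCout796.CD → OCout796.Ln) (μ : ℕ → ℕ → ℕ) (G : LF) : ℝ≥0∞ :=
  OS Φ f₀ ε K Q T' (Measure.dirac τ) (fun P z m w l => smI K P l * (uI Φ ε Q.tw P z w *
    G m w (E (cT ε z l) (cX ε z l) (cD ε z l), μ l.2 P.leaves)))

theorem osN_le (hΦ : AdmissiblePotential Φ) (hf : Measurable f₀) {ε : ℝ} (hε : 0 < ε) (K : ℕ)
    {Q : EPar} (hγ : Measurable Q.γ) {τ : ℝ} (hτ : 0 < τ) (T' : ℝ)
    {E : ℝ → Space3 → OCout796.CD → OCout796.Ln}
    (hE : Measurable fun q : ℝ × (Space3 × OCout796.CD) => E q.1 q.2.1 q.2.2) (μ : ℕ → ℕ → ℕ)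
    {G : LF} (hG : MeasLF G) :
    osN Φ f₀ ε K Q T' τ E μ G ≤ gcE f₀ ε (fun m w => ∑ P ∈ GIVStep383.trees K,
      ∫⁻ y : ℝ × PhasePoint, Dw Φ f₀ P (fun _ => 1) ε Q.tw y.1 y.2 w *
        tJ (Q.γ τ) Q.ρ K E μ τ (G m w) y P.leaves
          ∂((volume.restrict (Ioc 0 Q.te)).prod volume)) := by
  set κ : Measure ℝ := volume.restrict (Ioc 0 Q.te) with hκ
  have hθ : ∀ (j n : ℕ), Measurable fun q : Config n × (ℝ × PhasePoint) =>
      tJ (Q.γ τ) Q.ρ K E μ τ (G n q.1) q.2 j := fun j n =>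
    measurable_tJ hE (Ω := Config n × (ℝ × PhasePoint)) (H := fun q => G n q.1)
      ((hG n).comp (f := fun q : (Config n × (ℝ × PhasePoint)) × ML => (q.1.1, q.2))
        (by fun_prop)) measurable_snd (Q.γ τ) Q.ρ K μ τ j
  have hmy : ∀ (P : CTree) (n : ℕ), Measurable fun w : Config n =>
      ∫⁻ y : ℝ × PhasePoint, Dw Φ f₀ P (fun _ => 1) ε Q.tw y.1 y.2 w *
        tJ (Q.γ τ) Q.ρ K E μ τ (G n w) y P.leaves ∂(κ.prod volume) := fun P n =>
    ((measurable_Dw_n hΦ hf measurable_const hε Q.tw n).mul (hθ P.leaves n)).lintegral_prod_right'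
  rw [gcE_finset_sum hf ε (GIVStep383.trees K) (fun P _ n => hmy P n)]
  unfold osN OS
  rw [← ENNReal.tsum_mul_left, tsum_eq_sum (s := GIVStep383.trees K) (fun P hP => ?_)]
  swap
  · have hP' : K < P.leaves := by
      by_contra hh
      exact hP (GIVStep383.mem_trees.2 (not_lt.1 hh))
    have h0 : ∀ l : ML, smI K P l = 0 := by
      intro l
      unfold smI
      rw [if_neg]
      omega
    have h1 : ∀ z : PhasePoint × Par P, gcE f₀ ε (fun m w => ∫⁻ l,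
        {l : ML | (z, l.1) ∈ ctSet Φ ε Q.te P}.indicator (fun l => lineD Q.γ Q.ρ K l *
          (smI K P l * (uI Φ ε Q.tw P z w *
            G m w (E (cT ε z l) (cX ε z l) (cD ε z l), μ l.2 P.leaves)))) l
              ∂(baseM (Measure.dirac τ))) = 0 := by
      intro z
      rw [← gcE_zero f₀ ε]
      congr 1
      funext m w
      have h2 : ∀ l : ML, {l : ML | (z, l.1) ∈ ctSet Φ ε Q.te P}.indicator
          (fun l => lineD Q.γ Q.ρ K l * (smI K P l * (uI Φ ε Q.tw P z w *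
            G m w (E (cT ε z l) (cX ε z l) (cD ε z l), μ l.2 P.leaves)))) l = 0 := by
        intro l
        rw [indicator_apply]
        simp [h0 l]
      simp only [h2, lintegral_zero]
    simp [h1]
  refine Finset.sum_le_sum fun P _ => ?_
  rw [gcE_Dw_mul hΦ hf measurable_const hε Q.tw κ (hθ P.leaves),
    ← lintegral_const_mul' _ _ (show activity ε ≠ ∞ from ENNReal.ofReal_ne_top)]
  refine lintegral_mono fun z => ?_
  by_cases hV : Valid Φ ε P T' z.1.2 z.2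
  swap
  · rw [indicator_of_notMem (show z ∉ {z : PhasePoint × Par P | Valid Φ ε P T' z.1.2 z.2} from hV),
      mul_zero]
    exact bot_le
  rw [indicator_of_mem (show z ∈ {z : PhasePoint × Par P | Valid Φ ε P T' z.1.2 z.2} from hV)]
  set c : ℝ≥0∞ := wt Φ P z.1.2 z.2 * fp Φ f₀ ε P z.1 z.2 with hc
  have hct : c ≠ ∞ := ENNReal.mul_ne_top wt_ne_top' (fp_ne_top ε P z.1 z.2)
  have hin : ∀ (m : ℕ) (w : Config m), ∫⁻ l,
      {l : ML | (z, l.1) ∈ ctSet Φ ε Q.te P}.indicator (fun l => lineD Q.γ Q.ρ K l *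
        (smI K P l * (uI Φ ε Q.tw P z w *
          G m w (E (cT ε z l) (cX ε z l) (cD ε z l), μ l.2 P.leaves)))) l
            ∂(baseM (Measure.dirac τ)) =
      ENNReal.ofReal (ε ^ 2) * (uI Φ ε Q.tw P z w * ∫⁻ s in Ioc τ Q.te,
        {s | s ≤ Q.te ∧ Valid Φ ε P s z.1.2 z.2}.indicator
          (fun s => JJ (Q.γ τ) Q.ρ K E μ (G m w) s z.1 P.leaves) s) := by
    intro m w
    have hu : uI Φ ε Q.tw P z w ≠ ∞ := by
      unfold uI GIV566.unhitInd
      split_ifs <;> simp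
    have hGm : Measurable (G m w) := (hG m).comp measurable_prodMk_left
    have e1 : ∀ l : ML, {l : ML | (z, l.1) ∈ ctSet Φ ε Q.te P}.indicator
        (fun l => lineD Q.γ Q.ρ K l * (smI K P l * (uI Φ ε Q.tw P z w *
          G m w (E (cT ε z l) (cX ε z l) (cD ε z l), μ l.2 P.leaves)))) l =
        uI Φ ε Q.tw P z w * {l : ML | (z, l.1) ∈ ctSet Φ ε Q.te P}.indicator
          (hL Q.γ Q.ρ K E μ ε P z (G m w)) l := by
      intro l
      by_cases hl : l ∈ {l : ML | (z, l.1) ∈ ctSet Φ ε Q.te P}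
      · rw [indicator_of_mem hl, indicator_of_mem hl]
        unfold hL
        ring
      · rw [indicator_of_notMem hl, indicator_of_notMem hl, mul_zero]
    simp only [e1]
    rw [lintegral_const_mul' _ _ hu, lintegral_hL hΦ hε hγ Q.ρ K hE μ z hGm Q.te τ]
    ring
  simp only [hin]
  rw [gcE_const_mul f₀ ε ENNReal.ofReal_ne_top]
  have hact : activity ε * ENNReal.ofReal (ε ^ 2) = 1 := by
    unfold activity
    rw [← ENNReal.ofReal_mul (by positivity), inv_mul_cancel₀ (by positivity),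
      ENNReal.ofReal_one]
  have hpf : ToTree335.pf Φ f₀ ε P z = fp Φ f₀ ε P z.1 z.2 := rfl
  calc activity ε * (wt Φ P z.1.2 z.2 * (ToTree335.pf Φ f₀ ε P z * (ENNReal.ofReal (ε ^ 2) *
        gcE f₀ ε (fun m w => uI Φ ε Q.tw P z w * ∫⁻ s in Ioc τ Q.te,
          {s | s ≤ Q.te ∧ Valid Φ ε P s z.1.2 z.2}.indicator
            (fun s => JJ (Q.γ τ) Q.ρ K E μ (G m w) s z.1 P.leaves) s))))
      = (activity ε * ENNReal.ofReal (ε ^ 2)) * (c *
        gcE f₀ ε (fun m w => uI Φ ε Q.tw P z w * ∫⁻ s in Ioc τ Q.te,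
          {s | s ≤ Q.te ∧ Valid Φ ε P s z.1.2 z.2}.indicator
            (fun s => JJ (Q.γ τ) Q.ρ K E μ (G m w) s z.1 P.leaves) s)) := by
        rw [hpf, hc]; ring
    _ = gcE f₀ ε (fun m w => c * (uI Φ ε Q.tw P z w * ∫⁻ s in Ioc τ Q.te,
          {s | s ≤ Q.te ∧ Valid Φ ε P s z.1.2 z.2}.indicator
            (fun s => JJ (Q.γ τ) Q.ρ K E μ (G m w) s z.1 P.leaves) s)) := by
        rw [hact, one_mul, gcE_const_mul f₀ ε hct]
    _ ≤ _ := by
        refine gcE_mono f₀ ε fun m w _ => ?_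
        have hu : uI Φ ε Q.tw P z w ≠ ∞ := by
          unfold uI GIV566.unhitInd
          split_ifs <;> simp
        rw [← mul_assoc, ← lintegral_const_mul' _ _ (ENNReal.mul_ne_top hct hu),
          ← lintegral_indicator measurableSet_Ioc, hκ, ← lintegral_indicator measurableSet_Ioc]
        refine lintegral_mono fun s => ?_
        by_cases hs : s ∈ Ioc τ Q.te
        · have hs' : s ∈ Ioc 0 Q.te := ⟨hτ.trans hs.1, hs.2⟩
          rw [indicator_of_mem hs, indicator_of_mem hs']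
          by_cases hVs : Valid Φ ε P s z.1.2 z.2
          · rw [indicator_of_mem (show s ∈ {s | s ≤ Q.te ∧ Valid Φ ε P s z.1.2 z.2} from
              ⟨hs.2, hVs⟩), ← gw_hidM, gw_of_valid hVs]
            unfold tJ
            rw [if_pos hs.1, mul_one]
            refine mul_le_mul' (mul_le_mul' le_rfl ?_) le_rfl
            exact unhitInd_rel_le hε.le hV Q.tw w
          · rw [indicator_of_notMem (show s ∉ {s | s ≤ Q.te ∧ Valid Φ ε P s z.1.2 z.2} from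
              fun h => hVs h.2), mul_zero]
            exact bot_le
        · rw [indicator_of_notMem hs]
          exact bot_le

/-! ### The quenched replacement -/

/-- the error -/
def dN (Φ : Space3 → ℝ) (f₀ : PhasePoint → ℝ) (f : ℝ → PhasePoint → ℝ) (T : ℝ) (Q : EPar) (g0 : ℝ)
    (K : ℕ) (ε : ℝ) : ℝ≥0∞ :=
  cJ g0 Q.ρ * ∑ P ∈ GIVStep383.trees K,
    err Φ f₀ f T P (rootA P) (volume.restrict (Ioc 0 Q.te)) Q.tw ε

theorem rootA_eq (P : CTree) : rootA P = fun q : ℝ × PhasePoint × Par P =>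
    (fun (_ : ℝ) (ℓ : PhasePoint) => ENNReal.ofReal (1 + ‖ℓ.2‖)) q.1 q.2.1 * (fun _ => 1) q := by
  funext q
  simp [rootA]

theorem replace_le {T₀ : ℝ} {Q : EPar} (X : Ctx Φ β T f₀ f T₀ Q.tw) {ε : ℝ} (hε : 0 < ε) (K : ℕ)
    {g0 : ℝ} (hg0 : 0 < g0) {τ : ℝ} (hg : g0 ≤ Q.γ τ) (hρ : Q.ρ < 1)
    {E : ℝ → Space3 → OCout796.CD → OCout796.Ln} (μ : ℕ → ℕ → ℕ)
    {G : LF} (hG1 : ∀ m w l, G m w l ≤ 1) :
    gcE f₀ ε (fun m w => ∑ P ∈ GIVStep383.trees K,
      ∫⁻ y : ℝ × PhasePoint, Dw Φ f₀ P (fun _ => 1) ε Q.tw y.1 y.2 w *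
        tJ (Q.γ τ) Q.ρ K E μ τ (G m w) y P.leaves
          ∂((volume.restrict (Ioc 0 Q.te)).prod volume)) ≤
    gcE f₀ ε (fun m w => ∑ P ∈ GIVStep383.trees K,
      ∫⁻ y : ℝ × PhasePoint, D0 Φ f₀ f T P (fun _ => 1) Q.tw y.1 y.2 *
        tJ (Q.γ τ) Q.ρ K E μ τ (G m w) y P.leaves
          ∂((volume.restrict (Ioc 0 Q.te)).prod volume)) + dN Φ f₀ f T Q g0 K ε := by
  set κ : Measure ℝ := volume.restrict (Ioc 0 Q.te) with hκ
  set c : ℝ≥0∞ := cJ g0 Q.ρ with hc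
  have hct : c ≠ ∞ := cJ_ne_top hg0 hρ
  have hc0 : c ≠ 0 := cJ_ne_zero g0 Q.ρ
  have hf := X.cont.measurable
  -- normalised test function
  set ϑ : (P : CTree) → (n : ℕ) → Config n → ℝ × PhasePoint → ℝ≥0∞ := fun P n w y =>
    tJ (Q.γ τ) Q.ρ K E μ τ (G n w) y P.leaves / (c * ENNReal.ofReal (1 + ‖y.2.2‖)) with hϑ
  have hr0 : ∀ y : ℝ × PhasePoint, ENNReal.ofReal (1 + ‖y.2.2‖) ≠ 0 := fun y => by
    have : 0 < 1 + ‖y.2.2‖ := by positivity
    simpa using this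
  have hr : ∀ y : ℝ × PhasePoint, c * ENNReal.ofReal (1 + ‖y.2.2‖) ≠ 0 := fun y =>
    mul_ne_zero hc0 (hr0 y)
  have hrt : ∀ y : ℝ × PhasePoint, c * ENNReal.ofReal (1 + ‖y.2.2‖) ≠ ∞ := fun y =>
    ENNReal.mul_ne_top hct ENNReal.ofReal_ne_top
  have hϑ1 : ∀ P n w y, ϑ P n w y ≤ 1 := by
    intro P n w y
    rw [hϑ]
    refine ENNReal.div_le_of_le_mul ?_
    rw [one_mul]
    exact tJ_le hg Q.ρ K E μ τ (hG1 n w) y P.leaves
  have key : ∀ (D : ℝ≥0∞) (P : CTree) (n : ℕ) (w : Config n) (y : ℝ × PhasePoint),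
      D * tJ (Q.γ τ) Q.ρ K E μ τ (G n w) y P.leaves =
        c * (ENNReal.ofReal (1 + ‖y.2.2‖) * D * ϑ P n w y) := by
    intro D P n w y
    rw [hϑ]
    have := ENNReal.mul_div_cancel (hr y) (hrt y)
      (b := tJ (Q.γ τ) Q.ρ K E μ τ (G n w) y P.leaves)
    calc D * tJ (Q.γ τ) Q.ρ K E μ τ (G n w) y P.leaves
        = D * ((c * ENNReal.ofReal (1 + ‖y.2.2‖)) *
          (tJ (Q.γ τ) Q.ρ K E μ τ (G n w) y P.leaves / (c * ENNReal.ofReal (1 + ‖y.2.2‖)))) := by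
          rw [this]
      _ = _ := by ring
  have k1 : ∀ (P : CTree) (n : ℕ) (w : Config n) (y : ℝ × PhasePoint),
      Dw Φ f₀ P (fun _ => 1) ε Q.tw y.1 y.2 w * tJ (Q.γ τ) Q.ρ K E μ τ (G n w) y P.leaves =
        c * (Dw Φ f₀ P (rootA P) ε Q.tw y.1 y.2 w * ϑ P n w y) := by
    intro P n w y
    rw [key, rootA_eq P, Dw_mul_left (c := fun (_ : ℝ) (ℓ : PhasePoint) =>
      ENNReal.ofReal (1 + ‖ℓ.2‖)) ENNReal.ofReal_ne_top]
  have k2 : ∀ (P : CTree) (n : ℕ) (w : Config n) (y : ℝ × PhasePoint),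
      D0 Φ f₀ f T P (fun _ => 1) Q.tw y.1 y.2 * tJ (Q.γ τ) Q.ρ K E μ τ (G n w) y P.leaves =
        c * (D0 Φ f₀ f T P (rootA P) Q.tw y.1 y.2 * ϑ P n w y) := by
    intro P n w y
    rw [key, rootA_eq P, D0_mul_left (c := fun (_ : ℝ) (ℓ : PhasePoint) =>
      ENNReal.ofReal (1 + ‖ℓ.2‖)) ENNReal.ofReal_ne_top]
  simp only [k1, k2]
  simp only [lintegral_const_mul' _ _ hct, ← Finset.mul_sum]
  rw [gcE_const_mul f₀ ε hct, gcE_const_mul f₀ ε hct]
  unfold dN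
  rw [← mul_add]
  refine mul_le_mul' le_rfl ?_
  exact gcE_adversary_sum hf ε (κ.prod volume) (GIVStep383.trees K)
    (D := fun P n w y => Dw Φ f₀ P (rootA P) ε Q.tw y.1 y.2 w)
    (fun P _ n => measurable_Dw_n X.hΦ hf (measurable_rootA P) hε Q.tw n)
    (E := fun P y => D0 Φ f₀ f T P (rootA P) Q.tw y.1 y.2)
    (fun P _ => measurable_D0 X.hΦ X.hβ X.hT X.sol X.htw.1 (measurable_rootA P))
    (Θ := fun P n w y => ϑ P n w y) (fun P _ n w y => hϑ1 P n w y)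

/-! ### The main term -/

/-- contact integral at the position `y` and velocity `u` of the root -/
def JP (γ : ℝ) (ρ : ℝ≥0∞) (K : ℕ) (E : ℝ → Space3 → OCout796.CD → OCout796.Ln) (μ : ℕ → ℕ → ℕ)
    (H : ML → ℝ≥0∞) (j : ℕ) (s : ℝ) (z : PhasePoint) : ℝ≥0∞ :=
  ∑' n : ℕ, ∫⁻ v : Space3, ENNReal.ofReal ‖v - z.2‖ * ∫⁻ b in impactDisc (v - z.2),
    wG γ v * markW ρ K n *
      (if n + j ≤ K then H (E s z.1 (v, z.2, b), μ n j) else 0) ∂μHE[2]

theorem JJ_eq_JP (γ : ℝ) (ρ : ℝ≥0∞) (K : ℕ) (E : ℝ → Space3 → OCout796.CD → OCout796.Ln)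
    (μ : ℕ → ℕ → ℕ) (H : ML → ℝ≥0∞) (j : ℕ) (s : ℝ) (ℓ : PhasePoint) :
    JJ γ ρ K E μ H s ℓ j = JP γ ρ K E μ H j s (onLine ℓ s) := rfl

/-- inner contact integral of one mark -/
def IN (γ b₀ : ℝ) (E : ℝ → Space3 → OCout796.CD → OCout796.Ln) (F : OCout796.Ln → ℝ≥0∞)
    (q : ℝ × (Space3 × Space3)) : ℝ≥0∞ :=
  ∫⁻ v : Space3, ENNReal.ofReal ‖v - q.2.2‖ * ∫⁻ b in impactDisc (v - q.2.2),
    (gau γ v * gau b₀ q.2.2) * F (E q.1 q.2.1 (v, q.2.2, b)) ∂μHE[2]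

theorem measurable_IN {E : ℝ → Space3 → OCout796.CD → OCout796.Ln}
    (hE : Measurable fun q : ℝ × (Space3 × OCout796.CD) => E q.1 q.2.1 q.2.2)
    {F : OCout796.Ln → ℝ≥0∞} (hF : Measurable F) (γ b₀ : ℝ) : Measurable (IN γ b₀ E F) := by
  unfold IN
  refine Measurable.lintegral_prod_right' (f := fun q : (ℝ × (Space3 × Space3)) × Space3 =>
    ENNReal.ofReal ‖q.2 - q.1.2.2‖ * ∫⁻ b in impactDisc (q.2 - q.1.2.2),
      (gau γ q.2 * gau b₀ q.1.2.2) * F (E q.1.1 q.1.2.1 (q.2, q.1.2.2, b)) ∂μHE[2]) ?_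
  refine OC663.measurable_flux_disc (α := (ℝ × (Space3 × Space3)) × Space3)
    (γ := fun q => q.2 - q.1.2.2) (by fun_prop)
    (f := fun q b => (gau γ q.2 * gau b₀ q.1.2.2) * F (E q.1.1 q.1.2.1 (q.2, q.1.2.2, b))) ?_
  have h1 : Measurable fun q : ((ℝ × (Space3 × Space3)) × Space3) × Space3 =>
      gau γ q.1.2 * gau b₀ q.1.1.2.2 :=
    ((measurable_gau γ).comp (by fun_prop : Measurable fun q :
      ((ℝ × (Space3 × Space3)) × Space3) × Space3 => q.1.2)).mul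
    ((measurable_gau b₀).comp (by fun_prop : Measurable fun q :
      ((ℝ × (Space3 × Space3)) × Space3) × Space3 => q.1.1.2.2))
  exact h1.mul (hF.comp (hE.comp (f := fun q : ((ℝ × (Space3 × Space3)) × Space3) × Space3 =>
    ((q.1.1.1, (q.1.1.2.1, (q.1.2, q.1.1.2.2, q.2))) : ℝ × (Space3 × OCout796.CD)))
    (by fun_prop)))

theorem ocInt_eq_IN {E : ℝ → Space3 → OCout796.CD → OCout796.Ln}
    (F : OCout796.Ln → ℝ≥0∞) (γ b₀ τ te : ℝ) :
    OCout796.ocInt γ b₀ τ te (fun s y q => F (E s y q)) =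
      ∫⁻ s in Ioc τ te, ∫⁻ y : Space3, ∫⁻ u : Space3, IN γ b₀ E F (s, (y, u)) := rfl

theorem gau_ne_top (b : ℝ) (v : Space3) : gau b v ≠ ∞ := by
  unfold gau
  exact ENNReal.ofReal_ne_top

theorem markW_ne_top {ρ : ℝ≥0∞} (hρ : ρ < 1) (K n : ℕ) : markW ρ K n ≠ ∞ := by
  unfold markW
  split_ifs
  · exact ENNReal.pow_ne_top (hρ.trans ENNReal.one_lt_top).ne
  · exact ENNReal.zero_ne_top

theorem wG_mul_JP {γ b₀ : ℝ} {ρ : ℝ≥0∞} (hρ : ρ < 1) (K : ℕ)
    (E : ℝ → Space3 → OCout796.CD → OCout796.Ln) (μ : ℕ → ℕ → ℕ) (H : ML → ℝ≥0∞) (j : ℕ) (s : ℝ)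
    (z : PhasePoint) : wG b₀ z.2 * JP γ ρ K E μ H j s z =
      ∑' n : ℕ, markW ρ K n * (if n + j ≤ K then
        IN γ b₀ E (fun e => H (e, μ n j)) (s, (z.1, z.2)) else 0) := by
  unfold JP
  rw [← ENNReal.tsum_mul_left]
  refine tsum_congr fun n => ?_
  have h1 : wG b₀ z.2 ≠ ∞ := by
    rw [NS423.wG_eq_gau]
    exact gau_ne_top _ _
  have h2 := markW_ne_top hρ K n
  rw [← lintegral_const_mul' _ _ h1]
  by_cases hn : n + j ≤ K
  · simp only [if_pos hn]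
    unfold IN
    rw [← lintegral_const_mul' _ _ h2]
    refine lintegral_congr fun v => ?_
    rw [mul_left_comm, ← lintegral_const_mul' _ _ h1, mul_left_comm (markW ρ K n),
      ← lintegral_const_mul' _ _ h2]
    congr 1
    refine lintegral_congr fun b => ?_
    rw [NS423.wG_eq_gau, NS423.wG_eq_gau]
    ring
  · simp only [if_neg hn]
    simp

/-- the integral of one mark of the cluster -/
theorem lintegral_tJ {γ b₀ : ℝ} {ρ : ℝ≥0∞} (hρ : ρ < 1) (K : ℕ)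
    {E : ℝ → Space3 → OCout796.CD → OCout796.Ln}
    (hE : Measurable fun q : ℝ × (Space3 × OCout796.CD) => E q.1 q.2.1 q.2.2) (μ : ℕ → ℕ → ℕ)
    {H : ML → ℝ≥0∞} (hH : Measurable H) {τ : ℝ} (hτ : 0 < τ) (te : ℝ) (j : ℕ) :
    ∫⁻ y : ℝ × PhasePoint, wG b₀ y.2.2 * tJ γ ρ K E μ τ H y j
        ∂((volume.restrict (Ioc 0 te)).prod volume) =
      ∑' n : ℕ, markW ρ K n * (if n + j ≤ K then
        OCout796.ocInt γ b₀ τ te (fun s y q => H (E s y q, μ n j)) else 0) := by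
  have hHc : ∀ n : ℕ, Measurable fun e : OCout796.Ln => H (e, μ n j) := fun n =>
    hH.comp (measurable_id.prodMk measurable_const)
  have hIN : ∀ n : ℕ, Measurable (IN γ b₀ E fun e => H (e, μ n j)) := fun n =>
    measurable_IN hE (hHc n) γ b₀
  have hmt : Measurable fun y : ℝ × PhasePoint => wG b₀ y.2.2 * tJ γ ρ K E μ τ H y j :=
    ((NS423.measurable_wG' b₀).comp measurable_snd.snd).mul
      (measurable_tJ hE (Ω := ℝ × PhasePoint) (H := fun _ => H)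
        (hH.comp measurable_snd) measurable_id γ ρ K μ τ j)
  rw [lintegral_prod _ hmt.aemeasurable]
  -- inner integral
  have hin : ∀ s : ℝ, ∫⁻ ℓ : PhasePoint, wG b₀ ℓ.2 * JJ γ ρ K E μ H s ℓ j =
      ∑' n : ℕ, markW ρ K n * (if n + j ≤ K then
        ∫⁻ y : Space3, ∫⁻ u : Space3, IN γ b₀ E (fun e => H (e, μ n j)) (s, (y, u)) else 0) := by
    intro s
    have hs : ∀ n : ℕ, Measurable fun z : PhasePoint =>
        IN γ b₀ E (fun e => H (e, μ n j)) (s, (z.1, z.2)) := fun n =>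
      (hIN n).comp (f := fun z : PhasePoint => (s, (z.1, z.2))) (by fun_prop)
    have hGm : Measurable fun z : PhasePoint => wG b₀ z.2 * JP γ ρ K E μ H j s z := by
      simp only [wG_mul_JP hρ]
      refine Measurable.tsum fun n => ?_
      by_cases hn : n + j ≤ K
      · simp only [if_pos hn]
        exact (hs n).const_mul _
      · simp only [if_neg hn, mul_zero]
        exact measurable_const
    have e1 : ∀ ℓ : PhasePoint, wG b₀ ℓ.2 * JJ γ ρ K E μ H s ℓ j =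
        (fun z : PhasePoint => wG b₀ z.2 * JP γ ρ K E μ H j s z) (onLine ℓ s) := fun ℓ => rfl
    simp only [e1]
    rw [Q1815.lintegral_onLine s hGm]
    refine (lintegral_congr fun v => lintegral_congr fun x =>
      wG_mul_JP hρ K E μ H j s (x, v)).trans ?_
    have e2 : ∀ v : Space3, ∫⁻ x : Space3, ∑' n : ℕ, markW ρ K n * (if n + j ≤ K then
        IN γ b₀ E (fun e => H (e, μ n j)) (s, (x, v)) else 0) =
        ∑' n : ℕ, markW ρ K n * (if n + j ≤ K then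
        ∫⁻ x : Space3, IN γ b₀ E (fun e => H (e, μ n j)) (s, (x, v)) else 0) := by
      intro v
      have hx : ∀ n : ℕ, Measurable fun x : Space3 =>
          IN γ b₀ E (fun e => H (e, μ n j)) (s, (x, v)) := fun n =>
        (hIN n).comp (f := fun x : Space3 => (s, (x, v))) (by fun_prop)
      rw [lintegral_tsum]
      · refine tsum_congr fun n => ?_
        rw [lintegral_const_mul' _ _ (markW_ne_top hρ K n)]
        by_cases hn : n + j ≤ K
        · simp only [if_pos hn]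
        · simp only [if_neg hn, lintegral_zero]
      · intro n
        refine AEMeasurable.const_mul ?_ _
        by_cases hn : n + j ≤ K
        · simp only [if_pos hn]
          exact (hx n).aemeasurable
        · simp only [if_neg hn]
          exact aemeasurable_const
    refine (lintegral_congr e2).trans ?_
    have hxv : ∀ n : ℕ, Measurable fun v : Space3 =>
        ∫⁻ x : Space3, IN γ b₀ E (fun e => H (e, μ n j)) (s, (x, v)) := fun n =>
      Measurable.lintegral_prod_right' (f := fun q : Space3 × Space3 =>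
        IN γ b₀ E (fun e => H (e, μ n j)) (s, (q.2, q.1)))
        ((hIN n).comp (f := fun q : Space3 × Space3 => (s, (q.2, q.1))) (by fun_prop))
    rw [lintegral_tsum]
    · refine tsum_congr fun n => ?_
      rw [lintegral_const_mul' _ _ (markW_ne_top hρ K n)]
      by_cases hn : n + j ≤ K
      · simp only [if_pos hn]
        congr 1
        exact lintegral_lintegral_swap (f := fun (v x : Space3) =>
          IN γ b₀ E (fun e => H (e, μ n j)) (s, (x, v)))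
          ((hIN n).comp (f := fun q : Space3 × Space3 => (s, (q.2, q.1)))
            (by fun_prop)).aemeasurable
      · simp only [if_neg hn, lintegral_zero]
    · intro n
      refine AEMeasurable.const_mul ?_ _
      by_cases hn : n + j ≤ K
      · simp only [if_pos hn]
        exact (hxv n).aemeasurable
      · simp only [if_neg hn]
        exact aemeasurable_const
  have e3 : ∫⁻ s in Ioc 0 te, ∫⁻ ℓ : PhasePoint, wG b₀ ℓ.2 * tJ γ ρ K E μ τ H (s, ℓ) j =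
      ∫⁻ s in Ioc τ te, ∫⁻ ℓ : PhasePoint, wG b₀ ℓ.2 * JJ γ ρ K E μ H s ℓ j := by
    rw [← lintegral_indicator measurableSet_Ioc, ← lintegral_indicator measurableSet_Ioc]
    refine lintegral_congr fun s => ?_
    by_cases hs : s ∈ Ioc τ te
    · rw [indicator_of_mem hs, indicator_of_mem (show s ∈ Ioc 0 te from ⟨hτ.trans hs.1, hs.2⟩)]
      unfold tJ
      simp only [if_pos hs.1]
    · rw [indicator_of_notMem hs]
      by_cases hs' : s ∈ Ioc 0 te
      · rw [indicator_of_mem hs']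
        have : ¬ τ < s := fun h => hs ⟨h, hs'.2⟩
        unfold tJ
        simp only [if_neg this, mul_zero, lintegral_zero]
      · rw [indicator_of_notMem hs']
  rw [e3]
  simp only [hin]
  have hsm : ∀ n : ℕ, Measurable fun s : ℝ =>
      ∫⁻ y : Space3, ∫⁻ u : Space3, IN γ b₀ E (fun e => H (e, μ n j)) (s, (y, u)) := by
    intro n
    refine Measurable.lintegral_prod_right' (f := fun q : ℝ × Space3 =>
      ∫⁻ u : Space3, IN γ b₀ E (fun e => H (e, μ n j)) (q.1, (q.2, u))) ?_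
    refine Measurable.lintegral_prod_right' (f := fun q : (ℝ × Space3) × Space3 =>
      IN γ b₀ E (fun e => H (e, μ n j)) (q.1.1, (q.1.2, q.2))) ?_
    exact (hIN n).comp (f := fun q : (ℝ × Space3) × Space3 => (q.1.1, (q.1.2, q.2))) (by fun_prop)
  rw [lintegral_tsum]
  · refine tsum_congr fun n => ?_
    rw [lintegral_const_mul' _ _ (markW_ne_top hρ K n)]
    by_cases hn : n + j ≤ K
    · simp only [if_pos hn]
      rfl
    · simp only [if_neg hn, lintegral_zero]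
  · intro n
    refine AEMeasurable.const_mul ?_ _
    by_cases hn : n + j ≤ K
    · simp only [if_pos hn]
      exact (hsm n).aemeasurable
    · simp only [if_neg hn]
      exact aemeasurable_const

theorem main_N {T₀ : ℝ} {Q : EPar} (X : Ctx Φ β T f₀ f T₀ Q.tw) {h₀ kap lam C b : ℝ}
    (hK : Seg814.KinC Φ T f h₀ kap lam C b) (hte : Q.te ≤ Q.tw + h₀) (hρ : Q.ρ < 1) (K : ℕ)
    {E : ℝ → Space3 → OCout796.CD → OCout796.Ln}
    (hE : Measurable fun q : ℝ × (Space3 × OCout796.CD) => E q.1 q.2.1 q.2.2) (μ : ℕ → ℕ → ℕ)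
    {H : ML → ℝ≥0∞} (hH : Measurable H) {τ : ℝ} (hτ : 0 < τ) :
    ∑ P ∈ GIVStep383.trees K, ∫⁻ y : ℝ × PhasePoint,
        D0 Φ f₀ f T P (fun _ => 1) Q.tw y.1 y.2 * tJ (Q.γ τ) Q.ρ K E μ τ H y P.leaves
          ∂((volume.restrict (Ioc 0 Q.te)).prod volume) ≤
      ENNReal.ofReal lam * ENNReal.ofReal C * ∑' n : ℕ, markW Q.ρ K n *
        ∑' k : ℕ, (if 1 ≤ k ∧ n + k ≤ K then ENNReal.ofReal (1 / lam) ^ k *
          OCout796.ocInt (Q.γ τ) b τ Q.te (fun s y q => H (E s y q, μ n k)) else 0) := by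
  have hlam : 1 < lam := hK.2.2.1
  have hlam0 : 0 < lam := by linarith
  have hkap : 0 < kap := hK.2.1
  set κ : Measure ℝ := volume.restrict (Ioc 0 Q.te) with hκ
  set c : ℝ≥0∞ := ENNReal.ofReal lam * ENNReal.ofReal C with hc
  have hct : c ≠ ∞ := ENNReal.mul_ne_top ENNReal.ofReal_ne_top ENNReal.ofReal_ne_top
  have hmt : ∀ j : ℕ, Measurable fun y : ℝ × PhasePoint => tJ (Q.γ τ) Q.ρ K E μ τ H y j :=
    fun j => measurable_tJ hE (Ω := ℝ × PhasePoint) (H := fun _ => H)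
      (hH.comp measurable_snd) measurable_id (Q.γ τ) Q.ρ K μ τ j
  have hm1 : ∀ P ∈ GIVStep383.trees K, AEMeasurable (fun y : ℝ × PhasePoint =>
      D0 Φ f₀ f T P (fun _ => 1) Q.tw y.1 y.2 * tJ (Q.γ τ) Q.ρ K E μ τ H y P.leaves)
        (κ.prod volume) := fun P _ =>
    ((measurable_D0 X.hΦ X.hβ X.hT X.sol X.htw.1 measurable_const).mul
      (hmt P.leaves)).aemeasurable
  rw [← lintegral_finsetSum' _ hm1]
  -- pointwise
  have hpt : ∀ᵐ y : ℝ × PhasePoint ∂(κ.prod volume),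
      ∑ P ∈ GIVStep383.trees K, D0 Φ f₀ f T P (fun _ => 1) Q.tw y.1 y.2 *
        tJ (Q.γ τ) Q.ρ K E μ τ H y P.leaves ≤
      c * ∑' m : ℕ, (if 1 ≤ m ∧ m ≤ K then ENNReal.ofReal (1 / lam) ^ m *
        (wG b y.2.2 * tJ (Q.γ τ) Q.ρ K E μ τ H y m) else 0) := by
    have hk : ∀ᵐ y : ℝ × PhasePoint ∂(κ.prod volume), y.1 ∈ Ioc 0 Q.te :=
      Measure.quasiMeasurePreserving_fst.ae (ae_restrict_mem measurableSet_Ioc)
    filter_upwards [hk] with y hy
    have hs : y.1 ∈ Icc 0 (Q.tw + h₀) := ⟨hy.1.le, hy.2.trans hte⟩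
    refine (sum_trees_le (fun P => D0 Φ f₀ f T P (fun _ => 1) Q.tw y.1 y.2)
      (fun m => tJ (Q.γ τ) Q.ρ K E μ τ H y m)
      (fun m => 1 * ENNReal.ofReal (1 / lam) ^ (m - 1) * (ENNReal.ofReal C * wG b y.2.2))
      fun m _ _ => D0_size_le X.hΦ X.hβ X.hT X.sol hK (φ := fun P _ => 1) ENNReal.one_ne_top
        one_pos hlam.le X.htw hs y.2 (fun P p _ => ?_) m).trans ?_
    · have h1 : (1 : ℝ≥0∞) ≤ ENNReal.ofReal (Real.exp (kap * Seg814.eng Φ P y.2.2 p)) := by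
        rw [← ENNReal.ofReal_one]
        exact ENNReal.ofReal_le_ofReal (Real.one_le_exp (mul_nonneg hkap.le
          (Seg814.eng_nonneg P y.2.2 p)))
      simpa using h1
    · rw [← ENNReal.tsum_mul_left]
      refine ENNReal.tsum_le_tsum fun m => ?_
      by_cases hm : 1 ≤ m ∧ m ≤ K
      · rw [if_pos hm, if_pos hm]
        have a1 := pow_pred_le one_pos hlam0 (le_refl (ENNReal.ofReal (1 / lam))) hm.1
        rw [div_one] at a1
        calc 1 * ENNReal.ofReal (1 / lam) ^ (m - 1) * (ENNReal.ofReal C * wG b y.2.2) *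
              tJ (Q.γ τ) Q.ρ K E μ τ H y m
            ≤ 1 * (ENNReal.ofReal lam * ENNReal.ofReal (1 / lam) ^ m) *
              (ENNReal.ofReal C * wG b y.2.2) * tJ (Q.γ τ) Q.ρ K E μ τ H y m := by gcongr
          _ = _ := by
              rw [hc]
              ring
      · rw [if_neg hm, if_neg hm, mul_zero]
  refine (lintegral_mono_ae hpt).trans ?_
  rw [lintegral_const_mul' _ _ hct]
  refine mul_le_mul' le_rfl ?_
  have hwt : ∀ m : ℕ, Measurable fun y : ℝ × PhasePoint =>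
      wG b y.2.2 * tJ (Q.γ τ) Q.ρ K E μ τ H y m := fun m =>
    ((NS423.measurable_wG' b).comp measurable_snd.snd).mul (hmt m)
  have hpow : ∀ m : ℕ, ENNReal.ofReal (1 / lam) ^ m ≠ ∞ := fun m =>
    ENNReal.pow_ne_top ENNReal.ofReal_ne_top
  rw [lintegral_tsum]
  swap
  · intro m
    by_cases hm : 1 ≤ m ∧ m ≤ K
    · simp only [if_pos hm]
      exact ((hwt m).const_mul _).aemeasurable
    · simp only [if_neg hm]
      exact aemeasurable_const
  have e1 : ∀ m : ℕ, ∫⁻ y : ℝ × PhasePoint, (if 1 ≤ m ∧ m ≤ K then ENNReal.ofReal (1 / lam) ^ m *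
      (wG b y.2.2 * tJ (Q.γ τ) Q.ρ K E μ τ H y m) else 0) ∂(κ.prod volume) =
      ∑' n : ℕ, markW Q.ρ K n * (if 1 ≤ m ∧ n + m ≤ K then ENNReal.ofReal (1 / lam) ^ m *
        OCout796.ocInt (Q.γ τ) b τ Q.te (fun s y q => H (E s y q, μ n m)) else 0) := by
    intro m
    by_cases hm : 1 ≤ m ∧ m ≤ K
    · simp only [if_pos hm]
      rw [lintegral_const_mul' _ _ (hpow m), lintegral_tJ hρ K hE μ hH hτ Q.te m,
        ← ENNReal.tsum_mul_left]
      refine tsum_congr fun n => ?_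
      by_cases hn : n + m ≤ K
      · rw [if_pos hn, if_pos ⟨hm.1, hn⟩]
        ring
      · rw [if_neg hn, if_neg fun h => hn h.2]
        ring
    · simp only [if_neg hm, lintegral_zero]
      symm
      rw [ENNReal.tsum_eq_zero]
      intro n
      rw [if_neg, mul_zero]
      rintro ⟨h1, h2⟩
      exact hm ⟨h1, by omega⟩
  simp only [e1]
  rw [ENNReal.tsum_comm]
  refine le_of_eq (tsum_congr fun n => ?_)
  rw [ENNReal.tsum_mul_left]

/-! ### The target -/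

theorem gcE_nsR (hf : Measurable f₀) (ε : ℝ) (γ τ : ℝ) {ρ : ℝ≥0∞} (K : ℕ)
    {G : LF} (hG : MeasLF G) :
    gcE f₀ ε (fun m w => NS423.nsR γ ρ K (Ioi τ) (G m w)) =
      ∫⁻ s in Ioi τ, ∫⁻ v : Space3, ENNReal.ofReal (1 + ‖v‖) *
        (wG γ v * XG f₀ ε K ρ G s v) := by
  have h1 : ∀ m : ℕ, Measurable fun q : (Config m × ℝ × Space3) × Space3 =>
      ∑' n : ℕ, markW ρ K n * G m q.1.1 ((q.1.2.1, (q.2, q.1.2.2)), n) := fun m =>
    Measurable.tsum fun n => ((hG m).comp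
      (f := fun q : (Config m × ℝ × Space3) × Space3 =>
        ((q.1.1, ((q.1.2.1, (q.2, q.1.2.2)), n)) : Config m × ML)) (by fun_prop)).const_mul _
  have h2 : ∀ m : ℕ, Measurable fun q : Config m × ℝ × Space3 =>
      ∫⁻ y : Space3, ∑' n : ℕ, markW ρ K n * G m q.1 ((q.2.1, (y, q.2.2)), n) := fun m =>
    (h1 m).lintegral_prod_right'
  have hw : Measurable fun v : Space3 => ENNReal.ofReal (1 + ‖v‖) * wG γ v :=
    (by fun_prop : Measurable fun v : Space3 => ENNReal.ofReal (1 + ‖v‖)).mul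
      (NS423.measurable_wG' γ)
  have h3 : ∀ m : ℕ, Measurable fun q : Config m × ℝ × Space3 =>
      ENNReal.ofReal (1 + ‖q.2.2‖) * (wG γ q.2.2 *
        ∫⁻ y : Space3, ∑' n : ℕ, markW ρ K n * G m q.1 ((q.2.1, (y, q.2.2)), n)) := by
    intro m
    have h5 : Measurable fun q : Config m × ℝ × Space3 =>
        (ENNReal.ofReal (1 + ‖q.2.2‖) * wG γ q.2.2) *
        ∫⁻ y : Space3, ∑' n : ℕ, markW ρ K n * G m q.1 ((q.2.1, (y, q.2.2)), n) :=
      (hw.comp (f := fun q : Config m × ℝ × Space3 => q.2.2) (by fun_prop)).mul (h2 m)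
    simpa only [mul_assoc] using h5
  have h4 : ∀ m : ℕ, Measurable fun q : Config m × ℝ => ∫⁻ v : Space3,
      ENNReal.ofReal (1 + ‖v‖) * (wG γ v *
        ∫⁻ y : Space3, ∑' n : ℕ, markW ρ K n * G m q.1 ((q.2, (y, v)), n)) := fun m =>
    Measurable.lintegral_prod_right' (f := fun q : (Config m × ℝ) × Space3 =>
      ENNReal.ofReal (1 + ‖q.2‖) * (wG γ q.2 *
        ∫⁻ y : Space3, ∑' n : ℕ, markW ρ K n * G m q.1.1 ((q.1.2, (y, q.2)), n)))
      ((h3 m).comp (f := fun q : (Config m × ℝ) × Space3 => (q.1.1, q.1.2, q.2)) (by fun_prop))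
  unfold NS423.nsR
  rw [← BadHit370.lintegral_gcE hf ε (volume.restrict (Ioi τ)) (F := fun m (s : ℝ) (w : Config m) =>
    ∫⁻ v : Space3, ENNReal.ofReal (1 + ‖v‖) * (wG γ v *
        ∫⁻ y : Space3, ∑' n : ℕ, markW ρ K n * G m w ((s, (y, v)), n)))
    (fun m => (h4 m).comp measurable_swap)]
  refine lintegral_congr fun s => ?_
  rw [← BadHit370.lintegral_gcE hf ε (volume : Measure Space3)
    (F := fun m (v : Space3) (w : Config m) => ENNReal.ofReal (1 + ‖v‖) * (wG γ v *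
        ∫⁻ y : Space3, ∑' n : ℕ, markW ρ K n * G m w ((s, (y, v)), n)))
    (fun m => (h3 m).comp (f := fun q : Space3 × Config m => (q.2, s, q.1)) (by fun_prop))]
  refine lintegral_congr fun v => ?_
  have hv : wG γ v ≠ ∞ := by
    rw [NS423.wG_eq_gau]
    exact gau_ne_top _ _
  rw [gcE_const_mul f₀ ε ENNReal.ofReal_ne_top, gcE_const_mul f₀ ε hv]
  rfl

/-- constant of `StmtNS` -/
def CNS (lam C g0 : ℝ) (ρ : ℝ≥0∞) : ℝ≥0∞ :=
  ENNReal.ofReal lam * ENNReal.ofReal C * NS423.C1 g0 ρ (ENNReal.ofReal (1 / lam))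

theorem CNS_ne_top {lam C g0 : ℝ} {ρ : ℝ≥0∞} (hg0 : 0 < g0)
    (h : ENNReal.ofReal (1 / lam) < ρ) (h1 : ρ < 1) : CNS lam C g0 ρ ≠ ∞ :=
  ENNReal.mul_ne_top (ENNReal.mul_ne_top ENNReal.ofReal_ne_top ENNReal.ofReal_ne_top)
    (NS423.C1_ne_top hg0 h h1)

/-- one of the three lines of the contact -/
theorem osN_bound {T₀ : ℝ} {Q : EPar} (X : Ctx Φ β T f₀ f T₀ Q.tw) {h₀ kap lam C b : ℝ}
    (hK : Seg814.KinC Φ T f h₀ kap lam C b) (hte : Q.te ≤ Q.tw + h₀) (hγ : Measurable Q.γ)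
    {g0 : ℝ} (hg0 : 0 < g0) (hρ0 : ENNReal.ofReal (1 / lam) < Q.ρ) (hρ : Q.ρ < 1) {ε : ℝ}
    (hε : 0 < ε) (K : ℕ)
    {τ : ℝ} (hτ : 0 < τ) (hg : g0 ≤ Q.γ τ) (T' : ℝ)
    {E : ℝ → Space3 → OCout796.CD → OCout796.Ln}
    (hE : Measurable fun q : ℝ × (Space3 × OCout796.CD) => E q.1 q.2.1 q.2.2) (μ : ℕ → ℕ → ℕ)
    (hNS : ∀ {H : ML → ℝ≥0∞}, Measurable H → ∑' n : ℕ, markW Q.ρ K n *
        ∑' k : ℕ, (if 1 ≤ k ∧ n + k ≤ K then ENNReal.ofReal (1 / lam) ^ k *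
          OCout796.ocInt (Q.γ τ) b τ Q.te (fun s y q => H (E s y q, μ n k)) else 0) ≤
      NS423.C1 g0 Q.ρ (ENNReal.ofReal (1 / lam)) * NS423.nsR (Q.γ τ) Q.ρ K (Ioi τ) H)
    {G : LF} (hG : MeasLF G) (hG1 : ∀ m w l, G m w l ≤ 1) :
    osN Φ f₀ ε K Q T' τ E μ G ≤ CNS lam C g0 Q.ρ * (∫⁻ s in Ioi τ, ∫⁻ v : Space3,
      ENNReal.ofReal (1 + ‖v‖) * (wG (Q.γ τ) v * XG f₀ ε K Q.ρ G s v)) +
        dN Φ f₀ f T Q g0 K ε := by
  have hf := X.cont.measurable
  refine (osN_le X.hΦ hf hε K hγ hτ T' hE μ hG).trans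
    ((replace_le X hε K hg0 hg hρ μ hG1).trans (add_le_add ?_ le_rfl))
  have hct : ENNReal.ofReal lam * ENNReal.ofReal C *
      NS423.C1 g0 Q.ρ (ENNReal.ofReal (1 / lam)) = CNS lam C g0 Q.ρ := rfl
  rw [← gcE_nsR hf ε (Q.γ τ) τ K hG]
  rw [← gcE_const_mul f₀ ε (CNS_ne_top hg0 hρ0 hρ)]
  refine gcE_mono f₀ ε fun m w _ => ?_
  have hGm : Measurable (G m w) := (hG m).comp measurable_prodMk_left
  refine (main_N X hK hte hρ K hE μ hGm hτ).trans ?_
  rw [← hct, mul_assoc (ENNReal.ofReal lam * ENNReal.ofReal C)]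
  exact mul_le_mul' le_rfl (hNS hGm)

/-! ### The error is null -/

theorem wgt_rootA (hΦ : AdmissiblePotential Φ) (hβ : 0 < β) (P : CTree) (T₀ : ℝ) :
    Wgt Φ β P (rootA P) T₀ := by
  obtain ⟨M, hM, hMle⟩ := exists_wtA_le Φ (lam := 2) (by norm_num) hβ
  refine Wgt.of_le (measurable_rootA P) (kap := β) (lam := 2) (by linarith)
    (M := 2 * ENNReal.ofReal M) (ENNReal.mul_ne_top (by norm_num) ENNReal.ofReal_ne_top)
    (fun s ℓ p hA => ?_)
  refine (rootA_le_wtA hΦ hA).trans ((mul_le_mul_right (hMle P s ℓ p) 2).trans (le_of_eq ?_))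
  ring

theorem null_dN {T₀ : ℝ} {Q : EPar} (X : Ctx Φ β T f₀ f T₀ Q.tw) (hte : Q.te ≤ T₀)
    {g0 : ℝ} (hg0 : 0 < g0) (hρ : Q.ρ < 1) : Null fun K ε => dN Φ f₀ f T Q g0 K ε := by
  have hκ : ∀ᵐ s ∂(volume.restrict (Ioc 0 Q.te) : Measure ℝ), s ≤ T₀ :=
    (ae_restrict_mem measurableSet_Ioc).mono fun s hs => hs.2.trans hte
  refine Null.const_mul ?_ (cJ_ne_top hg0 hρ)
  exact Null.finset_sum_K _ fun P => Null.of_tendsto (tendsto_err X hκ (wgt_rootA X.hΦ X.hβ P T₀))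

/-! ### The statement -/

/-- (NS) the successors `c`, `l'`, `c'`: Volterra term (`δ` outside of the integral). -/
def StrongNS (Φ : Space3 → ℝ) (f₀ : PhasePoint → ℝ) (Q : EPar) (T' : ℝ) (C : ℝ≥0∞) : Prop :=
  ∃ δ : ℕ → ℝ → ℝ≥0∞, Null δ ∧ ∀ (K : ℕ) (ε : ℝ), 0 < ε → ∀ G : LF, MeasLF G →
    (∀ m w l, G m w l ≤ 1) → ∀ τ ∈ Ioc 0 Q.te, ∀ k : ∀ P : CTree, Idx P ⊕ Bool,
    ((∀ P, k P = Sum.inl (root P)) ∨ (∀ P, k P = Sum.inr false) ∨ (∀ P, k P = Sum.inr true)) →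
    OS Φ f₀ ε K Q T' (Measure.dirac τ)
      (fun P z m w l => smI K P l * (uI Φ ε Q.tw P z w * G m w (oneLs Φ ε P z l (k P)))) ≤
    C * (∫⁻ s in Ioi τ, ∫⁻ v : Space3, ENNReal.ofReal (1 + ‖v‖) *
      (wG (Q.γ τ) v * XG f₀ ε K Q.ρ G s v)) + δ K ε

/-- **(NS)** of INEQUALITY 1. -/
theorem strongNS (hD : KData Φ β T f₀ f) {Q : EPar} (htw : Q.tw ∈ Icc 0 T)
    (hG : GIV566.GIV Φ f₀ f T Q.tw) {h₀ kap lam C b : ℝ}
    (hK : Seg814.KinC Φ T f h₀ kap lam C b) {T' : ℝ} (hT' : 0 < T') (hte : Q.te ≤ T')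
    (hteh : Q.te ≤ Q.tw + h₀) (hγ : Measurable Q.γ) {g0 : ℝ} (hg0 : 0 < g0)
    (hγ0 : ∀ τ ∈ Ioc (0 : ℝ) Q.te, g0 ≤ Q.γ τ) (hγb : ∀ τ ∈ Ioc (0 : ℝ) Q.te, Q.γ τ ≤ b)
    (hρ0 : ENNReal.ofReal (1 / lam) < Q.ρ) (hρ : Q.ρ < 1) :
    StrongNS Φ f₀ Q T' (CNS lam C g0 Q.ρ) := by
  have hΦ := hD.adm
  have X : Ctx Φ β T f₀ f T' Q.tw := Ctx.of_kdata hD htw hG hT'
  refine ⟨fun K ε => dN Φ f₀ f T Q g0 K ε, null_dN X hte hg0 hρ,
    fun K ε hε G hGm hG1 τ hτ k hk => ?_⟩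
  have hg := hγ0 τ hτ
  have hb := hγb τ hτ
  rcases hk with hk | hk | hk
  · have e : (fun (P : CTree) (z : PhasePoint × Par P) (m : ℕ) (w : Config m) (l : ML) =>
        smI K P l * (uI Φ ε Q.tw P z w * G m w (oneLs Φ ε P z l (k P)))) =
        fun P z m w l => smI K P l * (uI Φ ε Q.tw P z w * G m w
          (OCout796.lineC Φ ε (cT ε z l) (cX ε z l) (cD ε z l), (fun _ j => j) l.2 P.leaves)) := by
      funext P z m w l
      rw [hk P]
      simp only [oneLs, if_true]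
    rw [e]
    exact osN_bound X hK hteh hγ hg0 hρ0 hρ hε K hτ.1 hg T' (E := OCout796.lineC Φ ε)
      (Nu0566.measurable_lineC hΦ ε) (fun _ j => j)
      (fun {H} hH => NS423.ns_lineC hΦ hg0 hg hb hε.le hρ0 K hH) hGm hG1
  · have e : (fun (P : CTree) (z : PhasePoint × Par P) (m : ℕ) (w : Config m) (l : ML) =>
        smI K P l * (uI Φ ε Q.tw P z w * G m w (oneLs Φ ε P z l (k P)))) =
        fun P z m w l => smI K P l * (uI Φ ε Q.tw P z w * G m w
          (OCout796.lineL' Φ ε (cT ε z l) (cX ε z l) (cD ε z l),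
            (fun n j => n + j) l.2 P.leaves)) := by
      funext P z m w l
      rw [hk P]
      simp only [oneLs]
    rw [e]
    exact osN_bound X hK hteh hγ hg0 hρ0 hρ hε K hτ.1 hg T' (E := OCout796.lineL' Φ ε)
      (Nu0566.measurable_lineL' hΦ ε) (fun n j => n + j)
      (fun {H} hH => NS423.ns_lineL' hΦ hg0 hg hb hε.le hρ0 hρ K hH) hGm hG1
  · have e : (fun (P : CTree) (z : PhasePoint × Par P) (m : ℕ) (w : Config m) (l : ML) =>
        smI K P l * (uI Φ ε Q.tw P z w * G m w (oneLs Φ ε P z l (k P)))) =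
        fun P z m w l => smI K P l * (uI Φ ε Q.tw P z w * G m w
          (OCout796.lineC' Φ ε (cT ε z l) (cX ε z l) (cD ε z l),
            (fun n j => n + j) l.2 P.leaves)) := by
      funext P z m w l
      rw [hk P]
      simp only [oneLs]
    rw [e]
    exact osN_bound X hK hteh hγ hg0 hρ0 hρ hε K hτ.1 hg T' (E := OCout796.lineC' Φ ε)
      (Nu0566.measurable_lineC' hΦ ε) (fun n j => n + j)
      (fun {H} hH => NS423.ns_lineC' hΦ hg0 hg hb hε.le hρ0 hρ K hH) hGm hG1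

end Crest.Agent.R122.StmtNS692
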