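import Crest.Agent.R122.RedDet_674
import Crest.Agent.R122.FMAppend_167
import Mathlib.MeasureTheory.Measure.Haar.Disintegration

/-!
# Reduction to good trees (row 122, helper674): `StmtRed` of `OneCDefs_285`

* `ae_not_tie` : at a fixed time, a.e. configuration has no pair at distance exactly `ε`.
* `BR` : the majorant: D5 (`N₁`), `TreeBad` (`N₂`), mid-encounter trees, exact contacts.
* `rfl4_BR_le` : its real flux is at most the masses of `N₁`, `N₂` and of the mid-encounter trees.
* `stmtRed` : **`StmtRed`** from `BadVol` and `RtGMaj`.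
-/

set_option autoImplicit false
set_option linter.unusedSectionVars false

open MeasureTheory Set Filter Topology
open scoped ENNReal NNReal
open Crest.AnalysisR.Kinetic
open Crest.Agent.R122.Flow671 Crest.Agent.R122.Loc45 Crest.Agent.R122.Causal291
open Crest.Agent.R122.Inf879 Crest.Agent.R122.GC311 Crest.Agent.R122.EDefs602
open Crest.Agent.R122.Kin796 Crest.Agent.R122.Kin796.CTree Crest.Agent.R122.Tree674
open Crest.Agent.R122.Relabel674 Crest.Agent.R122.PathFlow968 Crest.Agent.R122.InEq2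
open Crest.Agent.R122.RtG302 Crest.Agent.R122.TreeLines335 Crest.Agent.R122.OneC285
open Crest.Agent.R122.GIV566 Crest.Agent.R122.TreeBound335 Crest.Agent.R122.ToTree335

noncomputable section

open scoped Classical

namespace Crest.Agent.R122.Red674

variable {Φ : Space3 → ℝ} {f₀ : PhasePoint → ℝ} {ε T' te tw u₀ : ℝ}

/-! ### Exact contacts are negligible -/

theorem ae_dist_pair_ne (hε : 0 < ε) {n : ℕ} {i r : Fin n} (hir : r ≠ i) :
    ∀ᵐ W : Config n, dist (W i).1 (W r).1 ≠ ε := by
  set L : Config n →ₗ[ℝ] Space3 :=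
    (LinearMap.fst ℝ Space3 Space3).comp (LinearMap.proj i) -
      (LinearMap.fst ℝ Space3 Space3).comp (LinearMap.proj r) with hL
  have hLa : ∀ W : Config n, L W = (W i).1 - (W r).1 := fun W => rfl
  have hsurj : Function.Surjective L := by
    intro y
    refine ⟨Function.update 0 i (y, 0), ?_⟩
    rw [hLa, Function.update_self, Function.update_of_ne hir]
    simp
  have hs : MeasurableSet {y : Space3 | ‖y‖ ≠ ε} :=
    (measurableSet_eq_fun measurable_norm measurable_const).compl
  have h1 : ∀ᵐ y : Space3, y ∈ {y : Space3 | ‖y‖ ≠ ε} := by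
    have h2 : volume (Metric.sphere (0 : Space3) ε) = 0 :=
      Measure.addHaar_sphere_of_ne_zero _ _ hε.ne'
    rw [ae_iff]
    convert h2 using 2
    ext y
    simp
  have h3 := (ae_comp_linearMap_mem_iff L (volume : Measure (Config n))
    (volume : Measure Space3) hsurj hs).2 h1
  filter_upwards [h3] with W hW
  rw [hLa] at hW
  rw [dist_eq_norm]
  exact hW

theorem ae_not_tie (hΦ : AdmissiblePotential Φ) (hε : 0 < ε) {n : ℕ} (i : Fin n) (s : ℝ) :
    ∀ᵐ X : Config n, ¬ Tie Φ ε X i s := by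
  have h1 : ∀ᵐ X : Config n, ∀ r : Fin n, r ≠ i →
      dist (pth Φ ε X s i).1 (pth Φ ε X s r).1 ≠ ε := by
    rw [ae_all_iff]
    intro r
    by_cases hr : r ≠ i
    · have h2 := (measurePreserving_flow (ι := Fin n) hΦ hε s).quasiMeasurePreserving.ae
        (ae_dist_pair_ne hε hr)
      filter_upwards [h2] with X hX _
      exact hX
    · exact Eventually.of_forall fun X h => absurd h hr
  filter_upwards [h1] with X hX
  rintro ⟨r, hr, hd⟩
  exact hX r hr hd

/-- indicator of `Tie` -/
def tieI (Φ : Space3 → ℝ) (ε : ℝ) {n : ℕ} (X : Config n) (i : Fin n) (s : ℝ) : ℝ≥0∞ :=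
  if Tie Φ ε X i s then 1 else 0

theorem measurable_tieI (hΦ : AdmissiblePotential Φ) (hε : 0 < ε) {n : ℕ} (i : Fin n) :
    Measurable fun q : ℝ × Config n => tieI Φ ε q.2 i q.1 := by
  refine Measurable.ite ?_ measurable_const measurable_const
  have h : {q : ℝ × Config n | Tie Φ ε q.2 i q.1} = ⋃ r : Fin n,
      {q : ℝ × Config n | r ≠ i ∧ dist (pth Φ ε q.2 q.1 i).1 (pth Φ ε q.2 q.1 r).1 = ε} := by
    ext q
    simp [Tie]
  rw [h]
  refine MeasurableSet.iUnion fun r => ?_
  by_cases hr : r ≠ i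
  · simp only [ne_eq, hr, not_false_eq_true, true_and]
    exact measurableSet_eq_fun ((measurable_pth_joint hΦ hε i).fst.dist
      (measurable_pth_joint hΦ hε r).fst) measurable_const
  · simp only [hr, false_and]
    simp

theorem ae_lintegral_tie (hΦ : AdmissiblePotential Φ) (hε : 0 < ε) (ν : Measure ℝ) [SFinite ν]
    {n : ℕ} (i : Fin n) : ∀ᵐ X : Config n, ∫⁻ s, tieI Φ ε X i s ∂ν = 0 := by
  have hm := measurable_tieI hΦ hε i
  have h1 : ∫⁻ X : Config n, ∫⁻ s, tieI Φ ε X i s ∂ν = 0 := by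
    rw [lintegral_lintegral_swap
      (f := fun (X : Config n) s => tieI Φ ε X i s) (hm.comp measurable_swap).aemeasurable]
    rw [← lintegral_zero (μ := ν)]
    refine lintegral_congr fun s => ?_
    rw [← lintegral_zero (μ := (volume : Measure (Config n)))]
    refine lintegral_congr_ae ?_
    filter_upwards [ae_not_tie hΦ hε i s] with X hX
    exact if_neg hX
  have h2 : Measurable fun X : Config n => ∫⁻ s, tieI Φ ε X i s ∂ν :=
    (hm.comp measurable_swap).lintegral_prod_right'
  exact (lintegral_eq_zero_iff h2).1 h1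

theorem ae_tie_append (hΦ : AdmissiblePotential Φ) (hε : 0 < ε) (ν : Measure ℝ) [SFinite ν]
    (k : ℕ) : ∀ᵐ V : Config k, ∀ m : ℕ, ∀ᵐ w : Config m, ∀ j : Fin k,
      ∫⁻ s, tieI Φ ε (Fin.append V w : Config (k + m)) (Fin.castAdd m j) s ∂ν = 0 := by
  rw [ae_all_iff]
  intro m
  have h1 : ∀ᵐ p ∂((volume : Measure (Config k)).prod (volume : Measure (Config m))), ∀ j : Fin k,
      ∫⁻ s, tieI Φ ε (Fin.append p.1 p.2 : Config (k + m)) (Fin.castAdd m j) s ∂ν = 0 := by
    rw [ae_all_iff]
    intro j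
    exact (FM167.measurePreserving_append (α := PhasePoint) k m).quasiMeasurePreserving.ae
      (ae_lintegral_tie hΦ hε ν (Fin.castAdd m j))
  exact Measure.ae_ae_of_ae_prod h1

/-- Mecke'd functionals which vanish almost everywhere. -/
theorem MS_eq_zero {F : (k m : ℕ) → Config k → Config m → Fin k → ℝ≥0∞}
    (h : ∀ k, ∀ᵐ V : Config k, ∀ m, ∀ᵐ w : Config m, ∀ j, F k m V w j = 0) :
    MS f₀ ε F = 0 := by
  unfold MS
  rw [ENNReal.tsum_eq_zero]
  intro k
  have h1 : ∫⁻ V : Config k, gcWeight f₀ ε k V *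
      gcE f₀ ε (fun m w => perpInd ε V w * ∑ j : Fin k, F k m V w j) = 0 := by
    rw [← lintegral_zero (μ := (volume : Measure (Config k)))]
    refine lintegral_congr_ae ?_
    filter_upwards [h k] with V hV
    have h2 : gcE f₀ ε (fun m w => perpInd ε V w * ∑ j : Fin k, F k m V w j) = 0 := by
      unfold gcE
      have h3 : ∀ m, ∫⁻ w : Config m, gcWeight f₀ ε m w *
          (perpInd ε V w * ∑ j : Fin k, F k m V w j) = 0 := by
        intro m
        rw [← lintegral_zero (μ := (volume : Measure (Config m)))]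
        refine lintegral_congr_ae ?_
        filter_upwards [hV m] with w hw
        rw [Finset.sum_eq_zero fun j _ => hw j, mul_zero, mul_zero]
      simp only [h3, mul_zero, tsum_zero]
    rw [h2, mul_zero]
  rw [h1, mul_zero]

/-! ### The majorant -/

/-- `ways` with a parameter. -/
theorem measurable_ways_par (hΦ : AdmissiblePotential Φ) (hε : 0 < ε) (T : ℝ) {α : Type*}
    [MeasurableSpace α] {G : α → (P : CTree) → PhasePoint × Par P → ℝ≥0∞}
    (hG : ∀ P, Measurable fun q : (PhasePoint × Par P) × α => G q.2 P q.1) {k : ℕ} (j : Fin k) :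
    Measurable fun q : Config k × α => ways Φ ε T (G q.2) q.1 j := by
  unfold ways
  refine Measurable.tsum fun P => Finset.measurable_sum _ fun e _ => ?_
  have hV : Measurable fun q : Config k × α => (fun x => q.1 (e x) : Idx P → PhasePoint) :=
    measurable_pi_iff.2 fun x => (measurable_pi_apply (e x)).comp measurable_fst
  by_cases he : e (root P) = j
  · have hs : MeasurableSet {q : Config k × α |
        e (root P) = j ∧ (fun x => q.1 (e x)) ∈ Skel Φ ε P T} := by
      have h1 : {q : Config k × α |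
          e (root P) = j ∧ (fun x => q.1 (e x)) ∈ Skel Φ ε P T} =
            (fun q : Config k × α => (fun x => q.1 (e x) : Idx P → PhasePoint)) ⁻¹'
              Skel Φ ε P T := by
        ext q
        simp [he]
      rw [h1]
      exact hV (measurableSet_skel hΦ hε P T)
    refine Measurable.ite hs ?_ measurable_const
    exact (hG P).comp (((measurable_inv hΦ hε P T).comp hV).prodMk measurable_snd)
  · simp only [he, false_and, if_false]
    exact measurable_const

/-- The indicator of the mid-encounter trees as a tree functional. -/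
def midZ (Φ : Space3 → ℝ) (ε s : ℝ) (P : CTree) (z : PhasePoint × Par P) : ℝ≥0∞ :=
  Mid317.indM Φ ε s P (z.1.2, z.2)

theorem measurable_midZ (hΦ : AdmissiblePotential Φ) (ε : ℝ) (P : CTree) :
    Measurable fun q : (PhasePoint × Par P) × ℝ => midZ Φ ε q.2 P q.1 := by
  have h : Measurable fun q : (PhasePoint × Par P) × ℝ => (q.2, (q.1.1.2, q.1.2)) :=
    measurable_snd.prodMk (measurable_fst.fst.snd.prodMk measurable_fst.snd)
  exact (Mid317.measurable_indM hΦ ε P).comp h

/-- **The majorant** of the bad clusters. -/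
def BR (Φ : Space3 → ℝ) (ε T' : ℝ) (N₁ : (k : ℕ) → Config k → Fin k → ℝ≥0∞)
    (N₂ : (k m : ℕ) → Config k → Config m → Fin k → ℝ≥0∞) : RF := fun k m V w j s =>
  N₁ k V j + (N₂ k m V w j + (ways Φ ε T' (fun P z => midZ Φ ε s P z) V j +
    tieI Φ ε (Fin.append V w : Config (k + m)) (Fin.castAdd m j) s))

theorem measRF_BR (hΦ : AdmissiblePotential Φ) (hε : 0 < ε)
    {N₁ : (k : ℕ) → Config k → Fin k → ℝ≥0∞}
    {N₂ : (k m : ℕ) → Config k → Config m → Fin k → ℝ≥0∞}
    (h1 : ∀ k j, Measurable fun V : Config k => N₁ k V j) (h2 : MeasMS N₂) :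
    MeasRF (BR Φ ε T' N₁ N₂) := by
  intro k m j
  have ha : Measurable fun q : Config k × (Config m × ℝ) =>
      ways Φ ε T' (fun P z => midZ Φ ε q.2.2 P z) q.1 j :=
    (measurable_ways_par (Φ := Φ) hΦ hε T' (G := fun s P z => midZ Φ ε s P z)
      (fun P => measurable_midZ hΦ ε P) j).comp (measurable_fst.prodMk measurable_snd.snd)
  have hb : Measurable fun q : Config k × (Config m × ℝ) =>
      tieI Φ ε (Fin.append q.1 q.2.1 : Config (k + m)) (Fin.castAdd m j) q.2.2 := by
    have h30 : Measurable fun q : Config k × (Config m × ℝ) => (q.1, q.2.1) :=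
      measurable_fst.prodMk measurable_snd.fst
    have h31 : Measurable fun q : Config k × (Config m × ℝ) =>
        (Fin.append q.1 q.2.1 : Config (k + m)) :=
      Measurable.comp (g := fun p : Config k × Config m => (Fin.append p.1 p.2 : Config (k + m)))
        GC311.measurable_append h30
    have h32 : Measurable fun q : Config k × (Config m × ℝ) => q.2.2 := measurable_snd.snd
    have h3 := h32.prodMk h31
    have h4 := (measurable_tieI hΦ hε (Fin.castAdd m j)).comp h3
    simpa only [Function.comp_def] using h4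
  have hc : Measurable fun q : Config k × (Config m × ℝ) => N₁ k q.1 j :=
    Measurable.comp (g := fun V : Config k => N₁ k V j) (h1 k j) measurable_fst
  have hd : Measurable fun q : Config k × (Config m × ℝ) => N₂ k m q.1 q.2.1 j :=
    Measurable.comp (g := fun q : Config k × Config m => N₂ k m q.1 q.2 j)
      (f := fun q : Config k × (Config m × ℝ) => (q.1, q.2.1)) (h2 k m j)
      (measurable_fst.prodMk measurable_snd.fst)
  exact hc.add (hd.add (ha.add hb))

/-! ### Mass of the mid-encounter trees -/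

/-- time integral of the mid-encounter indicator -/
def midT (Φ : Space3 → ℝ) (ε te : ℝ) (K : ℕ) (P : CTree) (z : PhasePoint × Par P) : ℝ≥0∞ :=
  if P.leaves ≤ K then ∫⁻ s in Ioc 0 te, midZ Φ ε s P z else 0

theorem measurable_midT (hΦ : AdmissiblePotential Φ) (ε te : ℝ) (K : ℕ) (P : CTree) :
    Measurable (midT Φ ε te K P) := by
  unfold midT
  by_cases h : P.leaves ≤ K
  · simp only [if_pos h]
    exact (measurable_midZ hΦ ε P).lintegral_prod_right'
  · simp only [if_neg h]
    exact measurable_const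

theorem gcE_const_le (hf : Measurable f₀) (h1 : ∫⁻ z, ENNReal.ofReal (f₀ z) ≤ 1) (ε : ℝ)
    (c : ℝ≥0∞) : gcE f₀ ε (fun _ _ => c) ≤ c := by
  by_cases hc : c = ∞
  · rw [hc]; exact le_top
  · exact (gcE_const f₀ ε hf h1 hc).le

theorem TS_midT_le (hΦ : AdmissiblePotential Φ) (hf : Measurable f₀)
    (h1 : ∫⁻ z, ENNReal.ofReal (f₀ z) ≤ 1) (K : ℕ) :
    InEq2.TS Φ f₀ ε T' (fun P z _ _ => wQ Φ ε P z * midT Φ ε te K P z) ≤
      ∑ P ∈ GIVStep383.trees K, ∫⁻ s in Ioc 0 te, Mid317.midI Φ f₀ ε T' s P := by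
  unfold InEq2.TS
  have hz : ∀ P : CTree, P ∉ GIVStep383.trees K →
      ∫⁻ z : PhasePoint × Par P, {z : PhasePoint × Par P | Valid Φ ε P T' z.1.2 z.2}.indicator
        (fun z => wt Φ P z.1.2 z.2 * (pf Φ f₀ ε P z * gcE f₀ ε fun _ _ =>
          wQ Φ ε P z * midT Φ ε te K P z)) z = 0 := by
    intro P hP
    have h2 : ¬ P.leaves ≤ K := fun h => hP (GIVStep383.mem_trees.2 h)
    rw [← lintegral_zero (μ := (volume : Measure (PhasePoint × Par P)))]
    refine lintegral_congr fun z => ?_
    have h3 : midT Φ ε te K P z = 0 := if_neg h2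
    simp only [midT, if_neg h2, mul_zero, gcE_zero, indicator_zero]
  rw [tsum_eq_sum (s := GIVStep383.trees K) hz]
  refine Finset.sum_le_sum fun P hP => ?_
  have hPK : P.leaves ≤ K := GIVStep383.mem_trees.1 hP
  have hmeas := Mid317.measurable_ind2 (f₀ := f₀) hΦ hf ε T' P
  have hsw : ∫⁻ s in Ioc 0 te, Mid317.midI Φ f₀ ε T' s P =
      ∫⁻ z : PhasePoint × Par P, ∫⁻ s in Ioc 0 te,
        {z : PhasePoint × Par P | Valid Φ ε P T' z.1.2 z.2}.indicator
          (fun z => wt Φ P z.1.2 z.2 * Mid317.gM Φ f₀ ε s P z) z := by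
    unfold Mid317.midI
    exact lintegral_lintegral_swap hmeas.aemeasurable
  rw [hsw]
  refine lintegral_mono fun z => ?_
  by_cases hv : z ∈ {z : PhasePoint × Par P | Valid Φ ε P T' z.1.2 z.2}
  swap
  · rw [indicator_of_notMem hv]; exact bot_le
  have e1 : ∀ s, {z : PhasePoint × Par P | Valid Φ ε P T' z.1.2 z.2}.indicator
      (fun z => wt Φ P z.1.2 z.2 * Mid317.gM Φ f₀ ε s P z) z =
      (wt Φ P z.1.2 z.2 * (pf Φ f₀ ε P z * wQ Φ ε P z)) * midZ Φ ε s P z := by
    intro s
    rw [indicator_of_mem hv]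
    unfold Mid317.gM midZ
    rw [pfM_of_adm hv.1]
    show _ * (_ * (wQ Φ ε P z * _)) = _
    ring
  rw [indicator_of_mem hv]
  simp only [e1]
  have hmid : Measurable fun s => midZ Φ ε s P z :=
    (measurable_midZ hΦ ε P).comp (measurable_const.prodMk measurable_id)
  rw [lintegral_const_mul _ hmid]
  calc wt Φ P z.1.2 z.2 * (pf Φ f₀ ε P z * gcE f₀ ε fun _ _ => wQ Φ ε P z * midT Φ ε te K P z)
      ≤ wt Φ P z.1.2 z.2 * (pf Φ f₀ ε P z * (wQ Φ ε P z * midT Φ ε te K P z)) :=
        mul_le_mul_right (mul_le_mul_right (gcE_const_le hf h1 ε _) _) _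
    _ = _ := by
        unfold midT
        rw [if_pos hPK]
        ring

/-! ### The real flux of the majorant -/

theorem activity_inv (hε : 0 < ε) : (activity ε)⁻¹ = ENNReal.ofReal (ε ^ 2) := by
  unfold activity
  rw [ENNReal.ofReal_inv_of_pos (by positivity), inv_inv]

theorem activity_inv_ne_top (hε : 0 < ε) : (activity ε)⁻¹ ≠ ∞ := by
  rw [activity_inv hε]
  exact ENNReal.ofReal_ne_top

theorem eW_append {k m : ℕ} (V : Config k) (w : Config m) :
    eW (Fin.append V w : Config (k + m)) (block k m) = NG416.Wt V := by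
  have h3 := NG416.eW_map (Fin.append V w : Config (k + m)) (Fin.castAddEmb m)
  unfold block
  rw [h3]
  congr 1
  funext x
  exact Fin.append_left V w x

/-- The flux weight of a real cluster. -/
theorem flux_le (hΦ : AdmissiblePotential Φ) (hε : 0 < ε) {k m : ℕ} {V : Config k} {w : Config m}
    {j : Fin k} {s : ℝ} (hs : 0 < s) (hV : V ∈ PairExcluded ε k) (hw : w ∈ PairExcluded ε m)
    (hp : Perp ε V w)
    (hpre : preC Φ ε (Fin.append V w : Config (k + m)) s (Fin.castAdd m j) = block k m) :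
    ENNReal.ofReal (ε ^ 2 *
      (1 + ‖(flow Φ ε s (Fin.append V w : Config (k + m)) (Fin.castAdd m j)).2‖)) ≤
      Mid317.cS Φ 1 * ((activity ε)⁻¹ * NG416.Wt V) := by
  have hXE : (Fin.append V w : Config (k + m)) ∈ PairExcluded ε (k + m) :=
    (append_mem_pairExcluded_iff V w).2 ⟨hV, hw, hp⟩
  have h1 := spdW_le_pre hΦ hε hXE hs (Fin.castAdd m j) 1
  rw [hpre, eW_append] at h1
  have h2 : Hit167.spdW Φ ε 1 (Fin.append V w : Config (k + m)) (Fin.castAdd m j) s =
      ENNReal.ofReal (1 + ‖(flow Φ ε s (Fin.append V w : Config (k + m))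
        (Fin.castAdd m j)).2‖) := by
    unfold Hit167.spdW
    rw [ENNReal.ofReal_add zero_le_one (norm_nonneg _), ofReal_norm, ENNReal.ofReal_one]
    rfl
  rw [h2] at h1
  rw [ENNReal.ofReal_mul (by positivity), ← activity_inv hε]
  calc (activity ε)⁻¹ * _ ≤ (activity ε)⁻¹ * (Mid317.cS Φ 1 * NG416.Wt V) := mul_le_mul_right h1 _
    _ = _ := by ring

section mass

variable {N₁ : (k : ℕ) → Config k → Fin k → ℝ≥0∞}
  {N₂ : (k m : ℕ) → Config k → Config m → Fin k → ℝ≥0∞}

/-- Time integral of the majorant. -/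
theorem lintegral_BR_le (hΦ : AdmissiblePotential Φ) (hε : 0 < ε) {K k m : ℕ} (hk : k ≤ K)
    (V : Config k) (w : Config m) (j : Fin k) :
    ∫⁻ s in Ioc 0 te, BR Φ ε T' N₁ N₂ k m V w j s ≤
      ENNReal.ofReal te * N₁ k V j + (ENNReal.ofReal te * N₂ k m V w j +
        (ways Φ ε T' (fun P z => midT Φ ε te K P z) V j +
          ∫⁻ s in Ioc 0 te, tieI Φ ε (Fin.append V w : Config (k + m)) (Fin.castAdd m j) s)) := by
  have hmid : ∀ (P : CTree) (z : PhasePoint × Par P), Measurable fun s => midZ Φ ε s P z :=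
    fun P z => (measurable_midZ hΦ ε P).comp (measurable_const.prodMk measurable_id)
  have htie : Measurable fun s : ℝ =>
      tieI Φ ε (Fin.append V w : Config (k + m)) (Fin.castAdd m j) s := by
    have h4 : Measurable fun s : ℝ => (s, (Fin.append V w : Config (k + m))) :=
      measurable_id.prodMk measurable_const
    have h5 := (measurable_tieI hΦ hε (Fin.castAdd m j)).comp h4
    simpa only [Function.comp_def] using h5
  have h3 : ∫⁻ s in Ioc 0 te, ways Φ ε T' (fun P z => midZ Φ ε s P z) V j ≤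
      ways Φ ε T' (fun P z => midT Φ ε te K P z) V j := by
    rw [lintegral_ways (volume.restrict (Ioc 0 te)) (G := fun s P z => midZ Φ ε s P z) hmid]
    refine ways_mono fun P e _ _ => ?_
    unfold midT
    have hP : P.leaves ≤ K := by
      rw [← Tree674.card_idx, Fintype.card_congr e, Fintype.card_fin]
      exact hk
    rw [if_pos hP]
  unfold BR
  rw [lintegral_add_left measurable_const, lintegral_add_left measurable_const,
    lintegral_add_right _ htie, setLIntegral_const, setLIntegral_const, Real.volume_Ioc, sub_zero,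
    mul_comm (N₁ k V j), mul_comm (N₂ k m V w j)]
  gcongr

theorem rfl4_BR_le (hΦ : AdmissiblePotential Φ) (hf : Measurable f₀)
    (h1 : ∫⁻ z, ENNReal.ofReal (f₀ z) ≤ 1) (hε : 0 < ε) (K : ℕ) (hm2 : MeasMS N₂) :
    rfl4 Φ f₀ ε K te (BR Φ ε T' N₁ N₂) ≤ Mid317.cS Φ 1 *
      (ENNReal.ofReal te * ((activity ε)⁻¹ * MS f₀ ε (fun k _ V _ j => NG416.Wt V * N₁ k V j)) +
        (ENNReal.ofReal te * massN f₀ ε N₂ +
          ∑ P ∈ GIVStep383.trees K, ∫⁻ s in Ioc 0 te, Mid317.midI Φ f₀ ε T' s P)) := by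
  set a : ℝ≥0∞ := (activity ε)⁻¹ with ha
  have hat : a ≠ ∞ := activity_inv_ne_top hε
  set F1 : (k m : ℕ) → Config k → Config m → Fin k → ℝ≥0∞ := fun k _ V _ j =>
    ENNReal.ofReal te * (a * (NG416.Wt V * N₁ k V j)) with hF1
  set F2 : (k m : ℕ) → Config k → Config m → Fin k → ℝ≥0∞ := fun k m V w j =>
    ENNReal.ofReal te * (a * (NG416.Wt V * N₂ k m V w j)) with hF2
  set F3 : (k m : ℕ) → Config k → Config m → Fin k → ℝ≥0∞ := fun k _ V _ j =>
    a * (NG416.Wt V * ways Φ ε T' (fun P z => midT Φ ε te K P z) V j) with hF3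
  set F4 : (k m : ℕ) → Config k → Config m → Fin k → ℝ≥0∞ := fun k m V w j =>
    a * (NG416.Wt V * ∫⁻ s in Ioc 0 te,
      tieI Φ ε (Fin.append V w : Config (k + m)) (Fin.castAdd m j) s) with hF4
  have hW : ∀ k m : ℕ, Measurable fun q : Config k × Config m => NG416.Wt q.1 := fun k m =>
    NG416.measurable_Wt.comp measurable_fst
  have mF2 : MeasMS F2 := fun k m j => (((hW k m).mul (hm2 k m j)).const_mul a).const_mul _
  have mF3 : MeasMS F3 := fun k m j => by
    have h2 : Measurable fun q : Config k × Config m =>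
        ways Φ ε T' (fun P z => midT Φ ε te K P z) q.1 j :=
      measMS_ways (G := fun P z _ _ => midT Φ ε te K P z) hΦ hε T'
        (fun P m => (measurable_midT hΦ ε te K P).comp measurable_fst) k m j
    exact ((hW k m).mul h2).const_mul a
  have mF4 : MeasMS F4 := fun k m j => by
    have h2 : Measurable fun q : (Config k × Config m) × ℝ =>
        tieI Φ ε (Fin.append q.1.1 q.1.2 : Config (k + m)) (Fin.castAdd m j) q.2 := by
      have h31 : Measurable fun q : (Config k × Config m) × ℝ =>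
          (Fin.append q.1.1 q.1.2 : Config (k + m)) :=
        Measurable.comp (g := fun p : Config k × Config m => (Fin.append p.1 p.2 : Config (k + m)))
          GC311.measurable_append measurable_fst
      have h32 : Measurable fun q : (Config k × Config m) × ℝ => q.2 := measurable_snd
      have h4 := (measurable_tieI hΦ hε (Fin.castAdd m j)).comp (h32.prodMk h31)
      simpa only [Function.comp_def] using h4
    exact ((hW k m).mul h2.lintegral_prod_right').const_mul a
  have mF34 : MeasMS fun k m V w j => F3 k m V w j + F4 k m V w j := fun k m j =>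
    (mF3 k m j).add (mF4 k m j)
  have mF234 : MeasMS fun k m V w j => F2 k m V w j + (F3 k m V w j + F4 k m V w j) :=
    fun k m j => (mF2 k m j).add (mF34 k m j)
  have hle : rfl4 Φ f₀ ε K te (BR Φ ε T' N₁ N₂) ≤ MS f₀ ε (fun k m V w j =>
      Mid317.cS Φ 1 * (F1 k m V w j + (F2 k m V w j + (F3 k m V w j + F4 k m V w j)))) := by
    refine MS_mono (F := fun k m V w j => ∫⁻ s in Ioc 0 te,
      ENNReal.ofReal (ε ^ 2 * (1 + ‖(flow Φ ε s (Fin.append V w : Config (k + m))
        (Fin.castAdd m j)).2‖)) * (if k ≤ K ∧ preC Φ ε (Fin.append V w : Config (k + m)) s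
          (Fin.castAdd m j) = block k m then BR Φ ε T' N₁ N₂ k m V w j s else 0))
      fun k m V w j hV hw hp => ?_
    by_cases hk : k ≤ K
    swap
    · simp only [hk, false_and, if_false, mul_zero, lintegral_zero]
      exact bot_le
    have h2 : ∫⁻ s in Ioc 0 te, ENNReal.ofReal (ε ^ 2 *
        (1 + ‖(flow Φ ε s (Fin.append V w : Config (k + m)) (Fin.castAdd m j)).2‖)) *
          (if k ≤ K ∧ preC Φ ε (Fin.append V w : Config (k + m)) s (Fin.castAdd m j) = block k m
            then BR Φ ε T' N₁ N₂ k m V w j s else 0) ≤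
        ∫⁻ s in Ioc 0 te, (Mid317.cS Φ 1 * (a * NG416.Wt V)) * BR Φ ε T' N₁ N₂ k m V w j s := by
      refine setLIntegral_mono' measurableSet_Ioc fun s hs => ?_
      by_cases hc : k ≤ K ∧
          preC Φ ε (Fin.append V w : Config (k + m)) s (Fin.castAdd m j) = block k m
      · rw [if_pos hc]
        exact mul_le_mul_left (flux_le hΦ hε hs.1 hV hw hp hc.2) _
      · rw [if_neg hc, mul_zero]; exact bot_le
    refine h2.trans ?_
    have hWt : NG416.Wt V ≠ ∞ := ENNReal.sum_ne_top.2 fun _ _ => ENNReal.ofReal_ne_top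
    rw [lintegral_const_mul' _ _ (ENNReal.mul_ne_top (Mid317.cS_ne_top 1)
      (ENNReal.mul_ne_top hat hWt))]
    refine (mul_le_mul_right (lintegral_BR_le hΦ hε hk V w j) _).trans (le_of_eq ?_)
    simp only [hF1, hF2, hF3, hF4]
    ring
  refine hle.trans ?_
  rw [MS_const_mul (Mid317.cS_ne_top 1), MS_add hf mF234, MS_add hf mF34, MS_add hf mF4]
  refine mul_le_mul_right (add_le_add ?_ (add_le_add ?_ ?_)) _
  · simp only [hF1]
    rw [MS_const_mul ENNReal.ofReal_ne_top, MS_const_mul hat]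
  · simp only [hF2]
    rw [MS_const_mul ENNReal.ofReal_ne_top]
    exact le_rfl
  · have h4 : MS f₀ ε F4 = 0 := by
      refine MS_eq_zero fun k => ?_
      filter_upwards [ae_tie_append hΦ hε (volume.restrict (Ioc 0 te)) k] with V hV m
      filter_upwards [hV m] with w hw j
      simp only [hF4]
      rw [hw j, mul_zero, mul_zero]
    rw [h4, add_zero]
    exact (MS_ways_le (G := fun P z _ _ => midT Φ ε te K P z) hΦ hf hε
      (fun P m => (measurable_midT hΦ ε te K P).comp measurable_fst)).trans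
        (TS_midT_le hΦ hf h1 K)

end mass

/-! ### The reduction -/

theorem one_le_add_left {x : ℝ≥0∞} (y : ℝ≥0∞) (h : 1 ≤ x) : 1 ≤ x + y := h.trans le_self_add

theorem one_le_add_right {y : ℝ≥0∞} (x : ℝ≥0∞) (h : 1 ≤ y) : 1 ≤ x + y := h.trans le_add_self

/-- The majorant is at least `1` on the bad clusters. -/
theorem one_le_BR_or (hΦ : AdmissiblePotential Φ) (hε : 0 < ε) (htw0 : 0 ≤ tw) (htw : tw ≤ u₀)
    (hte : te < T') {K K' : ℕ} {N₁ : (k : ℕ) → Config k → Fin k → ℝ≥0∞}
    {N₂ : (k m : ℕ) → Config k → Config m → Fin k → ℝ≥0∞}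
    (h1 : ∀ k ≤ K, ∀ V ∈ PairExcluded ε k, ∀ j, Chain726.badFam Φ T' te ε k V j → 1 ≤ N₁ k V j)
    (h2 : ∀ k m (V : Config k) (w : Config m) (j : Fin k), k ≤ K → w ∈ PairExcluded ε m →
      TreeBad Φ ε K' u₀ T' V w j → 1 ≤ N₂ k m V w j)
    {k m : ℕ} {V : Config k} {w : Config m} {j : Fin k} {s : ℝ} (hV : V ∈ PairExcluded ε k)
    (hw : w ∈ PairExcluded ε m) (hp : Perp ε V w) (hk : k ≤ K) (hs : 0 < s) (hste : s ≤ te)
    (hpre : preC Φ ε (Fin.append V w : Config (k + m)) s (Fin.castAdd m j) = block k m) :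
    1 ≤ BR Φ ε T' N₁ N₂ k m V w j s ∨ GoodRed Φ ε tw T' V w j s := by
  rcases red_det hΦ hε htw0 htw hs hste hte K' hV hw hp hpre with h | h | h | h | h
  · left
    exact one_le_add_left _ (h1 k hk V hV j h)
  · left
    refine one_le_add_right _ (one_le_add_right _ (one_le_add_right _ ?_))
    unfold tieI
    rw [if_pos h]
  · left
    obtain ⟨P, e, z, h0, hl, hv, -, hm⟩ := h
    refine one_le_add_right _ (one_le_add_right _ (one_le_add_left _ ?_))
    have h3 := le_ways (G := fun P z => midZ Φ ε s P z) hΦ hε h0 hv hl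
    refine le_trans (le_of_eq ?_) h3
    unfold midZ Mid317.indM
    rw [if_pos hm]
  · left
    exact one_le_add_right _ (one_le_add_left _ (h2 k m V w j hk hw h))
  · exact Or.inr h

/-- **`StmtRed` of the one-contact step** (`OneCDefs_285`) from the volume bounds of the bad
configurations (D5) and the majorants of the bad trees (H12). -/
theorem stmtRed (hΦ : AdmissiblePotential Φ) (hf : Measurable f₀)
    (h1 : ∫⁻ z, ENNReal.ofReal (f₀ z) ≤ 1) {γ γ₀ : ℝ} (hγ : γ < γ₀) (hγ₀ : 0 < γ₀)
    (hb : HasSummableGaussianBound γ₀ (fun x v => f₀ (x, v))) (htw0 : 0 ≤ tw) (htw : tw ≤ u₀)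
    (hte : te < T') (hvol : ∀ K, NG416.BadVol γ K (Chain726.badFam Φ T' te))
    (hR : ∀ K, RtGMaj Φ f₀ u₀ T' K) : StmtRed Φ f₀ tw te T' := by
  have hN1 : ∀ K : ℕ, _ := fun K =>
    NG416.ngin_mecke (Chain726.permCov_badFam hΦ T' te) hγ (hvol K) hf h1 hb
  choose N₁ hN₁m hN₁p hN₁1 hN₁b hN₁t using hN1
  have hN2 : ∀ K : ℕ, _ := fun K => exists_N (hR K)
  choose N₂ hN₂a hN₂t using hN2
  refine ⟨fun K ε => if 0 < ε then BR Φ ε T' (N₁ K ε) (N₂ K ε) else fun _ _ _ _ _ _ => 0,
    fun K ε => ?_, fun K ε hε k m V w j s hV hw hp hk hs hste hpre => ?_, ?_⟩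
  · by_cases hε : 0 < ε
    · simp only [if_pos hε]
      exact measRF_BR hΦ hε (hN₁m K ε) (hN₂a K ε).1
    · simp only [if_neg hε]
      exact fun _ _ _ => measurable_const
  · simp only [if_pos hε]
    obtain ⟨-, K', hK'⟩ := hN₂a K ε
    exact one_le_BR_or hΦ hε htw0 htw hte (hN₁b K ε hε) hK' hV hw hp hk hs hste hpre
  · rw [null_iff_tendsto]
    intro K
    have hmid : Tendsto (fun ε => ∑ P ∈ GIVStep383.trees K,
        ∫⁻ s in Ioc 0 te, Mid317.midI Φ f₀ ε T' s P) (𝓝[>] (0 : ℝ)) (𝓝 0) := by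
      have h2 : Tendsto (fun ε => ∑ P ∈ GIVStep383.trees K,
          ∫⁻ s in Ioc 0 te, Mid317.midI Φ f₀ ε T' s P) (𝓝[>] (0 : ℝ))
          (𝓝 (∑ _P ∈ GIVStep383.trees K, 0)) := by
        refine tendsto_finsetSum _ fun P _ => ?_
        simp only [← restrict_Ioo_eq_restrict_Ioc]
        exact Mid317.tendsto_lintegral_midI hΦ hf hγ₀ hb T' te P
      rwa [Finset.sum_const_zero] at h2
    have hlim : Tendsto (fun ε => Mid317.cS Φ 1 *
        (ENNReal.ofReal te * ((activity ε)⁻¹ *
          MS f₀ ε (fun k _ V _ j => NG416.Wt V * N₁ K ε k V j)) +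
        (ENNReal.ofReal te * massN f₀ ε (N₂ K ε) +
          ∑ P ∈ GIVStep383.trees K, ∫⁻ s in Ioc 0 te, Mid317.midI Φ f₀ ε T' s P)))
        (𝓝[>] (0 : ℝ)) (𝓝 0) := by
      have h2 := (ENNReal.Tendsto.const_mul (a := ENNReal.ofReal te) (hN₁t K)
        (Or.inr ENNReal.ofReal_ne_top)).add ((ENNReal.Tendsto.const_mul
          (a := ENNReal.ofReal te) (hN₂t K) (Or.inr ENNReal.ofReal_ne_top)).add hmid)
      rw [mul_zero, zero_add, zero_add] at h2
      have h3 := ENNReal.Tendsto.const_mul (a := Mid317.cS Φ 1) h2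
        (Or.inr (Mid317.cS_ne_top 1))
      rw [mul_zero] at h3
      exact h3
    refine tendsto_of_tendsto_of_tendsto_of_le_of_le' tendsto_const_nhds hlim
      (Eventually.of_forall fun _ => bot_le) ?_
    filter_upwards [self_mem_nhdsWithin] with ε hε
    have hε0 : 0 < ε := hε
    simp only [if_pos hε0]
    exact rfl4_BR_le hΦ hf h1 hε0 K (hN₂a K ε).1

end Crest.Agent.R122.Red674

end
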