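import Crest.Agent.R122.StrPos_307
import Crest.Agent.R122.StrMot_151

/-!
# Row 122 (helper307): the motion of the structure of inequality 3

`PTree M c Z R π cl bD x y d e te P z eP` (helper491), births `0`.

* `Mo M Z cl bD A` : motion with deaths of the union of classes `A` (`DWorld`, `RelD`, states at time
  `0`, `StartSep` at equal releases).
* `PTree` at `str6` (merged classes `cl6`, exit times `bD6`) : `mo6` for `A6 = cl6 x ∪ cl6 y`, states of
  the lines `d`, exits, `e'`, `c'`.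
* `PTree` at `str0` (separate classes `cl0`) : `mo0` for `cl x ∪ part eP`, `mo0x` for `cl x`, states of
  the lines `d`, `lineML`.
-/

set_option autoImplicit false
set_option linter.unusedSectionVars false

open MeasureTheory Set Filter Topology
open scoped NNReal ENNReal
open Crest.AnalysisR.Kinetic
open Crest.Agent.R122.Flow671 hiding rel
open Crest.Agent.R122.Loc45 Crest.Agent.R122.Ins45
open Crest.Agent.R122.VL581 Crest.Agent.R122.VL581.VSys Crest.Agent.R122.VLInst442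
open Crest.Agent.R122.LNInst491 Crest.Agent.R122.LN304 Crest.Agent.R122.LNg410
open Crest.Agent.R122.Kin796 Crest.Agent.R122.Kin796.CTree Crest.Agent.R122.Tree674
open Crest.Agent.R122.PathFlow968 Crest.Agent.R122.TreeLines335 Crest.Agent.R122.EDefs602
open Crest.Agent.R122.LNTree410 Crest.Agent.R122.PWGlue491 Crest.Agent.R122.Inf879
open Crest.Agent.R122.LNGraft410 Crest.Agent.R122.LNEv968 Crest.Agent.R122.PWInst442
open Crest.Agent.R122.OCout796 Crest.Agent.R122.Scat818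
open Crest.Agent.R122.StrG491 Crest.Agent.R122.TransOk151
open Crest.Agent.R122.OneC285 (cT cB cD cX)
open scoped Classical

noncomputable section

namespace Crest.Agent.R122.StrMain307

variable {J κ : Type} [Fintype J] {M : VSys J κ} {Z : J → PhasePoint}
variable {c : ℝ} {R R₁ R₂ : ℝ → J → J → Prop} {π π₁ π₂ S : Finset J} {cl cl₁ cl₂ : J → Finset J}
  {bD : J → ℝ} {E E₁ E₂ : Finset J} {x y a y' : J} {s ℓ ς : ℝ} {p : Space3} {q : CD}

theorem ExitT.of_mot (h : StrMot151.Mot M Z R cl bD y) : ExitT M Z cl bD := fun i hi hT => by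
  rcases h.exit i hi hT with h1 | ⟨k, hk, hki, hbk, hS⟩
  · exact Or.inl h1
  · exact Or.inr ⟨k, hk, hki, hbk, hS.1, hS.2⟩

theorem CrossT.of_mot (h : StrMot151.Mot M Z R cl bD y) : CrossT R cl bD y := h.cross

/-- A tree. -/
theorem exitT_treeP (hΦ : AdmissiblePotential M.Φ) (hε : 0 < M.ε) (hT : 0 < M.T) {P : CTree}
    {l : PhasePoint} {p : Par P} {e : Idx P ↪ J} (h : TreeIn M Z M.T P l p e)
    (hb : ∀ i, bD (e i) = rel P p i) : ExitT M Z (clOf (part e)) bD :=
  ExitT.of_mot (StrMot151.Mot.of_tree (y := e (root P)) hΦ hε hT h hb)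

/-- The motion of a union of classes, deaths at the exit times. -/
structure Mo (M : VSys J κ) (Z : J → PhasePoint) (cl : J → Finset J) (bD : J → ℝ)
    (A : Finset J) : Prop where
  dw : DWorld M.Φ M.ε (fun _ : A => 0) (dth {i : A | bD i ≤ M.T} (fun i : A => bD i) M.T) 0 M.T
    (fun t (i : A) => M.st (cl i) t Z i)
  rd : RelD M.ε (fun _ : A => 0) (dth {i : A | bD i ≤ M.T} (fun i : A => bD i) M.T) M.T
    (fun t (i : A) => M.st (cl i) t Z i)
  zero : (fun i : A => M.st (cl i) 0 Z i) = fun i : A => Z i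
  sep : ∀ i j : A, i ≠ j → bD i ≤ M.T → bD j = bD i →
    StartSep M.ε (M.st (cl i) (bD i) Z i) (M.st (cl j) (bD j) Z j)
  far : ∀ i j : A, cl i ≠ cl j → ∀ t ∈ Icc 0 M.T, (bD i ≤ M.T → t ≤ bD i) →
    (bD j ≤ M.T → t ≤ bD j) → M.ε < dist (M.st (cl i) t Z i).1 (M.st (cl j) t Z j).1

theorem Mo.of_str [Nonempty κ] (hΦ : AdmissiblePotential M.Φ) (hε : 0 < M.ε) (hc : 1 ≤ c)
    (hℓς : 2 * ℓ ≤ ς) (hstr : Str M c Z R π cl bD E) (htl : TL M c ℓ ς π Z) {A : Finset J}
    (hE : ∀ i ∈ A, ∃ a ∈ E, i ∈ cl a) (hA : ∀ i ∈ A, cl i ⊆ A) (hb : ∀ i ∈ A, M.bb i = 0)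
    (hp : ∀ i ∈ A, 0 < bD i) (hexit : ExitT M Z cl bD) (hcross : CrossT R cl bD y) :
    Mo M Z cl bD A := by
  obtain ⟨h1, h2, h3, h4, h5⟩ := motion hΦ hε hc hℓς hstr htl hE hA hb hp hexit
    hcross.weak
  exact ⟨h1, h2, h3, h4, h5⟩

/-- Deaths of the released labels. -/
theorem dth_of_le {A : Finset J} {T : ℝ} {i : A} (h : bD i ≤ T) :
    dth {i : A | bD i ≤ T} (fun i : A => bD i) T i = bD i :=
  dth_mem (S := {i : A | bD i ≤ T}) h

section ptree

variable {d : ℝ × PhasePoint} {e : ML} {te : ℝ} {P : CTree} {z : PhasePoint × Par P}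
  {eP : Idx P ↪ J}

/-- Merged classes. -/
abbrev cl6 (cl : J → Finset J) (y : J) (eP : Idx P ↪ J) : J → Finset J :=
  clMrg cl (clOf (part eP)) y (eP (root P))

/-- Exit times of the merged classes. -/
abbrev bD6 (M : VSys J κ) (bD : J → ℝ) (y : J) (e : ML) (z : PhasePoint × Par P)
    (eP : Idx P ↪ J) : J → ℝ :=
  grafted M.Φ M.ε bD y (eP (root P)) (cT M.ε z e) (cD M.ε z e)

/-- Separate classes. -/
abbrev cl0 (cl : J → Finset J) (eP : Idx P ↪ J) : J → Finset J := clSep cl (clOf (part eP))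

/-- The labels of the classes of `x` and `y`. -/
abbrev A6 (cl : J → Finset J) (x y : J) (eP : Idx P ↪ J) : Finset J := cl6 cl y eP x ∪ cl6 cl y eP y

variable (h : PTree M c Z R π cl bD x y d e te P z eP)
include h

theorem bb_zero (hb : ∀ k ∈ π, M.bb k = 0) : ∀ k ∈ π ∪ part eP, M.bb k = 0 := by
  intro k hk
  rcases Finset.mem_union.1 hk with hk | hk
  · exact hb k hk
  · obtain ⟨k, rfl⟩ := mem_part.1 hk
    exact h.tree.bb k

variable [Nonempty κ] (hC : 1 ≤ c) (hΦ : AdmissiblePotential M.Φ) (hε : 0 < M.ε)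
  (hT : TL M c ℓ ς (π ∪ part eP) Z) (hℓς : 2 * ℓ ≤ ς)
include hC hΦ hε hT hℓς

/-- The encounter ends. -/
theorem pass6 (hlT : te + 2 * ℓ < M.T) : CDpass M.Φ (cD M.ε z e) ∧
    cT M.ε z e + outT M.Φ M.ε (cD M.ε z e) ≤ M.T := by
  have h1 := ((h.hit hC hΦ hε).enc hΦ hε).pass_of hC hΦ hε hT hℓς (by linarith [h.cT_le])
  exact ⟨h1.1, by linarith [h1.2, h.cT_le]⟩

theorem exitT6 (hp : CDpass M.Φ (cD M.ε z e)) (hx : ExitT M Z cl bD) :
    ExitT M Z (cl6 cl y eP) (bD6 M bD y e z eP) :=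
  ExitT.graft ((h.hit hC hΦ hε).enc hΦ hε) hC hΦ hε hT hℓς hp hx
    (exitT_treeP hΦ hε h.T_pos h.tree h.bP)

omit hT hℓς in
theorem crossT6 (hx : CrossT R cl bD y) (hy : y' = y ∨ y' = eP (root P)) :
    CrossT (joinR R (RC M Z (part eP)) y (eP (root P)) (cT M.ε z e)) (cl6 cl y eP)
      (bD6 M bD y e z eP) y' :=
  CrossT.graft ((h.hit hC hΦ hε).enc hΦ hε) hε hx (CrossT.of_cls _ _ _) hy

omit hT hℓς in
theorem exitT0 (hx : ExitT M Z cl bD) : ExitT M Z (cl0 cl eP) bD :=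
  ExitT.join (((h.hit hC hΦ hε).enc hΦ hε).meet hε) hx (exitT_treeP hΦ hε h.T_pos h.tree h.bP)

omit hT hℓς in
theorem crossT0 (hx : CrossT R cl bD y) :
    CrossT (joinR R (RC M Z (part eP)) y (eP (root P)) (cT M.ε z e)) (cl0 cl eP) bD
      (eP (root P)) :=
  CrossT.join (((h.hit hC hΦ hε).enc hΦ hε).meet hε) hx (CrossT.of_cls _ _ _)
    (Or.inl ⟨rfl, (h.pr.bY.trans_lt h.lt_cT).le⟩)

section six

variable (hp : CDpass M.Φ (cD M.ε z e)) (hle : cT M.ε z e + outT M.Φ M.ε (cD M.ε z e) ≤ M.T)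
include hp hle

omit hT hℓς hp hle in
theorem part_sub6 : part eP ⊆ cl6 cl y eP y := by
  have hen := (h.hit hC hΦ hε).enc hΦ hε
  have h1 : y ∈ cl y ∪ clOf (part eP) (eP (root P)) :=
    Finset.mem_union_left _ (h.pr.str.mem y h.pr.hy)
  show part eP ⊆ clMrg cl (clOf (part eP)) y (eP (root P)) y
  rw [hen.clMrg_mem h1, clOf_mem (mem_part_self (root P))]
  exact Finset.subset_union_right

omit hC hΦ hε hT hℓς hp hle in
theorem mem6_x : x ∈ cl6 cl y eP x := by
  by_cases h1 : x ∈ cl y ∪ clOf (part eP) (eP (root P))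
  · show x ∈ clMrg cl (clOf (part eP)) y (eP (root P)) x
    unfold clMrg
    rw [if_pos h1]
    exact h1
  · show x ∈ clMrg cl (clOf (part eP)) y (eP (root P)) x
    unfold clMrg
    rw [if_neg h1]
    exact Finset.mem_union_left _ (h.pr.str.mem x h.pr.hx)

omit hC hΦ hε hT hℓς hp hle in
theorem mem6_y : y ∈ cl6 cl y eP y := by
  have h1 : y ∈ cl y ∪ clOf (part eP) (eP (root P)) :=
    Finset.mem_union_left _ (h.pr.str.mem y h.pr.hy)
  show y ∈ clMrg cl (clOf (part eP)) y (eP (root P)) y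
  unfold clMrg
  rw [if_pos h1]
  exact h1

/-- **The motion of the merged classes.** -/
theorem mo6 (hb : ∀ k ∈ π, M.bb k = 0) (hd0 : 0 < d.1) (hdT : d.1 ≤ M.T)
    (hex : ExitT M Z cl bD) (hcr : CrossT R cl bD y) :
    Mo M Z (cl6 cl y eP) (bD6 M bD y e z eP) (A6 cl x y eP) := by
  have hs := h.str6 hC hΦ hε hT hℓς hp hle
  have hbb := bb_zero h hb
  refine Mo.of_str (y := y) hΦ hε hC hℓς hs hT (fun i hi => ?_) (fun i hi => ?_) (fun i hi => ?_)
    (fun i hi => ?_) (exitT6 h hC hΦ hε hT hℓς hp hex) (crossT6 h hC hΦ hε hcr (Or.inl rfl))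
  · rcases Finset.mem_union.1 hi with hi | hi
    · exact ⟨x, Finset.mem_union_left _ h.pr.hx, hi⟩
    · exact ⟨y, Finset.mem_union_left _ h.pr.hy, hi⟩
  · rcases Finset.mem_union.1 hi with hi | hi
    · rw [hs.cov.eq x i hi]
      exact Finset.subset_union_left
    · rw [hs.cov.eq y i hi]
      exact Finset.subset_union_right
  · rcases Finset.mem_union.1 hi with hi | hi
    · exact hbb i (hs.sub x hi)
    · exact hbb i (hs.sub y hi)
  · exact pos6 h hC hΦ hε hT hℓς hp hle hb hd0 hdT i (Finset.mem_union.1 hi)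

/-- The line `d` in the merged classes. -/
theorem line6_d (hdT : d.1 ≤ M.T) : bD6 M bD y e z eP x = d.1 ∧
    M.st (cl6 cl y eP x) (bD6 M bD y e z eP x) Z x = d.2 := by
  have hh := h.hit hC hΦ hε
  have h1 : bD6 M bD y e z eP x = d.1 := by
    show grafted M.Φ M.ε bD y (eP (root P)) (cT M.ε z e) (cD M.ε z e) x = d.1
    rw [Enc.grafted_of_ne h.pr.ne hh.xa, h.pr.bx]
  refine ⟨h1, ?_⟩
  rw [h1]
  exact (hh.outL hC hΦ hε hT hℓς hp hle).lx hdT

/-- The exits of the tree in the merged classes. -/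
theorem line6_ex {i : Idx P} (hi : i ≠ root P) :
    bD6 M bD y e z eP (eP i) = (lineML M.Φ M.ε P z i).1.1 ∧
    M.st (cl6 cl y eP (eP i)) (bD6 M bD y e z eP (eP i)) Z (eP i) =
      (lineML M.Φ M.ε P z i).1.2 := by
  have hh := h.hit hC hΦ hε
  have hn1 : eP i ≠ y := fun h' =>
    Finset.disjoint_left.1 h.dj h.pr.yπ (h' ▸ mem_part_self i)
  have hn2 : eP i ≠ eP (root P) := fun h' => hi (eP.injective h')
  have h1 : bD6 M bD y e z eP (eP i) = (lineML M.Φ M.ε P z i).1.1 := by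
    show grafted M.Φ M.ε bD y (eP (root P)) (cT M.ε z e) (cD M.ε z e) (eP i) = _
    rw [Enc.grafted_of_ne hn1 hn2, h.bP]
    rfl
  refine ⟨h1, ?_⟩
  have h2 : (lineML M.Φ M.ε P z i).1.1 ≤ M.T := ((h.rel_lt hε i).trans h.cT_lt).le
  rw [h1, (hh.enc hΦ hε).st₂ hC hΦ hε hT hℓς (mem_part_self i) hn2 h2, clOf_mem (mem_part_self i)]
  exact h.st_rel hΦ hε i

/-- The line `e'`. -/
theorem line6_e : bD6 M bD y e z eP y = (PairD292.outL6 M.Φ M.ε P z e (some false)).1.1 ∧
    M.st (cl6 cl y eP y) (bD6 M bD y e z eP y) Z y =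
      (PairD292.outL6 M.Φ M.ε P z e (some false)).1.2 := by
  have hh := h.hit hC hΦ hε
  have h1 : bD6 M bD y e z eP y = (PairD292.outL6 M.Φ M.ε P z e (some false)).1.1 :=
    if_pos (Or.inl rfl)
  refine ⟨h1, ?_⟩
  rw [h1]
  exact (hh.outL hC hΦ hε hT hℓς hp hle).ly hle

/-- The line `c'`. -/
theorem line6_c :
    bD6 M bD y e z eP (eP (root P)) = (PairD292.outL6 M.Φ M.ε P z e (some true)).1.1 ∧
    M.st (cl6 cl y eP (eP (root P))) (bD6 M bD y e z eP (eP (root P))) Z (eP (root P)) =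
      (PairD292.outL6 M.Φ M.ε P z e (some true)).1.2 := by
  have hh := h.hit hC hΦ hε
  have h1 : bD6 M bD y e z eP (eP (root P)) =
      (PairD292.outL6 M.Φ M.ε P z e (some true)).1.1 := if_pos (Or.inr rfl)
  refine ⟨h1, ?_⟩
  rw [h1]
  exact (hh.outC' hC hΦ hε hT hℓς hp hle).ly hle

end six

/-! ### Separate classes -/

omit hT hℓς in
theorem cl0_x : cl0 cl eP x = cl x :=
  (((h.hit hC hΦ hε).enc hΦ hε).meet hε).cl₁_of h.pr.xπ

omit hT hℓς in
theorem cl0_P (i : Idx P) : cl0 cl eP (eP i) = part eP := by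
  show clSep cl (clOf (part eP)) (eP i) = part eP
  rw [(((h.hit hC hΦ hε).enc hΦ hε).meet hε).cl₂_of (mem_part_self i),
    clOf_mem (mem_part_self i)]

/-- **The motion of the class of the first line and of the tree**, separate classes. -/
theorem mo0 (hP : P ≠ leaf) (hb : ∀ k ∈ π, M.bb k = 0) (hd0 : 0 < d.1) (hdT : d.1 ≤ M.T)
    (hex : ExitT M Z cl bD) (hcr : CrossT R cl bD y) :
    Mo M Z (cl0 cl eP) bD (cl x ∪ part eP) := by
  have hs := h.str0 hC hΦ hε
  have hbb := bb_zero h hb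
  have hx := cl0_x h hC hΦ hε
  have hPc := cl0_P h hC hΦ hε
  have hmem : ∀ i ∈ cl x ∪ part eP, cl0 cl eP i = cl x ∨ cl0 cl eP i = part eP := by
    intro i hi
    rcases Finset.mem_union.1 hi with hi | hi
    · left
      have h1 : i ∈ cl0 cl eP x := by rw [hx]; exact hi
      have h2 : cl0 cl eP i = cl0 cl eP x := hs.cov.eq x i h1
      rw [h2, hx]
    · right
      obtain ⟨i, rfl⟩ := mem_part.1 hi
      exact hPc i
  refine Mo.of_str (y := eP (root P)) hΦ hε hC hℓς hs hT (fun i hi => ?_) (fun i hi => ?_)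
    (fun i hi => ?_) (fun i hi => ?_) (exitT0 h hC hΦ hε hex) (crossT0 h hC hΦ hε hcr)
  · rcases Finset.mem_union.1 hi with hi | hi
    · refine ⟨x, Finset.mem_union_left _ (Finset.mem_singleton_self x), ?_⟩
      have h1 : i ∈ cl0 cl eP x := by rw [hx]; exact hi
      exact h1
    · refine ⟨eP (root P), Finset.mem_union_right _ (mem_part_self _), ?_⟩
      have h1 : i ∈ cl0 cl eP (eP (root P)) := by rw [hPc]; exact hi
      exact h1
  · show cl0 cl eP i ⊆ cl x ∪ part eP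
    rcases hmem i hi with h1 | h1
    · rw [h1]
      exact Finset.subset_union_left
    · rw [h1]
      exact Finset.subset_union_right
  · rcases Finset.mem_union.1 hi with hi | hi
    · exact hb i (h.pr.str.sub x hi)
    · exact hbb i (Finset.mem_union_right _ hi)
  · rcases Finset.mem_union.1 hi with hi | hi
    · exact pos_x h hb hd0 hdT i hi
    · exact pos_P h hΦ hε hP i hi

omit hT hℓς in
/-- **The motion of the class of the first line.** -/
theorem mo0x (hTπ : TL M c ℓ ς π Z) (hℓς : 2 * ℓ ≤ ς) (hb : ∀ k ∈ π, M.bb k = 0) (hd0 : 0 < d.1)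
    (hdT : d.1 ≤ M.T) (hex : ExitT M Z cl bD) (hcr : CrossT R cl bD y) :
    Mo M Z cl bD (cl x) := by
  have hs := h.pr.str
  refine Mo.of_str (y := y) hΦ hε hC hℓς hs hTπ (fun i hi => ⟨x, h.pr.hx, hi⟩) (fun i hi => ?_)
    (fun i hi => hb i (hs.sub x hi)) (pos_x h hb hd0 hdT) hex hcr
  rw [hs.cov.eq x i hi]

omit hT hℓς in
/-- The line `d`, separate classes. -/
theorem line0_d (hdT : d.1 ≤ M.T) : bD x = d.1 ∧ M.st (cl0 cl eP x) (bD x) Z x = d.2 := by
  refine ⟨h.pr.bx.symm, ?_⟩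
  rw [cl0_x h hC hΦ hε, ← h.pr.bx]
  exact h.pr.lx hdT

omit hT hℓς in
/-- The lines of the tree, separate classes. -/
theorem line0_P (i : Idx P) : bD (eP i) = (lineML M.Φ M.ε P z i).1.1 ∧
    M.st (cl0 cl eP (eP i)) (bD (eP i)) Z (eP i) = (lineML M.Φ M.ε P z i).1.2 := by
  have h1 : bD (eP i) = (lineML M.Φ M.ε P z i).1.1 := h.bP i
  refine ⟨h1, ?_⟩
  rw [h1, cl0_P h hC hΦ hε]
  exact h.st_rel hΦ hε i

end ptree

end Crest.Agent.R122.StrMain307

end
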