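import Crest.Agent.R122.StrMap_491
import Crest.Agent.R122.UnwE_410

/-!
# Row 122, LN1 (helper491): glued worlds with a reborn line

* `nb_of_birth` : no gas particle is within `ε` of the birth point of the line `l` at its birth; then
  nobody of the world `(cfg w).ins l` is close to the line at its birth.
* `gd_reborn` : the data of the glued world of `(cfg w).ins l`, where `l` is an exit (`Exit0`), not
  necessarily born at its last contact.
* `Pair.gd_x`, `Pair.gd_y` : the glued worlds of `(cfg w).ins d`, `(cfg w).ins e` for a pair structure.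
-/

set_option autoImplicit false
set_option linter.unusedSectionVars false

open MeasureTheory Set Filter Topology
open scoped NNReal ENNReal
open Crest.AnalysisR.Kinetic
open Crest.Agent.R122.Flow671 hiding rel
open Crest.Agent.R122.Loc45 Crest.Agent.R122.Ins45
open Crest.Agent.R122.VL581 Crest.Agent.R122.VL581.VSys Crest.Agent.R122.VLInst442
open Crest.Agent.R122.LNInst491 Crest.Agent.R122.LN304 Crest.Agent.R122.LNg410
open Crest.Agent.R122.LNTree410 Crest.Agent.R122.PWGlue491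
open Crest.Agent.R122.LNGraft410 Crest.Agent.R122.LNEv968 Crest.Agent.R122.PWInst442
open Crest.Agent.R122.EDefs602
open scoped Classical

noncomputable section

namespace Crest.Agent.R122.StrG491

variable {J κ : Type} [Fintype J] {M : VSys J κ} {Z : J → PhasePoint} {n : ℕ} {w : Config n}
  {l : ML} {cl : J → Finset J} {f : Fin n ↪ J} {a : J}

/-- Nobody is close to the line at its birth. -/
theorem nb_of_birth {Φ : Space3 → ℝ} {ε : ℝ} (hΦ : AdmissiblePotential Φ) (hε : 0 < ε)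
    (hl : 0 < l.1.1) (hN : ∀ i : Fin n, ε < dist l.1.2.1 (flow Φ ε l.1.1 w i).1)
    (j : Fin n ⊕ Unit) (hj : j ≠ Sum.inr ()) :
    ε < dist (((MW.cfg w).ins l).path Φ ε l.1.1 (Sum.inr ())).1
      (((MW.cfg w).ins l).path Φ ε l.1.1 j).1 := by
  rcases j with i | u
  · rw [Unw410.path_ins_birth Φ ε w hl le_rfl, Unw410.path_ins_of_le hΦ hε w hl le_rfl, sub_self,
      zero_smul, add_zero]
    exact hN i
  · exact absurd rfl hj

/-- **The glued world with a reborn line.** -/
theorem gd_reborn (hΦ : AdmissiblePotential M.Φ) (hε : 0 < M.ε) (hC : Cover M Z cl)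
    (hcl : ∀ i, cl (f i) = ∅) (ho : ∀ i, M.o ≠ some (f i)) (hb : ∀ i, M.b (f i) ≤ 0)
    (hz : ∀ i, Z (f i) = w i) (ha : ∀ i, f i ≠ a) (hex : Exit0 M Z cl a l.1.1 (back l.1))
    (hl : 0 < l.1.1) (hN : ∀ i : Fin n, M.ε < dist l.1.2.1 (flow M.Φ M.ε l.1.1 w i).1)
    (hOk : ((MW.cfg w).ins l).Ok M.Φ M.ε) :
    GD M Z cl (bD ((MW.cfg w).ins l) (insF f a ha)) (labs (insF f a ha))
      (XD ((MW.cfg w).ins l) (insF f a ha) M.Φ M.ε) := by
  refine gd_of_lab' hΦ hε hC hOk fun i => ?_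
  rcases i with i | i
  · rcases lab_cfg (M := M) (Z := Z) hcl ho hb hz i with h | h
    · exact Or.inl h
    · exact absurd (hcl i) h.1.nonempty.ne_empty
  · refine Or.inr ⟨hex, fun _ => Or.inr (Or.inr fun j hj _ => ?_)⟩
    exact nb_of_birth hΦ hε hl hN j hj

section pair

variable {c : ℝ} {R : ℝ → J → J → Prop} {π : Finset J} {bE : J → ℝ} {x y : J} {d e : ML}

/-- The glued world of the gas and the first line. -/
theorem Pair.gd_x (h : Pair M c Z R π cl bE x y d.1 e.1) (hΦ : AdmissiblePotential M.Φ)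
    (hε : 0 < M.ε) (hf : ∀ i, f i ∉ π) (ho : ∀ i, M.o ≠ some (f i)) (hb : ∀ i, M.b (f i) ≤ 0)
    (hz : ∀ i, Z (f i) = w i) (ha : ∀ i, f i ≠ x) (hOk : ((MW.cfg w).ins d).Ok M.Φ M.ε) :
    GD M Z cl (bD ((MW.cfg w).ins d) (insF f x ha)) (labs (insF f x ha))
      (XD ((MW.cfg w).ins d) (insF f x ha) M.Φ M.ε) :=
  gd_of_lab hΦ hε h.str.cov hOk fun i =>
    lab_ins (fun i => h.str.gas hf ho hb hz i) ha h.lab_x i

/-- The glued world of the gas and the second line, possibly reborn. -/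
theorem Pair.gd_y (h : Pair M c Z R π cl bE x y d.1 e.1) (hΦ : AdmissiblePotential M.Φ)
    (hε : 0 < M.ε) (hf : ∀ i, f i ∉ π) (ho : ∀ i, M.o ≠ some (f i)) (hb : ∀ i, M.b (f i) ≤ 0)
    (hz : ∀ i, Z (f i) = w i) (ha : ∀ i, f i ≠ y) (hl : 0 < e.1.1)
    (hN : ∀ i : Fin n, M.ε < dist e.1.2.1 (flow M.Φ M.ε e.1.1 w i).1)
    (hOk : ((MW.cfg w).ins e).Ok M.Φ M.ε) :
    GD M Z cl (bD ((MW.cfg w).ins e) (insF f y ha)) (labs (insF f y ha))
      (XD ((MW.cfg w).ins e) (insF f y ha) M.Φ M.ε) :=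
  gd_reborn hΦ hε h.str.cov (fun i => h.str.cl_empty (hf i)) ho hb hz ha h.exit_y hl hN hOk

end pair

end Crest.Agent.R122.StrG491

end
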