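import Crest.Agent.R122.SurjPair_968

/-!
# Row 122, block C, SURJ (helper968), part 2: clean histories are trees

A world (solution of Newton's equations on `[0, T]`) in which every particle is in the past of the
root, the contact graph on `[0, T]` is a forest, the contact periods of different pairs do not
overlap, no contact is grazing and the root is in contact with nobody at time `T`, is the path of a
valid separated tree.
-/

set_option autoImplicit false

open MeasureTheory Set Filter Topology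
open Crest.AnalysisR.Kinetic
open scoped Classical

noncomputable section

namespace Crest.Agent.R122.Surj968

open Kin796 Kin796.CTree Disc416 Tree674 Flow671 Loc45 Causal291 PathFlow968

variable {Φ : Space3 → ℝ} {ε : ℝ}

/-- The contact graph on `[0, T]`. -/
def cgraph {ι : Type*} (γ : ℝ → ι → PhasePoint) (ε T : ℝ) : SimpleGraph ι where
  Adj j k := j ≠ k ∧ ∃ u ∈ Icc 0 T, Ct γ ε u j k
  symm := ⟨fun _ _ h => ⟨h.1.symm, h.2.imp fun _ h' => ⟨h'.1, h'.2.symm⟩⟩⟩
  loopless := ⟨fun _ h => h.1 rfl⟩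

/-- **Clean histories.** -/
structure Clean {ι : Type*} (γ : ℝ → ι → PhasePoint) (ε T : ℝ) (i : ι) : Prop where
  /-- every particle is in the past of the root -/
  full : ∀ k, Past (Ct γ ε) T i 0 k
  /-- the contact graph is a forest -/
  acyc : (cgraph γ ε T).IsAcyclic
  /-- contact periods of different pairs do not overlap -/
  win : ∀ j k j' k', j ≠ k → j' ≠ k' → s(j, k) ≠ s(j', k') → ∀ u₁ u₂ u₃, 0 ≤ u₁ → u₁ ≤ u₂ →
    u₂ ≤ u₃ → u₃ ≤ T → Ct γ ε u₁ j k → Ct γ ε u₂ j' k' → ¬ Ct γ ε u₃ j k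
  /-- no contact at time `0` -/
  init : ∀ j k, j ≠ k → ¬ Ct γ ε 0 j k
  /-- the root is in contact with nobody at time `T` -/
  final : ∀ k, k ≠ i → ¬ Ct γ ε T i k
  /-- no contact is grazing -/
  graze : ∀ j k, j ≠ k → ∀ u ∈ Ioo 0 T, dist (γ u j).1 (γ u k).1 = ε →
    inner ℝ ((γ u j).1 - (γ u k).1) ((γ u j).2 - (γ u k).2) ≠ 0

section combinatorics

variable {ι : Type*} {γ : ℝ → ι → PhasePoint} {T : ℝ}

/-- Contacts before `s'`. -/
def Cb (γ : ℝ → ι → PhasePoint) (ε s' : ℝ) (u : ℝ) (j k : ι) : Prop :=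
  0 ≤ u ∧ u < s' ∧ Ct γ ε u j k

/-- Everything in the past of `r` (contacts before `s'`) is connected to `r` without the edge
`{a, b}`, if `{a, b}` has no contact before `s'`. -/
theorem reach {s' : ℝ} (hs'T : s' ≤ T) {a b : ι}
    (hab : ∀ u, 0 ≤ u → u < s' → ¬ Ct γ ε u a b) {t : ℝ} {r : ι} {u : ℝ} {k : ι}
    (h : Past (Cb γ ε s') t r u k) : ((cgraph γ ε T).deleteEdges {s(a, b)}).Reachable r k := by
  induction h with
  | root h => exact SimpleGraph.Reachable.refl _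
  | @step s₁ s₂ j k h hc hs ih =>
    by_cases hjk : j = k
    · rw [← hjk]
      exact ih
    · refine ih.trans (SimpleGraph.Adj.reachable ?_)
      rw [SimpleGraph.deleteEdges_adj]
      refine ⟨⟨hjk, s₂, ⟨hc.1, hc.2.1.le.trans hs'T⟩, hc.2.2⟩, ?_⟩
      rw [Set.mem_singleton_iff, Sym2.eq_iff]
      rintro (⟨rfl, rfl⟩ | ⟨rfl, rfl⟩)
      · exact hab s₂ hc.1 hc.2.1 hc.2.2
      · exact hab s₂ hc.1 hc.2.1 hc.2.2.symm

theorem bridge (hac : (cgraph γ ε T).IsAcyclic) {a b : ι} (hab : a ≠ b) {u : ℝ}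
    (hu : u ∈ Icc 0 T) (h : Ct γ ε u a b) :
    ¬ ((cgraph γ ε T).deleteEdges {s(a, b)}).Reachable a b :=
  SimpleGraph.isBridge_iff.1
    (SimpleGraph.isAcyclic_iff_forall_adj_isBridge.1 hac ⟨hab, u, hu, h⟩)

end combinatorics

/-- Restriction of a clean history to a sub-family. -/
theorem Clean.sub {ι : Type*} {γ : ℝ → ι → PhasePoint} {T : ℝ} {i : ι} (h : Clean γ ε T i)
    {s' : ℝ} (hs' : s' ≤ T) (A : Set ι) {r : ι} (hr : r ∈ A)
    (h1 : ∀ k ∈ A, Past (Cb γ ε s') s' r 0 k)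
    (h2 : ∀ u j k, j ∈ A → Cb γ ε s' u j k → k ∈ A)
    (h3 : ∀ k ∈ A, k ≠ r → ¬ Ct γ ε s' r k) :
    Clean (fun u (k : A) => γ u k) ε s' ⟨r, hr⟩ where
  full k := by
    obtain ⟨k', hk', h'⟩ := past_comap (C := Cb γ ε s') (D := Cb (fun u (k : A) => γ u k) ε s')
      (e := Subtype.val) (fun _ _ _ h => h) (i := ⟨r, hr⟩) (s := 0) (t := s') (fun u j l _ hc =>
        ⟨⟨l, h2 u j l j.2 hc⟩, rfl⟩) (h1 k k.2)
    rw [Subtype.ext hk']
    exact h'.mono_rel fun _ _ _ h => h.2.2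
  acyc := by
    refine SimpleGraph.IsAcyclic.comap (G' := cgraph γ ε T) ⟨Subtype.val, ?_⟩
      Subtype.val_injective h.acyc
    rintro ⟨a, ha⟩ ⟨b, hb⟩ ⟨hab, u, hu, hc⟩
    exact ⟨fun h' => hab (Subtype.ext h'), u, ⟨hu.1, hu.2.trans hs'⟩, hc⟩
  win := by
    rintro ⟨j, hj⟩ ⟨k, hk⟩ ⟨j', hj'⟩ ⟨k', hk'⟩ hjk hjk' hne u₁ u₂ u₃ h0 h12 h23 h3T c1 c2 c3
    refine h.win j k j' k' (fun h' => hjk (Subtype.ext h')) (fun h' => hjk' (Subtype.ext h'))
      (fun h' => hne ?_) u₁ u₂ u₃ h0 h12 h23 (h3T.trans hs') c1 c2 c3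
    rw [Sym2.eq_iff] at h' ⊢
    rcases h' with ⟨rfl, rfl⟩ | ⟨rfl, rfl⟩
    · exact Or.inl ⟨rfl, rfl⟩
    · exact Or.inr ⟨rfl, rfl⟩
  init := by
    rintro ⟨j, hj⟩ ⟨k, hk⟩ hjk hc
    exact h.init j k (fun h' => hjk (Subtype.ext h')) hc
  final := by
    rintro ⟨k, hk⟩ hkr hc
    exact h3 k hk (fun h' => hkr (Subtype.ext h')) hc
  graze := by
    rintro ⟨j, hj⟩ ⟨k, hk⟩ hjk u hu hd
    exact h.graze j k (fun h' => hjk (Subtype.ext h')) u ⟨hu.1, hu.2.trans_le hs'⟩ hd

/-- Structure of the last contact of the root of a clean history. -/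
structure LastContact {ι : Type*} (γ : ℝ → ι → PhasePoint) (ε T : ℝ) (i j : ι) (s' s : ℝ) :
    Prop where
  ne : i ≠ j
  pos : 0 < s'
  lt : s' < s
  ltT : s < T
  dist_in : dist (γ s' i).1 (γ s' j).1 = ε
  dist_out : dist (γ s i).1 (γ s j).1 = ε
  out : 0 < inner ℝ ((γ s i).1 - (γ s j).1) ((γ s i).2 - (γ s j).2)
  /-- the root has no contact after `s` -/
  after : ∀ u, s < u → u ≤ T → ∀ k, k ≠ i → ¬ Ct γ ε u i k
  /-- no contact of the pair before `s'` -/
  before : ∀ u, 0 ≤ u → u < s' → ¬ Ct γ ε u i j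
  /-- all other pairs are not in contact between `s'` and `s` -/
  mid : ∀ a b, a ≠ b → s(a, b) ≠ s(i, j) → ∀ u, s' ≤ u → u ≤ s → ¬ Ct γ ε u a b

/-- One-sided limit. -/
theorem le_of_right {d : ℝ → ℝ} {s T c : ℝ} (hd : ContinuousOn d (Icc 0 T)) (hs : 0 ≤ s)
    (hsT : s < T) (h : ∀ u, s < u → u ≤ T → c < d u) : c ≤ d s := by
  have h1 : Tendsto d (𝓝[>] s) (𝓝 (d s)) := by
    have h2 := hd s ⟨hs, hsT.le⟩
    have h3 : 𝓝[>] s ≤ 𝓝[Icc 0 T] s := by
      rw [← nhdsWithin_Ioc_eq_nhdsGT hsT]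
      exact nhdsWithin_mono _ fun x hx => ⟨hs.trans hx.1.le, hx.2⟩
    exact h2.mono_left h3
  refine ge_of_tendsto h1 ?_
  filter_upwards [Ioc_mem_nhdsGT hsT] with u hu
  exact (h u hu.1 hu.2).le

theorem le_of_left {d : ℝ → ℝ} {s T c : ℝ} (hd : ContinuousOn d (Icc 0 T)) (hs : 0 < s)
    (hsT : s ≤ T) (h : ∀ u, 0 ≤ u → u < s → c < d u) : c ≤ d s := by
  have h1 : Tendsto d (𝓝[<] s) (𝓝 (d s)) := by
    have h2 := hd s ⟨hs.le, hsT⟩
    have h3 : 𝓝[<] s ≤ 𝓝[Icc 0 T] s := by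
      rw [← nhdsWithin_Ico_eq_nhdsLT hs]
      exact nhdsWithin_mono _ fun x hx => ⟨hx.1, hx.2.le.trans hsT⟩
    exact h2.mono_left h3
  refine ge_of_tendsto h1 ?_
  filter_upwards [Ico_mem_nhdsLT hs] with u hu
  exact (h u hu.1 hu.2).le

theorem continuousOn_pos {ι : Type*} [Fintype ι] {γ : ℝ → ι → PhasePoint} {s : Set ℝ}
    (h : SolOn Φ ε γ s) (i : ι) : ContinuousOn (fun u => γ u i) s :=
  (continuous_apply i).comp_continuousOn h.continuousOn

theorem continuousOn_dist {ι : Type*} [Fintype ι] {γ : ℝ → ι → PhasePoint} {s : Set ℝ}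
    (h : SolOn Φ ε γ s) (i j : ι) : ContinuousOn (fun u => dist (γ u i).1 (γ u j).1) s :=
  fun u hu => ((continuousOn_pos h i u hu).fst).dist ((continuousOn_pos h j u hu).fst)

/-- Derivative of the square of the distance. -/
theorem hasDerivWithinAt_dist_sq {ι : Type*} [Fintype ι] {γ : ℝ → ι → PhasePoint} {s : Set ℝ}
    (h : SolOn Φ ε γ s) (i j : ι) {u : ℝ} (hu : u ∈ s) :
    HasDerivWithinAt (fun u => ‖(γ u i).1 - (γ u j).1‖ ^ 2)
      (2 * inner ℝ ((γ u i).1 - (γ u j).1) ((γ u i).2 - (γ u j).2)) s u := by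
  have h1 := (hasDerivWithinAt_mk.1 (h u hu)).1
  have h2 : HasDerivWithinAt (fun u => (γ u i).1 - (γ u j).1) ((γ u i).2 - (γ u j).2) s u :=
    (h1 i).sub (h1 j)
  exact h2.norm_sq

/-- **The last contact of the root.** -/
theorem exists_lastContact {ι : Type*} [Fintype ι] (hε : 0 < ε) {γ : ℝ → ι → PhasePoint}
    {T : ℝ} {i : ι} (hγ : SolOn Φ ε γ (Icc 0 T)) (hc : Clean γ ε T i)
    (hne : ∃ k, k ≠ i) : ∃ j s' s, LastContact γ ε T i j s' s := by
  -- the root has a contact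
  have hex : ∃ u ∈ Icc 0 T, ∃ j, j ≠ i ∧ Ct γ ε u i j := by
    by_contra hno
    push Not at hno
    obtain ⟨k, hk⟩ := hne
    have := (hc.full k).mem_of_closed (S := {i}) rfl fun u j l h0 hT' hj hct => by
      rw [Set.mem_singleton_iff] at hj ⊢
      subst hj
      by_contra hl
      exact hno u ⟨h0, hT'⟩ l hl hct
    exact hk this
  have hclosed : ∀ j k, IsClosed {u | u ∈ Icc 0 T ∧ Ct γ ε u j k} := by
    intro j k
    have h1 := (continuousOn_dist hγ j k).preimage_isClosed_of_isClosed isClosed_Icc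
      (isClosed_Iic (a := ε))
    exact h1
  have hcomp : IsCompact {u | u ∈ Icc 0 T ∧ ∃ j, j ≠ i ∧ Ct γ ε u i j} := by
    have h1 : {u | u ∈ Icc 0 T ∧ ∃ j, j ≠ i ∧ Ct γ ε u i j} =
        ⋃ j ∈ {j : ι | j ≠ i}, {u | u ∈ Icc 0 T ∧ Ct γ ε u i j} := by
      ext u
      simp only [mem_ofPred_eq, mem_iUnion, exists_prop]
      constructor
      · rintro ⟨h1, j, h2, h3⟩
        exact ⟨j, h2, h1, h3⟩
      · rintro ⟨j, h2, h1, h3⟩
        exact ⟨h1, j, h2, h3⟩
    refine isCompact_Icc.of_isClosed_subset ?_ (fun u hu => hu.1)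
    rw [h1]
    exact (Set.toFinite _).isClosed_biUnion fun j _ => hclosed i j
  obtain ⟨s, ⟨hsI, j, hji, hsc⟩, hsmax⟩ := hcomp.exists_isGreatest (by
    obtain ⟨u, hu, j, hj, h⟩ := hex
    exact ⟨u, hu, j, hj, h⟩)
  have hij : i ≠ j := hji.symm
  have hcomp' : IsCompact {u | u ∈ Icc 0 T ∧ Ct γ ε u i j} :=
    isCompact_Icc.of_isClosed_subset (hclosed i j) (fun u hu => hu.1)
  obtain ⟨s', ⟨hs'I, hs'c⟩, hs'min⟩ := hcomp'.exists_isLeast ⟨s, hsI, hsc⟩
  have hs's : s' ≤ s := hs'min ⟨hsI, hsc⟩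
  have hs'0 : 0 < s' := by
    rcases eq_or_lt_of_le hs'I.1 with h | h
    · rw [← h] at hs'c
      exact absurd hs'c (hc.init i j hij)
    · exact h
  have hsT : s < T := by
    rcases eq_or_lt_of_le hsI.2 with h | h
    · rw [h] at hsc
      exact absurd hsc (hc.final j hji)
    · exact h
  have hafter : ∀ u, s < u → u ≤ T → ∀ k, k ≠ i → ¬ Ct γ ε u i k := by
    intro u hu huT k hk hct
    exact absurd (hsmax ⟨⟨hsI.1.trans hu.le, huT⟩, k, hk, hct⟩) (not_le.2 hu)
  have hbefore : ∀ u, 0 ≤ u → u < s' → ¬ Ct γ ε u i j := by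
    intro u hu0 hu hct
    exact absurd (hs'min ⟨⟨hu0, hu.le.trans hs'I.2⟩, hct⟩) (not_le.2 hu)
  have hdout : dist (γ s i).1 (γ s j).1 = ε := by
    refine le_antisymm hsc (le_of_right (continuousOn_dist hγ i j) hsI.1 hsT fun u hu huT => ?_)
    exact not_le.1 (hafter u hu huT j hji)
  have hdin : dist (γ s' i).1 (γ s' j).1 = ε := by
    refine le_antisymm hs'c (le_of_left (continuousOn_dist hγ i j) hs'0 hs'I.2 fun u hu0 hu => ?_)
    exact not_le.1 (hbefore u hu0 hu)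
  -- outgoing
  have hs0 : 0 < s := hs'0.trans_le hs's
  have hder : HasDerivAt (fun u => ‖(γ u i).1 - (γ u j).1‖ ^ 2)
      (2 * inner ℝ ((γ s i).1 - (γ s j).1) ((γ s i).2 - (γ s j).2)) s :=
    (hasDerivWithinAt_dist_sq hγ i j hsI).hasDerivAt (Icc_mem_nhds hs0 hsT)
  have hsq : ‖(γ s i).1 - (γ s j).1‖ ^ 2 = ε ^ 2 := by rw [← dist_eq_norm, hdout]
  have hge : 0 ≤ inner ℝ ((γ s i).1 - (γ s j).1) ((γ s i).2 - (γ s j).2) := by
    by_contra hneg
    rw [not_le] at hneg
    have h1 := Scat818.eventually_lt_right hder (by linarith)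
    have h2 : ∀ᶠ u in 𝓝[>] s, u ∈ Ioc s T := Ioc_mem_nhdsGT hsT
    obtain ⟨u, hu1, hu2⟩ := (h1.and h2).exists
    have h3 := not_le.1 (hafter u hu2.1 hu2.2 j hji)
    rw [hsq, ← dist_eq_norm] at hu1
    nlinarith [dist_nonneg (x := (γ u i).1) (y := (γ u j).1)]
  have hout : 0 < inner ℝ ((γ s i).1 - (γ s j).1) ((γ s i).2 - (γ s j).2) :=
    lt_of_le_of_ne hge (hc.graze i j hij s ⟨hs0, hsT⟩ hdout).symm
  have hlt : s' < s := by
    have h1 : ∀ᶠ u in 𝓝[<] s, ‖(γ u i).1 - (γ u j).1‖ ^ 2 < ε ^ 2 := by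
      have h2 := Scat818.eventually_lt_right (u := fun x => ‖(γ (-x) i).1 - (γ (-x) j).1‖ ^ 2)
        (a := -s) (u' := -(2 * inner ℝ ((γ s i).1 - (γ s j).1) ((γ s i).2 - (γ s j).2))) (by
          have h3 : HasDerivAt (fun u => ‖(γ u i).1 - (γ u j).1‖ ^ 2)
            (2 * inner ℝ ((γ s i).1 - (γ s j).1) ((γ s i).2 - (γ s j).2)) (-(-s)) := by
              rw [neg_neg]
              exact hder
          have h4 := h3.scomp (-s) (hasDerivAt_neg (-s))
          simpa [Function.comp_def] using h4) (by linarith)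
      simp only [neg_neg, hsq] at h2
      have h5 : Tendsto (fun x : ℝ => -x) (𝓝[<] s) (𝓝[>] (-s)) := by
        refine tendsto_nhdsWithin_iff.2 ⟨?_, ?_⟩
        · exact (continuous_neg.tendsto s).mono_left nhdsWithin_le_nhds
        · filter_upwards [self_mem_nhdsWithin] with x hx
          have : x < s := hx
          exact neg_lt_neg this
      have h6 := h5.eventually h2
      simpa using h6
    have h2 : ∀ᶠ u in 𝓝[<] s, u ∈ Ico 0 s := Ico_mem_nhdsLT hs0
    obtain ⟨u, hu1, hu2⟩ := (h1.and h2).exists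
    have h3 : Ct γ ε u i j := by
      show dist _ _ ≤ ε
      rw [dist_eq_norm]
      nlinarith [norm_nonneg ((γ u i).1 - (γ u j).1)]
    exact (hs'min ⟨⟨hu2.1, hu2.2.le.trans hsI.2⟩, h3⟩).trans_lt hu2.2
  refine ⟨j, s', s, ⟨hij, hs'0, hlt, hsT, hdin, hdout, hout, hafter, hbefore, ?_⟩⟩
  intro a b hab hne u hu1 hu2 hct
  exact hc.win i j a b hij hab hne.symm s' u s hs'I.1 hu1 hu2 hsI.2 hs'c hct hsc

/-! ### The split at the last contact -/

section split

variable {ι : Type*} {γ : ℝ → ι → PhasePoint} {T : ℝ} {i j : ι} {s' s : ℝ}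

/-- The branch of `r`: its past before `s'`. -/
def branch (γ : ℝ → ι → PhasePoint) (ε s' : ℝ) (r : ι) : Set ι := {k | Past (Cb γ ε s') s' r 0 k}

theorem mem_branch_self {r : ι} (hs' : 0 ≤ s') : r ∈ branch γ ε s' r := Past.root hs'

theorem LastContact.cover (hl : LastContact γ ε T i j s' s) (hc : Clean γ ε T i) (k : ι) :
    k ∈ branch γ ε s' i ∨ k ∈ branch γ ε s' j := by
  have hs'T : s' ≤ T := (hl.lt.trans hl.ltT).le
  have key := Act_subset_of_closed (C := Ct γ ε) (t := T) (i := i) (s₀ := 0)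
    (G := fun u => {k | (u < s' ∧ (Past (Cb γ ε s') s' i u k ∨ Past (Cb γ ε s') s' j u k)) ∨
      (s' ≤ u ∧ (k = i ∨ (k = j ∧ u ≤ s)))}) ?_ ?_ ?_ (le_refl 0) (hc.full k)
  · rcases key with h | h
    · exact h.2
    · exact absurd h.1 (not_le.2 hl.pos)
  · intro u _ _
    rcases lt_or_ge u s' with h | h
    · exact Or.inl ⟨h, Or.inl (.root h.le)⟩
    · exact Or.inr ⟨h, Or.inl rfl⟩
  · intro u u' _ huu' _ k hk
    rcases hk with ⟨h1, h2⟩ | ⟨h1, h2⟩
    · exact Or.inl ⟨huu'.trans_lt h1, h2.imp (fun h => h.mono huu') (fun h => h.mono huu')⟩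
    · rcases lt_or_ge u s' with h | h
      · refine Or.inl ⟨h, ?_⟩
        rcases h2 with rfl | ⟨rfl, -⟩
        · exact Or.inl (.root h.le)
        · exact Or.inr (.root h.le)
      · exact Or.inr ⟨h, h2.imp id fun h3 => ⟨h3.1, huu'.trans h3.2⟩⟩
  · intro u a l hu0 huT ha hct
    rcases ha with ⟨h1, h2⟩ | ⟨h1, h2⟩
    · exact Or.inl ⟨h1, h2.imp (fun h => h.contact ⟨hu0, h1, hct⟩)
        (fun h => h.contact ⟨hu0, h1, hct⟩)⟩
    · refine Or.inr ⟨h1, ?_⟩
      rcases h2 with rfl | ⟨rfl, h3⟩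
      · by_cases hla : l = a
        · exact Or.inl hla
        · right
          have hus : u ≤ s := by
            by_contra hus
            exact hl.after u (not_le.1 hus) huT l hla hct
          refine ⟨?_, hus⟩
          by_contra hlj
          refine hl.mid a l (Ne.symm hla) ?_ u h1 hus hct
          rw [Ne, Sym2.eq_iff]
          rintro (⟨-, h4⟩ | ⟨h4, -⟩)
          · exact hlj h4
          · exact hl.ne h4
      · by_cases hla : l = a
        · exact Or.inr ⟨hla, h3⟩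
        · left
          by_contra hli
          refine hl.mid a l (Ne.symm hla) ?_ u h1 h3 hct
          rw [Ne, Sym2.eq_iff]
          rintro (⟨h4, -⟩ | ⟨-, h4⟩)
          · exact hl.ne h4.symm
          · exact hli h4

theorem LastContact.disj (hl : LastContact γ ε T i j s' s) (hc : Clean γ ε T i) {k : ι}
    (h1 : k ∈ branch γ ε s' i) (h2 : k ∈ branch γ ε s' j) : False := by
  have hs'T : s' ≤ T := (hl.lt.trans hl.ltT).le
  refine bridge hc.acyc hl.ne ⟨(hl.pos.trans hl.lt).le, hl.ltT.le⟩ hl.dist_out.le ?_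
  exact (reach hs'T hl.before h1).trans (reach hs'T hl.before h2).symm

theorem LastContact.cross (hl : LastContact γ ε T i j s' s) (hc : Clean γ ε T i) {a b : ι}
    (ha : a ∈ branch γ ε s' i) (hb : b ∈ branch γ ε s' j) {u : ℝ} (hu : u ∈ Icc 0 T)
    (h : Ct γ ε u a b) : a = i ∧ b = j := by
  have hs'T : s' ≤ T := (hl.lt.trans hl.ltT).le
  by_contra hn
  have hab : a ≠ b := by
    rintro rfl
    exact hl.disj hc ha hb
  have hne : s(a, b) ≠ s(i, j) := by
    rw [Ne, Sym2.eq_iff]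
    rintro (⟨rfl, rfl⟩ | ⟨rfl, rfl⟩)
    · exact hn ⟨rfl, rfl⟩
    · exact hl.disj hc ha (mem_branch_self hl.pos.le)
  refine bridge hc.acyc hl.ne ⟨(hl.pos.trans hl.lt).le, hl.ltT.le⟩ hl.dist_out.le ?_
  refine ((reach hs'T hl.before ha).trans (SimpleGraph.Adj.reachable ?_)).trans
    (reach hs'T hl.before hb).symm
  rw [SimpleGraph.deleteEdges_adj]
  exact ⟨⟨hab, u, hu, h⟩, hne⟩

/-- No contacts inside of a branch after the entrance time. -/
theorem LastContact.inner (hl : LastContact γ ε T i j s' s) (hc : Clean γ ε T i) {a b r : ι}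
    (hab : a ≠ b) (hr : r = i ∨ r = j) (ha : a ∈ branch γ ε s' r) (hb : b ∈ branch γ ε s' r)
    {u : ℝ} (hu : s' ≤ u) (huT : u ≤ T) : ¬ Ct γ ε u a b := by
  intro h
  have hs'T : s' ≤ T := (hl.lt.trans hl.ltT).le
  have hne : s(a, b) ≠ s(i, j) := by
    rw [Ne, Sym2.eq_iff]
    rcases hr with rfl | rfl
    · rintro (⟨rfl, rfl⟩ | ⟨rfl, rfl⟩)
      · exact hl.disj hc hb (mem_branch_self hl.pos.le)
      · exact hl.disj hc ha (mem_branch_self hl.pos.le)
    · rintro (⟨rfl, rfl⟩ | ⟨rfl, rfl⟩)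
      · exact hl.disj hc (mem_branch_self hl.pos.le) ha
      · exact hl.disj hc (mem_branch_self hl.pos.le) hb
  have hno : ∀ u', 0 ≤ u' → u' < s' → ¬ Ct γ ε u' a b := by
    intro u' h0 h1 h2
    exact hc.win a b i j hab hl.ne hne u' s' u h0 h1.le hu huT h2 hl.dist_in.le h
  refine bridge hc.acyc hab ⟨hl.pos.le.trans hu, huT⟩ h ?_
  exact (reach hs'T hno ha).symm.trans (reach hs'T hno hb)

end split

/-- Extension of a line by free flight. -/
theorem free_onLine {z z' : PhasePoint} {ℓ : PhasePoint} {a t : ℝ} (h : z = onLine ℓ a)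
    (h' : z' = (z.1 + (t - a) • z.2, z.2)) : z' = onLine ℓ t := by
  subst h
  rw [h']
  unfold onLine
  refine Prod.ext ?_ rfl
  simp only [sub_smul]
  abel

/-! ### The main theorem -/

/-- **SURJ**: a clean history is the path of a valid separated tree. -/
theorem surj_aux (hΦ : AdmissiblePotential Φ) (hε : 0 < ε) : ∀ (n : ℕ) {ι : Type} [Fintype ι],
    Fintype.card ι = n → ∀ {γ : ℝ → ι → PhasePoint} {T : ℝ} {i : ι}, 0 ≤ T →
    SolOn Φ ε γ (Icc 0 T) → Clean γ ε T i →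
    ∃ (P : CTree) (e : Idx P ≃ ι) (ℓ : PhasePoint) (p : Par P),
      Valid Φ ε P T ℓ.2 p ∧ Sep Φ ε P T ℓ p ∧ e (root P) = i ∧
        ∀ u ∈ Icc 0 T, ∀ k, γ u (e k) = path Φ ε P ℓ p u k := by
  intro n
  induction n using Nat.strong_induction_on with
  | _ n IH =>
  intro ι _ hn γ T i hT hγ hc
  by_cases hex : ∃ k, k ≠ i
  swap
  · -- a single particle
    push Not at hex
    let e : Idx leaf ≃ ι :=
      { toFun := fun _ => i
        invFun := fun _ => ()
        left_inv := fun _ => rfl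
        right_inv := fun k => (hex k).symm }
    refine ⟨leaf, e, γ 0 i, (), ⟨trivial, trivial⟩, ?_, rfl, ?_⟩
    · intro a b hab
      exact absurd (Subsingleton.elim (α := Unit) a b) hab
    · intro u hu k
      have := hγ.free_flight hΦ hε i (fun t _ k hk => absurd (hex k) hk) u hu
      rw [sub_zero] at this
      exact this
  obtain ⟨j, s', s, hl⟩ := exists_lastContact hε hγ hc hex
  have hs'T : s' ≤ T := (hl.lt.trans hl.ltT).le
  have hs0 : 0 ≤ s := (hl.pos.trans hl.lt).le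
  set A : Set ι := branch γ ε s' i with hA
  have hiA : i ∈ A := mem_branch_self hl.pos.le
  have hjB : j ∈ branch γ ε s' j := mem_branch_self hl.pos.le
  have hB : ∀ k, k ∉ A → k ∈ branch γ ε s' j := fun k hk => (hl.cover hc k).resolve_left hk
  have hB' : ∀ k, k ∈ branch γ ε s' j → k ∉ A := fun k h1 h2 => hl.disj hc h2 h1
  have hjA : j ∉ A := hB' j hjB
  -- all contacts after `s'` are contacts of the pair `i, j`
  have hlate : ∀ a b, a ≠ b → ∀ u, s' ≤ u → u ≤ T → Ct γ ε u a b →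
      (a = i ∧ b = j) ∨ (a = j ∧ b = i) := by
    intro a b hab u hu huT h
    have hu0 : 0 ≤ u := hl.pos.le.trans hu
    by_cases ha : a ∈ A
    · by_cases hb : b ∈ A
      · exact absurd h (hl.inner hc hab (Or.inl rfl) ha hb hu huT)
      · exact Or.inl (hl.cross hc ha (hB b hb) ⟨hu0, huT⟩ h)
    · by_cases hb : b ∈ A
      · have := hl.cross hc hb (hB a ha) ⟨hu0, huT⟩ h.symm
        exact Or.inr ⟨this.2, this.1⟩
      · exact absurd h (hl.inner hc hab (Or.inr rfl) (hB a ha) (hB b hb) hu huT)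
  -- contacts of the pair are in the window
  have hpair : ∀ u, 0 ≤ u → u ≤ T → Ct γ ε u i j → s' ≤ u ∧ u ≤ s := by
    intro u hu0 huT h
    constructor
    · by_contra h1
      exact hl.before u hu0 (not_le.1 h1) h
    · by_contra h1
      exact hl.after u (not_le.1 h1) huT j hl.ne.symm h
  -- the passage of the pair
  obtain ⟨y, hadm, hsin, hout, hpp⟩ := pair_passage hΦ hε hl.lt hl.ne
    (hγ.mono (Icc_subset_Icc hl.pos.le hl.ltT.le)) (fun u hu k hki hkj => by
      constructor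
      · refine (not_le.1 (hl.mid i k (Ne.symm hki) ?_ u hu.1 hu.2)).le
        rw [Ne, Sym2.eq_iff]
        rintro (⟨-, h⟩ | ⟨h, -⟩)
        · exact hkj h
        · exact hl.ne h
      · refine (not_le.1 (hl.mid j k (Ne.symm hkj) ?_ u hu.1 hu.2)).le
        rw [Ne, Sym2.eq_iff]
        rintro (⟨h, -⟩ | ⟨-, h⟩)
        · exact hl.ne h.symm
        · exact hki h) hl.dist_out hl.dist_in hl.out
  set ℓ : PhasePoint := lineOf (γ s i) s with hℓ
  set a : NodeP := (s, (γ s j).2, y) with ha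
  have hadm' : Adm1 Φ ℓ.2 a := hadm
  have hsin' : Tree674.sin Φ ε ℓ.2 a = s' := hsin
  -- the two branches
  have hcA : Clean (fun u (k : A) => γ u k) ε s' ⟨i, hiA⟩ := by
    refine hc.sub hs'T A hiA (fun k hk => hk) ?_ ?_
    · intro u j' k' hj' hcb
      by_contra hk'
      have h1 := hl.cross hc hj' (hB k' hk') ⟨hcb.1, hcb.2.1.le.trans hs'T⟩ hcb.2.2
      rw [h1.1, h1.2] at hcb
      exact hl.before u hcb.1 hcb.2.1 hcb.2.2
    · intro k hk hki h
      rcases hlate i k (Ne.symm hki) s' le_rfl hs'T h with h1 | h1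
      · exact hjA (h1.2 ▸ hk)
      · exact hl.ne h1.1
  have hcB : Clean (fun u (k : (Aᶜ : Set ι)) => γ u k) ε s' ⟨j, hjA⟩ := by
    refine hc.sub hs'T Aᶜ hjA (fun k hk => hB k hk) ?_ ?_
    · intro u j' k' hj' hcb hk'
      have h1 := hl.cross hc hk' (hB j' hj') ⟨hcb.1, hcb.2.1.le.trans hs'T⟩ hcb.2.2.symm
      rw [h1.1, h1.2] at hcb
      exact hl.before u hcb.1 hcb.2.1 hcb.2.2.symm
    · intro k hk hkj h
      rcases hlate j k (Ne.symm hkj) s' le_rfl hs'T h with h1 | h1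
      · exact hl.ne h1.1.symm
      · exact hk (h1.2 ▸ hiA)
  have hfar : ∀ u ∈ Icc 0 s', ∀ a ∈ A, ∀ b ∉ A, ε ≤ dist (γ u a).1 (γ u b).1 := by
    intro u hu a ha b hb
    by_cases h : Ct γ ε u a b
    · obtain ⟨rfl, rfl⟩ := hl.cross hc ha (hB b hb) ⟨hu.1, hu.2.trans hs'T⟩ h
      have h1 := hpair u hu.1 (hu.2.trans hs'T) h
      rw [le_antisymm hu.2 h1.1, hl.dist_in]
    · exact (not_le.1 h).le
  have hγ' : SolOn Φ ε γ (Icc 0 s') := hγ.mono (Icc_subset_Icc_right hs'T)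
  have hγA : SolOn Φ ε (fun u (k : A) => γ u k) (Icc 0 s') :=
    hγ'.comp hΦ hε (Function.Embedding.subtype (· ∈ A)) fun u hu k b hb =>
      hfar u hu k k.2 b fun hb' => hb ⟨⟨b, hb'⟩, rfl⟩
  have hγB : SolOn Φ ε (fun u (k : (Aᶜ : Set ι)) => γ u k) (Icc 0 s') :=
    hγ'.comp hΦ hε (Function.Embedding.subtype (· ∈ Aᶜ)) fun u hu k b hb => by
      have hbA : b ∈ A := by
        by_contra hb'
        exact hb ⟨⟨b, hb'⟩, rfl⟩
      rw [dist_comm]
      exact hfar u hu b hbA k k.2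
  have hcardA : Fintype.card A < n := by
    rw [← hn]
    exact Fintype.card_subtype_lt (p := (· ∈ A)) hjA
  have hcardB : Fintype.card (Aᶜ : Set ι) < n := by
    rw [← hn]
    exact Fintype.card_subtype_lt (p := (· ∈ Aᶜ)) (x := i) (fun h => h hiA)
  obtain ⟨l, eA, ℓA, pA, hvA, hsA, hrA, hpA⟩ := IH _ hcardA rfl hl.pos.le hγA hcA
  obtain ⟨r, eB, ℓB, pB, hvB, hsB, hrB, hpB⟩ := IH _ hcardB rfl hl.pos.le hγB hcB
  -- the incoming lines
  have hin : inMap Φ ε ℓ a = (ℓA, ℓB) := by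
    have h1 := pairPath_before hΦ hε hadm' (ℓ := ℓ) hsin'.ge
    rw [hpp s' ⟨le_rfl, hl.lt.le⟩] at h1
    have h2 := hpA s' ⟨hl.pos.le, le_rfl⟩ (root l)
    rw [path_root_after hε.le hvA.2 le_rfl, hrA] at h2
    have h3 := hpB s' ⟨hl.pos.le, le_rfl⟩ (root r)
    rw [path_root_after hε.le hvB.2 le_rfl, hrB] at h3
    have h4 := congrArg Prod.fst h1
    have h5 := congrArg Prod.snd h1
    simp only at h2 h3 h4 h5
    rw [h2] at h4
    rw [h3] at h5
    exact Prod.ext (onLine_injective h4).symm (onLine_injective h5).symm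
  have hv1 : (preV Φ ℓ.2 a).1 = ℓA.2 := congrArg (fun q : PhasePoint × PhasePoint => q.1.2) hin
  have hv2 : (preV Φ ℓ.2 a).2 = ℓB.2 := congrArg (fun q : PhasePoint × PhasePoint => q.2.2) hin
  let p : Par (node l r) := (a, pA, pB)
  have hvP : Valid Φ ε (node l r) T ℓ.2 p := by
    refine ⟨⟨hadm', ?_, ?_⟩, hl.ltT, ?_, ?_, ?_⟩
    · show Adm Φ l (preV Φ ℓ.2 a).1 pA
      rw [hv1]
      exact hvA.1
    · show Adm Φ r (preV Φ ℓ.2 a).2 pB
      rw [hv2]
      exact hvB.1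
    · show 0 < Tree674.sin Φ ε ℓ.2 a
      rw [hsin']
      exact hl.pos
    · show Ord Φ ε l (Tree674.sin Φ ε ℓ.2 a) (preV Φ ℓ.2 a).1 pA
      rw [hv1, hsin']
      exact hvA.2
    · show Ord Φ ε r (Tree674.sin Φ ε ℓ.2 a) (preV Φ ℓ.2 a).2 pB
      rw [hv2, hsin']
      exact hvB.2
  let e : Idx (node l r) ≃ ι := (Equiv.sumCongr eA eB).trans (Equiv.sumCompl (· ∈ A))
  have hel : ∀ k, e (Sum.inl k) = eA k := fun k => rfl
  have her : ∀ k, e (Sum.inr k) = eB k := fun k => rfl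
  -- free flights
  have hfree : ∀ c, c ≠ i → c ≠ j → ∀ u ∈ Icc s' T,
      γ u c = ((γ s' c).1 + (u - s') • (γ s' c).2, (γ s' c).2) := by
    intro c hci hcj u hu
    refine (hγ.mono (Icc_subset_Icc_left hl.pos.le)).free_flight hΦ hε c (fun t ht k hk => ?_) u hu
    refine (not_le.1 fun h => ?_).le
    rcases hlate c k (Ne.symm hk) t ht.1 ht.2 h with h1 | h1
    · exact hci h1.1
    · exact hcj h1.1
  have hfreei : ∀ u ∈ Icc s T, γ u i = onLine ℓ u := by
    intro u hu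
    refine free_onLine (onLine_lineOf _ _).symm ((hγ.mono (Icc_subset_Icc_left hs0)).free_flight
      hΦ hε i (fun t ht k hk => ?_) u hu)
    by_cases h : Ct γ ε t i k
    · rcases hlate i k (Ne.symm hk) t (hl.lt.le.trans ht.1) ht.2 h with h1 | h1
      · have h2 := hpair t (hs0.trans ht.1) ht.2 (h1.2 ▸ h)
        rw [le_antisymm h2.2 ht.1, h1.2, hl.dist_out]
      · exact absurd h1.1 hl.ne
    · exact (not_le.1 h).le
  have hfreej : ∀ u ∈ Icc s T, γ u j = onLine (outLine ε ℓ a) u := by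
    intro u hu
    rw [hout]
    refine free_onLine (onLine_lineOf _ _).symm ((hγ.mono (Icc_subset_Icc_left hs0)).free_flight
      hΦ hε j (fun t ht k hk => ?_) u hu)
    by_cases h : Ct γ ε t j k
    · rcases hlate j k (Ne.symm hk) t (hl.lt.le.trans ht.1) ht.2 h with h1 | h1
      · exact absurd h1.1 hl.ne.symm
      · have h2 := hpair t (hs0.trans ht.1) ht.2 (h1.2 ▸ h).symm
        rw [le_antisymm h2.2 ht.1, h1.2, dist_comm, hl.dist_out]
    · exact (not_le.1 h).le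
  have hpi : ∀ u ∈ Icc s' T, pairPath Φ ε ℓ a u = (γ u i, γ u j) := by
    intro u hu
    rcases le_total u s with h | h
    · exact hpp u ⟨hu.1, h⟩
    · rw [pairPath_after hΦ hε hadm' h, hfreei u ⟨h, hu.2⟩, hfreej u ⟨h, hu.2⟩]
  have hpath : ∀ u ∈ Icc 0 T, ∀ k, γ u (e k) = path Φ ε (node l r) ℓ p u k := by
    intro u hu k
    rcases le_total u s' with h | h
    · rw [path_node_before ℓ p (hsin'.symm ▸ h)]
      rcases k with k | k
      · rw [hel, Sum.elim_inl]
        show γ u (eA k) = path Φ ε l (inMap Φ ε ℓ a).1 pA u k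
        rw [hin]
        exact hpA u ⟨hu.1, h⟩ k
      · rw [her, Sum.elim_inr]
        show γ u (eB k) = path Φ ε r (inMap Φ ε ℓ a).2 pB u k
        rw [hin]
        exact hpB u ⟨hu.1, h⟩ k
    · rw [path_node_after hΦ hε hvP (show Tree674.sin Φ ε ℓ.2 a ≤ u from hsin'.symm ▸ h)]
      have hq := hpi u ⟨h, hu.2⟩
      rcases k with k | k
      · rw [hel, Sum.elim_inl]
        by_cases hk : k = root l
        · subst hk
          rw [Function.update_self, hrA]
          show γ u i = (pairPath Φ ε ℓ a u).1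
          rw [hq]
        · rw [Function.update_of_ne hk]
          show γ u (eA k) = path Φ ε l (inMap Φ ε ℓ a).1 pA u k
          rw [hin, path_after hε.le l s' ℓA pA hvA.2 u h]
          refine free_onLine (z := γ s' (eA k)) (a := s') ?_ (hfree _ ?_ ?_ u ⟨h, hu.2⟩)
          · have h1 := hpA s' ⟨hl.pos.le, le_rfl⟩ k
            rw [path_after hε.le l s' ℓA pA hvA.2 s' le_rfl] at h1
            exact h1
          · intro h1
            exact hk (eA.injective (by rw [hrA]; exact Subtype.ext h1))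
          · intro h1
            exact hjA (h1 ▸ (eA k).2)
      · rw [her, Sum.elim_inr]
        by_cases hk : k = root r
        · subst hk
          rw [Function.update_self, hrB]
          show γ u j = (pairPath Φ ε ℓ a u).2
          rw [hq]
        · rw [Function.update_of_ne hk]
          show γ u (eB k) = path Φ ε r (inMap Φ ε ℓ a).2 pB u k
          rw [hin, path_after hε.le r s' ℓB pB hvB.2 u h]
          refine free_onLine (z := γ s' (eB k)) (a := s') ?_ (hfree _ ?_ ?_ u ⟨h, hu.2⟩)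
          · have h1 := hpB s' ⟨hl.pos.le, le_rfl⟩ k
            rw [path_after hε.le r s' ℓB pB hvB.2 s' le_rfl] at h1
            exact h1
          · intro h1
            exact (eB k).2 (h1 ▸ hiA)
          · intro h1
            exact hk (eB.injective (by rw [hrB]; exact Subtype.ext h1))
  refine ⟨node l r, e, ℓ, p, hvP, ?_, ?_, hpath⟩
  · -- separation
    intro k k' hkk u hu hw hw'
    rw [← hpath u hu k, ← hpath u hu k']
    by_contra hcon
    have hct : Ct γ ε u (e k) (e k') := not_lt.1 hcon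
    have hekk : e k ≠ e k' := fun h => hkk (e.injective h)
    rcases k with k | k <;> rcases k' with k' | k'
    · rcases lt_or_ge u s' with h | h
      · have h1 := hsA k k' (fun h => hkk (by rw [h])) u ⟨hu.1, h.le⟩
          (fun h2 => hw (inWindow_inl.2 (by
            show InWindow Φ ε l (preV Φ ℓ.2 a).1 pA k k' u
            rw [hv1]
            exact h2)))
          (fun h2 => hw' (inWindow_inl.2 (by
            show InWindow Φ ε l (preV Φ ℓ.2 a).1 pA k' k u
            rw [hv1]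
            exact h2)))
        rw [← hpA u ⟨hu.1, h.le⟩ k, ← hpA u ⟨hu.1, h.le⟩ k'] at h1
        exact absurd hct (not_le.2 h1)
      · exact hl.inner hc hekk (Or.inl rfl) (eA k).2 (eA k').2 h hu.2 hct
    · have h1 := hl.cross hc (eA k).2 (hB _ (eB k').2) hu hct
      have h2 : k = root l := eA.injective (by rw [hrA]; exact Subtype.ext h1.1)
      have h3 : k' = root r := eB.injective (by rw [hrB]; exact Subtype.ext h1.2)
      refine hw (inWindow_inl_inr.2 ⟨h2, h3, ?_⟩)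
      have h4 := hpair u hu.1 hu.2 (by
        have h5 := hct
        rw [hel, her, h1.1, h1.2] at h5
        exact h5)
      exact ⟨hsin'.le.trans h4.1, h4.2⟩
    · have h1 := hl.cross hc (eA k').2 (hB _ (eB k).2) hu hct.symm
      have h2 : k' = root l := eA.injective (by rw [hrA]; exact Subtype.ext h1.1)
      have h3 : k = root r := eB.injective (by rw [hrB]; exact Subtype.ext h1.2)
      refine hw' (inWindow_inl_inr.2 ⟨h2, h3, ?_⟩)
      have h4 := hpair u hu.1 hu.2 (by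
        have h5 := hct.symm
        rw [hel, her, h1.1, h1.2] at h5
        exact h5)
      exact ⟨hsin'.le.trans h4.1, h4.2⟩
    · rcases lt_or_ge u s' with h | h
      · have h1 := hsB k k' (fun h => hkk (by rw [h])) u ⟨hu.1, h.le⟩
          (fun h2 => hw (inWindow_inr.2 (by
            show InWindow Φ ε r (preV Φ ℓ.2 a).2 pB k k' u
            rw [hv2]
            exact h2)))
          (fun h2 => hw' (inWindow_inr.2 (by
            show InWindow Φ ε r (preV Φ ℓ.2 a).2 pB k' k u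
            rw [hv2]
            exact h2)))
        rw [← hpB u ⟨hu.1, h.le⟩ k, ← hpB u ⟨hu.1, h.le⟩ k'] at h1
        exact absurd hct (not_le.2 h1)
      · exact hl.inner hc hekk (Or.inr rfl) (hB _ (eB k).2) (hB _ (eB k').2) h hu.2 hct
  · show ((eA (root l) : A) : ι) = i
    rw [hrA]

/-- **SURJ** (world version). -/
theorem surj (hΦ : AdmissiblePotential Φ) (hε : 0 < ε) {ι : Type} [Fintype ι]
    {γ : ℝ → ι → PhasePoint} {T : ℝ} {i : ι} (hT : 0 ≤ T) (hγ : SolOn Φ ε γ (Icc 0 T))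
    (hc : Clean γ ε T i) :
    ∃ (P : CTree) (e : Idx P ≃ ι) (ℓ : PhasePoint) (p : Par P),
      Valid Φ ε P T ℓ.2 p ∧ Sep Φ ε P T ℓ p ∧ e (root P) = i ∧
        ∀ u ∈ Icc 0 T, ∀ k, γ u (e k) = path Φ ε P ℓ p u k :=
  surj_aux hΦ hε _ rfl hT hγ hc

/-- **SURJ** (flow version): an initial configuration with a clean isolated history is the
configuration of a tree. -/
theorem surj_flow (hΦ : AdmissiblePotential Φ) (hε : 0 < ε) {ι : Type} [Fintype ι]
    {Z : ι → PhasePoint} (hZ : Z ∈ Dom Φ ι) {T : ℝ} {i : ι} (hT : 0 ≤ T)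
    (hc : Clean (world Φ ε Z) ε T i) :
    ∃ (P : CTree) (e : Idx P ≃ ι) (ℓ : PhasePoint) (p : Par P),
      Valid Φ ε P T ℓ.2 p ∧ Sep Φ ε P T ℓ p ∧ e (root P) = i ∧
        (fun k => Z (e k)) = lines Φ ε P ℓ p := by
  obtain ⟨P, e, ℓ, p, hv, hs, hr, hp⟩ := surj hΦ hε hT (solOn_flow hΦ hε hZ (Icc 0 T)) hc
  refine ⟨P, e, ℓ, p, hv, hs, hr, ?_⟩
  rw [← path_zero P T ℓ p hv.2]
  funext k
  have h1 := hp 0 ⟨le_rfl, hT⟩ k
  rw [← h1]
  show Z (e k) = flow Φ ε 0 Z (e k)
  rw [flow_zero hΦ hε]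

end Crest.Agent.R122.Surj968

end
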