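import Crest.Agent.R122.Scat6_818

/-!
# Row 122: exact exchange of velocities is a null event, part 1 (analysis)

The half swept angle as a function of the closest distance `r` and of `y = 1 / (speed there)²`
is the integral `HA Φ r y`; it is convex in `y`, hence takes each value at most twice unless the
potential vanishes beyond `r`.
-/

set_option autoImplicit false

open MeasureTheory Filter Set
open scoped Topology NNReal ENNReal
open Crest.AnalysisR.Kinetic

noncomputable section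

namespace Crest.Agent.R122.Swap350

open Scat818

variable {Φ : Space3 → ℝ}

/-- The kernel `x ↦ 1 / √x`, infinite for `x ≤ 0`. -/
def ker (x : ℝ) : ℝ≥0∞ := (ENNReal.ofReal (√x))⁻¹

lemma ker_of_nonpos {x : ℝ} (hx : x ≤ 0) : ker x = ⊤ := by
  simp [ker, Real.sqrt_eq_zero_of_nonpos hx]

lemma ker_of_pos {x : ℝ} (hx : 0 < x) : ker x = ENNReal.ofReal (√x)⁻¹ :=
  (ENNReal.ofReal_inv_of_pos (Real.sqrt_pos.2 hx)).symm

lemma pos_of_ker_lt_top {x : ℝ} (h : ker x < ⊤) : 0 < x := by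
  by_contra hx
  rw [ker_of_nonpos (not_lt.1 hx)] at h
  exact lt_irrefl _ h

lemma measurable_ker : Measurable ker := by
  unfold ker
  exact (ENNReal.measurable_ofReal.comp Real.continuous_sqrt.measurable).inv

lemma inv_sqrt_strict {x x' t : ℝ} (hx : 0 < x) (hx' : 0 < x') (hne : x ≠ x') (ht : 0 < t)
    (ht1 : t < 1) :
    (√(t * x + (1 - t) * x'))⁻¹ < t * (√x)⁻¹ + (1 - t) * (√x')⁻¹ := by
  have h1 := Real.strictConcaveOn_sqrt.2 hx.le hx'.le hne ht (by linarith : 0 < 1 - t) (by ring)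
  simp only [smul_eq_mul] at h1
  have ha : 0 < √x := Real.sqrt_pos.2 hx
  have ha' : 0 < √x' := Real.sqrt_pos.2 hx'
  set a := √x
  set a' := √x'
  have h1t : 0 < 1 - t := by linarith
  have hc : 0 < t * a + (1 - t) * a' := by positivity
  have h2 : (√(t * x + (1 - t) * x'))⁻¹ < (t * a + (1 - t) * a')⁻¹ := by
    apply inv_strictAnti₀ hc h1
  refine h2.trans_le ?_
  rw [inv_le_iff_one_le_mul₀ hc]
  have h3 : (t * a⁻¹ + (1 - t) * a'⁻¹) * (t * a + (1 - t) * a')
      = 1 + t * (1 - t) * ((a - a') ^ 2 / (a * a')) := by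
    field_simp
    ring
  rw [h3]
  have : 0 ≤ t * (1 - t) * ((a - a') ^ 2 / (a * a')) := by positivity
  linarith

lemma ker_convex {x x' t : ℝ} (ht : 0 < t) (ht1 : t < 1) :
    ker (t * x + (1 - t) * x') ≤ ENNReal.ofReal t * ker x + ENNReal.ofReal (1 - t) * ker x' := by
  have ht' : ENNReal.ofReal t ≠ 0 := by simpa using ht
  have ht1' : ENNReal.ofReal (1 - t) ≠ 0 := by simpa using ht1
  by_cases hx : 0 < x
  · by_cases hx' : 0 < x'
    · have h1t : 0 < 1 - t := by linarith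
      have hm : 0 < t * x + (1 - t) * x' := by positivity
      rw [ker_of_pos hx, ker_of_pos hx', ker_of_pos hm, ← ENNReal.ofReal_mul ht.le,
        ← ENNReal.ofReal_mul h1t.le, ← ENNReal.ofReal_add (by positivity) (by positivity)]
      apply ENNReal.ofReal_le_ofReal
      by_cases hne : x = x'
      · subst hne
        have : t * x + (1 - t) * x = x := by ring
        rw [this]
        apply le_of_eq
        ring
      · exact (inv_sqrt_strict hx hx' hne ht ht1).le
    · rw [ker_of_nonpos (not_lt.1 hx'), ENNReal.mul_top ht1']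
      simp
  · rw [ker_of_nonpos (not_lt.1 hx), ENNReal.mul_top ht']
    simp

lemma ker_strict {x x' t : ℝ} (ht : 0 < t) (ht1 : t < 1)
    (h : ker (t * x + (1 - t) * x') = ENNReal.ofReal t * ker x + ENNReal.ofReal (1 - t) * ker x')
    (hfin : ker (t * x + (1 - t) * x') < ⊤) : x = x' := by
  have ht' : ENNReal.ofReal t ≠ 0 := by simpa using ht
  have ht1' : ENNReal.ofReal (1 - t) ≠ 0 := by simpa using ht1
  have h1t : 0 < 1 - t := by linarith
  have hx : 0 < x := by
    by_contra hx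
    rw [h, ker_of_nonpos (not_lt.1 hx), ENNReal.mul_top ht'] at hfin
    simp at hfin
  have hx' : 0 < x' := by
    by_contra hx
    rw [h, ker_of_nonpos (not_lt.1 hx), ENNReal.mul_top ht1'] at hfin
    simp at hfin
  have hm : 0 < t * x + (1 - t) * x' := by positivity
  by_contra hne
  have h2 := inv_sqrt_strict hx hx' hne ht ht1
  rw [ker_of_pos hx, ker_of_pos hx', ker_of_pos hm, ← ENNReal.ofReal_mul ht.le,
    ← ENNReal.ofReal_mul h1t.le, ← ENNReal.ofReal_add (by positivity) (by positivity)] at h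
  rw [ENNReal.ofReal_eq_ofReal_iff (by positivity) (by positivity)] at h
  linarith

/-- The radial function. -/
def Pf (Φ : Space3 → ℝ) (r y w : ℝ) : ℝ := y * (4 * prof Φ r - 4 * prof Φ (r / w)) + 1 - w ^ 2

/-- Half of the swept angle. -/
def HA (Φ : Space3 → ℝ) (r y : ℝ) : ℝ≥0∞ := ∫⁻ w in Ioo (0 : ℝ) 1, ker (Pf Φ r y w)

lemma measurable_Phi (hΦ : AdmissiblePotential Φ) : Measurable Φ := by
  classical
  have hc : ContinuousOn Φ {x : Space3 | x ≠ 0} := hΦ.contDiff_away_from_origin.continuousOn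
  have h3 : Φ = {x : Space3 | x ≠ 0}.piecewise Φ (fun _ => Φ 0) := by
    funext x
    by_cases hx : x ∈ {x : Space3 | x ≠ 0}
    · rw [Set.piecewise_eq_of_mem _ _ _ hx]
    · rw [Set.piecewise_eq_of_notMem _ _ _ hx]
      have : x = 0 := by
        by_contra h; exact hx h
      rw [this]
  rw [h3]
  exact hc.measurable_piecewise continuousOn_const isOpen_ne.measurableSet

lemma measurable_prof (hΦ : AdmissiblePotential Φ) : Measurable (prof Φ) := by
  unfold prof
  exact (measurable_Phi hΦ).comp (measurable_id.smul_const e0)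

lemma measurable_Pf (hΦ : AdmissiblePotential Φ) :
    Measurable (fun p : (ℝ × ℝ) × ℝ => Pf Φ p.1.1 p.1.2 p.2) := by
  have hm := measurable_prof hΦ
  unfold Pf
  have h1 : Measurable (fun p : (ℝ × ℝ) × ℝ => p.1.1) := measurable_fst.comp measurable_fst
  have h2 : Measurable (fun p : (ℝ × ℝ) × ℝ => p.1.2) := measurable_snd.comp measurable_fst
  have h3 : Measurable (fun p : (ℝ × ℝ) × ℝ => p.2) := measurable_snd
  exact ((h2.mul (((hm.comp h1).const_mul 4).sub ((hm.comp (h1.div h3)).const_mul 4))).add_const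
    1).sub (h3.pow_const 2)

lemma measurable_Pf' (hΦ : AdmissiblePotential Φ) (r y : ℝ) :
    Measurable (fun w : ℝ => Pf Φ r y w) :=
  (measurable_Pf hΦ).comp
    (measurable_const.prodMk measurable_id : Measurable fun w : ℝ => ((r, y), w))

lemma measurable_HA (hΦ : AdmissiblePotential Φ) :
    Measurable (fun p : ℝ × ℝ => HA Φ p.1 p.2) := by
  unfold HA
  exact (measurable_ker.comp (measurable_Pf hΦ)).lintegral_prod_right'

/-- Three equal values force the potential to be constant beyond `r`. -/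
lemma three (hΦ : AdmissiblePotential Φ) {r : ℝ} (hr : 0 < r) {c : ℝ≥0∞} (hc : c ≠ ⊤)
    {y₁ y₂ y₃ : ℝ} (h12 : y₁ < y₂) (h23 : y₂ < y₃) (h1 : HA Φ r y₁ = c) (h2 : HA Φ r y₂ = c)
    (h3 : HA Φ r y₃ = c) : ∀ w ∈ Ioo (0 : ℝ) 1, prof Φ (r / w) = prof Φ r := by
  set t : ℝ := (y₃ - y₂) / (y₃ - y₁) with ht_def
  have h31 : 0 < y₃ - y₁ := by linarith
  have ht : 0 < t := div_pos (by linarith) h31
  have ht1 : t < 1 := by rw [ht_def, div_lt_one h31]; linarith
  have h1t : 0 < 1 - t := by linarith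
  have hy : y₂ = t * y₁ + (1 - t) * y₃ := by
    rw [ht_def]; field_simp; ring
  have hP : ∀ w, Pf Φ r y₂ w = t * Pf Φ r y₁ w + (1 - t) * Pf Φ r y₃ w := by
    intro w
    unfold Pf
    rw [hy]; ring
  have hle : ∀ w, ker (Pf Φ r y₂ w) ≤ ENNReal.ofReal t * ker (Pf Φ r y₁ w)
      + ENNReal.ofReal (1 - t) * ker (Pf Φ r y₃ w) := by
    intro w
    rw [hP w]
    exact ker_convex ht ht1
  have hmk : ∀ y, Measurable (fun w => ker (Pf Φ r y w)) := fun y =>
    measurable_ker.comp (measurable_Pf' hΦ r y)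
  have hmg : Measurable (fun w => ENNReal.ofReal t * ker (Pf Φ r y₁ w)
      + ENNReal.ofReal (1 - t) * ker (Pf Φ r y₃ w)) :=
    ((hmk y₁).const_mul _).add ((hmk y₃).const_mul _)
  have hint : ∫⁻ w in Ioo (0 : ℝ) 1, (ENNReal.ofReal t * ker (Pf Φ r y₁ w)
      + ENNReal.ofReal (1 - t) * ker (Pf Φ r y₃ w)) = c := by
    rw [lintegral_add_left ((hmk y₁).const_mul _), lintegral_const_mul _ (hmk y₁),
      lintegral_const_mul _ (hmk y₃)]
    have e1 : ∫⁻ w in Ioo (0 : ℝ) 1, ker (Pf Φ r y₁ w) = c := h1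
    have e3 : ∫⁻ w in Ioo (0 : ℝ) 1, ker (Pf Φ r y₃ w) = c := h3
    rw [e1, e3, ← add_mul, ← ENNReal.ofReal_add ht.le h1t.le]
    simp
  have e2 : ∫⁻ w in Ioo (0 : ℝ) 1, ker (Pf Φ r y₂ w) = c := h2
  have hae := ae_eq_of_ae_le_of_lintegral_le (μ := volume.restrict (Ioo (0 : ℝ) 1))
    (f := fun w => ker (Pf Φ r y₂ w)) (Eventually.of_forall hle) (by rw [e2]; exact hc)
    hmg.aemeasurable (by rw [hint, e2])
  have hfin : ∀ᵐ w ∂(volume.restrict (Ioo (0 : ℝ) 1)), ker (Pf Φ r y₂ w) < ⊤ :=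
    ae_lt_top (hmk y₂) (by rw [e2]; exact hc)
  have hpe : (fun w => prof Φ (r / w)) =ᵐ[volume.restrict (Ioo (0 : ℝ) 1)]
      fun _ => prof Φ r := by
    filter_upwards [hae, hfin] with w hw hw'
    rw [hP w] at hw hw'
    have h5 := ker_strict ht ht1 hw hw'
    unfold Pf at h5
    have h6 : (y₁ - y₃) * (4 * prof Φ r - 4 * prof Φ (r / w)) = 0 := by linarith
    rcases mul_eq_zero.1 h6 with h7 | h7
    · linarith
    · linarith
  have hcont : ContinuousOn (fun w => prof Φ (r / w)) (Ioo (0 : ℝ) 1) := by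
    intro w hw
    have hrw : r / w ≠ 0 := (div_pos hr hw.1).ne'
    have h8 : ContinuousAt (fun w : ℝ => r / w) w :=
      continuousAt_const.div continuousAt_id hw.1.ne'
    exact (ContinuousAt.comp (f := fun w : ℝ => r / w) (prof_continuousAt hΦ hrw)
      h8).continuousWithinAt
  exact Measure.eqOn_open_of_ae_eq hpe isOpen_Ioo hcont continuousOn_const

/-- If the potential is constant beyond `r`, it vanishes there. -/
lemma flat_zero (hΦ : AdmissiblePotential Φ) {r : ℝ} (hr : 0 < r)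
    (h : ∀ w ∈ Ioo (0 : ℝ) 1, prof Φ (r / w) = prof Φ r) : prof Φ r = 0 := by
  set w : ℝ := min (1 / 2) r with hw
  have hw0 : 0 < w := lt_min (by norm_num) hr
  have hw1 : w < 1 := (min_le_left _ _).trans_lt (by norm_num)
  have h1 : 1 ≤ r / w := by
    rw [le_div_iff₀ hw0, one_mul]
    exact min_le_right _ _
  rw [← h w ⟨hw0, hw1⟩]
  exact prof_eq_zero hΦ h1

lemma sin_image : Real.sin '' Ioo 0 (Real.pi / 2) = Ioo 0 1 := by
  ext x
  constructor
  · rintro ⟨t, ht, rfl⟩
    have h1 : 0 < Real.sin t := Real.sin_pos_of_pos_of_lt_pi ht.1 (by linarith [ht.2, Real.pi_pos])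
    have h2 : 0 < Real.cos t := Real.cos_pos_of_mem_Ioo ⟨by linarith [ht.1, Real.pi_pos], ht.2⟩
    refine ⟨h1, ?_⟩
    nlinarith [Real.sin_sq_add_cos_sq t]
  · intro hx
    refine ⟨Real.arcsin x, ⟨Real.arcsin_pos.2 hx.1, Real.arcsin_lt_pi_div_two.2 hx.2⟩,
      Real.sin_arcsin (by linarith [hx.1]) hx.2.le⟩

lemma lintegral_arcsin : ∫⁻ w in Ioo (0 : ℝ) 1, ker (1 - w ^ 2) = ENNReal.ofReal (Real.pi / 2) := by
  rw [← sin_image, lintegral_image_eq_lintegral_abs_deriv_mul measurableSet_Ioo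
    (fun t _ => (Real.hasDerivAt_sin t).hasDerivWithinAt)]
  · have h1 : ∀ t ∈ Ioo 0 (Real.pi / 2),
        ENNReal.ofReal |Real.cos t| * ker (1 - Real.sin t ^ 2) = 1 := by
      intro t ht
      have h2 : 0 < Real.cos t := Real.cos_pos_of_mem_Ioo ⟨by linarith [ht.1, Real.pi_pos], ht.2⟩
      have h3 : 1 - Real.sin t ^ 2 = Real.cos t ^ 2 := by
        nlinarith [Real.sin_sq_add_cos_sq t]
      rw [h3, ker, Real.sqrt_sq h2.le, abs_of_pos h2]
      exact ENNReal.mul_inv_cancel (by simpa using h2) ENNReal.ofReal_ne_top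
    rw [setLIntegral_congr_fun measurableSet_Ioo h1]
    simp
  · intro a ha b hb hab
    exact Real.injOn_sin ⟨by linarith [ha.1, Real.pi_pos], ha.2.le⟩
      ⟨by linarith [hb.1, Real.pi_pos], hb.2.le⟩ hab

lemma HA_flat {r : ℝ} (h0 : prof Φ r = 0)
    (h : ∀ w ∈ Ioo (0 : ℝ) 1, prof Φ (r / w) = prof Φ r) (y : ℝ) :
    HA Φ r y = ENNReal.ofReal (Real.pi / 2) := by
  rw [← lintegral_arcsin, HA]
  apply setLIntegral_congr_fun measurableSet_Ioo
  intro w hw
  show ker (Pf Φ r y w) = ker (1 - w ^ 2)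
  unfold Pf
  rw [h w hw, h0]
  congr 1
  ring

/-- The exceptional values. -/
def badVal : Set ℝ≥0∞ := range fun n : ℕ => ENNReal.ofReal (n * Real.pi)

lemma countable_badVal : badVal.Countable := countable_range _

lemma pi_half_notMem (n : ℕ) : ENNReal.ofReal (Real.pi / 2) ≠ ENNReal.ofReal (n * Real.pi) := by
  intro h
  have h1 : Real.pi / 2 = n * Real.pi := by
    rwa [ENNReal.ofReal_eq_ofReal_iff (by positivity) (by positivity)] at h
  have h2 : (1 : ℝ) = 2 * n := by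
    have := Real.pi_pos
    field_simp at h1
    linarith
  have h3 : (1 : ℕ) = 2 * n := by exact_mod_cast h2
  omega

lemma finite_level (hΦ : AdmissiblePotential Φ) {r : ℝ} (hr : 0 < r) (n : ℕ) :
    {y : ℝ | HA Φ r y = ENNReal.ofReal (n * Real.pi)}.Finite := by
  by_contra hinf
  obtain ⟨t, hts, hcard⟩ := Set.Infinite.exists_subset_card_eq hinf 3
  have hmem : ∀ i : Fin 3, t.orderEmbOfFin hcard i ∈
      {y : ℝ | HA Φ r y = ENNReal.ofReal (n * Real.pi)} := fun i =>
    hts (Finset.orderEmbOfFin_mem t hcard i)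
  have h01 : t.orderEmbOfFin hcard 0 < t.orderEmbOfFin hcard 1 :=
    (t.orderEmbOfFin hcard).strictMono (by decide)
  have h12 : t.orderEmbOfFin hcard 1 < t.orderEmbOfFin hcard 2 :=
    (t.orderEmbOfFin hcard).strictMono (by decide)
  have h := three hΦ hr ENNReal.ofReal_ne_top h01 h12 (hmem 0) (hmem 1) (hmem 2)
  have h0 := flat_zero hΦ hr h
  have h1 := HA_flat h0 h (t.orderEmbOfFin hcard 0)
  have h2 := hmem 0
  change HA Φ r _ = _ at h2
  rw [h1] at h2
  exact pi_half_notMem n h2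

/-- The bad parameters. -/
def badPar (Φ : Space3 → ℝ) : Set (ℝ × ℝ) :=
  {p | 0 < p.1 ∧ HA Φ p.1 p.2 ∈ badVal}

lemma measurableSet_badPar (hΦ : AdmissiblePotential Φ) : MeasurableSet (badPar Φ) :=
  (measurableSet_lt measurable_const measurable_fst).inter
    (measurable_HA hΦ countable_badVal.measurableSet)

lemma volume_badPar (hΦ : AdmissiblePotential Φ) : volume (badPar Φ) = 0 := by
  rw [Measure.volume_eq_prod, Measure.measure_prod_null (measurableSet_badPar hΦ)]
  apply Eventually.of_forall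
  intro r
  show volume (Prod.mk r ⁻¹' badPar Φ) = 0
  by_cases hr : 0 < r
  · have hsub : Prod.mk r ⁻¹' badPar Φ ⊆
        ⋃ n : ℕ, {y : ℝ | HA Φ r y = ENNReal.ofReal (n * Real.pi)} := by
      rintro y ⟨_, n, hn⟩
      exact mem_iUnion.2 ⟨n, hn.symm⟩
    exact ((countable_iUnion fun n => (finite_level hΦ hr n).countable).mono hsub).measure_zero _
  · have : Prod.mk r ⁻¹' badPar Φ = ∅ := by
      ext y
      simp only [mem_empty_iff_false, iff_false]
      exact fun h => hr h.1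
    rw [this]; simp

/-- The passage from `(closest distance, inverse square speed there)` to
`(relative speed, impact parameter)`. -/
def Gm (Φ : Space3 → ℝ) (p : ℝ × ℝ) : ℝ × ℝ :=
  (√(4 * prof Φ p.1 + p.2⁻¹), p.1 / (√p.2 * √(4 * prof Φ p.1 + p.2⁻¹)))

/-- The domain. -/
def dom (Φ : Space3 → ℝ) : Set (ℝ × ℝ) :=
  {p | 0 < p.1 ∧ 0 < p.2 ∧ 0 < 4 * prof Φ p.1 + p.2⁻¹}

lemma differentiableAt_Gm (hΦ : AdmissiblePotential Φ) {p : ℝ × ℝ} (hp : p ∈ dom Φ) :
    DifferentiableAt ℝ (Gm Φ) p := by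
  obtain ⟨h1, h2, h3⟩ := hp
  have hd1 : DifferentiableAt ℝ (fun p : ℝ × ℝ => prof Φ p.1) p :=
    DifferentiableAt.comp (f := fun p : ℝ × ℝ => p.1) (g := prof Φ) p
      (prof_differentiableAt hΦ h1.ne') differentiableAt_fst
  have hd2 : DifferentiableAt ℝ (fun p : ℝ × ℝ => p.2⁻¹) p :=
    differentiableAt_snd.inv h2.ne'
  have hd3 : DifferentiableAt ℝ (fun p : ℝ × ℝ => √(4 * prof Φ p.1 + p.2⁻¹)) p :=
    ((hd1.const_mul 4).add hd2).sqrt h3.ne'
  have hd4 : DifferentiableAt ℝ (fun p : ℝ × ℝ => √p.2) p := differentiableAt_snd.sqrt h2.ne'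
  have hd5 : DifferentiableAt ℝ (fun p : ℝ × ℝ => √p.2 * √(4 * prof Φ p.1 + p.2⁻¹)) p :=
    hd4.mul hd3
  have hd6 : DifferentiableAt ℝ (fun p : ℝ × ℝ => (√p.2 * √(4 * prof Φ p.1 + p.2⁻¹))⁻¹) p :=
    hd5.inv (mul_pos (Real.sqrt_pos.2 h2) (Real.sqrt_pos.2 h3)).ne'
  have hd7 : DifferentiableAt ℝ (fun p : ℝ × ℝ => p.1 * (√p.2 * √(4 * prof Φ p.1 + p.2⁻¹))⁻¹) p :=
    differentiableAt_fst.mul hd6
  have hd8 : DifferentiableAt ℝ (fun p : ℝ × ℝ => p.1 / (√p.2 * √(4 * prof Φ p.1 + p.2⁻¹))) p := by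
    simpa only [div_eq_mul_inv] using hd7
  exact hd3.prodMk hd8

/-- The image of the bad parameters. -/
def badImg (Φ : Space3 → ℝ) : Set (ℝ × ℝ) := Gm Φ '' (badPar Φ ∩ dom Φ)

lemma volume_badImg (hΦ : AdmissiblePotential Φ) : volume (badImg Φ) = 0 := by
  apply addHaar_image_eq_zero_of_differentiableOn_of_addHaar_eq_zero volume
  · intro p hp
    exact (differentiableAt_Gm hΦ hp.2).differentiableWithinAt
  · exact measure_mono_null inter_subset_left (volume_badPar hΦ)

lemma ae_speed (hΦ : AdmissiblePotential Φ) :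
    ∀ᵐ g : Space3, volume {ρ : ℝ | (‖g‖, ρ) ∈ badImg Φ} = 0 := by
  have h1 : ∀ᵐ e : ℝ, volume (Prod.mk e ⁻¹' badImg Φ) = 0 :=
    Measure.measure_ae_null_of_prod_null (μ := (volume : Measure ℝ)) (ν := (volume : Measure ℝ))
      (by rw [← Measure.volume_eq_prod]; exact volume_badImg hΦ)
  have h2 : volume {e : ℝ | volume (Prod.mk e ⁻¹' badImg Φ) ≠ 0} = 0 := h1
  have : Nontrivial Space3 := by infer_instance
  exact measure_norm_preimage_null (volume : Measure Space3) h2

end Crest.Agent.R122.Swap350
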