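import Crest.Agent.R122.Swap1_350

/-!
# Row 122: exact exchange of velocities is a null event, part 2 (dynamics)
-/

set_option autoImplicit false

open MeasureTheory Filter Set
open scoped Topology NNReal ENNReal
open Crest.AnalysisR.Kinetic

noncomputable section

namespace Crest.Agent.R122.Swap350

open Scat818

variable {Φ : Space3 → ℝ}

/-- Trajectories with a turning point at time `0` and nonzero angular momentum. -/
structure Turn (Φ : Space3 → ℝ) (q p : ℝ → Space3) : Prop where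
  rel : IsRel Φ q p
  orth : inner ℝ (q 0) (p 0) = (0 : ℝ)
  qne : q 0 ≠ 0
  pne : p 0 ≠ 0

namespace Turn

variable {q p : ℝ → Space3}

lemma reg0 (h : Turn Φ q p) : Reg Φ (q 0) := Or.inl h.qne

lemma rpos (h : Turn Φ q p) : 0 < ‖q 0‖ := norm_pos_iff.2 h.qne

lemma Vpos (h : Turn Φ q p) : 0 < ‖p 0‖ := norm_pos_iff.2 h.pne

lemma am_eq (hΦ : AdmissiblePotential Φ) (h : Turn Φ q p) (s : ℝ) :
    ‖q s‖ ^ 2 * ‖p s‖ ^ 2 - (inner ℝ (q s) (p s)) ^ 2 = ‖q 0‖ ^ 2 * ‖p 0‖ ^ 2 := by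
  have := h.rel.am_const hΦ s
  unfold am at this
  rw [this, h.orth]
  ring

lemma norm_pos (hΦ : AdmissiblePotential Φ) (h : Turn Φ q p) (s : ℝ) : 0 < ‖q s‖ := by
  have h1 := h.am_eq hΦ s
  have h2 := h.rpos
  have h3 := h.Vpos
  rw [norm_pos_iff]
  intro h0
  rw [h0] at h1
  simp only [norm_zero, inner_zero_left] at h1
  have : 0 < ‖q 0‖ ^ 2 * ‖p 0‖ ^ 2 := by positivity
  nlinarith

/-- The motion is planar. -/
lemma planar (hΦ : AdmissiblePotential Φ) (h : Turn Φ q p) {n : Space3}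
    (h1 : inner ℝ n (q 0) = (0 : ℝ)) (h2 : inner ℝ n (p 0) = (0 : ℝ)) (s : ℝ) :
    inner ℝ n (q s) = (0 : ℝ) ∧ inner ℝ n (p s) = (0 : ℝ) := by
  set R := (Submodule.span ℝ {n})ᗮ.reflection with hR
  have hRq : R (q 0) = q 0 := by
    apply Submodule.reflection_mem_subspace_eq_self
    rw [Submodule.mem_orthogonal_singleton_iff_inner_right]
    exact h1
  have hRp : R (p 0) = p 0 := by
    apply Submodule.reflection_mem_subspace_eq_self
    rw [Submodule.mem_orthogonal_singleton_iff_inner_right]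
    exact h2
  have h3 := relFlow_isometry hΦ R (z := (q 0, p 0)) h.reg0 s
  have h4 := h.rel.eq_relFlow hΦ h.reg0 s
  rw [← h4] at h3
  simp only [hRq, hRp] at h3
  rw [← h4, Prod.mk.injEq] at h3
  constructor
  · have h5 := (Submodule.reflection_eq_self_iff (q s)).1 h3.1.symm
    rwa [Submodule.mem_orthogonal_singleton_iff_inner_right] at h5
  · have h5 := (Submodule.reflection_eq_self_iff (p s)).1 h3.2.symm
    rwa [Submodule.mem_orthogonal_singleton_iff_inner_right] at h5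

/-- coordinates -/
lemma coord (hΦ : AdmissiblePotential Φ) (h : Turn Φ q p) (s : ℝ) :
    ‖q s‖ ^ 2 = (inner ℝ (q 0) (q s)) ^ 2 / ‖q 0‖ ^ 2 + (inner ℝ (p 0) (q s)) ^ 2 / ‖p 0‖ ^ 2 ∧
    inner ℝ (q s) (p s) = inner ℝ (q 0) (q s) * inner ℝ (q 0) (p s) / ‖q 0‖ ^ 2
      + inner ℝ (p 0) (q s) * inner ℝ (p 0) (p s) / ‖p 0‖ ^ 2 := by
  have hr := h.rpos
  have hV := h.Vpos
  have horth' : inner ℝ (p 0) (q 0) = (0 : ℝ) := by rw [real_inner_comm]; exact h.orth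
  set α : ℝ := inner ℝ (q 0) (q s) / ‖q 0‖ ^ 2 with hα
  set β : ℝ := inner ℝ (p 0) (q s) / ‖p 0‖ ^ 2 with hβ
  set n : Space3 := q s - α • q 0 - β • p 0 with hn
  have h1 : inner ℝ n (q 0) = (0 : ℝ) := by
    rw [hn, inner_sub_left, inner_sub_left, inner_smul_left, inner_smul_left, horth',
      real_inner_self_eq_norm_sq, hα, real_inner_comm (q 0) (q s)]
    simp only [conj_trivial, mul_zero, sub_zero]
    field_simp
    ring
  have h2 : inner ℝ n (p 0) = (0 : ℝ) := by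
    rw [hn, inner_sub_left, inner_sub_left, inner_smul_left, inner_smul_left, h.orth,
      real_inner_self_eq_norm_sq, hβ, real_inner_comm (p 0) (q s)]
    simp only [conj_trivial, mul_zero, sub_zero]
    field_simp
    ring
  obtain ⟨h3, h4⟩ := h.planar hΦ h1 h2 s
  rw [hn, inner_sub_left, inner_sub_left, inner_smul_left, inner_smul_left] at h3 h4
  simp only [conj_trivial] at h3 h4
  rw [real_inner_self_eq_norm_sq] at h3
  constructor
  · have : ‖q s‖ ^ 2 = α * inner ℝ (q 0) (q s) + β * inner ℝ (p 0) (q s) := by linarith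
    rw [this, hα, hβ]; ring
  · have : inner ℝ (q s) (p s) = α * inner ℝ (q 0) (p s) + β * inner ℝ (p 0) (p s) := by linarith
    rw [this, hα, hβ]; ring

/-- conservation of angular momentum -/
lemma cross (hΦ : AdmissiblePotential Φ) (h : Turn Φ q p) (s : ℝ) :
    inner ℝ (q 0) (q s) * inner ℝ (p 0) (p s) - inner ℝ (p 0) (q s) * inner ℝ (q 0) (p s)
      = ‖q 0‖ ^ 2 * ‖p 0‖ ^ 2 := by
  have hd : ∀ s, HasDerivAt (fun s => inner ℝ (q 0) (q s) * inner ℝ (p 0) (p s)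
      - inner ℝ (p 0) (q s) * inner ℝ (q 0) (p s)) (0 : ℝ) s := by
    intro s
    obtain ⟨c, hc⟩ := exists_force_eq_smul hΦ (q s)
    have e1 : ∀ a : Space3, HasDerivAt (fun s => (inner ℝ a (q s) : ℝ)) (inner ℝ a (p s)) s := by
      intro a
      have := (hasDerivAt_const s a).inner ℝ (h.rel.pos s)
      simpa using this
    have e2 : ∀ a : Space3, HasDerivAt (fun s => (inner ℝ a (p s) : ℝ))
        (inner ℝ a (force Φ (q s))) s := by
      intro a
      have := (hasDerivAt_const s a).inner ℝ (h.rel.vel s)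
      simpa using this
    have h4 := ((e1 (q 0)).mul (e2 (p 0))).sub ((e1 (p 0)).mul (e2 (q 0)))
    have h5 : inner ℝ (q 0) (p s) * inner ℝ (p 0) (p s)
        + inner ℝ (q 0) (q s) * inner ℝ (p 0) (force Φ (q s))
        - (inner ℝ (p 0) (p s) * inner ℝ (q 0) (p s)
          + inner ℝ (p 0) (q s) * inner ℝ (q 0) (force Φ (q s))) = (0 : ℝ) := by
      rw [hc, inner_smul_right, inner_smul_right]
      ring
    rw [h5] at h4
    exact h4
  have h1 := is_const_of_deriv_eq_zero (fun s => (hd s).differentiableAt) (fun s => (hd s).deriv) s 0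
  rw [h1, real_inner_self_eq_norm_sq, real_inner_self_eq_norm_sq, h.orth]
  ring

lemma hasDerivAt_norm (hΦ : AdmissiblePotential Φ) (h : Turn Φ q p) (s : ℝ) :
    HasDerivAt (fun s => ‖q s‖) (inner ℝ (q s) (p s) / ‖q s‖) s := by
  have h0 := h.norm_pos hΦ s
  have h1 := (hasDerivAt_norm_sq (h.rel.pos s)).sqrt (by positivity)
  have h2 : (fun s => √(‖q s‖ ^ 2)) = fun s => ‖q s‖ := by
    funext s; exact Real.sqrt_sq (norm_nonneg _)
  rw [h2] at h1
  have h3 : 2 * inner ℝ (q s) (p s) / (2 * √(‖q s‖ ^ 2)) = inner ℝ (q s) (p s) / ‖q s‖ := by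
    rw [Real.sqrt_sq (norm_nonneg _), mul_div_mul_left _ _ (by norm_num)]
  rw [h3] at h1
  exact h1

/-- the swept angle -/
def theta (q p : ℝ → Space3) (s : ℝ) : ℝ := ∫ t in (0 : ℝ)..s, ‖q 0‖ * ‖p 0‖ / ‖q t‖ ^ 2

lemma continuous_rate (hΦ : AdmissiblePotential Φ) (h : Turn Φ q p) :
    Continuous fun t => ‖q 0‖ * ‖p 0‖ / ‖q t‖ ^ 2 := by
  refine continuous_const.div (h.rel.continuous_q.norm.pow 2) fun t => ?_
  have := h.norm_pos hΦ t
  positivity

lemma hasDerivAt_theta (hΦ : AdmissiblePotential Φ) (h : Turn Φ q p) (s : ℝ) :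
    HasDerivAt (theta q p) (‖q 0‖ * ‖p 0‖ / ‖q s‖ ^ 2) s :=
  intervalIntegral.integral_hasDerivAt_right ((h.continuous_rate hΦ).intervalIntegrable _ _)
    ((h.continuous_rate hΦ).stronglyMeasurableAtFilter _ _) (h.continuous_rate hΦ).continuousAt

/-- The direction is given by the swept angle. -/
lemma dir_theta (hΦ : AdmissiblePotential Φ) (h : Turn Φ q p) (s : ℝ) :
    inner ℝ (q 0) (q s) / (‖q 0‖ * ‖q s‖) = Real.cos (theta q p s) ∧
      inner ℝ (p 0) (q s) / (‖p 0‖ * ‖q s‖) = Real.sin (theta q p s) := by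
  have hr := h.rpos
  have hV := h.Vpos
  set a : ℝ → ℝ := fun s => inner ℝ (q 0) (q s) / (‖q 0‖ * ‖q s‖) with ha
  set b : ℝ → ℝ := fun s => inner ℝ (p 0) (q s) / (‖p 0‖ * ‖q s‖) with hb
  have e1 : ∀ (c : Space3) (s : ℝ),
      HasDerivAt (fun s => (inner ℝ c (q s) : ℝ)) (inner ℝ c (p s)) s := by
    intro c s
    have := (hasDerivAt_const s c).inner ℝ (h.rel.pos s)
    simpa using this
  have hda : ∀ s, HasDerivAt a (-(‖q 0‖ * ‖p 0‖ / ‖q s‖ ^ 2) * b s) s := by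
    intro s
    have h0 := h.norm_pos hΦ s
    have h1 := (e1 (q 0) s).div ((h.hasDerivAt_norm hΦ s).const_mul ‖q 0‖) (by positivity)
    obtain ⟨c1, c2⟩ := h.coord hΦ s
    have c3 := h.cross hΦ s
    have h2 : (inner ℝ (q 0) (p s) * (‖q 0‖ * ‖q s‖)
        - inner ℝ (q 0) (q s) * (‖q 0‖ * (inner ℝ (q s) (p s) / ‖q s‖))) / (‖q 0‖ * ‖q s‖) ^ 2
        = -(‖q 0‖ * ‖p 0‖ / ‖q s‖ ^ 2) * (inner ℝ (p 0) (q s) / (‖p 0‖ * ‖q s‖)) := by
      have h3 : (inner ℝ (q 0) (p s) * (‖q 0‖ * ‖q s‖)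
        - inner ℝ (q 0) (q s) * (‖q 0‖ * (inner ℝ (q s) (p s) / ‖q s‖))) / (‖q 0‖ * ‖q s‖) ^ 2
        = (inner ℝ (q 0) (p s) * ‖q s‖ ^ 2 - inner ℝ (q 0) (q s) * inner ℝ (q s) (p s))
          / (‖q 0‖ * ‖q s‖ ^ 3) := by
        field_simp
      have h4 : inner ℝ (q 0) (p s) * ‖q s‖ ^ 2 - inner ℝ (q 0) (q s) * inner ℝ (q s) (p s)
          = -(inner ℝ (p 0) (q s) * ‖q 0‖ ^ 2) := by
        rw [c1, c2]
        have h5 : inner ℝ (q 0) (p s) * ((inner ℝ (q 0) (q s)) ^ 2 / ‖q 0‖ ^ 2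
            + (inner ℝ (p 0) (q s)) ^ 2 / ‖p 0‖ ^ 2)
            - inner ℝ (q 0) (q s) * (inner ℝ (q 0) (q s) * inner ℝ (q 0) (p s) / ‖q 0‖ ^ 2
              + inner ℝ (p 0) (q s) * inner ℝ (p 0) (p s) / ‖p 0‖ ^ 2)
            = -(inner ℝ (p 0) (q s) / ‖p 0‖ ^ 2 * (inner ℝ (q 0) (q s) * inner ℝ (p 0) (p s)
              - inner ℝ (p 0) (q s) * inner ℝ (q 0) (p s))) := by ring
        rw [h5, c3]
        field_simp
      rw [h3, h4]
      field_simp
    rw [h2] at h1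
    exact h1
  have hdb : ∀ s, HasDerivAt b (‖q 0‖ * ‖p 0‖ / ‖q s‖ ^ 2 * a s) s := by
    intro s
    have h0 := h.norm_pos hΦ s
    have h1 := (e1 (p 0) s).div ((h.hasDerivAt_norm hΦ s).const_mul ‖p 0‖) (by positivity)
    obtain ⟨c1, c2⟩ := h.coord hΦ s
    have c3 := h.cross hΦ s
    have h2 : (inner ℝ (p 0) (p s) * (‖p 0‖ * ‖q s‖)
        - inner ℝ (p 0) (q s) * (‖p 0‖ * (inner ℝ (q s) (p s) / ‖q s‖))) / (‖p 0‖ * ‖q s‖) ^ 2
        = ‖q 0‖ * ‖p 0‖ / ‖q s‖ ^ 2 * (inner ℝ (q 0) (q s) / (‖q 0‖ * ‖q s‖)) := by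
      have h3 : (inner ℝ (p 0) (p s) * (‖p 0‖ * ‖q s‖)
        - inner ℝ (p 0) (q s) * (‖p 0‖ * (inner ℝ (q s) (p s) / ‖q s‖))) / (‖p 0‖ * ‖q s‖) ^ 2
        = (inner ℝ (p 0) (p s) * ‖q s‖ ^ 2 - inner ℝ (p 0) (q s) * inner ℝ (q s) (p s))
          / (‖p 0‖ * ‖q s‖ ^ 3) := by
        field_simp
      have h4 : inner ℝ (p 0) (p s) * ‖q s‖ ^ 2 - inner ℝ (p 0) (q s) * inner ℝ (q s) (p s)
          = inner ℝ (q 0) (q s) * ‖p 0‖ ^ 2 := by
        rw [c1, c2]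
        have h5 : inner ℝ (p 0) (p s) * ((inner ℝ (q 0) (q s)) ^ 2 / ‖q 0‖ ^ 2
            + (inner ℝ (p 0) (q s)) ^ 2 / ‖p 0‖ ^ 2)
            - inner ℝ (p 0) (q s) * (inner ℝ (q 0) (q s) * inner ℝ (q 0) (p s) / ‖q 0‖ ^ 2
              + inner ℝ (p 0) (q s) * inner ℝ (p 0) (p s) / ‖p 0‖ ^ 2)
            = inner ℝ (q 0) (q s) / ‖q 0‖ ^ 2 * (inner ℝ (q 0) (q s) * inner ℝ (p 0) (p s)
              - inner ℝ (p 0) (q s) * inner ℝ (q 0) (p s)) := by ring
        rw [h5, c3]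
        field_simp
      rw [h3, h4]
      field_simp
    rw [h2] at h1
    exact h1
  have hone : ∀ s, a s ^ 2 + b s ^ 2 = 1 := by
    intro s
    have h0 := h.norm_pos hΦ s
    obtain ⟨c1, -⟩ := h.coord hΦ s
    have h1 : a s ^ 2 + b s ^ 2 = ((inner ℝ (q 0) (q s)) ^ 2 / ‖q 0‖ ^ 2
        + (inner ℝ (p 0) (q s)) ^ 2 / ‖p 0‖ ^ 2) / ‖q s‖ ^ 2 := by
      simp only [ha, hb]
      field_simp
    rw [h1, ← c1]
    field_simp
  have hdg : ∀ s, HasDerivAt (fun s => a s * Real.cos (theta q p s)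
      + b s * Real.sin (theta q p s)) 0 s := by
    intro s
    have ht := h.hasDerivAt_theta hΦ s
    have h1 := ((hda s).mul ht.cos).add ((hdb s).mul ht.sin)
    have h2 : -(‖q 0‖ * ‖p 0‖ / ‖q s‖ ^ 2) * b s * Real.cos (theta q p s)
        + a s * (-Real.sin (theta q p s) * (‖q 0‖ * ‖p 0‖ / ‖q s‖ ^ 2))
        + (‖q 0‖ * ‖p 0‖ / ‖q s‖ ^ 2 * a s * Real.sin (theta q p s)
          + b s * (Real.cos (theta q p s) * (‖q 0‖ * ‖p 0‖ / ‖q s‖ ^ 2))) = 0 := by ring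
    rw [h2] at h1
    exact h1
  have hg := is_const_of_deriv_eq_zero (fun s => (hdg s).differentiableAt)
    (fun s => (hdg s).deriv) s 0
  have ht0 : theta q p 0 = 0 := by simp [theta]
  have ha0 : a 0 = 1 := by
    simp only [ha]
    rw [real_inner_self_eq_norm_sq]
    field_simp
  simp only [ht0, Real.cos_zero, Real.sin_zero, ha0, mul_one, mul_zero, add_zero] at hg
  have h1 := hone s
  have h2 := Real.sin_sq_add_cos_sq (theta q p s)
  have h3 : (a s - Real.cos (theta q p s)) ^ 2 + (b s - Real.sin (theta q p s)) ^ 2 = 0 := by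
    nlinarith
  have h4 : (b s - Real.sin (theta q p s)) ^ 2 = 0 := by
    nlinarith [sq_nonneg (a s - Real.cos (theta q p s)), sq_nonneg (b s - Real.sin (theta q p s))]
  have h4' : (a s - Real.cos (theta q p s)) ^ 2 = 0 := by
    nlinarith [sq_nonneg (a s - Real.cos (theta q p s)), sq_nonneg (b s - Real.sin (theta q p s))]
  have h5 := pow_eq_zero_iff (n := 2) (by norm_num) |>.1 h4
  have h5' := pow_eq_zero_iff (n := 2) (by norm_num) |>.1 h4'
  constructor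
  · show a s = _
    linarith
  · show b s = _
    linarith

lemma sin_theta (hΦ : AdmissiblePotential Φ) (h : Turn Φ q p) (s : ℝ) :
    inner ℝ (p 0) (q s) / (‖p 0‖ * ‖q s‖) = Real.sin (theta q p s) := (h.dir_theta hΦ s).2

lemma cos_theta (hΦ : AdmissiblePotential Φ) (h : Turn Φ q p) (s : ℝ) :
    inner ℝ (q 0) (q s) / (‖q 0‖ * ‖q s‖) = Real.cos (theta q p s) := (h.dir_theta hΦ s).1

/-! ### Change of variables -/

lemma strictMono_norm (hΦ : AdmissiblePotential Φ) (h : Turn Φ q p)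
    (hpos : ∀ s, 0 < s → 0 < inner ℝ (q s) (p s)) :
    StrictMonoOn (fun s => ‖q s‖) (Ici 0) := by
  apply strictMonoOn_of_deriv_pos (convex_Ici 0)
  · exact h.rel.continuous_q.norm.continuousOn
  · intro s hs
    rw [interior_Ici] at hs
    rw [(h.hasDerivAt_norm hΦ s).deriv]
    exact div_pos (hpos s hs) (h.norm_pos hΦ s)

lemma image_eq (hΦ : AdmissiblePotential Φ) (h : Turn Φ q p)
    (hpos : ∀ s, 0 < s → 0 < inner ℝ (q s) (p s))
    (hlim : Tendsto (fun s => ‖q s‖) atTop atTop) :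
    (fun s => ‖q 0‖ / ‖q s‖) '' Ioi 0 = Ioo 0 1 := by
  have hmono := h.strictMono_norm hΦ hpos
  have hr := h.rpos
  ext w
  constructor
  · rintro ⟨s, hs, rfl⟩
    have h1 : ‖q 0‖ < ‖q s‖ := hmono (a := 0) (b := s) (mem_Ici.2 le_rfl) (mem_Ici.2 (le_of_lt hs)) hs
    have h2 := h.norm_pos hΦ s
    exact ⟨by positivity, (div_lt_one h2).2 h1⟩
  · rintro ⟨hw0, hw1⟩
    have h1 : ‖q 0‖ < ‖q 0‖ / w := by
      rw [lt_div_iff₀ hw0]; nlinarith
    obtain ⟨M, hM, hM0⟩ := ((hlim.eventually_ge_atTop (‖q 0‖ / w)).and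
      (eventually_ge_atTop (0 : ℝ))).exists
    have h2 := intermediate_value_Icc hM0 h.rel.continuous_q.norm.continuousOn
    obtain ⟨s, hs, hqs⟩ := h2 ⟨h1.le, hM⟩
    have hs0 : 0 < s := by
      rcases lt_or_eq_of_le hs.1 with h' | h'
      · exact h'
      · exfalso
        rw [← h'] at hqs
        linarith
    refine ⟨s, hs0, ?_⟩
    simp only at hqs ⊢
    rw [hqs]
    field_simp

/-- Energy at the turning point. -/
lemma energy_eq (hΦ : AdmissiblePotential Φ) (h : Turn Φ q p) (s : ℝ) :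
    ‖p s‖ ^ 2 + 4 * prof Φ ‖q s‖ = ‖p 0‖ ^ 2 + 4 * prof Φ ‖q 0‖ := by
  have := h.rel.energy hΦ h.reg0 s
  unfold en at this
  rwa [eq_prof hΦ (q s), eq_prof hΦ (q 0)] at this

lemma Pf_eq (hΦ : AdmissiblePotential Φ) (h : Turn Φ q p) (s : ℝ) :
    Pf Φ ‖q 0‖ (‖p 0‖ ^ 2)⁻¹ (‖q 0‖ / ‖q s‖)
      = (inner ℝ (q s) (p s) / (‖q s‖ * ‖p 0‖)) ^ 2 := by
  have hr := h.rpos
  have hV := h.Vpos
  have h0 := h.norm_pos hΦ s
  have h1 := h.energy_eq hΦ s
  have h2 := h.am_eq hΦ s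
  have h3 : ‖q 0‖ / (‖q 0‖ / ‖q s‖) = ‖q s‖ := by field_simp
  unfold Pf
  rw [h3]
  have h4 : (inner ℝ (q s) (p s)) ^ 2 = ‖q s‖ ^ 2 * ‖p s‖ ^ 2 - ‖q 0‖ ^ 2 * ‖p 0‖ ^ 2 := by
    linarith
  have h5 : ‖p s‖ ^ 2 = ‖p 0‖ ^ 2 + 4 * prof Φ ‖q 0‖ - 4 * prof Φ ‖q s‖ := by linarith
  rw [div_pow, div_pow, h4, h5]
  field_simp
  ring

/-- The change of variables. -/
lemma HA_eq (hΦ : AdmissiblePotential Φ) (h : Turn Φ q p)
    (hpos : ∀ s, 0 < s → 0 < inner ℝ (q s) (p s))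
    (hlim : Tendsto (fun s => ‖q s‖) atTop atTop) :
    HA Φ ‖q 0‖ (‖p 0‖ ^ 2)⁻¹
      = ∫⁻ s in Ioi (0 : ℝ), ENNReal.ofReal (‖q 0‖ * ‖p 0‖ / ‖q s‖ ^ 2) := by
  have hr := h.rpos
  have hV := h.Vpos
  have hmono := h.strictMono_norm hΦ hpos
  unfold HA
  rw [← h.image_eq hΦ hpos hlim]
  have hder : ∀ s ∈ Ioi (0 : ℝ), HasDerivWithinAt (fun s => ‖q 0‖ / ‖q s‖)
      (-(‖q 0‖ * inner ℝ (q s) (p s) / ‖q s‖ ^ 3)) (Ioi 0) s := by
    intro s hs
    have h0 := h.norm_pos hΦ s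
    have h1 := (hasDerivAt_const s ‖q 0‖).div (h.hasDerivAt_norm hΦ s) h0.ne'
    have h2 : (0 * ‖q s‖ - ‖q 0‖ * (inner ℝ (q s) (p s) / ‖q s‖)) / ‖q s‖ ^ 2
        = -(‖q 0‖ * inner ℝ (q s) (p s) / ‖q s‖ ^ 3) := by
      field_simp
      ring
    rw [h2] at h1
    exact h1.hasDerivWithinAt
  have hinj : InjOn (fun s => ‖q 0‖ / ‖q s‖) (Ioi 0) := by
    intro s hs t ht hst
    have h1 := h.norm_pos hΦ s
    have h2 := h.norm_pos hΦ t
    have h3 : ‖q s‖ = ‖q t‖ := by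
      simp only at hst
      rw [div_eq_div_iff h1.ne' h2.ne'] at hst
      nlinarith [mul_left_cancel₀ hr.ne' hst]
    exact hmono.injOn (mem_Ici.2 (le_of_lt hs)) (mem_Ici.2 (le_of_lt ht)) h3
  rw [lintegral_image_eq_lintegral_abs_deriv_mul measurableSet_Ioi hder hinj]
  apply setLIntegral_congr_fun measurableSet_Ioi
  intro s hs
  have h0 := h.norm_pos hΦ s
  have h1 := hpos s hs
  show ENNReal.ofReal |-(‖q 0‖ * inner ℝ (q s) (p s) / ‖q s‖ ^ 3)|
    * ker (Pf Φ ‖q 0‖ (‖p 0‖ ^ 2)⁻¹ (‖q 0‖ / ‖q s‖)) = ENNReal.ofReal (‖q 0‖ * ‖p 0‖ / ‖q s‖ ^ 2)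
  have h2 : 0 < inner ℝ (q s) (p s) / (‖q s‖ * ‖p 0‖) := by positivity
  rw [h.Pf_eq hΦ s, ker_of_pos (by positivity), Real.sqrt_sq h2.le, abs_neg,
    abs_of_pos (by positivity), ← ENNReal.ofReal_mul (by positivity)]
  congr 1
  field_simp

/-! ### Conclusion for a trajectory -/

/-- The total half swept angle. -/
lemma limit_angle (hΦ : AdmissiblePotential Φ) (h : Turn Φ q p)
    (hpos : ∀ s, 0 < s → 0 < inner ℝ (q s) (p s)) {σ : ℝ} (hσ : 0 ≤ σ)
    (hafter : ∀ s, σ ≤ s → q s = q σ + (s - σ) • p σ) (hpσ : p σ ≠ 0)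
    (hq1 : 0 ≤ inner ℝ (q σ) (p σ)) :
    ∃ Θ : ℝ, 0 ≤ Θ ∧ HA Φ ‖q 0‖ (‖p 0‖ ^ 2)⁻¹ = ENNReal.ofReal Θ ∧
      Tendsto (theta q p) atTop (𝓝 Θ) ∧ Tendsto (fun s => ‖q s‖) atTop atTop := by
  have hr := h.rpos
  have hV := h.Vpos
  have hpn : 0 < ‖p σ‖ := norm_pos_iff.2 hpσ
  have hqn := h.norm_pos hΦ σ
  have hsq : ∀ s, σ ≤ s → ‖q σ‖ ^ 2 + (s - σ) ^ 2 * ‖p σ‖ ^ 2 ≤ ‖q s‖ ^ 2 := by
    intro s hs
    rw [hafter s hs, norm_sq_line]
    have : 0 ≤ 2 * (s - σ) * inner ℝ (q σ) (p σ) := by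
      have : 0 ≤ s - σ := by linarith
      positivity
    linarith
  have hge : ∀ s, σ ≤ s → (s - σ) * ‖p σ‖ ≤ ‖q s‖ := by
    intro s hs
    have h1 := hsq s hs
    have h2 : ((s - σ) * ‖p σ‖) ^ 2 ≤ ‖q s‖ ^ 2 := by
      rw [mul_pow]; nlinarith [sq_nonneg ‖q σ‖]
    exact (pow_le_pow_iff_left₀ (mul_nonneg (by linarith) hpn.le) (norm_nonneg _)
      (by norm_num)).1 h2
  have hlim : Tendsto (fun s => ‖q s‖) atTop atTop := by
    have h1 : Tendsto (fun s : ℝ => (s - σ) * ‖p σ‖) atTop atTop :=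
      (tendsto_atTop_add_const_right _ (-σ) tendsto_id).atTop_mul_const hpn
    refine tendsto_atTop_mono' atTop ?_ h1
    filter_upwards [eventually_ge_atTop σ] with s hs
    exact hge s hs
  -- integrability
  have hcr := h.continuous_rate hΦ
  have hint : IntegrableOn (fun t => ‖q 0‖ * ‖p 0‖ / ‖q t‖ ^ 2) (Ioi 0) := by
    have hunion : Ioi (0 : ℝ) = Ioc 0 σ ∪ Ioi σ := (Ioc_union_Ioi_eq_Ioi hσ).symm
    rw [hunion]
    refine IntegrableOn.union ?_ ?_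
    · exact (hcr.integrableOn_Icc (a := 0) (b := σ)).mono_set Ioc_subset_Icc_self
    · set m : ℝ := min (‖q σ‖ ^ 2) (‖p σ‖ ^ 2) with hm
      have hm0 : 0 < m := lt_min (by positivity) (by positivity)
      have h1 : Integrable (fun s : ℝ => (‖q 0‖ * ‖p 0‖ / m) * (1 + (s - σ) ^ 2)⁻¹) :=
        (integrable_inv_one_add_sq.comp_sub_right σ).const_mul _
      refine h1.integrableOn.mono' (hcr.measurable.aestronglyMeasurable) ?_
      filter_upwards [ae_restrict_mem measurableSet_Ioi] with s hs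
      have h0 := h.norm_pos hΦ s
      rw [Real.norm_of_nonneg (by positivity)]
      have h2 := hsq s (le_of_lt hs)
      have h3 : m * (1 + (s - σ) ^ 2) ≤ ‖q s‖ ^ 2 := by
        have h4 : m ≤ ‖q σ‖ ^ 2 := min_le_left _ _
        have h5 : m ≤ ‖p σ‖ ^ 2 := min_le_right _ _
        nlinarith [sq_nonneg (s - σ), mul_le_mul_of_nonneg_left h5 (sq_nonneg (s - σ))]
      rw [div_mul_eq_mul_div, ← div_eq_mul_inv, div_div]
      have h6 : (1 + (s - σ) ^ 2) * m = m * (1 + (s - σ) ^ 2) := by ring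
      rw [h6]
      exact div_le_div_of_nonneg_left (by positivity) (by positivity) h3
  have hth : Tendsto (theta q p) atTop (𝓝 (∫ t in Ioi (0 : ℝ), ‖q 0‖ * ‖p 0‖ / ‖q t‖ ^ 2)) :=
    intervalIntegral_tendsto_integral_Ioi 0 hint tendsto_id
  refine ⟨∫ t in Ioi (0 : ℝ), ‖q 0‖ * ‖p 0‖ / ‖q t‖ ^ 2,
    integral_nonneg fun t => by positivity, ?_, hth, hlim⟩
  rw [h.HA_eq hΦ hpos hlim, ← ofReal_integral_eq_lintegral_ofReal hint
    (Eventually.of_forall fun t => by positivity)]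

/-- Limit of the components along a fixed direction orthogonal to the final velocity. -/
lemma tendsto_comp {σ : ℝ} (hafter : ∀ s, σ ≤ s → q s = q σ + (s - σ) • p σ)
    (hlim : Tendsto (fun s => ‖q s‖) atTop atTop) {n : Space3} {c : ℝ}
    (hperp : inner ℝ n (p σ) = (0 : ℝ)) :
    Tendsto (fun s => inner ℝ n (q s) / (c * ‖q s‖)) atTop (𝓝 (0 : ℝ)) := by
  have h3 : Tendsto (fun s => (inner ℝ n (q σ) / c) / ‖q s‖) atTop (𝓝 (0 : ℝ)) :=
    hlim.const_div_atTop _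
  refine h3.congr' ?_
  filter_upwards [eventually_ge_atTop σ] with s hs
  conv_rhs => rw [hafter s hs, inner_add_right, inner_smul_right, hperp, mul_zero, add_zero]
  rw [← hafter s hs, div_div]

lemma badVal_of (hΦ : AdmissiblePotential Φ) (h : Turn Φ q p)
    (hpos : ∀ s, 0 < s → 0 < inner ℝ (q s) (p s)) {σ : ℝ} (hσ : 0 ≤ σ)
    (hafter : ∀ s, σ ≤ s → q s = q σ + (s - σ) • p σ) (hpσ : p σ ≠ 0)
    (hq1 : 0 ≤ inner ℝ (q σ) (p σ)) (hperp : inner ℝ (p 0) (p σ) = (0 : ℝ)) :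
    HA Φ ‖q 0‖ (‖p 0‖ ^ 2)⁻¹ ∈ badVal := by
  obtain ⟨Θ, hΘ0, hHA, hth, hlim⟩ := h.limit_angle hΦ hpos hσ hafter hpσ hq1
  have hsin : Real.sin Θ = 0 := by
    have h1 : Tendsto (fun s => Real.sin (theta q p s)) atTop (𝓝 (Real.sin Θ)) :=
      (Real.continuous_sin.tendsto Θ).comp hth
    have h2 : Tendsto (fun s => Real.sin (theta q p s)) atTop (𝓝 0) :=
      (tendsto_comp (c := ‖p 0‖) hafter hlim hperp).congr fun s => h.sin_theta hΦ s
    exact tendsto_nhds_unique h1 h2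
  obtain ⟨n, hn⟩ := Real.sin_eq_zero_iff.1 hsin
  have hn0 : 0 ≤ n := by
    have : 0 ≤ (n : ℝ) := by
      by_contra hneg
      rw [not_le] at hneg
      have := mul_neg_of_neg_of_pos hneg Real.pi_pos
      linarith
    exact_mod_cast this
  obtain ⟨k, rfl⟩ := Int.eq_ofNat_of_zero_le hn0
  refine ⟨k, ?_⟩
  show ENNReal.ofReal (k * Real.pi) = HA Φ ‖q 0‖ (‖p 0‖ ^ 2)⁻¹
  rw [hHA, ← hn]
  norm_cast

end Turn

/-! ### Scattering data -/

theorem mem_badImg (hΦ : AdmissiblePotential Φ) {b g : Space3} (hb : b ∈ impactDisc g)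
    (hb0 : b ≠ 0) (hg : g ≠ 0) (hsw : exitVelocity Φ b g = -g) : (‖g‖, ‖b‖) ∈ badImg Φ := by
  have hreg : Reg Φ (inc b g).1 := reg_entrance Φ hb hg
  have hbn : 0 < ‖b‖ := norm_pos_iff.2 hb0
  have hgn : 0 < ‖g‖ := norm_pos_iff.2 hg
  have hex : ∃ τ, HasExit Φ (inc b g) τ := by
    by_contra hno
    rw [exitVelocity_of_not hΦ hreg hno] at hsw
    have h1 : (2 : ℝ) • g = 0 := by
      rw [two_smul]; nth_rewrite 2 [hsw]; exact add_neg_cancel g
    rcases smul_eq_zero.1 h1 with h2 | h2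
    · norm_num at h2
    · exact hg h2
  obtain ⟨τ, hτ⟩ := hex
  obtain ⟨ht1, ht2⟩ := hτ.turning hΦ hb hg
  rw [exitVelocity_eq hΦ hreg hτ] at hsw
  set s0 : ℝ := τ / 2 with hs0
  have hs0pos : 0 < s0 := by have := hτ.1; positivity
  set z := inc b g with hz
  set q : ℝ → Space3 := fun s => (relFlow Φ (s0 + s) z).1 with hq
  set p : ℝ → Space3 := fun s => (relFlow Φ (s0 + s) z).2 with hp
  have hrel : IsRel Φ q p := (isRel_relFlow hΦ hreg).shift s0
  have hq0 : q 0 = (relFlow Φ s0 z).1 := by simp [hq]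
  have hp0 : p 0 = (relFlow Φ s0 z).2 := by simp [hp]
  have horth : inner ℝ (q 0) (p 0) = (0 : ℝ) := by rw [hq0, hp0]; exact ht1
  have ham : ‖q 0‖ ^ 2 * ‖p 0‖ ^ 2 = ‖g‖ ^ 2 * ‖b‖ ^ 2 := by
    have h1 := am_relFlow hΦ hreg s0
    have h2 : am z.1 z.2 = ‖g‖ ^ 2 * ‖b‖ ^ 2 := am_entrance hb hg
    rw [h2, am, ht1, ← hq0, ← hp0] at h1
    linarith
  have hprod : 0 < ‖q 0‖ ^ 2 * ‖p 0‖ ^ 2 := by rw [ham]; positivity
  have hqne : q 0 ≠ 0 := by
    intro h0; rw [h0] at hprod; simp at hprod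
  have hpne : p 0 ≠ 0 := by
    intro h0; rw [h0] at hprod; simp at hprod
  have hT : Turn Φ q p := ⟨hrel, horth, hqne, hpne⟩
  have hrefl := relFlow_reflect hΦ hreg (s0 := s0) ht1
  set S := (Submodule.span ℝ {(relFlow Φ s0 z).1}).reflection with hS
  have hτs : s0 + s0 = τ := by rw [hs0]; ring
  have hafter : ∀ s, s0 ≤ s → q s = q s0 + (s - s0) • p s0 ∧ p s = p s0 := by
    intro s hs
    have h1 := hτ.after hΦ hreg (s := s0 + s) (by linarith)
    have h2 : s0 + s - τ = s - s0 := by rw [← hτs]; ring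
    rw [h2] at h1
    constructor
    · show (relFlow Φ (s0 + s) z).1 = (relFlow Φ (s0 + s0) z).1 + (s - s0) • (relFlow Φ (s0 + s0) z).2
      rw [h1, hτs]
    · show (relFlow Φ (s0 + s) z).2 = (relFlow Φ (s0 + s0) z).2
      rw [h1, hτs]
  have hin : 0 < inner ℝ (q s0) (p s0) := by
    have := hτ.inner_pos hΦ hreg
    simp only [hq, hp, hτs]
    exact this
  have hpos : ∀ s, 0 < s → 0 < inner ℝ (q s) (p s) := by
    intro s hs
    rcases le_total s s0 with hle | hle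
    · rcases lt_or_eq_of_le hle with hlt | heq
      · have h1 := ht2 (s0 - s) ⟨by linarith, by linarith⟩
        rw [hrefl s] at h1
        simp only [inner_neg_right, LinearIsometryEquiv.inner_map_map] at h1
        show 0 < inner ℝ (relFlow Φ (s0 + s) z).1 (relFlow Φ (s0 + s) z).2
        linarith
      · rw [heq]; exact hin
    · obtain ⟨h1, h2⟩ := hafter s hle
      rw [h1, h2, inner_add_left, inner_smul_left, real_inner_self_eq_norm_sq]
      simp only [conj_trivial]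
      have : 0 ≤ (s - s0) * ‖p s0‖ ^ 2 := mul_nonneg (by linarith) (by positivity)
      linarith
  have hps0 : p s0 = -g := by
    show (relFlow Φ (s0 + s0) z).2 = -g
    rw [hτs]; exact hsw
  have hperp : inner ℝ (p 0) (p s0) = (0 : ℝ) := by
    have h1 := hrefl s0
    rw [sub_self, relFlow_zero hΦ] at h1
    have h2 : g = -S (p s0) := congrArg Prod.snd h1
    have h3 : S (p s0) = p s0 := by
      rw [hps0] at h2 ⊢
      rw [eq_comm, neg_eq_iff_eq_neg]; exact h2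
    have h4 : S (p 0) = -p 0 := by
      apply Submodule.reflection_mem_subspace_orthogonalComplement_eq_neg
      rw [Submodule.mem_orthogonal_singleton_iff_inner_right, hp0]
      exact ht1
    have h5 : inner ℝ (S (p 0)) (S (p s0)) = inner ℝ (p 0) (p s0) :=
      LinearIsometryEquiv.inner_map_map S _ _
    rw [h3, h4, inner_neg_left] at h5
    linarith
  have hbad := hT.badVal_of hΦ hpos hs0pos.le (fun s hs => (hafter s hs).1)
    (by rw [hps0]; exact neg_ne_zero.2 hg) hin.le hperp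
  have hrp := hT.rpos
  have hVp := hT.Vpos
  have hE : ‖g‖ ^ 2 = ‖p 0‖ ^ 2 + 4 * prof Φ ‖q 0‖ := by
    have h1 := hT.energy_eq hΦ (-s0)
    have h2 : relFlow Φ (s0 + -s0) z = z := by rw [add_neg_cancel]; exact relFlow_zero hΦ z
    have h3 : q (-s0) = entrancePoint b g := congrArg Prod.fst h2
    have h4 : p (-s0) = g := congrArg Prod.snd h2
    rw [h3, h4, norm_entrance hb hg, prof_eq_zero hΦ le_rfl] at h1
    linarith
  have hE' : 4 * prof Φ ‖q 0‖ + ((‖p 0‖ ^ 2)⁻¹)⁻¹ = ‖g‖ ^ 2 := by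
    rw [inv_inv, hE]; ring
  refine ⟨(‖q 0‖, (‖p 0‖ ^ 2)⁻¹), ⟨⟨hrp, hbad⟩, hrp, by positivity, ?_⟩, ?_⟩
  · show 0 < 4 * prof Φ ‖q 0‖ + ((‖p 0‖ ^ 2)⁻¹)⁻¹
    rw [hE']; positivity
  · unfold Gm
    simp only
    rw [hE', Real.sqrt_sq hgn.le, Real.sqrt_inv, Real.sqrt_sq hVp.le]
    ext1
    · rfl
    · show ‖q 0‖ / (‖p 0‖⁻¹ * ‖g‖) = ‖b‖
      have h1 : (‖q 0‖ * ‖p 0‖) ^ 2 = (‖g‖ * ‖b‖) ^ 2 := by rw [mul_pow, mul_pow]; exact ham
      have h2 : ‖q 0‖ * ‖p 0‖ = ‖g‖ * ‖b‖ :=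
        (pow_left_inj₀ (by positivity) (by positivity) (by norm_num)).1 h1
      rw [div_mul_eq_div_div, div_inv_eq_mul, h2]
      field_simp

/-- **Exact exchange of velocities has measure zero** (planar form). -/
theorem ae_volume_swap (hΦ : AdmissiblePotential Φ) :
    ∀ᵐ g : Space3, volume {y : Disc416.Plane | Disc416.frameMap g y ∈ impactDisc g ∧
      exitVelocity Φ (Disc416.frameMap g y) g = -g} = 0 := by
  have hne : ∀ᵐ g : Space3, g ≠ 0 := by
    rw [ae_iff]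
    simp
  filter_upwards [ae_speed hΦ, hne] with g hgb hg
  have hsub : {y : Disc416.Plane | Disc416.frameMap g y ∈ impactDisc g ∧
      exitVelocity Φ (Disc416.frameMap g y) g = -g} ⊆
      {0} ∪ {y | ‖y‖ ∈ {ρ : ℝ | (‖g‖, ρ) ∈ badImg Φ}} := by
    rintro y ⟨hmem, hsw⟩
    by_cases hy : y = 0
    · exact Or.inl hy
    · right
      have hypos : 0 < ‖y‖ := norm_pos_iff.2 hy
      have hb0 : Disc416.frameMap g y ≠ 0 := by
        rw [← norm_pos_iff, Disc416.norm_frameMap hg]; exact hypos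
      have h1 := mem_badImg hΦ hmem hb0 hg hsw
      rw [Disc416.norm_frameMap hg] at h1
      exact h1
  refine measure_mono_null hsub (measure_union_null (by simp) ?_)
  have : Nontrivial Disc416.Plane := by
    unfold Disc416.Plane; infer_instance
  exact measure_norm_preimage_null volume hgb

/-- **Exact exchange of velocities has measure zero.** -/
theorem ae_measure_swap (hΦ : AdmissiblePotential Φ) :
    ∀ᵐ g : Space3, (μHE[2] : Measure Space3)
      {b | b ∈ impactDisc g ∧ exitVelocity Φ b g = -g} = 0 := by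
  have hne : ∀ᵐ g : Space3, g ≠ 0 := by
    rw [ae_iff]
    simp
  filter_upwards [ae_volume_swap hΦ, hne] with g hgb hg
  have hemb : MeasurableEmbedding (Disc416.frameMap g) :=
    (Disc416.isometry_frameMap hg).isClosedEmbedding.measurableEmbedding
  have h1 : (μHE[2] : Measure Space3) {b | b ∈ impactDisc g ∧ exitVelocity Φ b g = -g}
      ≤ ((μHE[2] : Measure Space3).restrict (impactDisc g))
        {b | b ∈ impactDisc g ∧ exitVelocity Φ b g = -g} := by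
    rw [Measure.restrict_eq_self _
      (fun b (hb : b ∈ {b | b ∈ impactDisc g ∧ exitVelocity Φ b g = -g}) => hb.1)]
  refine le_antisymm (h1.trans ?_) zero_le
  rw [← Disc416.map_frameMap hg, hemb.map_apply]
  exact (Measure.restrict_apply_le _ _).trans hgb.le

end Crest.Agent.R122.Swap350
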