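import Crest.Agent.R122.Swap2_350

/-!
# Row 122: a passage without deflection is free, up to a null event
-/

set_option autoImplicit false

open MeasureTheory Filter Set
open scoped Topology NNReal ENNReal
open Crest.AnalysisR.Kinetic

noncomputable section

namespace Crest.Agent.R122.Swap350

open Scat818

variable {Φ : Space3 → ℝ}

/-- The potential vanishes beyond `r`. -/
def Flat (Φ : Space3 → ℝ) (r : ℝ) : Prop := ∀ ρ, r ≤ ρ → prof Φ ρ = 0

lemma Flat.mono {r r' : ℝ} (h : Flat Φ r) (hr : r ≤ r') : Flat Φ r' := fun ρ hρ => h ρ (hr.trans hρ)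

lemma measurableSet_flat (Φ : Space3 → ℝ) : MeasurableSet {r : ℝ | Flat Φ r} := by
  apply Set.OrdConnected.measurableSet
  exact ⟨fun x hx _ _ z hz => Flat.mono hx hz.1⟩

lemma flat_of_const (hΦ : AdmissiblePotential Φ) {r : ℝ} (hr : 0 < r)
    (h : ∀ w ∈ Ioo (0 : ℝ) 1, prof Φ (r / w) = prof Φ r) : Flat Φ r := by
  have h0 := flat_zero hΦ hr h
  intro ρ hρ
  rcases eq_or_lt_of_le hρ with h1 | h1
  · rw [← h1]; exact h0
  · have hρ0 : 0 < ρ := hr.trans h1
    have h2 := h (r / ρ) ⟨by positivity, (div_lt_one hρ0).2 h1⟩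
    have h3 : r / (r / ρ) = ρ := by field_simp
    rw [h3] at h2
    rw [h2, h0]

lemma Flat.deriv_eq_zero (hΦ : AdmissiblePotential Φ) {r ρ : ℝ} (hr : 0 < r) (h : Flat Φ r)
    (hρ : r ≤ ρ) : deriv (prof Φ) ρ = 0 := by
  have hr0 : ρ ≠ 0 := by linarith
  have h1 : HasDerivWithinAt (prof Φ) (deriv (prof Φ) ρ) (Ici ρ) ρ :=
    (prof_hasDerivAt hΦ hr0).hasDerivWithinAt
  have h2 : HasDerivWithinAt (prof Φ) 0 (Ici ρ) ρ := by
    have h3 : HasDerivWithinAt (fun _ : ℝ => (0:ℝ)) 0 (Ici ρ) ρ := hasDerivWithinAt_const _ _ _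
    refine h3.congr (fun y hy => h y (hρ.trans hy)) (h ρ hρ)
  exact (uniqueDiffWithinAt_Ici ρ).eq_deriv _ h1 h2

lemma Flat.force_eq_zero (hΦ : AdmissiblePotential Φ) {r : ℝ} (hr : 0 < r) (h : Flat Φ r)
    {x : Space3} (hx : r ≤ ‖x‖) : force Φ x = 0 := by
  rw [force, gradient_eq hΦ, h.deriv_eq_zero hΦ hr hx, zero_div, zero_smul, smul_zero]

/-- Trajectories staying in the flat region are free. -/
lemma IsRel.free (hΦ : AdmissiblePotential Φ) {q p : ℝ → Space3} (h : IsRel Φ q p) {r : ℝ}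
    (hr : 0 < r) (hf : Flat Φ r) (hq : ∀ s, r ≤ ‖q s‖) (s t : ℝ) :
    p s = p t ∧ q s = q t + (s - t) • p t := by
  have hp : ∀ s t, p s = p t := by
    apply is_const_of_deriv_eq_zero (fun s => (h.vel s).differentiableAt)
    intro s
    rw [(h.vel s).deriv, hf.force_eq_zero hΦ hr (hq s)]
  refine ⟨hp s t, ?_⟩
  have h1 : ∀ s t, q s - (s - 0) • p 0 = q t - (t - 0) • p 0 := by
    apply is_const_of_deriv_eq_zero (f := fun s => q s - (s - 0) • p 0)
    · intro s
      exact (h.pos s).differentiableAt.sub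
        (((differentiableAt_id).sub_const 0).smul_const (p 0))
    · intro s
      have h2 : HasDerivAt (fun s : ℝ => q s - (s - 0) • p 0) (p s - (1 : ℝ) • p 0) s :=
        (h.pos s).sub (((hasDerivAt_id s).sub_const 0).smul_const (p 0))
      rw [h2.deriv, one_smul, hp s 0, sub_self]
  have h2 := h1 s t
  rw [hp t 0]
  have h3 : q s = q t - (t - 0) • p 0 + (s - 0) • p 0 := by rw [← h2]; abel
  rw [h3, sub_zero, sub_zero, sub_smul]
  abel

/-! ### Exceptional values -/

/-- The exceptional values for a passage without deflection. -/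
def badVal2 : Set ℝ≥0∞ := range fun n : ℕ => ENNReal.ofReal (Real.pi / 2 + n * Real.pi)

lemma countable_badVal2 : badVal2.Countable := countable_range _

lemma finite_level2 (hΦ : AdmissiblePotential Φ) {r : ℝ} (hr : 0 < r) (hf : ¬ Flat Φ r) (n : ℕ) :
    {y : ℝ | HA Φ r y = ENNReal.ofReal (Real.pi / 2 + n * Real.pi)}.Finite := by
  by_contra hinf
  obtain ⟨t, hts, hcard⟩ := Set.Infinite.exists_subset_card_eq hinf 3
  have hmem : ∀ i : Fin 3, t.orderEmbOfFin hcard i ∈
      {y : ℝ | HA Φ r y = ENNReal.ofReal (Real.pi / 2 + n * Real.pi)} := fun i =>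
    hts (Finset.orderEmbOfFin_mem t hcard i)
  have h01 : t.orderEmbOfFin hcard 0 < t.orderEmbOfFin hcard 1 :=
    (t.orderEmbOfFin hcard).strictMono (by decide)
  have h12 : t.orderEmbOfFin hcard 1 < t.orderEmbOfFin hcard 2 :=
    (t.orderEmbOfFin hcard).strictMono (by decide)
  have h := three hΦ hr ENNReal.ofReal_ne_top h01 h12 (hmem 0) (hmem 1) (hmem 2)
  exact hf (flat_of_const hΦ hr h)

/-- The bad parameters. -/
def badPar2 (Φ : Space3 → ℝ) : Set (ℝ × ℝ) :=
  {p | 0 < p.1 ∧ ¬ Flat Φ p.1 ∧ HA Φ p.1 p.2 ∈ badVal2}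

lemma measurableSet_badPar2 (hΦ : AdmissiblePotential Φ) : MeasurableSet (badPar2 Φ) :=
  (measurableSet_lt measurable_const measurable_fst).inter
    ((measurable_fst (measurableSet_flat Φ).compl).inter
      (measurable_HA hΦ countable_badVal2.measurableSet))

lemma volume_badPar2 (hΦ : AdmissiblePotential Φ) : volume (badPar2 Φ) = 0 := by
  rw [Measure.volume_eq_prod, Measure.measure_prod_null (measurableSet_badPar2 hΦ)]
  apply Eventually.of_forall
  intro r
  show volume (Prod.mk r ⁻¹' badPar2 Φ) = 0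
  by_cases hr : 0 < r ∧ ¬ Flat Φ r
  · have hsub : Prod.mk r ⁻¹' badPar2 Φ ⊆
        ⋃ n : ℕ, {y : ℝ | HA Φ r y = ENNReal.ofReal (Real.pi / 2 + n * Real.pi)} := by
      rintro y ⟨_, _, n, hn⟩
      exact mem_iUnion.2 ⟨n, hn.symm⟩
    exact ((countable_iUnion fun n => (finite_level2 hΦ hr.1 hr.2 n).countable).mono
      hsub).measure_zero _
  · have : Prod.mk r ⁻¹' badPar2 Φ = ∅ := by
      ext y
      simp only [mem_empty_iff_false, iff_false]
      exact fun h => hr ⟨h.1, h.2.1⟩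
    rw [this]; simp

/-- The image of the bad parameters. -/
def badImg2 (Φ : Space3 → ℝ) : Set (ℝ × ℝ) := Gm Φ '' (badPar2 Φ ∩ dom Φ)

lemma volume_badImg2 (hΦ : AdmissiblePotential Φ) : volume (badImg2 Φ) = 0 := by
  apply addHaar_image_eq_zero_of_differentiableOn_of_addHaar_eq_zero volume
  · intro p hp
    exact (differentiableAt_Gm hΦ hp.2).differentiableWithinAt
  · exact measure_mono_null inter_subset_left (volume_badPar2 hΦ)

lemma ae_speed2 (hΦ : AdmissiblePotential Φ) :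
    ∀ᵐ g : Space3, volume {ρ : ℝ | (‖g‖, ρ) ∈ badImg2 Φ} = 0 := by
  have h1 : ∀ᵐ e : ℝ, volume (Prod.mk e ⁻¹' badImg2 Φ) = 0 :=
    Measure.measure_ae_null_of_prod_null (μ := (volume : Measure ℝ)) (ν := (volume : Measure ℝ))
      (by rw [← Measure.volume_eq_prod]; exact volume_badImg2 hΦ)
  have h2 : volume {e : ℝ | volume (Prod.mk e ⁻¹' badImg2 Φ) ≠ 0} = 0 := h1
  have : Nontrivial Space3 := by infer_instance
  exact measure_norm_preimage_null (volume : Measure Space3) h2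

/-! ### The turning point of a passage -/

/-- All data of a passage seen from its turning point. -/
theorem exists_turn (hΦ : AdmissiblePotential Φ) {b g : Space3} (hb : b ∈ impactDisc g)
    (hb0 : b ≠ 0) (hg : g ≠ 0) {τ : ℝ} (hτ : HasExit Φ (inc b g) τ) :
    ∃ q p : ℝ → Space3, Turn Φ q p ∧
      (∀ s, q s = (relFlow Φ (τ / 2 + s) (inc b g)).1 ∧
        p s = (relFlow Φ (τ / 2 + s) (inc b g)).2) ∧
      (∀ s, 0 < s → 0 < inner ℝ (q s) (p s)) ∧
      (∀ s, τ / 2 ≤ s → q s = q (τ / 2) + (s - τ / 2) • p (τ / 2) ∧ p s = p (τ / 2)) ∧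
      p (τ / 2) = exitVelocity Φ b g ∧ p (-(τ / 2)) = g ∧ q (-(τ / 2)) = entrancePoint b g ∧
      (∀ s, ‖q (-s)‖ = ‖q s‖) ∧
      (inner ℝ (q 0) g = -inner ℝ (q 0) (exitVelocity Φ b g)) ∧
      (inner ℝ (p 0) g = (inner ℝ (p 0) (exitVelocity Φ b g) : ℝ)) ∧
      (‖q 0‖, (‖p 0‖ ^ 2)⁻¹) ∈ dom Φ ∧ Gm Φ (‖q 0‖, (‖p 0‖ ^ 2)⁻¹) = (‖g‖, ‖b‖) := by
  have hreg : Reg Φ (inc b g).1 := reg_entrance Φ hb hg
  have hbn : 0 < ‖b‖ := norm_pos_iff.2 hb0
  have hgn : 0 < ‖g‖ := norm_pos_iff.2 hg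
  obtain ⟨ht1, ht2⟩ := hτ.turning hΦ hb hg
  have hev := exitVelocity_eq hΦ hreg hτ
  set s0 : ℝ := τ / 2 with hs0
  have hs0pos : 0 < s0 := by have := hτ.1; positivity
  set z := inc b g with hz
  set q : ℝ → Space3 := fun s => (relFlow Φ (s0 + s) z).1 with hq
  set p : ℝ → Space3 := fun s => (relFlow Φ (s0 + s) z).2 with hp
  have hrel : IsRel Φ q p := (isRel_relFlow hΦ hreg).shift s0
  have hq0 : q 0 = (relFlow Φ s0 z).1 := by simp [hq]
  have hp0 : p 0 = (relFlow Φ s0 z).2 := by simp [hp]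
  have horth : inner ℝ (q 0) (p 0) = (0 : ℝ) := by rw [hq0, hp0]; exact ht1
  have ham : ‖q 0‖ ^ 2 * ‖p 0‖ ^ 2 = ‖g‖ ^ 2 * ‖b‖ ^ 2 := by
    have h1 := am_relFlow hΦ hreg s0
    have h2 : am z.1 z.2 = ‖g‖ ^ 2 * ‖b‖ ^ 2 := am_entrance hb hg
    rw [h2, am, ht1, ← hq0, ← hp0] at h1
    linarith
  have hprod : 0 < ‖q 0‖ ^ 2 * ‖p 0‖ ^ 2 := by rw [ham]; positivity
  have hqne : q 0 ≠ 0 := by
    intro h0; rw [h0] at hprod; simp at hprod
  have hpne : p 0 ≠ 0 := by
    intro h0; rw [h0] at hprod; simp at hprod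
  have hT : Turn Φ q p := ⟨hrel, horth, hqne, hpne⟩
  have hrefl := relFlow_reflect hΦ hreg (s0 := s0) ht1
  set S := (Submodule.span ℝ {(relFlow Φ s0 z).1}).reflection with hS
  have hτs : s0 + s0 = τ := by rw [hs0]; ring
  have hafter : ∀ s, s0 ≤ s → q s = q s0 + (s - s0) • p s0 ∧ p s = p s0 := by
    intro s hs
    have h1 := hτ.after hΦ hreg (s := s0 + s) (by linarith)
    have h2 : s0 + s - τ = s - s0 := by rw [← hτs]; ring
    rw [h2] at h1
    constructor
    · show (relFlow Φ (s0 + s) z).1 = (relFlow Φ (s0 + s0) z).1 + (s - s0) • (relFlow Φ (s0 + s0) z).2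
      rw [h1, hτs]
    · show (relFlow Φ (s0 + s) z).2 = (relFlow Φ (s0 + s0) z).2
      rw [h1, hτs]
  have hin : 0 < inner ℝ (q s0) (p s0) := by
    have := hτ.inner_pos hΦ hreg
    simp only [hq, hp, hτs]
    exact this
  have hpos : ∀ s, 0 < s → 0 < inner ℝ (q s) (p s) := by
    intro s hs
    rcases le_total s s0 with hle | hle
    · rcases lt_or_eq_of_le hle with hlt | heq
      · have h1 := ht2 (s0 - s) ⟨by linarith, by linarith⟩
        rw [hrefl s] at h1
        simp only [inner_neg_right, LinearIsometryEquiv.inner_map_map] at h1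
        show 0 < inner ℝ (relFlow Φ (s0 + s) z).1 (relFlow Φ (s0 + s) z).2
        linarith
      · rw [heq]; exact hin
    · obtain ⟨h1, h2⟩ := hafter s hle
      rw [h1, h2, inner_add_left, inner_smul_left, real_inner_self_eq_norm_sq]
      simp only [conj_trivial]
      have : 0 ≤ (s - s0) * ‖p s0‖ ^ 2 := mul_nonneg (by linarith) (by positivity)
      linarith
  have hps0 : p s0 = exitVelocity Φ b g := by
    show (relFlow Φ (s0 + s0) z).2 = _
    rw [hτs, hev]
  have hm0 : relFlow Φ (s0 + -s0) z = z := by rw [add_neg_cancel]; exact relFlow_zero hΦ z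
  have hqm : q (-s0) = entrancePoint b g := congrArg Prod.fst hm0
  have hpm : p (-s0) = g := congrArg Prod.snd hm0
  have hgS : g = -S (p s0) := by
    have h1 := hrefl s0
    rw [sub_self, relFlow_zero hΦ] at h1
    exact congrArg Prod.snd h1
  have hSq : S (q 0) = q 0 := by
    rw [hq0]
    exact Submodule.reflection_mem_subspace_eq_self (Submodule.mem_span_singleton_self _)
  have hSp : S (p 0) = -p 0 := by
    apply Submodule.reflection_mem_subspace_orthogonalComplement_eq_neg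
    rw [Submodule.mem_orthogonal_singleton_iff_inner_right, hp0]
    exact ht1
  have hnorm : ∀ s, ‖q (-s)‖ = ‖q s‖ := by
    intro s
    show ‖(relFlow Φ (s0 + -s) z).1‖ = ‖(relFlow Φ (s0 + s) z).1‖
    rw [← sub_eq_add_neg, hrefl s]
    simp
  have hrp := hT.rpos
  have hVp := hT.Vpos
  have hE : ‖g‖ ^ 2 = ‖p 0‖ ^ 2 + 4 * prof Φ ‖q 0‖ := by
    have h1 := hT.energy_eq hΦ (-s0)
    rw [hqm, hpm, norm_entrance hb hg, prof_eq_zero hΦ le_rfl] at h1
    linarith
  have hE' : 4 * prof Φ ‖q 0‖ + ((‖p 0‖ ^ 2)⁻¹)⁻¹ = ‖g‖ ^ 2 := by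
    rw [inv_inv, hE]; ring
  refine ⟨q, p, hT, fun s => ⟨rfl, rfl⟩, hpos, hafter, hps0, hpm, hqm, hnorm, ?_, ?_,
    ⟨hrp, by positivity, ?_⟩, ?_⟩
  · have h5 : inner ℝ (S (q 0)) (S (p s0)) = (inner ℝ (q 0) (p s0) : ℝ) :=
      LinearIsometryEquiv.inner_map_map S _ _
    rw [hSq] at h5
    rw [← hps0, ← h5]
    conv_lhs => rw [hgS]
    rw [inner_neg_right]
  · have h5 : inner ℝ (S (p 0)) (S (p s0)) = (inner ℝ (p 0) (p s0) : ℝ) :=
      LinearIsometryEquiv.inner_map_map S _ _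
    rw [hSp, inner_neg_left] at h5
    rw [← hps0, ← h5]
    conv_lhs => rw [hgS]
    rw [inner_neg_right]
  · show 0 < 4 * prof Φ ‖q 0‖ + ((‖p 0‖ ^ 2)⁻¹)⁻¹
    rw [hE']; positivity
  · unfold Gm
    simp only
    rw [hE', Real.sqrt_sq hgn.le, Real.sqrt_inv, Real.sqrt_sq hVp.le]
    ext1
    · rfl
    · show ‖q 0‖ / (‖p 0‖⁻¹ * ‖g‖) = ‖b‖
      have h1 : (‖q 0‖ * ‖p 0‖) ^ 2 = (‖g‖ * ‖b‖) ^ 2 := by rw [mul_pow, mul_pow]; exact ham
      have h2 : ‖q 0‖ * ‖p 0‖ = ‖g‖ * ‖b‖ :=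
        (pow_left_inj₀ (by positivity) (by positivity) (by norm_num)).1 h1
      rw [div_mul_eq_div_div, div_inv_eq_mul, h2]
      field_simp

/-- **A passage without deflection is free**, or the data belong to the null set `badImg2`. -/
theorem free_or_bad (hΦ : AdmissiblePotential Φ) {b g : Space3} (hb : b ∈ impactDisc g)
    (hb0 : b ≠ 0) (hg : g ≠ 0) {τ : ℝ} (hτ : HasExit Φ (inc b g) τ)
    (hev : exitVelocity Φ b g = g) :
    (∀ t, relFlow Φ t (inc b g) = (entrancePoint b g + t • g, g)) ∨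
      (‖g‖, ‖b‖) ∈ badImg2 Φ := by
  obtain ⟨q, p, hT, hqp, hpos, hafter, hps, hpm, hqm, hnorm, hi1, -, hdom, hGm⟩ :=
    exists_turn hΦ hb hb0 hg hτ
  have hs0 : 0 ≤ τ / 2 := by have := hτ.1; positivity
  by_cases hf : Flat Φ ‖q 0‖
  · left
    have hmono := hT.strictMono_norm hΦ hpos
    have hge : ∀ s, ‖q 0‖ ≤ ‖q s‖ := by
      intro s
      rcases le_total 0 s with h | h
      · exact hmono.monotoneOn (mem_Ici.2 le_rfl) (mem_Ici.2 h) h
      · rw [← neg_neg s, hnorm (-s)]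
        exact hmono.monotoneOn (mem_Ici.2 le_rfl) (mem_Ici.2 (by linarith : (0 : ℝ) ≤ -s))
          (by linarith : (0 : ℝ) ≤ -s)
    intro t
    obtain ⟨h1, h2⟩ := IsRel.free hΦ hT.rel hT.rpos hf hge (t - τ / 2) (-(τ / 2))
    rw [hpm] at h1 h2
    rw [hqm] at h2
    have h3 : t - τ / 2 - -(τ / 2) = t := by ring
    rw [h3] at h2
    obtain ⟨h4, h5⟩ := hqp (t - τ / 2)
    have h6 : τ / 2 + (t - τ / 2) = t := by ring
    rw [h6] at h4 h5
    ext1
    · rw [← h4, h2]
    · rw [← h5, h1]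
  · right
    refine ⟨_, ⟨⟨hT.rpos, hf, ?_⟩, hdom⟩, hGm⟩
    rw [hev] at hps hi1
    have hperp : inner ℝ (q 0) (p (τ / 2)) = (0 : ℝ) := by
      rw [hps]; linarith
    have hin : 0 ≤ inner ℝ (q (τ / 2)) (p (τ / 2)) := by
      have := hτ.1
      exact (hpos _ (by positivity)).le
    obtain ⟨Θ, hΘ0, hHA, hth, hlim⟩ := hT.limit_angle hΦ hpos hs0 (fun s hs => (hafter s hs).1)
      (by rw [hps]; exact hg) hin
    have hcos : Real.cos Θ = 0 := by
      have h1 : Tendsto (fun s => Real.cos (Turn.theta q p s)) atTop (𝓝 (Real.cos Θ)) :=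
        (Real.continuous_cos.tendsto Θ).comp hth
      have h2 : Tendsto (fun s => Real.cos (Turn.theta q p s)) atTop (𝓝 0) :=
        (Turn.tendsto_comp (c := ‖q 0‖) (fun s hs => (hafter s hs).1) hlim hperp).congr
          fun s => hT.cos_theta hΦ s
      exact tendsto_nhds_unique h1 h2
    obtain ⟨k, hk⟩ := Real.cos_eq_zero_iff.1 hcos
    have hk0 : 0 ≤ k := by
      have h1 : (-1 : ℝ) < k := by
        by_contra hneg
        rw [not_lt] at hneg
        have h2 : (2 * (k : ℝ) + 1) * Real.pi / 2 < 0 := by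
          have := Real.pi_pos
          nlinarith
        linarith
      have h2 : (-1 : ℤ) < k := by exact_mod_cast h1
      omega
    obtain ⟨m, rfl⟩ := Int.eq_ofNat_of_zero_le hk0
    refine ⟨m, ?_⟩
    show ENNReal.ofReal (Real.pi / 2 + m * Real.pi) = HA Φ ‖q 0‖ (‖p 0‖ ^ 2)⁻¹
    rw [hHA, hk]
    congr 1
    push_cast
    ring

/-- The data without deflection whose passage is not free. -/
def undef (Φ : Space3 → ℝ) (g : Space3) : Set Space3 :=
  {b | b ∈ impactDisc g ∧ exitVelocity Φ b g = g ∧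
    ¬ ∀ t, relFlow Φ t (inc b g) = (entrancePoint b g + t • g, g)}

/-- Planar form. -/
theorem ae_volume_undef (hΦ : AdmissiblePotential Φ) :
    ∀ᵐ g : Space3, volume {y : Disc416.Plane | Disc416.frameMap g y ∈ undef Φ g} = 0 := by
  have hne : ∀ᵐ g : Space3, g ≠ 0 := by
    rw [ae_iff]
    simp
  filter_upwards [ae_speed2 hΦ, hne] with g hgb hg
  have hsub : {y : Disc416.Plane | Disc416.frameMap g y ∈ undef Φ g} ⊆
      {0} ∪ ({y | Disc416.frameMap g y ∈ trapped Φ g} ∪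
        {y | ‖y‖ ∈ {ρ : ℝ | (‖g‖, ρ) ∈ badImg2 Φ}}) := by
    rintro y ⟨hmem, hev, hnf⟩
    by_cases hy : y = 0
    · exact Or.inl hy
    · right
      have hypos : 0 < ‖y‖ := norm_pos_iff.2 hy
      have hb0 : Disc416.frameMap g y ≠ 0 := by
        rw [← norm_pos_iff, Disc416.norm_frameMap hg]; exact hypos
      by_cases hex : ∃ τ, HasExit Φ (inc (Disc416.frameMap g y) g) τ
      · right
        obtain ⟨τ, hτ⟩ := hex
        rcases free_or_bad hΦ hmem hb0 hg hτ hev with h1 | h1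
        · exact absurd h1 hnf
        · rw [Disc416.norm_frameMap hg] at h1
          exact h1
      · exact Or.inl ⟨hmem, hex⟩
  refine measure_mono_null hsub (measure_union_null (by simp) (measure_union_null ?_ ?_))
  · exact volume_trapped_plane hΦ hg
  · have : Nontrivial Disc416.Plane := by
      unfold Disc416.Plane; infer_instance
    exact measure_norm_preimage_null volume hgb

/-- **For almost every relative velocity, almost every passage without deflection is free.** -/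
theorem ae_measure_undef (hΦ : AdmissiblePotential Φ) :
    ∀ᵐ g : Space3, (μHE[2] : Measure Space3) (undef Φ g) = 0 := by
  have hne : ∀ᵐ g : Space3, g ≠ 0 := by
    rw [ae_iff]
    simp
  filter_upwards [ae_volume_undef hΦ, hne] with g hgb hg
  have hemb : MeasurableEmbedding (Disc416.frameMap g) :=
    (Disc416.isometry_frameMap hg).isClosedEmbedding.measurableEmbedding
  have h1 : (μHE[2] : Measure Space3) (undef Φ g)
      ≤ ((μHE[2] : Measure Space3).restrict (impactDisc g)) (undef Φ g) := by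
    rw [Measure.restrict_eq_self _ (fun b (hb : b ∈ undef Φ g) => hb.1)]
  refine le_antisymm (h1.trans ?_) zero_le
  rw [← Disc416.map_frameMap hg, hemb.map_apply]
  exact (Measure.restrict_apply_le _ _).trans hgb.le

end Crest.Agent.R122.Swap350
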