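import Crest.Agent.R122.TLDet_692
import Crest.Agent.R122.LNTreeRATR_399
import Crest.Agent.R122.XResM_442

/-!
# Row 122, LN1, instance (TL) (helper692): unconditional form

* `tl_det'` : a line which is not good for the tree (helper335's `lkX`) gives
  `SAlt ∨ XAlt ∨ JAlt`.
-/

set_option autoImplicit false
set_option linter.unusedSectionVars false

open MeasureTheory Set Filter Topology
open scoped Classical ENNReal
open Crest.AnalysisR.Kinetic
open Crest.Agent.R122.GC311 Crest.Agent.R122.EDefs602 Crest.Agent.R122.GIV566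
open Crest.Agent.R122.VL581 Crest.Agent.R122.LN304 Crest.Agent.R122.LNg410
open Crest.Agent.R122.LNPart424 Crest.Agent.R122.LNEv968 Crest.Agent.R122.LNEv818
open Crest.Agent.R122.LNEv383 Crest.Agent.R122.TreeLines335
open Crest.Agent.R122.Kin796 Crest.Agent.R122.Kin796.CTree Crest.Agent.R122.Tree674
open Crest.Agent.R122.E6Hyp879 (withD)
open Crest.Agent.R122.OneC285 (ptube)

noncomputable section

namespace Crest.Agent.R122.X692

variable {Φ : Space3 → ℝ} {T ε : ℝ} {n K : ℕ} {P : CTree} {z : PhasePoint × Par P}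
  {w : Config n} {x : ML}

/-- The labels of the tree in the joint system. -/
def eTx (n : ℕ) (P : CTree) : Idx P ↪ Fin n ⊕ (Idx P ⊕ Unit) :=
  ⟨fun y => Sum.inr (Sum.inl y), fun a b h => by simpa using h⟩

/-- The tree in the joint system. -/
theorem treeIn_x (hV : Valid Φ ε P T z.1.2 z.2) (hS : Sep Φ ε P T z.1 z.2) :
    LNTree410.TreeIn (Mx Φ T ε n (fun _ : Idx P => 0) x)
      (Zx w (Tree674.lines Φ ε P z.1 z.2) x) T P z.1 z.2 (eTx n P) where
  b _ := le_rfl
  Z _ := rfl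
  o _ h := by
    have h5 : (none : Option (Fin n ⊕ (Idx P ⊕ Unit))) = some _ := h
    cases h5
  valid := hV
  sep := hS

theorem part_eTx : LNTree410.part (eTx n P) = piS n (Idx P) := rfl

theorem conn_tree_x (hΦ : AdmissiblePotential Φ) (hε : 0 < ε) {c : ℝ} (hc : 1 ≤ c)
    (hV : Valid Φ ε P T z.1.2 z.2) (hS : Sep Φ ε P T z.1 z.2) :
    (Mx Φ T ε n (fun _ : Idx P => 0) x).Conn c (piS n (Idx P))
      (Zx w (Tree674.lines Φ ε P z.1 z.2) x) := by
  rw [← part_eTx]
  exact (treeIn_x hV hS).Conn_tree (M := Mx Φ T ε n (fun _ : Idx P => 0) x) hΦ hε le_rfl hc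

/-- **The deterministic alternative for a tree and an independent line**, unconditional. -/
theorem tl_det' (hΦ : AdmissiblePotential Φ) (hT : 0 < T) (K L : ℕ) : ∃ N : ℕ,
    ∀ R ς ε te : ℝ, 0 ≤ R → 0 < ε → 2 * (R * ε) ≤ ς → te ≤ T →
      ∀ (P : CTree) (z : PhasePoint × Par P) (n : ℕ) (w : Config n) (x : ML),
        P.leaves ≤ K → Valid Φ ε P T z.1.2 z.2 → Sep Φ ε P T z.1 z.2 → w ∈ PairExcluded ε n →
        InEq2T.PerpT Φ ε P z w → 0 ≤ x.1.1 → OkX Φ ε P z w x →
        x ∈ InEq2T.lkX Φ ε K te P z w →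
        SAlt Φ T (T + 1) T 1 R ς ε K L N Finset.univ (fun _ => 0)
            (Tree674.lines Φ ε P z.1 z.2) w ∨
          XAlt Φ T (T + 1) T 1 R ς ε K L N x w ∨
          JAlt Φ T 1 R ς ε N Finset.univ (fun _ => 0) (Tree674.lines Φ ε P z.1 z.2) x w := by
  obtain ⟨N₁, h1⟩ := LNTree399.ratR (t := T) hΦ K K L
  refine ⟨(N₁ + 1 + (K + 1 + 2 * K * (L + 2))) + (N₁ + 1 + (K + 1 + 2 * K * (L + 2))), ?_⟩
  intro R ς ε te hR0 hε hς hte P z n w x hK hV hS hw hp hx hok hlk
  set N := N₁ + 1 + (K + 1 + 2 * K * (L + 2)) with hN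
  have hT1 : T < T + 1 := by linarith
  have hsep : ∀ i q, ε < dist (Tree674.lines Φ ε P z.1 z.2 i).1 (w q).1 := fun i q => by
    have h3 := hp i q
    rwa [Tree674.linesM_of_adm ε hV.1] at h3
  have hokT : MW.OkFam Φ ε (MW.cfg w) (lineML Φ ε P z) :=
    MWFam255.okFam_comp hΦ hε hok.1 (E6Hyp879.inlEmb (Idx P) Unit)
  have hokx : ((MW.cfg w).ins x).Ok Φ ε := MW.OkFam.line hΦ hε hok.1 (Sum.inr ())
  have hok0 : (MW.cfg w).Ok Φ ε := MW.OkFam.base hΦ hε hok.1
  have hcard : Fintype.card (Idx P) ≤ K := by rw [Tree674.card_idx]; exact hK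
  have hSalt : (∀ i, ReachS Φ T 1 ε te K N (fun _ => 0) (Tree674.lines Φ ε P z.1 z.2) w x
      (MW.cfg w) Sum.inl (lineML Φ ε P z i) i) ∨
      SAlt Φ T (T + 1) T 1 R ς ε K L (N + N) Finset.univ (fun _ => 0)
        (Tree674.lines Φ ε P z.1 z.2) w := by
    rcases h1 1 ε (R * ε) ς le_rfl hε (by positivity) hς P z n w hK hV hS hw hsep hokT with
      h3 | h3 | h3 | h3
    · exact Or.inr (SAlt.mono hε.le (by omega)
        (salt_of_tree (N := N₁) hΦ hε le_rfl hV hS hw hokT (Or.inl h3)))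
    · exact Or.inr (SAlt.mono hε.le (by omega)
        (salt_of_tree (N := N₁) hΦ hε le_rfl hV hS hw hokT (Or.inr (Or.inl h3))))
    · exact Or.inr (SAlt.mono hε.le (by omega)
        (salt_of_tree (N := N₁) hΦ hε le_rfl hV hS hw hokT (Or.inr (Or.inr h3))))
    · exact Or.inl fun i => reachS_of_tree hΦ hε hte (by omega) h3 i
  have hc := conn_tree_x (n := n) (w := w) (x := x) hΦ hε le_rfl hV hS
  have hbase := PWInst442.base_tree (M := gsys Φ T ε n fun _ : Idx P => 0) (w := w) (z := z)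
    (P := P) hΦ hε hT (fun y => by rcases y with y | y <;> exact le_rfl) (fun _ h => by
      have h5 : (none : Option (Fin n ⊕ Idx P)) = some _ := h
      cases h5) hV hS
  have hX := XR442.hX0 (N := N) (m := L) (R := R) (ς := ς) (K := K) (x := x) hΦ hε hT.le hte
    le_rfl hς hw hbase hc hx (by
      have := Nat.mul_le_mul_left 2 (Nat.le_refl K)
      omega) hok0 hokx
  have hO := tubeOf_ptube (M := Mx Φ T ε n (fun _ : Idx P => 0) x)
    (Λ := Lx (piS n (Idx P)) (px n (Idx P))) hΦ hε (treeIn_x (w := w) hV hS)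
    (by rw [part_eTx]; exact pi_mem) hte
  rcases x_alt (ls := lineML Φ ε P z) (p := fun i => i) (T₁ := T + 1) (R := R) (ς := ς) (L := L)
    hΦ hε hte le_rfl hT1 le_rfl (Finset.univ_nonempty_iff.2 ⟨root P⟩) hw hc
    Sum.inl_injective hSalt hX hO with h4 | h4
  · exact absurd ⟨hok.1, hok.2, h4.1, h4.2⟩ hlk
  · exact h4

end Crest.Agent.R122.X692

end
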