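import Crest.Agent.R122.TLBind_311
import Crest.Agent.R122.TLDetB_692
import Crest.Agent.R122.ErrFin_815

/-!
# Row 122 (helper815): the deterministic theorem for trees and lines, bound

* `tlDet` : helper311's `TLDet`, from helper692's `tl_det'`.
-/

set_option autoImplicit false
set_option linter.unusedSectionVars false

open MeasureTheory Set Filter Topology
open scoped Classical ENNReal
open Crest.AnalysisR.Kinetic
open Crest.Agent.R122.GC311 Crest.Agent.R122.EDefs602
open Crest.Agent.R122.Kin796 Crest.Agent.R122.Kin796.CTree Crest.Agent.R122.Tree674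
open Crest.Agent.R122.TreeLines335 Crest.Agent.R122.E6Hyp879
open Crest.Agent.R122.InEq2T Crest.Agent.R122.TL311

noncomputable section

namespace Crest.Agent.R122.ErrAB815

variable {Φ : Space3 → ℝ}

/-- **The deterministic theorem** for a tree and an independent line. -/
theorem tlDet (hΦ : AdmissiblePotential Φ) {T' te : ℝ} (hT : 0 < T') (hte : te ≤ T') :
    TLDet Φ T' te := by
  intro K P hK
  refine ⟨K, T', T', hT, hte, le_rfl, fun L => ?_⟩
  obtain ⟨N, hN⟩ := X692.tl_det' (T := T') hΦ hT K L
  refine ⟨N, 1, T' + 1, by linarith, fun R hR ς hς => ⟨ς / (2 * R), by positivity, ?_⟩⟩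
  intro ε hε hlt n z x w hw hV hS hPe _ hok hokr hb hx
  have h2 : 2 * (R * ε) ≤ ς := by
    have h3 : ε * (2 * R) < ς := (lt_div_iff₀ (by positivity)).1 hlt
    nlinarith
  exact hN R ς ε te hR.le hε h2 hte P z n w x hK hV hS hw hPe hb.1.le ⟨hok, hokr⟩ hx

end Crest.Agent.R122.ErrAB815

end
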