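import Crest.Agent.R122.TLBind_311
import Crest.Agent.R122.InEq2TInX_718
import Crest.Agent.R122.InEq2TAd_718
import Crest.Agent.R122.LNRoot_291
import Crest.Agent.R122.LNTreeRATR_399
import Crest.Agent.R122.TreeFacts_302
import Crest.Agent.R122.Ineq2_311

/-!
# Row 122, H11 (helper311): INEQUALITY 2 from two literal inputs

* `goodT_null` : the trees which are not good are null (unconditional).
* `Ctx.of_win` : the constants of the gateway on a window.
* `TLLeaves` : the two inputs which are not proved here: the deterministic theorem for a tree and an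
  independent line, and the a.e. statement `OkXae`.
* `ftg`, `flg` : the touched half and the weight comparison of INEQUALITY 2.
* `xNull_win` : the input of `errA`.
* `i2In` : INEQUALITY 2.
-/

set_option autoImplicit false

open MeasureTheory Set Filter Topology
open scoped Classical ENNReal
open Crest.AnalysisR.Kinetic
open Crest.Agent.R122.GC311 Crest.Agent.R122.EDefs602 Crest.Agent.R122.Kin796
open Crest.Agent.R122.Kin796.CTree Crest.Agent.R122.Tree674
open Crest.Agent.R122.Master566 Crest.Agent.R122.GIV566 Crest.Agent.R122.Top602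
open Crest.Agent.R122.InEq2T (PerpT GoodX GoodT lkX LnMaj LnN ExR)
open Crest.Agent.R122.RtG302 (TNull)

noncomputable section

namespace Crest.Agent.R122.TL311

variable {Φ : Space3 → ℝ} {f₀ : PhasePoint → ℝ} {f : ℝ → PhasePoint → ℝ} {β T te T' g1 h₀ : ℝ}
  {γ : ℝ → ℝ} {ρ r1 : ℝ≥0∞}

/-- **The trees which are not good are null.** -/
theorem goodT_null (hD : KData Φ β T f₀ f) (hT' : 0 < T') (hte : te ≤ T') (K : ℕ) :
    TNull Φ f₀ T' K fun ε P z _ w => ¬ GoodT Φ ε K te P z w := by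
  have hβ := hD.beta_pos
  exact LNRoot291.tNull_goodT hD.adm (by linarith : 0 < 2 * β) hD.contDiff.continuous hD.gaussian
    (FM167.lintegral_density_eq_one hD.nonneg hD.integrable hD.mass).le hT' hte
    (LNTree399.ratR hD.adm K K)

/-- The constants of the gateway on a window. -/
theorem Ctx.of_win (hD : KData Φ β T f₀ f) (hl : LinePar g1 r1 T γ ρ) (h0 : 0 ≤ T')
    (hte : te ≤ T') (hteT : te ≤ T) : ∃ g : ℝ, Ctx Φ f₀ β T' te g γ ρ := by
  obtain ⟨g0, κ, hκ, hγ, hpos, -⟩ := hl.lin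
  refine ⟨min β (g0 - κ * T), hD.adm, hD.contDiff.continuous, hD.gaussian,
    (FM167.lintegral_density_eq_one hD.nonneg hD.integrable hD.mass).le, h0, hte,
    lt_min hD.beta_pos hpos, min_le_left _ _, fun τ hτ => ?_, hl.measurable,
    (hl.hi.trans ENNReal.one_lt_top).ne⟩
  refine (min_le_right _ _).trans ?_
  rw [hγ]
  show g0 - κ * T ≤ g0 - κ * τ
  have h1 : κ * τ ≤ κ * T := mul_le_mul_of_nonneg_left (hτ.2.trans hteT) hκ.le
  linarith

/-- **The two inputs.** -/
structure TLLeaves (Φ : Space3 → ℝ) : Prop where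
  /-- the deterministic theorem for a tree and an independent line -/
  det : ∀ T' te : ℝ, 0 < te → te ≤ T' → TLDet Φ T' te
  /-- the tree, the line and the gas can be inserted together, a.e. -/
  ok : ∀ T' te : ℝ, 0 < te → te ≤ T' → OkXae Φ T' te

theorem lineV_of_nonpos (hte : te ≤ 0) : lineV te = 0 := by
  unfold lineV
  rw [Ioc_eq_empty (not_lt.2 hte), Measure.restrict_empty, Measure.zero_prod, Measure.zero_prod]

theorem okXae_of_nonpos (hte : te ≤ 0) : OkXae Φ T' te := by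
  intro P ε _ n
  rw [lineV_of_nonpos hte, Measure.prod_zero, Measure.zero_prod, ae_zero]
  exact Filter.eventually_bot

theorem tlDet_of_nonpos (hte : te ≤ 0) : TLDet Φ T' te := by
  intro K P _
  refine ⟨0, 0, 1, one_pos, hte.trans zero_le_one, zero_le_one, fun L => ⟨0, 0, 0, le_rfl,
    fun R _ ς _ => ⟨1, one_pos, fun ε _ _ n z x w _ _ _ _ _ _ _ hx _ => ?_⟩⟩⟩
  exact absurd (hx.1.trans_le hx.2) (not_lt.2 hte)

theorem TLLeaves.det' (h : TLLeaves Φ) (hte : te ≤ T') : TLDet Φ T' te := by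
  rcases lt_or_ge 0 te with h0 | h0
  · exact h.det T' te h0 hte
  · exact tlDet_of_nonpos h0

theorem TLLeaves.ok' (h : TLLeaves Φ) (hte : te ≤ T') : OkXae Φ T' te := by
  rcases lt_or_ge 0 te with h0 | h0
  · exact h.ok T' te h0 hte
  · exact okXae_of_nonpos h0

/-- **The lines which are not good are null on every window.** -/
theorem xNull_win (hD : KData Φ β T f₀ f) (h : TLLeaves Φ) (hl : LinePar g1 r1 T γ ρ)
    (hT' : 0 < T') (hte : te ≤ T') (hteT : te ≤ T) :
    ErrAB815.XNull Φ f₀ T' te γ ρ (lkG Φ te) := by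
  obtain ⟨g, hc⟩ := Ctx.of_win hD hl hT'.le hte hteT
  exact xNull_lkG hc (h.ok' hte) (h.det' hte) fun K => goodT_null hD hT' hte K

theorem evW_le (hh : 0 < h₀) : EvW T fun h _ _ _ => h ≤ h₀ :=
  ⟨h₀, hh, 1, fun _ _ _ _ _ hle _ _ _ => hle⟩

/-- **The input `LnN`.** -/
theorem lnN (hD : KData Φ β T f₀ f) (h : TLLeaves Φ) (hl : LinePar g1 r1 T γ ρ) (hh : 0 < h₀) :
    LnN Φ f₀ f T γ ρ h₀ := by
  refine InEq2T.lnN_of_tsn ((evW_le hh).mono fun a L tw te ha hL hwin hle _ K => ?_)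
  have h1 : 0 < tw + h₀ := by linarith [hwin.nonneg]
  have h2 : te ≤ tw + h₀ := by linarith [hwin.short]
  obtain ⟨g, hc⟩ := Ctx.of_win hD hl h1.le h2 hwin.le_T
  refine (tsn_lkX hc (h.ok' h2) (h.det' h2) (goodT_null hD h1 h2 K)).mono
    ⟨1, one_pos, fun ε _ _ P z _ w _ _ => ?_⟩
  unfold InEq2T.lnF
  split_ifs
  · exact le_rfl
  · exact le_rfl

/-- **The input `ExR`**, unconditional. -/
theorem exR (hD : KData Φ β T f₀ f) (hh : 0 < h₀) : ExR Φ f₀ f T γ ρ h₀ := by
  refine InEq2T.exR_of_tNull ((evW_le hh).mono fun a L tw te ha hL hwin hle _ K => ?_)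
  exact goodT_null hD (by linarith [hwin.nonneg]) (by linarith [hwin.short]) K

/-- **The touched half of INEQUALITY 2.** -/
theorem ftg (hD : KData Φ β T f₀ f) (h : TLLeaves Φ) :
    InHL T fun h₀ γ ρ => InEq2.InB Φ f₀ f T γ ρ h₀ InEq2T.FTg :=
  InEq2T.inHL_FTg hD ⟨1, one_pos, 1, one_pos, 0, one_pos, fun _ h0 _ _ _ hl => lnN hD h hl h0⟩
    ⟨1, one_pos, 1, one_pos, 0, one_pos, fun _ h0 _ _ _ _ => exR hD h0⟩

/-- **The weight comparison of INEQUALITY 2.** -/
theorem flg (hD : KData Φ β T f₀ f) (h : TLLeaves Φ) :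
    InHL T fun h₀ γ ρ => InEq2.InB Φ f₀ f T γ ρ h₀ InEq2T.FLg :=
  InEq2T.inHL_FLg hD ⟨1, one_pos, 1, one_pos, 0, one_pos, fun _ h0 _ _ _ hl => lnN hD h hl h0⟩
    ⟨1, one_pos, 1, one_pos, 0, one_pos, fun _ h0 _ _ _ _ => exR hD h0⟩

/-- **INEQUALITY 2**, from the two inputs. -/
theorem i2In (hD : KData Φ β T f₀ f) (h : TLLeaves Φ) : I2In Φ f₀ f T :=
  InEq2.i2In_of_parts hD ⟨ftg hD h, flg hD h, TreeFacts302.rtgIn hD⟩

end Crest.Agent.R122.TL311

end
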