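import Crest.Agent.R122.ThirdOS_741
import Crest.Agent.R122.PairDefs_292
import Crest.Agent.R122.PairS6_969

/-!
# Bad encounters of pairs (row 122, GAP-E, row 13f): structure integrals `OS2`

Uniform over the laws `PX (PP K) Ξ ν c`.

* `fluxM` : flux integral with a velocity law `μ`.
* `muV` : velocity law of the second line.
* `OS2_le` : structure functionals of the contact data.
* `third_OS2_le` : third particle near the encounter.
-/

set_option autoImplicit false

open MeasureTheory Set Filter Topology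
open scoped ENNReal
open Crest.AnalysisR.Kinetic
open Crest.Agent.R122.Kin796 Crest.Agent.R122.Kin796.CTree Crest.Agent.R122.Tree674
open Crest.Agent.R122.Disc416 Crest.Agent.R122.Flux663 Crest.Agent.R122.OC663 Crest.Agent.R122.EDefs602
open Crest.Agent.R122.GC311 Crest.Agent.R122.Flow671 Crest.Agent.R122.Loc45 Crest.Agent.R122.Mom974
open Crest.Agent.R122.OneC423 Crest.Agent.R122.TreeDom974 Crest.Agent.R122.OneC285
open Crest.Agent.R122.Pair292 hiding ML
open Crest.Agent.R122.PairD292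
open Crest.Agent.R122.Boost969 (LSt posAt)

noncomputable section

namespace Crest.Agent.R122.Third741

variable {Φ : Space3 → ℝ} {f₀ : PhasePoint → ℝ} {ε : ℝ}

/-! ### Flux form with a velocity law -/

/-- Fourth moment of a velocity law. -/
def m4 (μ : Measure Space3) : ℝ≥0∞ := ∫⁻ v, ENNReal.ofReal ((1 + ‖v‖) ^ 4) ∂μ

theorem near_flux_mu_w (hΦ : AdmissiblePotential Φ) (hε : 0 < ε) {n : ℕ} {w : Config n}
    (hw : w ∈ PairExcluded ε n) {a te : ℝ} (ha : 0 < a) (u : Space3)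
    (μ : Measure Space3) [SFinite μ] :
    ∫⁻ x : Space3, ∫⁻ s in Ioc 0 te, ∫⁻ v, nfI Φ ε a u (fun _ => 1) w x s v ∂μ ≤
      40 * Sweep815.c3 * ENNReal.ofReal te * ENNReal.ofReal a ^ 3 *
        ENNReal.ofReal ((1 + ‖u‖) ^ 4) * m4 μ * Wt Φ w := by
  have hm := measurable_nfI hΦ hε a u (G := fun _ => 1) measurable_const n
  have m1 : Measurable fun q : (Space3 × ℝ) × Space3 =>
      nfI Φ ε a u (fun _ => 1) w q.1.1 q.1.2 q.2 :=
    hm.comp (f := fun q : (Space3 × ℝ) × Space3 => ((w, q.1.1), (q.1.2, q.2))) (by fun_prop)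
  have m2 : Measurable fun q : Space3 × ℝ => ∫⁻ v, nfI Φ ε a u (fun _ => 1) w q.1 q.2 v ∂μ :=
    m1.lintegral_prod_right'
  have m3 : ∀ s : ℝ, Measurable fun q : Space3 × Space3 =>
      nfI Φ ε a u (fun _ => 1) w q.1 s q.2 := fun s =>
    hm.comp (f := fun q : Space3 × Space3 => ((w, q.1), (s, q.2))) (by fun_prop)
  rw [lintegral_lintegral_swap (f := fun (x : Space3) (s : ℝ) =>
    ∫⁻ v, nfI Φ ε a u (fun _ => 1) w x s v ∂μ) m2.aemeasurable]
  -- fixed `s`, `v`
  have hpt : ∀ (s : ℝ) (v : Space3), ∫⁻ x : Space3, nfI Φ ε a u (fun _ => 1) w x s v ≤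
      40 * Sweep815.c3 * ENNReal.ofReal a ^ 3 * ENNReal.ofReal ((1 + ‖u‖) ^ 4) * Wt Φ w *
        ENNReal.ofReal ((1 + ‖v‖) ^ 4) := by
    intro s v
    set r : ℝ := a * (1 + ‖v‖ + ‖u‖) with hr
    have hv := norm_nonneg v
    have hu := norm_nonneg u
    have hr0 : 0 < r := by positivity
    have hle : r ≤ a * ((1 + ‖v‖) * (1 + ‖u‖)) := by
      rw [hr]
      have : 0 ≤ ‖v‖ * ‖u‖ := mul_nonneg hv hu
      nlinarith
    have hmx : Measurable fun x : Space3 => nearI Φ ε w s a r (x + s • u) :=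
      (measurable_nearI hΦ hε a n).comp (f := fun x : Space3 => (w, (s, (r, x + s • u))))
        (by fun_prop)
    have e1 : ∫⁻ x : Space3, nfI Φ ε a u (fun _ => 1) w x s v =
        ENNReal.ofReal ‖v - u‖ * ∫⁻ x : Space3, nearI Φ ε w s a r (x + s • u) := by
      unfold nfI
      simp only [one_mul]
      rw [lintegral_const_mul _ hmx]
    have h2 := lintegral_nearI_le hΦ hε hw (s := s) (a := a) hr0 (s • u)
    have h3 : ENNReal.ofReal r + 4 * ENNReal.ofReal a ≤
        5 * (ENNReal.ofReal a * ENNReal.ofReal ((1 + ‖v‖) * (1 + ‖u‖))) := by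
      rw [← ENNReal.ofReal_mul ha.le, ← ENNReal.ofReal_ofNat 4, ← ENNReal.ofReal_ofNat 5,
        ← ENNReal.ofReal_mul (by norm_num), ← ENNReal.ofReal_mul (by norm_num),
        ← ENNReal.ofReal_add hr0.le (by positivity)]
      refine ENNReal.ofReal_le_ofReal ?_
      have h4 : (1 : ℝ) ≤ (1 + ‖v‖) * (1 + ‖u‖) := by nlinarith [mul_nonneg hv hu]
      nlinarith
    have h5 : ENNReal.ofReal r ^ 2 ≤
        (ENNReal.ofReal a * ENNReal.ofReal ((1 + ‖v‖) * (1 + ‖u‖))) ^ 2 := by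
      rw [← ENNReal.ofReal_mul ha.le]
      exact pow_le_pow_left' (ENNReal.ofReal_le_ofReal hle) 2
    set X : ℝ≥0∞ := ENNReal.ofReal ((1 + ‖v‖) * (1 + ‖u‖)) with hX
    rw [e1]
    calc ENNReal.ofReal ‖v - u‖ * ∫⁻ x : Space3, nearI Φ ε w s a r (x + s • u)
        ≤ X * (8 * Sweep815.c3 * (ENNReal.ofReal a * X) ^ 2 *
            (5 * (ENNReal.ofReal a * X)) * Wt Φ w) := by
          refine mul_le_mul' (ENNReal.ofReal_le_ofReal (norm_sub_le_mul v u)) (h2.trans ?_)
          gcongr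
      _ = 40 * Sweep815.c3 * ENNReal.ofReal a ^ 3 * X ^ 4 * Wt Φ w := by ring
      _ = _ := by
          have e3 : X ^ 4 = ENNReal.ofReal ((1 + ‖v‖) ^ 4) * ENNReal.ofReal ((1 + ‖u‖) ^ 4) := by
            rw [hX, ← ENNReal.ofReal_pow (by positivity), mul_pow,
              ENNReal.ofReal_mul (by positivity)]
          rw [e3]
          ring
  calc ∫⁻ s in Ioc 0 te, ∫⁻ x : Space3, ∫⁻ v, nfI Φ ε a u (fun _ => 1) w x s v ∂μ
      = ∫⁻ s in Ioc 0 te, ∫⁻ v, ∫⁻ x : Space3, nfI Φ ε a u (fun _ => 1) w x s v ∂volume ∂μ := by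
        refine lintegral_congr fun s => ?_
        exact lintegral_lintegral_swap (m3 s).aemeasurable
    _ ≤ ∫⁻ _ in Ioc 0 te, 40 * Sweep815.c3 * ENNReal.ofReal a ^ 3 *
          ENNReal.ofReal ((1 + ‖u‖) ^ 4) * Wt Φ w * m4 μ := by
        refine lintegral_mono fun s => ?_
        refine (lintegral_mono fun v => hpt s v).trans (le_of_eq ?_)
        rw [lintegral_const_mul _ (by fun_prop)]
        rfl
    _ = _ := by
        rw [setLIntegral_const, Real.volume_Ioc, sub_zero]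
        ring

/-- The flux integral with velocity law `μ`. -/
def fluxM (te : ℝ) (μ : Measure Space3) (g : CF) (P : CTree) (z : PhasePoint × Par P) (m : ℕ)
    (w : Config m) : ℝ≥0∞ :=
  ∫⁻ s in Ioc 0 te, ∫⁻ v, ENNReal.ofReal ‖v - z.1.2‖ *
    ∫⁻ b in impactDisc (v - z.1.2), g P z m w s v b ∂μHE[2] ∂μ

theorem measurable_gcE_fluxM {g : CF} (hg : MeasCF g) (hf : Measurable f₀) (te : ℝ)
    (μ : Measure Space3) [SFinite μ] (P : CTree) :
    Measurable fun z : PhasePoint × Par P => gcE f₀ ε (fun m w => fluxM te μ g P z m w) := by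
  refine ToTree335.measurable_gcE_par hf fun m => ?_
  unfold fluxM
  refine Measurable.lintegral_prod_right' (f := fun q : ((PhasePoint × Par P) × Config m) × ℝ =>
    ∫⁻ v, ENNReal.ofReal ‖v - q.1.1.1.2‖ *
      ∫⁻ b in impactDisc (v - q.1.1.1.2), g P q.1.1 m q.1.2 q.2 v b ∂μHE[2] ∂μ) ?_
  refine Measurable.lintegral_prod_right' (f := fun q : (((PhasePoint × Par P) × Config m) × ℝ) ×
    Space3 => ENNReal.ofReal ‖q.2 - q.1.1.1.1.2‖ *
      ∫⁻ b in impactDisc (q.2 - q.1.1.1.1.2), g P q.1.1.1 m q.1.1.2 q.1.2 q.2 b ∂μHE[2]) ?_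
  have hu : Measurable fun q : (((PhasePoint × Par P) × Config m) × ℝ) × Space3 =>
      q.1.1.1.1.2 := measurable_snd.comp (measurable_fst.comp (measurable_fst.comp
        (measurable_fst.comp measurable_fst)))
  refine measurable_flux_disc (α := (((PhasePoint × Par P) × Config m) × ℝ) × Space3)
      (γ := fun q => q.2 - q.1.1.1.1.2) (measurable_snd.sub hu)
      (f := fun q b => g P q.1.1.1 m q.1.1.2 q.1.2 q.2 b) ?_
  exact (hg P m).comp (f := fun q : ((((PhasePoint × Par P) × Config m) × ℝ) × Space3) ×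
      Space3 => (q.1.1.1, (q.1.1.2, (q.1.2, q.2)))) (by fun_prop)

theorem fluxM_third (te a : ℝ) (μ : Measure Space3) (P : CTree) (z : PhasePoint × Par P)
    (m : ℕ) (w : Config m) :
    fluxM te μ (thirdG Φ ε a) P z m w = ENNReal.ofReal Real.pi *
      ∫⁻ s in Ioc 0 te, ∫⁻ v, nfI Φ ε a z.1.2 (fun _ => 1) w z.1.1 s v ∂μ := by
  unfold fluxM thirdG nfI
  rw [← lintegral_const_mul' _ _ ENNReal.ofReal_ne_top]
  refine lintegral_congr fun s => ?_
  rw [← lintegral_const_mul' _ _ ENNReal.ofReal_ne_top]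
  refine lintegral_congr fun v => ?_
  have h := norm_mul_disc_const (v - z.1.2) 1
    (nearI Φ ε w s a (a * (1 + ‖v‖ + ‖z.1.2‖)) (z.1.1 + s • z.1.2))
  simpa only [one_mul] using h

/-- Integral over the position of the root, third particle, velocity law `μ`. -/
theorem lintegral_third_mu (hΦ : AdmissiblePotential Φ) {A : Space3 → ℝ≥0∞} {C b : ℝ}
    (hF : FOk f₀ A C b) (hε : 0 < ε) {a : ℝ} (ha : 0 < a) (te : ℝ) (P : CTree)
    (μ : Measure Space3) [SFinite μ] (hμ : m4 μ ≠ ∞) (q : Space3 × Par P) :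
    ∫⁻ x : Space3, gcE f₀ ε (fun m w => fluxM te μ (thirdG Φ ε a) P ((x, q.1), q.2) m w) ≤
      ENNReal.ofReal Real.pi * (40 * Sweep815.c3 * ENNReal.ofReal te * ENNReal.ofReal a ^ 3 *
        ENNReal.ofReal ((1 + ‖q.1‖) ^ 4) * m4 μ *
          (ENNReal.ofReal (1 + 2 * stabB Φ) * (activity ε *
            ∫⁻ z, ENNReal.ofReal (f₀ z) * ENNReal.ofReal (1 + ‖z.2‖ ^ 2)))) := by
  have hc3 : Sweep815.c3 ≠ ∞ := ENNReal.ofReal_ne_top
  have hms : ∀ n, Measurable (Function.uncurry fun (x : Space3) (w : Config n) =>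
      ENNReal.ofReal Real.pi * ∫⁻ s in Ioc 0 te, ∫⁻ v, nfI Φ ε a q.1 (fun _ => 1) w x s v ∂μ) := by
    intro n
    have hm := measurable_nfI hΦ hε a q.1 (G := fun _ => 1) measurable_const n
    have m1 : Measurable fun p : ((Space3 × Config n) × ℝ) × Space3 =>
        nfI Φ ε a q.1 (fun _ => 1) p.1.1.2 p.1.1.1 p.1.2 p.2 :=
      hm.comp (f := fun p : ((Space3 × Config n) × ℝ) × Space3 =>
        ((p.1.1.2, p.1.1.1), (p.1.2, p.2))) (by fun_prop)
    have m2 : Measurable fun p : (Space3 × Config n) × ℝ =>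
        ∫⁻ v, nfI Φ ε a q.1 (fun _ => 1) p.1.2 p.1.1 p.2 v ∂μ := m1.lintegral_prod_right'
    exact m2.lintegral_prod_right'.const_mul _
  simp only [fluxM_third]
  rw [BadHit370.lintegral_gcE hF.meas ε volume hms]
  set c : ℝ≥0∞ := 40 * Sweep815.c3 * ENNReal.ofReal te * ENNReal.ofReal a ^ 3 *
        ENNReal.ofReal ((1 + ‖q.1‖) ^ 4) * m4 μ with hc
  have hct : c ≠ ∞ := by
    rw [hc]
    refine ENNReal.mul_ne_top (ENNReal.mul_ne_top (ENNReal.mul_ne_top (ENNReal.mul_ne_top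
      (ENNReal.mul_ne_top (by norm_num) hc3) ENNReal.ofReal_ne_top)
      (ENNReal.pow_ne_top ENNReal.ofReal_ne_top)) ENNReal.ofReal_ne_top) hμ
  have hπc : ENNReal.ofReal Real.pi * c ≠ ∞ := ENNReal.mul_ne_top ENNReal.ofReal_ne_top hct
  calc gcE f₀ ε (fun n w => ∫⁻ x : Space3, ENNReal.ofReal Real.pi *
        ∫⁻ s in Ioc 0 te, ∫⁻ v, nfI Φ ε a q.1 (fun _ => 1) w x s v ∂μ)
      ≤ gcE f₀ ε (fun _ w => (ENNReal.ofReal Real.pi * c) * Wt Φ w) := by
        refine gcE_mono f₀ ε fun n w hw => ?_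
        rw [lintegral_const_mul' _ _ ENNReal.ofReal_ne_top, mul_assoc]
        exact mul_le_mul' le_rfl (near_flux_mu_w hΦ hε hw ha q.1 μ)
    _ = (ENNReal.ofReal Real.pi * c) * gcE f₀ ε (fun _ w => Wt Φ w) := gcE_const_mul f₀ ε hπc _
    _ ≤ (ENNReal.ofReal Real.pi * c) * _ := mul_le_mul' le_rfl (gcE_Wt_le hF.meas hF.mass ε)
    _ = _ := by rw [mul_assoc]

/-! ### The velocity law of the second line -/

theorem measurableSet_OkL (K : ℕ) : MeasurableSet {θ : Lab × LSt | OkL K θ} := by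
  have h1 : Measurable fun θ : Lab × LSt => θ.1.1.1.1 :=
    measurable_fst.comp (measurable_fst.comp (measurable_fst.comp measurable_fst))
  have h2 : Measurable fun θ : Lab × LSt => θ.1.1.2 :=
    measurable_snd.comp (measurable_fst.comp measurable_fst)
  have h3 : Measurable fun θ : Lab × LSt => θ.2.1 := measurable_fst.comp measurable_snd
  have h4 : Measurable fun θ : Lab × LSt => θ.1.2.2 :=
    measurable_snd.comp (measurable_snd.comp measurable_fst)
  have e : {θ : Lab × LSt | OkL K θ} = {θ : Lab × LSt | 0 < θ.1.1.1.1} ∩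
      ({θ | 1 ≤ θ.1.1.2} ∩ ({θ | θ.1.1.2 ≤ K} ∩ ({θ | 0 < θ.2.1} ∩
        ({θ | 1 ≤ θ.1.2.2} ∩ {θ | θ.1.2.2 ≤ K})))) := by
    ext θ
    constructor
    · rintro ⟨a, b, c, d, e, f⟩
      exact ⟨a, b, c, d, e, f⟩
    · rintro ⟨a, b, c, d, e, f⟩
      exact ⟨a, b, c, d, e, f⟩
  rw [e]
  exact (measurableSet_lt measurable_const h1).inter ((measurableSet_le measurable_const h2).inter
    ((measurableSet_le h2 measurable_const).inter ((measurableSet_lt measurable_const h3).inter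
      ((measurableSet_le measurable_const h4).inter (measurableSet_le h4 measurable_const)))))

open scoped Classical in
/-- Density which localises the first line. -/
def chiV (K : ℕ) (te : ℝ) (θ : Lab × LSt) : ℝ≥0∞ :=
  if OkL K θ ∧ θ.2.1 ≤ te then PairS969.rho0 (posD θ) else 0

theorem measurable_chiV (K : ℕ) (te : ℝ) : Measurable (chiV K te) := by
  unfold chiV
  refine Measurable.ite ((measurableSet_OkL K).inter ?_)
    (PairS969.measurable_rho0.comp measurable_posD) measurable_const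
  exact measurableSet_le (measurable_fst.comp measurable_snd) measurable_const

theorem measurable_vel2 : Measurable fun θ : Lab × LSt => θ.2.2.2 :=
  measurable_snd.comp (measurable_snd.comp measurable_snd)

/-- Velocity law of the second line. -/
def muV (K : ℕ) (te : ℝ) (ν : Measure (Lab × LSt)) : Measure Space3 :=
  (ν.withDensity (chiV K te)).map fun θ => θ.2.2.2

instance (K : ℕ) (te : ℝ) (ν : Measure (Lab × LSt)) [SFinite ν] : SFinite (muV K te ν) := by
  unfold muV; infer_instance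

theorem lintegral_muV (K : ℕ) (te : ℝ) (ν : Measure (Lab × LSt)) {F : Space3 → ℝ≥0∞}
    (hF : Measurable F) : ∫⁻ v, F v ∂(muV K te ν) = ∫⁻ θ, chiV K te θ * F θ.2.2.2 ∂ν := by
  unfold muV
  have hFv : Measurable fun θ : Lab × LSt => F θ.2.2.2 := hF.comp measurable_vel2
  rw [lintegral_map hF measurable_vel2,
    lintegral_withDensity_eq_lintegral_mul _ (measurable_chiV K te) hFv]
  rfl

theorem OkL_shP (K : ℕ) (a : Space3) (θ : Lab × LSt) : OkL K (shP a θ) ↔ OkL K θ := by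
  constructor
  · rintro ⟨h1, h2, h3, h4, h5, h6⟩
    exact ⟨h1, h2, h3, h4, h5, h6⟩
  · rintro ⟨h1, h2, h3, h4, h5, h6⟩
    exact ⟨h1, h2, h3, h4, h5, h6⟩

open scoped Classical in
/-- The structure functional of `g` on pairs, small trees, labels `OkL`. -/
def sf2Of (ε : ℝ) (K : ℕ) (g : CF) : SF2 := fun P z m w θ =>
  if OkL K θ ∧ P.leaves ≤ K then g P z m w (cT ε z (eL θ)) θ.2.2.2 (cB ε z (eL θ)) else 0

theorem measSF2_sf2Of (ε : ℝ) (K : ℕ) {g : CF} (hg : MeasCF g) : MeasSF2 (sf2Of ε K g) := by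
  classical
  intro P m
  unfold sf2Of
  have he : Measurable fun q : (PhasePoint × Par P) × (Config m × (Lab × LSt)) =>
      eL q.2.2 := by
    unfold eL
    exact (measurable_snd.comp (measurable_snd.comp measurable_snd)).prodMk
      (measurable_snd.comp (measurable_snd.comp (measurable_fst.comp (measurable_snd.comp
        measurable_snd))))
  refine Measurable.ite ?_ ?_ measurable_const
  · by_cases hP : P.leaves ≤ K
    · simp only [hP, and_true]
      exact (measurable_snd.comp measurable_snd) (measurableSet_OkL K)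
    · simp only [hP, and_false]
      exact MeasurableSet.empty
  · have h1 : Measurable fun q : (PhasePoint × Par P) × (Config m × (Lab × LSt)) =>
        cT ε q.1 (eL q.2.2) :=
      (measurable_cT ε P).comp (f := fun q : (PhasePoint × Par P) × (Config m × (Lab × LSt)) =>
        (q.1, eL q.2.2)) (measurable_fst.prodMk he)
    have h2 : Measurable fun q : (PhasePoint × Par P) × (Config m × (Lab × LSt)) =>
        cB ε q.1 (eL q.2.2) :=
      (measurable_cB ε P).comp (f := fun q : (PhasePoint × Par P) × (Config m × (Lab × LSt)) =>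
        (q.1, eL q.2.2)) (measurable_fst.prodMk he)
    have h3 : Measurable fun q : (PhasePoint × Par P) × (Config m × (Lab × LSt)) =>
        (q.1, q.2.1) := measurable_fst.prodMk (measurable_fst.comp measurable_snd)
    have h4 : Measurable fun q : (PhasePoint × Par P) × (Config m × (Lab × LSt)) =>
        q.2.2.2.2.2 := measurable_vel2.comp (measurable_snd.comp measurable_snd)
    exact (hg P m).comp (f := fun q : (PhasePoint × Par P) × (Config m × (Lab × LSt)) =>
      ((q.1, q.2.1), (cT ε q.1 (eL q.2.2), (q.2.2.2.2.2, cB ε q.1 (eL q.2.2)))))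
      (h3.prodMk (h1.prodMk (h4.prodMk h2)))

/-- The inner integral. -/
theorem lintegral_ct_pair (hΦ : AdmissiblePotential Φ) (hε : 0 < ε) {K : ℕ} {te : ℝ}
    {ν : Measure (Lab × LSt)} (hν : InvFam shP (fun p : Lab × LSt => p.2) posD ν)
    {g : CF} (hg : MeasCF g) {P : CTree} (z : PhasePoint × Par P) {m : ℕ} (w : Config m) :
    ∫⁻ θ, {θ : Lab × LSt | (z, θ.2) ∈ ctSet Φ ε te P}.indicator
        (fun θ => sf2Of ε K g P z m w θ) θ ∂ν ≤
      ENNReal.ofReal (ε ^ 2) * fluxM te (muV K te ν) g P z m w := by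
  classical
  have hsf := hν.sf
  -- the integrand
  set H0 : ML → ℝ≥0∞ := fun l => g P z m w (cT ε z l) l.1.2.2 (cB ε z l) with hH0
  have hH0m : Measurable H0 := by
    have h1 : Measurable fun l : ML => cT ε z l :=
      (measurable_cT ε P).comp (f := fun l : ML => (z, l))
        (measurable_const.prodMk measurable_id)
    have h2 : Measurable fun l : ML => cB ε z l :=
      (measurable_cB ε P).comp (f := fun l : ML => (z, l))
        (measurable_const.prodMk measurable_id)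
    have h3 : Measurable fun l : ML => l.1.2.2 :=
      measurable_snd.comp (measurable_snd.comp measurable_fst)
    have h4 : Measurable fun _ : ML => (z, w) := measurable_const
    exact (hg P m).comp (f := fun l : ML => ((z, w), (cT ε z l, (l.1.2.2, cB ε z l))))
      (h4.prodMk (h1.prodMk (h3.prodMk h2)))
  have hct : MeasurableSet {θ : Lab × LSt | (z, θ.2) ∈ ctSet Φ ε te P} := by
    have hm : Measurable fun θ : Lab × LSt => ((z, θ.2) : (PhasePoint × Par P) × (ℝ × PhasePoint)) :=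
      measurable_const.prodMk measurable_snd
    exact hm (measurableSet_ctSet hΦ ε te P)
  have hsfm : Measurable fun θ : Lab × LSt => sf2Of ε K g P z m w θ :=
    (measSF2_sf2Of ε K hg P m).comp (f := fun θ : Lab × LSt => (z, (w, θ)))
      (measurable_const.prodMk (measurable_const.prodMk measurable_id))
  have hfm : Measurable ({θ : Lab × LSt | (z, θ.2) ∈ ctSet Φ ε te P}.indicator
      (fun θ => sf2Of ε K g P z m w θ)) := hsfm.indicator hct
  rw [hν.disint (χ := PairS969.rho0) PairS969.measurable_rho0 PairS969.lintegral_rho0 hfm]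
  -- the integral over the translations
  set J : Space3 → ℝ≥0∞ := fun v => ∫⁻ s in Ioc 0 te, ENNReal.ofReal ‖v - z.1.2‖ *
    ∫⁻ b in impactDisc (v - z.1.2), g P z m w s v b ∂μHE[2] with hJ
  have hkm : Measurable fun q : Space3 × ℝ => ENNReal.ofReal ‖q.1 - z.1.2‖ *
      ∫⁻ b in impactDisc (q.1 - z.1.2), g P z m w q.2 q.1 b ∂μHE[2] := by
    refine measurable_flux_disc (α := Space3 × ℝ) (γ := fun q => q.1 - z.1.2)
      (measurable_fst.sub measurable_const) (f := fun q b => g P z m w q.2 q.1 b) ?_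
    exact (hg P m).comp (f := fun q : (Space3 × ℝ) × Space3 =>
      ((z, w), (q.1.2, (q.1.1, q.2)))) (by fun_prop)
  have hJm : Measurable J := hkm.lintegral_prod_right'
  have key : ∀ θ : Lab × LSt, ∫⁻ a : Space3, {θ : Lab × LSt | (z, θ.2) ∈ ctSet Φ ε te P}.indicator
      (fun θ => sf2Of ε K g P z m w θ) (shP a θ) ≤
      if OkL K θ ∧ θ.2.1 ≤ te then ENNReal.ofReal (ε ^ 2) * J θ.2.2.2 else 0 := by
    intro θ
    by_cases hok : OkL K θ
    · have e1 : ∀ a : Space3, {θ : Lab × LSt | (z, θ.2) ∈ ctSet Φ ε te P}.indicator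
          (fun θ => sf2Of ε K g P z m w θ) (shP a θ) ≤
          {l : ML | (z, l.1) ∈ ctSet Φ ε te P}.indicator H0
            ((θ.2.1, (θ.2.2.1 + a, θ.2.2.2)), θ.1.2.2) := by
        intro a
        by_cases hc : shP a θ ∈ {θ : Lab × LSt | (z, θ.2) ∈ ctSet Φ ε te P}
        · have hc' : (((θ.2.1, (θ.2.2.1 + a, θ.2.2.2)), θ.1.2.2) : ML) ∈
              {l : ML | (z, l.1) ∈ ctSet Φ ε te P} := hc
          rw [indicator_of_mem hc, indicator_of_mem hc']
          unfold sf2Of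
          split_ifs
          · exact le_rfl
          · exact zero_le
        · rw [indicator_of_notMem hc]
          exact zero_le
      refine (lintegral_mono e1).trans ?_
      have e2 : ∫⁻ a : Space3, {l : ML | (z, l.1) ∈ ctSet Φ ε te P}.indicator H0
            ((θ.2.1, (θ.2.2.1 + a, θ.2.2.2)), θ.1.2.2) =
          ∫⁻ y : Space3, {l : ML | (z, l.1) ∈ ctSet Φ ε te P}.indicator H0
            ((θ.2.1, (y, θ.2.2.2)), θ.1.2.2) :=
        lintegral_add_left_eq_self (fun y : Space3 =>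
          {l : ML | (z, l.1) ∈ ctSet Φ ε te P}.indicator H0
            ((θ.2.1, (y, θ.2.2.2)), θ.1.2.2)) θ.2.2.1
      rw [e2, lintegral_ct_y hΦ hε z θ.2.1 θ.2.2.2 θ.1.2.2 hH0m]
      by_cases hte : θ.2.1 ≤ te
      · rw [if_pos ⟨hok, hte⟩]
        refine mul_le_mul' le_rfl ?_
        rw [hJ]
        simp only
        rw [lintegral_const_mul' _ _ ENNReal.ofReal_ne_top]
        by_cases hg0 : θ.2.2.2 - z.1.2 = 0
        · simp [hg0]
        refine mul_le_mul' le_rfl ?_
        have hsub : {s | θ.2.1 < s ∧ s ≤ te ∧ Valid Φ ε P s z.1.2 z.2} ⊆ Ioc 0 te := by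
          rintro s ⟨h1, h2, -⟩
          exact ⟨hok.e0.trans h1, h2⟩
        refine (lintegral_mono_set hsub).trans (lintegral_mono fun s => ?_)
        refine (setLIntegral_congr_fun (measurableSet_impactDisc _) fun b hb => ?_).le
        rw [hH0]
        simp only
        rw [cT_lineAt hε hg0 hb, cB_lineAt hε hg0 hb]
        rfl
      · rw [if_neg fun h => hte h.2]
        have hem : {s | θ.2.1 < s ∧ s ≤ te ∧ Valid Φ ε P s z.1.2 z.2} = ∅ := by
          ext s
          simp only [mem_ofPred_eq, mem_empty_iff_false, iff_false]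
          rintro ⟨h1, h2, -⟩
          exact hte (h1.le.trans h2)
        rw [hem]
        simp
    · have e1 : ∀ a : Space3, {θ : Lab × LSt | (z, θ.2) ∈ ctSet Φ ε te P}.indicator
          (fun θ => sf2Of ε K g P z m w θ) (shP a θ) = 0 := by
        intro a
        refine indicator_apply_eq_zero.2 fun _ => ?_
        unfold sf2Of
        rw [if_neg fun h => hok ((OkL_shP K a θ).1 h.1)]
      simp only [e1, lintegral_zero]
      exact zero_le
  calc ∫⁻ θ, PairS969.rho0 (posD θ) * (∫⁻ a : Space3,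
        {θ : Lab × LSt | (z, θ.2) ∈ ctSet Φ ε te P}.indicator
          (fun θ => sf2Of ε K g P z m w θ) (shP a θ)) ∂ν
      ≤ ∫⁻ θ, ENNReal.ofReal (ε ^ 2) * (chiV K te θ * J θ.2.2.2) ∂ν := by
        refine lintegral_mono fun θ => ?_
        refine (mul_le_mul' le_rfl (key θ)).trans (le_of_eq ?_)
        unfold chiV
        split_ifs
        · ring
        · simp
    _ = ENNReal.ofReal (ε ^ 2) * ∫⁻ v, J v ∂(muV K te ν) := by
        rw [lintegral_const_mul' _ _ ENNReal.ofReal_ne_top, lintegral_muV K te ν hJm]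
    _ = _ := by
        congr 1
        unfold fluxM
        rw [hJ]
        exact lintegral_lintegral_swap hkm.aemeasurable

/-! ### Structure integrals of pairs -/

/-- **Structure integral of a functional of the contact data.** -/
theorem OS2_le (hΦ : AdmissiblePotential Φ) (hε : 0 < ε) {K : ℕ} {te T' : ℝ}
    {ν : Measure (Lab × LSt)} (hν : InvFam shP (fun p : Lab × LSt => p.2) posD ν)
    {g : CF} (hg : MeasCF g) {H : SF2}
    (hH : ∀ P z m w θ, (z, θ.2) ∈ ctSet Φ ε te P → H P z m w θ ≤ sf2Of ε K g P z m w θ) :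
    OS2 Φ f₀ ε te T' ν H ≤ ∑ P ∈ GIVStep383.trees K, ∫⁻ z : PhasePoint × Par P,
      {z : PhasePoint × Par P | Valid Φ ε P T' z.1.2 z.2}.indicator
        (fun z => wt Φ P z.1.2 z.2 * (ToTree335.pf Φ f₀ ε P z *
          gcE f₀ ε (fun m w => fluxM te (muV K te ν) g P z m w))) z := by
  classical
  set c : ℝ≥0∞ := ENNReal.ofReal (ε ^ 2) with hc
  have hct : c ≠ ∞ := ENNReal.ofReal_ne_top
  have hin : ∀ (P : CTree) (z : PhasePoint × Par P) (m : ℕ) (w : Config m),
      ∫⁻ θ, {θ : Lab × LSt | (z, θ.2) ∈ ctSet Φ ε te P}.indicator (fun θ => H P z m w θ) θ ∂ν ≤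
      c * fluxM te (muV K te ν) g P z m w := by
    intro P z m w
    refine (lintegral_mono fun θ => ?_).trans (lintegral_ct_pair hΦ hε (K := K) hν hg z w)
    by_cases hθ : θ ∈ {θ : Lab × LSt | (z, θ.2) ∈ ctSet Φ ε te P}
    · rw [indicator_of_mem hθ, indicator_of_mem hθ]
      exact hH P z m w θ hθ
    · rw [indicator_of_notMem hθ]
      exact zero_le
  unfold OS2
  have hP0 : ∀ P : CTree, P ∉ GIVStep383.trees K →
      ∫⁻ z : PhasePoint × Par P, {z : PhasePoint × Par P | Valid Φ ε P T' z.1.2 z.2}.indicator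
      (fun z => wt Φ P z.1.2 z.2 * (ToTree335.pf Φ f₀ ε P z *
        gcE f₀ ε (fun m w => ∫⁻ θ, {θ : Lab × LSt | (z, θ.2) ∈ ctSet Φ ε te P}.indicator
          (fun θ => H P z m w θ) θ ∂ν))) z = 0 := by
    intro P hP
    have hP' : ¬ P.leaves ≤ K := fun h => hP (GIVStep383.mem_trees.2 h)
    have h0 : ∀ (z : PhasePoint × Par P) (m : ℕ) (w : Config m) (θ : Lab × LSt),
        {θ : Lab × LSt | (z, θ.2) ∈ ctSet Φ ε te P}.indicator (fun θ => H P z m w θ) θ = 0 := by
      intro z m w θ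
      refine indicator_apply_eq_zero.2 fun hθ => ?_
      have h1 := hH P z m w θ hθ
      unfold sf2Of at h1
      rw [if_neg fun h => hP' h.2] at h1
      exact le_antisymm h1 zero_le
    simp only [h0, lintegral_zero, gcE_zero, mul_zero, indicator_zero]
  rw [tsum_eq_sum (s := GIVStep383.trees K) (fun P hP => hP0 P hP)]
  calc activity ε * ∑ P ∈ GIVStep383.trees K, ∫⁻ z : PhasePoint × Par P,
        {z : PhasePoint × Par P | Valid Φ ε P T' z.1.2 z.2}.indicator
          (fun z => wt Φ P z.1.2 z.2 * (ToTree335.pf Φ f₀ ε P z *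
            gcE f₀ ε (fun m w => ∫⁻ θ, {θ : Lab × LSt | (z, θ.2) ∈ ctSet Φ ε te P}.indicator
              (fun θ => H P z m w θ) θ ∂ν))) z
      ≤ activity ε * ∑ P ∈ GIVStep383.trees K, c * ∫⁻ z : PhasePoint × Par P,
        {z : PhasePoint × Par P | Valid Φ ε P T' z.1.2 z.2}.indicator
          (fun z => wt Φ P z.1.2 z.2 * (ToTree335.pf Φ f₀ ε P z *
            gcE f₀ ε (fun m w => fluxM te (muV K te ν) g P z m w))) z := by
        refine mul_le_mul' le_rfl (Finset.sum_le_sum fun P _ => ?_)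
        rw [← lintegral_const_mul' _ _ hct]
        refine lintegral_mono fun z => ?_
        by_cases hz : z ∈ {z : PhasePoint × Par P | Valid Φ ε P T' z.1.2 z.2}
        · rw [indicator_of_mem hz, indicator_of_mem hz]
          have h2 : gcE f₀ ε (fun m w => ∫⁻ θ, {θ : Lab × LSt |
              (z, θ.2) ∈ ctSet Φ ε te P}.indicator (fun θ => H P z m w θ) θ ∂ν) ≤
              c * gcE f₀ ε (fun m w => fluxM te (muV K te ν) g P z m w) := by
            rw [← gcE_const_mul f₀ ε hct]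
            exact gcE_mono f₀ ε fun m w _ => hin P z m w
          refine (mul_le_mul' le_rfl (mul_le_mul' le_rfl h2)).trans (le_of_eq ?_)
          ring
        · rw [indicator_of_notMem hz, indicator_of_notMem hz]
          exact zero_le
    _ = (activity ε * ENNReal.ofReal ε ^ 2) * ∑ P ∈ GIVStep383.trees K,
        ∫⁻ z : PhasePoint × Par P, {z : PhasePoint × Par P | Valid Φ ε P T' z.1.2 z.2}.indicator
          (fun z => wt Φ P z.1.2 z.2 * (ToTree335.pf Φ f₀ ε P z *
            gcE f₀ ε (fun m w => fluxM te (muV K te ν) g P z m w))) z := by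
        rw [← Finset.mul_sum, hc, ENNReal.ofReal_pow hε.le]
        ring
    _ = _ := by rw [activity_mul_sq hε, one_mul]

/-- The velocity weight of the class dominates fourth moments. -/
structure Vel4 (Q : EPar) (PP : ℕ → PPar) (Cv : ℝ≥0∞) : Prop where
  fin : Cv ≠ ∞
  le : ∀ (K : ℕ) (z : LSt), z.1 ≤ Q.te →
    ENNReal.ofReal ((1 + ‖z.2.2‖) ^ 4) ≤ Cv * (PP K).W z

/-- Constant of the fourth moment. -/
def Dm4 (Q : EPar) (g0 : ℝ) (Cv : ℝ≥0∞) (K : ℕ) : ℝ≥0∞ :=
  volume (Metric.ball (0 : Space3) 1) * (16 * Cv * ((1 + ENNReal.ofReal Q.te) *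
    (ENNReal.ofReal Q.te * ((∫⁻ v : Space3, wG g0 v) * ∑' n : ℕ, markW Q.ρ K n))))

theorem lintegral_wG_ne_top {g0 : ℝ} (hg : 0 < g0) : ∫⁻ v : Space3, wG g0 v ≠ ∞ := by
  refine ne_top_of_le_ne_top (mom4_wG_ne_top hg) (lintegral_mono fun v => ?_)
  calc wG g0 v = wG g0 v * 1 := (mul_one _).symm
    _ ≤ wG g0 v * ENNReal.ofReal ((1 + ‖v‖) ^ 4) := by
        refine mul_le_mul' le_rfl ?_
        rw [← ENNReal.ofReal_one]
        refine ENNReal.ofReal_le_ofReal ?_
        exact one_le_pow₀ (by linarith [norm_nonneg v])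

theorem Dm4_ne_top {Q : EPar} {g0 : ℝ} (hQ : QOk Q g0) {Cv : ℝ≥0∞} (hCv : Cv ≠ ∞) (K : ℕ) :
    Dm4 Q g0 Cv K ≠ ∞ := by
  unfold Dm4
  refine ENNReal.mul_ne_top measure_ball_lt_top.ne (ENNReal.mul_ne_top
    (ENNReal.mul_ne_top (by norm_num) hCv) (ENNReal.mul_ne_top
      (ENNReal.add_ne_top.2 ⟨ENNReal.one_ne_top, ENNReal.ofReal_ne_top⟩)
      (ENNReal.mul_ne_top ENNReal.ofReal_ne_top (ENNReal.mul_ne_top
        (lintegral_wG_ne_top hQ.g0_pos) (tsum_markW_ne_top hQ.ρ_ne K)))))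

theorem lintegral_rho0_lineM {Q : EPar} {g0 : ℝ} (hQ : QOk Q g0) (K : ℕ) :
    ∫⁻ l, PairS969.rho0 (PairS969.posd l) ∂(lineM Q.γ Q.ρ K Q.te) ≤
      ENNReal.ofReal Q.te * ((∫⁻ v : Space3, wG g0 v) * ∑' n : ℕ, markW Q.ρ K n) := by
  have hm : Measurable fun l : ML => PairS969.rho0 (PairS969.posd l) :=
    PairS969.measurable_rho0.comp PairS969.measurable_posd
  rw [EBasic602.lintegral_lineM hQ.γ_meas hm]
  set S : ℝ≥0∞ := ∑' n : ℕ, markW Q.ρ K n with hS
  have h1 : ∀ (τ : ℝ) (v : Space3), ∫⁻ y : Space3, ∑' n : ℕ, markW Q.ρ K n *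
      PairS969.rho0 (PairS969.posd (((τ, (y, v)), n) : ML)) = S := by
    intro τ v
    have h2 : ∀ y : Space3, ∑' n : ℕ, markW Q.ρ K n *
        PairS969.rho0 (PairS969.posd (((τ, (y, v)), n) : ML)) = S * PairS969.rho0 y := by
      intro y
      rw [← ENNReal.tsum_mul_right]
      rfl
    simp only [h2]
    rw [lintegral_const_mul _ PairS969.measurable_rho0, PairS969.lintegral_rho0, mul_one]
  simp only [h1]
  calc ∫⁻ τ in Ioc 0 Q.te, ∫⁻ v : Space3, wG (Q.γ τ) v * S
      ≤ ∫⁻ _ in Ioc 0 Q.te, (∫⁻ v : Space3, wG g0 v) * S := by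
        refine setLIntegral_mono' measurableSet_Ioc fun τ hτ => ?_
        rw [lintegral_mul_const' _ _ (tsum_markW_ne_top hQ.ρ_ne K)]
        exact mul_le_mul' (lintegral_mono fun v => Kin796.wG_anti (hQ.γ_ge τ hτ) v) le_rfl
    _ = _ := by
        rw [setLIntegral_const, Real.volume_Ioc, sub_zero]
        ring

theorem one_add_pow4_boost (v u : Space3) (hu : ‖u‖ < 1) :
    ENNReal.ofReal ((1 + ‖v + u‖) ^ 4) ≤ 16 * ENNReal.ofReal ((1 + ‖v‖) ^ 4) := by
  have h1 : (16 : ℝ≥0∞) = ENNReal.ofReal 16 := by norm_num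
  rw [h1, ← ENNReal.ofReal_mul (by norm_num)]
  refine ENNReal.ofReal_le_ofReal ?_
  have h2 : 1 + ‖v + u‖ ≤ 2 * (1 + ‖v‖) := by
    have := norm_add_le v u
    linarith [norm_nonneg v]
  calc (1 + ‖v + u‖) ^ 4 ≤ (2 * (1 + ‖v‖)) ^ 4 := pow_le_pow_left₀ (by positivity) h2 4
    _ = 16 * (1 + ‖v‖) ^ 4 := by ring

/-- **Fourth moment of the velocity law.** -/
theorem m4_muV_le {Q : EPar} {g0 : ℝ} (hQ : QOk Q g0) {PP : ℕ → PPar} (hP : PPOk Q PP)
    {Cv : ℝ≥0∞} (hV : Vel4 Q PP Cv) {K : ℕ} {Ξ ν : Measure (Lab × LSt)} {c : ℝ≥0∞}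
    (h : PX (PP K) Ξ ν c) : m4 (muV K Q.te ν) ≤ Dm4 Q g0 Cv K * c := by
  classical
  have hpm : Measurable fun v : Space3 => ENNReal.ofReal ((1 + ‖v‖) ^ 4) := by fun_prop
  unfold m4
  rw [lintegral_muV K Q.te ν hpm]
  set G : Lab × LSt → ℝ≥0∞ := fun θ => (if θ.2.1 ≤ Q.te then
    PairS969.rho0 (PairS969.posd θ.1.1) * ENNReal.ofReal ((1 + ‖θ.2.2.2‖) ^ 4) else 0) with hG
  have hrm : Measurable fun θ : Lab × LSt => PairS969.rho0 (PairS969.posd θ.1.1) :=
    PairS969.measurable_rho0.comp (PairS969.measurable_posd.comp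
      (measurable_fst.comp measurable_fst))
  have hGm : Measurable G := by
    refine Measurable.ite (measurableSet_le (measurable_fst.comp measurable_snd)
      measurable_const) ?_ measurable_const
    exact hrm.mul (hpm.comp measurable_vel2)
  have h1 : ∫⁻ θ, chiV K Q.te θ * ENNReal.ofReal ((1 + ‖θ.2.2.2‖) ^ 4) ∂ν ≤ ∫⁻ θ, G θ ∂ν := by
    refine lintegral_mono fun θ => ?_
    rw [hG]
    unfold chiV
    by_cases ht : θ.2.1 ≤ Q.te
    · simp only
      rw [if_pos ht]
      refine mul_le_mul' ?_ le_rfl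
      split_ifs
      · exact le_rfl
      · exact zero_le
    · rw [if_neg fun h => ht h.2, zero_mul]
      exact zero_le
  refine h1.trans ((h.spr G hGm).trans ?_)
  set F : EDefs602.ML × ℝ → ℝ≥0∞ := fun q => PairS969.rho0 (PairS969.posd q.1) with hF
  have hFm : Measurable F := PairS969.measurable_rho0.comp
    (PairS969.measurable_posd.comp measurable_fst)
  set B : ℝ≥0∞ := volume (Metric.ball (0 : Space3) 1) with hB
  have h2 : ∀ p : Lab × LSt, Boost969.avgL sig G p ≤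
      (B * (16 * Cv)) * (F (p.1.1, p.1.2.1) * ((PP K).lam₁ ^ p.1.2.2 * (PP K).W p.2)) := by
    intro p
    unfold Boost969.avgL
    have h3 : ∀ u ∈ Metric.ball (0 : Space3) 1, G (p.1, Boost969.gal (sig p.1) u p.2) ≤
        (16 * Cv) * (F (p.1.1, p.1.2.1) * ((PP K).lam₁ ^ p.1.2.2 * (PP K).W p.2)) := by
      intro u hu
      have hu1 : ‖u‖ < 1 := by simpa using hu
      by_cases ht : p.2.1 ≤ Q.te
      · have hGe : G (p.1, Boost969.gal (sig p.1) u p.2) =
            PairS969.rho0 (PairS969.posd p.1.1) * ENNReal.ofReal ((1 + ‖p.2.2.2 + u‖) ^ 4) :=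
          if_pos ht
        rw [hGe]
        have h4 := one_add_pow4_boost p.2.2.2 u hu1
        have h5 := hV.le K p.2 ht
        have h6 : (1 : ℝ≥0∞) ≤ (PP K).lam₁ ^ p.1.2.2 := one_le_pow₀ (PP K).hlam₁
        calc PairS969.rho0 (PairS969.posd p.1.1) * ENNReal.ofReal ((1 + ‖p.2.2.2 + u‖) ^ 4)
            ≤ PairS969.rho0 (PairS969.posd p.1.1) * (16 * (Cv * (PP K).W p.2)) :=
              mul_le_mul' le_rfl (h4.trans (mul_le_mul' le_rfl h5))
          _ = (16 * Cv) * (PairS969.rho0 (PairS969.posd p.1.1) * (1 * (PP K).W p.2)) := by ring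
          _ ≤ _ := by gcongr
      · have hGe : G (p.1, Boost969.gal (sig p.1) u p.2) = 0 := if_neg ht
        rw [hGe]
        exact zero_le
    calc ∫⁻ u in Metric.ball (0 : Space3) 1, G (p.1, Boost969.gal (sig p.1) u p.2)
        ≤ ∫⁻ _ in Metric.ball (0 : Space3) 1,
          (16 * Cv) * (F (p.1.1, p.1.2.1) * ((PP K).lam₁ ^ p.1.2.2 * (PP K).W p.2)) :=
          setLIntegral_mono' measurableSet_ball h3
      _ = _ := by
          rw [setLIntegral_const, hB]
          ring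
  have hBt : B ≠ ∞ := measure_ball_lt_top.ne
  have hBC : B * (16 * Cv) ≠ ∞ :=
    ENNReal.mul_ne_top hBt (ENNReal.mul_ne_top (by norm_num) hV.fin)
  calc ∫⁻ p, Boost969.avgL sig G p ∂Ξ
      ≤ ∫⁻ p, (B * (16 * Cv)) *
        (F (p.1.1, p.1.2.1) * ((PP K).lam₁ ^ p.1.2.2 * (PP K).W p.2)) ∂Ξ := lintegral_mono h2
    _ = (B * (16 * Cv)) * ∫⁻ p, F (p.1.1, p.1.2.1) *
        ((PP K).lam₁ ^ p.1.2.2 * (PP K).W p.2) ∂Ξ := lintegral_const_mul' _ _ hBC
    _ ≤ (B * (16 * Cv)) * (c * (PP K).rhs F) := mul_le_mul' le_rfl (h.marg F hFm)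
    _ ≤ (B * (16 * Cv)) * (c * ((1 + ENNReal.ofReal Q.te) *
        (ENNReal.ofReal Q.te * ((∫⁻ v : Space3, wG g0 v) * ∑' n : ℕ, markW Q.ρ K n)))) := by
        refine mul_le_mul' le_rfl (mul_le_mul' le_rfl ?_)
        unfold PPar.rhs
        rw [hP.ell K, hP.hor K]
        have h7 := lintegral_rho0_lineM hQ K
        have e1 : ∀ l : ML, ∫⁻ s in Icc 0 Q.te, F (l, s) =
            ENNReal.ofReal Q.te * PairS969.rho0 (PairS969.posd l) := by
          intro l
          rw [hF]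
          simp only
          rw [setLIntegral_const, Real.volume_Icc, sub_zero, mul_comm]
        simp only [e1]
        rw [lintegral_const_mul' _ _ ENNReal.ofReal_ne_top, add_mul, one_mul]
        exact add_le_add h7 (mul_le_mul' le_rfl h7)
    _ = _ := by
        unfold Dm4
        rw [← hB]
        ring

/-- **(13f.1)** Third particle near the encounter of the second line. -/
theorem third_OS2_le (hΦ : AdmissiblePotential Φ) {A : Space3 → ℝ≥0∞} {C b g0 : ℝ}
    (hF : FOk f₀ A C b) {Q : EPar} (hQ : QOk Q g0) {PP : ℕ → PPar} (hP : PPOk Q PP)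
    {Cv : ℝ≥0∞} (hV : Vel4 Q PP Cv) (K : ℕ) (T' : ℝ) :
    ∃ D : ℝ≥0∞, D ≠ ∞ ∧ ∀ (ε : ℝ), 0 < ε → ∀ (a : ℝ), 0 < a →
      ∀ (Ξ ν : Measure (Lab × LSt)) (c : ℝ≥0∞), c ≠ ∞ → PX (PP K) Ξ ν c → ∀ H : SF2,
      (∀ P z m w θ, (z, θ.2) ∈ ctSet Φ ε Q.te P →
        H P z m w θ ≤ sf2Of ε K (thirdG Φ ε a) P z m w θ) →
      OS2 Φ f₀ ε Q.te T' ν H ≤ c * (D * (activity ε * ENNReal.ofReal a ^ 3)) := by
  have hb2 := half_pos hF.b_pos
  choose C' hC' using fun P : CTree => hF.maj.tree hΦ hb2 (half_lt_self hF.b_pos) P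
  set m2 : ℝ≥0∞ := ∫⁻ z, ENNReal.ofReal (f₀ z) * ENNReal.ofReal (1 + ‖z.2‖ ^ 2) with hm2
  set c1 : ℝ≥0∞ := ENNReal.ofReal Real.pi * (40 * Sweep815.c3 * ENNReal.ofReal Q.te *
    Dm4 Q g0 Cv K * (ENNReal.ofReal (1 + 2 * stabB Φ) * m2)) with hc1
  have hc3 : Sweep815.c3 ≠ ∞ := ENNReal.ofReal_ne_top
  have hD4 := Dm4_ne_top hQ hV.fin K
  have hc1t : c1 ≠ ∞ := by
    rw [hc1]
    refine ENNReal.mul_ne_top ENNReal.ofReal_ne_top (ENNReal.mul_ne_top (ENNReal.mul_ne_top
      (ENNReal.mul_ne_top (ENNReal.mul_ne_top (by norm_num) hc3) ENNReal.ofReal_ne_top)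
      hD4) (ENNReal.mul_ne_top ENNReal.ofReal_ne_top hF.mom))
  refine ⟨∑ P ∈ GIVStep383.trees K, c1 * ∫⁻ q : Space3 × Par P,
    domG (C' P) (b / 2) T' P q.1 q.2 * ENNReal.ofReal ((1 + ‖q.1‖) ^ 4), ?_, ?_⟩
  · refine ENNReal.sum_ne_top.2 fun P _ => ENNReal.mul_ne_top hc1t ?_
    exact lintegral_domG_pow_ne_top (hC' P).C_nonneg hb2 T' P 4
  · intro ε hε a ha Ξ ν c hcν hPX H hH
    have hν := hPX.invFam
    have := hPX.sfν
    have hμ4 := m4_muV_le hQ hP hV hPX
    have hμt : m4 (muV K Q.te ν) ≠ ∞ := ne_top_of_le_ne_top (ENNReal.mul_ne_top hD4 hcν) hμ4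
    refine (OS2_le hΦ hε hν (measCF_thirdG hΦ hε a) hH).trans ?_
    rw [Finset.sum_mul, Finset.mul_sum]
    refine Finset.sum_le_sum fun P _ => ?_
    refine ((hC' P).lintegral_x hε.le T'
      (F := fun z => gcE f₀ ε (fun m w =>
        fluxM Q.te (muV K Q.te ν) (thirdG Φ ε a) P z m w))
      (measurable_gcE_fluxM (measCF_thirdG hΦ hε a) hF.meas Q.te (muV K Q.te ν) P)).trans ?_
    have hkt : c * (c1 * (activity ε * ENNReal.ofReal a ^ 3)) ≠ ∞ :=
      ENNReal.mul_ne_top hcν (ENNReal.mul_ne_top hc1t (ENNReal.mul_ne_top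
            (activity_ne_top ε) (ENNReal.pow_ne_top ENNReal.ofReal_ne_top)))
    calc ∫⁻ q : Space3 × Par P, domG (C' P) (b / 2) T' P q.1 q.2 * ∫⁻ x : Space3,
          gcE f₀ ε (fun m w => fluxM Q.te (muV K Q.te ν) (thirdG Φ ε a) P ((x, q.1), q.2) m w)
        ≤ ∫⁻ q : Space3 × Par P, (c * (c1 * (activity ε * ENNReal.ofReal a ^ 3))) *
          (domG (C' P) (b / 2) T' P q.1 q.2 * ENNReal.ofReal ((1 + ‖q.1‖) ^ 4)) := by
          refine lintegral_mono fun q => ?_
          refine (mul_le_mul' le_rfl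
            (lintegral_third_mu hΦ hF hε ha Q.te P (muV K Q.te ν) hμt q)).trans ?_
          calc domG (C' P) (b / 2) T' P q.1 q.2 * (ENNReal.ofReal Real.pi * (40 * Sweep815.c3 *
                ENNReal.ofReal Q.te * ENNReal.ofReal a ^ 3 * ENNReal.ofReal ((1 + ‖q.1‖) ^ 4) *
                m4 (muV K Q.te ν) * (ENNReal.ofReal (1 + 2 * stabB Φ) * (activity ε * m2))))
              ≤ domG (C' P) (b / 2) T' P q.1 q.2 * (ENNReal.ofReal Real.pi * (40 * Sweep815.c3 *
                ENNReal.ofReal Q.te * ENNReal.ofReal a ^ 3 * ENNReal.ofReal ((1 + ‖q.1‖) ^ 4) *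
                (Dm4 Q g0 Cv K * c) * (ENNReal.ofReal (1 + 2 * stabB Φ) * (activity ε * m2)))) := by
                gcongr
            _ = _ := by
                rw [hc1]
                ring
      _ = (c * (c1 * (activity ε * ENNReal.ofReal a ^ 3))) * ∫⁻ q : Space3 × Par P,
          (domG (C' P) (b / 2) T' P q.1 q.2 * ENNReal.ofReal ((1 + ‖q.1‖) ^ 4)) :=
          lintegral_const_mul' _ _ hkt
      _ = _ := by ring

end Crest.Agent.R122.Third741
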