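import Crest.Agent.R122.OneCA_423
import Crest.Agent.R122.TreeDom_974
import Crest.Agent.R122.Mom_974
import Crest.Agent.R122.ToTree_335
import Crest.Agent.R122.CausalMeas_291
import Crest.Agent.R122.BadHit_370

/-!
# Third particle near an encounter (row 122, GAP-E)

* `volume_near_le` : the set of positions at which a moving point (path `γ`) comes `r`-close to some
  gas particle during `[a, b]` has volume `≤ 8 c3 r² (r + 2 (b - a) + ∫ |γ'|) * (energy weight)`.
* `Near` : a gas particle is `r`-close to the point `x` at some time of `[s - a, s + a]`; it is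
  measurable, its volume in `x` is `O(r² (r + a))`; `near_flux_le` is the flux form of the estimate.
-/

set_option autoImplicit false

open MeasureTheory Set Filter Topology
open scoped ENNReal
open Crest.AnalysisR.Kinetic
open Crest.Agent.R122.Kin796 Crest.Agent.R122.Kin796.CTree Crest.Agent.R122.Tree674
open Crest.Agent.R122.Disc416 Crest.Agent.R122.Flux663 Crest.Agent.R122.OC663 Crest.Agent.R122.EDefs602
open Crest.Agent.R122.GC311 Crest.Agent.R122.Flow671 Crest.Agent.R122.Loc45 Crest.Agent.R122.Mom974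
open Crest.Agent.R122.OneC423 Crest.Agent.R122.TreeDom974

noncomputable section

namespace Crest.Agent.R122.Third741

variable {Φ : Space3 → ℝ} {f₀ : PhasePoint → ℝ} {ε : ℝ}

/-- energy weight of a gas configuration (dominates number and kinetic energy at all times). -/
def Wt (Φ : Space3 → ℝ) {n : ℕ} (Z : Config n) : ℝ≥0∞ :=
  ENNReal.ofReal (1 + 2 * stabB Φ) * ∑ i, ENNReal.ofReal (1 + ‖(Z i).2‖ ^ 2)

theorem card_le_Wt (Φ : Space3 → ℝ) {n : ℕ} (Z : Config n) : (n : ℝ≥0∞) ≤ Wt Φ Z := by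
  have hB := stabB_nonneg Φ
  have h1 : (n : ℝ≥0∞) = ∑ _i : Fin n, (1 : ℝ≥0∞) := by simp
  have h2 : ∑ _i : Fin n, (1 : ℝ≥0∞) ≤ ∑ i, ENNReal.ofReal (1 + ‖(Z i).2‖ ^ 2) := by
    refine Finset.sum_le_sum fun i _ => ?_
    rw [← ENNReal.ofReal_one]
    exact ENNReal.ofReal_le_ofReal (by nlinarith [sq_nonneg ‖(Z i).2‖])
  have h3 : (1 : ℝ≥0∞) ≤ ENNReal.ofReal (1 + 2 * stabB Φ) := by
    rw [← ENNReal.ofReal_one]
    exact ENNReal.ofReal_le_ofReal (by linarith)
  calc (n : ℝ≥0∞) ≤ 1 * ∑ i, ENNReal.ofReal (1 + ‖(Z i).2‖ ^ 2) := by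
        rw [h1, one_mul]; exact h2
    _ ≤ Wt Φ Z := mul_le_mul_left h3 _

/-- **Volume of the positions from which a moving point comes close to the gas.** -/
theorem volume_near_le (hΦ : AdmissiblePotential Φ) (hε : 0 < ε) {n : ℕ} {Z : Config n}
    (hZ : Z ∈ PairExcluded ε n) {a b r : ℝ} (hr : 0 < r) {γ γ' : ℝ → Space3}
    (hγ : ∀ s ∈ Icc a b, HasDerivAt γ (γ' s) s) (hγ' : Continuous γ') (hγc : Continuous γ) :
    volume {x : Space3 | ∃ i, ∃ s ∈ Icc a b, dist (x + γ s) (flow Φ ε s Z i).1 ≤ r} ≤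
      8 * Sweep815.c3 * ENNReal.ofReal r ^ 2 *
        (ENNReal.ofReal r + 2 * ENNReal.ofReal (b - a) +
          ∫⁻ u in Icc a b, ENNReal.ofReal ‖γ' u‖) * Wt Φ Z := by
  have hD : Z ∈ Dom Φ (Fin n) := pairExcluded_subset_Dom hε n hZ
  have hcf := flow_continuous_time hΦ hε Z
  have hcv : ∀ i, Continuous fun s => (flow Φ ε s Z i).2 := fun i =>
    continuous_snd.comp ((continuous_apply i).comp hcf)
  have hcx : ∀ i, Continuous fun s => (flow Φ ε s Z i).1 := fun i =>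
    continuous_fst.comp ((continuous_apply i).comp hcf)
  have hr0 : ENNReal.ofReal r ≠ 0 := (ENNReal.ofReal_pos.2 hr).ne'
  have hrt : ENNReal.ofReal r ≠ ∞ := ENNReal.ofReal_ne_top
  have hcard := card_le_Wt Φ Z
  have hspeed : ∀ u, ∑ i, ENNReal.ofReal ‖(flow Φ ε u Z i).2‖ ≤ 2 * Wt Φ Z := by
    intro u
    refine (Finset.sum_le_sum fun i _ => ENNReal.ofReal_le_ofReal
      (show ‖(flow Φ ε u Z i).2‖ ≤ 1 + ‖(flow Φ ε u Z i).2‖ by linarith)).trans ?_
    have := speed_flow_le hΦ hε hZ u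
    rw [mul_assoc] at this
    exact this
  set g : ℝ≥0∞ := ∫⁻ u in Icc a b, ENNReal.ofReal ‖γ' u‖ with hg
  -- one particle
  have h1 : ∀ i, volume {x : Space3 | ∃ s ∈ Icc a b, dist (x + γ s) (flow Φ ε s Z i).1 ≤ r} ≤
      8 * Sweep815.c3 * ENNReal.ofReal r ^ 2 * (ENNReal.ofReal r + g +
        ∫⁻ u in Icc a b, ENNReal.ofReal ‖(flow Φ ε u Z i).2‖) := by
    intro i
    refine (Sweep815.volume_translate_le hr hγ
      (fun s _ => hasDerivAt_pos_flow hΦ hε hD s i) hγ' (hcv i) hγc (hcx i)).trans ?_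
    have h2 : ENNReal.ofReal (2 * r) ^ 3 * Sweep815.c3 =
        8 * Sweep815.c3 * ENNReal.ofReal r ^ 2 * ENNReal.ofReal r := by
      rw [ENNReal.ofReal_mul (by norm_num), ENNReal.ofReal_ofNat]
      ring
    have h3 : (ENNReal.ofReal r)⁻¹ * (ENNReal.ofReal (2 * r) ^ 3 * Sweep815.c3) =
        8 * Sweep815.c3 * ENNReal.ofReal r ^ 2 := by
      rw [h2]
      calc (ENNReal.ofReal r)⁻¹ * (8 * Sweep815.c3 * ENNReal.ofReal r ^ 2 * ENNReal.ofReal r)
          = 8 * Sweep815.c3 * ENNReal.ofReal r ^ 2 *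
              ((ENNReal.ofReal r)⁻¹ * ENNReal.ofReal r) := by ring
        _ = _ := by rw [ENNReal.inv_mul_cancel hr0 hrt, mul_one]
    rw [h3, h2, ← mul_add, add_assoc]
    gcongr
    rw [hg, ← lintegral_add_left (by fun_prop)]
    refine lintegral_mono fun u => ?_
    rw [← ENNReal.ofReal_add (norm_nonneg _) (norm_nonneg _)]
    exact ENNReal.ofReal_le_ofReal (norm_sub_le _ _)
  have h4 : {x : Space3 | ∃ i, ∃ s ∈ Icc a b, dist (x + γ s) (flow Φ ε s Z i).1 ≤ r} =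
      ⋃ i, {x : Space3 | ∃ s ∈ Icc a b, dist (x + γ s) (flow Φ ε s Z i).1 ≤ r} := by
    ext x; simp
  rw [h4]
  calc volume (⋃ i, {x : Space3 | ∃ s ∈ Icc a b, dist (x + γ s) (flow Φ ε s Z i).1 ≤ r})
      ≤ ∑ i, volume {x : Space3 | ∃ s ∈ Icc a b, dist (x + γ s) (flow Φ ε s Z i).1 ≤ r} :=
        (measure_iUnion_le _).trans (by rw [tsum_fintype])
    _ ≤ ∑ i, 8 * Sweep815.c3 * ENNReal.ofReal r ^ 2 * (ENNReal.ofReal r + g +
        ∫⁻ u in Icc a b, ENNReal.ofReal ‖(flow Φ ε u Z i).2‖) := Finset.sum_le_sum fun i _ => h1 i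
    _ = 8 * Sweep815.c3 * ENNReal.ofReal r ^ 2 * (n * (ENNReal.ofReal r + g) +
        ∫⁻ u in Icc a b, ∑ i, ENNReal.ofReal ‖(flow Φ ε u Z i).2‖) := by
        rw [← Finset.mul_sum, Finset.sum_add_distrib]
        congr 2
        · rw [Finset.sum_const, Finset.card_univ, Fintype.card_fin, nsmul_eq_mul]
        · rw [lintegral_finsetSum' _ fun i _ => ((hcv i).norm.measurable
            |>.ennreal_ofReal).aemeasurable]
    _ ≤ 8 * Sweep815.c3 * ENNReal.ofReal r ^ 2 * (Wt Φ Z * (ENNReal.ofReal r + g) +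
        ∫⁻ _ in Icc a b, 2 * Wt Φ Z) := by
        gcongr with u
        exact hspeed u
    _ = _ := by
        rw [setLIntegral_const, Real.volume_Icc]
        ring

/-! ### The near event -/

/-- Some particle of `w` is `r`-close to `x` at some time of `[s - a, s + a]`. -/
def Near (Φ : Space3 → ℝ) (ε : ℝ) {n : ℕ} (w : Config n) (s a r : ℝ) (x : Space3) : Prop :=
  ∃ i, ∃ t ∈ Icc (s - a) (s + a), dist x (flow Φ ε t w i).1 ≤ r

theorem Near.mono {n : ℕ} {w : Config n} {s a r r' : ℝ} {x : Space3} (h : Near Φ ε w s a r x)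
    (hr : r ≤ r') : Near Φ ε w s a r' x := by
  obtain ⟨i, t, ht, hd⟩ := h
  exact ⟨i, t, ht, hd.trans hr⟩

theorem measurableSet_near (hΦ : AdmissiblePotential Φ) (hε : 0 < ε) (a : ℝ) (n : ℕ) :
    MeasurableSet {q : Config n × (ℝ × (ℝ × Space3)) | Near Φ ε q.1 q.2.1 a q.2.2.1 q.2.2.2} := by
  have e : {q : Config n × (ℝ × (ℝ × Space3)) | Near Φ ε q.1 q.2.1 a q.2.2.1 q.2.2.2} =
      ⋃ i, {q | ∃ t ∈ Icc (q.2.1 - a) (q.2.1 + a),
        dist q.2.2.2 (flow Φ ε t q.1 i).1 - q.2.2.1 ≤ 0} := by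
    ext q
    simp only [Near, mem_iUnion, mem_ofPred_eq, sub_nonpos]
  rw [e]
  refine MeasurableSet.iUnion fun i => ?_
  refine Causal291.measurableSet_exists_Icc (α := fun q : Config n × (ℝ × (ℝ × Space3)) =>
    q.2.1 - a) (β := fun q => q.2.1 + a) (by fun_prop) (by fun_prop)
    (g := fun q t => dist q.2.2.2 (flow Φ ε t q.1 i).1 - q.2.2.1) (fun q => ?_) (fun t => ?_) 0
  · exact (continuous_const.dist (continuous_fst.comp ((continuous_apply i).comp
      (flow_continuous_time hΦ hε q.1)))).sub continuous_const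
  · have h1 : Measurable fun q : Config n × (ℝ × (ℝ × Space3)) => flow Φ ε t q.1 :=
      (measurable_flow_joint hΦ hε).comp (f := fun q : Config n × (ℝ × (ℝ × Space3)) =>
        ((t, q.1) : ℝ × Config n)) (measurable_const.prodMk measurable_fst)
    have h2 : Measurable fun q : Config n × (ℝ × (ℝ × Space3)) => (flow Φ ε t q.1 i).1 :=
      measurable_fst.comp ((measurable_pi_apply i).comp h1)
    have h3 : Measurable fun q : Config n × (ℝ × (ℝ × Space3)) => q.2.2.2 := by fun_prop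
    have h4 : Measurable fun q : Config n × (ℝ × (ℝ × Space3)) => q.2.2.1 := by fun_prop
    exact (h3.dist h2).sub h4

open scoped Classical in
/-- Indicator of the near event. -/
def nearI (Φ : Space3 → ℝ) (ε : ℝ) {n : ℕ} (w : Config n) (s a r : ℝ) (x : Space3) : ℝ≥0∞ :=
  if Near Φ ε w s a r x then 1 else 0

theorem nearI_le_one {n : ℕ} (w : Config n) (s a r : ℝ) (x : Space3) :
    nearI Φ ε w s a r x ≤ 1 := by
  unfold nearI
  split_ifs
  · exact le_rfl
  · exact zero_le_one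

theorem nearI_of {n : ℕ} {w : Config n} {s a r : ℝ} {x : Space3} (h : Near Φ ε w s a r x) :
    nearI Φ ε w s a r x = 1 := if_pos h

theorem measurable_nearI (hΦ : AdmissiblePotential Φ) (hε : 0 < ε) (a : ℝ) (n : ℕ) :
    Measurable fun q : Config n × (ℝ × (ℝ × Space3)) =>
      nearI Φ ε q.1 q.2.1 a q.2.2.1 q.2.2.2 := by
  unfold nearI
  exact Measurable.ite (measurableSet_near hΦ hε a n) measurable_const measurable_const

theorem lintegral_nearI_le (hΦ : AdmissiblePotential Φ) (hε : 0 < ε) {n : ℕ} {w : Config n}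
    (hw : w ∈ PairExcluded ε n) {s a r : ℝ} (hr : 0 < r) (c : Space3) :
    ∫⁻ x : Space3, nearI Φ ε w s a r (x + c) ≤
      8 * Sweep815.c3 * ENNReal.ofReal r ^ 2 *
        (ENNReal.ofReal r + 4 * ENNReal.ofReal a) * Wt Φ w := by
  have h := volume_near_le hΦ hε hw (a := s - a) (b := s + a) hr (γ := fun _ => c)
    (γ' := fun _ => 0) (fun t _ => hasDerivAt_const t c) continuous_const continuous_const
  have e1 : (fun x : Space3 => nearI Φ ε w s a r (x + c)) =
      {x : Space3 | ∃ i, ∃ t ∈ Icc (s - a) (s + a),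
        dist (x + c) (flow Φ ε t w i).1 ≤ r}.indicator 1 := by
    funext x
    by_cases hx : Near Φ ε w s a r (x + c)
    · rw [nearI_of hx, indicator_of_mem (s := {x : Space3 | ∃ i, ∃ t ∈ Icc (s - a) (s + a),
        dist (x + c) (flow Φ ε t w i).1 ≤ r}) hx]
      rfl
    · unfold nearI
      rw [if_neg hx, indicator_of_notMem (s := {x : Space3 | ∃ i, ∃ t ∈ Icc (s - a) (s + a),
        dist (x + c) (flow Φ ε t w i).1 ≤ r}) hx]
  have hm : MeasurableSet {x : Space3 | ∃ i, ∃ t ∈ Icc (s - a) (s + a),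
        dist (x + c) (flow Φ ε t w i).1 ≤ r} := by
    have h1 : Measurable fun x : Space3 =>
        ((w, (s, (r, x + c))) : Config n × (ℝ × (ℝ × Space3))) := by fun_prop
    exact h1 (measurableSet_near hΦ hε a n)
  rw [e1, lintegral_indicator_one hm]
  refine h.trans (le_of_eq ?_)
  have e2 : ENNReal.ofReal (s + a - (s - a)) = 2 * ENNReal.ofReal a := by
    rw [show s + a - (s - a) = 2 * a by ring, ENNReal.ofReal_mul (by norm_num),
      ENNReal.ofReal_ofNat]
  rw [e2]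
  simp only [norm_zero, ENNReal.ofReal_zero, lintegral_zero, add_zero]
  ring

/-- Expected energy weight. -/
theorem gcE_Wt_le (hf : Measurable f₀) (h1 : ∫⁻ z, ENNReal.ofReal (f₀ z) ≤ 1) (ε : ℝ) :
    gcE f₀ ε (fun _ w => Wt Φ w) ≤ ENNReal.ofReal (1 + 2 * stabB Φ) *
      (activity ε * ∫⁻ z, ENNReal.ofReal (f₀ z) * ENNReal.ofReal (1 + ‖z.2‖ ^ 2)) := by
  have hφ : Measurable fun z : PhasePoint => ENNReal.ofReal (1 + ‖z.2‖ ^ 2) := by fun_prop
  unfold Wt
  rw [gcE_const_mul f₀ ε ENNReal.ofReal_ne_top]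
  exact mul_le_mul_right (gcE_sum_le hf h1 ε _ hφ) _

/-! ### Flux form -/

/-- Integrand of the flux form: a line of velocity `v` enters the ball around the root line (velocity
`u`, at `x + s • u` at time `s`), and a particle of `w` is near. -/
def nfI (Φ : Space3 → ℝ) (ε a : ℝ) (u : Space3) (G : Space3 → ℝ≥0∞) {n : ℕ} (w : Config n)
    (x : Space3) (s : ℝ) (v : Space3) : ℝ≥0∞ :=
  ENNReal.ofReal ‖v - u‖ * (G v * nearI Φ ε w s a (a * (1 + ‖v‖ + ‖u‖)) (x + s • u))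

theorem measurable_nfI_joint (hΦ : AdmissiblePotential Φ) (hε : 0 < ε) (a : ℝ)
    {G : Space3 → ℝ≥0∞} (hG : Measurable G) (n : ℕ) :
    Measurable fun q : (Config n × (Space3 × Space3)) × (ℝ × Space3) =>
      nfI Φ ε a q.1.2.2 G q.1.1 q.1.2.1 q.2.1 q.2.2 := by
  unfold nfI
  have h1 : Measurable fun q : (Config n × (Space3 × Space3)) × (ℝ × Space3) =>
      nearI Φ ε q.1.1 q.2.1 a (a * (1 + ‖q.2.2‖ + ‖q.1.2.2‖)) (q.1.2.1 + q.2.1 • q.1.2.2) :=
    (measurable_nearI hΦ hε a n).comp (f := fun q : (Config n × (Space3 × Space3)) ×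
      (ℝ × Space3) => (q.1.1, (q.2.1, (a * (1 + ‖q.2.2‖ + ‖q.1.2.2‖),
        q.1.2.1 + q.2.1 • q.1.2.2)))) (by fun_prop)
  have h2 : Measurable fun q : (Config n × (Space3 × Space3)) × (ℝ × Space3) => G q.2.2 :=
    hG.comp (by fun_prop)
  have h3 : Measurable fun q : (Config n × (Space3 × Space3)) × (ℝ × Space3) =>
      ENNReal.ofReal ‖q.2.2 - q.1.2.2‖ := by fun_prop
  exact h3.mul (h2.mul h1)

theorem measurable_nfI (hΦ : AdmissiblePotential Φ) (hε : 0 < ε) (a : ℝ) (u : Space3)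
    {G : Space3 → ℝ≥0∞} (hG : Measurable G) (n : ℕ) :
    Measurable fun q : (Config n × Space3) × (ℝ × Space3) =>
      nfI Φ ε a u G q.1.1 q.1.2 q.2.1 q.2.2 :=
  (measurable_nfI_joint hΦ hε a hG n).comp (f := fun q : (Config n × Space3) × (ℝ × Space3) =>
    ((q.1.1, (q.1.2, u)), (q.2.1, q.2.2))) (by fun_prop)

theorem norm_sub_le_mul (v u : Space3) : ‖v - u‖ ≤ (1 + ‖v‖) * (1 + ‖u‖) := by
  have := norm_sub_le v u
  nlinarith [norm_nonneg v, norm_nonneg u, mul_nonneg (norm_nonneg v) (norm_nonneg u)]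

/-- Fourth moment. -/
def mom4 (G : Space3 → ℝ≥0∞) : ℝ≥0∞ := ∫⁻ v, G v * ENNReal.ofReal ((1 + ‖v‖) ^ 4)

/-- **The flux form of the near event, fixed gas.** -/
theorem near_flux_w (hΦ : AdmissiblePotential Φ) (hε : 0 < ε) {n : ℕ} {w : Config n}
    (hw : w ∈ PairExcluded ε n) {a te : ℝ} (ha : 0 < a) (u : Space3)
    {G : Space3 → ℝ≥0∞} (hG : Measurable G) :
    ∫⁻ x : Space3, ∫⁻ s in Ioc 0 te, ∫⁻ v : Space3, nfI Φ ε a u G w x s v ≤
      40 * Sweep815.c3 * ENNReal.ofReal te * ENNReal.ofReal a ^ 3 *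
        ENNReal.ofReal ((1 + ‖u‖) ^ 4) * mom4 G * Wt Φ w := by
  have hm := measurable_nfI hΦ hε a u hG n
  have m1 : Measurable fun q : (Space3 × ℝ) × Space3 => nfI Φ ε a u G w q.1.1 q.1.2 q.2 :=
    hm.comp (f := fun q : (Space3 × ℝ) × Space3 => ((w, q.1.1), (q.1.2, q.2))) (by fun_prop)
  have m2 : Measurable fun q : Space3 × ℝ => ∫⁻ v : Space3, nfI Φ ε a u G w q.1 q.2 v :=
    m1.lintegral_prod_right'
  have m3 : ∀ s : ℝ, Measurable fun q : Space3 × Space3 => nfI Φ ε a u G w q.1 s q.2 := fun s =>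
    hm.comp (f := fun q : Space3 × Space3 => ((w, q.1), (s, q.2))) (by fun_prop)
  rw [lintegral_lintegral_swap (f := fun (x : Space3) (s : ℝ) =>
    ∫⁻ v : Space3, nfI Φ ε a u G w x s v) m2.aemeasurable]
  -- fixed `s`, `v`
  have hpt : ∀ (s : ℝ) (v : Space3), ∫⁻ x : Space3, nfI Φ ε a u G w x s v ≤
      40 * Sweep815.c3 * ENNReal.ofReal a ^ 3 * ENNReal.ofReal ((1 + ‖u‖) ^ 4) * Wt Φ w *
        (G v * ENNReal.ofReal ((1 + ‖v‖) ^ 4)) := by
    intro s v
    set r : ℝ := a * (1 + ‖v‖ + ‖u‖) with hr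
    have hv := norm_nonneg v
    have hu := norm_nonneg u
    have hr0 : 0 < r := by positivity
    have hle : r ≤ a * ((1 + ‖v‖) * (1 + ‖u‖)) := by
      rw [hr]
      have : 0 ≤ ‖v‖ * ‖u‖ := mul_nonneg hv hu
      nlinarith
    have hmx : Measurable fun x : Space3 => nearI Φ ε w s a r (x + s • u) :=
      (measurable_nearI hΦ hε a n).comp (f := fun x : Space3 => (w, (s, (r, x + s • u))))
        (by fun_prop)
    have e1 : ∫⁻ x : Space3, nfI Φ ε a u G w x s v =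
        ENNReal.ofReal ‖v - u‖ * (G v * ∫⁻ x : Space3, nearI Φ ε w s a r (x + s • u)) := by
      unfold nfI
      rw [lintegral_const_mul _ (hmx.const_mul _), lintegral_const_mul _ hmx]
    have h2 := lintegral_nearI_le hΦ hε hw (s := s) (a := a) hr0 (s • u)
    have h3 : ENNReal.ofReal r + 4 * ENNReal.ofReal a ≤
        5 * (ENNReal.ofReal a * ENNReal.ofReal ((1 + ‖v‖) * (1 + ‖u‖))) := by
      rw [← ENNReal.ofReal_mul ha.le, ← ENNReal.ofReal_ofNat 4, ← ENNReal.ofReal_ofNat 5,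
        ← ENNReal.ofReal_mul (by norm_num), ← ENNReal.ofReal_mul (by norm_num),
        ← ENNReal.ofReal_add hr0.le (by positivity)]
      refine ENNReal.ofReal_le_ofReal ?_
      have h4 : (1 : ℝ) ≤ (1 + ‖v‖) * (1 + ‖u‖) := by nlinarith [mul_nonneg hv hu]
      nlinarith
    have h5 : ENNReal.ofReal r ^ 2 ≤
        (ENNReal.ofReal a * ENNReal.ofReal ((1 + ‖v‖) * (1 + ‖u‖))) ^ 2 := by
      rw [← ENNReal.ofReal_mul ha.le]
      exact pow_le_pow_left' (ENNReal.ofReal_le_ofReal hle) 2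
    set X : ℝ≥0∞ := ENNReal.ofReal ((1 + ‖v‖) * (1 + ‖u‖)) with hX
    rw [e1]
    calc ENNReal.ofReal ‖v - u‖ * (G v * ∫⁻ x : Space3, nearI Φ ε w s a r (x + s • u))
        ≤ X * (G v * (8 * Sweep815.c3 * (ENNReal.ofReal a * X) ^ 2 *
            (5 * (ENNReal.ofReal a * X)) * Wt Φ w)) := by
          refine mul_le_mul' (ENNReal.ofReal_le_ofReal (norm_sub_le_mul v u))
            (mul_le_mul' le_rfl (h2.trans ?_))
          gcongr
      _ = 40 * Sweep815.c3 * ENNReal.ofReal a ^ 3 * X ^ 4 * Wt Φ w * G v := by ring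
      _ = _ := by
          have e3 : X ^ 4 = ENNReal.ofReal ((1 + ‖v‖) ^ 4) * ENNReal.ofReal ((1 + ‖u‖) ^ 4) := by
            rw [hX, ← ENNReal.ofReal_pow (by positivity), mul_pow,
              ENNReal.ofReal_mul (by positivity)]
          rw [e3]
          ring
  calc ∫⁻ s in Ioc 0 te, ∫⁻ x : Space3, ∫⁻ v : Space3, nfI Φ ε a u G w x s v
      = ∫⁻ s in Ioc 0 te, ∫⁻ v : Space3, ∫⁻ x : Space3, nfI Φ ε a u G w x s v := by
        refine lintegral_congr fun s => ?_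
        exact lintegral_lintegral_swap (m3 s).aemeasurable
    _ ≤ ∫⁻ _ in Ioc 0 te, 40 * Sweep815.c3 * ENNReal.ofReal a ^ 3 *
          ENNReal.ofReal ((1 + ‖u‖) ^ 4) * Wt Φ w * mom4 G := by
        refine lintegral_mono fun s => ?_
        refine (lintegral_mono fun v => hpt s v).trans (le_of_eq ?_)
        have hGm : Measurable fun v : Space3 => G v * ENNReal.ofReal ((1 + ‖v‖) ^ 4) :=
          hG.mul (by fun_prop)
        rw [lintegral_const_mul _ hGm]
        rfl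
    _ = _ := by
        rw [setLIntegral_const, Real.volume_Ioc, sub_zero]
        ring

/-- **The flux form of the near event.** -/
theorem near_flux_le (hΦ : AdmissiblePotential Φ) (hf : Measurable f₀)
    (h1 : ∫⁻ z, ENNReal.ofReal (f₀ z) ≤ 1) (hε : 0 < ε) {a te : ℝ} (ha : 0 < a) (u : Space3)
    {G : Space3 → ℝ≥0∞} (hG : Measurable G) (hGt : mom4 G ≠ ∞) :
    ∫⁻ x : Space3, gcE f₀ ε (fun _ w => ∫⁻ s in Ioc 0 te, ∫⁻ v : Space3,
        nfI Φ ε a u G w x s v) ≤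
      40 * Sweep815.c3 * ENNReal.ofReal te * ENNReal.ofReal a ^ 3 *
        ENNReal.ofReal ((1 + ‖u‖) ^ 4) * mom4 G * (ENNReal.ofReal (1 + 2 * stabB Φ) *
      (activity ε * ∫⁻ z, ENNReal.ofReal (f₀ z) * ENNReal.ofReal (1 + ‖z.2‖ ^ 2))) := by
  have hc3 : Sweep815.c3 ≠ ∞ := ENNReal.ofReal_ne_top
  have hms : ∀ n, Measurable (Function.uncurry fun (x : Space3) (w : Config n) =>
      ∫⁻ s in Ioc 0 te, ∫⁻ v : Space3, nfI Φ ε a u G w x s v) := by
    intro n
    have hm := measurable_nfI hΦ hε a u hG n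
    have m1 : Measurable fun q : ((Space3 × Config n) × ℝ) × Space3 =>
        nfI Φ ε a u G q.1.1.2 q.1.1.1 q.1.2 q.2 :=
      hm.comp (f := fun q : ((Space3 × Config n) × ℝ) × Space3 =>
        ((q.1.1.2, q.1.1.1), (q.1.2, q.2))) (by fun_prop)
    have m2 : Measurable fun q : (Space3 × Config n) × ℝ =>
        ∫⁻ v : Space3, nfI Φ ε a u G q.1.2 q.1.1 q.2 v := m1.lintegral_prod_right'
    exact m2.lintegral_prod_right'
  rw [BadHit370.lintegral_gcE hf ε volume hms]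
  set c : ℝ≥0∞ := 40 * Sweep815.c3 * ENNReal.ofReal te * ENNReal.ofReal a ^ 3 *
        ENNReal.ofReal ((1 + ‖u‖) ^ 4) * mom4 G with hc
  have hct : c ≠ ∞ := by
    rw [hc]
    refine ENNReal.mul_ne_top (ENNReal.mul_ne_top (ENNReal.mul_ne_top (ENNReal.mul_ne_top
      (ENNReal.mul_ne_top (by norm_num) hc3) ENNReal.ofReal_ne_top)
      (ENNReal.pow_ne_top ENNReal.ofReal_ne_top)) ENNReal.ofReal_ne_top) hGt
  calc gcE f₀ ε (fun n w => ∫⁻ x : Space3, ∫⁻ s in Ioc 0 te, ∫⁻ v : Space3,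
        nfI Φ ε a u G w x s v)
      ≤ gcE f₀ ε (fun _ w => c * Wt Φ w) :=
        gcE_mono f₀ ε fun n w hw => near_flux_w hΦ hε hw ha u hG
    _ = c * gcE f₀ ε (fun _ w => Wt Φ w) := gcE_const_mul f₀ ε hct _
    _ ≤ _ := mul_le_mul' le_rfl (gcE_Wt_le hf h1 ε)

end Crest.Agent.R122.Third741
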