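import Crest.Agent.R122.TopF_602
import Crest.Agent.R122.NEK_602
import Crest.Agent.R122.GoodBad2_167
import Crest.Agent.R122.Mid2_317

/-!
# Row 122: the input `BadIn` of section F (helper602)

* `D5In` : the statement of section D5 (real clusters are trees) at gas level.
* `NGCIn`, `RGCIn` : the Mecke forms of D5 and of H12 at the end of a window.
* `nekIn_of` : first-moment no escape at the end of the window.
* `badIn_of` : bad first hits are rare.
-/

set_option autoImplicit false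

open MeasureTheory Set Filter Topology
open scoped ENNReal
open Crest.AnalysisR.Kinetic
open Crest.Agent.R122.Master566 Crest.Agent.R122.EDefs602 Crest.Agent.R122.GIV566

namespace Crest.Agent.R122.Top602

noncomputable section

/-- **Section D5**: real clusters of at most `K` particles are trees, gas level. -/
def D5In (Φ : Space3 → ℝ) (f₀ : PhasePoint → ℝ) : Prop :=
  ∀ te T' : ℝ, 0 ≤ te → te < T' → ∀ K : ℕ, Mid317.NGin Φ f₀ T' te K

/-- D5 in Mecke form. -/
def NGCIn (Φ : Space3 → ℝ) (f₀ : PhasePoint → ℝ) : Prop :=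
  ∀ te T' : ℝ, 0 ≤ te → te < T' → SizeX974.NGC Φ f₀ te T'

/-- For short windows and horizons `T'` slightly larger than the end of the window. -/
def InWT (T : ℝ) (Q : ℝ → ℝ → ℝ → Prop) : Prop :=
  ∃ h : ℝ, 0 < h ∧ ∀ tw te T' : ℝ, Win h T tw te → te < T' → T' ≤ te + h → Q tw te T'

theorem InWT.and {T : ℝ} {Q Q' : ℝ → ℝ → ℝ → Prop} (h : InWT T Q) (h' : InWT T Q') :
    InWT T fun tw te T' => Q tw te T' ∧ Q' tw te T' := by
  obtain ⟨a, ha, h⟩ := h
  obtain ⟨b, hb, h'⟩ := h'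
  exact ⟨min a b, lt_min ha hb, fun tw te T' hw h1 h2 =>
    ⟨h tw te T' (hw.mono (min_le_left _ _)) h1 (h2.trans (by linarith [min_le_left a b])),
      h' tw te T' (hw.mono (min_le_right _ _)) h1 (h2.trans (by linarith [min_le_right a b]))⟩⟩

theorem InWT.mono {T : ℝ} {Q Q' : ℝ → ℝ → ℝ → Prop} (h : InWT T Q)
    (hq : ∀ tw te T' : ℝ, 0 ≤ tw → tw ≤ te → te ≤ T → te < T' → Q tw te T' → Q' tw te T') :
    InWT T Q' := by
  obtain ⟨a, ha, h⟩ := h
  exact ⟨a, ha, fun tw te T' hw h1 h2 =>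
    hq tw te T' hw.nonneg hw.le hw.le_T h1 (h tw te T' hw h1 h2)⟩

/-- H12 in Mecke form, for the windows of section F. -/
def RGCIn (Φ : Space3 → ℝ) (f₀ : PhasePoint → ℝ) (f : ℝ → PhasePoint → ℝ) (T : ℝ) : Prop :=
  InL T fun γ ρ => InWT T fun tw te T' => FHyp Φ f₀ f T γ ρ tw te → SizeX974.RGC Φ f₀ tw te T'

/-- First-moment no escape at the end of the windows of section F. -/
def NEKIn (Φ : Space3 → ℝ) (f₀ : PhasePoint → ℝ) (f : ℝ → PhasePoint → ℝ) (T : ℝ) : Prop :=
  InL T fun γ ρ => InW T fun tw te => FHyp Φ f₀ f T γ ρ tw te → EW370.NEK Φ f₀ te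

variable {Φ : Space3 → ℝ} {β T : ℝ} {f₀ : PhasePoint → ℝ} {f : ℝ → PhasePoint → ℝ}

theorem nekIn_of (hD : KData Φ β T f₀ f) (hN : NGCIn Φ f₀) (hR : RGCIn Φ f₀ f T) :
    NEKIn Φ f₀ f T := by
  obtain ⟨h₀, hh₀, key⟩ := NEK602.exists_nek hD
  refine InL.mono hR fun γ ρ _ h => ?_
  obtain ⟨a, ha, h⟩ := h
  set b : ℝ := min a (h₀ / 2) with hb
  have hb0 : 0 < b := lt_min ha (by positivity)
  have hba : b ≤ a := min_le_left _ _
  have hbh : b ≤ h₀ / 2 := min_le_right _ _
  refine ⟨b, hb0, fun tw te hw hyp => ?_⟩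
  have hR' := h tw te (te + b) (hw.mono hba) (by linarith) (by linarith) hyp
  refine key tw ⟨hw.nonneg, hw.le.trans hw.le_T⟩ te (te + b) hw.le (by linarith) ?_ hyp.ih.giv
    (hN te (te + b) (hw.nonneg.trans hw.le) (by linarith)) hR' hyp.je
  have := hw.short
  linarith

/-- The second moment of the initial density. -/
theorem sq_ne_top (hD : KData Φ β T f₀ f) :
    ∫⁻ z, ENNReal.ofReal (f₀ z) * ENNReal.ofReal (‖z.2‖ ^ 2) ≠ ∞ := by
  have h := (Mom974.lintegral_f0_weight_ne_top (by linarith [hD.beta_pos] : 0 < 2 * β)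
    hD.gaussian).1
  refine ne_top_of_le_ne_top h (lintegral_mono fun z => ?_)
  refine mul_le_mul_right (ENNReal.ofReal_le_ofReal ?_) _
  linarith

/-- **Bad first hits are rare**, from D5 and H12. -/
theorem badIn_of (hD : KData Φ β T f₀ f) (hD5 : D5In Φ f₀) (hN : NGCIn Φ f₀)
    (hR : RGCIn Φ f₀ f T) : BadIn Φ f₀ f T := by
  have hfm : Measurable f₀ := hD.contDiff.continuous.measurable
  have hmass : ∫⁻ z, ENNReal.ofReal (f₀ z) ≤ 1 :=
    (FM167.lintegral_density_eq_one hD.nonneg hD.integrable hD.mass).le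
  have hg : 0 < 2 * β := by linarith [hD.beta_pos]
  refine InL.mono (nekIn_of hD hN hR) fun γ ρ _ h => ?_
  refine InW.mono h fun tw te h0 hle hT hh hyp t ht => ?_
  have hN' : EW370.NEK Φ f₀ t := NEK370.NEK_mono (hh hyp) ht.2
  have hte : 0 ≤ te := h0.trans hle
  have hG : Hit167.NGq Φ f₀ t := by
    intro K M d hd
    exact Mid317.ngq_of hD.adm hfm hmass hg hD.gaussian (T' := te + 1) (t := t)
      (by linarith [ht.2]) (fun K => by
        obtain ⟨B, h1, h2, h3, e0, he0, h4⟩ := hD5 te (te + 1) hte (by linarith) K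
        exact ⟨B, h1, h2, h3, e0, he0, fun ε hε hlt n X hX i u hu =>
          h4 ε hε hlt n X hX i u ⟨hu.1, hu.2.trans ht.2⟩⟩) K M hd
  exact Hit167.badSmall_of hfm hmass (sq_ne_top hD) hD.adm h0 ht.1 (ht.2.trans hT) hN' hG

end

end Crest.Agent.R122.Top602
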