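import Crest.Agent.R122.TopV_602
import Crest.Agent.R122.TopR_602
import Crest.Agent.R122.RetTop_424
import Crest.Agent.R122.GIVStepIn_383

/-!
# Row 122: the open inputs of S0162 (helper602)

* `OpenIn` : the inputs of S0162 that are not proved yet.
* `result_of_open` : S0162 from `OpenIn`.
-/

set_option autoImplicit false

open MeasureTheory Set Filter Topology
open scoped ENNReal
open Crest.AnalysisR.Kinetic
open Crest.Agent.R122.Master566 Crest.Agent.R122.EDefs602 Crest.Agent.R122.GIV566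

namespace Crest.Agent.R122.Top602

noncomputable section

/-- The remaining inputs of S0162. -/
structure OpenIn (Φ : Space3 → ℝ) (β T : ℝ) (f₀ : PhasePoint → ℝ) (f : ℝ → PhasePoint → ℝ) :
    Prop where
  /-- the inequalities of section E -/
  eIn : EIn Φ f₀ f T
  /-- the volume statement of section D5 -/
  vol : D5Vol Φ β
  /-- the input (C) of section F -/
  err : ErrIn Φ f₀ f T
  /-- the null facts for forests -/
  ret : Ret424.RetFacts Φ f₀ T

/-- **The statement of S0162 from the open inputs.** -/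
theorem result_of_open
    (H : ∀ (Φ : Space3 → ℝ) (β T : ℝ) (f₀ : PhasePoint → ℝ) (f : ℝ → PhasePoint → ℝ),
      KData Φ β T f₀ f → OpenIn Φ β T f₀ f)
    (Φ : Space3 → ℝ) (hΦ : AdmissiblePotential Φ) (β : ℝ) (hβ : 0 < β) (T : ℝ) (hT : 0 < T)
    (f₀ : PhasePoint → ℝ) (hf₀ : ∀ z, 0 ≤ f₀ z) (hf₀d : ContDiff ℝ 1 f₀)
    (hf₀i : Integrable f₀) (hf₀m : ∫ z, f₀ z = 1)
    (hf₀b : HasSummableGaussianBound (2 * β) (fun x v => f₀ (x, v)))
    (hf₀g : HasSummableGaussianBound (2 * β) (fun x v => fderiv ℝ (fun y => f₀ (y, v)) x))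
    (f : ℝ → PhasePoint → ℝ) (hf : IsRegularKineticSolution Φ β T f₀ f)
    (Ψ : ℝ → (n : ℕ) → ℝ → Config n → Config n)
    (hΨ : ∀ ε : ℝ, 0 < ε → IsNewtonianEvolution Φ ε (Ψ ε))
    (s : ℕ) (hs : 1 ≤ s) (δ : ℝ) (hδ : 0 < δ) :
    ∃ ε₀ : ℝ, 0 < ε₀ ∧ ∀ ε : ℝ, 0 < ε → ε < ε₀ → ∀ t ∈ Set.Icc 0 T,
      ∀ A : Set (Config s), MeasurableSet A →
        factorialMarginal f₀ ε (Ψ ε) s t A ≤
            (∫⁻ Z in A, ∏ k, ENNReal.ofReal (f t (Z k))) + ENNReal.ofReal δ ∧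
          (∫⁻ Z in A, ∏ k, ENNReal.ofReal (f t (Z k))) ≤
            factorialMarginal f₀ ε (Ψ ε) s t A + ENNReal.ofReal δ :=
  result_of_inputs (fun Φ β T f₀ f hD => (H Φ β T f₀ f hD).eIn)
    (fun Φ β T f₀ f hD => fIn_of hD (badIn_of_vol hD (H Φ β T f₀ f hD).vol)
      (H Φ β T f₀ f hD).err)
    (fun Φ β T f₀ f hD => Ret424.retIn_of_facts hD (H Φ β T f₀ f hD).ret)
    Φ hΦ β hβ T hT f₀ hf₀ hf₀d hf₀i hf₀m hf₀b hf₀g f hf Ψ hΨ s hs δ hδ

end

end Crest.Agent.R122.Top602
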