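import Crest.Agent.R122.TopJ_602
import Crest.Agent.R122.LnNClose_291

/-!
# Row 122: S0162 from its two open inputs (helper602)

`result_of_two` : S0162 from `Link4In` (INEQUALITY 1) and `I3In` (INEQUALITY 3).
-/

set_option autoImplicit false

open MeasureTheory Set Filter Topology
open scoped ENNReal
open Crest.AnalysisR.Kinetic
open Crest.Agent.R122.Master566 Crest.Agent.R122.EDefs602 Crest.Agent.R122.GIV566

namespace Crest.Agent.R122.Top602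

noncomputable section

theorem open122_of {Φ : Space3 → ℝ} {β T : ℝ} {f₀ : PhasePoint → ℝ}
    {f : ℝ → PhasePoint → ℝ} (hD : KData Φ β T f₀ f) (h1 : Ineq1815.Link4In Φ f₀ f T)
    (h3 : I3In Φ f₀ f T) : Open122 Φ T f₀ f :=
  ⟨h1, LnN291.ftg hD, LnN291.flg hD, h3⟩

/-- **The statement of S0162 from its two open inputs.** -/
theorem result_of_two
    (H1 : ∀ (Φ : Space3 → ℝ) (β T : ℝ) (f₀ : PhasePoint → ℝ) (f : ℝ → PhasePoint → ℝ),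
      KData Φ β T f₀ f → Ineq1815.Link4In Φ f₀ f T)
    (H3 : ∀ (Φ : Space3 → ℝ) (β T : ℝ) (f₀ : PhasePoint → ℝ) (f : ℝ → PhasePoint → ℝ),
      KData Φ β T f₀ f → I3In Φ f₀ f T)
    (Φ : Space3 → ℝ) (hΦ : AdmissiblePotential Φ) (β : ℝ) (hβ : 0 < β) (T : ℝ) (hT : 0 < T)
    (f₀ : PhasePoint → ℝ) (hf₀ : ∀ z, 0 ≤ f₀ z) (hf₀d : ContDiff ℝ 1 f₀)
    (hf₀i : Integrable f₀) (hf₀m : ∫ z, f₀ z = 1)
    (hf₀b : HasSummableGaussianBound (2 * β) (fun x v => f₀ (x, v)))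
    (hf₀g : HasSummableGaussianBound (2 * β) (fun x v => fderiv ℝ (fun y => f₀ (y, v)) x))
    (f : ℝ → PhasePoint → ℝ) (hf : IsRegularKineticSolution Φ β T f₀ f)
    (Ψ : ℝ → (n : ℕ) → ℝ → Config n → Config n)
    (hΨ : ∀ ε : ℝ, 0 < ε → IsNewtonianEvolution Φ ε (Ψ ε))
    (s : ℕ) (hs : 1 ≤ s) (δ : ℝ) (hδ : 0 < δ) :
    ∃ ε₀ : ℝ, 0 < ε₀ ∧ ∀ ε : ℝ, 0 < ε → ε < ε₀ → ∀ t ∈ Set.Icc 0 T,
      ∀ A : Set (Config s), MeasurableSet A →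
        factorialMarginal f₀ ε (Ψ ε) s t A ≤
            (∫⁻ Z in A, ∏ k, ENNReal.ofReal (f t (Z k))) + ENNReal.ofReal δ ∧
          (∫⁻ Z in A, ∏ k, ENNReal.ofReal (f t (Z k))) ≤
            factorialMarginal f₀ ε (Ψ ε) s t A + ENNReal.ofReal δ :=
  result_of_open122 (fun Φ β T f₀ f hD => open122_of hD (H1 Φ β T f₀ f hD) (H3 Φ β T f₀ f hD))
    Φ hΦ β hβ T hT f₀ hf₀ hf₀d hf₀i hf₀m hf₀b hf₀g f hf Ψ hΨ s hs δ hδ

end

end Crest.Agent.R122.Top602
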