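import Crest.Agent.R122.UnlC_263
import Crest.Agent.R122.Decomp3E_811

/-!
# The successor `c` of E6, reborn at the exit time of the encounter (row 122, H5), helper263

* `cases3_weight'` : helper811's trichotomy; in the case (C) of the root the time `bc` is at most `uL`.
* `touchP_leA'` : the pointwise inequality of E6 with `touchPF w₂ d F r` = `touchP w₂ d (F r)` on the
  event that the root is the first line of `F` touching `w₂ + d`.
* `touchPF_le_reb` : `touchPF w₂ d F r ≤ touchP w₂ d (reb (F r) u)`, if the root line has no contact up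
  to `u` in the world `w₂ + d + exits + F r`.
-/

set_option autoImplicit false
set_option linter.unusedSectionVars false

open MeasureTheory Set Filter Topology
open scoped ENNReal
open Crest.AnalysisR.Kinetic
open Crest.Agent.R122.EDefs602 Crest.Agent.R122.MWAlg255 Crest.Agent.R122.Weight984
open Crest.Agent.R122.MWFam255 Crest.Agent.R122.Decomp811 Crest.Agent.R122.Ins45

namespace Crest.Agent.R122.UnlC263

noncomputable section

open scoped Classical

/-! ### The trichotomy -/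

section weights

variable {Ω : Type*} [MeasurableSpace Ω]

/-- **E6, trichotomy with weights**; in the case (C) of the root, `bc ≤ uL`. -/
theorem cases3_weight' {t : Times} (h : t.Facts) (h12 : t.θ₁ ≤ t.θ₂) {ν : Measure Ω}
    {L : ℝ} (hL : 0 < L) {τw τwd τw₂ τw₂d : Ω → ℝ} {N₂ N₃ N₄ : Set Ω}
    (c₂ : Cons1 τw₂ τw t.tL N₂) (c₃ : Cons1 τw₂ τw₂d t.td N₃) (c₄ : Cons1 τw₂d τwd t.uL N₄) :
    CaseA L ν τw τw₂ N₂ t (om L ν τw τwd t.θ₁ t.θ₂) ∨
    CaseB L ν τw₂ τw₂d N₂ N₃ N₄ t (om L ν τw τwd t.θ₁ t.θ₂) ∨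
    (CaseC L ν τw₂ τw₂d N₂ N₄ t (om L ν τw τwd t.θ₁ t.θ₂) t.bc ∧ t.bc ≤ t.uL) ∨
    CaseC L ν τw₂ τw₂d N₂ N₄ t (om L ν τw τwd t.θ₁ t.θ₂) t.be ∨
    CaseC L ν τw₂ τw₂d N₂ N₄ t (om L ν τw τwd t.θ₁ t.θ₂) t.bc' := by
  have hC : ∀ b, t.td = t.θ₁ → t.θ₁ ≤ t.fA → t.θ₁ ≤ b → b ≤ t.θ₂ → b ≤ t.uL →
      CaseC L ν τw₂ τw₂d N₂ N₄ t (om L ν τw τwd t.θ₁ t.θ₂) b := by
    intro b h1 h2 h3 h4 h5
    refine ⟨h1, h3, h4, h5, ?_⟩
    unfold om
    have e1 : W L (XR ν τw t.θ₁) ≤ W L (XR ν τw₂ t.θ₁) + ENNReal.ofReal L * ν N₂ :=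
      c₂.W_XR_le hL (h2.trans h.fA_le)
    have e2 : W L (XRm ν τwd t.θ₂) ≤ W L (XRm ν τw₂d b) + ENNReal.ofReal L * ν N₄ :=
      (W_anti hL.le (XRm_mono h4)).trans (c₄.W_XRm_le hL h5)
    rw [h1, ← min_add_add_right]
    refine min_le_min (e1.trans ?_) (e2.trans ?_)
    · gcongr; exact le_self_add
    · gcongr; exact le_add_self
  rcases t.cases3 h h12 with h1 | ⟨h1, h2, h3, h4, h5⟩ | ⟨h1, h2, h3⟩
  · exact Or.inl ⟨h1, min_le_left _ _, c₂.W_XR_le hL h.fA_le⟩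
  · refine Or.inr (Or.inl ⟨h1, h2, h3, h4, ?_, c₃.W_XRm_le hL h1.ge⟩)
    unfold om
    have e1 : W L (XR ν τw t.θ₁) ≤ W L (XR ν τw₂ t.θ₁) + ENNReal.ofReal L * ν N₂ :=
      c₂.W_XR_le hL (h2.trans h.fA_le)
    have e2 : W L (XRm ν τwd t.θ₂) ≤ W L (XR ν τw₂d t.fE) + ENNReal.ofReal L * ν N₄ :=
      (W_anti hL.le (XR_le_XRm h4)).trans (c₄.W_XR_le hL h5)
    rw [h1, ← min_add_add_right]
    refine min_le_min (e1.trans ?_) (e2.trans ?_)
    · gcongr; exact le_self_add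
    · gcongr; exact le_add_self
  · rcases h3 with ⟨k1, k2, k3⟩ | ⟨k1, k2, k3⟩ | ⟨k1, k2, k3⟩
    · exact Or.inr (Or.inr (Or.inl ⟨hC _ h1 h2 k1 k2 k3, k3⟩))
    · exact Or.inr (Or.inr (Or.inr (Or.inl (hC _ h1 h2 k1 k2 k3))))
    · exact Or.inr (Or.inr (Or.inr (Or.inr (hC _ h1 h2 k1 k2 k3))))

end weights

variable {ι κ lam ξ : Type} [Fintype ι] [Fintype κ] [Fintype lam] [Fintype ξ]

/-- `touchP w₂ d (F r)` on the event that the root line is the first line of `F` touching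
`w₂ + d`. -/
def touchPF (Φ : Space3 → ℝ) (ε : ℝ) (K : ℕ) (P : EPar) (w₂ : MW ι) (d : ML) (F : κ → ML) (r : κ) :
    ℝ≥0∞ :=
  if (w₂.ins d).thetaL Φ ε K P.te (F r) ≤ firstT Φ ε K P.te (w₂.ins d) F then
    w₂.touchP Φ ε K P d (F r) else 0

variable {Φ : Space3 → ℝ} {ε : ℝ} {K : ℕ} {T : ℝ} {w₂ : MW ι} {A : MW ξ} {F : κ → ML} {r : κ}
  {d e e' c' : ML}

/-- **E6, pointwise inequality**, for an arbitrary inserted object `A` of `D₂`; the root line occurs
only if it touches `w₂ + d` first. -/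
theorem touchP_leA' {P : EPar} (hL : 0 < P.L) (h : E6FactsA Φ ε K P.te w₂ A F r d e e' c')
    (hrel : RelW Φ ε K P.te w₂ A d) :
    (w₂.add A).touchP Φ ε K P d e ≤
      termA Φ ε K P w₂ A F d +
      ∑ k ∈ Finset.univ.filter (fun k => k ≠ r), termB Φ ε K P w₂ d (F k) +
      (touchPF Φ ε K P w₂ d F r + w₂.touchP Φ ε K P d e' + w₂.touchP Φ ε K P d c') +
      (lk Φ ε K P w₂ A F + lk Φ ε K P (w₂.ins d) A F) *
        touch1 Φ ε K P w₂ d := by
  set t := timesA Φ ε K P.te w₂ A F r d e e' c' with ht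
  set ν := lineM P.γ P.ρ K P.te with hν
  by_cases hc : P.tw < (w₂.add A).thetaL Φ ε K P.te d ∧
      (w₂.add A).thetaL Φ ε K P.te d ≤
        ((w₂.add A).ins d).thetaL Φ ε K P.te e ∧
      ((w₂.add A).ins d).thetaL Φ ε K P.te e ≤ P.te
  swap
  · have h0 : (w₂.add A).touchP Φ ε K P d e = 0 := by
      unfold MW.touchP
      rw [if_neg hc]
    rw [h0]
    exact bot_le
  obtain ⟨hc1, hc2, hc3⟩ := hc
  have h12 : t.θ₁ ≤ t.θ₂ := hc2
  have c₂ : Cons1 (w₂.thetaL Φ ε K P.te) ((w₂.add A).thetaL Φ ε K P.te) t.tL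
      (badF Φ ε K P.te w₂ A F) := cons1_badF ..
  have c₃ : Cons1 (w₂.thetaL Φ ε K P.te) ((w₂.ins d).thetaL Φ ε K P.te) t.td
      (badN Φ ε K P.te w₂ (MW.line d)) := cons1_badN ..
  have c₄ : Cons1 ((w₂.ins d).thetaL Φ ε K P.te)
      (((w₂.add A).ins d).thetaL Φ ε K P.te) t.uL
      (badF Φ ε K P.te (w₂.ins d) A F) := by
    have h1 := cons1_badF Φ ε K P.te (w₂.ins d) A F
    refine ⟨fun l hl hle => ?_⟩
    rw [hrel l]
    exact h1.le l hl hle
  have hom : (w₂.add A).touchP Φ ε K P d e =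
      om P.L ν ((w₂.add A).thetaL Φ ε K P.te)
        (((w₂.add A).ins d).thetaL Φ ε K P.te) t.θ₁ t.θ₂ := by
    unfold MW.touchP
    rw [if_pos ⟨hc1, hc2, hc3⟩]
    rfl
  rw [hom]
  have hCgen : ∀ (l : ML) (b : ℝ), b = (w₂.ins d).thetaL Φ ε K P.te l →
      CaseC P.L ν (w₂.thetaL Φ ε K P.te) ((w₂.ins d).thetaL Φ ε K P.te)
        (badF Φ ε K P.te w₂ A F) (badF Φ ε K P.te (w₂.ins d) A F) t
        (om P.L ν ((w₂.add A).thetaL Φ ε K P.te)
        (((w₂.add A).ins d).thetaL Φ ε K P.te) t.θ₁ t.θ₂) b →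
      om P.L ν ((w₂.add A).thetaL Φ ε K P.te)
        (((w₂.add A).ins d).thetaL Φ ε K P.te) t.θ₁ t.θ₂ ≤
      w₂.touchP Φ ε K P d l + (lk Φ ε K P w₂ A F +
        lk Φ ε K P (w₂.ins d) A F) * touch1 Φ ε K P w₂ d := by
    rintro l b rfl ⟨h1, h2, h3, -, h4⟩
    have htd : w₂.thetaL Φ ε K P.te d = (w₂.add A).thetaL Φ ε K P.te d := h1
    have hP : w₂.touchP Φ ε K P d l = om P.L ν (w₂.thetaL Φ ε K P.te)
        ((w₂.ins d).thetaL Φ ε K P.te) t.td ((w₂.ins d).thetaL Φ ε K P.te l) := by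
      unfold MW.touchP
      rw [if_pos ⟨by rw [htd]; exact hc1, by rw [htd]; exact h2, h3.trans hc3⟩]
      rfl
    have h1' : touch1 Φ ε K P w₂ d = 1 := by
      unfold touch1
      rw [if_pos ⟨by rw [htd]; exact hc1, by rw [htd]; exact hc2.trans hc3⟩]
    rw [hP, h1', mul_one]
    refine h4.trans (le_of_eq ?_)
    unfold lk
    rw [← hν, mul_add]
  rcases cases3_weight' h.facts h12 hL (ν := ν) c₂ c₃ c₄ with h1 | h1 | h1 | h1 | h1
  · -- (A)
    obtain ⟨h2, h3, _⟩ := h1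
    have hA : om P.L ν ((w₂.add A).thetaL Φ ε K P.te)
        (((w₂.add A).ins d).thetaL Φ ε K P.te) t.θ₁ t.θ₂ ≤ termA Φ ε K P w₂ A F d := by
      unfold termA
      rw [if_pos ⟨h2, hc2.trans hc3⟩]
      exact h3
    calc _ ≤ termA Φ ε K P w₂ A F d := hA
      _ ≤ _ := by
        rw [add_assoc, add_assoc]
        exact le_self_add
  · -- (B)
    obtain ⟨h2, h2', h3, h4, h5, _⟩ := h1
    have htd : w₂.thetaL Φ ε K P.te d = (w₂.add A).thetaL Φ ε K P.te d := h2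
    have hfT : t.fE ≤ P.te := h4.le.trans hc3
    obtain ⟨⟨k, hkr⟩, hk⟩ := exists_firstT (Z := w₂.ins d) (F := exF F r) (Φ := Φ) (ε := ε)
      (K := K) (T := P.te) (lt_of_le_of_lt hfT (by linarith))
    have hk' : (w₂.ins d).thetaL Φ ε K P.te (F k) = t.fE := hk
    have hdk : w₂.thetaL Φ ε K P.te d ≤ (w₂.ins d).thetaL Φ ε K P.te (F k) := by
      rw [hk', htd]
      exact h3
    have h1' : touch1 Φ ε K P w₂ d = 1 := by
      unfold touch1
      rw [if_pos ⟨by rw [htd]; exact hc1, by rw [htd]; exact hc2.trans hc3⟩]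
    have hB : min (W P.L (XR ν (w₂.thetaL Φ ε K P.te) t.td))
        (W P.L (XR ν ((w₂.ins d).thetaL Φ ε K P.te) t.fE)) ≤ termB Φ ε K P w₂ d (F k) := by
      unfold termB
      rw [if_pos ⟨by rw [htd]; exact hc1, hdk, hk'.le.trans hfT⟩]
      exact min_le_min le_rfl (W_anti hL.le (XR_mono hk'.le))
    have hsum : termB Φ ε K P w₂ d (F k) ≤
        ∑ k ∈ Finset.univ.filter (fun k => k ≠ r), termB Φ ε K P w₂ d (F k) :=
      Finset.single_le_sum (f := fun k => termB Φ ε K P w₂ d (F k)) (fun _ _ => zero_le)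
        (by simp [hkr])
    calc _ ≤ min (W P.L (XR ν (w₂.thetaL Φ ε K P.te) t.td))
            (W P.L (XR ν ((w₂.ins d).thetaL Φ ε K P.te) t.fE)) +
          ENNReal.ofReal P.L * (ν (badF Φ ε K P.te w₂ A F) +
            ν (badF Φ ε K P.te (w₂.ins d) A F)) := h5
      _ ≤ (∑ k ∈ Finset.univ.filter (fun k => k ≠ r), termB Φ ε K P w₂ d (F k)) +
          (lk Φ ε K P w₂ A F + lk Φ ε K P (w₂.ins d) A F) *
            touch1 Φ ε K P w₂ d := by
          rw [h1', mul_one]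
          refine add_le_add (hB.trans hsum) (le_of_eq ?_)
          unfold lk
          rw [← hν, mul_add]
      _ ≤ _ := by
          gcongr ?_ + _
          rw [add_assoc]
          exact le_add_of_nonneg_of_le zero_le le_self_add
  · have h2 := hCgen (F r) t.bc rfl h1.1
    have h3 : w₂.touchP Φ ε K P d (F r) = touchPF Φ ε K P w₂ d F r := by
      unfold touchPF
      rw [if_pos (show (w₂.ins d).thetaL Φ ε K P.te (F r) ≤ firstT Φ ε K P.te (w₂.ins d) F from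
        h1.2)]
    rw [h3] at h2
    refine h2.trans ?_
    gcongr ?_ + _
    refine le_trans ?_ le_add_self
    rw [add_assoc]
    exact le_self_add
  · have h2 := hCgen e' t.be rfl h1
    refine h2.trans ?_
    gcongr ?_ + _
    refine le_trans ?_ le_add_self
    exact le_add_self.trans le_self_add
  · have h2 := hCgen c' t.bc' rfl h1
    refine h2.trans ?_
    gcongr ?_ + _
    exact le_add_self.trans le_add_self

/-! ### The reborn root line -/

/-- **A line which touches before the other lines of its family and has no contact up to `u` in the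
world with these lines**: it touches after `u`, at the same time as the line reborn at `u`. -/
theorem thetaL_reb_first (hΦ : AdmissiblePotential Φ) (hε : 0 < ε) (hT : 0 ≤ T) {Z : MW ι} {u : ℝ}
    (hok : MW.OkFam Φ ε Z F) (hnl : PairNL Φ ε K T Z F) (hborn : ∀ k, 0 ≤ Z.b k)
    (h0 : 0 ≤ (F r).1.1) (hru : (F r).1.1 ≤ u) (hm : (F r).2 ≤ K)
    (hf : Z.thetaL Φ ε K T (F r) ≤ firstT Φ ε K T Z (exF F r))
    (hno : ∀ t k, t ≤ u → ¬ ((Z.add (MW.lines (exF F r))).ins (F r)).C Φ ε t (Sum.inr ())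
      (Sum.inl (Sum.inl k))) (hle : Z.thetaL Φ ε K T (F r) ≤ T) :
    u < Z.thetaL Φ ε K T (F r) ∧
      Z.thetaL Φ ε K T (reb (F r) u) = Z.thetaL Φ ε K T (F r) := by
  set ex : {k : κ // k ≠ r} ↪ κ := Function.Embedding.subtype _ with hex
  have hfg : ∀ (i : Unit) (j : {k : κ // k ≠ r}), uEmb r i ≠ ex j := fun _ j h => j.2 h.symm
  have h4 : Ok4 Φ ε Z (MW.line (F r)) (MW.lines (exF F r)) :=
    ⟨hok.base hΦ hε, hok.line hΦ hε r, (okFam_comp hΦ hε hok ex).lines hΦ hε,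
      ok_lines_add hΦ hε hok (uEmb r) ex hfg⟩
  have hNL : MW.NoLink Φ ε K T Z (MW.line (F r)) (MW.lines (exF F r)) :=
    noLink_lines hΦ hε hT hok hnl (uEmb r) ex hfg
  have hθE : Z.thetaL Φ ε K T (F r) ≤ Z.theta Φ ε K T (MW.lines (exF F r)) := by
    have h1 : Z.theta Φ ε K T (MW.lines (exF F r)) = firstT Φ ε K T Z (exF F r) :=
      theta_lines_eq hΦ hε hT hok hnl ex
    rw [h1]
    exact hf
  have hθ0 : 0 ≤ Z.thetaL Φ ε K T (F r) := MW.theta_nonneg hT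
  have hno' : ∀ t k, t ≤ u → ¬ ((Z.add (MW.line (F r))).add (MW.lines (exF F r))).C Φ ε t
      (Sum.inl (Sum.inr ())) (Sum.inl (Sum.inl k)) := by
    intro t k ht hc
    rw [← swap_comap, C_comap hΦ hε] at hc
    exact hno t k ht hc
  have hlt : u < Z.thetaL Φ ε K T (F r) := by
    by_contra hcon
    rw [not_lt] at hcon
    have hn := h4.noLink (K := K) hΦ hε hle le_rfl hθE (hNL _ hθ0 hle le_rfl hθE)
    obtain ⟨q, hq, x, k, hc⟩ := MW.exists_contact_le_theta (K := K) (T := T) hΦ hε h4.z h4.a hT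
      hle (by simpa [MW.line, MW.lines] using hm)
    cases x
    exact hno' q k (hq.2.trans hcon)
      (Rst515.contact_lift hΦ hε h4 ⟨hθ0, hle⟩ hn ⟨hq.1, hq.2⟩ hc)
  have hmin : min T (Z.thetaL Φ ε K T (F r)) = Z.thetaL Φ ε K T (F r) := min_eq_right hle
  have h5 := Rst515.thetaL_rst (K := K) (T := T) hΦ hε hT h4 hborn h0 hru (hlt.le.trans hle) hm
    (by rw [hmin]; exact hθE) (by rw [hmin]; exact hNL _ hθ0 hle le_rfl hθE) hno'
  exact ⟨hlt, h5.2.1⟩

/-- **The successor `c` reborn at `u`.** -/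
theorem touchPF_le_reb {P : EPar} (hΦ : AdmissiblePotential Φ) (hε : 0 < ε) (hT : 0 ≤ P.te)
    {u : ℝ} (hok : MW.OkFam Φ ε (w₂.ins d) F) (hnl : PairNL Φ ε K P.te (w₂.ins d) F)
    (hborn : ∀ k, 0 ≤ (w₂.ins d).b k) (h0 : 0 ≤ (F r).1.1) (hru : (F r).1.1 ≤ u)
    (hm : (F r).2 ≤ K)
    (hno : ∀ t k, t ≤ u → ¬ (((w₂.ins d).add (MW.lines (exF F r))).ins (F r)).C Φ ε t (Sum.inr ())
      (Sum.inl (Sum.inl k))) :
    touchPF Φ ε K P w₂ d F r ≤ w₂.touchP Φ ε K P d (reb (F r) u) := by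
  unfold touchPF
  split_ifs with hf
  swap
  · exact bot_le
  by_cases hle : (w₂.ins d).thetaL Φ ε K P.te (F r) ≤ P.te
  · have hf' : (w₂.ins d).thetaL Φ ε K P.te (F r) ≤ firstT Φ ε K P.te (w₂.ins d) (exF F r) :=
      le_firstT (hf.trans (firstT_le_top ..)) fun k => hf.trans (firstT_le Φ ε K P.te _ F k)
    have h1 := thetaL_reb_first hΦ hε hT hok hnl hborn h0 hru hm hf' hno hle
    unfold MW.touchP
    rw [h1.2]
  · have h2 : w₂.touchP Φ ε K P d (F r) = 0 := by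
      unfold MW.touchP
      rw [if_neg fun h => hle h.2.2]
    rw [h2]
    exact bot_le

end

end Crest.Agent.R122.UnlC263
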