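import Crest.Agent.R122.TransOk_151

/-!
# Motions with births and deaths (row 122), helper151

* `DWorld Φ ε b d s T X`: `X` is a motion on `[s, T]`, the particle `i` interacts on
  `[b i, d i)`; after `d i` its state is arbitrary.
* `DWorld.eq_flowA`: between two events the motion is the partial flow of the living particles.
* `DWorld.shift`, `DWorld.comp`, `DWorld.glue`, `DWorld.of_bworld`.
* `RelD`: release data: everybody who dies in `[0, T]` is at distance exactly `ε` from a particle
  which is still alive, and moves away from it.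
-/

set_option autoImplicit false
set_option linter.unusedSectionVars false

open MeasureTheory Set Filter Topology
open scoped ENNReal NNReal
open Crest.AnalysisR.Kinetic
open Crest.Agent.R122.Flow671 Crest.Agent.R122.Loc45 Crest.Agent.R122.Ins45
open Crest.Agent.R122.Simul984

namespace Crest.Agent.R122.TransOk151

noncomputable section

open scoped Classical

variable {Φ : Space3 → ℝ} {ε : ℝ} {α α' : Type*} [Fintype α] [Fintype α']

/-- Newton's field of the living particles. -/
def bfd (Φ : Space3 → ℝ) (ε : ℝ) (b d : α → ℝ) (t : ℝ) (Z : α → PhasePoint) (i : α) :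
    PhasePoint :=
  ((Z i).2, if b i ≤ t then -(1 / ε) • ∑ j, (if b j ≤ t ∧ t < d j then
    gradient Φ ((1 / ε) • ((Z i).1 - (Z j).1)) else 0) else 0)

/-- A motion with births `b` and deaths `d` on `[s, T]`. -/
structure DWorld (Φ : Space3 → ℝ) (ε : ℝ) (b d : α → ℝ) (s T : ℝ) (X : ℝ → α → PhasePoint) :
    Prop where
  cont : ∀ i, ContinuousOn (fun t => X t i) (Icc s (min T (d i)))
  der : ∀ t, s ≤ t → t < T → ∀ i, t < d i →
    HasDerivWithinAt (fun u => X u i) (bfd Φ ε b d t (X t) i) (Ici t) t
  dom : ∀ t, s ≤ t → t < T → ContDiff ℝ 2 Φ ∨ ∀ i j, i ≠ j → b i ≤ t → t < d i → b j ≤ t →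
    t < d j → (X t i).1 ≠ (X t j).1

/-- The living particles. -/
def lv (b d : α → ℝ) (t : ℝ) : Finset α := Finset.univ.filter fun i => b i ≤ t ∧ t < d i

theorem mem_lv {b d : α → ℝ} {t : ℝ} {i : α} : i ∈ lv b d t ↔ b i ≤ t ∧ t < d i := by simp [lv]

namespace DWorld

variable {b d : α → ℝ} {s T : ℝ} {X : ℝ → α → PhasePoint}

theorem mono (h : DWorld Φ ε b d s T X) {s' T' : ℝ} (hs : s ≤ s') (hT : T' ≤ T) :
    DWorld Φ ε b d s' T' X where
  cont i := (h.cont i).mono (Icc_subset_Icc hs (min_le_min_right _ hT))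
  der t ht htT i hi := h.der t (hs.trans ht) (htT.trans_le hT) i hi
  dom t ht htT := h.dom t (hs.trans ht) (htT.trans_le hT)

theorem lv_iff {t : ℝ} (hb : ∀ i, s < b i → t ≤ b i) (hd : ∀ i, s < d i → t ≤ d i) {u : ℝ}
    (hu : u ∈ Ico s t) (i : α) : i ∈ lv b d s ↔ b i ≤ u ∧ u < d i := by
  rw [mem_lv]
  constructor
  · rintro ⟨h1, h2⟩
    exact ⟨h1.trans hu.1, hu.2.trans_le (hd i h2)⟩
  · rintro ⟨h1, h2⟩
    refine ⟨?_, hu.1.trans_lt h2⟩
    by_contra hcon
    exact absurd ((hb i (not_le.1 hcon)).trans h1) (not_le.2 hu.2)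

/-- An unborn particle flies freely. -/
theorem free_of_unborn (h : DWorld Φ ε b d s T X) {t : ℝ} (hst : s ≤ t) (htT : t ≤ T) {i : α}
    (hd : t ≤ d i) (hb : t ≤ b i) :
    X t i = ((X s i).1 + (t - s) • (X s i).2, (X s i).2) := by
  have hc : ContinuousOn (fun u => X u i) (Icc s t) :=
    (h.cont i).mono (Icc_subset_Icc le_rfl (le_min htT hd))
  have hder : ∀ u ∈ Ico s t, HasDerivWithinAt (fun u => X u i) ((X u i).2, 0) (Ici u) u := by
    intro u hu
    have h1 := h.der u hu.1 (hu.2.trans_le htT) i (hu.2.trans_le hd)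
    unfold bfd at h1
    rwa [if_neg (not_le.2 (hu.2.trans_le hb))] at h1
  have hv : ∀ u ∈ Icc s t, (X u i).2 = (X s i).2 :=
    constant_of_has_deriv_right_zero (f := fun u => (X u i).2) hc.snd
      fun u hu => deriv_snd (hder u hu)
  have hx : ∀ u ∈ Icc s t, (X u i).1 - (u - s) • (X s i).2 = (X s i).1 - (s - s) • (X s i).2 := by
    refine constant_of_has_deriv_right_zero (f := fun u => (X u i).1 - (u - s) • (X s i).2) ?_ ?_
    · exact hc.fst.sub ((continuous_id.sub continuous_const).smul continuous_const).continuousOn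
    · intro u hu
      have h3 := deriv_fst (hder u hu)
      rw [hv u (Ico_subset_Icc_self hu)] at h3
      have h4 : HasDerivWithinAt (fun u : ℝ => (u - s) • (X s i).2) ((1 : ℝ) • (X s i).2)
          (Ici u) u := ((hasDerivWithinAt_id u _).sub_const s).smul_const _
      simpa using h3.fun_sub h4
  refine Prod.ext ?_ (hv t ⟨hst, le_rfl⟩)
  have h1 := hx t ⟨hst, le_rfl⟩
  rw [sub_self, zero_smul, sub_zero] at h1
  simp only
  rw [← h1]
  abel

theorem eq_flow_aux (hΦ : AdmissiblePotential Φ) (hε : 0 < ε) (h : DWorld Φ ε b d s T X) {t : ℝ}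
    (hst : s < t) (htT : t < T) (hb : ∀ i, s < b i → t ≤ b i) (hd : ∀ i, s < d i → t < d i) :
    (fun a : lv b d s => X t a) = flow Φ ε (t - s) (fun a : lv b d s => X s a) := by
  have hmem : ∀ u ∈ Ico s t, ∀ i, i ∈ lv b d s ↔ b i ≤ u ∧ u < d i := fun u hu i =>
    lv_iff hb (fun i hi => (hd i hi).le) hu i
  have hDt : (fun a : lv b d s => X t a) ∈ Dom Φ (lv b d s) := by
    refine (h.dom t hst.le htT).imp id fun h' i j hij => ?_
    have hi := mem_lv.1 i.2
    have hj := mem_lv.1 j.2
    exact h' i j (fun h => hij (Subtype.ext h)) (hi.1.trans hst.le) (hd _ hi.2)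
      (hj.1.trans hst.le) (hd _ hj.2)
  have hW : World Φ ε (fun u => flow Φ ε (u - t) (fun a : lv b d s => X t a)) := by
    have h1 := (world_flow hΦ hε hDt).shift (-t)
    have h2 : (fun u => flow Φ ε (-t + u) (fun a : lv b d s => X t a))
        = fun u => flow Φ ε (u - t) (fun a : lv b d s => X t a) := by
      funext u
      rw [neg_add_eq_sub]
    rwa [h2] at h1
  set Y : ℝ → lv b d s → PhasePoint := fun u =>
    if u < t then fun a => X u a else flow Φ ε (u - t) (fun a : lv b d s => X t a) with hY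
  have hY₁ : ∀ u, u ≤ t → Y u = fun a : lv b d s => X u a := by
    intro u hu
    rcases hu.lt_or_eq with h1 | h1
    · simp only [hY, if_pos h1]
    · subst h1
      simp only [hY, lt_irrefl, if_false]
      rw [sub_self, flow_zero hΦ hε]
  have hY₂ : ∀ u, t ≤ u → Y u = flow Φ ε (u - t) (fun a : lv b d s => X t a) := fun u hu => by
    simp only [hY, if_neg (not_lt.2 hu)]
  have hB : BWorld Φ ε (fun _ : lv b d s => s) s Y := by
    refine ⟨?_, fun u hu => ?_, fun u hu => ?_⟩
    · have h3 : Ici s = Icc s t ∪ Ici t := by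
        ext u
        simp only [mem_Ici, mem_union, mem_Icc]
        constructor
        · intro h
          rcases le_total u t with h' | h'
          · exact Or.inl ⟨h, h'⟩
          · exact Or.inr h'
        · rintro (h | h)
          · exact h.1
          · exact hst.le.trans h
      rw [h3]
      refine ContinuousOn.union_of_isClosed ?_ ?_ isClosed_Icc isClosed_Ici
      · refine ContinuousOn.congr (f := fun u => fun a : lv b d s => X u a) ?_
          fun u hu => hY₁ u hu.2
        refine continuousOn_pi.2 fun a => (h.cont a).mono (Icc_subset_Icc le_rfl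
          (le_min htT.le (hd _ (mem_lv.1 a.2).2).le))
      · exact hW.continuous.continuousOn.congr fun u hu => hY₂ u hu
    · rcases lt_or_ge u t with h1 | h1
      · rw [hY₁ u h1.le]
        have h2 : bf Φ ε (fun _ : lv b d s => s) u (fun a : lv b d s => X u a) =
            fun a : lv b d s => bfd Φ ε b d u (X u) a := by
          funext a
          have ha := (hmem u ⟨hu, h1⟩ a).1 a.2
          unfold bf bfd
          rw [if_pos ha.1, if_pos (show s ≤ u from hu)]
          congr 2
          have e1 : (∑ j : lv b d s, if s ≤ u then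
              gradient Φ ((1 / ε) • ((X u a).1 - (X u (j : α)).1)) else 0) =
              ∑ j ∈ lv b d s, gradient Φ ((1 / ε) • ((X u a).1 - (X u j).1)) := by
            rw [← Finset.sum_coe_sort (lv b d s)]
            exact Finset.sum_congr rfl fun j _ => if_pos hu
          rw [e1, ← Finset.sum_filter]
          refine Finset.sum_congr ?_ fun _ _ => rfl
          ext j
          rw [Finset.mem_filter]
          exact ⟨fun h => ⟨Finset.mem_univ _, (hmem u ⟨hu, h1⟩ j).1 h⟩,
            fun h => (hmem u ⟨hu, h1⟩ j).2 h.2⟩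
        rw [h2]
        have h3 : HasDerivWithinAt (fun u => fun a : lv b d s => X u a)
            (fun a : lv b d s => bfd Φ ε b d u (X u) a) (Ici u) u := by
          rw [hasDerivWithinAt_pi]
          exact fun a => h.der u hu (h1.trans htT) a ((hmem u ⟨hu, h1⟩ a).1 a.2).2
        refine h3.congr_of_eventuallyEq ?_ (hY₁ u h1.le)
        have h4 : Icc u t ∈ 𝓝[≥] u := Icc_mem_nhdsGE h1
        filter_upwards [h4] with v hv
        exact hY₁ v hv.2
      · rw [hY₂ u h1]
        have h2 : bf Φ ε (fun _ : lv b d s => s) u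
            (flow Φ ε (u - t) (fun a : lv b d s => X t a)) =
            nf Φ ε (flow Φ ε (u - t) (fun a : lv b d s => X t a)) :=
          bf_of_born Φ ε _ fun _ => hu
        rw [h2]
        exact ((hW.hasDerivAt u).hasDerivWithinAt (s := Ici u)).congr
          (fun v hv => hY₂ v (h1.trans hv)) (hY₂ u h1)
    · rcases lt_or_ge u t with h1 | h1
      · rw [hY₁ u h1.le]
        refine (h.dom u hu (h1.trans htT)).imp id fun h' i j hij _ _ => ?_
        have hi := (hmem u ⟨hu, h1⟩ i).1 i.2
        have hj := (hmem u ⟨hu, h1⟩ j).1 j.2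
        exact h' i j (fun h => hij (Subtype.ext h)) hi.1 hi.2 hj.1 hj.2
      · rw [hY₂ u h1]
        exact (hW.mem u).imp id fun h' i j hij _ _ => h' i j hij
  have h5 := hB.eq_flow hΦ hε (fun _ => le_rfl) hst.le
  rw [hY₁ t le_rfl, hY₁ s hst.le] at h5
  exact h5

/-- **Between two events the motion is the partial flow of the living particles.** -/
theorem eq_flowA (hΦ : AdmissiblePotential Φ) (hε : 0 < ε) (h : DWorld Φ ε b d s T X) {t : ℝ}
    (hst : s ≤ t) (htT : t ≤ T) (hb : ∀ i, s < b i → t ≤ b i) (hd : ∀ i, s < d i → t ≤ d i)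
    {i : α} (hi : s < d i) : X t i = flowA Φ ε (lv b d s) (t - s) (X s) i := by
  rcases hst.lt_or_eq with hst' | hst'
  swap
  · subst hst'
    rw [sub_self, flowA_zero hΦ hε]
  by_cases hG : i ∈ lv b d s
  · rw [flowA_mem _ _ _ hG]
    have h1 : ∀ u ∈ Ioo s t, X u i = flow Φ ε (u - s) (fun a : lv b d s => X s a) ⟨i, hG⟩ := by
      intro u hu
      have h2 := h.eq_flow_aux hΦ hε hu.1 (hu.2.trans_le htT) (fun i hi => hu.2.le.trans (hb i hi))
        (fun i hi => hu.2.trans_le (hd i hi))
      exact congrFun h2 ⟨i, hG⟩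
    have h2 : Tendsto (fun u => X u i) (𝓝[Ioo s t] t) (𝓝 (X t i)) := by
      have h3 := (h.cont i) t ⟨hst, le_min htT (hd i hi)⟩
      exact h3.mono (Ioo_subset_Icc_self.trans (Icc_subset_Icc le_rfl (le_min htT (hd i hi))))
    have h3 : Tendsto (fun u => flow Φ ε (u - s) (fun a : lv b d s => X s a) ⟨i, hG⟩)
        (𝓝[Ioo s t] t) (𝓝 (flow Φ ε (t - s) (fun a : lv b d s => X s a) ⟨i, hG⟩)) := by
      have h4 : Continuous fun u => flow Φ ε (u - s) (fun a : lv b d s => X s a) ⟨i, hG⟩ :=
        (continuous_apply (⟨i, hG⟩ : lv b d s)).comp ((flow_continuous_time hΦ hε _).comp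
          (continuous_id.sub continuous_const))
      exact h4.continuousWithinAt
    have hne : (𝓝[Ioo s t] t).NeBot := by
      rw [nhdsWithin_Ioo_eq_nhdsLT hst']
      infer_instance
    refine tendsto_nhds_unique (h2.congr' ?_) h3
    filter_upwards [self_mem_nhdsWithin] with u hu using h1 u hu
  · rw [flowA_not_mem _ _ _ hG]
    refine h.free_of_unborn hst htT (hd i hi) (hb i ?_)
    by_contra hcon
    exact hG (mem_lv.2 ⟨not_lt.1 hcon, hi⟩)

/-- Time shift. -/
theorem shift (h : DWorld Φ ε b d s T X) (c : ℝ) :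
    DWorld Φ ε (fun i => b i - c) (fun i => d i - c) (s - c) (T - c) (fun t => X (t + c)) where
  cont i := by
    refine (h.cont i).comp (continuous_id.add continuous_const).continuousOn fun t ht => ?_
    have h1 := ht.1
    have h2 := ht.2
    rw [le_min_iff] at h2
    exact ⟨by linarith, le_min (by linarith [h2.1]) (by linarith [h2.2])⟩
  der t ht htT i hi := by
    have h1 := h.der (t + c) (by linarith) (by linarith) i (by linarith)
    have h2 : bfd Φ ε (fun i => b i - c) (fun i => d i - c) t (X (t + c)) i =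
        bfd Φ ε b d (t + c) (X (t + c)) i := by
      unfold bfd
      simp only [sub_le_iff_le_add, lt_sub_iff_add_lt]
    rw [h2]
    have h3 : HasDerivWithinAt (fun u : ℝ => u + c) 1 (Ici t) t :=
      ((hasDerivAt_id t).add_const c).hasDerivWithinAt
    have h4 := h1.scomp t h3 (fun u hu => by
      simp only [mem_Ici] at hu ⊢
      linarith)
    rw [one_smul] at h4
    exact h4
  dom t ht htT := (h.dom (t + c) (by linarith) (by linarith)).imp id
    fun h' i j hij h1 h2 h3 h4 => h' i j hij (by linarith) (by linarith) (by linarith)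
      (by linarith)

/-- Restriction to a sub-family; the others are dead. -/
theorem comp (h : DWorld Φ ε b d s T X) (e : α' ↪ α) (he : ∀ i, i ∉ range e → d i ≤ s) :
    DWorld Φ ε (fun i => b (e i)) (fun i => d (e i)) s T (fun t i => X t (e i)) where
  cont i := h.cont (e i)
  der t ht htT i hi := by
    have h1 := h.der t ht htT (e i) hi
    have h2 : bfd Φ ε (fun i => b (e i)) (fun i => d (e i)) t (fun i => X t (e i)) i =
        bfd Φ ε b d t (X t) (e i) := by
      unfold bfd
      congr 3
      have h3 : ∑ j : α', (if b (e j) ≤ t ∧ t < d (e j) then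
          gradient Φ ((1 / ε) • ((X t (e i)).1 - (X t (e j)).1)) else 0) =
          ∑ j ∈ Finset.univ.map e, (if b j ≤ t ∧ t < d j then
            gradient Φ ((1 / ε) • ((X t (e i)).1 - (X t j).1)) else 0) := by
        rw [Finset.sum_map]
      rw [h3]
      refine Finset.sum_subset (Finset.subset_univ _) fun j _ hj => ?_
      have hj' : j ∉ range e := fun ⟨k, hk⟩ => hj (by simp [← hk])
      rw [if_neg]
      intro h4
      exact absurd ((he j hj').trans ht) (not_le.2 h4.2)
    rw [h2]
    exact h1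
  dom t ht htT := (h.dom t ht htT).imp id fun h' i j hij h1 h2 h3 h4 =>
    h' (e i) (e j) (e.injective.ne hij) h1 h2 h3 h4

/-- Gluing at time `q`. -/
theorem glue {q : ℝ} (hsq : s ≤ q) (hqT : q ≤ T) {X₁ X₂ : ℝ → α → PhasePoint}
    (h₁ : DWorld Φ ε b d s q X₁) (h₂ : DWorld Φ ε b d q T X₂)
    (h1 : ∀ t, s ≤ t → t ≤ q → ∀ i, t ≤ d i → X t i = X₁ t i)
    (h2 : ∀ t, q ≤ t → t ≤ T → ∀ i, t ≤ d i → X t i = X₂ t i) : DWorld Φ ε b d s T X where
  cont i := by
    by_cases hd : q ≤ d i
    · have h3 : Icc s (min T (d i)) = Icc s q ∪ Icc q (min T (d i)) :=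
        (Icc_union_Icc_eq_Icc hsq (le_min hqT hd)).symm
      rw [h3]
      refine ContinuousOn.union_of_isClosed ?_ ?_ isClosed_Icc isClosed_Icc
      · have h4 := h₁.cont i
        rw [min_eq_left hd] at h4
        exact h4.congr fun t ht => h1 t ht.1 ht.2 i (ht.2.trans hd)
      · exact (h₂.cont i).congr fun t ht => h2 t ht.1 (ht.2.trans (min_le_left _ _)) i
          (ht.2.trans (min_le_right _ _))
    · push Not at hd
      have h4 := h₁.cont i
      rw [min_eq_right hd.le] at h4
      rw [min_eq_right (hd.le.trans hqT)]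
      exact h4.congr fun t ht => h1 t ht.1 (ht.2.trans hd.le) i ht.2
  der t ht htT i hi := by
    rcases lt_or_ge t q with h | h
    · have h3 := h₁.der t ht h i hi
      have h4 : bfd Φ ε b d t (X t) i = bfd Φ ε b d t (X₁ t) i := by
        unfold bfd
        rw [h1 t ht h.le i hi.le]
        congr 3
        refine Finset.sum_congr rfl fun j _ => ?_
        split_ifs with h5
        · rw [h1 t ht h.le j h5.2.le]
        · rfl
      rw [h4]
      refine h3.congr_of_eventuallyEq ?_ (h1 t ht h.le i hi.le)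
      have h5 : Icc t (min q (d i)) ∈ 𝓝[≥] t := Icc_mem_nhdsGE (lt_min h hi)
      filter_upwards [h5] with u hu
      exact h1 u (ht.trans hu.1) (hu.2.trans (min_le_left _ _)) i (hu.2.trans (min_le_right _ _))
    · have h3 := h₂.der t h htT i hi
      have h4 : bfd Φ ε b d t (X t) i = bfd Φ ε b d t (X₂ t) i := by
        unfold bfd
        rw [h2 t h htT.le i hi.le]
        congr 3
        refine Finset.sum_congr rfl fun j _ => ?_
        split_ifs with h5
        · rw [h2 t h htT.le j h5.2.le]
        · rfl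
      rw [h4]
      refine h3.congr_of_eventuallyEq ?_ (h2 t h htT.le i hi.le)
      have h5 : Icc t (min T (d i)) ∈ 𝓝[≥] t := Icc_mem_nhdsGE (lt_min htT hi)
      filter_upwards [h5] with u hu
      exact h2 u (h.trans hu.1) (hu.2.trans (min_le_left _ _)) i (hu.2.trans (min_le_right _ _))
  dom t ht htT := by
    rcases lt_or_ge t q with h | h
    · refine (h₁.dom t ht h).imp id fun h' i j hij h3 h4 h5 h6 => ?_
      rw [h1 t ht h.le i h4.le, h1 t ht h.le j h6.le]
      exact h' i j hij h3 h4 h5 h6
    · refine (h₂.dom t h htT).imp id fun h' i j hij h3 h4 h5 h6 => ?_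
      rw [h2 t h htT.le i h4.le, h2 t h htT.le j h6.le]
      exact h' i j hij h3 h4 h5 h6

/-- A world with births in which the dead particles are at distance at least `ε` from the living
ones. -/
theorem of_bworld (hΦ : AdmissiblePotential Φ) (hε : 0 < ε) (h : BWorld Φ ε b s X)
    (hfar : ∀ t, s ≤ t → t < T → ∀ i j, b i ≤ t → t < d i → b j ≤ t → d j ≤ t →
      ε ≤ dist (X t i).1 (X t j).1) : DWorld Φ ε b d s T X where
  cont i := (h.cont_apply i).mono fun t ht => ht.1
  der t ht htT i hi := by
    have h1 := (hasDerivWithinAt_pi.1 (h.der t ht)) i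
    have h2 : bfd Φ ε b d t (X t) i = bf Φ ε b t (X t) i := by
      unfold bfd bf
      by_cases hbi : b i ≤ t
      · rw [if_pos hbi, if_pos hbi]
        congr 2
        refine Finset.sum_congr rfl fun j _ => ?_
        by_cases hbj : b j ≤ t
        · by_cases hdj : t < d j
          · rw [if_pos ⟨hbj, hdj⟩, if_pos hbj]
          · rw [if_neg (fun h => hdj h.2), if_pos hbj,
              grad_far hΦ hε (hfar t ht htT i j hbi hi hbj (not_lt.1 hdj))]
        · rw [if_neg (fun h => hbj h.1), if_neg hbj]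
      · rw [if_neg hbi, if_neg hbi]
    rw [h2]
    exact h1
  dom t ht _ := (h.dom t ht).imp id fun h' i j hij h1 _ h3 _ => h' i j hij h1 h3

end DWorld

/-- Release data: whoever dies in `[0, T]` separates at that time from a particle which is not yet
dead. -/
structure RelD (ε : ℝ) (b d : α → ℝ) (T : ℝ) (X : ℝ → α → PhasePoint) : Prop where
  pos : ∀ i, d i ≤ T → 0 < d i
  born : ∀ i, d i ≤ T → b i ≤ d i
  exit : ∀ i, d i ≤ T → ∃ p, p ≠ i ∧ b p ≤ d i ∧ d i ≤ d p ∧
    dist (X (d i) i).1 (X (d i) p).1 = ε ∧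
    0 < inner ℝ ((X (d i) i).1 - (X (d i) p).1) ((X (d i) i).2 - (X (d i) p).2)

/-- Deaths of the released particles `S`. -/
def dth (S : Set α) (σ : α → ℝ) (T : ℝ) (i : α) : ℝ := if i ∈ S then σ i else T + 1

theorem dth_mem {S : Set α} {σ : α → ℝ} {T : ℝ} {i : α} (h : i ∈ S) : dth S σ T i = σ i :=
  if_pos h

theorem dth_not_mem {S : Set α} {σ : α → ℝ} {T : ℝ} {i : α} (h : i ∉ S) :
    dth S σ T i = T + 1 := if_neg h

/-- Release data with free flight afterwards give release data with deaths. -/
theorem Rel.dworld (hΦ : AdmissiblePotential Φ) (hε : 0 < ε) {b : α → ℝ} {S : Set α} {σ : α → ℝ}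
    {T : ℝ} {X : ℝ → α → PhasePoint} (hX : BWorld Φ ε b 0 X) (hR : Rel ε b S σ T X) :
    DWorld Φ ε b (dth S σ T) 0 T X ∧ RelD ε b (dth S σ T) T X := by
  have hmem : ∀ i, dth S σ T i ≤ T → i ∈ S := by
    intro i hi
    by_contra hcon
    rw [dth_not_mem hcon] at hi
    linarith
  refine ⟨DWorld.of_bworld hΦ hε hX fun t ht htT i j hbi hdi hbj hdj => ?_, fun i hi => ?_,
    fun i hi => ?_, fun i hi => ?_⟩
  · have hjS : j ∈ S := hmem j (hdj.trans htT.le)
    rw [dth_mem hjS] at hdj
    have hij : i ≠ j := by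
      rintro rfl
      rw [dth_mem hjS] at hdi
      exact absurd hdj (not_le.2 hdi)
    rcases hdj.lt_or_eq with h1 | h1
    · rw [dist_comm]
      exact (hR.free j hjS t ⟨h1, htT.le⟩ i hij hbi).le
    · have hc : ∀ k, ContinuousWithinAt (fun t => (X t k).1) (Ioi t) t := fun k =>
        ((hX.cont_pos k) t ht).mono fun u hu => ht.trans (le_of_lt hu)
      have h2 : Tendsto (fun u => dist (X u i).1 (X u j).1) (𝓝[>] t)
          (𝓝 (dist (X t i).1 (X t j).1)) := (hc i).dist (hc j)
      refine ge_of_tendsto h2 ?_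
      filter_upwards [Ioc_mem_nhdsGT htT] with u hu
      rw [dist_comm]
      exact (hR.free j hjS u ⟨h1 ▸ hu.1, hu.2⟩ i hij (hbi.trans hu.1.le)).le
  · have hiS := hmem i hi
    rw [dth_mem hiS]
    exact hR.pos i hiS
  · have hiS := hmem i hi
    rw [dth_mem hiS]
    exact hR.born i hiS
  · have hiS := hmem i hi
    rw [dth_mem hiS]
    obtain ⟨p, h1, h2, h3, h4⟩ := hR.exit i hiS
    refine ⟨p, h1, h2, ?_, h3, h4⟩
    by_cases hp : p ∈ S
    · rw [dth_mem hp]
      by_contra hcon
      have h5 := hR.free p hp (σ i) ⟨not_le.1 hcon, hR.le i hiS⟩ i h1.symm (hR.born i hiS)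
      rw [dist_comm] at h5
      exact absurd h3 h5.ne'
    · rw [dth_not_mem hp]
      linarith [hR.le i hiS]

end

end Crest.Agent.R122.TransOk151
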