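import Crest.Agent.R122.TransD1_151

/-!
# The transfer theorem with deaths (row 122), helper151

`A : Finset κ` the isolated group (births `b`, deaths `d`), `M : Finset κ` the final world: the
particles of `M \ A` with births `b` and those of `M ∩ A`, which enter when they die in `A`.

* `GoodD Φ ε M A b Z` : for all release data the final world exists, and there is no coincidence
  between a particle of `A` which is not dead and a particle of the world.
* `ae_goodD`.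
-/

set_option autoImplicit false
set_option linter.unusedSectionVars false

open MeasureTheory Set Filter Topology
open scoped ENNReal NNReal
open Crest.AnalysisR.Kinetic
open Crest.Agent.R122.Flow671 Crest.Agent.R122.Loc45 Crest.Agent.R122.Ins45
open Crest.Agent.R122.Simul984

namespace Crest.Agent.R122.TransOk151

noncomputable section

open scoped Classical

variable {Φ : Space3 → ℝ} {ε : ℝ} {κ : Type*} [Fintype κ] {M A : Finset κ} {b d : κ → ℝ}

/-- The living particles of the world. -/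
def gW (M A : Finset κ) (b : κ → ℝ) : Finset κ := (M \ A).filter fun k => b k ≤ 0

theorem mem_gW {k : κ} : k ∈ gW M A b ↔ (k ∈ M ∧ k ∉ A) ∧ b k ≤ 0 := by simp [gW]

theorem gW_subset : gW M A b ⊆ M := fun _ h => (mem_gW.1 h).1.1

theorem disjoint_gW : Disjoint (gr₁ A b) (gW M A b) := by
  rw [Finset.disjoint_left]
  intro k h1 h2
  exact (mem_gW.1 h2).1.2 (mem_gr₁.1 h1).1

/-- The final world exists, and nobody of it meets a particle of `A` which is not dead. -/
def GoodD (Φ : Space3 → ℝ) (ε : ℝ) (M A : Finset κ) (b : κ → ℝ) (Z : κ → PhasePoint) : Prop :=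
  ∀ (d : κ → ℝ) (T : ℝ) (X : ℝ → A → PhasePoint), 0 ≤ T →
    DWorld Φ ε (fun a : A => b a) (fun a : A => d a) 0 T X → (∀ a : A, X 0 a = Z a) →
    RelD ε (fun a : A => b a) (fun a : A => d a) T X → (∀ a : A, (a : κ) ∈ M → d a ≤ T) →
    ∃ Y : ℝ → M → PhasePoint, BWorld Φ ε (fun m : M => wb A b d m) 0 Y ∧
      (∀ m : M, Y 0 m = wz A d X Z 0 m) ∧
      ∀ t ∈ Icc 0 T, ∀ a : A, t ≤ d a → ∀ m : M, (m : κ) ≠ a → ((m : κ) ∈ A → d m ≤ t) →
        (X t a).1 ≠ (Y t m).1

theorem RelD.d_pos {T : ℝ} {X : ℝ → A → PhasePoint} (hT : 0 ≤ T)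
    (hR : RelD ε (fun a : A => b a) (fun a : A => d a) T X) (a : A) : 0 < d a := by
  by_cases h : d a ≤ T
  · exact hR.pos a h
  · exact hT.trans_lt (not_le.1 h)

/-- Comparison of the partial flow on `M` and the decoupled flow. -/
theorem flW (hΦ : AdmissiblePotential Φ) (hε : 0 < ε) {G₁ G₂ : Finset κ} (hG : G₂ ⊆ M) (t : ℝ)
    (Z : κ → PhasePoint) (z : M → PhasePoint) (hz : ∀ m : M, (m : κ) ∈ G₂ → z m = Z m) {m : M}
    (hm : (m : κ) ∉ G₁) (hzm : z m = Z m) :
    flowA Φ ε (G₂.subtype (· ∈ M)) t z m = fl Φ ε G₁ G₂ t Z m := by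
  by_cases h : (m : κ) ∈ G₂
  · rw [flowA_subtype hΦ hε hG t Z z hz h, flowA_mem _ _ _ h, fl_mem₂ _ _ hm h]
  · rw [flowA_not_mem _ _ _ (fun h' => h (Finset.mem_subtype.1 h')), fl_free _ _ hm h, hzm]

theorem flW₁ (hΦ : AdmissiblePotential Φ) (hε : 0 < ε) {G₁ G₂ : Finset κ} (hG : G₁ ⊆ M) (t : ℝ)
    (Z : κ → PhasePoint) (z : M → PhasePoint) (hz : ∀ m : M, (m : κ) ∈ G₁ → z m = Z m) {m : M}
    (hm : (m : κ) ∉ G₂) (hzm : z m = Z m) :
    flowA Φ ε (G₁.subtype (· ∈ M)) t z m = fl Φ ε G₁ G₂ t Z m := by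
  by_cases h : (m : κ) ∈ G₁
  · rw [flowA_subtype hΦ hε hG t Z z hz h, flowA_mem _ _ _ h, fl_mem₁ _ _ h]
  · rw [flowA_not_mem _ _ _ (fun h' => h (Finset.mem_subtype.1 h')), fl_free _ _ h hm, hzm]

/-- Before the first event the isolated group is given by `fl`. -/
theorem DX_eq (hΦ : AdmissiblePotential Φ) (hε : 0 < ε) {T : ℝ} {X : ℝ → A → PhasePoint}
    {Z : κ → PhasePoint} (hX : DWorld Φ ε (fun a : A => b a) (fun a : A => d a) 0 T X)
    (h0 : ∀ a : A, X 0 a = Z a) (hd0 : ∀ a : A, 0 < d a) {t : ℝ} (ht : 0 ≤ t) (htT : t ≤ T)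
    (hb : ∀ k, 0 < b k → t ≤ b k) (hd : ∀ a : A, t ≤ d a) (a : A) :
    X t a = fl Φ ε (gr₁ A b) (gW M A b) t Z a := by
  have h1 := hX.eq_flowA hΦ hε ht htT (fun i hi => hb i hi) (fun i _ => hd i) (i := a) (hd0 a)
  have h2 : lv (fun a : A => b a) (fun a : A => d a) 0 = (gr₁ A b).subtype (· ∈ A) := by
    ext x
    rw [mem_lv, Finset.mem_subtype, mem_gr₁]
    exact ⟨fun h => ⟨x.2, h.1⟩, fun h => ⟨h.2, hd0 x⟩⟩
  rw [h1, h2, sub_zero]
  exact flW₁ hΦ hε (Finset.filter_subset _ _) t Z (X 0) (fun m _ => h0 m)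
    (fun h => (mem_gW.1 h).1.2 a.2) (h0 a)

/-- First step of the world: nobody is born or released before `c`. -/
theorem world_stepD (hΦ : AdmissiblePotential Φ) (hε : 0 < ε) {X : ℝ → A → PhasePoint}
    {Z : κ → PhasePoint} (hI : Inj Z) {c : ℝ} (hc : 0 < c)
    (hb : ∀ k, 0 < b k → c ≤ b k) (hσ : ∀ k ∈ A, k ∈ M → c ≤ d k)
    {Y₂ : ℝ → M → PhasePoint} (h₂ : BWorld Φ ε (fun m : M => wb A b d m) c Y₂)
    (h0 : ∀ m : M, Y₂ c m = wz A d X (fl Φ ε (gr₁ A b) (gW M A b) c Z) c m) :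
    ∃ Y : ℝ → M → PhasePoint, BWorld Φ ε (fun m : M => wb A b d m) 0 Y ∧
      (∀ m : M, Y 0 m = wz A d X Z 0 m) ∧ (∀ t, c ≤ t → Y t = Y₂ t) ∧
      ∀ t ∈ Icc 0 c, ∀ m : M, (m : κ) ∉ A → Y t m = fl Φ ε (gr₁ A b) (gW M A b) t Z m := by
  set z0 : M → PhasePoint := fun m => wz A d X Z 0 m with hz0
  have hz0' : ∀ m : M, (m : κ) ∉ A → z0 m = Z m := by
    intro m hm
    simp only [hz0, wz, dif_neg hm]
  have hz0W : ∀ m : M, (m : κ) ∈ gW M A b → z0 m = Z m := fun m hm => hz0' m (mem_gW.1 hm).1.2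
  have hA : ∀ t ∈ Ico 0 c, ∀ m : M, m ∈ (gW M A b).subtype (· ∈ M) ↔ wb A b d m ≤ t := by
    intro t ht m
    rw [Finset.mem_subtype, mem_gW]
    by_cases hm : (m : κ) ∈ A
    · simp only [wb, if_pos hm]
      constructor
      · exact fun h => absurd hm h.1.2
      · intro h
        exact absurd ((hσ m hm m.2).trans h) (not_le.2 ht.2)
    · simp only [wb, if_neg hm]
      constructor
      · exact fun h => h.2.trans ht.1
      · intro h
        refine ⟨⟨m.2, hm⟩, ?_⟩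
        by_contra hcon
        exact absurd ((hb m (not_le.1 hcon)).trans h) (not_le.2 ht.2)
  have hZ : (fun a : (gW M A b).subtype (· ∈ M) => z0 a) ∈ Dom Φ ((gW M A b).subtype (· ∈ M)) := by
    refine Or.inr fun i j hij => ?_
    show (z0 i).1 ≠ (z0 j).1
    rw [hz0W _ (Finset.mem_subtype.1 i.2), hz0W _ (Finset.mem_subtype.1 j.2)]
    exact hI _ _ fun h => hij (Subtype.ext (Subtype.ext h))
  have hY₂ : Y₂ c = flowA Φ ε ((gW M A b).subtype (· ∈ M)) (c - 0) z0 := by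
    funext m
    rw [h0, sub_zero]
    by_cases hm : (m : κ) ∈ A
    · have h1 : m ∉ (gW M A b).subtype (· ∈ M) := fun h =>
        (mem_gW.1 (Finset.mem_subtype.1 h)).1.2 hm
      rw [flowA_not_mem _ _ _ h1]
      simp only [hz0, wz, dif_pos hm]
      have := lineAt_free (d m) 0 c (X (d m) ⟨m, hm⟩)
      rw [sub_zero] at this
      exact this.symm
    · have h2 : wz A d X (fl Φ ε (gr₁ A b) (gW M A b) c Z) c m =
          fl Φ ε (gr₁ A b) (gW M A b) c Z m := by simp only [wz, dif_neg hm]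
      rw [h2]
      exact (flW hΦ hε gW_subset c Z z0 hz0W (not_mem_gr₁ hm) (hz0' m hm)).symm
  obtain ⟨Y, hY, hY0, hYc⟩ := bworld_cons hΦ hε hc hA hZ h₂ hY₂
  refine ⟨Y, hY, fun m => by rw [hY0], hYc, fun t ht m hm => ?_⟩
  have h1 := hY.eq_flowA hΦ hε ht.1 (fun m' hm' => by
    by_cases h : (m' : κ) ∈ A
    · simp only [wb, if_pos h]
      exact ht.2.trans (hσ m' h m'.2)
    · simp only [wb, if_neg h] at hm' ⊢
      exact ht.2.trans (hb m' hm'))
  have h2 : alive (fun m : M => wb A b d m) 0 = (gW M A b).subtype (· ∈ M) := by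
    ext m
    rw [mem_alive, hA 0 ⟨le_rfl, hc⟩]
  rw [h1, h2, sub_zero, hY0]
  exact flW hΦ hε gW_subset t Z z0 hz0W (not_mem_gr₁ hm) (hz0' m hm)

/-- Step over an external birth at time `c`. -/
theorem stepD_ext (hΦ : AdmissiblePotential Φ) (hε : 0 < ε) {Z : κ → PhasePoint}
    (hI : ∀ t, Inj (fl Φ ε (gr₁ A b) (gW M A b) t Z)) {c : ℝ} (hc : 0 < c)
    (hb : ∀ k, 0 < b k → c ≤ b k)
    (hG : GoodD Φ ε M A (fun k => b k - c) (fl Φ ε (gr₁ A b) (gW M A b) c Z))
    {T : ℝ} {X : ℝ → A → PhasePoint} (hcT : c ≤ T)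
    (hX : DWorld Φ ε (fun a : A => b a) (fun a : A => d a) 0 T X) (h0 : ∀ a : A, X 0 a = Z a)
    (hR : RelD ε (fun a : A => b a) (fun a : A => d a) T X)
    (hM : ∀ a : A, (a : κ) ∈ M → d a ≤ T) (hσ : ∀ a : A, c < d a) :
    ∃ Y : ℝ → M → PhasePoint, BWorld Φ ε (fun m : M => wb A b d m) 0 Y ∧
      (∀ m : M, Y 0 m = wz A d X Z 0 m) ∧
      ∀ t ∈ Icc 0 T, ∀ a : A, t ≤ d a → ∀ m : M, (m : κ) ≠ a → ((m : κ) ∈ A → d m ≤ t) →
        (X t a).1 ≠ (Y t m).1 := by
  have hI0 : Inj Z := by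
    have := hI 0
    rwa [fl_zero hΦ hε] at this
  have hd0 : ∀ a : A, 0 < d a := fun a => hc.trans (hσ a)
  have hXt : ∀ t, 0 ≤ t → t ≤ c → ∀ a : A, X t a = fl Φ ε (gr₁ A b) (gW M A b) t Z a :=
    fun t ht htc a => DX_eq hΦ hε hX h0 hd0 ht (htc.trans hcT) (fun k hk => htc.trans (hb k hk))
      (fun a => htc.trans (hσ a).le) a
  have hX' : DWorld Φ ε (fun a : A => b a - c) (fun a : A => d a - c) 0 (T - c)
      (fun t => X (t + c)) := by
    have h1 := (hX.mono hc.le le_rfl).shift c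
    rwa [sub_self] at h1
  have hR' : RelD ε (fun a : A => b a - c) (fun a : A => d a - c) (T - c)
      (fun t => X (t + c)) := by
    refine ⟨fun i _ => by linarith [hσ i], fun i hi => ?_, fun i hi => ?_⟩
    · linarith [hR.born i (by linarith)]
    · obtain ⟨p, h1, h2, h3, h4, h5⟩ := hR.exit i (by linarith)
      refine ⟨p, h1, by linarith, by linarith, ?_, ?_⟩
      · simpa only [sub_add_cancel] using h4
      · simpa only [sub_add_cancel] using h5
  obtain ⟨Y', hY', hY0, hN⟩ := hG (fun k => d k - c) (T - c) (fun t => X (t + c)) (by linarith)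
    hX' (fun a => by
      rw [zero_add]
      exact hXt c hc.le le_rfl a) hR' (fun a ha => by linarith [hM a ha])
  have h1 := bworld_shift hY' c
  rw [zero_add] at h1
  have h2 : (fun m : M => wb A (fun k => b k - c) (fun k => d k - c) m + c) =
      fun m : M => wb A b d m := by
    funext m
    unfold wb
    split_ifs <;> ring
  rw [h2] at h1
  obtain ⟨Y, hY, hYz, hYc, hYl⟩ := world_stepD (X := X) hΦ hε hI0 hc hb
    (fun k hk _ => (hσ ⟨k, hk⟩).le) h1 fun m => by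
      rw [sub_self, hY0]
      unfold wz
      by_cases hm : (m : κ) ∈ A
      · rw [dif_pos hm, dif_pos hm]
        simp only [sub_add_cancel]
        unfold lineAt
        congr 3
        ring
      · rw [dif_neg hm, dif_neg hm]
  refine ⟨Y, hY, hYz, fun t ht a hta m hma hmt => ?_⟩
  rcases le_total t c with htc | htc
  · have hmA : (m : κ) ∉ A := fun h => absurd ((hmt h).trans htc) (not_le.2 (hσ ⟨m, h⟩))
    rw [hXt t ht.1 htc, hYl t ⟨ht.1, htc⟩ m hmA]
    exact hI t _ _ (Ne.symm hma)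
  · have h3 := hN (t - c) ⟨by linarith, by linarith [ht.2]⟩ a (by linarith) m hma
      fun h => by linarith [hmt h]
    rw [hYc t htc]
    simpa only [sub_add_cancel] using h3

/-- The isolated group after the release of `B` at time `β`. -/
theorem DX_after (hΦ : AdmissiblePotential Φ) (hε : 0 < ε) {T : ℝ} {X : ℝ → A → PhasePoint}
    {Z : κ → PhasePoint} (hX : DWorld Φ ε (fun a : A => b a) (fun a : A => d a) 0 T X)
    (h0 : ∀ a : A, X 0 a = Z a) (hd0 : ∀ a : A, 0 < d a) {B : Finset κ} {β q : ℝ}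
    (hβ : 0 < β) (hβq : β < q) (hb : ∀ k, 0 < b k → q < b k)
    (hdB : ∀ a : A, (a : κ) ∈ B → d a = β) (hd : ∀ a : A, (a : κ) ∉ B → q < d a)
    {t : ℝ} (ht : β ≤ t) (htq : t ≤ q) (htT : t ≤ T) (a : ↥(A \ B)) :
    X t ⟨a, (Finset.mem_sdiff.1 a.2).1⟩ =
      fl Φ ε (gr₁ A b \ B) (gW M A b ∪ (B ∩ M)) (t - β) (fl Φ ε (gr₁ A b) (gW M A b) β Z) a := by
  have hsub : ∀ a : ↥(A \ B), (a : κ) ∈ A := fun a => (Finset.mem_sdiff.1 a.2).1
  let e : ↥(A \ B) ↪ A := ⟨fun a => ⟨a, hsub a⟩, fun x y h => Subtype.ext (by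
    simpa using congrArg Subtype.val h)⟩
  have hW := (hX.mono hβ.le le_rfl).comp e (fun i hi => by
    have hiB : (i : κ) ∈ B := by
      by_contra hcon
      exact hi ⟨⟨i, Finset.mem_sdiff.2 ⟨i.2, hcon⟩⟩, rfl⟩
    exact (hdB i hiB).le)
  have hda : ∀ a : ↥(A \ B), q < d a := fun a => hd ⟨a, hsub a⟩ (Finset.mem_sdiff.1 a.2).2
  have h1 := hW.eq_flowA hΦ hε ht htT (fun i hi => htq.trans (hb _ (hβ.trans hi)).le)
    (fun i _ => htq.trans (hda i).le) (i := a) (hβq.trans (hda a))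
  have h2 : lv (fun i : ↥(A \ B) => b (e i)) (fun i : ↥(A \ B) => d (e i)) β =
      (gr₁ A b \ B).subtype (· ∈ A \ B) := by
    ext x
    rw [mem_lv, Finset.mem_subtype, Finset.mem_sdiff, mem_gr₁]
    constructor
    · rintro ⟨h3, _⟩
      refine ⟨⟨hsub x, ?_⟩, (Finset.mem_sdiff.1 x.2).2⟩
      by_contra hcon
      exact absurd ((hb _ (not_le.1 hcon)).trans_le h3) (not_lt.2 hβq.le)
    · rintro ⟨⟨_, h3⟩, _⟩
      exact ⟨h3.trans hβ.le, hβq.trans (hda x)⟩
  have h3 : ∀ x : ↥(A \ B), X β (e x) = fl Φ ε (gr₁ A b) (gW M A b) β Z x := fun x =>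
    DX_eq hΦ hε hX h0 hd0 hβ.le (ht.trans htT) (fun k hk => hβq.le.trans (hb k hk).le)
      (fun a => by
        by_cases h : (a : κ) ∈ B
        · exact (hdB a h).ge
        · exact hβq.le.trans (hd a h).le) (e x)
  have h4 : X t (e a) = X t ⟨a, (Finset.mem_sdiff.1 a.2).1⟩ := rfl
  rw [← h4, h1, h2]
  refine flW₁ hΦ hε (fun k hk => ?_) (t - β) _ _ (fun m _ => h3 m) (fun h => ?_) (h3 a)
  · have := Finset.mem_sdiff.1 hk
    exact Finset.mem_sdiff.2 ⟨(mem_gr₁.1 this.1).1, this.2⟩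
  · rcases Finset.mem_union.1 h with h5 | h5
    · exact (mem_gW.1 h5).1.2 (hsub a)
    · exact (Finset.mem_sdiff.1 a.2).2 (Finset.mem_inter.1 h5).1

/-- The world over the release of `B` at time `β`. -/
theorem world_relD (hΦ : AdmissiblePotential Φ) (hε : 0 < ε) {T : ℝ} {X : ℝ → A → PhasePoint}
    {Z : κ → PhasePoint} (hX : DWorld Φ ε (fun a : A => b a) (fun a : A => d a) 0 T X)
    (h0 : ∀ a : A, X 0 a = Z a) (hd0 : ∀ a : A, 0 < d a) (hI : Inj Z) {B : Finset κ} {β q : ℝ}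
    (hβ : 0 < β) (hβq : β < q) (hβT : β ≤ T) (hb : ∀ k, 0 < b k → q < b k)
    (hbB : ∀ k ∈ B, b k ≤ 0) (hBA : B ⊆ A)
    (hdB : ∀ a : A, (a : κ) ∈ B → d a = β) (hd : ∀ a : A, (a : κ) ∉ B → q < d a)
    (hIβ : Inj (fl Φ ε (gr₁ A b) (gW M A b) β Z)) {d' : κ → ℝ} {Y' : ℝ → M → PhasePoint}
    (hY' : BWorld Φ ε (fun m : M => wb (A \ B) (fun k => b k - q) d' m) 0 Y')
    (hY'0 : ∀ m : M, (m : κ) ∉ A \ B → Y' 0 m =
      fl Φ ε (gr₁ A b \ B) (gW M A b ∪ (B ∩ M)) (q - β) (fl Φ ε (gr₁ A b) (gW M A b) β Z) m)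
    (hY'1 : ∀ (m : M) (h : (m : κ) ∈ A), (m : κ) ∉ B → d' m = d m - q ∧
      Y' 0 m = lineAt (d m) (X (d m) ⟨m, h⟩) q) :
    ∃ Y : ℝ → M → PhasePoint, BWorld Φ ε (fun m : M => wb A b d m) 0 Y ∧
      (∀ m : M, Y 0 m = wz A d X Z 0 m) ∧ (∀ t, q ≤ t → Y t = Y' (t - q)) ∧
      (∀ t ∈ Icc β q, ∀ m : M, (m : κ) ∉ A \ B → Y t m =
        fl Φ ε (gr₁ A b \ B) (gW M A b ∪ (B ∩ M)) (t - β)
          (fl Φ ε (gr₁ A b) (gW M A b) β Z) m) ∧
      ∀ t ∈ Icc 0 β, ∀ m : M, (m : κ) ∉ A → Y t m = fl Φ ε (gr₁ A b) (gW M A b) t Z m := by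
  set Zβ := fl Φ ε (gr₁ A b) (gW M A b) β Z with hZβ
  set H₁ : Finset κ := gr₁ A b \ B with hH₁
  set H₂ : Finset κ := gW M A b ∪ (B ∩ M) with hH₂
  have hXβ : ∀ a : A, X β a = Zβ a := fun a =>
    DX_eq hΦ hε hX h0 hd0 hβ.le hβT (fun k hk => hβq.le.trans (hb k hk).le)
      (fun a => by
        by_cases h : (a : κ) ∈ B
        · exact (hdB a h).ge
        · exact hβq.le.trans (hd a h).le) a
  -- from `q` on
  have h1 := bworld_shift hY' q
  rw [zero_add] at h1
  have h2 : BWorld Φ ε (fun m : M => wb A b d m) q (fun t => Y' (t - q)) := by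
    refine h1.congr_births fun m t ht => ?_
    unfold wb
    by_cases hmA : (m : κ) ∈ A
    · by_cases hmB : (m : κ) ∈ B
      · rw [if_neg (fun h => (Finset.mem_sdiff.1 h).2 hmB), if_pos hmA, hdB ⟨m, hmA⟩ hmB]
        constructor
        · intro _; exact hβq.le.trans ht
        · intro _; linarith [hbB m hmB, hβ.trans hβq]
      · rw [if_pos (Finset.mem_sdiff.2 ⟨hmA, hmB⟩), if_pos hmA, (hY'1 m hmA hmB).1,
          sub_add_cancel]
    · rw [if_neg (fun h => hmA (Finset.mem_sdiff.1 h).1), if_neg hmA, sub_add_cancel]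
  -- from `β` to `q`
  set zβ : M → PhasePoint := fun m => wz A d X Zβ β m with hzβ
  have hzβ' : ∀ m : M, (m : κ) ∉ A \ B → zβ m = Zβ m := by
    intro m hm
    simp only [hzβ, wz]
    by_cases hmA : (m : κ) ∈ A
    · have hmB : (m : κ) ∈ B := by
        by_contra hcon
        exact hm (Finset.mem_sdiff.2 ⟨hmA, hcon⟩)
      rw [dif_pos hmA, hdB ⟨m, hmA⟩ hmB, lineAt_self, hXβ]
    · rw [dif_neg hmA]
  have hH₂AB : ∀ k ∈ H₂, k ∉ A \ B := by
    intro k hk h
    rcases Finset.mem_union.1 hk with h3 | h3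
    · exact (mem_gW.1 h3).1.2 (Finset.mem_sdiff.1 h).1
    · exact (Finset.mem_sdiff.1 h).2 (Finset.mem_inter.1 h3).1
  have hH₁AB : ∀ k ∈ H₁, k ∈ A \ B := fun k hk => Finset.mem_sdiff.2
    ⟨(mem_gr₁.1 (Finset.mem_sdiff.1 hk).1).1, (Finset.mem_sdiff.1 hk).2⟩
  have hsub : H₂ ⊆ M := by
    intro k hk
    rcases Finset.mem_union.1 hk with h3 | h3
    · exact gW_subset h3
    · exact (Finset.mem_inter.1 h3).2
  have hA₂ : ∀ t ∈ Ico β q, ∀ m : M, m ∈ H₂.subtype (· ∈ M) ↔ wb A b d m ≤ t := by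
    intro t ht m
    rw [Finset.mem_subtype, hH₂, Finset.mem_union, mem_gW, Finset.mem_inter]
    unfold wb
    by_cases hmA : (m : κ) ∈ A
    · rw [if_pos hmA]
      constructor
      · rintro (h | h)
        · exact absurd hmA h.1.2
        · rw [hdB ⟨m, hmA⟩ h.1]; exact ht.1
      · intro h
        right
        refine ⟨?_, m.2⟩
        by_contra hcon
        exact absurd ((hd ⟨m, hmA⟩ hcon).le.trans h) (not_le.2 ht.2)
    · rw [if_neg hmA]
      constructor
      · rintro (h | h)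
        · exact h.2.trans (hβ.le.trans ht.1)
        · exact absurd (hBA h.1) hmA
      · intro h
        refine Or.inl ⟨⟨m.2, hmA⟩, ?_⟩
        by_contra hcon
        exact absurd ((hb m (not_le.1 hcon)).le.trans h) (not_le.2 ht.2)
  have hzW : ∀ m : M, (m : κ) ∈ H₂ → zβ m = Zβ m := fun m hm => hzβ' m (hH₂AB m hm)
  have hZ₂ : (fun a : H₂.subtype (· ∈ M) => zβ a) ∈ Dom Φ (H₂.subtype (· ∈ M)) := by
    refine Or.inr fun i j hij => ?_
    show (zβ i).1 ≠ (zβ j).1
    rw [hzW _ (Finset.mem_subtype.1 i.2), hzW _ (Finset.mem_subtype.1 j.2)]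
    exact hIβ _ _ fun h => hij (Subtype.ext (Subtype.ext h))
  have hY₂ : Y' (q - q) = flowA Φ ε (H₂.subtype (· ∈ M)) (q - β) zβ := by
    funext m
    rw [sub_self]
    by_cases hm : (m : κ) ∈ A \ B
    · have hmA := (Finset.mem_sdiff.1 hm).1
      have hmB := (Finset.mem_sdiff.1 hm).2
      rw [(hY'1 m hmA hmB).2, flowA_not_mem _ _ _ (fun h => hH₂AB _ (Finset.mem_subtype.1 h) hm)]
      simp only [hzβ]
      unfold wz
      rw [dif_pos hmA, lineAt_free]
    · rw [hY'0 m hm]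
      exact (flW hΦ hε hsub (q - β) Zβ zβ hzW (fun h => hm (hH₁AB _ h)) (hzβ' m hm)).symm
  obtain ⟨Y₂, hYw, hYβ, hYq⟩ := bworld_cons hΦ hε hβq hA₂ hZ₂ h2 hY₂
  obtain ⟨Y, hY, hYz, hYc, hYl⟩ := world_stepD (X := X) hΦ hε hI hβ
    (fun k hk => hβq.le.trans (hb k hk).le)
    (fun k hk hkM => by
      by_cases hkB : k ∈ B
      · exact (hdB ⟨k, hk⟩ hkB).ge
      · exact hβq.le.trans (hd ⟨k, hk⟩ hkB).le) hYw fun m => by rw [hYβ]
  refine ⟨Y, hY, hYz, fun t ht => ?_, fun t ht m hm => ?_, hYl⟩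
  · rw [hYc t (hβq.le.trans ht), hYq t ht]
  · rw [hYc t ht.1]
    have h3 := hYw.eq_flowA hΦ hε ht.1 (fun m' hm' => by
      unfold wb at hm' ⊢
      by_cases h : (m' : κ) ∈ A
      · rw [if_pos h] at hm' ⊢
        by_cases hB : (m' : κ) ∈ B
        · rw [hdB ⟨m', h⟩ hB] at hm'
          exact absurd hm' (lt_irrefl _)
        · exact ht.2.trans (hd ⟨m', h⟩ hB).le
      · rw [if_neg h] at hm' ⊢
        exact ht.2.trans (hb m' (hβ.trans hm')).le)
    have h4 : alive (fun m : M => wb A b d m) β = H₂.subtype (· ∈ M) := by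
      ext m
      rw [mem_alive, hA₂ β ⟨le_rfl, hβq⟩]
    rw [h3, h4, hYβ]
    exact flW hΦ hε hsub (t - β) Zβ zβ hzW (fun h => hm (hH₁AB _ h)) (hzβ' m hm)

/-- No coincidence up to the release time `β`. -/
theorem nc_before {X : ℝ → A → PhasePoint} {J : ℝ → κ → PhasePoint}
    {B : Finset κ} {β : ℝ} (hJ : ∀ t, Inj (J t))
    (hXJ : ∀ t, 0 ≤ t → t ≤ β → ∀ a : A, X t a = J t a) {Y : ℝ → M → PhasePoint}
    (hY : ∀ t ∈ Icc 0 β, ∀ m : M, (m : κ) ∉ A → Y t m = J t m)
    (hYB : ∀ m : M, (m : κ) ∈ B → Y β m = J β m)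
    (hdB : ∀ a : A, (a : κ) ∈ B → d a = β) (hd : ∀ a : A, (a : κ) ∉ B → β < d a)
    {t : ℝ} (ht : t ∈ Icc 0 β) (a : A) (m : M) (hma : (m : κ) ≠ a)
    (hmt : (m : κ) ∈ A → d m ≤ t) : (X t a).1 ≠ (Y t m).1 := by
  have h1 : Y t m = J t m := by
    by_cases hmA : (m : κ) ∈ A
    · by_cases hmB : (m : κ) ∈ B
      · have h2 := hmt hmA
        rw [hdB ⟨m, hmA⟩ hmB] at h2
        have h3 : t = β := le_antisymm ht.2 h2
        rw [h3]
        exact hYB m hmB
      · exact absurd ((hmt hmA).trans ht.2) (not_le.2 (hd ⟨m, hmA⟩ hmB))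
    · exact hY t ht m hmA
  rw [hXJ t ht.1 ht.2, h1]
  exact hJ t _ _ (Ne.symm hma)

/-- Step over the release of `B` at time `β`. -/
theorem stepD_rel (hΦ : AdmissiblePotential Φ) (hε : 0 < ε) {T : ℝ} {X : ℝ → A → PhasePoint}
    {Z : κ → PhasePoint} (hT : 0 ≤ T)
    (hX : DWorld Φ ε (fun a : A => b a) (fun a : A => d a) 0 T X)
    (h0 : ∀ a : A, X 0 a = Z a) (hR : RelD ε (fun a : A => b a) (fun a : A => d a) T X)
    (hM : ∀ a : A, (a : κ) ∈ M → d a ≤ T)
    (hI : ∀ t, Inj (fl Φ ε (gr₁ A b) (gW M A b) t Z)) {B : Finset κ} {β q : ℝ}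
    (hβ : 0 < β) (hβq : β < q) (hβT : β ≤ T) (hqT : β < T → q < T)
    (hb : ∀ k, 0 < b k → q < b k) (hbB : ∀ k ∈ B, b k ≤ 0) (hBA : B ⊆ A)
    (hdB : ∀ a : A, (a : κ) ∈ B → d a = β) (hd : ∀ a : A, (a : κ) ∉ B → q < d a)
    (hG : GoodD Φ ε M (A \ B) (fun k => b k - q)
      (fl Φ ε (gr₁ A b \ B) (gW M A b ∪ (B ∩ M)) (q - β) (fl Φ ε (gr₁ A b) (gW M A b) β Z)))
    (hIq : ∀ t, Inj (fl Φ ε (gr₁ A b \ B) (gW M A b ∪ (B ∩ M)) t
      (fl Φ ε (gr₁ A b \ B) (gW M A b ∪ (B ∩ M)) (q - β)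
        (fl Φ ε (gr₁ A b) (gW M A b) β Z)))) :
    ∃ Y : ℝ → M → PhasePoint, BWorld Φ ε (fun m : M => wb A b d m) 0 Y ∧
      (∀ m : M, Y 0 m = wz A d X Z 0 m) ∧
      ∀ t ∈ Icc 0 T, ∀ a : A, t ≤ d a → ∀ m : M, (m : κ) ≠ a → ((m : κ) ∈ A → d m ≤ t) →
        (X t a).1 ≠ (Y t m).1 := by
  have hd0 : ∀ a : A, 0 < d a := fun a => hR.d_pos hT a
  have hI0 : Inj Z := by
    have := hI 0
    rwa [fl_zero hΦ hε] at this
  set J : ℝ → κ → PhasePoint := fun t => fl Φ ε (gr₁ A b) (gW M A b) t Z with hJ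
  set H₁ : Finset κ := gr₁ A b \ B with hH₁
  set H₂ : Finset κ := gW M A b ∪ (B ∩ M) with hH₂
  have hdis : Disjoint H₁ H₂ := by
    rw [Finset.disjoint_left]
    intro k h1 h2
    rcases Finset.mem_union.1 h2 with h3 | h3
    · exact (mem_gW.1 h3).1.2 (mem_gr₁.1 (Finset.mem_sdiff.1 h1).1).1
    · exact (Finset.mem_sdiff.1 h1).2 (Finset.mem_inter.1 h3).1
  have hdβ : ∀ a : A, β ≤ d a := fun a => by
    by_cases h : (a : κ) ∈ B
    · exact (hdB a h).ge
    · exact hβq.le.trans (hd a h).le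
  have hXJ : ∀ t, 0 ≤ t → t ≤ β → ∀ a : A, X t a = J t a := fun t ht htβ a =>
    DX_eq hΦ hε hX h0 hd0 ht (htβ.trans hβT) (fun k hk => (htβ.trans hβq.le).trans (hb k hk).le)
      (fun a => htβ.trans (hdβ a)) a
  rcases hβT.lt_or_eq with hlt | heq
  · -- the motion is given after `q`
    have hqT' := hqT hlt
    have hsub : ∀ a : ↥(A \ B), (a : κ) ∈ A := fun a => (Finset.mem_sdiff.1 a.2).1
    have hnB : ∀ a : ↥(A \ B), (a : κ) ∉ B := fun a => (Finset.mem_sdiff.1 a.2).2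
    have hqd : ∀ a : ↥(A \ B), q < d (a : κ) := fun a => hd ⟨a, hsub a⟩ (hnB a)
    let e : ↥(A \ B) ↪ A := ⟨fun a => ⟨a, hsub a⟩, fun x y h => Subtype.ext (by
      simpa using congrArg Subtype.val h)⟩
    set X' : ℝ → ↥(A \ B) → PhasePoint := fun t a => X (t + q) (e a) with hX'
    have hW : DWorld Φ ε (fun a : ↥(A \ B) => b a - q) (fun a : ↥(A \ B) => d a - q) 0 (T - q)
        X' := by
      have h1 := ((hX.mono (hβ.trans hβq).le le_rfl).comp e (fun i hi => by
        have hiB : (i : κ) ∈ B := by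
          by_contra hcon
          exact hi ⟨⟨i, Finset.mem_sdiff.2 ⟨i.2, hcon⟩⟩, rfl⟩
        exact (hdB i hiB).le.trans hβq.le)).shift q
      rw [sub_self] at h1
      exact h1
    have hag : ∀ t, β ≤ t → t ≤ q → ∀ a : ↥(A \ B), X t (e a) = fl Φ ε H₁ H₂ (t - β) (J β) a :=
      fun t ht htq a => DX_after hΦ hε hX h0 hd0 hβ hβq hb hdB hd ht htq (htq.trans hqT'.le) a
    have hR' : RelD ε (fun a : ↥(A \ B) => b a - q) (fun a : ↥(A \ B) => d a - q) (T - q) X' := by
      refine ⟨fun i _ => by linarith [hqd i], fun i hi => ?_, fun i hi => ?_⟩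
      · have h1 := hR.born (e i) (by show d (i : κ) ≤ T; linarith)
        have h2 : b (i : κ) ≤ d (i : κ) := h1
        linarith
      · obtain ⟨p, h1, h2, h3, h4, h5⟩ := hR.exit (e i) (by show d (i : κ) ≤ T; linarith)
        have h3' : d (i : κ) ≤ d p := h3
        have hpB : (p : κ) ∉ B := by
          intro hp
          rw [hdB p hp] at h3'
          exact absurd (hβq.trans (hd (e i) (hnB i))) (not_lt.2 h3')
        refine ⟨⟨p, Finset.mem_sdiff.2 ⟨p.2, hpB⟩⟩, fun h => h1 ?_, ?_, ?_, ?_, ?_⟩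
        · exact Subtype.ext (congrArg (fun x : ↥(A \ B) => (x : κ)) h)
        · have h2' : b (p : κ) ≤ d (i : κ) := h2
          show b (p : κ) - q ≤ d (i : κ) - q
          linarith
        · show d (i : κ) - q ≤ d (p : κ) - q
          linarith
        · show dist (X (d (i : κ) - q + q) (e i)).1 (X (d (i : κ) - q + q) p).1 = ε
          rw [sub_add_cancel]
          exact h4
        · show 0 < inner ℝ ((X (d (i : κ) - q + q) (e i)).1 - (X (d (i : κ) - q + q) p).1)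
            ((X (d (i : κ) - q + q) (e i)).2 - (X (d (i : κ) - q + q) p).2)
          rw [sub_add_cancel]
          exact h5
    obtain ⟨Y', hY', hY'0, hN⟩ := hG (fun k => d k - q) (T - q) X' (by linarith) hW (fun a => by
      show X (0 + q) (e a) = _
      rw [zero_add]
      exact hag q hβq.le le_rfl a) hR' (fun a ha => by
        have h1 : d (a : κ) ≤ T := hM (e a) ha
        linarith)
    obtain ⟨Y, hY, hYz, hYq, hYm, hYl⟩ := world_relD hΦ hε hX h0 hd0 hI0 hβ hβq hβT hb hbB hBA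
      hdB hd (hI β) hY' (fun m hm => by
        rw [hY'0]
        unfold wz
        rw [dif_neg hm]) (fun m hmA hmB => by
        refine ⟨rfl, ?_⟩
        rw [hY'0]
        unfold wz
        rw [dif_pos (Finset.mem_sdiff.2 ⟨hmA, hmB⟩)]
        simp only [hX', sub_add_cancel]
        unfold lineAt
        congr 3
        ring)
    refine ⟨Y, hY, hYz, fun t ht a hta m hma hmt => ?_⟩
    rcases le_total t β with h1 | h1
    · refine nc_before (J := J) (B := B) hI hXJ hYl (fun m hmB => ?_) hdB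
        (fun a ha => hβq.trans (hd a ha)) ⟨ht.1, h1⟩ a m hma hmt
      rw [hYm β ⟨le_rfl, hβq.le⟩ m (fun h => (Finset.mem_sdiff.1 h).2 hmB), sub_self,
        fl_zero hΦ hε]
    rcases h1.lt_or_eq with h1' | h1'
    swap
    · subst h1'
      refine nc_before (J := J) (B := B) hI hXJ hYl (fun m hmB => ?_) hdB
        (fun a ha => hβq.trans (hd a ha)) ⟨ht.1, le_rfl⟩ a m hma hmt
      rw [hYm β ⟨le_rfl, hβq.le⟩ m (fun h => (Finset.mem_sdiff.1 h).2 hmB), sub_self,
        fl_zero hΦ hε]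
    have haB : (a : κ) ∉ B := fun h => by
      rw [hdB a h] at hta
      exact absurd hta (not_le.2 h1')
    have haAB : (a : κ) ∈ A \ B := Finset.mem_sdiff.2 ⟨a.2, haB⟩
    rcases le_total t q with h2 | h2
    · have hmAB : (m : κ) ∉ A \ B := fun h => by
        have h3 := Finset.mem_sdiff.1 h
        exact absurd ((hmt h3.1).trans h2) (not_le.2 (hd ⟨m, h3.1⟩ h3.2))
      have h3 : X t a = fl Φ ε H₁ H₂ (t - β) (J β) a := hag t h1 h2 ⟨a, haAB⟩
      rw [h3, hYm t ⟨h1, h2⟩ m hmAB]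
      have h4 := hIq (t - q)
      rw [← fl_add hΦ hε hdis] at h4
      have h5 : q - β + (t - q) = t - β := by ring
      rw [h5] at h4
      exact h4 _ _ (Ne.symm hma)
    · have h3 := hN (t - q) ⟨by linarith, by linarith [ht.2]⟩ ⟨a, haAB⟩
        (show t - q ≤ d (a : κ) - q by linarith) m hma fun h => by
          have := hmt (Finset.mem_sdiff.1 h).1
          show d (m : κ) - q ≤ t - q
          linarith
      rw [hYq t h2]
      have h4 : X' (t - q) ⟨a, haAB⟩ = X t a := by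
        simp only [hX', sub_add_cancel]
        rfl
      rw [h4] at h3
      exact h3
  · -- nobody is released after `β = T`
    have hnM : ∀ a : A, (a : κ) ∉ B → (a : κ) ∉ M := fun a ha haM => by
      have h1 := hM a haM
      rw [← heq] at h1
      exact absurd (h1.trans_lt hβq) (not_lt.2 (hd a ha).le)
    set Z' : κ → PhasePoint := fl Φ ε H₁ H₂ (q - β) (J β) with hZ'
    have hW : DWorld Φ ε (fun a : ↥(A \ B) => b a - q) (fun _ : ↥(A \ B) => (1 : ℝ)) 0 0
        (fun _ a => Z' a) := by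
      refine ⟨fun i => continuousOn_const, fun t ht ht' => ?_, fun t ht ht' => ?_⟩
      · exact absurd ht' (not_lt.2 ht)
      · exact absurd ht' (not_lt.2 ht)
    obtain ⟨Y', hY', hY'0, -⟩ := hG (fun _ => 1) 0 (fun _ a => Z' a) le_rfl hW (fun a => rfl)
      ⟨fun i hi => absurd hi (by norm_num), fun i hi => absurd hi (by norm_num),
        fun i hi => absurd hi (by norm_num)⟩ (fun a ha => absurd ha
          (hnM ⟨a, (Finset.mem_sdiff.1 a.2).1⟩ (Finset.mem_sdiff.1 a.2).2))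
    obtain ⟨Y, hY, hYz, hYq, hYm, hYl⟩ := world_relD hΦ hε hX h0 hd0 hI0 hβ hβq hβT hb hbB hBA
      hdB hd (hI β) hY' (fun m hm => by
        rw [hY'0]
        unfold wz
        rw [dif_neg hm]) (fun m hmA hmB => absurd m.2 (hnM ⟨m, hmA⟩ hmB))
    refine ⟨Y, hY, hYz, fun t ht a hta m hma hmt => ?_⟩
    refine nc_before (J := J) (B := B) hI hXJ hYl (fun m hmB => ?_) hdB
      (fun a ha => hβq.trans (hd a ha)) ⟨ht.1, ht.2.trans heq.ge⟩ a m hma hmt
    rw [hYm β ⟨le_rfl, hβq.le⟩ m (fun h => (Finset.mem_sdiff.1 h).2 hmB), sub_self,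
      fl_zero hΦ hε]

theorem ae_goodD_aux (hΦ : AdmissiblePotential Φ) (hε : 0 < ε) (M : Finset κ) :
    ∀ (n : ℕ) (A : Finset κ) (b : κ → ℝ),
      A.card + (Finset.univ.filter fun k => 0 < b k).card ≤ n →
      ∀ᵐ Z : κ → PhasePoint, GoodD Φ ε M A b Z := by
  intro n
  induction n with
  | zero =>
    intro A b hn
    have hA : A = ∅ := Finset.card_eq_zero.1 (by omega)
    subst hA
    have h1 : ∀ᵐ Z : κ → PhasePoint, BWorld Φ ε (fun m : M => b m) 0
        (fun t => evo Φ ε (fun m : M => b m) 0 t (fun m : M => Z m)) :=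
      ae_restrict (ae_bworld (ι := M) hΦ hε (fun m : M => b m) 0)
    filter_upwards [h1] with Z hZ d T X _ _ _ _ _
    refine ⟨_, hZ.congr_births fun m t _ => ?_, fun m => ?_, fun t _ a => ?_⟩
    · unfold wb
      rw [if_neg (Finset.notMem_empty _)]
    · rw [evo_self hΦ hε]
      unfold wz
      rw [dif_neg (Finset.notMem_empty _)]
    · exact absurd a.2 (Finset.notMem_empty _)
  | succ n ih =>
    intro A b hn
    have hd : Disjoint (gr₁ A b) (gW M A b) := disjoint_gW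
    have g1 := ae_inj_fl (κ := κ) hΦ hε hd
    have g2 : ∀ᵐ Z : κ → PhasePoint, ∀ k, 0 < b k → (∀ k', 0 < b k' → b k ≤ b k') →
        GoodD Φ ε M A (fun l => b l - b k) (fl Φ ε (gr₁ A b) (gW M A b) (b k) Z) ∧
        NoEq ε (fl Φ ε (gr₁ A b) (gW M A b) (b k) Z) := by
      rw [ae_all_iff]; intro k
      by_cases hk : 0 < b k ∧ ∀ k', 0 < b k' → b k ≤ b k'
      · have h1 : ∀ᵐ Z : κ → PhasePoint, GoodD Φ ε M A (fun l => b l - b k) Z := by
          refine ih A _ ?_
          have hlt : (Finset.univ.filter fun l => 0 < b l - b k).card <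
              (Finset.univ.filter fun l => 0 < b l).card := by
            refine Finset.card_lt_card ?_
            rw [Finset.ssubset_iff_of_subset]
            · exact ⟨k, by simp [hk.1], by simp⟩
            · intro l hl
              simp only [Finset.mem_filter, Finset.mem_univ, true_and] at hl ⊢
              linarith [hk.1]
          omega
        have h2 := (measurePreserving_fl (κ := κ) hΦ hε hd (b k)).quasiMeasurePreserving.ae
          (h1.and (ae_noEq hΦ hε))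
        filter_upwards [h2] with Z hZ _ _ using hZ
      · exact Eventually.of_forall fun Z h1 h2 => absurd ⟨h1, h2⟩ hk
    have g3 : ∀ᵐ Z : κ → PhasePoint, ∀ B : Finset κ, B ⊆ A → B.Nonempty →
        ∀ q : ℚ, (0 : ℝ) < q → ∀ β : ℝ, ∀ i j : κ,
        Inj (fl Φ ε (gr₁ A b) (gW M A b) β Z) →
        dist (fl Φ ε (gr₁ A b) (gW M A b) β Z i).1 (fl Φ ε (gr₁ A b) (gW M A b) β Z j).1 = ε →
        0 < inner ℝ ((fl Φ ε (gr₁ A b) (gW M A b) β Z i).1 - (fl Φ ε (gr₁ A b) (gW M A b) β Z j).1)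
          ((fl Φ ε (gr₁ A b) (gW M A b) β Z i).2 - (fl Φ ε (gr₁ A b) (gW M A b) β Z j).2) →
        GoodD Φ ε M (A \ B) (fun k => b k - q)
          (fl Φ ε (gr₁ A b \ B) (gW M A b ∪ (B ∩ M)) (q - β)
            (fl Φ ε (gr₁ A b) (gW M A b) β Z)) ∧
        ∀ t, Inj (fl Φ ε (gr₁ A b \ B) (gW M A b ∪ (B ∩ M)) t
          (fl Φ ε (gr₁ A b \ B) (gW M A b ∪ (B ∩ M)) (q - β)
            (fl Φ ε (gr₁ A b) (gW M A b) β Z))) := by
      rw [ae_all_iff]; intro B
      rw [ae_all_iff]; intro hBA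
      rw [ae_all_iff]; intro hBn
      rw [ae_all_iff]; intro q
      rw [ae_all_iff]; intro hq
      have hd' : Disjoint (gr₁ A b \ B) (gW M A b ∪ (B ∩ M)) := by
        rw [Finset.disjoint_left]
        intro k h1 h2
        rcases Finset.mem_union.1 h2 with h3 | h3
        · exact (mem_gW.1 h3).1.2 (mem_gr₁.1 (Finset.mem_sdiff.1 h1).1).1
        · exact (Finset.mem_sdiff.1 h1).2 (Finset.mem_inter.1 h3).1
      have h1 : ∀ᵐ Z : κ → PhasePoint, GoodD Φ ε M (A \ B) (fun k => b k - q) Z := by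
        refine ih (A \ B) _ ?_
        have hlt : (A \ B).card < A.card := by
          refine Finset.card_lt_card ?_
          rw [Finset.ssubset_iff_of_subset Finset.sdiff_subset]
          obtain ⟨k, hk⟩ := hBn
          exact ⟨k, hBA hk, fun h => (Finset.mem_sdiff.1 h).2 hk⟩
        have hle : (Finset.univ.filter fun l => 0 < b l - (q : ℝ)).card ≤
            (Finset.univ.filter fun l => 0 < b l).card := by
          refine Finset.card_le_card fun l hl => ?_
          simp only [Finset.mem_filter, Finset.mem_univ, true_and] at hl ⊢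
          linarith
        omega
      have h2 := ae_inj_fl (κ := κ) hΦ hε hd'
      have h3 := transfer_null (G₁ := gr₁ A b) (G₂ := gW M A b) (H₁ := gr₁ A b \ B)
        (H₂ := gW M A b ∪ (B ∩ M)) hΦ hε hd hd' q (ae_iff.1 (h1.and h2))
      filter_upwards [measure_eq_zero_iff_ae_notMem.1 h3] with Z hZ β i j hI hdist hin
      by_contra hcon
      exact hZ ⟨β, i, j, hI, hdist, hin, hcon⟩
    have g4 : ∀ᵐ Z : κ → PhasePoint, BWorld Φ ε (fun m : M => b m) 0
        (fun t => evo Φ ε (fun m : M => b m) 0 t (fun m : M => Z m)) :=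
      ae_restrict (ae_bworld (ι := M) hΦ hε (fun m : M => b m) 0)
    filter_upwards [g1, g2, g3, g4] with Z hg1 hg2 hg3 hg4 d T X hT hX h0 hR hM
    have hd0 : ∀ a : A, 0 < d a := fun a => hR.d_pos hT a
    by_cases hdie : ∃ a : A, d a ≤ T
    · -- somebody dies
      obtain ⟨a₁, ha₁⟩ := hdie
      obtain ⟨i₀, hi₀, hmin⟩ := Finset.exists_min_image A d ⟨a₁, a₁.2⟩
      have hmin' : ∀ a : A, d i₀ ≤ d a := fun a => hmin a a.2
      set β := d i₀ with hβ
      have hβT : β ≤ T := (hmin' a₁).trans ha₁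
      have hβ0 : 0 < β := hd0 ⟨i₀, hi₀⟩
      obtain ⟨p, hpi, hbp, hdp, hpd, hpin⟩ := hR.exit ⟨i₀, hi₀⟩ hβT
      have hpd' : dist (X β ⟨i₀, hi₀⟩).1 (X β p).1 = ε := hpd
      have hpin' : 0 < inner ℝ ((X β ⟨i₀, hi₀⟩).1 - (X β p).1)
          ((X β ⟨i₀, hi₀⟩).2 - (X β p).2) := hpin
      by_cases hex : ∃ k, 0 < b k ∧ b k ≤ β
      · -- an external birth comes first
        obtain ⟨k₁, hk₁, hk₁β⟩ := hex
        obtain ⟨k₀, hk₀, hk₀min⟩ := Finset.exists_min_image (Finset.univ.filter fun k => 0 < b k) b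
          ⟨k₁, by simp [hk₁]⟩
        have hk₀0 : 0 < b k₀ := (Finset.mem_filter.1 hk₀).2
        have hk₀m : ∀ k', 0 < b k' → b k₀ ≤ b k' := fun k' hk' => hk₀min k' (by simp [hk'])
        have hle : b k₀ ≤ β := (hk₀m k₁ hk₁).trans hk₁β
        obtain ⟨hG, hNE⟩ := hg2 k₀ hk₀0 hk₀m
        have hlt : b k₀ < β := by
          refine lt_of_le_of_ne hle fun he => ?_
          have h1 : ∀ a : A, X β a = fl Φ ε (gr₁ A b) (gW M A b) (b k₀) Z a := by
            intro a
            rw [← he]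
            exact DX_eq hΦ hε hX h0 hd0 hk₀0.le (hle.trans hβT) hk₀m
              (fun a => hle.trans (hmin' a)) a
          rw [h1, h1] at hpd'
          exact hNE _ _ (fun h => hpi (Subtype.ext h.symm)) hpd'
        exact stepD_ext hΦ hε hg1 hk₀0 hk₀m hG (hle.trans hβT) hX h0 hR hM
          (fun a => hlt.trans_le (hmin' a))
      · -- a release comes first
        push Not at hex
        set B : Finset κ := A.filter fun k => d k = β with hB
        have hBmem : ∀ k, k ∈ B ↔ k ∈ A ∧ d k = β := by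
          intro k
          rw [hB, Finset.mem_filter]
        have hev : ∀ᶠ x in 𝓝[>] β, (∀ k, 0 < b k → x < b k) ∧
            (∀ k, k ∈ A → k ∉ B → x < d k) ∧ (β < T → x < T) := by
          refine (Filter.eventually_all.2 fun k => ?_).and
            ((Filter.eventually_all.2 fun k => ?_).and ?_)
          · by_cases hk : 0 < b k
            · exact mem_of_superset (Ioo_mem_nhdsGT (hex k hk)) fun x hx _ => hx.2
            · exact Eventually.of_forall fun x h => absurd h hk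
          · by_cases hk : k ∈ A ∧ k ∉ B
            · have hlt : β < d k := by
                refine lt_of_le_of_ne (hmin' ⟨k, hk.1⟩) fun he => ?_
                exact hk.2 ((hBmem k).2 ⟨hk.1, he.symm⟩)
              exact mem_of_superset (Ioo_mem_nhdsGT hlt) fun x hx _ _ => hx.2
            · exact Eventually.of_forall fun x h1 h2 => absurd ⟨h1, h2⟩ hk
          · by_cases hk : β < T
            · exact mem_of_superset (Ioo_mem_nhdsGT hk) fun x hx _ => hx.2
            · exact Eventually.of_forall fun x h => absurd h hk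
        obtain ⟨r, hr, hrs⟩ := (mem_nhdsGT_iff_exists_Ioo_subset).1 hev
        obtain ⟨q, hq1, hq2⟩ := exists_rat_btwn (show β < r from hr)
        obtain ⟨hqb, hqd, hqT⟩ := hrs ⟨hq1, hq2⟩
        have hXβ : ∀ a : A, X β a = fl Φ ε (gr₁ A b) (gW M A b) β Z a := fun a =>
          DX_eq hΦ hε hX h0 hd0 hβ0.le hβT (fun k hk => (hex k hk).le) hmin' a
        rw [hXβ, hXβ] at hpd' hpin'
        obtain ⟨hG, hIq⟩ := hg3 B (Finset.filter_subset _ _) ⟨i₀, (hBmem i₀).2 ⟨hi₀, rfl⟩⟩ q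
          (hβ0.trans hq1) β i₀ p (hg1 β) hpd' hpin'
        refine stepD_rel hΦ hε hT hX h0 hR hM hg1 hβ0 hq1 hβT hqT hqb (fun k hk => ?_)
          (Finset.filter_subset _ _) (fun a ha => ((hBmem a).1 ha).2)
          (fun a ha => hqd a a.2 ha) hG hIq
        by_contra hcon
        have hkA := ((hBmem k).1 hk).1
        have hkd := ((hBmem k).1 hk).2
        have h1 := hR.born ⟨k, hkA⟩ (show d k ≤ T by rw [hkd]; exact hβT)
        have h2 : b k ≤ d k := h1
        rw [hkd] at h2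
        exact absurd h2 (not_le.2 (hex k (not_le.1 hcon)))
    · -- nobody dies in `[0, T]`
      push Not at hdie
      have hAM : ∀ m : M, (m : κ) ∉ A := fun m hm => absurd (hM ⟨m, hm⟩ m.2)
        (not_le.2 (hdie ⟨m, hm⟩))
      by_cases hex : ∃ k, 0 < b k ∧ b k ≤ T
      · obtain ⟨k₁, hk₁, hk₁T⟩ := hex
        obtain ⟨k₀, hk₀, hk₀min⟩ := Finset.exists_min_image (Finset.univ.filter fun k => 0 < b k) b
          ⟨k₁, by simp [hk₁]⟩
        have hk₀0 : 0 < b k₀ := (Finset.mem_filter.1 hk₀).2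
        have hk₀m : ∀ k', 0 < b k' → b k₀ ≤ b k' := fun k' hk' => hk₀min k' (by simp [hk'])
        have hle : b k₀ ≤ T := (hk₀m k₁ hk₁).trans hk₁T
        exact stepD_ext hΦ hε hg1 hk₀0 hk₀m (hg2 k₀ hk₀0 hk₀m).1 hle hX h0 hR hM
          (fun a => hle.trans_lt (hdie a))
      · push Not at hex
        have hY : BWorld Φ ε (fun m : M => wb A b d m) 0
            (fun t => evo Φ ε (fun m : M => b m) 0 t (fun m : M => Z m)) :=
          hg4.congr_births fun m t _ => by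
            unfold wb
            rw [if_neg (hAM m)]
        refine ⟨_, hY, fun m => ?_, fun t ht a _ m hma _ => ?_⟩
        · rw [evo_self hΦ hε]
          unfold wz
          rw [dif_neg (hAM m)]
        · have h1 := hg4.eq_flowA hΦ hε ht.1 (fun m' hm' => ht.2.trans (hex m' hm').le)
          have h2 : alive (fun m : M => b m) 0 = (gW M A b).subtype (· ∈ M) := by
            ext m
            rw [mem_alive, Finset.mem_subtype, mem_gW]
            exact ⟨fun h => ⟨⟨m.2, hAM m⟩, h⟩, fun h => h.2⟩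
          have h3 : evo Φ ε (fun m : M => b m) 0 t (fun m : M => Z m) m =
              fl Φ ε (gr₁ A b) (gW M A b) t Z m := by
            rw [h1, h2, sub_zero, evo_self hΦ hε]
            exact flW hΦ hε gW_subset t Z _ (fun _ _ => rfl) (not_mem_gr₁ (hAM m)) rfl
          show (X t a).1 ≠ (evo Φ ε (fun m : M => b m) 0 t (fun m : M => Z m) m).1
          rw [h3, DX_eq hΦ hε hX h0 hd0 ht.1 ht.2 (fun k hk => ht.2.trans (hex k hk).le)
            (fun a => ht.2.trans (hdie a).le) a]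
          exact hg1 t _ _ (Ne.symm hma)

/-- **The transfer theorem with deaths.** -/
theorem ae_goodD (hΦ : AdmissiblePotential Φ) (hε : 0 < ε) (M A : Finset κ) (b : κ → ℝ) :
    ∀ᵐ Z : κ → PhasePoint, GoodD Φ ε M A b Z :=
  ae_goodD_aux hΦ hε M _ A b le_rfl

end

end Crest.Agent.R122.TransOk151
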