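import Crest.Agent.R122.Fl_151

/-!
# Release data (row 122, item (4) of the H12 plan), helper151

`Rel ε b S σ T X`: `X` is a motion of the particles `α` (births `b`), `σ i` (`i ∈ S`) is a release
time: at time `σ i` the particle `i` is at distance exactly `ε` from another particle born and moves
away from it, and afterwards, up to time `T`, it is at distance more than `ε` from everybody.

`StartSep ε z z'`: two states at distance more than `ε`, or exactly `ε` and moving away from each
other.
-/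

set_option autoImplicit false

open Set
open Crest.AnalysisR.Kinetic

namespace Crest.Agent.R122.TransOk151

/-- Release data. -/
structure Rel {α : Type*} (ε : ℝ) (b : α → ℝ) (S : Set α) (σ : α → ℝ) (T : ℝ)
    (X : ℝ → α → PhasePoint) : Prop where
  pos : ∀ i ∈ S, 0 < σ i
  le : ∀ i ∈ S, σ i ≤ T
  born : ∀ i ∈ S, b i ≤ σ i
  exit : ∀ i ∈ S, ∃ p, p ≠ i ∧ b p ≤ σ i ∧ dist (X (σ i) i).1 (X (σ i) p).1 = ε ∧
    0 < inner ℝ ((X (σ i) i).1 - (X (σ i) p).1) ((X (σ i) i).2 - (X (σ i) p).2)
  free : ∀ i ∈ S, ∀ t ∈ Ioc (σ i) T, ∀ j, j ≠ i → b j ≤ t → ε < dist (X t i).1 (X t j).1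

/-- Two states which separate at once. -/
def StartSep (ε : ℝ) (z z' : PhasePoint) : Prop :=
  ε < dist z.1 z'.1 ∨ (dist z.1 z'.1 = ε ∧ 0 < inner ℝ (z.1 - z'.1) (z.2 - z'.2))

end Crest.Agent.R122.TransOk151
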