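import Crest.Agent.R122.TransD3_151
import Crest.Agent.R122.TransTree_942
import Crest.Agent.R122.ShpOk_581

/-!
# The transfer theorem under the laws of structures (row 122, inequality 3), helper942

* `OkD` : the conclusion of `ae_okFamD` (helper151) at a configuration; `OkD.of` : `ae_okFamD`.
* `ae_okD_sub` : all sub-families of the isolated group.
* `qmp_lines` : the configuration of a tree is quasi-measure-preserving.
-/

set_option autoImplicit false
set_option linter.unusedSectionVars false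

open MeasureTheory Set Filter Topology
open scoped ENNReal NNReal
open Crest.AnalysisR.Kinetic
open Crest.Agent.R122.Flow671 Crest.Agent.R122.EDefs602 Crest.Agent.R122.MWAlg255
open Crest.Agent.R122.Ins45 Crest.Agent.R122.GC311
open Crest.Agent.R122.Kin796 Crest.Agent.R122.Kin796.CTree Crest.Agent.R122.Tree674
open Crest.Agent.R122.TransOk151 Crest.Agent.R122.TransTree942
open Crest.Agent.R122.LN2 (wgtA)
open Crest.Agent.R122.PairRep581

namespace Crest.Agent.R122.TransE6

noncomputable section

open scoped Classical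

variable {Φ : Space3 → ℝ} {ε : ℝ}

/-! ### The transfer property -/

section okD

variable {α ω : Type} [Fintype α] [Fintype ω]

/-- The conclusion of `ae_okFamD` at a configuration. -/
def OkD (Φ : Space3 → ℝ) (ε : ℝ) (bα : α → ℝ) (bω : ω → ℝ) (Z : α → PhasePoint)
    (w : ω → PhasePoint) : Prop :=
  ∀ (d : α → ℝ) (T : ℝ) (X : ℝ → α → PhasePoint), 0 ≤ T → DWorld Φ ε bα d 0 T X →
    X 0 = Z → RelD ε bα d T X →
    ∀ (κ : Type) [Fintype κ] (j : κ → α) (ls : κ → ML) (W : MW ω), Function.Injective j →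
    (∀ x, d (j x) ≤ T) → (∀ x, (ls x).1 = (d (j x), X (d (j x)) (j x))) →
    W.b = bω → W.z = w → SepB ε (W.add (MW.lines ls)) →
    MW.OkFam Φ ε W ls ∧ ∀ (S : Finset κ), ∀ t ∈ Icc 0 T, ∀ a : α, t ≤ d a →
      (∀ y : ω, (X t a).1 ≠ ((W.add (sub ls S)).path Φ ε t (Sum.inl y)).1) ∧
      ∀ x : S, j x ≠ a → d (j x) ≤ t →
        (X t a).1 ≠ ((W.add (sub ls S)).path Φ ε t (Sum.inr x)).1

theorem ae_okD (hΦ : AdmissiblePotential Φ) (hε : 0 < ε) (bα : α → ℝ) (bω : ω → ℝ)
    (hbω : ∀ x, 0 ≤ bω x) :
    ∀ᵐ p ∂((volume : Measure (α → PhasePoint)).prod (volume : Measure (ω → PhasePoint))),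
      OkD Φ ε bα bω p.1 p.2 := ae_okFamD hΦ hε bα bω hbω

/-- Restriction to a sub-family is quasi-measure-preserving. -/
theorem qmp_restrict (A : Finset α) :
    Measure.QuasiMeasurePreserving (fun (Z : α → PhasePoint) (a : A) => Z a) volume volume := by
  have hm : Measurable (fun (Z : α → PhasePoint) (a : A) => Z a) :=
    measurable_pi_iff.2 fun a => measurable_pi_apply (a : α)
  refine ⟨hm, ?_⟩
  refine Measure.AbsolutelyContinuous.mk fun s hs h0 => ?_
  rw [Measure.map_apply hm hs]
  have h1 : ∀ᵐ z : A → PhasePoint, z ∉ s := measure_eq_zero_iff_ae_notMem.1 h0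
  have h2 := ae_restrict h1
  exact measure_eq_zero_iff_ae_notMem.2 h2

/-- `OkD` for all the sub-families of the isolated group. -/
theorem ae_okD_sub (hΦ : AdmissiblePotential Φ) (hε : 0 < ε) (bα : α → ℝ) (bω : ω → ℝ)
    (hbω : ∀ x, 0 ≤ bω x) :
    ∀ᵐ p ∂((volume : Measure (α → PhasePoint)).prod (volume : Measure (ω → PhasePoint))),
      ∀ A : Finset α, OkD Φ ε (fun a : A => bα a) bω (fun a : A => p.1 a) p.2 := by
  refine ae_all_iff.2 fun A => ?_
  exact (QuasiMeasurePreserving.prodMap (qmp_restrict A) (Measure.QuasiMeasurePreserving.id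
    (volume : Measure (ω → PhasePoint)))).ae (ae_okD hΦ hε (fun a : A => bα a) bω hbω)

end okD

/-! ### Configurations of structures -/

/-- The configuration of a tree. -/
theorem qmp_lines (hΦ : AdmissiblePotential Φ) (hε : 0 < ε) {f₀ : PhasePoint → ℝ}
    (hf : Measurable f₀) (T' : ℝ) (P : CTree) : Measure.QuasiMeasurePreserving
      (fun z : PhasePoint × Par P => linesM Φ ε P z.1 z.2) (treeA Φ f₀ ε T' P) volume := by
  refine ⟨measurable_linesM hΦ ε P, Measure.AbsolutelyContinuous.mk fun s hs h0 => ?_⟩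
  rw [Measure.map_apply (measurable_linesM hΦ ε P) hs]
  have h1 := ae_lines_notMem hΦ hε P T' h0
  have h2 : ∀ᵐ z : PhasePoint × Par P ∂(treeA Φ f₀ ε T' P), linesM Φ ε P z.1 z.2 ∉ s := by
    unfold treeA
    rw [ae_withDensity_iff (measurable_treeD hΦ hf ε T' P)]
    filter_upwards [h1] with z hz hne
    have hv : Valid Φ ε P T' z.1.2 z.2 := by
      by_contra hv
      refine hne ?_
      unfold treeD
      exact indicator_of_notMem
        (show z ∉ {z : PhasePoint × Par P | Valid Φ ε P T' z.1.2 z.2} from hv) _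
    rw [linesM_of_adm ε hv.1]
    exact hz hv
  exact measure_eq_zero_iff_ae_notMem.2 h2

end

end Crest.Agent.R122.TransE6
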