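import Crest.Agent.R122.TransStep_151

/-!
# Induction over the releases (row 122, item (4) of the H12 plan), helper151

`κ` : all particles, `A : Finset κ` the isolated group, the others form the world; `b` the (fixed)
births of everybody. `M ⊇ Aᶜ`: the particles of the final world; the particles of `A ∩ M` are
released at state-dependent times `σ`.

* `Good Φ ε M A b Z`: for all release data, the final world (births `wb A b σ`) started from `Z` is
  a world with births.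
* `ae_good`: a.e. `Z` is good.
-/

set_option autoImplicit false
set_option linter.unusedSectionVars false

open MeasureTheory Set Filter Topology
open scoped ENNReal NNReal
open Crest.AnalysisR.Kinetic
open Crest.Agent.R122.Flow671 Crest.Agent.R122.Loc45 Crest.Agent.R122.Ins45
open Crest.Agent.R122.Simul984

namespace Crest.Agent.R122.TransOk151

noncomputable section

open scoped Classical

variable {Φ : Space3 → ℝ} {ε : ℝ} {κ : Type*} [Fintype κ] {M A : Finset κ} {b σ : κ → ℝ}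

/-- Births of the final world. -/
def wb (A : Finset κ) (b σ : κ → ℝ) (m : κ) : ℝ := if m ∈ A then σ m else b m

/-- State of the final world at time `s`, when nobody of `A` has been released: the particles of `A`
are on their lines, the others in the state `Z`. -/
def wz (A : Finset κ) (σ : κ → ℝ) (X : ℝ → A → PhasePoint) (Z : κ → PhasePoint) (s : ℝ) (k : κ) :
    PhasePoint :=
  if h : k ∈ A then lineAt (σ k) (X (σ k) ⟨k, h⟩) s else Z k

/-- For all release data the final world started from `Z` is a world with births. -/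
def Good (Φ : Space3 → ℝ) (ε : ℝ) (M A : Finset κ) (b : κ → ℝ) (Z : κ → PhasePoint) : Prop :=
  ∀ (σ : κ → ℝ) (T : ℝ) (X : ℝ → A → PhasePoint), BWorld Φ ε (fun a : A => b a) 0 X →
    (∀ a : A, X 0 a = Z a) →
    Rel ε (fun a : A => b a) {a : A | (a : κ) ∈ M} (fun a : A => σ a) T X →
    ∃ Y : ℝ → M → PhasePoint, BWorld Φ ε (fun m : M => wb A b σ m) 0 Y ∧
      ∀ m : M, Y 0 m = wz A σ X Z 0 m

/-- living particles of the isolated group -/
def gr₁ (A : Finset κ) (b : κ → ℝ) : Finset κ := A.filter fun k => b k ≤ 0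

/-- living particles of the world -/
def gr₂ (A : Finset κ) (b : κ → ℝ) : Finset κ := Aᶜ.filter fun k => b k ≤ 0

theorem mem_gr₁ {k : κ} : k ∈ gr₁ A b ↔ k ∈ A ∧ b k ≤ 0 := by simp [gr₁]

theorem mem_gr₂ {k : κ} : k ∈ gr₂ A b ↔ k ∉ A ∧ b k ≤ 0 := by simp [gr₂]

theorem disjoint_gr : Disjoint (gr₁ A b) (gr₂ A b) := by
  rw [Finset.disjoint_left]
  intro k h1 h2
  exact (mem_gr₂.1 h2).1 (mem_gr₁.1 h1).1

theorem not_mem_gr₁ {k : κ} (h : k ∉ A) : k ∉ gr₁ A b := fun h' => h (mem_gr₁.1 h').1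

theorem not_mem_gr₂ {k : κ} (h : k ∈ A) : k ∉ gr₂ A b := fun h' => (mem_gr₂.1 h').1 h

theorem lineAt_free (τ s t : ℝ) (z : PhasePoint) :
    ((lineAt τ z s).1 + (t - s) • (lineAt τ z s).2, (lineAt τ z s).2) = lineAt τ z t := by
  rw [← lineAt_lineAt τ s t z]
  rfl

/-- Before the first birth the isolated group is given by `fl`. -/
theorem X_eq_fl (hΦ : AdmissiblePotential Φ) (hε : 0 < ε) {X : ℝ → A → PhasePoint}
    {Z : κ → PhasePoint} (hX : BWorld Φ ε (fun a : A => b a) 0 X) (h0 : ∀ a : A, X 0 a = Z a)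
    {t : ℝ} (ht : 0 ≤ t) (hb : ∀ k, 0 < b k → t ≤ b k) (a : A) :
    X t a = fl Φ ε (gr₁ A b) (gr₂ A b) t Z a := by
  have h1 := hX.eq_flowA hΦ hε ht (fun i hi => hb i hi)
  have hal : alive (fun a : A => b a) 0 = (gr₁ A b).subtype (· ∈ A) := by
    ext x
    rw [mem_alive, Finset.mem_subtype, mem_gr₁]
    exact ⟨fun h => ⟨x.2, h⟩, fun h => h.2⟩
  rw [sub_zero, hal] at h1
  have h2 : gr₁ A b ⊆ A := Finset.filter_subset _ _
  rw [h1]
  by_cases ha : (a : κ) ∈ gr₁ A b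
  · rw [flowA_subtype hΦ hε h2 t Z (X 0) (fun m _ => h0 m) ha, flowA_mem _ _ _ ha,
      fl_mem₁ _ _ ha]
  · rw [flowA_not_mem _ _ _ (fun h => ha (Finset.mem_subtype.1 h)),
      fl_free _ _ ha (not_mem_gr₂ a.2), h0]

/-- First step of the world: nobody is born or released before `c`. -/
theorem world_step (hΦ : AdmissiblePotential Φ) (hε : 0 < ε) {X : ℝ → A → PhasePoint}
    {Z : κ → PhasePoint} (hM : ∀ k, k ∉ A → k ∈ M) (hI : Inj Z) {c : ℝ} (hc : 0 < c)
    (hb : ∀ k, 0 < b k → c ≤ b k) (hσ : ∀ k ∈ A, k ∈ M → c ≤ σ k)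
    {Y₂ : ℝ → M → PhasePoint} (h₂ : BWorld Φ ε (fun m : M => wb A b σ m) c Y₂)
    (h0 : ∀ m : M, Y₂ c m = wz A σ X (fl Φ ε (gr₁ A b) (gr₂ A b) c Z) c m) :
    ∃ Y : ℝ → M → PhasePoint, BWorld Φ ε (fun m : M => wb A b σ m) 0 Y ∧
      ∀ m : M, Y 0 m = wz A σ X Z 0 m := by
  have hsub : gr₂ A b ⊆ M := fun k hk => hM k (mem_gr₂.1 hk).1
  set z0 : M → PhasePoint := fun m => wz A σ X Z 0 m with hz0
  have hz0' : ∀ m : M, (m : κ) ∉ A → z0 m = Z m := by
    intro m hm
    simp only [hz0, wz, dif_neg hm]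
  have hA : ∀ t ∈ Ico 0 c, ∀ m : M, m ∈ (gr₂ A b).subtype (· ∈ M) ↔ wb A b σ m ≤ t := by
    intro t ht m
    rw [Finset.mem_subtype, mem_gr₂]
    by_cases hm : (m : κ) ∈ A
    · simp only [wb, if_pos hm]
      constructor
      · exact fun h => absurd hm h.1
      · intro h
        exact absurd ((hσ m hm m.2).trans h) (not_le.2 ht.2)
    · simp only [wb, if_neg hm]
      constructor
      · exact fun h => h.2.trans ht.1
      · intro h
        refine ⟨hm, ?_⟩
        by_contra hcon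
        exact absurd ((hb m (not_le.1 hcon)).trans h) (not_le.2 ht.2)
  have hZ : (fun a : (gr₂ A b).subtype (· ∈ M) => z0 a) ∈ Dom Φ ((gr₂ A b).subtype (· ∈ M)) := by
    refine Or.inr fun i j hij => ?_
    have hi : (i.1 : κ) ∉ A := (mem_gr₂.1 (Finset.mem_subtype.1 i.2)).1
    have hj : (j.1 : κ) ∉ A := (mem_gr₂.1 (Finset.mem_subtype.1 j.2)).1
    show (z0 i).1 ≠ (z0 j).1
    rw [hz0' _ hi, hz0' _ hj]
    exact hI _ _ fun h => hij (Subtype.ext (Subtype.ext h))
  have hY₂ : Y₂ c = flowA Φ ε ((gr₂ A b).subtype (· ∈ M)) (c - 0) z0 := by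
    funext m
    rw [h0, sub_zero]
    by_cases hm : (m : κ) ∈ A
    · have h1 : m ∉ (gr₂ A b).subtype (· ∈ M) := fun h =>
        not_mem_gr₂ hm (Finset.mem_subtype.1 h)
      rw [flowA_not_mem _ _ _ h1]
      simp only [hz0, wz, dif_pos hm]
      have := lineAt_free (σ m) 0 c (X (σ m) ⟨m, hm⟩)
      rw [sub_zero] at this
      exact this.symm
    · have h2 : wz A σ X (fl Φ ε (gr₁ A b) (gr₂ A b) c Z) c m =
          fl Φ ε (gr₁ A b) (gr₂ A b) c Z m := by simp only [wz, dif_neg hm]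
      rw [h2]
      by_cases hb' : (m : κ) ∈ gr₂ A b
      · rw [flowA_subtype hΦ hε hsub c Z z0 (fun m' hm' => hz0' m' (mem_gr₂.1 hm').1) hb',
          flowA_mem _ _ _ hb', fl_mem₂ _ _ (not_mem_gr₁ hm) hb']
      · rw [flowA_not_mem _ _ _ (fun h => hb' (Finset.mem_subtype.1 h)), hz0' m hm,
          fl_free _ _ (not_mem_gr₁ hm) hb']
  obtain ⟨Y, hY, hY0, -⟩ := bworld_cons hΦ hε hc hA hZ h₂ hY₂
  exact ⟨Y, hY, fun m => by rw [hY0]⟩

/-- Step over an external birth at time `c`. -/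
theorem step_ext (hΦ : AdmissiblePotential Φ) (hε : 0 < ε) {Z : κ → PhasePoint}
    (hM : ∀ k, k ∉ A → k ∈ M) (hI : Inj Z) {c : ℝ} (hc : 0 < c)
    (hb : ∀ k, 0 < b k → c ≤ b k)
    (hG : Good Φ ε M A (fun k => b k - c) (fl Φ ε (gr₁ A b) (gr₂ A b) c Z))
    {T : ℝ} {X : ℝ → A → PhasePoint} (hX : BWorld Φ ε (fun a : A => b a) 0 X)
    (h0 : ∀ a : A, X 0 a = Z a)
    (hR : Rel ε (fun a : A => b a) {a : A | (a : κ) ∈ M} (fun a : A => σ a) T X)
    (hσ : ∀ k ∈ A, k ∈ M → c < σ k) :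
    ∃ Y : ℝ → M → PhasePoint, BWorld Φ ε (fun m : M => wb A b σ m) 0 Y ∧
      ∀ m : M, Y 0 m = wz A σ X Z 0 m := by
  have hX' : BWorld Φ ε (fun a : A => b a - c) 0 (fun t => X (t + c)) := by
    have h1 := bworld_shift (hX.mono hc.le) (-c)
    simp only [sub_neg_eq_add, add_neg_cancel] at h1
    simpa only [← sub_eq_add_neg] using h1
  have hR' : Rel ε (fun a : A => b a - c) {a : A | (a : κ) ∈ M} (fun a : A => σ a - c) (T - c)
      (fun t => X (t + c)) := by
    refine ⟨fun i hi => ?_, fun i hi => ?_, fun i hi => ?_, fun i hi => ?_, fun i hi t ht j hj hbj => ?_⟩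
    · linarith [hσ i i.2 hi]
    · linarith [hR.le i hi]
    · linarith [hR.born i hi]
    · obtain ⟨p, h1, h2, h3, h4⟩ := hR.exit i hi
      refine ⟨p, h1, by linarith, ?_, ?_⟩
      · simpa only [sub_add_cancel] using h3
      · simpa only [sub_add_cancel] using h4
    · exact hR.free i hi (t + c) ⟨by linarith [ht.1], by linarith [ht.2]⟩ j hj (by linarith)
  obtain ⟨Y', hY', hY0⟩ := hG (fun k => σ k - c) (T - c) (fun t => X (t + c)) hX'
    (fun a => by
      rw [zero_add]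
      exact X_eq_fl hΦ hε hX h0 hc.le hb a) hR'
  have h1 := bworld_shift hY' c
  rw [zero_add] at h1
  have h2 : (fun m : M => wb A (fun k => b k - c) (fun k => σ k - c) m + c) =
      fun m : M => wb A b σ m := by
    funext m
    unfold wb
    split_ifs <;> ring
  rw [h2] at h1
  refine world_step (X := X) hΦ hε hM hI hc hb (fun k hk hkM => (hσ k hk hkM).le) h1 fun m => ?_
  rw [sub_self, hY0]
  unfold wz
  by_cases hm : (m : κ) ∈ A
  · rw [dif_pos hm, dif_pos hm]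
    simp only [sub_add_cancel]
    unfold lineAt
    congr 3
    ring
  · rw [dif_neg hm, dif_neg hm]

/-- Before the next external birth, after the release of `B` at time `β`, the remaining group is
given by `fl`. -/
theorem X_after (hΦ : AdmissiblePotential Φ) (hε : 0 < ε) {X : ℝ → A → PhasePoint}
    {Z : κ → PhasePoint} (hX : BWorld Φ ε (fun a : A => b a) 0 X) (h0 : ∀ a : A, X 0 a = Z a)
    (hI : Inj Z) {B : Finset κ} {β q T : ℝ} (hβ : 0 < β) (hβq : β < q) (hqT : q ≤ T)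
    (hb : ∀ k, 0 < b k → q < b k)
    (hfree : ∀ i : A, (i : κ) ∈ B → ∀ t ∈ Ioc β T, ∀ j : A, j ≠ i → b j ≤ t →
      ε < dist (X t i).1 (X t j).1) {a : A} (ha : (a : κ) ∉ B) :
    X q a = fl Φ ε (gr₁ A b \ B) (gr₂ A b ∪ B) (q - β)
      (fl Φ ε (gr₁ A b) (gr₂ A b) β Z) a := by
  have hq : 0 ≤ q := (hβ.trans hβq).le
  have hfl : ∀ t, 0 ≤ t → t ≤ q → ∀ a : A, X t a = fl Φ ε (gr₁ A b) (gr₂ A b) t Z a :=
    fun t ht htq a => X_eq_fl hΦ hε hX h0 ht (fun k hk => htq.trans (hb k hk).le) a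
  rw [hfl q hq le_rfl]
  by_cases h1 : (a : κ) ∈ gr₁ A b
  · have h1' : (a : κ) ∈ gr₁ A b \ B := Finset.mem_sdiff.2 ⟨h1, ha⟩
    rw [fl_mem₁ _ _ h1, fl_mem₁ _ _ h1']
    let e : ↥(gr₁ A b \ B) ↪ ↥(gr₁ A b) :=
      ⟨fun x => ⟨x.1, (Finset.mem_sdiff.1 x.2).1⟩, fun x y h => Subtype.ext (by
        simpa using congrArg Subtype.val h)⟩
    have hcross : ∀ t ∈ Ioc β q, ∀ i : ↥(gr₁ A b \ B), ∀ j : ↥(gr₁ A b), j ∉ range e →
        ε ≤ dist (flow Φ ε t (fun a : gr₁ A b => Z a) (e i)).1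
          (flow Φ ε t (fun a : gr₁ A b => Z a) j).1 := by
      intro t ht i j hj
      have hjB : (j : κ) ∈ B := by
        by_contra hcon
        exact hj ⟨⟨j.1, Finset.mem_sdiff.2 ⟨j.2, hcon⟩⟩, rfl⟩
      have hjA : (j : κ) ∈ A := (mem_gr₁.1 j.2).1
      have hiA : (i : κ) ∈ A := (mem_gr₁.1 (Finset.mem_sdiff.1 i.2).1).1
      have h2 := hfree ⟨j, hjA⟩ hjB t ⟨ht.1, ht.2.trans hqT⟩ ⟨i, hiA⟩ (fun h => by
        have h3 : (i : κ) = j := congrArg Subtype.val h
        exact (Finset.mem_sdiff.1 i.2).2 (h3 ▸ hjB))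
        (((mem_gr₁.1 (Finset.mem_sdiff.1 i.2).1).2).trans (hβ.trans ht.1).le)
      rw [hfl t (hβ.trans ht.1).le ht.2, hfl t (hβ.trans ht.1).le ht.2] at h2
      have e1 : fl Φ ε (gr₁ A b) (gr₂ A b) t Z (i : κ) =
          flow Φ ε t (fun a : gr₁ A b => Z a) (e i) := fl_mem₁ t Z (Finset.mem_sdiff.1 i.2).1
      have e2 : fl Φ ε (gr₁ A b) (gr₂ A b) t Z (j : κ) =
          flow Φ ε t (fun a : gr₁ A b => Z a) j := fl_mem₁ t Z j.2
      rw [← e1, ← e2, dist_comm]
      exact h2.le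
    have hcross' : ∀ t ∈ Icc β q, CrossFar ε e (flow Φ ε t (fun a : gr₁ A b => Z a)) := by
      intro t ht i j hj
      rcases ht.1.lt_or_eq with h2 | h2
      · exact hcross t ⟨h2, ht.2⟩ i j hj
      · subst h2
        have hc : Continuous fun t => dist (flow Φ ε t (fun a : gr₁ A b => Z a) (e i)).1
            (flow Φ ε t (fun a : gr₁ A b => Z a) j).1 := by
          have h3 : ∀ k : gr₁ A b, Continuous fun t => (flow Φ ε t (fun a : gr₁ A b => Z a) k).1 :=
            fun k => continuous_fst.comp ((continuous_apply k).comp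
              (flow_continuous_time hΦ hε _))
          exact (h3 _).dist (h3 _)
        have h4 : ∀ᶠ s in 𝓝[>] β, ε ≤ dist (flow Φ ε s (fun a : gr₁ A b => Z a) (e i)).1
            (flow Φ ε s (fun a : gr₁ A b => Z a) j).1 := by
          filter_upwards [Ioc_mem_nhdsGT hβq] with s hs using hcross s hs i j hj
        exact ge_of_tendsto (hc.continuousWithinAt (s := Ioi β)) h4
    have h5 := flow_comp hΦ hε e (hI.dom (gr₁ A b)) (t₀ := β) (a := β) (b := q)
      ⟨le_rfl, hβq.le⟩ hcross' (t := q) ⟨hβq.le, le_rfl⟩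
    have h6 := congrFun h5 ⟨a, h1'⟩
    have h7 : (fun i : ↥(gr₁ A b \ B) => flow Φ ε β (fun a : gr₁ A b => Z a) (e i)) =
        fun i : ↥(gr₁ A b \ B) => fl Φ ε (gr₁ A b) (gr₂ A b) β Z i := by
      funext i
      exact (fl_mem₁ β Z (Finset.mem_sdiff.1 i.2).1).symm
    rw [h7] at h6
    exact h6
  · have h2 : (a : κ) ∉ gr₂ A b := not_mem_gr₂ a.2
    have h3 : (a : κ) ∉ gr₁ A b \ B := fun h => h1 (Finset.mem_sdiff.1 h).1
    have h4 : (a : κ) ∉ gr₂ A b ∪ B := fun h => (Finset.mem_union.1 h).elim h2 ha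
    rw [fl_free _ _ h1 h2, fl_free _ _ h3 h4, fl_free _ _ h1 h2]
    refine Prod.ext ?_ rfl
    simp only
    rw [add_assoc, ← add_smul]
    congr 2
    ring

/-- Step over the release of `B` at time `β`. -/
theorem step_rel (hΦ : AdmissiblePotential Φ) (hε : 0 < ε) {Z : κ → PhasePoint}
    (hM : ∀ k, k ∉ A → k ∈ M) (hI : Inj Z) {B : Finset κ} (hBA : B ⊆ A) (hBM : B ⊆ M)
    {β q : ℝ} (hβ : 0 < β) (hβq : β < q) (hb : ∀ k, 0 < b k → q < b k)
    (hIβ : Inj (fl Φ ε (gr₁ A b) (gr₂ A b) β Z))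
    (hbB : ∀ k ∈ B, b k ≤ 0) (hσB : ∀ k ∈ B, σ k = β)
    (hσ : ∀ k ∈ A, k ∈ M → k ∉ B → q < σ k)
    (hG : Good Φ ε M (A \ B) (fun k => b k - q)
      (fl Φ ε (gr₁ A b \ B) (gr₂ A b ∪ B) (q - β) (fl Φ ε (gr₁ A b) (gr₂ A b) β Z)))
    (hW : BWorld Φ ε (fun a : ↥(A \ B) => b a - q) 0 fun t =>
      evo Φ ε (fun a : ↥(A \ B) => b a - q) 0 t fun a : ↥(A \ B) =>
        fl Φ ε (gr₁ A b \ B) (gr₂ A b ∪ B) (q - β) (fl Φ ε (gr₁ A b) (gr₂ A b) β Z) a)
    {T : ℝ} {X : ℝ → A → PhasePoint} (hX : BWorld Φ ε (fun a : A => b a) 0 X)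
    (h0 : ∀ a : A, X 0 a = Z a)
    (hR : Rel ε (fun a : A => b a) {a : A | (a : κ) ∈ M} (fun a : A => σ a) T X) :
    ∃ Y : ℝ → M → PhasePoint, BWorld Φ ε (fun m : M => wb A b σ m) 0 Y ∧
      ∀ m : M, Y 0 m = wz A σ X Z 0 m := by
  set Zβ := fl Φ ε (gr₁ A b) (gr₂ A b) β Z with hZβ
  set Z' := fl Φ ε (gr₁ A b \ B) (gr₂ A b ∪ B) (q - β) Zβ with hZ'
  set X' : ℝ → ↥(A \ B) → PhasePoint := fun t =>
    evo Φ ε (fun a : ↥(A \ B) => b a - q) 0 t fun a : ↥(A \ B) => Z' a with hX'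
  have hfreeB : ∀ i : A, (i : κ) ∈ B → ∀ t ∈ Ioc β T, ∀ j : A, j ≠ i → b j ≤ t →
      ε < dist (X t i).1 (X t j).1 := by
    intro i hi t ht j hj hbj
    refine hR.free i (hBM hi) t ?_ j hj hbj
    show t ∈ Ioc (σ i) T
    rw [hσB i hi]
    exact ht
  -- the motion of the remaining group
  have hag : ∀ t ∈ Icc q T, ∀ a : ↥(A \ B), X' (t - q) a = X t ⟨a, (Finset.mem_sdiff.1 a.2).1⟩ := by
    intro t ht a
    have hW' : BWorld Φ ε (fun a : ↥(A \ B) => b a) q (fun t => X' (t - q)) := by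
      have h1 := bworld_shift hW q
      simp only [sub_add_cancel, zero_add] at h1
      exact h1
    have hsub : ∀ a : ↥(A \ B), (a : κ) ∈ A := fun a => (Finset.mem_sdiff.1 a.2).1
    have key := BWorld.agree hΦ hε hX hW' (μ := ↥(A \ B))
      (e := fun a => ⟨a, hsub a⟩) (f := id)
      (fun x y h => Subtype.ext (by simpa using congrArg Subtype.val h)) Function.injective_id
      (S := univ) (A := ∅) (a := q) (T := T) (hβ.trans hβq).le le_rfl
      (fun _ _ _ _ => Iff.rfl) (fun _ h => absurd h (notMem_empty _)) ?_ ?_ ?_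
    · exact (key a (mem_univ _) t ht).symm
    · intro m _
      have h1 : X' (q - q) m = Z' m := by
        rw [sub_self]
        simp only [hX']
        rw [evo_self hΦ hε]
      show X q ⟨m, hsub m⟩ = X' (q - q) m
      rw [h1, X_after hΦ hε hX h0 hI hβ hβq (ht.1.trans ht.2) hb hfreeB
        (a := ⟨m, hsub m⟩) (Finset.mem_sdiff.1 m.2).2]
    · intro t' ht' m _ hbm k hbk hk
      have hkB : (k : κ) ∈ B := by
        by_contra hcon
        exact hk ⟨k, Finset.mem_sdiff.2 ⟨k.2, hcon⟩⟩ (Or.inl (mem_univ _)) rfl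
      rw [dist_comm]
      refine (hfreeB k hkB t' ⟨hβq.trans_le ht'.1, ht'.2.le⟩ ⟨m, hsub m⟩ (fun h => ?_) hbm).le
      have h3 : (m : κ) = k := congrArg Subtype.val h
      exact (Finset.mem_sdiff.1 m.2).2 (h3 ▸ hkB)
    · intro t' _ m _ _ k _ hk
      exact absurd rfl (hk k (Or.inl (mem_univ _)))
  have hX'0 : ∀ a : ↥(A \ B), X' 0 a = Z' a := by
    intro a
    simp only [hX']
    rw [evo_self hΦ hε]
  have hR' : Rel ε (fun a : ↥(A \ B) => b a - q) {a : ↥(A \ B) | (a : κ) ∈ M}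
      (fun a : ↥(A \ B) => σ a - q) (T - q) X' := by
    have hq : ∀ i : ↥(A \ B), (i : κ) ∈ M → q < σ i := fun i hi =>
      hσ i (Finset.mem_sdiff.1 i.2).1 hi (Finset.mem_sdiff.1 i.2).2
    have hT : ∀ i : ↥(A \ B), (i : κ) ∈ M → σ i ≤ T := fun i hi =>
      hR.le ⟨i, (Finset.mem_sdiff.1 i.2).1⟩ hi
    refine ⟨fun i hi => ?_, fun i hi => ?_, fun i hi => ?_, fun i hi => ?_,
      fun i hi t ht j hj hbj => ?_⟩
    · linarith [hq i hi]
    · linarith [hT i hi]
    · linarith [hR.born ⟨i, (Finset.mem_sdiff.1 i.2).1⟩ hi]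
    · obtain ⟨p, h1, h2, h3, h4⟩ := hR.exit ⟨i, (Finset.mem_sdiff.1 i.2).1⟩ hi
      have hpB : (p : κ) ∉ B := by
        intro hp
        have h5 := hfreeB p hp (σ i) ⟨hβq.trans (hq i hi), hT i hi⟩
          ⟨i, (Finset.mem_sdiff.1 i.2).1⟩ h1.symm (hR.born ⟨i, (Finset.mem_sdiff.1 i.2).1⟩ hi)
        rw [dist_comm] at h5
        exact absurd h3 h5.ne'
      have h5 := hag (σ i) ⟨(hq i hi).le, hT i hi⟩ i
      have h6 := hag (σ i) ⟨(hq i hi).le, hT i hi⟩ ⟨p, Finset.mem_sdiff.2 ⟨p.2, hpB⟩⟩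
      refine ⟨⟨p, Finset.mem_sdiff.2 ⟨p.2, hpB⟩⟩, fun h => h1 ?_, ?_, ?_, ?_⟩
      · exact Subtype.ext (show (p : κ) = i from congrArg (fun x : ↥(A \ B) => (x : κ)) h)
      · show b p - q ≤ σ i - q
        linarith [h2]
      · rw [h5, h6]; exact h3
      · rw [h5, h6]; exact h4
    · have ht1 : σ i - q < t := ht.1
      have ht2 : t ≤ T - q := ht.2
      have hqi := hq i hi
      have h7 : t + q ∈ Icc q T := ⟨by linarith, by linarith⟩
      have h5 := hag (t + q) h7 i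
      have h6 := hag (t + q) h7 j
      rw [add_sub_cancel_right] at h5 h6
      rw [h5, h6]
      refine hR.free ⟨i, (Finset.mem_sdiff.1 i.2).1⟩ hi (t + q)
        ⟨by show σ i < t + q; linarith, h7.2⟩ ⟨j, (Finset.mem_sdiff.1 j.2).1⟩ (fun h => hj ?_) ?_
      · have h8 : (⟨j, (Finset.mem_sdiff.1 j.2).1⟩ : A) = ⟨i, (Finset.mem_sdiff.1 i.2).1⟩ := h
        exact Subtype.ext (show (j : κ) = i from congrArg (fun x : A => (x : κ)) h8)
      · show b j ≤ t + q
        linarith [hbj]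
  obtain ⟨Y', hY', hY'0⟩ := hG (fun k => σ k - q) (T - q) X' hW hX'0 hR'
  -- from `q` on
  have h1 := bworld_shift hY' q
  rw [zero_add] at h1
  have h2 : BWorld Φ ε (fun m : M => wb A b σ m) q (fun t => Y' (t - q)) := by
    refine h1.congr_births fun m t ht => ?_
    unfold wb
    by_cases hmA : (m : κ) ∈ A
    · by_cases hmB : (m : κ) ∈ B
      · rw [if_neg (fun h => (Finset.mem_sdiff.1 h).2 hmB), if_pos hmA, hσB m hmB]
        constructor
        · intro _; exact hβq.le.trans ht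
        · intro _; linarith [hbB m hmB, hβ.trans hβq]
      · rw [if_pos (Finset.mem_sdiff.2 ⟨hmA, hmB⟩), if_pos hmA, sub_add_cancel]
    · rw [if_neg (fun h => hmA (Finset.mem_sdiff.1 h).1), if_neg hmA, sub_add_cancel]
  -- from `β` to `q`
  have hXβ : ∀ a : A, X β a = Zβ a := fun a =>
    X_eq_fl hΦ hε hX h0 hβ.le (fun k hk => hβq.le.trans (hb k hk).le) a
  set zβ : M → PhasePoint := fun m => wz A σ X Zβ β m with hzβ
  have hzβ' : ∀ m : M, (m : κ) ∈ gr₂ A b ∪ B → zβ m = Zβ m := by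
    intro m hm
    simp only [hzβ, wz]
    by_cases hmA : (m : κ) ∈ A
    · have hmB : (m : κ) ∈ B := (Finset.mem_union.1 hm).resolve_left (not_mem_gr₂ hmA)
      rw [dif_pos hmA, hσB m hmB, lineAt_self, hXβ]
    · rw [dif_neg hmA]
  have hsub : gr₂ A b ∪ B ⊆ M := fun k hk => (Finset.mem_union.1 hk).elim
    (fun h => hM k (mem_gr₂.1 h).1) fun h => hBM h
  have hA₂ : ∀ t ∈ Ico β q, ∀ m : M, m ∈ (gr₂ A b ∪ B).subtype (· ∈ M) ↔ wb A b σ m ≤ t := by
    intro t ht m
    rw [Finset.mem_subtype, Finset.mem_union, mem_gr₂]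
    unfold wb
    by_cases hmA : (m : κ) ∈ A
    · rw [if_pos hmA]
      constructor
      · rintro (h | h)
        · exact absurd hmA h.1
        · rw [hσB m h]; exact ht.1
      · intro h
        right
        by_contra hcon
        exact absurd ((hσ m hmA m.2 hcon).le.trans h) (not_le.2 ht.2)
    · rw [if_neg hmA]
      constructor
      · rintro (h | h)
        · exact h.2.trans (hβ.le.trans ht.1)
        · exact absurd (hBA h) hmA
      · intro h
        refine Or.inl ⟨hmA, ?_⟩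
        by_contra hcon
        exact absurd ((hb m (not_le.1 hcon)).le.trans h) (not_le.2 ht.2)
  have hZ₂ : (fun a : (gr₂ A b ∪ B).subtype (· ∈ M) => zβ a) ∈
      Dom Φ ((gr₂ A b ∪ B).subtype (· ∈ M)) := by
    refine Or.inr fun i j hij => ?_
    show (zβ i).1 ≠ (zβ j).1
    rw [hzβ' _ (Finset.mem_subtype.1 i.2), hzβ' _ (Finset.mem_subtype.1 j.2)]
    exact hIβ _ _ fun h => hij (Subtype.ext (Subtype.ext h))
  have hY₂ : Y' (q - q) = flowA Φ ε ((gr₂ A b ∪ B).subtype (· ∈ M)) (q - β) zβ := by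
    funext m
    rw [sub_self, hY'0]
    by_cases hm : (m : κ) ∈ gr₂ A b ∪ B
    · have hmAB : (m : κ) ∉ A \ B := fun h => (Finset.mem_union.1 hm).elim
        (fun h' => (mem_gr₂.1 h').1 (Finset.mem_sdiff.1 h).1) fun h' =>
          (Finset.mem_sdiff.1 h).2 h'
      have hm1 : (m : κ) ∉ gr₁ A b \ B := fun h => hmAB
        (Finset.mem_sdiff.2 ⟨(mem_gr₁.1 (Finset.mem_sdiff.1 h).1).1, (Finset.mem_sdiff.1 h).2⟩)
      rw [flowA_subtype hΦ hε hsub (q - β) Zβ zβ (fun m' hm' => hzβ' m' hm') hm,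
        flowA_mem _ _ _ hm]
      unfold wz
      rw [dif_neg hmAB, hZ', fl_mem₂ _ _ hm1 hm]
    · have hmB : (m : κ) ∉ B := fun h => hm (Finset.mem_union_right _ h)
      have hm2 : (m : κ) ∉ gr₂ A b := fun h => hm (Finset.mem_union_left _ h)
      rw [flowA_not_mem _ _ _ (fun h => hm (Finset.mem_subtype.1 h))]
      by_cases hmA : (m : κ) ∈ A
      · have hmAB : (m : κ) ∈ A \ B := Finset.mem_sdiff.2 ⟨hmA, hmB⟩
        simp only [hzβ]
        unfold wz
        rw [dif_pos hmAB, dif_pos hmA, lineAt_free]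
        have h5 := hag (σ m) ⟨(hσ m hmA m.2 hmB).le, hR.le ⟨m, hmA⟩ m.2⟩ ⟨m, hmAB⟩
        rw [h5]
        unfold lineAt
        congr 3
        ring
      · have hmAB : (m : κ) ∉ A \ B := fun h => hmA (Finset.mem_sdiff.1 h).1
        have hm1 : (m : κ) ∉ gr₁ A b \ B := fun h => hmA (mem_gr₁.1 (Finset.mem_sdiff.1 h).1).1
        simp only [hzβ]
        unfold wz
        rw [dif_neg hmAB, dif_neg hmA, hZ', fl_free _ _ hm1 hm]
  obtain ⟨Y₂, hYw, hYβ, -⟩ := bworld_cons hΦ hε hβq hA₂ hZ₂ h2 hY₂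
  refine world_step (X := X) hΦ hε hM hI hβ (fun k hk => hβq.le.trans (hb k hk).le)
    (fun k hk hkM => ?_) hYw fun m => ?_
  · by_cases hkB : k ∈ B
    · rw [hσB k hkB]
    · exact hβq.le.trans (hσ k hk hkM hkB).le
  · rw [hYβ]

theorem ae_restrict {M : Finset κ} {p : (M → PhasePoint) → Prop} (h : ∀ᵐ z, p z) :
    ∀ᵐ Z : κ → PhasePoint, p (fun m : M => Z m) := by
  set E := MeasurableEquiv.piEquivPiSubtypeProd (fun _ : κ => PhasePoint) (fun i => i ∈ M) with hE
  have he : MeasurePreserving E volume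
      ((volume : Measure ({i // i ∈ M} → PhasePoint)).prod
        (volume : Measure ({i // i ∉ M} → PhasePoint))) := by
    have h0 := volume_preserving_piEquivPiSubtypeProd (fun _ : κ => PhasePoint) (fun i => i ∈ M)
    rw [Measure.volume_eq_prod] at h0
    convert h0
    rfl
  have h1 := (Measure.quasiMeasurePreserving_fst
    (μ := (volume : Measure ({i // i ∈ M} → PhasePoint)))
    (ν := (volume : Measure ({i // i ∉ M} → PhasePoint)))).comp he.quasiMeasurePreserving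
  exact h1.ae h

theorem ae_noEq (hΦ : AdmissiblePotential Φ) (hε : 0 < ε) :
    ∀ᵐ Z : κ → PhasePoint, NoEq ε Z := by
  filter_upwards [ae_noEq_evo (ι := κ) hΦ hε (fun _ => 0) 0 0] with Z h
  rwa [evo_self hΦ hε] at h

theorem ae_good_base (hΦ : AdmissiblePotential Φ) (hε : 0 < ε) (hAM : A ∩ M = ∅) :
    ∀ᵐ Z : κ → PhasePoint, Good Φ ε M A b Z := by
  have h1 : ∀ᵐ Z : κ → PhasePoint, BWorld Φ ε (fun m : M => b m) 0
      (fun t => evo Φ ε (fun m : M => b m) 0 t (fun m : M => Z m)) :=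
    ae_restrict (ae_bworld (ι := M) hΦ hε (fun m : M => b m) 0)
  filter_upwards [h1] with Z hZ σ T X _ _ _
  have hnot : ∀ m : M, (m : κ) ∉ A := by
    intro m hm
    have : (m : κ) ∈ A ∩ M := Finset.mem_inter.2 ⟨hm, m.2⟩
    rw [hAM] at this
    exact absurd this (Finset.notMem_empty _)
  refine ⟨_, hZ.congr_births fun m t _ => ?_, fun m => ?_⟩
  · unfold wb
    rw [if_neg (hnot m)]
  · rw [evo_self hΦ hε]
    unfold wz
    rw [dif_neg (hnot m)]

theorem ae_good_aux (hΦ : AdmissiblePotential Φ) (hε : 0 < ε) (M : Finset κ) :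
    ∀ (n : ℕ) (A : Finset κ) (b : κ → ℝ), (∀ k, k ∉ A → k ∈ M) →
      (A ∩ M).card + (Finset.univ.filter fun k => 0 < b k).card ≤ n →
      ∀ᵐ Z : κ → PhasePoint, Good Φ ε M A b Z := by
  intro n
  induction n with
  | zero =>
    intro A b _ hn
    refine ae_good_base hΦ hε (Finset.card_eq_zero.1 (by omega))
  | succ n ih =>
    intro A b hM hn
    by_cases hAM : A ∩ M = ∅
    · exact ae_good_base hΦ hε hAM
    have hd : Disjoint (gr₁ A b) (gr₂ A b) := disjoint_gr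
    have g1 := ae_inj_fl (κ := κ) hΦ hε hd
    have g2 : ∀ᵐ Z : κ → PhasePoint, ∀ k, 0 < b k → (∀ k', 0 < b k' → b k ≤ b k') →
        Good Φ ε M A (fun l => b l - b k) (fl Φ ε (gr₁ A b) (gr₂ A b) (b k) Z) ∧
        NoEq ε (fl Φ ε (gr₁ A b) (gr₂ A b) (b k) Z) := by
      rw [ae_all_iff]; intro k
      by_cases hk : 0 < b k ∧ ∀ k', 0 < b k' → b k ≤ b k'
      · have h1 : ∀ᵐ Z : κ → PhasePoint, Good Φ ε M A (fun l => b l - b k) Z := by
          refine ih A _ hM ?_
          have hlt : (Finset.univ.filter fun l => 0 < b l - b k).card <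
              (Finset.univ.filter fun l => 0 < b l).card := by
            refine Finset.card_lt_card ?_
            rw [Finset.ssubset_iff_of_subset]
            · exact ⟨k, by simp [hk.1], by simp⟩
            · intro l hl
              simp only [Finset.mem_filter, Finset.mem_univ, true_and] at hl ⊢
              linarith [hk.1]
          omega
        have h2 := (measurePreserving_fl (κ := κ) hΦ hε hd (b k)).quasiMeasurePreserving.ae
          (h1.and (ae_noEq hΦ hε))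
        filter_upwards [h2] with Z hZ _ _ using hZ
      · exact Eventually.of_forall fun Z h1 h2 => absurd ⟨h1, h2⟩ hk
    have g3 : ∀ᵐ Z : κ → PhasePoint, ∀ B : Finset κ, B ⊆ A → B ⊆ M → B.Nonempty →
        ∀ q : ℚ, (0 : ℝ) < q → ∀ β : ℝ, ∀ i j : κ,
        Inj (fl Φ ε (gr₁ A b) (gr₂ A b) β Z) →
        dist (fl Φ ε (gr₁ A b) (gr₂ A b) β Z i).1 (fl Φ ε (gr₁ A b) (gr₂ A b) β Z j).1 = ε →
        0 < inner ℝ ((fl Φ ε (gr₁ A b) (gr₂ A b) β Z i).1 - (fl Φ ε (gr₁ A b) (gr₂ A b) β Z j).1)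
          ((fl Φ ε (gr₁ A b) (gr₂ A b) β Z i).2 - (fl Φ ε (gr₁ A b) (gr₂ A b) β Z j).2) →
        Good Φ ε M (A \ B) (fun k => b k - q)
          (fl Φ ε (gr₁ A b \ B) (gr₂ A b ∪ B) (q - β) (fl Φ ε (gr₁ A b) (gr₂ A b) β Z)) ∧
        BWorld Φ ε (fun a : ↥(A \ B) => b a - q) 0 fun t =>
          evo Φ ε (fun a : ↥(A \ B) => b a - q) 0 t fun a : ↥(A \ B) =>
            fl Φ ε (gr₁ A b \ B) (gr₂ A b ∪ B) (q - β) (fl Φ ε (gr₁ A b) (gr₂ A b) β Z) a := by
      rw [ae_all_iff]; intro B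
      rw [ae_all_iff]; intro hBA
      rw [ae_all_iff]; intro hBM
      rw [ae_all_iff]; intro hBn
      rw [ae_all_iff]; intro q
      rw [ae_all_iff]; intro hq
      have hd' : Disjoint (gr₁ A b \ B) (gr₂ A b ∪ B) := by
        rw [Finset.disjoint_left]
        intro k h1 h2
        rcases Finset.mem_union.1 h2 with h3 | h3
        · exact (mem_gr₂.1 h3).1 (mem_gr₁.1 (Finset.mem_sdiff.1 h1).1).1
        · exact (Finset.mem_sdiff.1 h1).2 h3
      have h1 : ∀ᵐ Z : κ → PhasePoint, Good Φ ε M (A \ B) (fun k => b k - q) Z := by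
        refine ih (A \ B) _ (fun k hk => ?_) ?_
        · by_cases hkB : k ∈ B
          · exact hBM hkB
          · exact hM k fun h => hk (Finset.mem_sdiff.2 ⟨h, hkB⟩)
        · have hlt : ((A \ B) ∩ M).card < (A ∩ M).card := by
            refine Finset.card_lt_card ?_
            rw [Finset.ssubset_iff_of_subset]
            · obtain ⟨k, hk⟩ := hBn
              refine ⟨k, Finset.mem_inter.2 ⟨hBA hk, hBM hk⟩, fun h => ?_⟩
              exact (Finset.mem_sdiff.1 (Finset.mem_inter.1 h).1).2 hk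
            · intro k hk
              rw [Finset.mem_inter, Finset.mem_sdiff] at hk
              exact Finset.mem_inter.2 ⟨hk.1.1, hk.2⟩
          have hle : (Finset.univ.filter fun l => 0 < b l - (q : ℝ)).card ≤
              (Finset.univ.filter fun l => 0 < b l).card := by
            refine Finset.card_le_card fun l hl => ?_
            simp only [Finset.mem_filter, Finset.mem_univ, true_and] at hl ⊢
            linarith
          omega
      have h2 : ∀ᵐ Z : κ → PhasePoint, BWorld Φ ε (fun a : ↥(A \ B) => b a - q) 0 fun t =>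
          evo Φ ε (fun a : ↥(A \ B) => b a - q) 0 t fun a : ↥(A \ B) => Z a :=
        ae_restrict (ae_bworld (ι := ↥(A \ B)) hΦ hε (fun a : ↥(A \ B) => b a - q) 0)
      have h3 := transfer_null (G₁ := gr₁ A b) (G₂ := gr₂ A b) (H₁ := gr₁ A b \ B)
        (H₂ := gr₂ A b ∪ B) hΦ hε hd hd' q (ae_iff.1 (h1.and h2))
      filter_upwards [measure_eq_zero_iff_ae_notMem.1 h3] with Z hZ β i j hI hdist hin
      by_contra hcon
      exact hZ ⟨β, i, j, hI, hdist, hin, hcon⟩
    filter_upwards [g1, g2, g3] with Z hg1 hg2 hg3 σ T X hX h0 hR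
    have hI : Inj Z := by
      have := hg1 0
      rwa [fl_zero hΦ hε] at this
    obtain ⟨i₀, hi₀, hmin⟩ := Finset.exists_min_image (A ∩ M) σ
      (Finset.nonempty_iff_ne_empty.2 hAM)
    have hi₀A : i₀ ∈ A := (Finset.mem_inter.1 hi₀).1
    have hi₀M : i₀ ∈ M := (Finset.mem_inter.1 hi₀).2
    set β := σ i₀ with hβ
    have hβ0 : 0 < β := hR.pos ⟨i₀, hi₀A⟩ hi₀M
    have hmin' : ∀ k ∈ A, k ∈ M → β ≤ σ k := fun k hk hkM => hmin k (Finset.mem_inter.2 ⟨hk, hkM⟩)
    obtain ⟨p, hpi, hbp, hpd, hpin⟩ := hR.exit ⟨i₀, hi₀A⟩ hi₀M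
    by_cases hex : ∃ k, 0 < b k ∧ b k ≤ β
    · -- an external birth comes first
      obtain ⟨k₁, hk₁, hk₁β⟩ := hex
      obtain ⟨k₀, hk₀, hk₀min⟩ := Finset.exists_min_image (Finset.univ.filter fun k => 0 < b k) b
        ⟨k₁, by simp [hk₁]⟩
      have hk₀0 : 0 < b k₀ := (Finset.mem_filter.1 hk₀).2
      have hk₀m : ∀ k', 0 < b k' → b k₀ ≤ b k' := fun k' hk' => hk₀min k' (by simp [hk'])
      have hle : b k₀ ≤ β := (hk₀m k₁ hk₁).trans hk₁β
      obtain ⟨hG, hNE⟩ := hg2 k₀ hk₀0 hk₀m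
      have hlt : b k₀ < β := by
        refine lt_of_le_of_ne hle fun he => ?_
        have h1 : ∀ a : A, X β a = fl Φ ε (gr₁ A b) (gr₂ A b) (b k₀) Z a := by
          intro a
          rw [← he]
          exact X_eq_fl hΦ hε hX h0 hk₀0.le hk₀m a
        rw [h1, h1] at hpd
        exact hNE _ _ (fun h => hpi (Subtype.ext h.symm)) hpd
      exact step_ext hΦ hε hM hI hk₀0 hk₀m hG hX h0 hR
        (fun k hk hkM => hlt.trans_le (hmin' k hk hkM))
    · -- a release comes first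
      push Not at hex
      set B : Finset κ := (A ∩ M).filter fun k => σ k = β with hB
      have hBmem : ∀ k, k ∈ B ↔ (k ∈ A ∧ k ∈ M) ∧ σ k = β := by
        intro k
        rw [hB, Finset.mem_filter, Finset.mem_inter]
      have hBA : B ⊆ A := fun k hk => ((hBmem k).1 hk).1.1
      have hBM : B ⊆ M := fun k hk => ((hBmem k).1 hk).1.2
      have hev : ∀ᶠ x in 𝓝[>] β, (∀ k, 0 < b k → x < b k) ∧
          (∀ k, k ∈ A → k ∈ M → k ∉ B → x < σ k) := by
        refine (Filter.eventually_all.2 fun k => ?_).and (Filter.eventually_all.2 fun k => ?_)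
        · by_cases hk : 0 < b k
          · exact mem_of_superset (Ioo_mem_nhdsGT (hex k hk)) fun x hx _ => hx.2
          · exact Eventually.of_forall fun x h => absurd h hk
        · by_cases hk : k ∈ A ∧ k ∈ M ∧ k ∉ B
          · have hlt : β < σ k := by
              refine lt_of_le_of_ne (hmin' k hk.1 hk.2.1) fun he => ?_
              exact hk.2.2 ((hBmem k).2 ⟨⟨hk.1, hk.2.1⟩, he.symm⟩)
            exact mem_of_superset (Ioo_mem_nhdsGT hlt) fun x hx _ _ _ => hx.2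
          · exact Eventually.of_forall fun x h1 h2 h3 => absurd ⟨h1, h2, h3⟩ hk
      obtain ⟨r, hr, hrs⟩ := (mem_nhdsGT_iff_exists_Ioo_subset).1 hev
      obtain ⟨q, hq1, hq2⟩ := exists_rat_btwn (show β < r from hr)
      obtain ⟨hqb, hqσ⟩ := hrs ⟨hq1, hq2⟩
      have hXβ : ∀ a : A, X β a = fl Φ ε (gr₁ A b) (gr₂ A b) β Z a := fun a =>
        X_eq_fl hΦ hε hX h0 hβ0.le (fun k hk => (hex k hk).le) a
      rw [hXβ, hXβ] at hpd hpin
      obtain ⟨hG, hW⟩ := hg3 B hBA hBM ⟨i₀, (hBmem i₀).2 ⟨⟨hi₀A, hi₀M⟩, rfl⟩⟩ q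
        (hβ0.trans hq1) β i₀ p (hg1 β) hpd hpin
      refine step_rel hΦ hε hM hI hBA hBM hβ0 hq1 hqb (hg1 β) (fun k hk => ?_)
        (fun k hk => ((hBmem k).1 hk).2) hqσ hG hW hX h0 hR
      by_contra hcon
      have h1 := hR.born ⟨k, hBA hk⟩ (hBM hk)
      have h2 : b k ≤ σ k := h1
      rw [((hBmem k).1 hk).2] at h2
      exact absurd h2 (not_le.2 (hex k (not_le.1 hcon)))

/-- **A.e. configuration is good**: for all release data of the isolated group `A` the final world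
is a world with births. -/
theorem ae_good (hΦ : AdmissiblePotential Φ) (hε : 0 < ε) {M A : Finset κ}
    (hM : ∀ k, k ∉ A → k ∈ M) (b : κ → ℝ) : ∀ᵐ Z : κ → PhasePoint, Good Φ ε M A b Z :=
  ae_good_aux hΦ hε M _ A b hM le_rfl

end

end Crest.Agent.R122.TransOk151
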