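import Crest.Agent.R122.TransInd_151
import Crest.Agent.R122.EFam_879

/-!
# Worlds with released lines are good (row 122, item (4) of the H12 plan), helper151

* `ae_world`: isolated group `α` (births `bα`), world `ω` (births `bω`): for a.e. time-0 state, for
  all release data, the world `ω +` released lines is a world with births.
* `birthSep_of`: `BirthSep` from the start states (`StartSep`).
* `SepB`, `ok_of`: `MW.Ok` from `BWorld` and `SepB`.
* `ae_okFam`: `MW.OkFam` for a marked world with random states and the released lines.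
* `ae_okFam_cfg`: the same for the gas world `cfg w` and the Newton flow of the isolated group.
-/

set_option autoImplicit false
set_option linter.unusedSectionVars false

open MeasureTheory Set Filter Topology
open scoped ENNReal NNReal
open Crest.AnalysisR.Kinetic
open Crest.Agent.R122.Flow671 Crest.Agent.R122.Loc45 Crest.Agent.R122.Ins45
open Crest.Agent.R122.Simul984 Crest.Agent.R122.Inf879 Crest.Agent.R122.EDefs602
open Crest.Agent.R122.MWAlg255

namespace Crest.Agent.R122.TransOk151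

noncomputable section

open scoped Classical

variable {Φ : Space3 → ℝ} {ε : ℝ}

section world

variable {α ω : Type} [Fintype α] [Fintype ω]

/-- the isolated group in `α ⊕ ω` -/
def grA (α ω : Type) [Fintype α] [Fintype ω] : Finset (α ⊕ ω) :=
  Finset.univ.filter fun k => k.isLeft = true

/-- the final world in `α ⊕ ω` -/
def grM (ω : Type) [Fintype ω] (S : Finset α) : Finset (α ⊕ ω) :=
  Finset.univ.filter fun k => ∀ a, k = Sum.inl a → a ∈ S

theorem inl_mem_grA (a : α) : (Sum.inl a : α ⊕ ω) ∈ grA α ω := by simp [grA]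

theorem inr_not_mem_grA (x : ω) : (Sum.inr x : α ⊕ ω) ∉ grA α ω := by simp [grA]

theorem inr_mem_grM (S : Finset α) (x : ω) : (Sum.inr x : α ⊕ ω) ∈ grM ω S := by simp [grM]

theorem inl_mem_grM {S : Finset α} {a : α} : (Sum.inl a : α ⊕ ω) ∈ grM ω S ↔ a ∈ S := by
  simp [grM]

def eqA : ↥(grA α ω) ≃ α where
  toFun x := x.1.getLeft (Finset.mem_filter.1 x.2).2
  invFun a := ⟨Sum.inl a, inl_mem_grA a⟩
  left_inv := by
    rintro ⟨x | x, hx⟩
    · rfl
    · exact absurd hx (inr_not_mem_grA x)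
  right_inv a := rfl

theorem inl_eqA (x : ↥(grA α ω)) : (Sum.inl (eqA x) : α ⊕ ω) = x := by
  have h := eqA.symm_apply_apply x
  exact congrArg Subtype.val h

def eqM (S : Finset α) : ω ⊕ S ≃ ↥(grM ω S) where
  toFun x := Sum.elim (fun y => ⟨Sum.inr y, inr_mem_grM S y⟩)
    (fun s => ⟨Sum.inl s.1, inl_mem_grM.2 s.2⟩) x
  invFun x := match x with
    | ⟨Sum.inl a, ha⟩ => Sum.inr ⟨a, inl_mem_grM.1 ha⟩
    | ⟨Sum.inr y, _⟩ => Sum.inl y
  left_inv := by rintro (x | x) <;> rfl
  right_inv := by rintro ⟨x | x, hx⟩ <;> rfl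

/-- **Worlds with released lines**, joint statement on `α ⊕ ω`. -/
theorem ae_world (hΦ : AdmissiblePotential Φ) (hε : 0 < ε) (bα : α → ℝ) (bω : ω → ℝ) :
    ∀ᵐ Z : α ⊕ ω → PhasePoint, ∀ (S : Finset α) (σ : α → ℝ) (T : ℝ) (X : ℝ → α → PhasePoint),
      BWorld Φ ε bα 0 X → (∀ a, X 0 a = Z (Sum.inl a)) → Rel ε bα {a | a ∈ S} σ T X →
      ∃ Y : ℝ → ω ⊕ S → PhasePoint, BWorld Φ ε (Sum.elim bω fun i : S => σ i) 0 Y ∧
        Y 0 = Sum.elim (fun x => Z (Sum.inr x)) fun i : S => lineAt (σ i) (X (σ i) i) 0 := by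
  rw [ae_all_iff]
  intro S
  have hM : ∀ k : α ⊕ ω, k ∉ grA α ω → k ∈ grM ω S := by
    rintro (k | k) hk
    · exact absurd (inl_mem_grA k) hk
    · exact inr_mem_grM S k
  filter_upwards [ae_good (κ := α ⊕ ω) hΦ hε hM (Sum.elim bα bω)] with Z hZ σ T X hX h0 hR
  have hb : (fun a : ↥(grA α ω) => Sum.elim bα bω (a : α ⊕ ω)) = fun a => bα (eqA a) := by
    funext a
    rw [← inl_eqA a]
    rfl
  have hσ : (fun a : ↥(grA α ω) => Sum.elim σ (fun _ : ω => (0 : ℝ)) (a : α ⊕ ω)) =
      fun a => σ (eqA a) := by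
    funext a
    rw [← inl_eqA a]
    rfl
  obtain ⟨Y, hY, hY0⟩ := hZ (Sum.elim σ fun _ => 0) T (fun t a => X t (eqA a)) (by
      rw [hb]
      exact hX.equiv eqA) (fun a => by rw [h0, inl_eqA]) (by
      rw [hb, hσ]
      refine ⟨fun i hi => ?_, fun i hi => ?_, fun i hi => ?_, fun i hi => ?_,
        fun i hi t ht j hj hbj => ?_⟩
      all_goals
        have hi' : (i : α ⊕ ω) ∈ grM ω S := hi
        rw [← inl_eqA i, inl_mem_grM] at hi'
      · exact hR.pos _ hi'
      · exact hR.le _ hi'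
      · exact hR.born _ hi'
      · obtain ⟨p, h1, h2, h3, h4⟩ := hR.exit _ hi'
        refine ⟨eqA.symm p, fun h => h1 ?_, ?_, ?_, ?_⟩
        · rw [← h, Equiv.apply_symm_apply]
        · simpa only [Equiv.apply_symm_apply] using h2
        · simpa only [Equiv.apply_symm_apply] using h3
        · simpa only [Equiv.apply_symm_apply] using h4
      · exact hR.free _ hi' t ht _ (fun h => hj (eqA.injective h)) hbj)
  refine ⟨fun t x => Y t (eqM S x), ?_, ?_⟩
  · have h1 := hY.equiv (eqM S)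
    have h2 : (fun x : ω ⊕ S => wb (grA α ω) (Sum.elim bα bω) (Sum.elim σ fun _ => 0)
        (eqM S x : α ⊕ ω)) = Sum.elim bω fun i : S => σ i := by
      funext x
      rcases x with x | x
      · show wb _ _ _ (Sum.inr x) = _
        unfold wb
        rw [if_neg (inr_not_mem_grA x)]
        rfl
      · show wb _ _ _ (Sum.inl x.1) = _
        unfold wb
        rw [if_pos (inl_mem_grA x.1)]
        rfl
    rw [h2] at h1
    exact h1
  · funext x
    show Y 0 (eqM S x) = _
    rw [hY0]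
    rcases x with x | x
    · show wz _ _ _ _ _ (Sum.inr x) = _
      unfold wz
      rw [dif_neg (inr_not_mem_grA x)]
      rfl
    · show wz _ _ _ _ _ (Sum.inl x.1) = _
      unfold wz
      rw [dif_pos (inl_mem_grA x.1)]
      rfl

/-- Product form. -/
theorem ae_world_prod (hΦ : AdmissiblePotential Φ) (hε : 0 < ε) (bα : α → ℝ) (bω : ω → ℝ) :
    ∀ᵐ p ∂((volume : Measure (α → PhasePoint)).prod (volume : Measure (ω → PhasePoint))),
      ∀ (S : Finset α) (σ : α → ℝ) (T : ℝ) (X : ℝ → α → PhasePoint),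
      BWorld Φ ε bα 0 X → X 0 = p.1 → Rel ε bα {a | a ∈ S} σ T X →
      ∃ Y : ℝ → ω ⊕ S → PhasePoint, BWorld Φ ε (Sum.elim bω fun i : S => σ i) 0 Y ∧
        Y 0 = Sum.elim p.2 fun i : S => lineAt (σ i) (X (σ i) i) 0 := by
  have he := (volume_measurePreserving_sumPiEquivProdPi_symm
    (fun _ : α ⊕ ω => PhasePoint)).quasiMeasurePreserving
  have h1 := he.ae (ae_world (ω := ω) hΦ hε bα bω)
  rw [Measure.volume_eq_prod] at h1
  filter_upwards [h1] with p hp S σ T X hX h0 hR
  exact hp S σ T X hX (fun a => by rw [h0]; rfl) hR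

end world

/-! ### Separation of simultaneous births -/

section sep

variable {ι κ κ' : Type} [Fintype ι] [Fintype κ] [Fintype κ']

theorem startSep_eventually {s : ℝ} {x y : ℝ → PhasePoint}
    (hx : HasDerivWithinAt (fun t => (x t).1) (x s).2 (Ici s) s)
    (hy : HasDerivWithinAt (fun t => (y t).1) (y s).2 (Ici s) s)
    (h : StartSep ε (x s) (y s)) : ∃ δ > 0, ∀ t, s < t → t < s + δ →
      ε < dist (x t).1 (y t).1 := by
  have key : ∀ᶠ t in 𝓝[>] s, ε < dist (x t).1 (y t).1 := by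
    rcases h with h | ⟨h, hin⟩
    · have h1 : ContinuousWithinAt (fun t => dist (x t).1 (y t).1) (Ioi s) s :=
        (hx.continuousWithinAt.mono Ioi_subset_Ici_self).dist
          (hy.continuousWithinAt.mono Ioi_subset_Ici_self)
      exact h1.eventually (Ioi_mem_nhds h)
    · have h1 : HasDerivWithinAt (fun t => ‖(x t).1 - (y t).1‖ ^ 2)
          (2 * inner ℝ ((x s).1 - (y s).1) ((x s).2 - (y s).2)) (Ici s) s :=
        (hx.sub hy).norm_sq
      rw [← hasDerivWithinAt_Ioi_iff_Ici, hasDerivWithinAt_iff_tendsto_slope' (by simp)] at h1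
      have h2 : ∀ᶠ t in 𝓝[>] s, 0 < slope (fun t => ‖(x t).1 - (y t).1‖ ^ 2) s t :=
        h1.eventually (Ioi_mem_nhds (by positivity))
      filter_upwards [h2, self_mem_nhdsWithin] with t ht hst
      have hst' : s < t := hst
      rw [slope_def_field, div_pos_iff_of_pos_right (by linarith)] at ht
      rw [← dist_eq_norm, ← dist_eq_norm, h] at ht
      have h3 : ε ^ 2 < dist (x t).1 (y t).1 ^ 2 := by linarith
      exact lt_of_pow_lt_pow_left₀ 2 dist_nonneg h3
  obtain ⟨r, hr, hrs⟩ := (mem_nhdsGT_iff_exists_Ioo_subset).1 key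
  refine ⟨r - s, by linarith [show s < r from hr], fun t h1 h2 => hrs ⟨h1, by linarith⟩⟩

/-- Particles with equal births start separated. -/
def SepB (ε : ℝ) (Z : MW ι) : Prop :=
  ∀ i j, i ≠ j → Z.b i = Z.b j →
    StartSep ε (lineAt 0 (Z.z i) (Z.b i)) (lineAt 0 (Z.z j) (Z.b j))

theorem bworld_start (hΦ : AdmissiblePotential Φ) (hε : 0 < ε) {b : ι → ℝ}
    {X : ℝ → ι → PhasePoint} (hX : BWorld Φ ε b 0 X) (hb : ∀ i, 0 ≤ b i) (i : ι) :
    X (b i) i = lineAt 0 (X 0 i) (b i) := by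
  rw [hX.free_of_unborn hΦ hε i (hb i) le_rfl]
  rfl

theorem birthSep_of (hΦ : AdmissiblePotential Φ) (hε : 0 < ε) {Z : MW ι} (hb : ∀ i, 0 ≤ Z.b i)
    (hX : BWorld Φ ε Z.b 0 (Z.path Φ ε)) (hS : SepB ε Z) : BirthSep Z.b (Z.path Φ ε) ε := by
  intro i j hij hbij
  have h1 := bworld_start hΦ hε hX hb i
  have h2 := bworld_start hΦ hε hX hb j
  rw [MW.path_zero hΦ hε] at h1 h2
  rw [← hbij] at h2
  refine startSep_eventually (x := fun t => Z.path Φ ε t i) (y := fun t => Z.path Φ ε t j)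
    (bworld_deriv_pos hX (hb i) i) (bworld_deriv_pos hX (hb i) j) ?_
  rw [h1, h2]
  have := hS i j hij hbij
  rwa [← hbij] at this

/-- `MW.Ok` from a world with births starting at the right state. -/
theorem ok_of (hΦ : AdmissiblePotential Φ) (hε : 0 < ε) {Z : MW ι} (hb : ∀ i, 0 ≤ Z.b i)
    {Y : ℝ → ι → PhasePoint} (hY : BWorld Φ ε Z.b 0 Y) (hY0 : Y 0 = Z.z) (hS : SepB ε Z) :
    Z.Ok Φ ε := by
  have hX : BWorld Φ ε Z.b 0 (Z.path Φ ε) := hY.congr fun t ht => by
    rw [hY.eq_evo hΦ hε ht, hY0]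
    rfl
  exact ⟨hX, birthSep_of hΦ hε hb hX hS⟩

theorem ok_iff (hΦ : AdmissiblePotential Φ) (hε : 0 < ε) {Z : MW ι} (hb : ∀ i, 0 ≤ Z.b i)
    (hS : SepB ε Z) : Z.Ok Φ ε ↔ ∃ Y : ℝ → ι → PhasePoint, BWorld Φ ε Z.b 0 Y ∧ Y 0 = Z.z :=
  ⟨fun h => ⟨_, h.bw, MW.path_zero hΦ hε Z⟩, fun ⟨_, hY, hY0⟩ => ok_of hΦ hε hb hY hY0 hS⟩

/-- Twice differentiable potentials: every world with separated simultaneous births is good. -/
theorem ok_of_contDiff (hΦ : AdmissiblePotential Φ) (hε : 0 < ε) (hC : ContDiff ℝ 2 Φ) {Z : MW ι}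
    (hb : ∀ i, 0 ≤ Z.b i) (hS : SepB ε Z) : Z.Ok Φ ε :=
  ok_of hΦ hε hb (bworld_evo hΦ hε (b := Z.b) (s := 0) (Z := Z.z) (Or.inl hC)
    fun _ _ => Or.inl hC) (evo_self hΦ hε _ _ _) hS

theorem SepB.comap {Z : MW ι} (h : SepB ε Z) {e : κ → ι} (he : Function.Injective e) :
    SepB ε (Z.comap e) := fun i j hij hb => h (e i) (e j) (fun h' => hij (he h')) hb

theorem sepB_cfg {n : ℕ} {w : Config n} (hw : w ∈ PairExcluded ε n) : SepB ε (MW.cfg w) := by
  intro i j hij _
  left
  have := hw i j hij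
  simpa [MW.cfg, lineAt] using this

/-- The gas world is good. -/
theorem ok_cfg (hΦ : AdmissiblePotential Φ) (hε : 0 < ε) {n : ℕ} {w : Config n}
    (hw : w ∈ PairExcluded ε n) : (MW.cfg w).Ok Φ ε := by
  have hD : w ∈ Dom Φ (Fin n) := pairExcluded_subset_Dom (Φ := Φ) hε n hw
  refine ok_of hΦ hε (fun _ => le_rfl)
    (World.bworld (world_flow hΦ hε hD) fun _ => le_rfl) ?_ (sepB_cfg hw)
  exact Flow671.flow_zero hΦ hε w

theorem back_eq (l : ℝ × PhasePoint) : back l = lineAt l.1 l.2 0 := by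
  unfold back lineAt
  refine Prod.ext ?_ rfl
  simp only
  rw [zero_sub, neg_smul, sub_eq_add_neg]

/-- `SepB` for a world and lines. -/
theorem sepB_add_lines {Z : MW ι} {ls : κ → ML} (hZ : SepB ε Z)
    (hl : ∀ x y, x ≠ y → (ls x).1.1 = (ls y).1.1 → StartSep ε (ls x).1.2 (ls y).1.2)
    (hZl : ∀ i x, Z.b i = (ls x).1.1 → StartSep ε (lineAt 0 (Z.z i) (Z.b i)) (ls x).1.2) :
    SepB ε (Z.add (MW.lines ls)) := by
  have hline : ∀ x, lineAt 0 (back (ls x).1) (ls x).1.1 = (ls x).1.2 := by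
    intro x
    rw [back_eq, lineAt_lineAt, lineAt_self]
  have hsymm : ∀ {z z' : PhasePoint}, StartSep ε z z' → StartSep ε z' z := by
    rintro z z' (h | ⟨h, h'⟩)
    · exact Or.inl (by rwa [dist_comm])
    · refine Or.inr ⟨by rwa [dist_comm], ?_⟩
      rw [← neg_sub z.1 z'.1, ← neg_sub z.2 z'.2, inner_neg_neg]
      exact h'
  rintro (i | x) (j | y) hij hb
  · exact hZ i j (fun h => hij (by rw [h])) hb
  · show StartSep ε _ (lineAt 0 (back (ls y).1) (ls y).1.1)
    rw [hline]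
    exact hZl i y hb
  · show StartSep ε (lineAt 0 (back (ls x).1) (ls x).1.1) _
    rw [hline]
    exact hsymm (hZl j x hb.symm)
  · show StartSep ε (lineAt 0 (back (ls x).1) (ls x).1.1) (lineAt 0 (back (ls y).1) (ls y).1.1)
    rw [hline, hline]
    exact hl x y (fun h => hij (by rw [h])) hb

end sep

/-! ### Families of released lines -/

section fam

variable {α ω : Type} [Fintype α] [Fintype ω]

/-- **A.e. all sub-families of released lines give good worlds.** `W` : marked world with births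
`bω` and states `p.2`; `α`: isolated group with births `bα` and states `p.1`, motion `X`; `j x` the
particle of the line `ls x`, released at time `σ (j x)`. -/
theorem ae_okFam (hΦ : AdmissiblePotential Φ) (hε : 0 < ε) (bα : α → ℝ) (bω : ω → ℝ)
    (hbω : ∀ x, 0 ≤ bω x) :
    ∀ᵐ p ∂((volume : Measure (α → PhasePoint)).prod (volume : Measure (ω → PhasePoint))),
      ∀ (σ : α → ℝ) (T : ℝ) (X : ℝ → α → PhasePoint), BWorld Φ ε bα 0 X → X 0 = p.1 →
      ∀ (κ : Type) [Fintype κ] (j : κ → α) (ls : κ → ML) (W : MW ω), Function.Injective j →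
      Rel ε bα (range j) σ T X → (∀ x, (ls x).1 = (σ (j x), X (σ (j x)) (j x))) →
      W.b = bω → W.z = p.2 → SepB ε (W.add (MW.lines ls)) → MW.OkFam Φ ε W ls := by
  filter_upwards [ae_world_prod (α := α) hΦ hε bα bω] with p hp σ T X hX h0 κ _ j ls W hj hR hls hWb
    hWz hSep S
  set S' : Finset α := S.image j with hS'
  have hR' : Rel ε bα {a | a ∈ S'} σ T X := by
    have hsub : ∀ a ∈ {a | a ∈ S'}, a ∈ range j := by
      intro a ha
      obtain ⟨x, _, hx⟩ := Finset.mem_image.1 (show a ∈ S.image j from ha)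
      exact ⟨x, hx⟩
    exact ⟨fun i hi => hR.pos i (hsub i hi), fun i hi => hR.le i (hsub i hi),
      fun i hi => hR.born i (hsub i hi), fun i hi => hR.exit i (hsub i hi),
      fun i hi => hR.free i (hsub i hi)⟩
  obtain ⟨Y, hY, hY0⟩ := hp S' σ T X hX h0 hR'
  let e : ω ⊕ S ≃ ω ⊕ S' := Equiv.sumCongr (Equiv.refl ω)
    { toFun := fun x => ⟨j x, Finset.mem_image_of_mem j x.2⟩
      invFun := fun a => ⟨(Finset.mem_image.1 a.2).choose, (Finset.mem_image.1 a.2).choose_spec.1⟩
      left_inv := fun x => Subtype.ext (hj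
        (Finset.mem_image.1 (Finset.mem_image_of_mem j x.2)).choose_spec.2)
      right_inv := fun a => Subtype.ext (Finset.mem_image.1 a.2).choose_spec.2 }
  have hY' := hY.equiv e
  have hb : (fun x : ω ⊕ S => (Sum.elim bω fun i : S' => σ i) (e x)) =
      (W.add (sub ls S)).b := by
    funext x
    rcases x with x | x
    · show bω x = W.b x
      rw [hWb]
    · show σ (j x) = (ls x).1.1
      rw [hls]
  rw [hb] at hY'
  refine ok_of hΦ hε ?_ hY' ?_ ?_
  · rintro (x | x)
    · show 0 ≤ W.b x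
      rw [hWb]
      exact hbω x
    · show 0 ≤ (ls x).1.1
      rw [hls]
      exact (hR.pos _ ⟨x, rfl⟩).le
  · funext x
    show Y 0 (e x) = _
    rw [hY0]
    rcases x with x | x
    · show p.2 x = W.z x
      rw [hWz]
    · show lineAt (σ (j x)) (X (σ (j x)) (j x)) 0 = back (ls x).1
      rw [back_eq, hls]
  · have h1 := hSep.comap (e := Sum.map id (fun x : S => (x : κ)))
      (Function.injective_id.sumMap Subtype.val_injective)
    have h2 : (W.add (MW.lines ls)).comap (Sum.map id (fun x : S => (x : κ))) =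
        W.add (sub ls S) := by
      unfold sub MW.comap MW.add MW.lines
      congr 1 <;> · funext x; rcases x with x | x <;> rfl
    rwa [h2] at h1

/-- **Gas version**: the isolated group moves with the Newton flow, the world is the gas. -/
theorem ae_okFam_cfg (hΦ : AdmissiblePotential Φ) (hε : 0 < ε) (n : ℕ) :
    ∀ᵐ p ∂((volume : Measure (α → PhasePoint)).prod (volume : Measure (Config n))),
      p.2 ∈ PairExcluded ε n →
      ∀ (σ : α → ℝ) (T : ℝ) (κ : Type) [Fintype κ] (j : κ → α) (ls : κ → ML),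
      Function.Injective j → Rel ε (fun _ => 0) (range j) σ T (fun t => flow Φ ε t p.1) →
      (∀ x, (ls x).1 = (σ (j x), flow Φ ε (σ (j x)) p.1 (j x))) →
      (∀ x y, x ≠ y → (ls x).1.1 = (ls y).1.1 → StartSep ε (ls x).1.2 (ls y).1.2) →
      MW.OkFam Φ ε (MW.cfg p.2) ls := by
  have hinj : ∀ᵐ p ∂((volume : Measure (α → PhasePoint)).prod (volume : Measure (Config n))),
      Inj p.1 := Measure.quasiMeasurePreserving_fst.ae ae_inj
  filter_upwards [ae_okFam (α := α) (ω := Fin n) hΦ hε (fun _ => 0) (fun _ => 0) fun _ => le_rfl,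
    hinj] with p hp hI hw σ T κ _ j ls hj hR hls hsep
  have hD : p.1 ∈ Dom Φ α := Or.inr hI
  refine hp σ T (fun t => flow Φ ε t p.1)
    (World.bworld (world_flow hΦ hε hD) fun _ => le_rfl) (Flow671.flow_zero hΦ hε p.1) κ j ls
    (MW.cfg p.2) hj hR hls rfl rfl (sepB_add_lines (sepB_cfg hw) hsep fun i x h => ?_)
  have h1 : (0 : ℝ) = (ls x).1.1 := h
  rw [hls] at h1
  exact absurd h1 (hR.pos _ ⟨x, rfl⟩).ne

end fam

end

end Crest.Agent.R122.TransOk151
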