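import Crest.Agent.R122.TransDefs_151
import Crest.Agent.R122.NonSing_942
import Crest.Agent.R122.FlowLL_942

/-!
# The transfer step is non-singular (row 122, item (4) of the H12 plan), helper151

At a state-dependent time `β`, at which two particles `i, j` are at distance exactly `ε` and move
apart, the decoupled groups `G₁, G₂` are replaced by `H₁, H₂`. The map "state at time `0` ↦ state at
the fixed time `q`" is non-singular: `transfer_null`.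
-/

set_option autoImplicit false
set_option linter.unusedSectionVars false

open MeasureTheory Set Filter Topology
open scoped ENNReal NNReal
open Crest.AnalysisR.Kinetic
open Crest.Agent.R122.Flow671 Crest.Agent.R122.Loc45 Crest.Agent.R122.Ins45

namespace Crest.Agent.R122.TransOk151

noncomputable section

open scoped Classical

/-! ### Locally Lipschitz maps at a point -/

/-- Lipschitz near `p`. -/
def LL {E F : Type*} [PseudoEMetricSpace E] [PseudoEMetricSpace F] (f : E → F) (p : E) : Prop :=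
  ∃ K : ℝ≥0, ∃ V ∈ 𝓝 p, LipschitzOnWith K f V

section LL

variable {E F G : Type*} [PseudoEMetricSpace E] [PseudoEMetricSpace F] [PseudoEMetricSpace G]

theorem LL.continuousAt {f : E → F} {p : E} (h : LL f p) : ContinuousAt f p := by
  obtain ⟨K, V, hV, hK⟩ := h
  exact (hK.continuousOn).continuousAt hV

theorem LL.comp {g : F → G} {f : E → F} {p : E} (hg : LL g (f p)) (hf : LL f p) :
    LL (fun x => g (f x)) p := by
  obtain ⟨K, V, hV, hK⟩ := hg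
  obtain ⟨K', V', hV', hK'⟩ := hf
  have h1 : f ⁻¹' V ∈ 𝓝 p := (LL.continuousAt ⟨K', V', hV', hK'⟩) hV
  refine ⟨K * K', V' ∩ f ⁻¹' V, inter_mem hV' h1, ?_⟩
  exact hK.comp (hK'.mono inter_subset_left) fun x hx => hx.2

theorem LL.prodMk {f : E → F} {g : E → G} {p : E} (hf : LL f p) (hg : LL g p) :
    LL (fun x => (f x, g x)) p := by
  obtain ⟨K, V, hV, hK⟩ := hf
  obtain ⟨K', V', hV', hK'⟩ := hg
  refine ⟨max K K', V ∩ V', inter_mem hV hV', ?_⟩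
  exact (hK.mono inter_subset_left).prodMk (hK'.mono inter_subset_right)

theorem LL.pi {ι : Type*} [Fintype ι] {X : ι → Type*} [∀ i, PseudoEMetricSpace (X i)]
    {f : E → ∀ i, X i} {p : E} (h : ∀ i, LL (fun x => f x i) p) : LL f p := by
  choose K V hV hK using h
  refine ⟨∑ i, K i, ⋂ i, V i, (Filter.iInter_mem).2 hV, ?_⟩
  intro x hx y hy
  rw [edist_pi_le_iff]
  intro i
  refine (hK i (mem_iInter.1 hx i) (mem_iInter.1 hy i)).trans ?_
  gcongr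
  exact Finset.single_le_sum (f := K) (fun _ _ => zero_le) (Finset.mem_univ i)

theorem LL.of_lipschitzWith {f : E → F} {K : ℝ≥0} (h : LipschitzWith K f) (p : E) : LL f p :=
  ⟨K, univ, univ_mem, h.lipschitzOnWith⟩

theorem LL.of_contDiff {E F : Type*} [NormedAddCommGroup E] [NormedSpace ℝ E]
    [NormedAddCommGroup F] [NormedSpace ℝ F] {f : E → F} (h : ContDiff ℝ 1 f) (p : E) :
    LL f p := by
  obtain ⟨K, t, ht, hK⟩ := (h.contDiffAt (x := p)).exists_lipschitzOnWith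
  exact ⟨K, t, ht, hK⟩

end LL

variable {Φ : Space3 → ℝ} {ε : ℝ} {κ : Type*} [Fintype κ] {G₁ G₂ H₁ H₂ : Finset κ}

theorem LL_flow (hΦ : AdmissiblePotential Φ) (hε : 0 < ε) {ι : Type*} [Fintype ι] {t : ℝ}
    {Z : ι → PhasePoint} (hZ : Z ∈ Dom Φ ι) :
    LL (fun p : ℝ × (ι → PhasePoint) => flow Φ ε p.1 p.2) (t, Z) := by
  obtain ⟨r, hr, -, C, hC⟩ := exists_lipschitzOn_flow hΦ hε hZ (|t| + 1)
  refine ⟨C, _, prod_mem_nhds (Icc_mem_nhds ?_ ?_) (Metric.ball_mem_nhds _ hr), hC⟩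
  · linarith [neg_abs_le t]
  · linarith [le_abs_self t]

/-- The decoupled flow is locally Lipschitz in time and state. -/
theorem LL_fl (hΦ : AdmissiblePotential Φ) (hε : 0 < ε) {t : ℝ} {Z : κ → PhasePoint}
    (hZ : DomG Φ G₁ G₂ Z) :
    LL (fun p : ℝ × (κ → PhasePoint) => fl Φ ε G₁ G₂ p.1 p.2) (t, Z) := by
  refine LL.pi fun k => ?_
  by_cases h₁ : k ∈ G₁
  · simp only [fl_mem₁ _ _ h₁]
    have h2 : LL (fun p : ℝ × (κ → PhasePoint) => (p.1, fun a : G₁ => p.2 a)) (t, Z) :=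
      LL.of_contDiff (by fun_prop) _
    have h3 := LL.comp (g := fun p : ℝ × (G₁ → PhasePoint) => flow Φ ε p.1 p.2)
      (f := fun p : ℝ × (κ → PhasePoint) => (p.1, fun a : G₁ => p.2 a)) (LL_flow hΦ hε hZ.1) h2
    exact LL.comp (g := fun x : G₁ → PhasePoint => x ⟨k, h₁⟩)
      (LL.of_contDiff (by fun_prop) _) h3
  by_cases h₂ : k ∈ G₂
  · simp only [fl_mem₂ _ _ h₁ h₂]
    have h2 : LL (fun p : ℝ × (κ → PhasePoint) => (p.1, fun a : G₂ => p.2 a)) (t, Z) :=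
      LL.of_contDiff (by fun_prop) _
    have h3 := LL.comp (g := fun p : ℝ × (G₂ → PhasePoint) => flow Φ ε p.1 p.2)
      (f := fun p : ℝ × (κ → PhasePoint) => (p.1, fun a : G₂ => p.2 a)) (LL_flow hΦ hε hZ.2) h2
    exact LL.comp (g := fun x : G₂ → PhasePoint => x ⟨k, h₂⟩)
      (LL.of_contDiff (by fun_prop) _) h3
  · simp only [fl_free _ _ h₁ h₂]
    exact LL.of_contDiff (by fun_prop) _

theorem isOpen_domG (Φ : Space3 → ℝ) (G₁ G₂ : Finset κ) :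
    IsOpen {Z : κ → PhasePoint | DomG Φ G₁ G₂ Z} := by
  have h : ∀ G : Finset κ, IsOpen {Z : κ → PhasePoint | (fun a : G => Z a) ∈ Dom Φ G} := by
    intro G
    have h1 : Continuous fun (Z : κ → PhasePoint) (a : G) => Z a :=
      continuous_pi fun a => continuous_apply (a : κ)
    exact (isOpen_Dom (ι := G) Φ).preimage h1
  exact (h G₁).inter (h G₂)

/-- The backward evolution of the second pair of groups. -/
def Wm (Φ : Space3 → ℝ) (ε : ℝ) (H₁ H₂ : Finset κ) (q : ℝ) (p : ℝ × (κ → PhasePoint)) :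
    κ → PhasePoint := fl Φ ε H₁ H₂ (p.1 - q) p.2

/-- The backward evolution to time `0`. -/
def Rm (Φ : Space3 → ℝ) (ε : ℝ) (G₁ G₂ H₁ H₂ : Finset κ) (q : ℝ) (p : ℝ × (κ → PhasePoint)) :
    κ → PhasePoint := fl Φ ε G₁ G₂ (-p.1) (Wm Φ ε H₁ H₂ q p)

/-- `|x_i - x_j|² - ε²`. -/
def hm (ε : ℝ) (i j : κ) (Z : κ → PhasePoint) : ℝ := ‖(Z i).1 - (Z j).1‖ ^ 2 - ε ^ 2

/-- Its time derivative. -/
def hm' (i j : κ) (Z : κ → PhasePoint) : ℝ :=
  2 * inner ℝ ((Z i).1 - (Z j).1) ((Z i).2 - (Z j).2)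

theorem contDiff_hm (ε : ℝ) (i j : κ) : ContDiff ℝ 1 (hm (κ := κ) ε i j) := by
  have h2 : ContDiff ℝ 1 fun Z : κ → PhasePoint => (Z i).1 - (Z j).1 := by fun_prop
  exact (h2.norm_sq ℝ).sub contDiff_const

theorem continuous_hm' (i j : κ) : Continuous (hm' (κ := κ) i j) := by
  unfold hm'
  fun_prop

theorem LL_Wm (hΦ : AdmissiblePotential Φ) (hε : 0 < ε) {q : ℝ} {p : ℝ × (κ → PhasePoint)}
    (hp : DomG Φ H₁ H₂ p.2) : LL (Wm Φ ε H₁ H₂ q) p := by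
  have h1 : LL (fun p : ℝ × (κ → PhasePoint) => (p.1 - q, p.2)) p :=
    LL.of_contDiff (by fun_prop) _
  exact LL.comp (g := fun p : ℝ × (κ → PhasePoint) => fl Φ ε H₁ H₂ p.1 p.2)
    (f := fun p : ℝ × (κ → PhasePoint) => (p.1 - q, p.2)) (LL_fl hΦ hε hp) h1

theorem LL_Rm (hΦ : AdmissiblePotential Φ) (hε : 0 < ε) {q : ℝ} {p : ℝ × (κ → PhasePoint)}
    (hp : DomG Φ H₁ H₂ p.2) (hp' : DomG Φ G₁ G₂ (Wm Φ ε H₁ H₂ q p)) :
    LL (Rm Φ ε G₁ G₂ H₁ H₂ q) p := by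
  have h1 : LL (fun p : ℝ × (κ → PhasePoint) => (-p.1, Wm Φ ε H₁ H₂ q p)) p :=
    LL.prodMk (LL.of_contDiff (by fun_prop) _) (LL_Wm hΦ hε hp)
  exact LL.comp (g := fun p : ℝ × (κ → PhasePoint) => fl Φ ε G₁ G₂ p.1 p.2)
    (f := fun p : ℝ × (κ → PhasePoint) => (-p.1, Wm Φ ε H₁ H₂ q p)) (LL_fl hΦ hε hp') h1

theorem hasDerivAt_hm (hΦ : AdmissiblePotential Φ) (hε : 0 < ε) {q : ℝ} (i j : κ)
    {p : ℝ × (κ → PhasePoint)} (hp : DomG Φ H₁ H₂ p.2) :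
    HasDerivAt (fun c => hm ε i j (Wm Φ ε H₁ H₂ q (c, p.2))) (hm' i j (Wm Φ ε H₁ H₂ q p)) p.1 := by
  have h2 : ∀ k, HasDerivAt (fun c => (Wm Φ ε H₁ H₂ q (c, p.2) k).1)
      (Wm Φ ε H₁ H₂ q p k).2 p.1 := by
    intro k
    have h3 := hasDerivAt_pos_fl hΦ hε hp (p.1 - q) k
    have h4 := h3.scomp p.1 ((hasDerivAt_id p.1).sub_const q)
    rw [one_smul] at h4
    exact h4
  exact (((h2 i).sub (h2 j)).norm_sq).sub_const (ε ^ 2)

theorem transfer_null_aux (hΦ : AdmissiblePotential Φ) (hε : 0 < ε) (q : ℝ)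
    {N : Set (κ → PhasePoint)} (hN : volume N = 0) (i j : κ) :
    volume {y : κ → PhasePoint | ∃ p ∈ {p : ℝ × (κ → PhasePoint) |
      DomG Φ H₁ H₂ p.2 ∧ DomG Φ G₁ G₂ (Wm Φ ε H₁ H₂ q p) ∧
      0 < hm' i j (Wm Φ ε H₁ H₂ q p)}, p.2 ∈ N ∧
      hm ε i j (Wm Φ ε H₁ H₂ q p) = 0 ∧ Rm Φ ε G₁ G₂ H₁ H₂ q p = y} = 0 := by
  refine NonSing942.null_of_hasDerivAt (μ := volume) (ν := volume) rfl hN
    (R := Rm Φ ε G₁ G₂ H₁ H₂ q) (H := fun p => hm ε i j (Wm Φ ε H₁ H₂ q p))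
    (H' := fun p => hm' i j (Wm Φ ε H₁ H₂ q p)) ?_ ?_ ?_ ?_ ?_
  · intro p hp
    exact LL_Rm hΦ hε hp.1 hp.2.1
  · intro p hp
    exact LL.comp (g := hm ε i j) (f := Wm Φ ε H₁ H₂ q) (LL.of_contDiff (contDiff_hm ε i j) _)
      (LL_Wm hΦ hε hp.1)
  · intro p hp
    have h1 : ∀ᶠ p' in 𝓝 p, DomG Φ H₁ H₂ p'.2 :=
      continuous_snd.continuousAt.eventually ((isOpen_domG Φ H₁ H₂).mem_nhds hp.1)
    filter_upwards [h1] with p' hp'
    exact hasDerivAt_hm hΦ hε i j hp'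
  · intro p hp
    exact (continuous_hm' i j).continuousAt.comp (LL_Wm hΦ hε hp.1).continuousAt
  · intro p hp
    exact hp.2.2

/-- **The transfer step is non-singular.** -/
theorem transfer_null (hΦ : AdmissiblePotential Φ) (hε : 0 < ε) (hG : Disjoint G₁ G₂)
    (hH : Disjoint H₁ H₂) (q : ℝ) {N : Set (κ → PhasePoint)} (hN : volume N = 0) :
    volume {Z : κ → PhasePoint | ∃ β : ℝ, ∃ i j : κ, Inj (fl Φ ε G₁ G₂ β Z) ∧
      dist (fl Φ ε G₁ G₂ β Z i).1 (fl Φ ε G₁ G₂ β Z j).1 = ε ∧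
      0 < inner ℝ ((fl Φ ε G₁ G₂ β Z i).1 - (fl Φ ε G₁ G₂ β Z j).1)
        ((fl Φ ε G₁ G₂ β Z i).2 - (fl Φ ε G₁ G₂ β Z j).2) ∧
      fl Φ ε H₁ H₂ (q - β) (fl Φ ε G₁ G₂ β Z) ∈ N} = 0 := by
  refine measure_mono_null ?_ (measure_iUnion_null fun i : κ => measure_iUnion_null fun j : κ =>
    transfer_null_aux (G₁ := G₁) (G₂ := G₂) (H₁ := H₁) (H₂ := H₂) hΦ hε q hN i j)
  rintro Z ⟨β, i, j, hI, hd, hin, hZN⟩
  have hWp : Wm Φ ε H₁ H₂ q (β, fl Φ ε H₁ H₂ (q - β) (fl Φ ε G₁ G₂ β Z)) =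
      fl Φ ε G₁ G₂ β Z := by
    unfold Wm
    rw [← fl_add hΦ hε hH]
    have : q - β + (β - q) = 0 := by ring
    rw [this, fl_zero hΦ hε]
  simp only [mem_iUnion]
  refine ⟨i, j, (β, fl Φ ε H₁ H₂ (q - β) (fl Φ ε G₁ G₂ β Z)),
    ⟨hI.domG.fl hΦ hε hH _, ?_, ?_⟩, hZN, ?_, ?_⟩
  · rw [hWp]; exact hI.domG
  · rw [hWp]; exact mul_pos two_pos hin
  · rw [hWp]
    unfold hm
    rw [← dist_eq_norm, hd, sub_self]
  · unfold Rm
    rw [hWp, ← fl_add hΦ hε hG]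
    show fl Φ ε G₁ G₂ (β + -β) Z = Z
    rw [add_neg_cancel, fl_zero hΦ hε]

end

end Crest.Agent.R122.TransOk151
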