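import Crest.Agent.R122.Relabel_674

/-!
# Tree bound (row 122): `≤` version of the tree transport, arbitrary kernels

`tree_bound`: if a functional `F k V j` of a labelled configuration (no measurability, no symmetry)
is at most the sum, over all ways of writing `V` as a valid (not necessarily separated) tree rooted
at `j`, of `G P (ℓ, p)`, then the grand canonical integral of `∑_j F k V j` is at most the integral
of `G` over tree parameters.  `le_sum_of_exists`: it is enough to exhibit one such tree.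
-/

set_option autoImplicit false

open MeasureTheory Set
open scoped Classical ENNReal
open Crest.AnalysisR.Kinetic
open Crest.Agent.R122.Kin796 Crest.Agent.R122.Kin796.CTree Crest.Agent.R122.Tree674
open Crest.Agent.R122.Relabel674

noncomputable section

namespace Crest.Agent.R122.TreeBound335

variable {Φ : Space3 → ℝ} {ε : ℝ}

/-- The sum over all ways of writing `V` as a valid tree rooted at `j`. -/
def ways (Φ : Space3 → ℝ) (ε T : ℝ) (G : (P : CTree) → PhasePoint × Par P → ℝ≥0∞) {k : ℕ}
    (V : Config k) (j : Fin k) : ℝ≥0∞ :=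
  ∑' P : CTree, ∑ e : Idx P ≃ Fin k,
    if e (root P) = j ∧ (fun x => V (e x)) ∈ Skel Φ ε P T then
      G P (Tree674.inv Φ ε P T fun x => V (e x)) else 0

/-- One tree is enough. -/
theorem le_ways (hΦ : AdmissiblePotential Φ) (hε : 0 < ε) {T : ℝ}
    {G : (P : CTree) → PhasePoint × Par P → ℝ≥0∞} {k : ℕ} {V : Config k} {j : Fin k}
    {P : CTree} {e : Idx P ≃ Fin k} {ℓ : PhasePoint} {p : Par P} (h0 : e (root P) = j)
    (hv : Valid Φ ε P T ℓ.2 p) (hV : ∀ x, V (e x) = lines Φ ε P ℓ p x) :
    G P (ℓ, p) ≤ ways Φ ε T G V j := by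
  have h1 : (fun x => V (e x)) = lines Φ ε P ℓ p := funext hV
  have h2 : (fun x => V (e x)) ∈ Skel Φ ε P T := by
    rw [h1]; exact ⟨ℓ, p, hv, rfl⟩
  have h3 : Tree674.inv Φ ε P T (fun x => V (e x)) = (ℓ, p) := by
    rw [h1]; exact inv_lines hΦ hε hv le_rfl
  have h4 : G P (ℓ, p) = (if e (root P) = j ∧ (fun x => V (e x)) ∈ Skel Φ ε P T then
      G P (Tree674.inv Φ ε P T fun x => V (e x)) else 0) := by
    rw [if_pos ⟨h0, h2⟩, h3]
  rw [h4]
  refine le_trans ?_ (ENNReal.le_tsum P)
  exact Finset.single_le_sum (f := fun e : Idx P ≃ Fin k =>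
    if e (root P) = j ∧ (fun x => V (e x)) ∈ Skel Φ ε P T then
      G P (Tree674.inv Φ ε P T fun x => V (e x)) else 0) (fun _ _ => zero_le) (Finset.mem_univ e)

/-- The sum over the roots. -/
theorem sum_ways {T : ℝ} (G : (P : CTree) → PhasePoint × Par P → ℝ≥0∞) {k : ℕ} (V : Config k) :
    ∑ j : Fin k, ways Φ ε T G V j = ∑' P : CTree, ∑ e : Idx P ≃ Fin k,
      if (fun x => V (e x)) ∈ Skel Φ ε P T then
        G P (Tree674.inv Φ ε P T fun x => V (e x)) else 0 := by
  unfold ways
  rw [← Summable.tsum_finsetSum fun _ _ => ENNReal.summable]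
  refine tsum_congr fun P => ?_
  rw [Finset.sum_comm]
  refine Finset.sum_congr rfl fun e _ => ?_
  rw [Finset.sum_eq_single (e (root P))]
  · simp
  · intro j _ hj
    rw [if_neg]
    rintro ⟨h, -⟩
    exact hj h.symm
  · intro h
    exact absurd (Finset.mem_univ _) h

/-- **Tree bound.** -/
theorem tree_bound (hΦ : AdmissiblePotential Φ) (hε : 0 < ε) {T : ℝ}
    {G : (P : CTree) → PhasePoint × Par P → ℝ≥0∞} (hG : ∀ P, Measurable (G P)) {k : ℕ}
    {F : Config k → Fin k → ℝ≥0∞} (hF : ∀ V j, F V j ≤ ways Φ ε T G V j) :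
    activity ε ^ k / (k.factorial : ℝ≥0∞) * ∫⁻ V : Config k, ∑ j : Fin k, F V j ≤
      activity ε * ∑' P : CTree, if P.leaves = k then ∫⁻ z : PhasePoint × Par P,
        {z : PhasePoint × Par P | Valid Φ ε P T z.1.2 z.2}.indicator
          (fun z => wt Φ P z.1.2 z.2 * G P z) z else 0 := by
  have hm : ∀ (P : CTree), Measurable fun W : Idx P → PhasePoint =>
      (if W ∈ Skel Φ ε P T then G P (Tree674.inv Φ ε P T W) else 0) := fun P =>
    Measurable.ite (measurableSet_skel hΦ hε P T) ((hG P).comp (measurable_inv hΦ hε P T))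
      measurable_const
  have hm' : ∀ (P : CTree) (e : Idx P ≃ Fin k), Measurable fun V : Config k =>
      (if (fun x => V (e x)) ∈ Skel Φ ε P T then
        G P (Tree674.inv Φ ε P T fun x => V (e x)) else 0) := fun P e =>
    (hm P).comp (measurable_pi_iff.2 fun x => measurable_pi_apply (e x))
  have h1 : ∫⁻ V : Config k, ∑ j : Fin k, F V j ≤ ∫⁻ V : Config k, ∑' P : CTree,
      ∑ e : Idx P ≃ Fin k, if (fun x => V (e x)) ∈ Skel Φ ε P T then
        G P (Tree674.inv Φ ε P T fun x => V (e x)) else 0 := by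
    refine lintegral_mono fun V => ?_
    rw [← sum_ways G V]
    exact Finset.sum_le_sum fun j _ => hF V j
  refine (mul_le_mul_right h1 _).trans ?_
  rw [lintegral_tsum fun P => (Finset.measurable_sum _ fun e _ => hm' P e).aemeasurable,
    ← ENNReal.tsum_mul_left, ← ENNReal.tsum_mul_left]
  refine ENNReal.tsum_le_tsum fun P => ?_
  rw [lintegral_finsetSum _ fun e _ => hm' P e]
  by_cases hP : P.leaves = k
  · subst hP
    rw [if_pos rfl]
    have h2 : ∀ e : Idx P ≃ Fin P.leaves, ∫⁻ V : Config P.leaves,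
        (if (fun x => V (e x)) ∈ Skel Φ ε P T then
          G P (Tree674.inv Φ ε P T fun x => V (e x)) else 0) =
        ENNReal.ofReal (ε ^ 2) ^ P.size * ∫⁻ z : PhasePoint × Par P,
          {z : PhasePoint × Par P | Valid Φ ε P T z.1.2 z.2}.indicator
            (fun z => wt Φ P z.1.2 z.2 * G P z) z := by
      intro e
      rw [lintegral_relabel e]
      have h3 : ∀ W : Idx P → PhasePoint, (fun x => W (e.symm (e x))) = W := fun W => by
        funext x; rw [Equiv.symm_apply_apply]
      simp only [h3]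
      have h4 := treeMeasure hΦ hε P T (H := fun q => G P q.1) ((hG P).comp measurable_fst)
      rw [h4]
      refine lintegral_congr fun W => ?_
      by_cases hW : W ∈ Skel Φ ε P T
      · rw [if_pos hW, indicator_of_mem hW]
      · rw [if_neg hW, indicator_of_notMem hW]
    simp only [h2]
    rw [Finset.sum_const, Finset.card_univ, Fintype.card_equiv (eP P), card_idx, nsmul_eq_mul]
    have hf0 : ((P.leaves).factorial : ℝ≥0∞) ≠ 0 := by
      exact_mod_cast (Nat.factorial_pos _).ne'
    have hft : ((P.leaves).factorial : ℝ≥0∞) ≠ ∞ := ENNReal.natCast_ne_top _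
    have h5 : activity ε ^ P.leaves / ((P.leaves).factorial : ℝ≥0∞) *
        ((P.leaves).factorial : ℝ≥0∞) = activity ε ^ P.leaves :=
      ENNReal.div_mul_cancel hf0 hft
    rw [← mul_assoc, h5, ← mul_assoc, activity_pow_mul hε P]
  · rw [if_neg hP, mul_zero]
    have hem : IsEmpty (Idx P ≃ Fin k) := by
      refine ⟨fun e => hP ?_⟩
      have := Fintype.card_congr e
      rwa [card_idx, Fintype.card_fin] at this
    rw [Finset.sum_eq_zero fun e _ => (hem.false e).elim, mul_zero]

/-- Sum over all cluster sizes. -/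
theorem tree_bound_tsum (hΦ : AdmissiblePotential Φ) (hε : 0 < ε) {T : ℝ}
    {G : (P : CTree) → PhasePoint × Par P → ℝ≥0∞} (hG : ∀ P, Measurable (G P))
    {F : (k : ℕ) → Config k → Fin k → ℝ≥0∞} (hF : ∀ k V j, F k V j ≤ ways Φ ε T G V j) :
    ∑' k : ℕ, activity ε ^ k / (k.factorial : ℝ≥0∞) * ∫⁻ V : Config k, ∑ j : Fin k, F k V j ≤
      activity ε * ∑' P : CTree, ∫⁻ z : PhasePoint × Par P,
        {z : PhasePoint × Par P | Valid Φ ε P T z.1.2 z.2}.indicator
          (fun z => wt Φ P z.1.2 z.2 * G P z) z := by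
  refine (ENNReal.tsum_le_tsum fun k => tree_bound hΦ hε hG (hF k)).trans ?_
  rw [ENNReal.tsum_mul_left]
  refine mul_le_mul_right ?_ _
  rw [ENNReal.tsum_comm]
  refine ENNReal.tsum_le_tsum fun P => ?_
  rw [tsum_eq_single P.leaves]
  · rw [if_pos rfl]
  · intro k hk
    rw [if_neg fun h => hk h.symm]

end Crest.Agent.R122.TreeBound335
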