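import Crest.Agent.R122.TreeIn_45

/-!
# The size of a member of a real tree at its release is its mark (row 122, blocks A7/A9)

* `lastS_past` : every leaf under the last node of `i` is reached from `(i, rel i)` by collision
  windows.
* `TreeIn.size_eq` : in a world which contains the real tree (`TreeIn`, helper45) the size of a member
  at its release is exactly its mark.
-/

set_option autoImplicit false
set_option linter.unusedSectionVars false

open MeasureTheory Set Filter Topology
open Crest.AnalysisR.Kinetic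
open Crest.Agent.R122.Flow671 hiding rel
open Crest.Agent.R122.Loc45 Crest.Agent.R122.Causal291
open Crest.Agent.R122.Inf879 Crest.Agent.R122.EDefs602 Crest.Agent.R122.Ins45
open Crest.Agent.R122.Kin796 Crest.Agent.R122.Kin796.CTree Crest.Agent.R122.Tree674
open Crest.Agent.R122.PathFlow968 Crest.Agent.R122.TreeLines335
open Crest.Agent.R122.InEq2T (lastS card_lastS mem_lastS lastS_closed)

namespace Crest.Agent.R122.Hid879

noncomputable section

open scoped Classical

/-- Contacts of the tree. -/
def Win (Φ : Space3 → ℝ) (ε : ℝ) (P : CTree) (v : Space3) (p : Par P) (u : ℝ) (i j : Idx P) :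
    Prop := InWindow Φ ε P v p i j u ∨ InWindow Φ ε P v p j i u

/-- Every leaf under the last node of `i` is reached from `(i, rel i)`. -/
theorem lastS_past {Φ : Space3 → ℝ} {ε : ℝ} (hε : 0 ≤ ε) : ∀ {P : CTree} {T : ℝ} {v : Space3}
    {p : Par P}, 0 < T → Ord Φ ε P T v p → ∀ i y, y ∈ lastS P i →
      Past (Win Φ ε P v p) (rel P p i) i 0 y
  | leaf, _, _, _, _, _, _, _, _ => .root le_rfl
  | node l r, T, v, p, hT, ho, i, y, hy => by
      have hL : ∀ u a b, Win Φ ε l (preV Φ v p.1).1 p.2.1 u a b →
          Win Φ ε (node l r) v p u (Sum.inl a) (Sum.inl b) := by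
        rintro u a b (h | h)
        · exact Or.inl (Or.inr (Or.inl ⟨a, b, rfl, rfl, h⟩))
        · exact Or.inr (Or.inr (Or.inl ⟨b, a, rfl, rfl, h⟩))
      have hR : ∀ u a b, Win Φ ε r (preV Φ v p.1).2 p.2.2 u a b →
          Win Φ ε (node l r) v p u (Sum.inr a) (Sum.inr b) := by
        rintro u a b (h | h)
        · exact Or.inl (Or.inr (Or.inr ⟨a, b, rfl, rfl, h⟩))
        · exact Or.inr (Or.inr (Or.inr ⟨b, a, rfl, rfl, h⟩))
      have hsle : Tree674.sin Φ ε v p.1 ≤ p.1.1 := sin_le hε v p.1
      have h0 : 0 < Tree674.sin Φ ε v p.1 := ho.2.1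
      have hall : ∀ (P : CTree), lastS P (root P) = Finset.univ := by
        intro P
        cases P with
        | leaf => rfl
        | node a b => simp [lastS, root]
      -- everybody on the left from the left root, everybody on the right from the right root
      have gL : ∀ y', Past (Win Φ ε (node l r) v p) p.1.1 (Sum.inl (root l)) 0 (Sum.inl y') := by
        intro y'
        have h1 := lastS_past hε h0 ho.2.2.1 (root l) y' (by rw [hall]; exact Finset.mem_univ _)
        have h2 := past_root_mono (r := p.1.1) (((rel_lt hε h0 ho.2.2.1 (root l)).le).trans hsle) h1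
        exact past_map hL h2
      have gR : ∀ y', Past (Win Φ ε (node l r) v p) p.1.1 (Sum.inr (root r)) 0 (Sum.inr y') := by
        intro y'
        have h1 := lastS_past hε h0 ho.2.2.2 (root r) y' (by rw [hall]; exact Finset.mem_univ _)
        have h2 := past_root_mono (r := p.1.1) (((rel_lt hε h0 ho.2.2.2 (root r)).le).trans hsle) h1
        exact past_map hR h2
      have c1 : Win Φ ε (node l r) v p p.1.1 (Sum.inl (root l)) (Sum.inr (root r)) :=
        Or.inl (Or.inl ⟨rfl, rfl, hsle, le_rfl⟩)
      have c2 : Win Φ ε (node l r) v p p.1.1 (Sum.inr (root r)) (Sum.inl (root l)) :=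
        Or.inr (Or.inl ⟨rfl, rfl, hsle, le_rfl⟩)
      rcases i with i | i
      · by_cases hi : i = root l
        · subst hi
          rw [rel_inl, if_pos rfl]
          rcases y with y | y
          · exact gL y
          · exact Past.trans (Past.contact (.root le_rfl) c1) (gR y)
        · rw [rel_inl, if_neg hi]
          simp only [lastS, Sum.elim_inl, if_neg hi, Finset.mem_map,
            Function.Embedding.coeFn_mk] at hy
          obtain ⟨y', hy', rfl⟩ := hy
          exact past_map hL (lastS_past hε h0 ho.2.2.1 i y' hy')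
      · by_cases hi : i = root r
        · subst hi
          rw [rel_inr, if_pos rfl]
          rcases y with y | y
          · exact Past.trans (Past.contact (.root le_rfl) c2) (gL y)
          · exact gR y
        · rw [rel_inr, if_neg hi]
          simp only [lastS, Sum.elim_inr, if_neg hi, Finset.mem_map,
            Function.Embedding.coeFn_mk] at hy
          obtain ⟨y', hy', rfl⟩ := hy
          exact past_map hR (lastS_past hε h0 ho.2.2.2 i y' hy')

variable {α : Type} [Fintype α] {Φ : Space3 → ℝ} {ε : ℝ} {Z : MW α} {P : CTree}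
  {z : PhasePoint × Par P} {f : Idx P → α}

/-- The own past of a member contains the leaves under its last node. -/
theorem _root_.Crest.Agent.R122.Ins45.TreeIn.own_past_ge (h : TreeIn Φ ε Z P z f)
    (hΦ : AdmissiblePotential Φ) (hε : 0 < ε) {T : ℝ} (hT : 0 < T) (hV : Valid Φ ε P T z.1.2 z.2)
    {i y : Idx P} (hy : y ∈ lastS P i) : Past (Z.C Φ ε) (rel P z.2 i) (f i) 0 (f y) := by
  refine past_map (D := Win Φ ε P z.1.2 z.2) (e := f) ?_ (lastS_past hε.le hT hV.2 i y hy)
  intro u a b hw
  have hu : 0 < u ∧ u ≤ rel P z.2 a ∧ u ≤ rel P z.2 b := by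
    rcases hw with hw | hw
    · exact ⟨(InWindow.mem hε.le P T z.1.2 z.2 hV.2 a b u hw).1, inWindow_rel hε.le hV.2 hw⟩
    · exact ⟨(InWindow.mem hε.le P T z.1.2 z.2 hV.2 b a u hw).1,
        (inWindow_rel hε.le hV.2 hw).symm⟩
  refine ⟨?_, ?_, Or.inr (Or.inl ?_), ?_⟩
  · rw [h.b a]; exact hu.1.le
  · rw [h.b b]; exact hu.1.le
  · rw [h.b a]; exact hu.1
  · rw [h.agree a u hu.1.le hu.2.1, h.agree b u hu.1.le hu.2.2]
    rcases hw with hw | hw
    · exact InWindow.dist_le hΦ hε P T z.1 z.2 hV a b u hw
    · rw [dist_comm]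
      exact InWindow.dist_le hΦ hε P T z.1 z.2 hV b a u hw

/-- **The size of a member at its release is its mark.** -/
theorem _root_.Crest.Agent.R122.Ins45.TreeIn.size_eq (h : TreeIn Φ ε Z P z f)
    (hΦ : AdmissiblePotential Φ) (hε : 0 < ε) {T : ℝ} (hT : 0 < T) (hV : Valid Φ ε P T z.1.2 z.2)
    (i : Idx P) : msize (Z.C Φ ε) Z.m (rel P z.2 i) (f i) = TreeLines335.mk P i := by
  refine le_antisymm (h.size hε.le hV.2 i) ?_
  have h1 : ∀ k, (if k ∈ (lastS P i).image f then Z.m k else 0) ≤
      if k ∈ BC (Z.C Φ ε) (rel P z.2 i) (f i) then Z.m k else 0 := by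
    intro k
    by_cases hk : k ∈ (lastS P i).image f
    · rw [if_pos hk]
      obtain ⟨y, hy, rfl⟩ := Finset.mem_image.1 hk
      have hp : f y ∈ BC (Z.C Φ ε) (rel P z.2 i) (f i) := h.own_past_ge hΦ hε hT hV hy
      rw [if_pos hp]
    · rw [if_neg hk]
      exact Nat.zero_le _
  unfold msize
  refine le_trans ?_ (Finset.sum_le_sum fun k _ => h1 k)
  rw [Finset.sum_ite_mem, Finset.univ_inter, Finset.sum_image fun x _ y _ hxy => h.inj hxy,
    Finset.sum_congr rfl fun y _ => h.m y, Finset.sum_const, card_lastS, smul_eq_mul, mul_one]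

end

end Crest.Agent.R122.Hid879
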