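import Crest.Agent.R122.FluxPair_663
import Crest.Agent.R122.Scat3_818

/-!
Row 122, block FT (helper818), part 1: lines entering a straight moving tube.

The centre of the tube is `c + s • V`, a line is `x + s • v`, `g = v - V`; the relative line is
`(x - c) + s • g`.  `sEnt ε (q, g)` is the entrance time of the relative line `q + s • g` in the ball of
radius `ε`.
-/

set_option autoImplicit false
set_option maxHeartbeats 400000

open MeasureTheory Set Filter
open Crest.AnalysisR.Kinetic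
open scoped ENNReal

noncomputable section

namespace Crest.Agent.R122.Tube818

open Disc416 Flux663

/-- Entrance time of the relative line `q + s • g` in the ball of radius `ε`. -/
def sEnt (ε : ℝ) (z : Space3 × Space3) : ℝ :=
  -tline z - Real.sqrt (ε ^ 2 - ‖bline z‖ ^ 2) / ‖z.2‖

/-- The relative line meets the open ball of radius `ε`. -/
def Meets (ε : ℝ) (z : Space3 × Space3) : Prop := z.2 ≠ 0 ∧ ‖bline z‖ < ε

lemma measurable_sEnt (ε : ℝ) : Measurable (sEnt ε) := by
  unfold sEnt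
  have h1 := measurable_tline
  have h2 := measurable_bline.norm
  have h3 : Measurable fun z : Space3 × Space3 => ‖z.2‖ := measurable_snd.norm
  exact h1.neg.sub (((h2.pow_const 2).const_sub (ε ^ 2)).sqrt.div h3)

lemma measurableSet_meets (ε : ℝ) : MeasurableSet {z : Space3 × Space3 | Meets ε z} := by
  have h1 : MeasurableSet {z : Space3 × Space3 | z.2 ≠ 0} :=
    (measurableSet_singleton (0 : Space3)).compl.preimage measurable_snd
  exact h1.inter (measurableSet_lt measurable_bline.norm measurable_const)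

/-- the relative position at time `s` -/
lemma rel_eq (z : Space3 × Space3) (s : ℝ) : z.1 + s • z.2 = bline z + (s + tline z) • z.2 := by
  unfold bline
  rw [add_smul]
  abel

lemma inner_bline (z : Space3 × Space3) : inner ℝ (bline z) z.2 = 0 := by
  unfold bline tline
  by_cases h : z.2 = 0
  · rw [h, inner_zero_right]
  · have hn : ‖z.2‖ ^ 2 ≠ 0 := by positivity
    rw [inner_sub_left, inner_smul_left, real_inner_self_eq_norm_sq]
    simp only [conj_trivial]
    rw [div_mul_cancel₀ _ hn, sub_self]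

lemma normSq_rel (z : Space3 × Space3) (s : ℝ) :
    ‖z.1 + s • z.2‖ ^ 2 = ‖bline z‖ ^ 2 + (s + tline z) ^ 2 * ‖z.2‖ ^ 2 := by
  rw [rel_eq, norm_add_sq_real, inner_smul_right, inner_bline, mul_zero, mul_zero, add_zero,
    norm_smul, mul_pow, Real.norm_eq_abs, sq_abs]

lemma norm_rel_sEnt {ε : ℝ} (hε : 0 < ε) {z : Space3 × Space3} (h : Meets ε z) :
    ‖z.1 + sEnt ε z • z.2‖ = ε := by
  have hn : ‖z.2‖ ≠ 0 := norm_ne_zero_iff.2 h.1
  have h1 : 0 ≤ ε ^ 2 - ‖bline z‖ ^ 2 := by
    have := h.2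
    have h0 := norm_nonneg (bline z)
    nlinarith
  have h2 : ‖z.1 + sEnt ε z • z.2‖ ^ 2 = ε ^ 2 := by
    rw [normSq_rel]
    unfold sEnt
    have : -tline z - Real.sqrt (ε ^ 2 - ‖bline z‖ ^ 2) / ‖z.2‖ + tline z =
        -(Real.sqrt (ε ^ 2 - ‖bline z‖ ^ 2) / ‖z.2‖) := by ring
    rw [this, neg_sq, div_pow, div_mul_cancel₀ _ (by positivity), Real.sq_sqrt h1]
    ring
  exact (pow_left_inj₀ (norm_nonneg _) hε.le two_ne_zero).1 h2

/-- Before the entrance time the relative line is outside of the ball. -/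
lemma lt_norm_of_lt {ε : ℝ} (hε : 0 < ε) {z : Space3 × Space3} (h : Meets ε z) {s : ℝ}
    (hs : s < sEnt ε z) : ε < ‖z.1 + s • z.2‖ := by
  have hn : 0 < ‖z.2‖ := norm_pos_iff.2 h.1
  have h1 : 0 < ε ^ 2 - ‖bline z‖ ^ 2 := by
    have := h.2
    have h0 := norm_nonneg (bline z)
    nlinarith
  have h2 : Real.sqrt (ε ^ 2 - ‖bline z‖ ^ 2) / ‖z.2‖ < -(s + tline z) := by
    unfold sEnt at hs
    linarith
  have h3 : Real.sqrt (ε ^ 2 - ‖bline z‖ ^ 2) < -(s + tline z) * ‖z.2‖ := by
    rwa [div_lt_iff₀ hn] at h2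
  have h4 : ε ^ 2 - ‖bline z‖ ^ 2 < (-(s + tline z) * ‖z.2‖) ^ 2 := by
    rw [← Real.sqrt_lt' (lt_of_le_of_lt (Real.sqrt_nonneg _) h3)]
    exact h3
  have h5 : ε ^ 2 < ‖z.1 + s • z.2‖ ^ 2 := by
    rw [normSq_rel]
    nlinarith
  exact lt_of_pow_lt_pow_left₀ 2 (norm_nonneg _) h5

/-- Just after the entrance time the relative line is inside the ball. -/
lemma norm_lt_of_gt {ε : ℝ} {z : Space3 × Space3} (h : Meets ε z) {s : ℝ}
    (hs : sEnt ε z < s) (hs' : s ≤ -tline z) (hε : 0 < ε) : ‖z.1 + s • z.2‖ < ε := by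
  have hn : 0 < ‖z.2‖ := norm_pos_iff.2 h.1
  have h1 : 0 < ε ^ 2 - ‖bline z‖ ^ 2 := by
    have := h.2
    have h0 := norm_nonneg (bline z)
    nlinarith
  have h2 : -(s + tline z) < Real.sqrt (ε ^ 2 - ‖bline z‖ ^ 2) / ‖z.2‖ := by
    unfold sEnt at hs
    linarith
  have h3 : -(s + tline z) * ‖z.2‖ < Real.sqrt (ε ^ 2 - ‖bline z‖ ^ 2) := by
    rwa [lt_div_iff₀ hn] at h2
  have h0 : 0 ≤ -(s + tline z) * ‖z.2‖ := by
    apply mul_nonneg _ hn.le
    linarith
  have h4 : (-(s + tline z) * ‖z.2‖) ^ 2 < ε ^ 2 - ‖bline z‖ ^ 2 := (Real.lt_sqrt h0).1 h3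
  have h5 : ‖z.1 + s • z.2‖ ^ 2 < ε ^ 2 := by
    rw [normSq_rel]
    nlinarith
  exact lt_of_pow_lt_pow_left₀ 2 hε.le h5

lemma sEnt_lt {ε : ℝ} {z : Space3 × Space3} (h : Meets ε z) (hε : 0 < ε) :
    sEnt ε z < -tline z := by
  have hn : 0 < ‖z.2‖ := norm_pos_iff.2 h.1
  have h1 : 0 < ε ^ 2 - ‖bline z‖ ^ 2 := by
    have := h.2
    have h0 := norm_nonneg (bline z)
    nlinarith
  unfold sEnt
  have : 0 < Real.sqrt (ε ^ 2 - ‖bline z‖ ^ 2) / ‖z.2‖ := by positivity
  linarith

/-- **Characterisation of the entrance**: at a time `σ` where the distance is `≤ ε` and `> ε` just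
before, the line enters at time `σ`, unless it is tangent. -/
lemma eq_sEnt_of_first {ε : ℝ} (hε : 0 < ε) {z : Space3 × Space3} {σ α : ℝ} (hα : α < σ)
    (h1 : ‖z.1 + σ • z.2‖ ≤ ε) (h2 : ∀ s ∈ Ioo α σ, ε < ‖z.1 + s • z.2‖) :
    ‖bline z‖ = ε ∨ (Meets ε z ∧ σ = sEnt ε z) := by
  -- the velocity is not zero
  have hz : z.2 ≠ 0 := by
    intro h0
    have h3 := h2 ((α + σ) / 2) ⟨by linarith, by linarith⟩
    rw [h0, smul_zero, add_zero] at h1 h3
    linarith
  have hn : 0 < ‖z.2‖ := norm_pos_iff.2 hz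
  have hb : ‖bline z‖ ≤ ε := by
    have h3 : ‖bline z‖ ^ 2 ≤ ‖z.1 + σ • z.2‖ ^ 2 := by
      rw [normSq_rel]
      nlinarith [sq_nonneg (σ + tline z), sq_nonneg ‖z.2‖]
    exact (pow_le_pow_left₀ (norm_nonneg _) (le_trans ((pow_le_pow_iff_left₀ (norm_nonneg _)
      (norm_nonneg _) two_ne_zero).1 h3) h1) 1 |> fun h => by simpa using h)
  rcases hb.eq_or_lt with h3 | h3
  · exact Or.inl h3
  · right
    have hm : Meets ε z := ⟨hz, h3⟩
    refine ⟨hm, ?_⟩
    rcases lt_trichotomy σ (sEnt ε z) with h4 | h4 | h4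
    · exact absurd h1 (not_le.2 (lt_norm_of_lt hε hm h4))
    · exact h4
    · exfalso
      -- convexity: at times between the entrance and `σ` the distance is `≤ ε`
      obtain ⟨s, hs1, hs2⟩ := exists_between (max_lt hα h4)
      have hs3 : α < s := lt_of_le_of_lt (le_max_left _ _) hs1
      have hs4 : sEnt ε z < s := lt_of_le_of_lt (le_max_right _ _) hs1
      have h5 := h2 s ⟨hs3, hs2⟩
      have h6 : ‖z.1 + s • z.2‖ ^ 2 ≤ ε ^ 2 := by
        have e1 : ‖z.1 + σ • z.2‖ ^ 2 ≤ ε ^ 2 := pow_le_pow_left₀ (norm_nonneg _) h1 2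
        have e2 : ‖z.1 + sEnt ε z • z.2‖ ^ 2 = ε ^ 2 := by rw [norm_rel_sEnt hε hm]
        rw [normSq_rel] at e1 e2 ⊢
        have e3 : (s + tline z) ^ 2 ≤ max ((σ + tline z) ^ 2) ((sEnt ε z + tline z) ^ 2) := by
          rcases le_total 0 (s + tline z) with h | h
          · refine le_trans ?_ (le_max_left _ _)
            nlinarith
          · refine le_trans ?_ (le_max_right _ _)
            nlinarith
        rcases le_max_iff.1 e3 with h | h
        · nlinarith [sq_nonneg ‖z.2‖]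
        · nlinarith [sq_nonneg ‖z.2‖]
      have h7 : ‖z.1 + s • z.2‖ ≤ ε := by
        exact (pow_le_pow_iff_left₀ (norm_nonneg _) hε.le two_ne_zero).1 h6
      linarith

/-! ### Change of variables -/

/-- the relative position at time `0` of the line which enters at time `s` with impact parameter
`frameMap g y` -/
def entRel (ε : ℝ) (g : Space3) (s : ℝ) (y : Plane) : Space3 :=
  ε • entrancePoint (frameMap g y) g - s • g

lemma measurable_entrancePoint : Measurable fun p : Space3 × Space3 => entrancePoint p.1 p.2 := by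
  unfold entrancePoint
  fun_prop

lemma measurable_entRel (ε : ℝ) :
    Measurable fun p : Space3 × ℝ × Plane => entRel ε p.1 p.2.1 p.2.2 := by
  unfold entRel
  have h1 : Measurable fun p : Space3 × ℝ × Plane => frameMap p.1 p.2.2 :=
    measurable_frameMap.comp (measurable_fst.prodMk (measurable_snd.comp measurable_snd))
  have h2 : Measurable fun p : Space3 × ℝ × Plane => entrancePoint (frameMap p.1 p.2.2) p.1 :=
    measurable_entrancePoint.comp (h1.prodMk measurable_fst)
  exact (h2.const_smul ε).sub ((measurable_fst.comp measurable_snd).smul measurable_fst)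

/-- **Lines entering a straight tube**, fixed velocities: `x` is the position of the line at time `0`
relative to `c`. -/
theorem lintegral_entrance {ε : ℝ} (hε : 0 < ε) {g : Space3} (hg : g ≠ 0) (c : Space3)
    {F : ℝ → Space3 → ℝ≥0∞} (hF : Measurable (Function.uncurry F)) :
    ∫⁻ x, (if ‖bline (x - c, g)‖ < ε then F (sEnt ε (x - c, g)) x else 0) =
      ENNReal.ofReal (ε ^ 2) * (ENNReal.ofReal ‖g‖ * ∫⁻ s : ℝ,
        ∫⁻ y in Metric.ball (0 : Plane) 1, F s (c + entRel ε g s y)) := by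
  have hn : ‖g‖ ≠ 0 := norm_ne_zero_iff.2 hg
  have hfm : Measurable (fun y : Plane => frameMap g y) :=
    measurable_frameMap.comp (measurable_const.prodMk measurable_id)
  -- move `c` to the origin
  have h0 : ∫⁻ x, (if ‖bline (x - c, g)‖ < ε then F (sEnt ε (x - c, g)) x else 0) =
      ∫⁻ q, (if ‖bline (q, g)‖ < ε then F (sEnt ε (q, g)) (c + q) else 0) := by
    have := (measurePreserving_sub_right (volume : Measure Space3) c).lintegral_comp_emb
      (MeasurableEquiv.subRight c).measurableEmbedding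
      (fun q => (if ‖bline (q, g)‖ < ε then F (sEnt ε (q, g)) (c + q) else 0))
    rw [← this]
    simp only [add_sub_cancel]
  rw [h0]
  have hH : Measurable fun q : Space3 => F (sEnt ε (q, g)) (c + q) := by
    refine hF.comp (Measurable.prodMk ?_ ?_)
    · exact (measurable_sEnt ε).comp (measurable_id.prodMk measurable_const)
    · exact measurable_id.const_add c
  rw [lintegral_cyl_eps hε hg hH]
  congr 2
  have hpar : Measurable fun p : ℝ × Plane => ((p.1, c + entRel ε g p.1 p.2) : ℝ × Space3) := by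
    have h1 : Measurable fun p : ℝ × Plane => ((g, p.1, p.2) : Space3 × ℝ × Plane) := by fun_prop
    exact measurable_fst.prodMk (((measurable_entRel ε).comp h1).const_add c)
  have hmeas : Measurable fun p : ℝ × Plane => F p.1 (c + entRel ε g p.1 p.2) := hF.comp hpar
  have hmeas' : Measurable fun p : Plane × ℝ => F p.2 (c + entRel ε g p.2 p.1) :=
    hmeas.comp measurable_swap
  have hsw : ∫⁻ y in Metric.ball (0 : Plane) 1, ∫⁻ s : ℝ, F s (c + entRel ε g s y) =
      ∫⁻ s : ℝ, ∫⁻ y in Metric.ball (0 : Plane) 1, F s (c + entRel ε g s y) :=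
    lintegral_lintegral_swap hmeas'.aemeasurable
  rw [← hsw]
  refine setLIntegral_congr_fun measurableSet_ball fun y hy => ?_
  have hy' : ‖y‖ < 1 := by simpa using hy
  have hb : ‖frameMap g y‖ < 1 := by rwa [norm_frameMap hg]
  have hmem : (frameMap g y, g) ∈ FS := ⟨hg, inner_frameMap_self g y, hb⟩
  set k : ℝ := ε * (Real.sqrt (1 - ‖frameMap g y‖ ^ 2) / ‖g‖) with hk
  -- entrance time of the parametrised line
  have hs : ∀ s : ℝ, sEnt ε (ε • frameMap g y + s • g, g) = -s - k := by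
    intro s
    have ht : tline (ε • frameMap g y + s • g, g) = s := by
      unfold tline
      simp only [inner_add_left, inner_smul_left, real_inner_self_eq_norm_sq, inner_frameMap_self,
        conj_trivial, mul_zero, zero_add]
      exact mul_div_cancel_right₀ s (by positivity)
    have hbl : bline (ε • frameMap g y + s • g, g) = ε • frameMap g y := by
      unfold bline
      rw [ht]
      simp
    unfold sEnt
    rw [ht, hbl, hk, norm_smul, Real.norm_eq_abs, abs_of_pos hε]
    have h1 : ε ^ 2 - (ε * ‖frameMap g y‖) ^ 2 = ε ^ 2 * (1 - ‖frameMap g y‖ ^ 2) := by ring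
    have h2 : 0 ≤ ε ^ 2 := by positivity
    simp only
    rw [h1, Real.sqrt_mul h2, Real.sqrt_sq hε.le]
    ring
  simp only [hs]
  have h2 : Measurable fun s : ℝ => F s (c + entRel ε g s y) :=
    hmeas.comp (measurable_id.prodMk measurable_const)
  -- substitution `s ↦ -s - k`
  have h3 : MeasurePreserving (fun s : ℝ => -s - k) (volume : Measure ℝ) volume :=
    (measurePreserving_sub_right (volume : Measure ℝ) k).comp
      (Measure.measurePreserving_neg (volume : Measure ℝ))
  rw [← h3.lintegral_comp h2]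
  refine lintegral_congr fun s => ?_
  congr 2
  unfold entRel entrancePoint
  rw [smul_sub, smul_smul, ← hk]
  module

/-- **Lines entering a straight tube**: `ℓ = (x, v)` is the line `x + s • v`, the centre of the tube is
`c + s • V`. -/
theorem lintegral_enter {ε : ℝ} (hε : 0 < ε) (c V : Space3)
    {F : ℝ → PhasePoint → ℝ≥0∞} (hF : Measurable (Function.uncurry F)) :
    ∫⁻ ℓ : PhasePoint, {ℓ : PhasePoint | Meets ε (ℓ.1 - c, ℓ.2 - V)}.indicator
        (fun ℓ => F (sEnt ε (ℓ.1 - c, ℓ.2 - V)) ℓ) ℓ =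
      ENNReal.ofReal (ε ^ 2) * ∫⁻ s : ℝ, ∫⁻ v : Space3, ENNReal.ofReal ‖v - V‖ *
        ∫⁻ y in Metric.ball (0 : Plane) 1, F s (c + entRel ε (v - V) s y, v) := by
  have hrel : Measurable fun ℓ : PhasePoint => ((ℓ.1 - c, ℓ.2 - V) : Space3 × Space3) := by
    fun_prop
  have hms : MeasurableSet {ℓ : PhasePoint | Meets ε (ℓ.1 - c, ℓ.2 - V)} :=
    hrel (measurableSet_meets ε)
  have hm : Measurable ({ℓ : PhasePoint | Meets ε (ℓ.1 - c, ℓ.2 - V)}.indicator
        (fun ℓ => F (sEnt ε (ℓ.1 - c, ℓ.2 - V)) ℓ)) := by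
    refine Measurable.indicator ?_ hms
    exact hF.comp (((measurable_sEnt ε).comp hrel).prodMk measurable_id)
  have hG0 : Measurable fun p : (ℝ × Space3) × Plane =>
      ((p.1.1, (c + entRel ε (p.1.2 - V) p.1.1 p.2, p.1.2)) : ℝ × PhasePoint) := by
    have h1 : Measurable fun p : (ℝ × Space3) × Plane =>
        ((p.1.2 - V, p.1.1, p.2) : Space3 × ℝ × Plane) := by fun_prop
    have h2 := ((measurable_entRel ε).comp h1).const_add c
    exact (measurable_fst.comp measurable_fst).prodMk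
      (h2.prodMk (measurable_snd.comp measurable_fst))
  have hG : Measurable fun p : (ℝ × Space3) × Plane =>
      F p.1.1 (c + entRel ε (p.1.2 - V) p.1.1 p.2, p.1.2) := hF.comp hG0
  have hG1 : Measurable fun p : ℝ × Space3 =>
      ∫⁻ y in Metric.ball (0 : Plane) 1, F p.1 (c + entRel ε (p.2 - V) p.1 y, p.2) :=
    hG.lintegral_prod_right' (ν := volume.restrict (Metric.ball (0 : Plane) 1))
  have hG2 : Measurable fun p : ℝ × Space3 => ENNReal.ofReal ‖p.2 - V‖ *
      ∫⁻ y in Metric.ball (0 : Plane) 1, F p.1 (c + entRel ε (p.2 - V) p.1 y, p.2) :=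
    (measurable_snd.sub_const V).norm.ennreal_ofReal.mul hG1
  rw [Measure.volume_eq_prod, lintegral_prod_symm _ hm.aemeasurable]
  have hsw : ∫⁻ s : ℝ, ∫⁻ v : Space3, ENNReal.ofReal ‖v - V‖ *
        ∫⁻ y in Metric.ball (0 : Plane) 1, F s (c + entRel ε (v - V) s y, v) =
      ∫⁻ v : Space3, ∫⁻ s : ℝ, ENNReal.ofReal ‖v - V‖ *
        ∫⁻ y in Metric.ball (0 : Plane) 1, F s (c + entRel ε (v - V) s y, v) :=
    lintegral_lintegral_swap hG2.aemeasurable
  rw [hsw]
  rw [← lintegral_const_mul' _ _ ENNReal.ofReal_ne_top]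
  refine lintegral_congr_ae ?_
  filter_upwards [Measure.ae_ne volume V] with v hv
  have hg : v - V ≠ 0 := sub_ne_zero.2 hv
  have h1 := lintegral_entrance hε hg c (F := fun s x => F s (x, v))
    (hF.comp (measurable_fst.prodMk (measurable_snd.prodMk measurable_const)))
  rw [lintegral_const_mul' _ _ ENNReal.ofReal_ne_top, ← h1]
  refine lintegral_congr fun x => ?_
  by_cases hx : ‖bline (x - c, v - V)‖ < ε
  · have hx' : (x, v) ∈ {ℓ : PhasePoint | Meets ε (ℓ.1 - c, ℓ.2 - V)} := ⟨hg, hx⟩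
    rw [indicator_of_mem hx', if_pos hx]
  · have hx' : (x, v) ∉ {ℓ : PhasePoint | Meets ε (ℓ.1 - c, ℓ.2 - V)} := fun h => hx h.2
    rw [indicator_of_notMem hx', if_neg hx]

lemma bline_frame {g : Space3} (hg : g ≠ 0) (y : Plane) (r : ℝ) :
    bline (frameMap g y + r • dir g, g) = frameMap g y := by
  have h0 : ‖g‖ ≠ 0 := norm_ne_zero_iff.2 hg
  unfold bline tline
  simp only [inner_add_left, inner_frameMap_self, zero_add, dir, smul_smul, inner_smul_left,
    real_inner_self_eq_norm_sq, conj_trivial]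
  have : r * ‖g‖⁻¹ * ‖g‖ ^ 2 / ‖g‖ ^ 2 = r * ‖g‖⁻¹ := by field_simp
  rw [this]
  simp

/-- Tangent lines are negligible, fixed relative velocity. -/
theorem volume_tangent {ε : ℝ} (hε : 0 < ε) {g : Space3} (hg : g ≠ 0) :
    volume {q : Space3 | ‖bline (q, g)‖ = ε} = 0 := by
  have hms : MeasurableSet {q : Space3 | ‖bline (q, g)‖ = ε} :=
    measurableSet_eq_fun (measurable_bline.comp (measurable_id.prodMk measurable_const)).norm
      measurable_const
  rw [← lintegral_indicator_one hms, lintegral_cylinder hg (measurable_one.indicator hms)]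
  have h1 : ∀ p : Plane × ℝ, {q : Space3 | ‖bline (q, g)‖ = ε}.indicator (1 : Space3 → ℝ≥0∞)
      (frameMap g p.1 + p.2 • dir g) =
      (Metric.sphere (0 : Plane) ε ×ˢ (univ : Set ℝ)).indicator (1 : Plane × ℝ → ℝ≥0∞) p := by
    intro p
    simp only [indicator, mem_ofPred_eq, bline_frame hg, norm_frameMap hg, mem_prod,
      mem_sphere_iff_norm, sub_zero, mem_univ, and_true, Pi.one_apply]
  simp only [h1]
  rw [lintegral_indicator_one (Metric.isClosed_sphere.measurableSet.prod MeasurableSet.univ),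
    Measure.volume_eq_prod, Measure.prod_prod, Measure.addHaar_sphere_of_ne_zero _ _ hε.ne',
    zero_mul]

/-- Tangent lines are negligible. -/
theorem ae_not_tangent {ε : ℝ} (hε : 0 < ε) (c V : Space3) :
    ∀ᵐ ℓ : PhasePoint, ‖bline (ℓ.1 - c, ℓ.2 - V)‖ ≠ ε := by
  have hrel : Measurable fun ℓ : PhasePoint => ((ℓ.1 - c, ℓ.2 - V) : Space3 × Space3) := by
    fun_prop
  have hms : MeasurableSet {ℓ : PhasePoint | ‖bline (ℓ.1 - c, ℓ.2 - V)‖ = ε} :=
    measurableSet_eq_fun (measurable_bline.comp hrel).norm measurable_const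
  rw [ae_iff]
  have h0 : {ℓ : PhasePoint | ¬ ‖bline (ℓ.1 - c, ℓ.2 - V)‖ ≠ ε} =
      {ℓ : PhasePoint | ‖bline (ℓ.1 - c, ℓ.2 - V)‖ = ε} := by
    ext ℓ
    simp
  rw [h0, Measure.volume_eq_prod, Measure.prod_apply_symm hms]
  rw [← lintegral_zero]
  refine lintegral_congr_ae ?_
  filter_upwards [Measure.ae_ne volume V] with v hv
  have hg : v - V ≠ 0 := sub_ne_zero.2 hv
  have h1 : (fun x : Space3 => (x, v)) ⁻¹' {ℓ : PhasePoint | ‖bline (ℓ.1 - c, ℓ.2 - V)‖ = ε} =
      (fun x : Space3 => x - c) ⁻¹' {q : Space3 | ‖bline (q, v - V)‖ = ε} := rfl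
  have hms2 : MeasurableSet {q : Space3 | ‖bline (q, v - V)‖ = ε} :=
    measurableSet_eq_fun (measurable_bline.comp (measurable_id.prodMk measurable_const)).norm
      measurable_const
  rw [h1, (measurePreserving_sub_right (volume : Measure Space3) c).measure_preimage
    hms2.nullMeasurableSet, volume_tangent hε hg]

end Crest.Agent.R122.Tube818
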