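import Crest.Agent.R122.Tube3_818
import Crest.Agent.R122.Quench2_815
import Crest.Agent.R122.TreeDom_974

/-!
Row 122, block FT (helper818), part 4: for one `ε`, first good hits against entrances.

`Subdiv` : straight pieces of the curves on good intervals.  `EA` : the line enters a straight piece
and this is a first good hit.  `claim1`, `claim2` : pointwise comparison; `absd_hits_le` : integrated,
in entrance coordinates.
-/

set_option autoImplicit false
set_option maxHeartbeats 400000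

open MeasureTheory Set Filter
open Crest.AnalysisR.Kinetic
open scoped ENNReal Classical Topology

noncomputable section

namespace Crest.Agent.R122.Tube818

open Disc416 Flux663 Tree674 Kin796 Kin796.CTree TreeEps399 GIV566 GIVStep383 Hid424
open Causal291 IStep317 GC311 Quench815

variable {Φ : Space3 → ℝ} {f₀ : PhasePoint → ℝ} {ε : ℝ} {P : CTree} {ι : Type}

/-- A subdivision of `[tw, t]`: good open intervals `J`, bad points `F` (neighbourhoods of radius
`η`), active pairs `K` (interval, tube) on which the curve is the straight line `C a + u • V a`. -/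
structure Subdiv (tw t : ℝ) (S : Tubes ι) (J : Finset (ℝ × ℝ)) (F : Finset ℝ) (η : ℝ)
    (K : Finset ((ℝ × ℝ) × ι)) (V C : (ℝ × ℝ) × ι → Space3) : Prop where
  cov : ∀ σ ∈ Icc tw t, (∃ j ∈ J, σ ∈ Ioo j.1 j.2) ∨ ∃ f ∈ F, |σ - f| ≤ η
  sub : ∀ j ∈ J, Ioo j.1 j.2 ⊆ Ioo tw t
  disj : ∀ j ∈ J, ∀ j' ∈ J, ∀ σ, σ ∈ Ioo j.1 j.2 → σ ∈ Ioo j'.1 j'.2 → j = j'
  memK : ∀ a ∈ K, a.1 ∈ J
  act : ∀ a ∈ K, ∀ u ∈ Ioo a.1.1 a.1.2, u < S.b a.2 ∧ S.c a.2 u = C a + u • V a
  inact : ∀ j ∈ J, ∀ i, (j, i) ∉ K → ∀ u ∈ Ioo j.1 j.2, S.b i < u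

/-- entrance time in the straight piece `a` -/
def sA (ε : ℝ) (V C : (ℝ × ℝ) × ι → Space3) (a : (ℝ × ℝ) × ι) (z : PhasePoint × Par P) : ℝ :=
  sEnt ε (z.1.1 - C a, z.1.2 - V a)

/-- the entrance in the straight piece `a` is a first good hit -/
def EA (Φ : Space3 → ℝ) (ε : ℝ) (S : Tubes ι) (V C : (ℝ × ℝ) × ι → Space3) (a : (ℝ × ℝ) × ι)
    (z : PhasePoint × Par P) : Prop :=
  Meets ε (z.1.1 - C a, z.1.2 - V a) ∧ sA ε V C a z ∈ Ioo a.1.1 a.1.2 ∧
    FirstAt Φ ε P S z (sA ε V C a z)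

/-- at time `s` the line is also in another straight piece -/
def DA (ε : ℝ) (K : Finset ((ℝ × ℝ) × ι)) (V C : (ℝ × ℝ) × ι → Space3) (a : (ℝ × ℝ) × ι)
    (s : ℝ) (ℓ : PhasePoint) : Prop :=
  ∃ i, i ≠ a.2 ∧ (a.1, i) ∈ K ∧ dist (C (a.1, i) + s • V (a.1, i)) (ℓ.1 + s • ℓ.2) ≤ ε

/-- the line meets a curve during a bad interval -/
def Bad (ε T : ℝ) (S : Tubes ι) (F : Finset ℝ) (η : ℝ) (ℓ : PhasePoint) : Prop :=
  ∃ f ∈ F, ∃ i, ∃ u ∈ Icc (max 0 (f - η)) (min T (f + η)), dist (S.c i u) (ℓ.1 + u • ℓ.2) ≤ ε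

/-- integrand of the first good hits -/
def hI (Φ : Space3 → ℝ) (ε : ℝ) (S : Tubes ι) (tw t : ℝ) (U : ℝ → PhasePoint × Par P → ℝ≥0∞)
    (z : PhasePoint × Par P) : ℝ≥0∞ :=
  if sigHit Φ ε P S z ∈ Ico tw t ∧ 0 < sigHit Φ ε P S z ∧
    FirstAt Φ ε P S z (sigHit Φ ε P S z) then U (sigHit Φ ε P S z) z else 0

section pointwise

variable {tw t : ℝ} {S : Tubes ι} {J : Finset (ℝ × ℝ)} {F : Finset ℝ} {η : ℝ}
  {K : Finset ((ℝ × ℝ) × ι)} {V C : (ℝ × ℝ) × ι → Space3}
  {U : ℝ → PhasePoint × Par P → ℝ≥0∞} {z : PhasePoint × Par P}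

theorem dist_rel (c ℓ1 ℓ2 V : Space3) (u : ℝ) :
    dist (c + u • V) (ℓ1 + u • ℓ2) = ‖(ℓ1 - c) + u • (ℓ2 - V)‖ := by
  rw [dist_comm, dist_eq_norm]
  congr 1
  rw [smul_sub]
  abel

/-- a first good hit in a good interval, if the line is not tangent, is an entrance -/
theorem exists_EA (hε : 0 < ε) (h : Subdiv tw t S J F η K V C) {σ : ℝ} (hσ : 0 < σ)
    (hF : FirstAt Φ ε P S z σ) {j : ℝ × ℝ} (hj : j ∈ J) (hσj : σ ∈ Ioo j.1 j.2)
    (hnt : ∀ a ∈ K, ‖bline (z.1.1 - C a, z.1.2 - V a)‖ ≠ ε) :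
    ∃ a ∈ K, EA Φ ε S V C a z ∧ sA ε V C a z = σ := by
  obtain ⟨i, hi, hd⟩ := hF.hit
  have hK : (j, i) ∈ K := by
    by_contra hn
    exact absurd (h.inact j hj i hn σ hσj) (not_lt.2 hi)
  obtain ⟨r, hr, hr'⟩ := FirstAt.before hε hσ hF
  have hac := h.act (j, i) hK
  have h1 : ‖(z.1.1 - C (j, i), z.1.2 - V (j, i)).1 + σ • (z.1.1 - C (j, i), z.1.2 - V (j, i)).2‖
      ≤ ε := by
    show ‖z.1.1 - C (j, i) + σ • (z.1.2 - V (j, i))‖ ≤ ε
    rw [← dist_rel, ← (hac σ hσj).2]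
    exact hd
  have h2 : ∀ s ∈ Ioo (max r j.1) σ,
      ε < ‖(z.1.1 - C (j, i), z.1.2 - V (j, i)).1 + s • (z.1.1 - C (j, i), z.1.2 - V (j, i)).2‖ := by
    intro s hs
    have hsj : s ∈ Ioo j.1 j.2 := ⟨(le_max_right _ _).trans_lt hs.1, hs.2.trans hσj.2⟩
    show ε < ‖z.1.1 - C (j, i) + s • (z.1.2 - V (j, i))‖
    rw [← dist_rel, ← (hac s hsj).2]
    exact hr' s ⟨(le_max_left _ _).trans_lt hs.1, hs.2⟩ i (hac s hsj).1.le
  rcases eq_sEnt_of_first hε (max_lt hr hσj.1) h1 h2 with h3 | ⟨h3, h4⟩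
  · exact absurd h3 (hnt _ hK)
  · refine ⟨(j, i), hK, ⟨h3, ?_, ?_⟩, h4.symm⟩
    · show sEnt ε _ ∈ _
      rw [← h4]; exact hσj
    · show FirstAt Φ ε P S z (sEnt ε _)
      rw [← h4]; exact hF

theorem claim1 [Fintype ι] (hε : 0 < ε) {T : ℝ} (htT : t ≤ T) (h : Subdiv tw t S J F η K V C)
    (hU : ∀ σ z, U σ z ≤ 1) (hnt : ∀ a ∈ K, ‖bline (z.1.1 - C a, z.1.2 - V a)‖ ≠ ε) :
    hI Φ ε S tw t U z ≤ (∑ a ∈ K, if EA Φ ε S V C a z then U (sA ε V C a z) z else 0) +
      if Bad ε T S F η z.1 then 1 else 0 := by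
  unfold hI
  split_ifs with hc hb
  · exact le_add_left (hU _ _)
  · set σ := sigHit Φ ε P S z with hσdef
    obtain ⟨hσ, hσ0, hF⟩ := hc
    rw [add_zero]
    rcases h.cov σ ⟨hσ.1, hσ.2.le⟩ with ⟨j, hj, hσj⟩ | ⟨f, hf, hd⟩
    · obtain ⟨a, ha, hE, hs⟩ := exists_EA hε h hσ0 hF hj hσj hnt
      refine le_trans ?_ (Finset.single_le_sum
        (f := fun a => if EA Φ ε S V C a z then U (sA ε V C a z) z else 0)
        (fun _ _ => bot_le) ha)
      rw [if_pos hE, hs]
    · exfalso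
      apply hb
      obtain ⟨i, hi, hdi⟩ := hF.hit
      rw [abs_le] at hd
      refine ⟨f, hf, i, σ, ⟨max_le hσ0.le (by linarith), le_min (hσ.2.le.trans htT) (by linarith)⟩,
        hdi⟩
  · exact bot_le
  · exact bot_le

theorem claim2 (hε : 0 < ε) (htw : 0 ≤ tw) (h : Subdiv tw t S J F η K V C)
    (hU : ∀ σ z, U σ z ≤ 1) :
    (∑ a ∈ K, if EA Φ ε S V C a z then U (sA ε V C a z) z else 0) ≤
      hI Φ ε S tw t U z +
        ∑ a ∈ K, if EA Φ ε S V C a z ∧ DA ε K V C a (sA ε V C a z) z.1 then 1 else 0 := by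
  have hpos : ∀ a ∈ K, EA Φ ε S V C a z → 0 < sA ε V C a z := fun a ha hE =>
    htw.trans_lt (h.sub a.1 (h.memK a ha) hE.2.1).1
  by_cases hex : ∃ a ∈ K, EA Φ ε S V C a z ∧ ¬ DA ε K V C a (sA ε V C a z) z.1
  · obtain ⟨a, ha, hE, hD⟩ := hex
    refine le_add_right ?_
    have huni : ∀ a' ∈ K, a' ≠ a → (if EA Φ ε S V C a' z then U (sA ε V C a' z) z else 0) = 0 := by
      intro a' ha' hne
      rw [if_neg]
      intro hE'
      have hs : sA ε V C a z = sA ε V C a' z :=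
        FirstAt.unique hε (hpos a ha hE).le (hpos a' ha' hE').le hE.2.2 hE'.2.2
      have hj : a.1 = a'.1 := h.disj _ (h.memK a ha) _ (h.memK a' ha') _ hE.2.1
        (by rw [hs]; exact hE'.2.1)
      have hi : a'.2 ≠ a.2 := fun hi => hne (Prod.ext hj.symm hi)
      apply hD
      have ha'' : (a.1, a'.2) = a' := by rw [hj]
      refine ⟨a'.2, hi, by rw [ha'']; exact ha', ?_⟩
      rw [ha'', dist_rel, hs]
      exact (norm_rel_sEnt hε hE'.1).le
    rw [Finset.sum_eq_single_of_mem a ha huni, if_pos hE]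
    have hsig : sigHit Φ ε P S z = sA ε V C a z := hE.2.2.sigHit_eq hε (hpos a ha hE).le
    unfold hI
    rw [hsig, if_pos]
    have hm := h.sub a.1 (h.memK a ha) hE.2.1
    exact ⟨⟨hm.1.le, hm.2⟩, hpos a ha hE, hE.2.2⟩
  · push Not at hex
    refine le_add_left (Finset.sum_le_sum fun a ha => ?_)
    by_cases hE : EA Φ ε S V C a z
    · rw [if_pos hE, if_pos ⟨hE, hex a ha hE⟩]
      exact hU _ _
    · rw [if_neg hE]
      exact bot_le

end pointwise

/-! ### Measurability -/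

section meas

variable {tw t T : ℝ} {S : Tubes ι} {J : Finset (ℝ × ℝ)} {F : Finset ℝ} {η : ℝ}
  {K : Finset ((ℝ × ℝ) × ι)} {V C : (ℝ × ℝ) × ι → Space3}

/-- first good hits at times in the interval of `a` -/
def FA (Φ : Space3 → ℝ) (ε : ℝ) (S : Tubes ι) (P : CTree) (a : (ℝ × ℝ) × ι) :
    Set (ℝ × (PhasePoint × Par P)) := {q | q.1 ∈ Ioo a.1.1 a.1.2 ∧ FirstAt Φ ε P S q.2 q.1}

theorem measurableSet_FA [Countable ι] (hΦ : AdmissiblePotential Φ) (hε : 0 < ε) (htw : 0 ≤ tw)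
    (htwt : tw ≤ t) (htT : t ≤ T) (hS : ∀ i, ContinuousOn (S.c i) (Icc 0 T))
    (h : Subdiv tw t S J F η K V C) {a : (ℝ × ℝ) × ι} (ha : a ∈ K) :
    MeasurableSet (FA Φ ε S P a) := by
  have h1 := measurableSet_firstAt (P := P) hΦ hε (htw.trans (htwt.trans htT)) hS
  have h2 : FA Φ ε S P a = {q : ℝ × (PhasePoint × Par P) | q.1 ∈ Ioo a.1.1 a.1.2} ∩
      {q : ℝ × (PhasePoint × Par P) | (0 < q.1 ∧ q.1 ≤ T) ∧ FirstAt Φ ε P S q.2 q.1} := by
    ext q
    constructor
    · rintro ⟨h3, h4⟩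
      have h5 := h.sub a.1 (h.memK a ha) h3
      exact ⟨h3, ⟨htw.trans_lt h5.1, (h5.2.le.trans htT)⟩, h4⟩
    · rintro ⟨h3, h4⟩
      exact ⟨h3, h4.2⟩
  rw [h2]
  exact (measurable_fst measurableSet_Ioo).inter h1

theorem measurableSet_DA [Countable ι] (ε : ℝ) (K : Finset ((ℝ × ℝ) × ι))
    (V C : (ℝ × ℝ) × ι → Space3) (a : (ℝ × ℝ) × ι) :
    MeasurableSet {q : ℝ × PhasePoint | DA ε K V C a q.1 q.2} := by
  have h1 : {q : ℝ × PhasePoint | DA ε K V C a q.1 q.2} = ⋃ i, {q : ℝ × PhasePoint |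
      i ≠ a.2 ∧ (a.1, i) ∈ K ∧
        dist (C (a.1, i) + q.1 • V (a.1, i)) (q.2.1 + q.1 • q.2.2) ≤ ε} := by
    ext q
    simp [DA]
  rw [h1]
  refine MeasurableSet.iUnion fun i => ?_
  refine (MeasurableSet.const _).inter ((MeasurableSet.const _).inter ?_)
  have h2 : Measurable fun q : ℝ × PhasePoint =>
      dist (C (a.1, i) + q.1 • V (a.1, i)) (q.2.1 + q.1 • q.2.2) := by fun_prop
  exact measurableSet_le h2 measurable_const

theorem measurableSet_bad [Countable ι] (ε : ℝ) (hT : 0 ≤ T)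
    (hS : ∀ i, ContinuousOn (S.c i) (Icc 0 T)) (F : Finset ℝ) (η : ℝ) :
    MeasurableSet {ℓ : PhasePoint | Bad ε T S F η ℓ} := by
  have h1 : {ℓ : PhasePoint | Bad ε T S F η ℓ} = ⋃ f ∈ F, ⋃ i, {ℓ : PhasePoint |
      ∃ u ∈ Icc (max 0 (f - η)) (min T (f + η)),
        dist (S.c i (projIcc 0 T hT u)) (ℓ.1 + u • ℓ.2) ≤ ε} := by
    ext ℓ
    simp only [Bad, mem_iUnion, mem_ofPred_eq, exists_prop]
    refine exists_congr fun f => and_congr_right fun _ => exists_congr fun i =>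
      exists_congr fun u => and_congr_right fun hu => ?_
    rw [projIcc_of_mem hT ⟨(le_max_left _ _).trans hu.1, hu.2.trans (min_le_left _ _)⟩]
  rw [h1]
  refine Finset.measurableSet_biUnion _ fun f _ => MeasurableSet.iUnion fun i => ?_
  refine measurableSet_exists_Icc measurable_const measurable_const
    (g := fun (ℓ : PhasePoint) u => dist (S.c i (projIcc 0 T hT u)) (ℓ.1 + u • ℓ.2))
    (fun ℓ => ?_) (fun u => ?_) ε
  · have h2 : Continuous fun u => S.c i (projIcc 0 T hT u) :=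
      (hS i).comp_continuous (continuous_subtype_val.comp continuous_projIcc)
        fun s => (projIcc 0 T hT s).2
    exact h2.dist (by fun_prop)
  · fun_prop

/-- density of the entrances, in entrance coordinates -/
def dA (Φ : Space3 → ℝ) (ε : ℝ) (S : Tubes ι) (P : CTree) (V C : (ℝ × ℝ) × ι → Space3)
    (a : (ℝ × ℝ) × ι) (G : ℝ → PhasePoint × Par P → ℝ≥0∞) (θ : HPar P) : ℝ≥0∞ :=
  {θ : HPar P | ‖θ.2.2.1‖ < 1}.indicator (fun θ => ENNReal.ofReal ‖θ.2.1 - V a‖ *
    (FA Φ ε S P a).indicator (fun q => G q.1 q.2)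
      (θ.1, (rootL ε (C a + θ.1 • V a) (V a) θ.1 θ.2.1 θ.2.2.1, θ.2.2.2))) θ

theorem lintegral_EA [Countable ι] (hΦ : AdmissiblePotential Φ) (hε : 0 < ε) (htw : 0 ≤ tw)
    (htwt : tw ≤ t) (htT : t ≤ T) (hS : ∀ i, ContinuousOn (S.c i) (Icc 0 T))
    (h : Subdiv tw t S J F η K V C) {a : (ℝ × ℝ) × ι} (ha : a ∈ K)
    {G : ℝ → PhasePoint × Par P → ℝ≥0∞} (hG : Measurable (Function.uncurry G)) :
    ∫⁻ z : PhasePoint × Par P, (if EA Φ ε S V C a z then G (sA ε V C a z) z else 0) =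
      ENNReal.ofReal (ε ^ 2) * ∫⁻ θ : HPar P, dA Φ ε S P V C a G θ := by
  have hFA := measurableSet_FA (P := P) hΦ hε htw htwt htT hS h ha
  have hm : Measurable (Function.uncurry fun (s : ℝ) (z : PhasePoint × Par P) =>
      (FA Φ ε S P a).indicator (fun q => G q.1 q.2) (s, z)) := by
    have e : (Function.uncurry fun (s : ℝ) (z : PhasePoint × Par P) =>
      (FA Φ ε S P a).indicator (fun q => G q.1 q.2) (s, z)) =
        (FA Φ ε S P a).indicator (Function.uncurry G) := rfl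
    rw [e]
    exact hG.indicator hFA
  have h1 := lintegral_enter_par (P := P) hε (C a) (V a) hm
  unfold dA
  rw [← h1]
  refine lintegral_congr fun z => ?_
  by_cases hE : EA Φ ε S V C a z
  · rw [if_pos hE, indicator_of_mem (show z ∈ {z : PhasePoint × Par P |
      Meets ε (z.1.1 - C a, z.1.2 - V a)} from hE.1)]
    exact (indicator_of_mem (show (sEnt ε (z.1.1 - C a, z.1.2 - V a), z) ∈ FA Φ ε S P a from
      ⟨hE.2.1, hE.2.2⟩) (fun q => G q.1 q.2)).symm
  · rw [if_neg hE]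
    by_cases hM : z ∈ {z : PhasePoint × Par P | Meets ε (z.1.1 - C a, z.1.2 - V a)}
    · rw [indicator_of_mem hM]
      refine (indicator_of_notMem ?_ _).symm
      rintro ⟨h2, h3⟩
      exact hE ⟨hM, h2, h3⟩
    · rw [indicator_of_notMem hM]

/-- the set `EA` is measurable -/
theorem measurable_EA [Countable ι] (hΦ : AdmissiblePotential Φ) (hε : 0 < ε) (htw : 0 ≤ tw)
    (htwt : tw ≤ t) (htT : t ≤ T) (hS : ∀ i, ContinuousOn (S.c i) (Icc 0 T))
    (h : Subdiv tw t S J F η K V C) {a : (ℝ × ℝ) × ι} (ha : a ∈ K)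
    {G : ℝ → PhasePoint × Par P → ℝ≥0∞} (hG : Measurable (Function.uncurry G)) :
    Measurable fun z : PhasePoint × Par P =>
      (if EA Φ ε S V C a z then G (sA ε V C a z) z else 0) := by
  have hFA := measurableSet_FA (P := P) hΦ hε htw htwt htT hS h ha
  have hrel : Measurable fun z : PhasePoint × Par P =>
      ((z.1.1 - C a, z.1.2 - V a) : Space3 × Space3) := by fun_prop
  have hs : Measurable fun z : PhasePoint × Par P => sA ε V C a z :=
    (measurable_sEnt ε).comp hrel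
  have hz : Measurable fun z : PhasePoint × Par P => (sA ε V C a z, z) :=
    hs.prodMk measurable_id
  refine Measurable.ite ?_ (hG.comp hz) measurable_const
  exact (hrel (measurableSet_meets ε)).inter (hz hFA)

end meas

/-! ### Integrated comparison -/

section integrated

variable {tw t T : ℝ} {S : Tubes ι} {J : Finset (ℝ × ℝ)} {F : Finset ℝ} {η : ℝ}
  {K : Finset ((ℝ × ℝ) × ι)} {V C : (ℝ × ℝ) × ι → Space3}

theorem ae_nt (hε : 0 < ε) (K : Finset ((ℝ × ℝ) × ι)) (V C : (ℝ × ℝ) × ι → Space3) :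
    ∀ᵐ z : PhasePoint × Par P, ∀ a ∈ K, ‖bline (z.1.1 - C a, z.1.2 - V a)‖ ≠ ε := by
  rw [Filter.eventually_all_finset K]
  intro a _
  have h1 := ae_not_tangent hε (C a) (V a)
  exact (Measure.quasiMeasurePreserving_fst (μ := (volume : Measure PhasePoint))
    (ν := (volume : Measure (Par P)))).ae h1

/-- **First good hits against entrances**, integrated. -/
theorem absd_hits_le [Fintype ι] (hΦ : AdmissiblePotential Φ) (hε : 0 < ε) (htw : 0 ≤ tw)
    (htwt : tw ≤ t) (htT : t ≤ T) (hS : ∀ i, ContinuousOn (S.c i) (Icc 0 T))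
    (h : Subdiv tw t S J F η K V C) {U : ℝ → PhasePoint × Par P → ℝ≥0∞}
    (hUm : Measurable (Function.uncurry U)) (hU : ∀ σ z, U σ z ≤ 1)
    {q : PhasePoint × Par P → ℝ≥0∞} (hq : Measurable q) :
    absd (activity ε * ∫⁻ z, hI Φ ε S tw t U z * q z)
      (∑ a ∈ K, ∫⁻ θ : HPar P, dA Φ ε S P V C a (fun s z => U s z * q z) θ) ≤
      activity ε * (∫⁻ z : PhasePoint × Par P, if Bad ε T S F η z.1 then q z else 0) +
        ∑ a ∈ K, ∫⁻ θ : HPar P,
          dA Φ ε S P V C a (fun s z => if DA ε K V C a s z.1 then q z else 0) θ := by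
  have hact : ∀ x : ℝ≥0∞, activity ε * (ENNReal.ofReal (ε ^ 2) * x) = x := by
    intro x
    rw [← mul_assoc, Relabel674.activity_mul hε, one_mul]
  have hGm : Measurable (Function.uncurry fun (s : ℝ) (z : PhasePoint × Par P) => U s z * q z) :=
    hUm.mul (hq.comp measurable_snd)
  have hDm : ∀ a, Measurable (Function.uncurry fun (s : ℝ) (z : PhasePoint × Par P) =>
      if DA ε K V C a s z.1 then q z else 0) := by
    intro a
    have h1 : MeasurableSet {p : ℝ × (PhasePoint × Par P) | DA ε K V C a p.1 p.2.1} :=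
      (measurable_fst.prodMk measurable_snd.fst) (measurableSet_DA ε K V C a)
    exact Measurable.ite h1 (hq.comp measurable_snd) measurable_const
  -- entrances
  have e1 : ∑ a ∈ K, ∫⁻ θ : HPar P, dA Φ ε S P V C a (fun s z => U s z * q z) θ =
      activity ε * ∫⁻ z : PhasePoint × Par P,
        (∑ a ∈ K, if EA Φ ε S V C a z then U (sA ε V C a z) z else 0) * q z := by
    have h1 : ∀ z : PhasePoint × Par P,
        (∑ a ∈ K, if EA Φ ε S V C a z then U (sA ε V C a z) z else 0) * q z =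
        ∑ a ∈ K, if EA Φ ε S V C a z then U (sA ε V C a z) z * q z else 0 := by
      intro z
      rw [Finset.sum_mul]
      refine Finset.sum_congr rfl fun a _ => ?_
      split_ifs <;> simp
    simp only [h1]
    rw [lintegral_finsetSum' _ fun a ha =>
      (measurable_EA (P := P) hΦ hε htw htwt htT hS h ha hGm).aemeasurable, Finset.mul_sum]
    refine Finset.sum_congr rfl fun a ha => ?_
    rw [lintegral_EA (P := P) hΦ hε htw htwt htT hS h ha hGm, hact]
  have e2 : ∑ a ∈ K, ∫⁻ θ : HPar P,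
          dA Φ ε S P V C a (fun s z => if DA ε K V C a s z.1 then q z else 0) θ =
      activity ε * ∫⁻ z : PhasePoint × Par P,
        (∑ a ∈ K, if EA Φ ε S V C a z ∧ DA ε K V C a (sA ε V C a z) z.1 then 1 else 0) * q z := by
    have h1 : ∀ z : PhasePoint × Par P,
        (∑ a ∈ K, if EA Φ ε S V C a z ∧ DA ε K V C a (sA ε V C a z) z.1 then 1 else 0) * q z =
        ∑ a ∈ K, if EA Φ ε S V C a z then
          (if DA ε K V C a (sA ε V C a z) z.1 then q z else 0) else 0 := by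
      intro z
      rw [Finset.sum_mul]
      refine Finset.sum_congr rfl fun a _ => ?_
      by_cases h2 : EA Φ ε S V C a z <;> by_cases h3 : DA ε K V C a (sA ε V C a z) z.1 <;>
        simp [h2, h3]
    simp only [h1]
    rw [lintegral_finsetSum' _ fun a ha =>
      (measurable_EA (P := P) hΦ hε htw htwt htT hS h ha (hDm a)).aemeasurable, Finset.mul_sum]
    refine Finset.sum_congr rfl fun a ha => ?_
    rw [lintegral_EA (P := P) hΦ hε htw htwt htT hS h ha (hDm a), hact]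
  -- measurability
  have mE : Measurable fun z : PhasePoint × Par P =>
      (∑ a ∈ K, if EA Φ ε S V C a z then U (sA ε V C a z) z else 0) * q z :=
    (Finset.measurable_sum _ fun a ha =>
      measurable_EA (P := P) hΦ hε htw htwt htT hS h ha hUm).mul hq
  have mD : Measurable fun z : PhasePoint × Par P =>
      (∑ a ∈ K, if EA Φ ε S V C a z ∧ DA ε K V C a (sA ε V C a z) z.1 then (1 : ℝ≥0∞) else 0) *
        q z := by
    refine (Finset.measurable_sum _ fun a ha => ?_).mul hq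
    have h1 : ∀ z : PhasePoint × Par P,
        (if EA Φ ε S V C a z ∧ DA ε K V C a (sA ε V C a z) z.1 then (1 : ℝ≥0∞) else 0) =
        if EA Φ ε S V C a z then (if DA ε K V C a (sA ε V C a z) z.1 then 1 else 0) else 0 := by
      intro z
      by_cases h2 : EA Φ ε S V C a z <;> by_cases h3 : DA ε K V C a (sA ε V C a z) z.1 <;>
        simp [h2, h3]
    simp only [h1]
    refine measurable_EA (P := P) hΦ hε htw htwt htT hS h ha
      (G := fun s z => if DA ε K V C a s z.1 then 1 else 0) ?_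
    have h2 : MeasurableSet {p : ℝ × (PhasePoint × Par P) | DA ε K V C a p.1 p.2.1} :=
      (measurable_fst.prodMk measurable_snd.fst) (measurableSet_DA ε K V C a)
    exact Measurable.ite h2 measurable_const measurable_const
  rw [e1, e2, ← mul_add, absd_le_iff, ← mul_add, ← mul_add]
  constructor
  · refine mul_le_mul' le_rfl ?_
    calc ∫⁻ z, hI Φ ε S tw t U z * q z
        ≤ ∫⁻ z : PhasePoint × Par P,
          ((∑ a ∈ K, if EA Φ ε S V C a z then U (sA ε V C a z) z else 0) * q z +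
            if Bad ε T S F η z.1 then q z else 0) := by
          refine lintegral_mono_ae ?_
          filter_upwards [ae_nt (P := P) hε K V C] with z hz
          refine (mul_le_mul' (claim1 hε htT h hU hz) le_rfl).trans (le_of_eq ?_)
          rw [add_mul]
          congr 1
          split_ifs <;> simp
      _ = (∫⁻ z : PhasePoint × Par P,
          (∑ a ∈ K, if EA Φ ε S V C a z then U (sA ε V C a z) z else 0) * q z) +
            ∫⁻ z : PhasePoint × Par P, if Bad ε T S F η z.1 then q z else 0 :=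
          lintegral_add_left mE _
      _ ≤ _ := add_le_add le_rfl (le_add_right le_rfl)
  · refine mul_le_mul' le_rfl ?_
    calc ∫⁻ z : PhasePoint × Par P,
          (∑ a ∈ K, if EA Φ ε S V C a z then U (sA ε V C a z) z else 0) * q z
        ≤ ∫⁻ z : PhasePoint × Par P, (hI Φ ε S tw t U z * q z +
          (∑ a ∈ K, if EA Φ ε S V C a z ∧ DA ε K V C a (sA ε V C a z) z.1 then (1 : ℝ≥0∞)
            else 0) * q z) := by
          refine lintegral_mono fun z => ?_
          rw [← add_mul]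
          exact mul_le_mul' (claim2 hε htw h hU) le_rfl
      _ = (∫⁻ z : PhasePoint × Par P, hI Φ ε S tw t U z * q z) +
          ∫⁻ z : PhasePoint × Par P,
            (∑ a ∈ K, if EA Φ ε S V C a z ∧ DA ε K V C a (sA ε V C a z) z.1 then (1 : ℝ≥0∞)
              else 0) * q z := lintegral_add_right _ mD
      _ ≤ _ := add_le_add le_rfl (le_add_left le_rfl)

end integrated

end Crest.Agent.R122.Tube818
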