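import Crest.Agent.R122.Tube4_818
import Crest.Agent.R122.Sweep_815

/-!
Row 122, block FT (helper818), part 5: bounds for the bad intervals.
-/

set_option autoImplicit false
set_option maxHeartbeats 400000

open MeasureTheory Set Filter
open Crest.AnalysisR.Kinetic
open scoped ENNReal Classical Topology NNReal

noncomputable section

namespace Crest.Agent.R122.Tube818

open Disc416 Flux663 Tree674 Kin796 Kin796.CTree TreeEps399 GIV566 GIVStep383 Hid424
open Causal291 IStep317 GC311 Quench815 TreeDom974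

variable {Φ : Space3 → ℝ} {f₀ : PhasePoint → ℝ} {ε : ℝ} {P : CTree} {ι : Type}

/-- **Volume of a tube** around a Lipschitz curve. -/
theorem volume_tube_le {α β L : ℝ} (hε : 0 < ε) (hL : 0 < L) {γ : ℝ → Space3}
    (hγ : ∀ s ∈ Icc α β, ∀ u ∈ Icc α β, dist (γ s) (γ u) ≤ L * |s - u|) :
    volume {X : Space3 | ∃ u ∈ Icc α β, dist (γ u) X ≤ ε} ≤
      ENNReal.ofReal ((β - α) * L / ε + 2) * (ENNReal.ofReal (2 * ε) ^ 3 * Sweep815.c3) := by
  rcases lt_or_ge β α with hlt | hle
  · have : {X : Space3 | ∃ u ∈ Icc α β, dist (γ u) X ≤ ε} = ∅ := by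
      ext X
      simp only [mem_ofPred_eq, mem_empty_iff_false, iff_false, not_exists, not_and]
      intro u hu
      exact absurd (hu.1.trans hu.2) (not_le.2 hlt)
    rw [this, measure_empty]
    exact bot_le
  · set n := ⌊(β - α) * L / ε⌋₊ with hn
    have hpos : 0 ≤ (β - α) * L / ε := by
      have : 0 ≤ β - α := sub_nonneg.2 hle
      positivity
    have hnle : (n : ℝ) ≤ (β - α) * L / ε := Nat.floor_le hpos
    have hsub : {X : Space3 | ∃ u ∈ Icc α β, dist (γ u) X ≤ ε} ⊆
        ⋃ i ∈ Finset.range (n + 1), Metric.closedBall (γ (α + i * (ε / L))) (2 * ε) := by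
      rintro X ⟨u, hu, hd⟩
      have hu0 : 0 ≤ (u - α) * L / ε := by
        have : 0 ≤ u - α := sub_nonneg.2 hu.1
        positivity
      set i := ⌊(u - α) * L / ε⌋₊ with hi
      have h1 : (i : ℝ) ≤ (u - α) * L / ε := Nat.floor_le hu0
      have h2 : (u - α) * L / ε < i + 1 := Nat.lt_floor_add_one _
      have hin : i < n + 1 := by
        rw [Nat.lt_succ_iff]
        refine Nat.floor_le_floor ?_
        have : u - α ≤ β - α := by linarith [hu.2]
        gcongr
      have h3 : (i : ℝ) * (ε / L) ≤ u - α := by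
        rw [le_div_iff₀ hε] at h1
        rw [mul_div_assoc', div_le_iff₀ hL]
        exact h1
      have h4 : u - α < (i + 1) * (ε / L) := by
        rw [div_lt_iff₀ hε] at h2
        rw [mul_div_assoc', lt_div_iff₀ hL]
        exact h2
      simp only [mem_iUnion, Finset.mem_range, exists_prop]
      refine ⟨i, hin, ?_⟩
      rw [Metric.mem_closedBall, dist_comm]
      have hg : α + i * (ε / L) ∈ Icc α β := by
        have : 0 ≤ (i : ℝ) * (ε / L) := by positivity
        exact ⟨by linarith, by linarith [hu.2]⟩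
      have h5 := hγ (α + i * (ε / L)) hg u hu
      have h6 : |α + i * (ε / L) - u| ≤ ε / L := by
        rw [abs_le]
        constructor <;> nlinarith
      calc dist (γ (α + i * (ε / L))) X ≤ dist (γ (α + i * (ε / L))) (γ u) + dist (γ u) X :=
            dist_triangle _ _ _
        _ ≤ L * |α + i * (ε / L) - u| + ε := add_le_add h5 hd
        _ ≤ L * (ε / L) + ε := by gcongr
        _ = 2 * ε := by field_simp; ring
    calc volume {X : Space3 | ∃ u ∈ Icc α β, dist (γ u) X ≤ ε}
        ≤ volume (⋃ i ∈ Finset.range (n + 1),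
            Metric.closedBall (γ (α + i * (ε / L))) (2 * ε)) := measure_mono hsub
      _ ≤ ∑ i ∈ Finset.range (n + 1), volume (Metric.closedBall (γ (α + i * (ε / L))) (2 * ε)) :=
          measure_biUnion_finset_le _ _
      _ = ((n + 1 : ℕ) : ℝ≥0∞) * (ENNReal.ofReal (2 * ε) ^ 3 * Sweep815.c3) := by
          simp only [Sweep815.vol_closedBall, Finset.sum_const, Finset.card_range, nsmul_eq_mul]
      _ ≤ _ := by
          refine mul_le_mul' ?_ le_rfl
          rw [← ENNReal.ofReal_natCast]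
          refine ENNReal.ofReal_le_ofReal ?_
          push_cast
          linarith

/-- Gaussian in the velocity -/
def gv (C b : ℝ) (v : Space3) : ℝ≥0∞ := ENNReal.ofReal (C * Real.exp (-b * ‖v‖ ^ 2))

theorem measurable_gv (C b : ℝ) : Measurable (gv C b) := by
  unfold gv
  fun_prop

/-- first moment -/
def mom (C b L : ℝ) : ℝ≥0∞ := ∫⁻ v : Space3, gv C b v * ENNReal.ofReal (‖v‖ + L)

theorem mom_ne_top {C b L : ℝ} (hC : 0 ≤ C) (hb : 0 < b) (hL : 0 ≤ L) : mom C b L ≠ ∞ := by
  have hδ : 0 < b / 2 := by positivity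
  set D : ℝ := (1 + L) * ((Nat.factorial 1 : ℝ) / (b / 2) ^ 1 * Real.exp (b / 2)) with hD
  have hD0 : 0 ≤ D := by positivity
  have hle : ∀ v : Space3, gv C b v * ENNReal.ofReal (‖v‖ + L) ≤
      ENNReal.ofReal (C * D * Real.exp (-(b / 2) * ‖v‖ ^ 2)) := by
    intro v
    unfold gv
    rw [← ENNReal.ofReal_mul (by positivity)]
    refine ENNReal.ofReal_le_ofReal ?_
    have h1 := one_add_pow_le hδ (sq_nonneg ‖v‖) 1
    have h2 : ‖v‖ + L ≤ (1 + L) * (1 + ‖v‖ ^ 2) ^ 1 := by
      nlinarith [sq_nonneg (‖v‖ - 1), norm_nonneg v, mul_nonneg hL (sq_nonneg ‖v‖)]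
    have h3 : Real.exp (-b * ‖v‖ ^ 2) * Real.exp (b / 2 * ‖v‖ ^ 2) =
        Real.exp (-(b / 2) * ‖v‖ ^ 2) := by
      rw [← Real.exp_add]
      congr 1
      ring
    calc C * Real.exp (-b * ‖v‖ ^ 2) * (‖v‖ + L)
        ≤ C * Real.exp (-b * ‖v‖ ^ 2) * ((1 + L) * (((Nat.factorial 1 : ℝ) / (b / 2) ^ 1 *
            Real.exp (b / 2)) * Real.exp (b / 2 * ‖v‖ ^ 2))) := by
          gcongr
          exact h2.trans (by gcongr)
      _ = C * D * (Real.exp (-b * ‖v‖ ^ 2) * Real.exp (b / 2 * ‖v‖ ^ 2)) := by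
          rw [hD]; ring
      _ = _ := by rw [h3]
  refine ne_top_of_le_ne_top ?_ (lintegral_mono hle)
  exact ((Boltz814.integrable_gauss hδ).const_mul (C * D)).lintegral_lt_top.ne

/-- **Lines meeting a Lipschitz tube** in a short time interval. -/
theorem bad_lines_le {T α β η : ℝ} {M : ℝ≥0} (hε : 0 < ε) (hη : 0 ≤ η) {c : ℝ → Space3}
    (hc : LipschitzOnWith M c (Icc 0 T)) (hα : 0 ≤ α) (hβ : β ≤ T) (hαβ : β - α ≤ 2 * η)
    (C b : ℝ) :
    activity ε * ∫⁻ ℓ : PhasePoint,
      (if ∃ u ∈ Icc α β, dist (c u) (ℓ.1 + u • ℓ.2) ≤ ε then gv C b ℓ.2 else 0) ≤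
      ENNReal.ofReal (16 * (η + ε)) * (Sweep815.c3 * mom C b (M + 1)) := by
  have hsub : Icc α β ⊆ Icc 0 T := Icc_subset_Icc hα hβ
  -- closedness in the position and velocity
  have hms : MeasurableSet {ℓ : PhasePoint | ∃ u ∈ Icc α β, dist (c u) (ℓ.1 + u • ℓ.2) ≤ ε} := by
    rcases le_or_gt α β with h | h
    · have h0 : (0 : ℝ) ≤ T := hα.trans (h.trans hβ)
      have e : {ℓ : PhasePoint | ∃ u ∈ Icc α β, dist (c u) (ℓ.1 + u • ℓ.2) ≤ ε} =
          {ℓ : PhasePoint | ∃ u ∈ Icc α β,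
            dist (c (projIcc 0 T h0 u)) (ℓ.1 + u • ℓ.2) ≤ ε} := by
        ext ℓ
        refine exists_congr fun u => and_congr_right fun hu => ?_
        rw [projIcc_of_mem h0 (hsub hu)]
      rw [e]
      refine measurableSet_exists_Icc measurable_const measurable_const
        (g := fun (ℓ : PhasePoint) u => dist (c (projIcc 0 T h0 u)) (ℓ.1 + u • ℓ.2))
        (fun ℓ => ?_) (fun u => ?_) ε
      · have h2 : Continuous fun u => c (projIcc 0 T h0 u) :=
          hc.continuousOn.comp_continuous (continuous_subtype_val.comp continuous_projIcc)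
            fun s => (projIcc 0 T h0 s).2
        exact h2.dist (by fun_prop)
      · fun_prop
    · have e : {ℓ : PhasePoint | ∃ u ∈ Icc α β, dist (c u) (ℓ.1 + u • ℓ.2) ≤ ε} = ∅ := by
        ext ℓ
        simp only [mem_ofPred_eq, mem_empty_iff_false, iff_false, not_exists, not_and]
        intro u hu
        exact absurd (hu.1.trans hu.2) (not_le.2 h)
      rw [e]
      exact MeasurableSet.empty
  have hm : Measurable fun ℓ : PhasePoint =>
      (if ∃ u ∈ Icc α β, dist (c u) (ℓ.1 + u • ℓ.2) ≤ ε then gv C b ℓ.2 else 0) :=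
    Measurable.ite hms ((measurable_gv C b).comp measurable_snd) measurable_const
  have hvel : ∀ v : Space3, ∫⁻ x : Space3,
      (if ∃ u ∈ Icc α β, dist (c u) (x + u • v) ≤ ε then gv C b v else 0) ≤
      gv C b v * (ENNReal.ofReal ((β - α) * (M + ‖v‖ + 1) / ε + 2) *
        (ENNReal.ofReal (2 * ε) ^ 3 * Sweep815.c3)) := by
    intro v
    have hmv : MeasurableSet {x : Space3 | ∃ u ∈ Icc α β, dist (c u) (x + u • v) ≤ ε} :=
      (measurable_id.prodMk measurable_const) hms
    have e1 : ∀ x : Space3, (if ∃ u ∈ Icc α β, dist (c u) (x + u • v) ≤ ε then gv C b v else 0) =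
        {x : Space3 | ∃ u ∈ Icc α β, dist (c u) (x + u • v) ≤ ε}.indicator
          (fun _ => gv C b v) x := by
      intro x
      by_cases hx : ∃ u ∈ Icc α β, dist (c u) (x + u • v) ≤ ε
      · rw [if_pos hx, indicator_of_mem (show x ∈ {x : Space3 | ∃ u ∈ Icc α β,
          dist (c u) (x + u • v) ≤ ε} from hx)]
      · rw [if_neg hx, indicator_of_notMem (show x ∉ {x : Space3 | ∃ u ∈ Icc α β,
          dist (c u) (x + u • v) ≤ ε} from hx)]
    simp only [e1]
    rw [lintegral_indicator_const hmv]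
    refine mul_le_mul' le_rfl ?_
    have e2 : {x : Space3 | ∃ u ∈ Icc α β, dist (c u) (x + u • v) ≤ ε} =
        {X : Space3 | ∃ u ∈ Icc α β, dist (c u - u • v) X ≤ ε} := by
      ext x
      refine exists_congr fun u => and_congr_right fun _ => ?_
      rw [dist_eq_norm, dist_eq_norm]
      have : c u - (x + u • v) = c u - u • v - x := by abel
      rw [this]
    rw [e2]
    refine volume_tube_le hε (by positivity) fun s hs u hu => ?_
    have h1 : dist (c s) (c u) ≤ M * dist s u := hc.dist_le_mul s (hsub hs) u (hsub hu)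
    rw [Real.dist_eq] at h1
    have h2 : c s - s • v - (c u - u • v) = (c s - c u) - (s - u) • v := by
      rw [sub_smul]; abel
    rw [dist_eq_norm, h2]
    calc ‖c s - c u - (s - u) • v‖ ≤ ‖c s - c u‖ + ‖(s - u) • v‖ := norm_sub_le _ _
      _ ≤ M * |s - u| + |s - u| * ‖v‖ := by
          rw [norm_smul, Real.norm_eq_abs, ← dist_eq_norm]
          gcongr
      _ ≤ (M + ‖v‖ + 1) * |s - u| := by nlinarith [abs_nonneg (s - u)]
  -- the constant
  have hconst : ∀ v : Space3, activity ε * (ENNReal.ofReal ((β - α) * (M + ‖v‖ + 1) / ε + 2) *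
        (ENNReal.ofReal (2 * ε) ^ 3 * Sweep815.c3)) ≤
      ENNReal.ofReal (16 * (η + ε)) * (Sweep815.c3 * ENNReal.ofReal (‖v‖ + (M + 1))) := by
    intro v
    have hM : (0 : ℝ) ≤ M := M.2
    have h1 : ENNReal.ofReal ((β - α) * (M + ‖v‖ + 1) / ε + 2) ≤
        ENNReal.ofReal ((2 * η * (M + ‖v‖ + 1) + 2 * ε) / ε) := by
      refine ENNReal.ofReal_le_ofReal ?_
      have : (2 * η * (M + ‖v‖ + 1) + 2 * ε) / ε = 2 * η * (M + ‖v‖ + 1) / ε + 2 := by
        field_simp
      rw [this]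
      gcongr
    have h2 : ENNReal.ofReal ((2 * η * (M + ‖v‖ + 1) + 2 * ε) / ε) * ENNReal.ofReal (2 * ε) ^ 3 =
        ENNReal.ofReal (ε ^ 2) * ENNReal.ofReal (8 * (2 * η * (M + ‖v‖ + 1) + 2 * ε)) := by
      rw [← ENNReal.ofReal_pow (by positivity), ← ENNReal.ofReal_mul (by positivity),
        ← ENNReal.ofReal_mul (by positivity)]
      congr 1
      field_simp
      ring
    have h3 : ENNReal.ofReal (8 * (2 * η * (M + ‖v‖ + 1) + 2 * ε)) ≤
        ENNReal.ofReal (16 * (η + ε)) * ENNReal.ofReal (‖v‖ + (M + 1)) := by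
      rw [← ENNReal.ofReal_mul (by positivity)]
      refine ENNReal.ofReal_le_ofReal ?_
      have h4 : ε ≤ ε * (‖v‖ + (M + 1)) := by
        nlinarith [norm_nonneg v]
      nlinarith
    calc activity ε * (ENNReal.ofReal ((β - α) * (M + ‖v‖ + 1) / ε + 2) *
          (ENNReal.ofReal (2 * ε) ^ 3 * Sweep815.c3))
        ≤ activity ε * (ENNReal.ofReal ((2 * η * (M + ‖v‖ + 1) + 2 * ε) / ε) *
          (ENNReal.ofReal (2 * ε) ^ 3 * Sweep815.c3)) := by gcongr
      _ = (activity ε * ENNReal.ofReal (ε ^ 2)) *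
          ENNReal.ofReal (8 * (2 * η * (M + ‖v‖ + 1) + 2 * ε)) * Sweep815.c3 := by
          rw [← mul_assoc (ENNReal.ofReal ((2 * η * (M + ‖v‖ + 1) + 2 * ε) / ε)), h2]
          ring
      _ ≤ 1 * (ENNReal.ofReal (16 * (η + ε)) * ENNReal.ofReal (‖v‖ + (M + 1))) *
          Sweep815.c3 := by
          rw [Relabel674.activity_mul hε]
          gcongr
      _ = _ := by ring
  have hact : activity ε ≠ ∞ := ENNReal.ofReal_ne_top
  rw [Measure.volume_eq_prod, lintegral_prod_symm _ hm.aemeasurable]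
  calc activity ε * ∫⁻ v : Space3, ∫⁻ x : Space3,
        (if ∃ u ∈ Icc α β, dist (c u) (x + u • v) ≤ ε then gv C b v else 0)
      ≤ activity ε * ∫⁻ v : Space3, gv C b v *
        (ENNReal.ofReal ((β - α) * (M + ‖v‖ + 1) / ε + 2) *
        (ENNReal.ofReal (2 * ε) ^ 3 * Sweep815.c3)) := by
        gcongr with v
        exact hvel v
    _ = ∫⁻ v : Space3, activity ε * (gv C b v *
        (ENNReal.ofReal ((β - α) * (M + ‖v‖ + 1) / ε + 2) *
        (ENNReal.ofReal (2 * ε) ^ 3 * Sweep815.c3))) := (lintegral_const_mul' _ _ hact).symm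
    _ ≤ ∫⁻ v : Space3, (ENNReal.ofReal (16 * (η + ε)) * Sweep815.c3) *
          (gv C b v * ENNReal.ofReal (‖v‖ + (M + 1))) := by
        refine lintegral_mono fun v => ?_
        calc _ = gv C b v * (activity ε * (ENNReal.ofReal ((β - α) * (M + ‖v‖ + 1) / ε + 2) *
              (ENNReal.ofReal (2 * ε) ^ 3 * Sweep815.c3))) := by ring
          _ ≤ gv C b v * (ENNReal.ofReal (16 * (η + ε)) *
              (Sweep815.c3 * ENNReal.ofReal (‖v‖ + (M + 1)))) := mul_le_mul' le_rfl (hconst v)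
          _ = _ := by ring
    _ = _ := by
        rw [lintegral_const_mul' _ _ (ENNReal.mul_ne_top ENNReal.ofReal_ne_top
          (by unfold Sweep815.c3; exact ENNReal.ofReal_ne_top))]
        unfold mom
        ring

/-- **Bad intervals, particle side.** -/
theorem bad_le [Fintype ι] {T η : ℝ} {M : ℝ≥0} (hε : 0 < ε) (hη : 0 ≤ η) (hT : 0 ≤ T)
    {S : Tubes ι} (hS : ∀ i, LipschitzOnWith M (S.c i) (Icc 0 T)) {C b : ℝ} (hC : 0 ≤ C)
    (F : Finset ℝ) {q : PhasePoint × Par P → ℝ≥0∞} (hq : ∀ z, q z ≤ domG C b T P z.1.2 z.2) :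
    activity ε * (∫⁻ z : PhasePoint × Par P, if Bad ε T S F η z.1 then q z else 0) ≤
      ENNReal.ofReal (16 * (η + ε)) * (F.card * (Fintype.card ι *
        (Sweep815.c3 * mom C b (M + 1)) * ∫⁻ p : Par P, domP b T P p)) := by
  set B : ℝ → ι → PhasePoint → ℝ≥0∞ := fun f i ℓ =>
    if ∃ u ∈ Icc (max 0 (f - η)) (min T (f + η)), dist (S.c i u) (ℓ.1 + u • ℓ.2) ≤ ε
    then gv C b ℓ.2 else 0 with hB
  have hBm : ∀ f i, Measurable (B f i) := by
    intro f i
    have h1 := measurableSet_bad (S := (⟨fun _ => S.c i, fun _ => 0⟩ : Tubes Unit)) ε hT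
      (fun _ => (hS i).continuousOn) {f} η
    refine Measurable.ite ?_ ((measurable_gv C b).comp measurable_snd) measurable_const
    convert h1 using 1
    ext ℓ
    simp [Bad]
  have hpt : ∀ z : PhasePoint × Par P, (if Bad ε T S F η z.1 then q z else 0) ≤
      (∑ f ∈ F, ∑ i, B f i z.1) * domP b T P z.2 := by
    intro z
    split_ifs with h
    · obtain ⟨f, hf, i, hu⟩ := h
      refine (hq z).trans ?_
      rw [domG_eq hC]
      refine mul_le_mul' ?_ le_rfl
      have h1 : B f i z.1 = gv C b z.1.2 := if_pos hu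
      calc gv C b z.1.2 = B f i z.1 := h1.symm
        _ ≤ ∑ i, B f i z.1 := Finset.single_le_sum (f := fun i => B f i z.1)
            (fun _ _ => bot_le) (Finset.mem_univ i)
        _ ≤ _ := Finset.single_le_sum (f := fun f => ∑ i, B f i z.1) (fun _ _ => bot_le) hf
    · exact bot_le
  have hsm : Measurable fun ℓ : PhasePoint => ∑ f ∈ F, ∑ i, B f i ℓ :=
    Finset.measurable_sum _ fun f _ => Finset.measurable_sum _ fun i _ => hBm f i
  have hlin : ∫⁻ ℓ : PhasePoint, ∑ f ∈ F, ∑ i, B f i ℓ = ∑ f ∈ F, ∑ i, ∫⁻ ℓ, B f i ℓ := by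
    rw [lintegral_finsetSum _ fun f _ => Finset.measurable_sum _ fun i _ => hBm f i]
    refine Finset.sum_congr rfl fun f _ => ?_
    rw [lintegral_finsetSum _ fun i _ => hBm f i]
  calc activity ε * (∫⁻ z : PhasePoint × Par P, if Bad ε T S F η z.1 then q z else 0)
      ≤ activity ε * ∫⁻ z : PhasePoint × Par P, (∑ f ∈ F, ∑ i, B f i z.1) * domP b T P z.2 := by
        gcongr with z
        exact hpt z
    _ = activity ε * ((∫⁻ ℓ : PhasePoint, ∑ f ∈ F, ∑ i, B f i ℓ) *
          ∫⁻ p : Par P, domP b T P p) := by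
        congr 1
        exact lintegral_prod_mul (f := fun ℓ : PhasePoint => ∑ f ∈ F, ∑ i, B f i ℓ)
          (g := fun p : Par P => domP b T P p) hsm.aemeasurable (measurable_domP b T P).aemeasurable
    _ = (∑ f ∈ F, ∑ i, activity ε * ∫⁻ ℓ, B f i ℓ) * ∫⁻ p : Par P, domP b T P p := by
        rw [hlin, ← mul_assoc]
        congr 1
        rw [Finset.mul_sum]
        refine Finset.sum_congr rfl fun f _ => ?_
        rw [Finset.mul_sum]
    _ ≤ (∑ _f ∈ F, ∑ _i : ι, ENNReal.ofReal (16 * (η + ε)) *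
          (Sweep815.c3 * mom C b (M + 1))) * ∫⁻ p : Par P, domP b T P p := by
        refine mul_le_mul' (Finset.sum_le_sum fun f _ => Finset.sum_le_sum fun i _ => ?_) le_rfl
        refine bad_lines_le hε hη (hS i) (le_max_left _ _) (min_le_left _ _) ?_ C b
        have h1 : f - η ≤ max 0 (f - η) := le_max_right _ _
        have h2 : min T (f + η) ≤ f + η := min_le_right _ _
        linarith
    _ = _ := by
        simp only [Finset.sum_const, Finset.card_univ, nsmul_eq_mul]
        ring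

/-- Product integrals over the hit parameters. -/
theorem lintegral_hpar_mul {A : ℝ → ℝ≥0∞} {B : Space3 → ℝ≥0∞} {Y : Plane → ℝ≥0∞}
    {D : Par P → ℝ≥0∞} (hA : Measurable A) (hB : Measurable B) (hY : Measurable Y)
    (hD : Measurable D) :
    ∫⁻ θ : HPar P, A θ.1 * (B θ.2.1 * (Y θ.2.2.1 * D θ.2.2.2)) =
      (∫⁻ s, A s) * ((∫⁻ v, B v) * ((∫⁻ y, Y y) * ∫⁻ p, D p)) := by
  have m1 : Measurable fun r : Plane × Par P => Y r.1 * D r.2 :=
    (hY.comp measurable_fst).mul (hD.comp measurable_snd)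
  have m2 : Measurable fun r : Space3 × Plane × Par P => B r.1 * (Y r.2.1 * D r.2.2) :=
    (hB.comp measurable_fst).mul (m1.comp measurable_snd)
  have h1 : ∫⁻ θ : HPar P, A θ.1 * (B θ.2.1 * (Y θ.2.2.1 * D θ.2.2.2)) =
      (∫⁻ s, A s) * ∫⁻ r : Space3 × Plane × Par P, B r.1 * (Y r.2.1 * D r.2.2) :=
    lintegral_prod_mul (f := A) (g := fun r : Space3 × Plane × Par P => B r.1 * (Y r.2.1 * D r.2.2))
      hA.aemeasurable m2.aemeasurable
  have h2 : ∫⁻ r : Space3 × Plane × Par P, B r.1 * (Y r.2.1 * D r.2.2) =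
      (∫⁻ v, B v) * ∫⁻ r : Plane × Par P, Y r.1 * D r.2 :=
    lintegral_prod_mul (f := B) (g := fun r : Plane × Par P => Y r.1 * D r.2)
      hB.aemeasurable m1.aemeasurable
  have h3 : ∫⁻ r : Plane × Par P, Y r.1 * D r.2 = (∫⁻ y, Y y) * ∫⁻ p, D p :=
    lintegral_prod_mul (f := Y) (g := D) hY.aemeasurable hD.aemeasurable
  rw [h1, h2, h3]

/-- majorant of the entrance densities -/
def majH (C b T L : ℝ) (P : CTree) (A : Set ℝ) (θ : HPar P) : ℝ≥0∞ :=
  A.indicator 1 θ.1 * ((gv C b θ.2.1 * ENNReal.ofReal (‖θ.2.1‖ + L)) *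
    ((Metric.ball (0 : Plane) 1).indicator 1 θ.2.2.1 * domP b T P θ.2.2.2))

theorem lintegral_majH (C b T L : ℝ) (P : CTree) {A : Set ℝ} (hA : MeasurableSet A) :
    ∫⁻ θ : HPar P, majH C b T L P A θ =
      volume A * (mom C b L * (volume (Metric.ball (0 : Plane) 1) * ∫⁻ p : Par P, domP b T P p)) := by
  unfold majH
  have hB : Measurable fun v : Space3 => gv C b v * ENNReal.ofReal (‖v‖ + L) :=
    (measurable_gv C b).mul (by fun_prop)
  have h1 := lintegral_hpar_mul (P := P) (A := A.indicator 1)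
    (B := fun v : Space3 => gv C b v * ENNReal.ofReal (‖v‖ + L))
    (Y := (Metric.ball (0 : Plane) 1).indicator 1) (D := domP b T P)
    (measurable_one.indicator hA) hB (measurable_one.indicator measurableSet_ball)
    (measurable_domP b T P)
  refine h1.trans ?_
  rw [lintegral_indicator_one hA, lintegral_indicator_one measurableSet_ball]
  rfl

theorem lintegral_majH_ne_top {C b T L : ℝ} (hC : 0 ≤ C) (hb : 0 < b) (hL : 0 ≤ L) (P : CTree)
    {A : Set ℝ} (hA : MeasurableSet A) (hv : volume A ≠ ∞) :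
    ∫⁻ θ : HPar P, majH C b T L P A θ ≠ ∞ := by
  rw [lintegral_majH C b T L P hA]
  exact ENNReal.mul_ne_top hv (ENNReal.mul_ne_top (mom_ne_top hC hb hL)
    (ENNReal.mul_ne_top measure_ball_lt_top.ne (lintegral_domP_ne_top hb T P)))

end Crest.Agent.R122.Tube818
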