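import Crest.Agent.R122.Tube5_818

/-!
Row 122, block FT (helper818), part 6: subdivisions of a convergent tube family.
-/

set_option autoImplicit false
set_option maxHeartbeats 400000

open MeasureTheory Set Filter
open Crest.AnalysisR.Kinetic
open scoped ENNReal Classical Topology NNReal

noncomputable section

namespace Crest.Agent.R122.Tube818

open Disc416 Flux663 Tree674 Kin796 Kin796.CTree TreeEps399 GIV566 GIVStep383 Hid424
open Causal291 IStep317 GC311 Quench815 TreeDom974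

variable {ι : Type}

theorem affine_of_deriv {c : ℝ → Space3} {V : Space3} {lo hi : ℝ}
    (h : ∀ u ∈ Icc lo hi, HasDerivAt c V u) :
    ∀ u ∈ Icc lo hi, c u = (c lo - lo • V) + u • V := by
  have h1 : ∀ u ∈ Icc lo hi, HasDerivAt (fun u => c u - u • V) 0 u := by
    intro u hu
    have h2 : HasDerivAt (fun u : ℝ => u • V) V u := by
      have := (hasDerivAt_id u).smul_const V
      rwa [one_smul] at this
    have h3 := (h u hu).fun_sub h2
    rwa [sub_self] at h3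
  have h3 := constant_of_has_deriv_right_zero (f := fun u => c u - u • V) (a := lo) (b := hi)
    (fun u hu => (h1 u hu).continuousAt.continuousWithinAt)
    (fun u hu => (h1 u (Ico_subset_Icc_self hu)).hasDerivWithinAt)
  intro u hu
  have h4 : c u - u • V = c lo - lo • V := h3 u hu
  rw [← h4, sub_add_cancel]

/-- a locally constant derivative is constant -/
theorem deriv_const {c : ℝ → Space3} {a b : ℝ}
    (h : ∀ s ∈ Ioo a b, ∃ v : Space3, ∃ U ∈ 𝓝 s, ∀ u ∈ U, HasDerivAt c v u) :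
    ∀ s ∈ Ioo a b, ∀ s' ∈ Ioo a b, deriv c s = deriv c s' := by
  have h1 : ∀ s ∈ Ioo a b, HasDerivAt (deriv c) 0 s := by
    intro s hs
    obtain ⟨v, U, hU, hd⟩ := h s hs
    have h2 : deriv c =ᶠ[𝓝 s] fun _ => v := by
      filter_upwards [hU] with u hu
      exact (hd u hu).deriv
    exact (hasDerivAt_const s v).congr_of_eventuallyEq h2
  have key : ∀ s ∈ Ioo a b, ∀ s' ∈ Ioo a b, s ≤ s' → deriv c s = deriv c s' := by
    intro s hs s' hs' hle
    have hsub : Icc s s' ⊆ Ioo a b := fun u hu => ⟨hs.1.trans_le hu.1, hu.2.trans_lt hs'.2⟩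
    have h3 := constant_of_has_deriv_right_zero (f := deriv c) (a := s) (b := s')
      (fun u hu => (h1 u (hsub hu)).continuousAt.continuousWithinAt)
      (fun u hu => (h1 u (hsub (Ico_subset_Icc_self hu))).hasDerivWithinAt)
    exact (h3 s' ⟨hle, le_rfl⟩).symm
  intro s hs s' hs'
  rcases le_total s s' with h2 | h2
  · exact key s hs s' hs' h2
  · exact (key s' hs' s hs h2).symm

/-- intercept of the straight piece `a` -/
def cA (V : (ℝ × ℝ) × ι → Space3) (S : Tubes ι) (a : (ℝ × ℝ) × ι) : Space3 :=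
  S.c a.2 a.1.1 - a.1.1 • V a

/-- velocity of the straight piece `a` -/
def vA (S : Tubes ι) (a : (ℝ × ℝ) × ι) : Space3 := deriv (S.c a.2) ((a.1.1 + a.1.2) / 2)

/-- consecutive points of a finite set -/
def cons (F : Finset ℝ) : Finset (ℝ × ℝ) :=
  (F ×ˢ F).filter fun p => p.1 < p.2 ∧ ∀ f ∈ F, ¬ (p.1 < f ∧ f < p.2)

/-- good intervals -/
def goodJ (F : Finset ℝ) (η : ℝ) : Finset (ℝ × ℝ) :=
  (cons F).image fun p => (p.1 + η, p.2 - η)

theorem mem_cons {F : Finset ℝ} {p : ℝ × ℝ} : p ∈ cons F ↔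
    (p.1 ∈ F ∧ p.2 ∈ F) ∧ p.1 < p.2 ∧ ∀ f ∈ F, ¬ (p.1 < f ∧ f < p.2) := by
  unfold cons
  rw [Finset.mem_filter, Finset.mem_product]

theorem mem_goodJ {F : Finset ℝ} {η : ℝ} {j : ℝ × ℝ} :
    j ∈ goodJ F η ↔ (j.1 - η, j.2 + η) ∈ cons F := by
  unfold goodJ
  rw [Finset.mem_image]
  constructor
  · rintro ⟨p, hp, rfl⟩
    simpa using hp
  · intro h
    exact ⟨_, h, by simp⟩

theorem cov_goodJ {F : Finset ℝ} {tw t η : ℝ} (hη : 0 < η) (h1 : tw ∈ F) (h2 : t ∈ F) {σ : ℝ}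
    (hσ : σ ∈ Icc tw t) : (∃ j ∈ goodJ F η, σ ∈ Ioo j.1 j.2) ∨ ∃ f ∈ F, |σ - f| ≤ η := by
  by_cases hn : ∃ f ∈ F, |σ - f| ≤ η
  · exact Or.inr hn
  push Not at hn
  left
  have hne1 : (F.filter fun f => f ≤ σ).Nonempty := ⟨tw, Finset.mem_filter.2 ⟨h1, hσ.1⟩⟩
  have hne2 : (F.filter fun f => σ ≤ f).Nonempty := ⟨t, Finset.mem_filter.2 ⟨h2, hσ.2⟩⟩
  obtain ⟨a, haF, hamax⟩ : ∃ a, (a ∈ F ∧ a ≤ σ) ∧ ∀ f ∈ F, f ≤ σ → f ≤ a := by
    refine ⟨(F.filter fun f => f ≤ σ).max' hne1, ?_, fun f hf hfσ => ?_⟩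
    · exact Finset.mem_filter.1 (Finset.max'_mem _ hne1)
    · exact Finset.le_max' _ _ (Finset.mem_filter.2 ⟨hf, hfσ⟩)
  obtain ⟨b, hbF, hbmin⟩ : ∃ b, (b ∈ F ∧ σ ≤ b) ∧ ∀ f ∈ F, σ ≤ f → b ≤ f := by
    refine ⟨(F.filter fun f => σ ≤ f).min' hne2, ?_, fun f hf hfσ => ?_⟩
    · exact Finset.mem_filter.1 (Finset.min'_mem _ hne2)
    · exact Finset.min'_le _ _ (Finset.mem_filter.2 ⟨hf, hfσ⟩)
  have ha' := hn a haF.1
  have hb' := hn b hbF.1
  rw [abs_of_nonneg (sub_nonneg.2 haF.2)] at ha'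
  rw [abs_of_nonpos (sub_nonpos.2 hbF.2)] at hb'
  refine ⟨(a + η, b - η), ?_, ⟨by linarith, by linarith⟩⟩
  rw [mem_goodJ, mem_cons]
  refine ⟨⟨by simpa using haF.1, by simpa using hbF.1⟩, by simp; linarith, ?_⟩
  rintro f hf ⟨hf1, hf2⟩
  simp only [add_sub_cancel_right, sub_add_cancel] at hf1 hf2
  rcases le_total f σ with h | h
  · exact absurd (hamax f hf h) (not_le.2 hf1)
  · exact absurd (hbmin f hf h) (not_le.2 hf2)

theorem disj_cons {F : Finset ℝ} {p p' : ℝ × ℝ} (hp : p ∈ cons F) (hp' : p' ∈ cons F) {σ : ℝ}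
    (h : σ ∈ Ioo p.1 p.2) (h' : σ ∈ Ioo p'.1 p'.2) : p = p' := by
  rw [mem_cons] at hp hp'
  have e1 : p.1 = p'.1 := by
    rcases lt_trichotomy p.1 p'.1 with h1 | h1 | h1
    · exact absurd ⟨h1, h'.1.trans h.2⟩ (hp.2.2 _ hp'.1.1)
    · exact h1
    · exact absurd ⟨h1, h.1.trans h'.2⟩ (hp'.2.2 _ hp.1.1)
  have e2 : p.2 = p'.2 := by
    rcases lt_trichotomy p.2 p'.2 with h1 | h1 | h1
    · exact absurd ⟨h'.1.trans h.2, h1⟩ (hp'.2.2 _ hp.1.2)
    · exact h1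
    · exact absurd ⟨h.1.trans h'.2, h1⟩ (hp.2.2 _ hp'.1.2)
  exact Prod.ext e1 e2

/-- active pairs -/
def goodK [Fintype ι] (S : Tubes ι) (F : Finset ℝ) (η : ℝ) : Finset ((ℝ × ℝ) × ι) :=
  (goodJ F η ×ˢ Finset.univ).filter fun q => q.1.2 + η ≤ S.b q.2

theorem mem_goodK [Fintype ι] {S : Tubes ι} {F : Finset ℝ} {η : ℝ} {q : (ℝ × ℝ) × ι} :
    q ∈ goodK S F η ↔ q.1 ∈ goodJ F η ∧ q.1.2 + η ≤ S.b q.2 := by
  unfold goodK
  rw [Finset.mem_filter, Finset.mem_product]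
  simp

/-- **Subdivision of a convergent tube family.** -/
theorem exists_subdiv [Fintype ι] {T tw t : ℝ} {Sk : ℕ → Tubes ι} {S : Tubes ι}
    (hconv : TubeConv T Sk S) (htw : 0 ≤ tw) (htwt : tw ≤ t) (htT : t ≤ T) :
    ∃ F : Finset ℝ, ∀ η : ℝ, 0 < η → ∃ (J : Finset (ℝ × ℝ)) (K : Finset ((ℝ × ℝ) × ι))
      (V : (ℝ × ℝ) × ι → Space3), Subdiv tw t S J F η K V (cA V S) ∧
        (∀ᶠ k in atTop, Subdiv tw t (Sk k) J F η K V (cA V (Sk k))) ∧
        ∀ a ∈ K, ∀ u ∈ Ioo a.1.1 a.1.2, deriv (S.c a.2) u = V a := by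
  obtain ⟨B, hBf, hB⟩ := hconv.vel
  set F0 : Finset ℝ := hBf.toFinset ∪ Finset.univ.image S.b ∪ {tw, t} with hF0
  set F : Finset ℝ := F0.filter fun f => f ∈ Icc tw t with hF
  have htwF : tw ∈ F := by
    rw [hF, Finset.mem_filter]
    exact ⟨by rw [hF0]; simp, le_rfl, htwt⟩
  have htF : t ∈ F := by
    rw [hF, Finset.mem_filter]
    exact ⟨by rw [hF0]; simp, htwt, le_rfl⟩
  have hBF : ∀ s ∈ B, s ∈ Icc tw t → s ∈ F := by
    intro s hs hs'
    rw [hF, Finset.mem_filter]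
    refine ⟨?_, hs'⟩
    rw [hF0]
    simp [hs]
  have hbF : ∀ i, S.b i ∈ Icc tw t → S.b i ∈ F := by
    intro i hi
    rw [hF, Finset.mem_filter]
    refine ⟨?_, hi⟩
    rw [hF0]
    simp
  have hFI : ∀ f ∈ F, f ∈ Icc tw t := fun f hf => (Finset.mem_filter.1 hf).2
  refine ⟨F, fun η hη => ⟨goodJ F η, goodK S F η, vA S, ?_⟩⟩
  -- the interval around a good interval
  have hcons : ∀ j ∈ goodJ F η, (j.1 - η ∈ F ∧ j.2 + η ∈ F) ∧ j.1 - η < j.2 + η ∧
      ∀ f ∈ F, ¬ (j.1 - η < f ∧ f < j.2 + η) := fun j hj => mem_cons.1 (mem_goodJ.1 hj)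
  have hbig : ∀ j ∈ goodJ F η, Ioo (j.1 - η) (j.2 + η) ⊆ Ioo tw t := by
    intro j hj u hu
    have h1 := hcons j hj
    exact ⟨(hFI _ h1.1.1).1.trans_lt hu.1, hu.2.trans_le (hFI _ h1.1.2).2⟩
  have hsub : ∀ j ∈ goodJ F η, Ioo j.1 j.2 ⊆ Ioo tw t := fun j hj =>
    (Ioo_subset_Ioo (by linarith) (by linarith)).trans (hbig j hj)
  have hdisj : ∀ j ∈ goodJ F η, ∀ j' ∈ goodJ F η, ∀ σ, σ ∈ Ioo j.1 j.2 →
      σ ∈ Ioo j'.1 j'.2 → j = j' := by
    intro j hj j' hj' σ h1 h2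
    have h3 := disj_cons (mem_goodJ.1 hj) (mem_goodJ.1 hj') (σ := σ)
      ⟨by linarith [h1.1], by linarith [h1.2]⟩ ⟨by linarith [h2.1], by linarith [h2.2]⟩
    have h4 := congrArg Prod.fst h3
    have h5 := congrArg Prod.snd h3
    simp only at h4 h5
    exact Prod.ext (by linarith) (by linarith)
  -- derivatives
  have hvel : ∀ a ∈ goodK S F η, ∀ s ∈ Ioo (a.1.1 - η) (a.1.2 + η), ∃ v : Space3, ∃ U ∈ 𝓝 s,
      (∀ u ∈ U, HasDerivAt (S.c a.2) v u) ∧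
        ∀ᶠ k in atTop, ∀ u ∈ U, HasDerivAt ((Sk k).c a.2) v u := by
    intro a ha s hs
    rw [mem_goodK] at ha
    have h1 := hbig a.1 ha.1 hs
    refine hB s ⟨htw.trans_lt h1.1, h1.2.trans_le htT⟩ (fun hsB => ?_) a.2 (hs.2.trans_le ha.2)
    exact (hcons a.1 ha.1).2.2 s (hBF s hsB (Ioo_subset_Icc_self h1)) hs
  have hder : ∀ a ∈ goodK S F η, a.1.1 < a.1.2 → ∀ s ∈ Ioo (a.1.1 - η) (a.1.2 + η),
      deriv (S.c a.2) s = vA S a := by
    intro a ha hlt s hs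
    refine deriv_const (fun s hs => ?_) s hs _ ?_
    · obtain ⟨v, U, hU, h1, -⟩ := hvel a ha s hs
      exact ⟨v, U, hU, h1⟩
    · constructor <;> linarith
  have hall : ∀ a ∈ goodK S F η, a.1.1 < a.1.2 → ∀ u ∈ Icc a.1.1 a.1.2,
      HasDerivAt (S.c a.2) (vA S a) u := by
    intro a ha hlt u hu
    have hu' : u ∈ Ioo (a.1.1 - η) (a.1.2 + η) := ⟨by linarith [hu.1], by linarith [hu.2]⟩
    obtain ⟨v, U, hU, h1, -⟩ := hvel a ha u hu'
    have h2 := h1 u (mem_of_mem_nhds hU)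
    have h3 : v = vA S a := h2.deriv.symm.trans (hder a ha hlt u hu')
    rw [← h3]
    exact h2
  have hallk : ∀ a ∈ goodK S F η, a.1.1 < a.1.2 → ∀ᶠ k in atTop, ∀ u ∈ Icc a.1.1 a.1.2,
      HasDerivAt ((Sk k).c a.2) (vA S a) u := by
    intro a ha hlt
    have hne : ∀ s ∈ Icc a.1.1 a.1.2, ∃ U ∈ 𝓝 s, ∀ᶠ k in atTop, ∀ u ∈ U,
        HasDerivAt ((Sk k).c a.2) (vA S a) u := by
      intro s hs
      have hs' : s ∈ Ioo (a.1.1 - η) (a.1.2 + η) := ⟨by linarith [hs.1], by linarith [hs.2]⟩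
      obtain ⟨v, U, hU, h1, h2⟩ := hvel a ha s hs'
      have h3 : v = vA S a := (h1 s (mem_of_mem_nhds hU)).deriv.symm.trans (hder a ha hlt s hs')
      exact ⟨U, hU, h3 ▸ h2⟩
    choose! U hU hU' using hne
    obtain ⟨s, hs, hcov⟩ := (isCompact_Icc (a := a.1.1) (b := a.1.2)).elim_nhds_subcover U hU
    have h4 : ∀ᶠ k in atTop, ∀ x ∈ s, ∀ u ∈ U x, HasDerivAt ((Sk k).c a.2) (vA S a) u := by
      rw [Filter.eventually_all_finset s]
      exact fun x hx => hU' x (hs x hx)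
    filter_upwards [h4] with k hk u hu
    have h5 := hcov hu
    simp only [mem_iUnion, exists_prop] at h5
    obtain ⟨x, hx, hux⟩ := h5
    exact hk x hx u hux
  have hin : ∀ j ∈ goodJ F η, ∀ i, (j, i) ∉ goodK S F η → S.b i ≤ j.1 - η := by
    intro j hj i hi
    have h1 : S.b i < j.2 + η := by
      by_contra h
      exact hi (mem_goodK.2 ⟨hj, not_lt.1 h⟩)
    by_contra h2
    push Not at h2
    have h3 := hbig j hj ⟨h2, h1⟩
    exact (hcons j hj).2.2 _ (hbF i (Ioo_subset_Icc_self h3)) ⟨h2, h1⟩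
  have haff : ∀ (S' : Tubes ι) (a : (ℝ × ℝ) × ι),
      (a.1.1 < a.1.2 → ∀ u ∈ Icc a.1.1 a.1.2, HasDerivAt (S'.c a.2) (vA S a) u) →
      ∀ u ∈ Ioo a.1.1 a.1.2, S'.c a.2 u = cA (vA S) S' a + u • vA S a := fun S' a h u hu =>
    affine_of_deriv (h (hu.1.trans hu.2)) u (Ioo_subset_Icc_self hu)
  refine ⟨⟨fun σ hσ => cov_goodJ hη htwF htF hσ, hsub, hdisj, fun a ha => (mem_goodK.1 ha).1,
    fun a ha u hu => ⟨?_, haff S a (fun hlt => hall a ha hlt) u hu⟩, fun j hj i hi u hu => ?_⟩,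
    ?_, fun a ha u hu => ?_⟩
  · have := (mem_goodK.1 ha).2
    linarith [hu.2]
  · have := hin j hj i hi
    linarith [hu.1]
  · have e1 : ∀ᶠ k in atTop, ∀ i, S.b i - η < (Sk k).b i ∧ (Sk k).b i < S.b i + η := by
      rw [Filter.eventually_all]
      intro i
      exact (hconv.active i).eventually (Ioo_mem_nhds (by linarith) (by linarith))
    have e2 : ∀ᶠ k in atTop, ∀ a ∈ goodK S F η, a.1.1 < a.1.2 → ∀ u ∈ Icc a.1.1 a.1.2,
        HasDerivAt ((Sk k).c a.2) (vA S a) u := by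
      rw [Filter.eventually_all_finset]
      intro a ha
      by_cases hlt : a.1.1 < a.1.2
      · filter_upwards [hallk a ha hlt] with k hk _
        exact hk
      · exact Filter.Eventually.of_forall fun k h => absurd h hlt
    filter_upwards [e1, e2] with k h1 h2
    refine ⟨fun σ hσ => cov_goodJ hη htwF htF hσ, hsub, hdisj, fun a ha => (mem_goodK.1 ha).1,
      fun a ha u hu => ⟨?_, haff (Sk k) a (h2 a ha) u hu⟩, fun j hj i hi u hu => ?_⟩
    · have h3 := (mem_goodK.1 ha).2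
      have h4 := (h1 a.2).1
      linarith [hu.2]
    · have h3 := hin j hj i hi
      have h4 := (h1 i).2
      linarith [hu.1]
  · exact hder a ha (hu.1.trans hu.2) u ⟨by linarith [hu.1], by linarith [hu.2]⟩

end Crest.Agent.R122.Tube818
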