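import Crest.Agent.R122.Tube6_818

/-!
Row 122, block FT (helper818), part 7: densities of the hits in the coordinates of the hit,
measurability, comparison of the entrance densities with them.
-/

set_option autoImplicit false
set_option maxHeartbeats 400000

open MeasureTheory Set Filter
open Crest.AnalysisR.Kinetic
open scoped ENNReal Classical Topology NNReal

noncomputable section

namespace Crest.Agent.R122.Tube818

open Disc416 Flux663 Tree674 Kin796 Kin796.CTree TreeEps399 GIV566 GIVStep383 Hid424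
open Causal291 IStep317 GC311 Quench815 TreeDom974

variable {Φ : Space3 → ℝ} {f₀ : PhasePoint → ℝ} {ε tw t T : ℝ} {P : CTree} {ι : Type}

/-- the line entering the tube `i` -/
def eL (ε : ℝ) (Sk S : Tubes ι) (i : ι) (θ : HPar P) : PhasePoint :=
  rootL ε (Sk.c i θ.1) (deriv (S.c i) θ.1) θ.1 θ.2.1 θ.2.2.1

/-- density of the first good hits at `ε`, in the parameters of the hit -/
def wE (Φ : Space3 → ℝ) (f₀ : PhasePoint → ℝ) (ε tw t : ℝ) (Sk S : Tubes ι) (i : ι) (θ : HPar P)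
    (x : Space3) : ℝ≥0∞ :=
  if tw < θ.1 ∧ θ.1 < t ∧ θ.1 < S.b i ∧ ‖θ.2.2.1‖ < 1 ∧
      FirstAt Φ ε P Sk (eL ε Sk S i θ, θ.2.2.2) θ.1 then
    ENNReal.ofReal ‖θ.2.1 - deriv (S.c i) θ.1‖ * (wt Φ P θ.2.1 θ.2.2.2 *
      ∏ j, ENNReal.ofReal (f₀ (lines Φ ε P ((eL ε Sk S i θ).1 + x, θ.2.1) θ.2.2.2 j)))
  else 0

/-- the hitting line is also in another tube -/
def Touch (ε : ℝ) (Sk S : Tubes ι) (i : ι) (θ : HPar P) : Prop :=
  ∃ i', i' ≠ i ∧ θ.1 ≤ Sk.b i' ∧ dist (Sk.c i' θ.1) (onLine (eL ε Sk S i θ) θ.1).1 ≤ ε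

/-! ### Measurability -/

theorem exists_frozen {S : Tubes ι} (hT : 0 ≤ T) (hS : ∀ i, ContinuousOn (S.c i) (Icc 0 T)) :
    ∃ c : ι → ℝ → Space3, (∀ i, Continuous (c i)) ∧ ∀ i, ∀ u ∈ Icc 0 T, S.c i u = c i u := by
  refine ⟨fun i u => S.c i (projIcc 0 T hT u), fun i => ?_, fun i u hu => ?_⟩
  · exact (hS i).comp_continuous (continuous_subtype_val.comp continuous_projIcc)
      fun s => (projIcc 0 T hT s).2
  · show S.c i u = S.c i (projIcc 0 T hT u)
    rw [projIcc_of_mem hT hu]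

theorem measurable_rootL (ε : ℝ) {α : Type*} [MeasurableSpace α] {x V v : α → Space3} {s : α → ℝ}
    {y : α → Plane} (hx : Measurable x) (hV : Measurable V) (hs : Measurable s)
    (hv : Measurable v) (hy : Measurable y) :
    Measurable fun a => rootL ε (x a) (V a) (s a) (v a) (y a) := by
  unfold rootL
  have h1 : Measurable fun a => v a - V a := hv.sub hV
  have h2 : Measurable fun a => frameMap (v a - V a) (y a) :=
    measurable_frameMap.comp (h1.prodMk hy)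
  have h3 : Measurable fun a => entrancePoint (frameMap (v a - V a) (y a)) (v a - V a) :=
    measurable_entrancePoint.comp (h2.prodMk h1)
  exact ((hx.add (h3.const_smul ε)).sub (hs.smul hv)).prodMk hv

/-- `wgt` is jointly measurable -/
theorem measurable_wgt (hΦ : AdmissiblePotential Φ) (hf : Measurable f₀) (htw : 0 ≤ tw)
    (htT : t ≤ T) (hT : 0 ≤ T) {S : Tubes ι} (hS : ∀ i, ContinuousOn (S.c i) (Icc 0 T)) (i : ι) :
    Measurable fun q : HPar P × Space3 => wgt Φ f₀ tw t S i q.1 q.2 := by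
  obtain ⟨c, hc, hcS⟩ := exists_frozen hT hS
  have hset : MeasurableSet {θ : HPar P | HGood Φ tw t S i θ} := by
    have h1 : MeasurableSet {θ : HPar P | θ.1 ∈ Ioc tw t} := measurable_fst measurableSet_Ioc
    have h2 : MeasurableSet {θ : HPar P | θ.1 < S.b i} :=
      measurableSet_lt measurable_fst measurable_const
    have h3 : MeasurableSet {θ : HPar P | ‖θ.2.2.1‖ < 1} :=
      measurableSet_lt measurable_snd.snd.fst.norm measurable_const
    have h4 : MeasurableSet {θ : HPar P | Valid Φ 0 P θ.1 θ.2.1 θ.2.2.2} :=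
      (measurable_fst.prodMk (measurable_snd.fst.prodMk measurable_snd.snd.snd))
        (measurableSet_valid3 hΦ 0 P)
    exact h1.inter (h2.inter (h3.inter h4))
  have hd : Measurable fun q : HPar P × Space3 =>
      ENNReal.ofReal ‖q.1.2.1 - deriv (S.c i) q.1.1‖ :=
    (measurable_fst.snd.fst.sub ((measurable_deriv (S.c i)).comp
      measurable_fst.fst)).norm.ennreal_ofReal
  have hw : Measurable fun q : HPar P × Space3 => wtM Φ P q.1.2.1 q.1.2.2.2 :=
    (measurable_wtM hΦ P).comp (measurable_fst.snd.fst.prodMk measurable_fst.snd.snd.snd)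
  have hℓ : Measurable fun q : HPar P × Space3 =>
      ((c i q.1.1 + q.2 - q.1.1 • q.1.2.1, q.1.2.1) : PhasePoint) := by
    have h1 : Measurable fun q : HPar P × Space3 => c i q.1.1 :=
      (hc i).measurable.comp measurable_fst.fst
    have h2 : Measurable fun q : HPar P × Space3 => q.1.1 • q.1.2.1 :=
      measurable_fst.fst.smul measurable_fst.snd.fst
    exact ((h1.add measurable_snd).sub h2).prodMk measurable_fst.snd.fst
  have hlin : Measurable fun q : HPar P × Space3 =>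
      linesM Φ 0 P (c i q.1.1 + q.2 - q.1.1 • q.1.2.1, q.1.2.1) q.1.2.2.2 :=
    (measurable_linesM hΦ 0 P).comp (hℓ.prodMk measurable_fst.snd.snd.snd)
  have hprod : Measurable fun q : HPar P × Space3 => ∏ j, ENNReal.ofReal
      (f₀ (linesM Φ 0 P (c i q.1.1 + q.2 - q.1.1 • q.1.2.1, q.1.2.1) q.1.2.2.2 j)) :=
    Finset.measurable_prod _ fun j _ =>
      (hf.comp ((measurable_pi_apply j).comp hlin)).ennreal_ofReal
  have key : (fun q : HPar P × Space3 => wgt Φ f₀ tw t S i q.1 q.2) = fun q =>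
      if q.1 ∈ {θ : HPar P | HGood Φ tw t S i θ} then
        ENNReal.ofReal ‖q.1.2.1 - deriv (S.c i) q.1.1‖ * (wtM Φ P q.1.2.1 q.1.2.2.2 *
          ∏ j, ENNReal.ofReal
            (f₀ (linesM Φ 0 P (c i q.1.1 + q.2 - q.1.1 • q.1.2.1, q.1.2.1) q.1.2.2.2 j)))
      else 0 := by
    funext q
    unfold wgt
    by_cases h : HGood Φ tw t S i q.1
    · rw [if_pos h, if_pos (show q.1 ∈ {θ : HPar P | HGood Φ tw t S i θ} from h)]
      have hadm : Adm Φ P q.1.2.1 q.1.2.2.2 := h.2.2.2.1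
      rw [wtM_of_adm hadm, ← hcS i q.1.1 ⟨htw.trans h.1.1.le, h.1.2.trans htT⟩,
        linesM_of_adm 0 (ℓ := (S.c i q.1.1 + q.2 - q.1.1 • q.1.2.1, q.1.2.1)) hadm]
    · rw [if_neg h, if_neg (show q.1 ∉ {θ : HPar P | HGood Φ tw t S i θ} from h)]
  rw [key]
  exact Measurable.ite (measurable_fst hset) (hd.mul (hw.mul hprod)) measurable_const

/-- `wE` is jointly measurable -/
theorem measurable_wE [Countable ι] (hΦ : AdmissiblePotential Φ) (hε : 0 < ε) (hf : Measurable f₀)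
    (htw : 0 ≤ tw) (htT : t ≤ T) (hT : 0 ≤ T) {Sk S : Tubes ι}
    (hS : ∀ i, ContinuousOn (Sk.c i) (Icc 0 T)) (i : ι) :
    Measurable fun q : HPar P × Space3 => wE Φ f₀ ε tw t Sk S i q.1 q.2 := by
  obtain ⟨c, hc, hcS⟩ := exists_frozen hT hS
  have hel : Measurable fun θ : HPar P =>
      rootL ε (c i θ.1) (deriv (S.c i) θ.1) θ.1 θ.2.1 θ.2.2.1 :=
    measurable_rootL ε ((hc i).measurable.comp measurable_fst)
      ((measurable_deriv (S.c i)).comp measurable_fst) measurable_fst measurable_snd.fst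
      measurable_snd.snd.fst
  have hset : MeasurableSet {θ : HPar P | (tw < θ.1 ∧ θ.1 < t ∧ θ.1 < S.b i ∧ ‖θ.2.2.1‖ < 1) ∧
      ((0 < θ.1 ∧ θ.1 ≤ T) ∧ FirstAt Φ ε P Sk
        (rootL ε (c i θ.1) (deriv (S.c i) θ.1) θ.1 θ.2.1 θ.2.2.1, θ.2.2.2) θ.1)} := by
    have h1 : MeasurableSet {θ : HPar P | tw < θ.1} :=
      measurableSet_lt measurable_const measurable_fst
    have h2 : MeasurableSet {θ : HPar P | θ.1 < t} :=
      measurableSet_lt measurable_fst measurable_const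
    have h3 : MeasurableSet {θ : HPar P | θ.1 < S.b i} :=
      measurableSet_lt measurable_fst measurable_const
    have h4 : MeasurableSet {θ : HPar P | ‖θ.2.2.1‖ < 1} :=
      measurableSet_lt measurable_snd.snd.fst.norm measurable_const
    have h5 := (measurable_fst.prodMk (hel.prodMk measurable_snd.snd.snd))
      (measurableSet_firstAt (P := P) hΦ hε hT hS)
    exact (h1.inter (h2.inter (h3.inter h4))).inter h5
  have hd : Measurable fun q : HPar P × Space3 =>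
      ENNReal.ofReal ‖q.1.2.1 - deriv (S.c i) q.1.1‖ :=
    (measurable_fst.snd.fst.sub ((measurable_deriv (S.c i)).comp
      measurable_fst.fst)).norm.ennreal_ofReal
  have hw : Measurable fun q : HPar P × Space3 => wtM Φ P q.1.2.1 q.1.2.2.2 :=
    (measurable_wtM hΦ P).comp (measurable_fst.snd.fst.prodMk measurable_fst.snd.snd.snd)
  have hℓ : Measurable fun q : HPar P × Space3 =>
      (((rootL ε (c i q.1.1) (deriv (S.c i) q.1.1) q.1.1 q.1.2.1 q.1.2.2.1).1 + q.2, q.1.2.1) :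
        PhasePoint) :=
    (((hel.comp measurable_fst).fst).add measurable_snd).prodMk measurable_fst.snd.fst
  have hlin : Measurable fun q : HPar P × Space3 =>
      linesM Φ ε P ((rootL ε (c i q.1.1) (deriv (S.c i) q.1.1) q.1.1 q.1.2.1 q.1.2.2.1).1 + q.2,
        q.1.2.1) q.1.2.2.2 :=
    (measurable_linesM hΦ ε P).comp (hℓ.prodMk measurable_fst.snd.snd.snd)
  have hprod : Measurable fun q : HPar P × Space3 => ∏ j, ENNReal.ofReal
      (f₀ (linesM Φ ε P ((rootL ε (c i q.1.1) (deriv (S.c i) q.1.1) q.1.1 q.1.2.1 q.1.2.2.1).1 +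
        q.2, q.1.2.1) q.1.2.2.2 j)) :=
    Finset.measurable_prod _ fun j _ =>
      (hf.comp ((measurable_pi_apply j).comp hlin)).ennreal_ofReal
  have key : (fun q : HPar P × Space3 => wE Φ f₀ ε tw t Sk S i q.1 q.2) = fun q =>
      if q.1 ∈ {θ : HPar P | (tw < θ.1 ∧ θ.1 < t ∧ θ.1 < S.b i ∧ ‖θ.2.2.1‖ < 1) ∧
          ((0 < θ.1 ∧ θ.1 ≤ T) ∧ FirstAt Φ ε P Sk
            (rootL ε (c i θ.1) (deriv (S.c i) θ.1) θ.1 θ.2.1 θ.2.2.1, θ.2.2.2) θ.1)} then
        ENNReal.ofReal ‖q.1.2.1 - deriv (S.c i) q.1.1‖ * (wtM Φ P q.1.2.1 q.1.2.2.2 *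
          ∏ j, ENNReal.ofReal (f₀ (linesM Φ ε P ((rootL ε (c i q.1.1) (deriv (S.c i) q.1.1)
            q.1.1 q.1.2.1 q.1.2.2.1).1 + q.2, q.1.2.1) q.1.2.2.2 j)))
      else 0 := by
    funext q
    unfold wE eL
    by_cases h : tw < q.1.1 ∧ q.1.1 < t ∧ q.1.1 < S.b i ∧ ‖q.1.2.2.1‖ < 1 ∧
      FirstAt Φ ε P Sk (rootL ε (Sk.c i q.1.1) (deriv (S.c i) q.1.1) q.1.1 q.1.2.1 q.1.2.2.1,
        q.1.2.2.2) q.1.1
    · have hm : q.1.1 ∈ Icc 0 T := ⟨htw.trans h.1.le, h.2.1.le.trans htT⟩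
      have hadm : Adm Φ P q.1.2.1 q.1.2.2.2 := h.2.2.2.2.valid.1
      rw [if_pos h, if_pos, ← hcS i q.1.1 hm, wtM_of_adm hadm, linesM_of_adm ε
        (ℓ := ((rootL ε (Sk.c i q.1.1) (deriv (S.c i) q.1.1) q.1.1 q.1.2.1 q.1.2.2.1).1 + q.2,
          q.1.2.1)) hadm]
      rw [mem_ofPred_eq, ← hcS i q.1.1 hm]
      exact ⟨⟨h.1, h.2.1, h.2.2.1, h.2.2.2.1⟩, ⟨htw.trans_lt h.1, hm.2⟩, h.2.2.2.2⟩
    · rw [if_neg h, if_neg]
      rintro ⟨h1, h2, h3⟩
      rw [← hcS i q.1.1 ⟨h2.1.le, h2.2⟩] at h3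
      exact h ⟨h1.1, h1.2.1, h1.2.2.1, h1.2.2.2, h3⟩
  rw [key]
  exact Measurable.ite (measurable_fst hset) (hd.mul (hw.mul hprod)) measurable_const

/-- double touches, jointly measurable -/
theorem measurable_touch [Countable ι] (hΦ : AdmissiblePotential Φ) (hε : 0 < ε)
    (hf : Measurable f₀) (htw : 0 ≤ tw) (htT : t ≤ T) (hT : 0 ≤ T) {Sk S : Tubes ι}
    (hS : ∀ i, ContinuousOn (Sk.c i) (Icc 0 T)) (i : ι) :
    Measurable fun q : HPar P × Space3 =>
      if Touch ε Sk S i q.1 then wE Φ f₀ ε tw t Sk S i q.1 q.2 else 0 := by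
  obtain ⟨c, hc, hcS⟩ := exists_frozen hT hS
  have hel : Measurable fun θ : HPar P =>
      rootL ε (c i θ.1) (deriv (S.c i) θ.1) θ.1 θ.2.1 θ.2.2.1 :=
    measurable_rootL ε ((hc i).measurable.comp measurable_fst)
      ((measurable_deriv (S.c i)).comp measurable_fst) measurable_fst measurable_snd.fst
      measurable_snd.snd.fst
  have hset : MeasurableSet {θ : HPar P | ∃ i', i' ≠ i ∧ θ.1 ≤ Sk.b i' ∧ dist (c i' θ.1)
      (onLine (rootL ε (c i θ.1) (deriv (S.c i) θ.1) θ.1 θ.2.1 θ.2.2.1) θ.1).1 ≤ ε} := by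
    have e : {θ : HPar P | ∃ i', i' ≠ i ∧ θ.1 ≤ Sk.b i' ∧ dist (c i' θ.1)
      (onLine (rootL ε (c i θ.1) (deriv (S.c i) θ.1) θ.1 θ.2.1 θ.2.2.1) θ.1).1 ≤ ε} =
      ⋃ i', {θ : HPar P | i' ≠ i ∧ θ.1 ≤ Sk.b i' ∧ dist (c i' θ.1)
      (onLine (rootL ε (c i θ.1) (deriv (S.c i) θ.1) θ.1 θ.2.1 θ.2.2.1) θ.1).1 ≤ ε} := by
      ext θ
      simp
    rw [e]
    refine MeasurableSet.iUnion fun i' => ?_
    refine (MeasurableSet.const _).inter ((measurableSet_le measurable_fst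
      measurable_const).inter ?_)
    exact measurableSet_le (((hc i').measurable.comp measurable_fst).dist
      (measurable_onLine2.comp (hel.prodMk measurable_fst)).fst) measurable_const
  have key : (fun q : HPar P × Space3 =>
      if Touch ε Sk S i q.1 then wE Φ f₀ ε tw t Sk S i q.1 q.2 else 0) = fun q =>
      if q.1 ∈ {θ : HPar P | ∃ i', i' ≠ i ∧ θ.1 ≤ Sk.b i' ∧ dist (c i' θ.1)
        (onLine (rootL ε (c i θ.1) (deriv (S.c i) θ.1) θ.1 θ.2.1 θ.2.2.1) θ.1).1 ≤ ε} then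
        wE Φ f₀ ε tw t Sk S i q.1 q.2 else 0 := by
    funext q
    by_cases h : tw < q.1.1 ∧ q.1.1 < t
    · have hm : q.1.1 ∈ Icc 0 T := ⟨htw.trans h.1.le, h.2.le.trans htT⟩
      have h2 : Touch ε Sk S i q.1 ↔ q.1 ∈ {θ : HPar P | ∃ i', i' ≠ i ∧ θ.1 ≤ Sk.b i' ∧
          dist (c i' θ.1)
        (onLine (rootL ε (c i θ.1) (deriv (S.c i) θ.1) θ.1 θ.2.1 θ.2.2.1) θ.1).1 ≤ ε} := by
        unfold Touch eL
        rw [mem_ofPred_eq, ← hcS i q.1.1 hm]
        refine exists_congr fun i' => ?_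
        rw [← hcS i' q.1.1 hm]
      by_cases h3 : Touch ε Sk S i q.1
      · rw [if_pos h3, if_pos (h2.1 h3)]
      · rw [if_neg h3, if_neg (fun h4 => h3 (h2.2 h4))]
    · have h2 : wE Φ f₀ ε tw t Sk S i q.1 q.2 = 0 := by
        unfold wE
        rw [if_neg]
        exact fun h3 => h ⟨h3.1, h3.2.1⟩
      rw [h2, ite_self, ite_self]
  rw [key]
  exact Measurable.ite (measurable_fst hset) (measurable_wE hΦ hε hf htw htT hT hS i)
    measurable_const

end Crest.Agent.R122.Tube818
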