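import Crest.Agent.R122.Tube7_818
import Crest.Agent.R122.FluxDCT2_491

/-!
Row 122, block FT (helper818), part 8: the flux limit (I2).
-/

set_option autoImplicit false
set_option maxHeartbeats 400000

open MeasureTheory Set Filter
open Crest.AnalysisR.Kinetic
open scoped ENNReal Classical Topology NNReal

noncomputable section

namespace Crest.Agent.R122.Tube818

open Disc416 Flux663 Tree674 Kin796 Kin796.CTree TreeEps399 GIV566 GIVStep383 Hid424
open Causal291 IStep317 GC311 Quench815 TreeDom974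

variable {Φ : Space3 → ℝ} {f₀ : PhasePoint → ℝ} {ε tw t T : ℝ} {P : CTree} {ι : Type}

/-- weight in particle coordinates -/
def qT (Φ : Space3 → ℝ) (f₀ : PhasePoint → ℝ) (ε T : ℝ) (x : Space3) (z : PhasePoint × Par P) :
    ℝ≥0∞ :=
  vw Φ ε P T z * ∏ j, ENNReal.ofReal (f₀ ((linesM Φ ε P z.1 z.2 j).1 + x,
    (linesM Φ ε P z.1 z.2 j).2))

theorem measurable_qT (hΦ : AdmissiblePotential Φ) (hf : Measurable f₀) (ε T : ℝ) (x : Space3) :
    Measurable (qT Φ f₀ ε T x : PhasePoint × Par P → ℝ≥0∞) := by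
  have hlin : Measurable fun z : PhasePoint × Par P => linesM Φ ε P z.1 z.2 :=
    measurable_linesM hΦ ε P
  have hj : ∀ j, Measurable fun z : PhasePoint × Par P => linesM Φ ε P z.1 z.2 j := fun j =>
    (measurable_pi_apply j).comp hlin
  unfold qT
  refine (measurable_vw hΦ ε P T).mul (Finset.measurable_prod _ fun j _ => ?_)
  have h1 : Measurable fun z : PhasePoint × Par P =>
      (((linesM Φ ε P z.1 z.2 j).1 + x, (linesM Φ ε P z.1 z.2 j).2) : PhasePoint) :=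
    ((hj j).fst.add_const x).prodMk (hj j).snd
  exact (hf.comp h1).ennreal_ofReal

theorem qT_of_valid {σ : ℝ} (hσ : σ ≤ T) {z : PhasePoint × Par P}
    (hV : Valid Φ ε P σ z.1.2 z.2) (x : Space3) : qT Φ f₀ ε T x z =
      wt Φ P z.1.2 z.2 * ∏ j, ENNReal.ofReal (f₀ (lines Φ ε P (z.1.1 + x, z.1.2) z.2 j)) := by
  unfold qT
  rw [vw_of_valid ((valid_iff_top hσ).1 hV).1, linesM_of_adm ε hV.1]
  congr 1
  refine Finset.prod_congr rfl fun j _ => ?_
  rw [lines_add]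

theorem qT_of_not_valid {z : PhasePoint × Par P} (hV : ¬ Valid Φ ε P T z.1.2 z.2) (x : Space3) :
    qT Φ f₀ ε T x z = 0 := by
  unfold qT
  rw [vw_of_not_valid hV, zero_mul]

/-- first good hits with the weight `qT` -/
theorem Hgh_qT (hΦ : AdmissiblePotential Φ) (hε : 0 < ε) (htT : t ≤ T) (S : Tubes ι)
    (x : Space3) :
    Hgh Φ f₀ ε P (S.shift x) tw t = activity ε * ∫⁻ z : PhasePoint × Par P,
      hI Φ ε S tw t (fun σ z => uTM Φ f₀ ε T S P ((σ, z), x)) z * qT Φ f₀ ε T x z := by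
  rw [Hgh_eq hΦ hε]
  congr 1
  refine lintegral_congr fun z => ?_
  unfold hI
  by_cases h : sigHit Φ ε P S z ∈ Ico tw t ∧ 0 < sigHit Φ ε P S z ∧
        FirstAt Φ ε P S z (sigHit Φ ε P S z)
  · rw [if_pos h, if_pos h]
    have hσ : sigHit Φ ε P S z ≤ T := h.1.2.le.trans htT
    have e1 := uTM_eq (f₀ := f₀) (ε := ε) (S := S) hσ h.2.2.valid.1 x
    simp only [e1]
    rw [qT_of_valid hσ h.2.2.valid x]
    have e : ∀ j, lines Φ ε P (z.1.1 + x, z.1.2) z.2 j =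
      ((lines Φ ε P z.1 z.2 j).1 + x, (lines Φ ε P z.1 z.2 j).2) := fun j => lines_add ε P z.1 z.2 j x
    simp only [e]
    ring
  · rw [if_neg h, if_neg h, zero_mul]

/-- the child family in our notation -/
theorem uG_childT (Sk S : Tubes ι) (i : ι) (θ : HPar P) (x : Space3) :
    uG Φ f₀ ε ((childT Φ ε Sk S i θ).shift x) θ.1 =
      uT Φ f₀ ε Sk P θ.1 (eL ε Sk S i θ, θ.2.2.2) x := rfl

section fixed

variable {Sk S : Tubes ι} {J : Finset (ℝ × ℝ)} {F : Finset ℝ} {η : ℝ}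
  {K : Finset ((ℝ × ℝ) × ι)} {V : (ℝ × ℝ) × ι → Space3}

/-- the density of the entrances is the density of the hits -/
theorem dA_eq (htT : t ≤ T) (hSk : Subdiv tw t Sk J F η K V (cA V Sk))
    {C' : (ℝ × ℝ) × ι → Space3} (hS : Subdiv tw t S J F η K V C')
    (hV : ∀ a ∈ K, ∀ u ∈ Ioo a.1.1 a.1.2, deriv (S.c a.2) u = V a) {a : (ℝ × ℝ) × ι}
    (ha : a ∈ K) (G : ℝ → PhasePoint × Par P → ℝ≥0∞) (x : Space3) (θ : HPar P) :
    dA Φ ε Sk P V (cA V Sk) a (fun s z => G s z * qT Φ f₀ ε T x z) θ =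
      if θ.1 ∈ Ioo a.1.1 a.1.2 then
        wE Φ f₀ ε tw t Sk S a.2 θ x * G θ.1 (eL ε Sk S a.2 θ, θ.2.2.2) else 0 := by
  unfold dA
  by_cases hs : θ.1 ∈ Ioo a.1.1 a.1.2
  · rw [if_pos hs]
    have hind : ∀ z0 : HPar P → PhasePoint × Par P,
        z0 θ = (eL ε Sk S a.2 θ, θ.2.2.2) →
        {θ : HPar P | ‖θ.2.2.1‖ < 1}.indicator (fun θ => ENNReal.ofReal ‖θ.2.1 - V a‖ *
          (FA Φ ε Sk P a).indicator (fun q => G q.1 q.2 * qT Φ f₀ ε T x q.2) (θ.1, z0 θ)) θ =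
        if ‖θ.2.2.1‖ < 1 then ENNReal.ofReal ‖θ.2.1 - V a‖ *
          (FA Φ ε Sk P a).indicator (fun q => G q.1 q.2 * qT Φ f₀ ε T x q.2)
            (θ.1, (eL ε Sk S a.2 θ, θ.2.2.2)) else 0 := by
      intro z0 hz0
      by_cases hy : ‖θ.2.2.1‖ < 1
      · rw [indicator_of_mem (show θ ∈ {θ : HPar P | ‖θ.2.2.1‖ < 1} from hy), if_pos hy, hz0]
      · rw [indicator_of_notMem (show θ ∉ {θ : HPar P | ‖θ.2.2.1‖ < 1} from hy), if_neg hy]
    have hst := hSk.sub a.1 (hSk.memK a ha) hs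
    have hb : θ.1 < S.b a.2 := (hS.act a ha θ.1 hs).1
    have hc : cA V Sk a + θ.1 • V a = Sk.c a.2 θ.1 := ((hSk.act a ha θ.1 hs).2).symm
    have hVa : V a = deriv (S.c a.2) θ.1 := (hV a ha θ.1 hs).symm
    have hel : rootL ε (Sk.c a.2 θ.1) (V a) θ.1 θ.2.1 θ.2.2.1 = eL ε Sk S a.2 θ := by
      unfold eL
      rw [hVa]
    refine (hind (fun θ => (rootL ε (cA V Sk a + θ.1 • V a) (V a) θ.1 θ.2.1 θ.2.2.1, θ.2.2.2))
      (by simp only [hc, hel])).trans ?_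
    rw [hVa]
    unfold wE
    by_cases hy : ‖θ.2.2.1‖ < 1
    · rw [if_pos hy]
      by_cases hF : FirstAt Φ ε P Sk (eL ε Sk S a.2 θ, θ.2.2.2) θ.1
      · rw [if_pos ⟨hst.1, hst.2, hb, hy, hF⟩,
          indicator_of_mem (show (θ.1, (eL ε Sk S a.2 θ, θ.2.2.2)) ∈ FA Φ ε Sk P a from ⟨hs, hF⟩)]
        have hq := qT_of_valid (f₀ := f₀) (z := (eL ε Sk S a.2 θ, θ.2.2.2))
          (hst.2.le.trans htT) hF.valid x
        simp only at hq
        rw [hq]
        have e2 : (eL ε Sk S a.2 θ).2 = θ.2.1 := rfl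
        rw [e2]
        ring
      · rw [if_neg (fun h => hF h.2.2.2.2),
          indicator_of_notMem (show (θ.1, (eL ε Sk S a.2 θ, θ.2.2.2)) ∉ FA Φ ε Sk P a from
            fun h => hF h.2), mul_zero, zero_mul]
    · rw [if_neg hy, if_neg (fun h => hy h.2.2.2.1), zero_mul]
  · rw [if_neg hs]
    by_cases hy : ‖θ.2.2.1‖ < 1
    · rw [indicator_of_mem (show θ ∈ {θ : HPar P | ‖θ.2.2.1‖ < 1} from hy),
        indicator_of_notMem (fun h => hs h.1), mul_zero]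
    · rw [indicator_of_notMem (show θ ∉ {θ : HPar P | ‖θ.2.2.1‖ < 1} from hy)]

/-- double touches -/
theorem dD_le (htT : t ≤ T) (hSk : Subdiv tw t Sk J F η K V (cA V Sk))
    {C' : (ℝ × ℝ) × ι → Space3} (hS : Subdiv tw t S J F η K V C')
    (hV : ∀ a ∈ K, ∀ u ∈ Ioo a.1.1 a.1.2, deriv (S.c a.2) u = V a) {a : (ℝ × ℝ) × ι}
    (ha : a ∈ K) (x : Space3) (θ : HPar P) :
    dA Φ ε Sk P V (cA V Sk) a
      (fun s z => if DA ε K V (cA V Sk) a s z.1 then qT Φ f₀ ε T x z else 0) θ ≤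
      if Touch ε Sk S a.2 θ then wE Φ f₀ ε tw t Sk S a.2 θ x else 0 := by
  have h1 : (fun (s : ℝ) (z : PhasePoint × Par P) =>
      if DA ε K V (cA V Sk) a s z.1 then qT Φ f₀ ε T x z else 0) =
      fun s z => (if DA ε K V (cA V Sk) a s z.1 then 1 else 0) * qT Φ f₀ ε T x z := by
    funext s z
    split_ifs <;> simp
  rw [h1, dA_eq htT hSk hS hV ha]
  by_cases hs : θ.1 ∈ Ioo a.1.1 a.1.2
  · rw [if_pos hs]
    by_cases hD : DA ε K V (cA V Sk) a θ.1 (eL ε Sk S a.2 θ, θ.2.2.2).1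
    · have hT : Touch ε Sk S a.2 θ := by
        obtain ⟨i', hi', hK, hd⟩ := hD
        have h2 := hSk.act (a.1, i') hK θ.1 hs
        refine ⟨i', hi', h2.1.le, ?_⟩
        rw [h2.2]
        exact hd
      rw [if_pos hD, if_pos hT, mul_one]
    · rw [if_neg hD, mul_zero]
      exact bot_le
  · rw [if_neg hs]
    exact bot_le

/-- sum over the active pairs at a time of a good interval -/
theorem sum_active [Fintype ι] {C' : (ℝ × ℝ) × ι → Space3} (hS : Subdiv tw t S J F η K V C')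
    {j : ℝ × ℝ} (hj : j ∈ J) {s : ℝ} (hs : s ∈ Ioo j.1 j.2) (X : ι → ℝ≥0∞) :
    (∑ a ∈ K, if s ∈ Ioo a.1.1 a.1.2 then X a.2 else 0) =
      ∑ i, if (j, i) ∈ K then X i else 0 := by
  have h1 : ∀ a ∈ K, (if s ∈ Ioo a.1.1 a.1.2 then X a.2 else 0) =
      if a.1 = j then X a.2 else 0 := by
    intro a ha
    by_cases h : a.1 = j
    · rw [if_pos h, if_pos (by rw [h]; exact hs)]
    · rw [if_neg h, if_neg (fun h2 => h (hS.disj _ (hS.memK a ha) _ hj s h2 hs))]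
  rw [Finset.sum_congr rfl h1, ← Finset.sum_filter, ← Finset.sum_filter]
  refine Finset.sum_nbij' (fun a => a.2) (fun i => (j, i)) ?_ ?_ ?_ ?_ ?_
  · intro a ha
    rw [Finset.mem_filter] at ha
    simp only [Finset.mem_filter, Finset.mem_univ, true_and]
    have : (j, a.2) = a := by rw [← ha.2]
    rw [this]
    exact ha.1
  · intro i hi
    rw [Finset.mem_filter] at hi
    rw [Finset.mem_filter]
    exact ⟨hi.2, rfl⟩
  · intro a ha
    rw [Finset.mem_filter] at ha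
    show (j, a.2) = a
    rw [← ha.2]
  · intro i _
    rfl
  · intro a _
    rfl

theorem absd_mul_right_le (a b c : ℝ≥0∞) (hc : c ≤ 1) : absd (a * c) (b * c) ≤ absd a b := by
  rw [mul_comm a, mul_comm b]
  refine (absd_mul_le c a b).trans ?_
  calc c * absd a b ≤ 1 * absd a b := mul_le_mul' hc le_rfl
    _ = absd a b := one_mul _

/-- comparison of the entrance densities with the limiting weights -/
theorem absd_dens_le [Fintype ι] (htT : t ≤ T) (hSk : Subdiv tw t Sk J F η K V (cA V Sk))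
    {C' : (ℝ × ℝ) × ι → Space3} (hS : Subdiv tw t S J F η K V C')
    (hV : ∀ a ∈ K, ∀ u ∈ Ioo a.1.1 a.1.2, deriv (S.c a.2) u = V a)
    {G : ℝ → PhasePoint × Par P → ℝ≥0∞} (hG : ∀ s z, G s z ≤ 1) (x : Space3) (θ : HPar P) :
    absd (∑ a ∈ K, dA Φ ε Sk P V (cA V Sk) a (fun s z => G s z * qT Φ f₀ ε T x z) θ)
      (∑ i, wgt Φ f₀ tw t S i θ x * G θ.1 (eL ε Sk S i θ, θ.2.2.2)) ≤
      ∑ i, (absd (wE Φ f₀ ε tw t Sk S i θ x) (wgt Φ f₀ tw t S i θ x) +
        if ∃ f ∈ F, |θ.1 - f| ≤ η then wgt Φ f₀ tw t S i θ x else 0) := by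
  rw [Finset.sum_congr rfl fun a ha => dA_eq htT hSk hS hV ha G x θ]
  by_cases hj : ∃ j ∈ J, θ.1 ∈ Ioo j.1 j.2
  · obtain ⟨j, hj, hs⟩ := hj
    rw [sum_active hS hj hs (fun i => wE Φ f₀ ε tw t Sk S i θ x * G θ.1 (eL ε Sk S i θ, θ.2.2.2))]
    refine (absd_sum_le _ _ _).trans (Finset.sum_le_sum fun i _ => ?_)
    by_cases hi : (j, i) ∈ K
    · rw [if_pos hi]
      exact (absd_mul_right_le _ _ _ (hG _ _)).trans (le_add_right le_rfl)
    · rw [if_neg hi]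
      have hw : wgt Φ f₀ tw t S i θ x = 0 := by
        unfold wgt
        rw [if_neg]
        intro h
        exact absurd (hS.inact j hj i hi θ.1 hs) (not_lt.2 h.2.1.le)
      rw [hw, zero_mul]
      simp
  · have h0 : (∑ a ∈ K, if θ.1 ∈ Ioo a.1.1 a.1.2 then
        wE Φ f₀ ε tw t Sk S a.2 θ x * G θ.1 (eL ε Sk S a.2 θ, θ.2.2.2) else 0) = 0 := by
      refine Finset.sum_eq_zero fun a ha => ?_
      rw [if_neg]
      exact fun h => hj ⟨a.1, hS.memK a ha, h⟩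
    rw [h0, absd_eq_tsub' (show (0 : ℝ≥0∞) ≤ _ from bot_le)]
    refine tsub_le_self.trans (Finset.sum_le_sum fun i _ => ?_)
    refine le_add_left ?_
    by_cases hF : ∃ f ∈ F, |θ.1 - f| ≤ η
    · rw [if_pos hF]
      calc wgt Φ f₀ tw t S i θ x * G θ.1 (eL ε Sk S i θ, θ.2.2.2)
          ≤ wgt Φ f₀ tw t S i θ x * 1 := mul_le_mul' le_rfl (hG _ _)
        _ = _ := mul_one _
    · have hw : wgt Φ f₀ tw t S i θ x = 0 := by
        unfold wgt
        rw [if_neg]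
        intro h
        rcases hS.cov θ.1 ⟨h.1.1.le, h.1.2⟩ with h1 | h1
        · exact hj h1
        · exact hF h1
      rw [hw, zero_mul]
      exact bot_le

end fixed

/-! ### The limiting weight near the bad times -/

theorem norm_deriv_le {c : ℝ → Space3} {M : ℝ≥0} (hc : LipschitzOnWith M c (Icc 0 T)) {s : ℝ}
    (hs : s ∈ Ioo 0 T) : ‖deriv c s‖ ≤ M := by
  refine norm_deriv_le_of_lip' M.2 ?_
  filter_upwards [Ioo_mem_nhds hs.1 hs.2] with u hu
  have h1 := hc.dist_le_mul u (Ioo_subset_Icc_self hu) s (Ioo_subset_Icc_self hs)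
  rwa [dist_eq_norm, dist_eq_norm] at h1

theorem wgt_le {C b : ℝ} (hC : 0 ≤ C)
    (hdom : ∀ (ε T T' : ℝ) (ℓ : PhasePoint) (p : Par P), 0 ≤ ε → T' ≤ T →
      Valid Φ ε P T' ℓ.2 p →
      wt Φ P ℓ.2 p * ∏ i, ENNReal.ofReal (f₀ (lines Φ ε P ℓ p i)) ≤ domG C b T P ℓ.2 p)
    (htw : 0 ≤ tw) (htT : t ≤ T) {S : Tubes ι} {M : ℝ≥0} {i : ι}
    (hS : LipschitzOnWith M (S.c i) (Icc 0 T)) {θ : HPar P} (hθ : θ.1 ≠ T) (x : Space3)
    (A : Set ℝ) (hA : θ.1 ∈ A) : wgt Φ f₀ tw t S i θ x ≤ majH C b T M P A θ := by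
  unfold wgt
  split_ifs with h
  · have hs : θ.1 ∈ Ioo 0 T :=
      ⟨htw.trans_lt h.1.1, lt_of_le_of_ne (h.1.2.trans htT) hθ⟩
    have h1 := hdom 0 T θ.1 (S.c i θ.1 + x - θ.1 • θ.2.1, θ.2.1) θ.2.2.2 le_rfl hs.2.le h.2.2.2
    have h2 : ‖θ.2.1 - deriv (S.c i) θ.1‖ ≤ ‖θ.2.1‖ + M :=
      (norm_sub_le _ _).trans (add_le_add le_rfl (norm_deriv_le hS hs))
    unfold majH
    rw [indicator_of_mem hA, indicator_of_mem (show θ.2.2.1 ∈ Metric.ball (0 : Plane) 1 by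
      simpa using h.2.2.1)]
    rw [domG_eq hC] at h1
    calc ENNReal.ofReal ‖θ.2.1 - deriv (S.c i) θ.1‖ * (wt Φ P θ.2.1 θ.2.2.2 *
          ∏ j, ENNReal.ofReal (f₀ (lines Φ 0 P (S.c i θ.1 + x - θ.1 • θ.2.1, θ.2.1) θ.2.2.2 j)))
        ≤ ENNReal.ofReal (‖θ.2.1‖ + M) * (ENNReal.ofReal (C * Real.exp (-b * ‖θ.2.1‖ ^ 2)) *
          domP b T P θ.2.2.2) := mul_le_mul' (ENNReal.ofReal_le_ofReal h2) h1
      _ = _ := by
          unfold gv
          simp only [Pi.one_apply]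
          ring
  · exact bot_le

/-- measurability in the parameters of a hit -/
theorem measurable_wgtU [Countable ι] (hΦ : AdmissiblePotential Φ) (hε : 0 < ε)
    (hf : Measurable f₀) (htw : 0 ≤ tw) (htT : t ≤ T) (hT : 0 ≤ T) {Sk S : Tubes ι}
    (hSk : ∀ i, ContinuousOn (Sk.c i) (Icc 0 T)) (hS : ∀ i, ContinuousOn (S.c i) (Icc 0 T))
    (i : ι) (x : Space3) : Measurable fun θ : HPar P => wgt Φ f₀ tw t S i θ x *
      uTM Φ f₀ ε T Sk P ((θ.1, (eL ε Sk S i θ, θ.2.2.2)), x) := by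
  obtain ⟨c, hc, hcS⟩ := exists_frozen hT hSk
  have hel : Measurable fun θ : HPar P =>
      rootL ε (c i θ.1) (deriv (S.c i) θ.1) θ.1 θ.2.1 θ.2.2.1 :=
    measurable_rootL ε ((hc i).measurable.comp measurable_fst)
      ((measurable_deriv (S.c i)).comp measurable_fst) measurable_fst measurable_snd.fst
      measurable_snd.snd.fst
  have h1 : Measurable fun θ : HPar P => wgt Φ f₀ tw t S i θ x :=
    (measurable_wgt hΦ hf htw htT hT hS i).comp (measurable_id.prodMk measurable_const)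
  have h2 : Measurable fun θ : HPar P => uTM Φ f₀ ε T Sk P
      ((θ.1, (rootL ε (c i θ.1) (deriv (S.c i) θ.1) θ.1 θ.2.1 θ.2.2.1, θ.2.2.2)), x) :=
    (measurable_uTM (P := P) hf hΦ hε hT hSk).comp
      ((measurable_fst.prodMk (hel.prodMk measurable_snd.snd.snd)).prodMk measurable_const)
  have e : (fun θ : HPar P => wgt Φ f₀ tw t S i θ x *
      uTM Φ f₀ ε T Sk P ((θ.1, (eL ε Sk S i θ, θ.2.2.2)), x)) = fun θ =>
      wgt Φ f₀ tw t S i θ x * uTM Φ f₀ ε T Sk P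
      ((θ.1, (rootL ε (c i θ.1) (deriv (S.c i) θ.1) θ.1 θ.2.1 θ.2.2.1, θ.2.2.2)), x) := by
    funext θ
    by_cases h : HGood Φ tw t S i θ
    · unfold eL
      rw [hcS i θ.1 ⟨htw.trans h.1.1.le, h.1.2.trans htT⟩]
    · have : wgt Φ f₀ tw t S i θ x = 0 := by
        unfold wgt
        rw [if_neg h]
      rw [this, zero_mul, zero_mul]
  rw [e]
  exact h1.mul h2

/-- majorant of the flux error at translation `x` -/
def mF (Φ : Space3 → ℝ) (f₀ : PhasePoint → ℝ) (ε tw t : ℝ) [Fintype ι] (Sk S : Tubes ι)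
    (P : CTree) (n : ℕ) (c : ℝ≥0∞) (x : Space3) : ℝ≥0∞ :=
  c + n * (∑ i, ∫⁻ θ : HPar P, if Touch ε Sk S i θ then wE Φ f₀ ε tw t Sk S i θ x else 0) +
    ∑ i, ∫⁻ θ : HPar P, absd (wE Φ f₀ ε tw t Sk S i θ x) (wgt Φ f₀ tw t S i θ x)

theorem measurable_mF [Fintype ι] (hΦ : AdmissiblePotential Φ) (hε : 0 < ε)
    (hf : Measurable f₀) (htw : 0 ≤ tw) (htT : t ≤ T) (hT : 0 ≤ T) {Sk S : Tubes ι}
    (hSk : ∀ i, ContinuousOn (Sk.c i) (Icc 0 T)) (hS : ∀ i, ContinuousOn (S.c i) (Icc 0 T))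
    (P : CTree) (n : ℕ) (c : ℝ≥0∞) : Measurable (mF Φ f₀ ε tw t Sk S P n c) := by
  unfold mF
  refine (measurable_const.add (measurable_const.mul ?_)).add ?_
  · refine Finset.measurable_sum _ fun i _ => ?_
    exact (measurable_touch (P := P) (S := S) hΦ hε hf htw htT hT hSk i).lintegral_prod_left'
  · refine Finset.measurable_sum _ fun i _ => ?_
    exact (measurable_absd (measurable_wE (P := P) (S := S) hΦ hε hf htw htT hT hSk i)
      (measurable_wgt (P := P) hΦ hf htw htT hT hS i)).lintegral_prod_left'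

end Crest.Agent.R122.Tube818
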