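import Crest.Agent.R122.Tube8_818

/-!
Row 122, block FT (helper818), part 9: **the flux limit (I2)**.

`flux_majorant` : for every tree shape `P`, the mass of the first good hits of the translated family
and the gain term of helper383 are close, with a measurable majorant.
-/

set_option autoImplicit false
set_option maxHeartbeats 400000

open MeasureTheory Set Filter
open Crest.AnalysisR.Kinetic
open scoped ENNReal Classical Topology NNReal

noncomputable section

namespace Crest.Agent.R122.Tube818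

open Disc416 Flux663 Tree674 Kin796 Kin796.CTree TreeEps399 GIV566 GIVStep383 Hid424
open Causal291 IStep317 GC311 Quench815 TreeDom974

variable {Φ : Space3 → ℝ} {f₀ : PhasePoint → ℝ} {ε tw t T : ℝ} {P : CTree} {ι : Type}

section fixed

variable {Sk S : Tubes ι} {J : Finset (ℝ × ℝ)} {F : Finset ℝ} {η : ℝ}
  {K : Finset ((ℝ × ℝ) × ι)} {V C' : (ℝ × ℝ) × ι → Space3}

theorem measurable_dA [Countable ι] (hΦ : AdmissiblePotential Φ) (hε : 0 < ε) (htw : 0 ≤ tw)
    (htwt : tw ≤ t) (htT : t ≤ T) (hS : ∀ i, ContinuousOn (Sk.c i) (Icc 0 T))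
    (h : Subdiv tw t Sk J F η K V C') {a : (ℝ × ℝ) × ι} (ha : a ∈ K)
    {G : ℝ → PhasePoint × Par P → ℝ≥0∞} (hG : Measurable (Function.uncurry G)) :
    Measurable (dA Φ ε Sk P V C' a G) := by
  have hFA := measurableSet_FA (P := P) hΦ hε htw htwt htT hS h ha
  have hel : Measurable fun θ : HPar P =>
      rootL ε (C' a + θ.1 • V a) (V a) θ.1 θ.2.1 θ.2.2.1 :=
    measurable_rootL ε (measurable_const.add (measurable_fst.smul measurable_const))
      measurable_const measurable_fst measurable_snd.fst measurable_snd.snd.fst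
  have hz : Measurable fun θ : HPar P =>
      ((θ.1, (rootL ε (C' a + θ.1 • V a) (V a) θ.1 θ.2.1 θ.2.2.1, θ.2.2.2)) :
        ℝ × (PhasePoint × Par P)) := measurable_fst.prodMk (hel.prodMk measurable_snd.snd.snd)
  have h1 : Measurable ((FA Φ ε Sk P a).indicator (fun q => G q.1 q.2)) := by
    have e : (FA Φ ε Sk P a).indicator (fun q => G q.1 q.2) =
        (FA Φ ε Sk P a).indicator (Function.uncurry G) := rfl
    rw [e]
    exact hG.indicator hFA
  unfold dA
  refine Measurable.indicator ?_ (measurableSet_lt measurable_snd.snd.fst.norm measurable_const)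
  exact (measurable_snd.fst.sub_const (V a)).norm.ennreal_ofReal.mul (h1.comp hz)

/-- volume of the neighbourhood of the bad times -/
theorem volume_near_le (F : Finset ℝ) (η : ℝ) :
    volume (⋃ f ∈ F, Icc (f - η) (f + η)) ≤ F.card * ENNReal.ofReal (2 * η) := by
  refine (measure_biUnion_finset_le _ _).trans ?_
  have h1 : ∀ f : ℝ, f + η - (f - η) = 2 * η := fun f => by ring
  simp only [Real.volume_Icc, h1, Finset.sum_const, nsmul_eq_mul]
  exact le_rfl

/-- the limiting weight near the bad times -/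
theorem lintegral_near_le {C b : ℝ} (hC : 0 ≤ C)
    (hdom : ∀ (ε T T' : ℝ) (ℓ : PhasePoint) (p : Par P), 0 ≤ ε → T' ≤ T →
      Valid Φ ε P T' ℓ.2 p →
      wt Φ P ℓ.2 p * ∏ i, ENNReal.ofReal (f₀ (lines Φ ε P ℓ p i)) ≤ domG C b T P ℓ.2 p)
    (htw : 0 ≤ tw) (htT : t ≤ T) {S : Tubes ι} {M : ℝ≥0} {i : ι}
    (hS : LipschitzOnWith M (S.c i) (Icc 0 T)) (F : Finset ℝ) (η : ℝ) (x : Space3) :
    ∫⁻ θ : HPar P, (if ∃ f ∈ F, |θ.1 - f| ≤ η then wgt Φ f₀ tw t S i θ x else 0) ≤
      F.card * ENNReal.ofReal (2 * η) * (mom C b M * (volume (Metric.ball (0 : Plane) 1) *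
        ∫⁻ p : Par P, domP b T P p)) := by
  set A : Set ℝ := ⋃ f ∈ F, Icc (f - η) (f + η) with hA
  have hAm : MeasurableSet A := Finset.measurableSet_biUnion _ fun f _ => measurableSet_Icc
  calc ∫⁻ θ : HPar P, (if ∃ f ∈ F, |θ.1 - f| ≤ η then wgt Φ f₀ tw t S i θ x else 0)
      ≤ ∫⁻ θ : HPar P, majH C b T M P A θ := by
        refine lintegral_mono_ae ?_
        filter_upwards [FluxDCT491.ae_time_ne P T] with θ hθ
        split_ifs with h
        · refine wgt_le hC hdom htw htT hS hθ x A ?_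
          obtain ⟨f, hf, hd⟩ := h
          rw [hA]
          simp only [mem_iUnion, exists_prop]
          rw [abs_le] at hd
          exact ⟨f, hf, by linarith, by linarith⟩
        · exact bot_le
    _ = volume A * (mom C b M * (volume (Metric.ball (0 : Plane) 1) *
          ∫⁻ p : Par P, domP b T P p)) := lintegral_majH C b T M P hAm
    _ ≤ _ := mul_le_mul' (volume_near_le F η) le_rfl

/-- **Flux estimate for one `ε`.** -/
theorem flux_le [Fintype ι] (hΦ : AdmissiblePotential Φ) (hε : 0 < ε) (hf : Measurable f₀)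
    (h1 : ∫⁻ z, ENNReal.ofReal (f₀ z) ≤ 1) {C b : ℝ} (hC : 0 ≤ C)
    (hdom : ∀ (ε T T' : ℝ) (ℓ : PhasePoint) (p : Par P), 0 ≤ ε → T' ≤ T →
      Valid Φ ε P T' ℓ.2 p →
      wt Φ P ℓ.2 p * ∏ i, ENNReal.ofReal (f₀ (lines Φ ε P ℓ p i)) ≤ domG C b T P ℓ.2 p)
    (htw : 0 ≤ tw) (htwt : tw ≤ t) (htT : t ≤ T) {M : ℝ≥0}
    (hSkL : ∀ i, LipschitzOnWith M (Sk.c i) (Icc 0 T))
    (hSL : ∀ i, LipschitzOnWith M (S.c i) (Icc 0 T)) (hη : 0 < η)
    (hSk : Subdiv tw t Sk J F η K V (cA V Sk)) (hS : Subdiv tw t S J F η K V C')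
    (hV : ∀ a ∈ K, ∀ u ∈ Ioo a.1.1 a.1.2, deriv (S.c a.2) u = V a) (x : Space3) :
    absd (Hgh Φ f₀ ε P (Sk.shift x) tw t) (gain Φ f₀ ε tw t Sk S P x) ≤
      mF Φ f₀ ε tw t Sk S P K.card
        (ENNReal.ofReal (16 * (η + ε)) * (F.card * (Fintype.card ι *
          (Sweep815.c3 * mom C b (M + 1)) * ∫⁻ p : Par P, domP b T P p)) +
          Fintype.card ι * (F.card * ENNReal.ofReal (2 * η) * (mom C b M *
            (volume (Metric.ball (0 : Plane) 1) * ∫⁻ p : Par P, domP b T P p)))) x := by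
  have hT : 0 ≤ T := htw.trans (htwt.trans htT)
  have hSkc : ∀ i, ContinuousOn (Sk.c i) (Icc 0 T) := fun i => (hSkL i).continuousOn
  have hSc : ∀ i, ContinuousOn (S.c i) (Icc 0 T) := fun i => (hSL i).continuousOn
  set U : ℝ → PhasePoint × Par P → ℝ≥0∞ := fun σ z => uTM Φ f₀ ε T Sk P ((σ, z), x) with hU
  have hUm : Measurable (Function.uncurry U) :=
    (measurable_uTM (P := P) hf hΦ hε hT hSkc).comp (measurable_id.prodMk measurable_const)
  have hU1 : ∀ σ z, U σ z ≤ 1 := fun σ z => uTM_le_one hf h1 T Sk _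
  have hqm := measurable_qT (P := P) hΦ hf ε T x
  have hGm : Measurable (Function.uncurry fun (s : ℝ) (z : PhasePoint × Par P) =>
      U s z * qT Φ f₀ ε T x z) := hUm.mul (hqm.comp measurable_snd)
  -- domination of `qT`
  have hq : ∀ z : PhasePoint × Par P, qT Φ f₀ ε T x z ≤ domG C b T P z.1.2 z.2 := by
    intro z
    by_cases hVz : Valid Φ ε P T z.1.2 z.2
    · rw [qT_of_valid le_rfl hVz]
      exact hdom ε T T (z.1.1 + x, z.1.2) z.2 hε.le le_rfl hVz
    · rw [qT_of_not_valid hVz]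
      exact bot_le
  set A : ℝ≥0∞ := ∑ a ∈ K, ∫⁻ θ : HPar P,
    dA Φ ε Sk P V (cA V Sk) a (fun s z => U s z * qT Φ f₀ ε T x z) θ with hA
  -- hits against entrances
  have e1 : absd (Hgh Φ f₀ ε P (Sk.shift x) tw t) A ≤
      ENNReal.ofReal (16 * (η + ε)) * (F.card * (Fintype.card ι *
          (Sweep815.c3 * mom C b (M + 1)) * ∫⁻ p : Par P, domP b T P p)) +
      K.card * ∑ i, ∫⁻ θ : HPar P, if Touch ε Sk S i θ then wE Φ f₀ ε tw t Sk S i θ x else 0 := by
    rw [Hgh_qT hΦ hε htT]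
    refine (absd_hits_le hΦ hε htw htwt htT hSkc hSk hUm hU1 hqm).trans (add_le_add ?_ ?_)
    · exact bad_le hε hη.le hT hSkL hC F hq
    · calc ∑ a ∈ K, ∫⁻ θ : HPar P, dA Φ ε Sk P V (cA V Sk) a
            (fun s z => if DA ε K V (cA V Sk) a s z.1 then qT Φ f₀ ε T x z else 0) θ
          ≤ ∑ a ∈ K, ∑ i, ∫⁻ θ : HPar P,
              if Touch ε Sk S i θ then wE Φ f₀ ε tw t Sk S i θ x else 0 := by
            refine Finset.sum_le_sum fun a ha => ?_
            refine (lintegral_mono fun θ => dD_le htT hSk hS hV ha x θ).trans ?_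
            exact Finset.single_le_sum (f := fun i => ∫⁻ θ : HPar P,
              if Touch ε Sk S i θ then wE Φ f₀ ε tw t Sk S i θ x else 0)
              (fun _ _ => bot_le) (Finset.mem_univ a.2)
        _ = _ := by rw [Finset.sum_const, nsmul_eq_mul]
  -- entrances against the limiting weights
  have e2 : absd A (gain Φ f₀ ε tw t Sk S P x) ≤
      (∑ i, ∫⁻ θ : HPar P, absd (wE Φ f₀ ε tw t Sk S i θ x) (wgt Φ f₀ tw t S i θ x)) +
      Fintype.card ι * (F.card * ENNReal.ofReal (2 * η) * (mom C b M *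
            (volume (Metric.ball (0 : Plane) 1) * ∫⁻ p : Par P, domP b T P p))) := by
    have hAi : A = ∫⁻ θ : HPar P, ∑ a ∈ K,
        dA Φ ε Sk P V (cA V Sk) a (fun s z => U s z * qT Φ f₀ ε T x z) θ := by
      rw [lintegral_finsetSum' _ fun a ha =>
        (measurable_dA (P := P) hΦ hε htw htwt htT hSkc hSk ha hGm).aemeasurable]
    have hwm : ∀ i, Measurable fun θ : HPar P => wgt Φ f₀ tw t S i θ x *
        U θ.1 (eL ε Sk S i θ, θ.2.2.2) := fun i =>
      measurable_wgtU hΦ hε hf htw htT hT hSkc hSc i x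
    have hgi : gain Φ f₀ ε tw t Sk S P x = ∫⁻ θ : HPar P, ∑ i,
        wgt Φ f₀ tw t S i θ x * U θ.1 (eL ε Sk S i θ, θ.2.2.2) := by
      rw [lintegral_finsetSum _ fun i _ => hwm i]
      unfold gain
      refine Finset.sum_congr rfl fun i _ => lintegral_congr fun θ => ?_
      rw [uG_childT]
      by_cases h : HGood Φ tw t S i θ
      · congr 1
        exact (uTM_eq (z := (eL ε Sk S i θ, θ.2.2.2)) (h.1.2.trans htT) h.2.2.2.1 x).symm
      · have hw : wgt Φ f₀ tw t S i θ x = 0 := by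
          unfold wgt
          rw [if_neg h]
        rw [hw, zero_mul, zero_mul]
    have hm1 : Measurable fun θ : HPar P => ∑ a ∈ K,
        dA Φ ε Sk P V (cA V Sk) a (fun s z => U s z * qT Φ f₀ ε T x z) θ :=
      Finset.measurable_sum _ fun a ha =>
        measurable_dA (P := P) hΦ hε htw htwt htT hSkc hSk ha hGm
    have hm2 : Measurable fun θ : HPar P => ∑ i,
        wgt Φ f₀ tw t S i θ x * U θ.1 (eL ε Sk S i θ, θ.2.2.2) :=
      Finset.measurable_sum _ fun i _ => hwm i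
    have hm3 : ∀ i, Measurable fun θ : HPar P =>
        absd (wE Φ f₀ ε tw t Sk S i θ x) (wgt Φ f₀ tw t S i θ x) := fun i =>
      (measurable_absd (measurable_wE (P := P) (S := S) hΦ hε hf htw htT hT hSkc i)
        (measurable_wgt (P := P) hΦ hf htw htT hT hSc i)).comp
        (measurable_id.prodMk measurable_const)
    have hm4 : ∀ i, Measurable fun θ : HPar P =>
        (if ∃ f ∈ F, |θ.1 - f| ≤ η then wgt Φ f₀ tw t S i θ x else 0) := by
      intro i
      have hs : MeasurableSet {θ : HPar P | ∃ f ∈ F, |θ.1 - f| ≤ η} := by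
        have e : {θ : HPar P | ∃ f ∈ F, |θ.1 - f| ≤ η} =
            ⋃ f ∈ F, {θ : HPar P | |θ.1 - f| ≤ η} := by
          ext θ
          simp
        rw [e]
        refine Finset.measurableSet_biUnion _ fun f _ => ?_
        have h2 : Measurable fun θ : HPar P => |θ.1 - f| := by
          have h3 : Measurable fun θ : HPar P => ‖θ.1 - f‖ := (measurable_fst.sub_const f).norm
          simpa [Real.norm_eq_abs] using h3
        exact measurableSet_le h2 measurable_const
      exact Measurable.ite hs ((measurable_wgt (P := P) hΦ hf htw htT hT hSc i).comp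
        (measurable_id.prodMk measurable_const)) measurable_const
    rw [hAi, hgi]
    refine (absd_lintegral_le _ hm1 hm2).trans ?_
    calc ∫⁻ θ : HPar P, absd (∑ a ∈ K,
          dA Φ ε Sk P V (cA V Sk) a (fun s z => U s z * qT Φ f₀ ε T x z) θ)
          (∑ i, wgt Φ f₀ tw t S i θ x * U θ.1 (eL ε Sk S i θ, θ.2.2.2))
        ≤ ∫⁻ θ : HPar P, ∑ i, (absd (wE Φ f₀ ε tw t Sk S i θ x) (wgt Φ f₀ tw t S i θ x) +
            if ∃ f ∈ F, |θ.1 - f| ≤ η then wgt Φ f₀ tw t S i θ x else 0) :=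
          lintegral_mono fun θ => absd_dens_le htT hSk hS hV hU1 x θ
      _ = ∑ i, ((∫⁻ θ : HPar P, absd (wE Φ f₀ ε tw t Sk S i θ x) (wgt Φ f₀ tw t S i θ x)) +
            ∫⁻ θ : HPar P, if ∃ f ∈ F, |θ.1 - f| ≤ η then wgt Φ f₀ tw t S i θ x else 0) := by
          have hm34 : ∀ i, Measurable fun θ : HPar P =>
              absd (wE Φ f₀ ε tw t Sk S i θ x) (wgt Φ f₀ tw t S i θ x) +
              (if ∃ f ∈ F, |θ.1 - f| ≤ η then wgt Φ f₀ tw t S i θ x else 0) :=
            fun i => (hm3 i).add (hm4 i)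
          rw [lintegral_finsetSum _ fun i _ => hm34 i]
          refine Finset.sum_congr rfl fun i _ => ?_
          rw [lintegral_add_left (hm3 i)]
      _ ≤ (∑ i, ∫⁻ θ : HPar P, absd (wE Φ f₀ ε tw t Sk S i θ x) (wgt Φ f₀ tw t S i θ x)) +
            ∑ _i : ι, F.card * ENNReal.ofReal (2 * η) * (mom C b M *
              (volume (Metric.ball (0 : Plane) 1) * ∫⁻ p : Par P, domP b T P p)) := by
          rw [Finset.sum_add_distrib]
          refine add_le_add le_rfl (Finset.sum_le_sum fun i _ => ?_)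
          exact lintegral_near_le hC hdom htw htT (hSL i) F η x
      _ = _ := by rw [Finset.sum_const, Finset.card_univ, nsmul_eq_mul]
  refine (absd_triangle _ A _).trans ((add_le_add e1 e2).trans (le_of_eq ?_))
  unfold mF
  ring

end fixed

/-! ### The limit -/

theorem wE_eq_wH {Sk S : Tubes ι} {i : ι} {θ : HPar P} (hθ : θ.1 ≠ tw) (x : Space3) :
    wE Φ f₀ ε tw t Sk S i θ x = FluxDCT491.wH Φ f₀ ε tw t Sk S i θ x := by
  unfold wE FluxDCT491.wH FluxDCT491.GoodH eL
  have h1 : tw < θ.1 ↔ tw ≤ θ.1 := ⟨fun h => h.le, fun h => lt_of_le_of_ne h (Ne.symm hθ)⟩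
  by_cases h : tw < θ.1 ∧ θ.1 < t ∧ θ.1 < S.b i ∧ ‖θ.2.2.1‖ < 1 ∧
      FirstAt Φ ε P Sk (rootL ε (Sk.c i θ.1) (deriv (S.c i) θ.1) θ.1 θ.2.1 θ.2.2.1, θ.2.2.2) θ.1
  · rw [if_pos h, if_pos ⟨h.1.le, h.2⟩]
  · rw [if_neg h, if_neg (fun h2 => h ⟨h1.2 h2.1, h2.2⟩)]

/-- **The flux limit (I2)**, with a measurable majorant. -/
theorem flux_majorant [Fintype ι] {β T : ℝ} {f : ℝ → PhasePoint → ℝ}
    (hD : Master566.KData Φ β T f₀ f) {εk : ℕ → ℝ} (hε0 : ∀ n, 0 < εk n)
    (hlim : Tendsto εk atTop (𝓝 0)) {Sk : ℕ → Tubes ι} {S : Tubes ι} (hconv : TubeConv T Sk S)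
    (hgen : Generic T S) {tw t : ℝ} (htw : 0 ≤ tw) (htwt : tw ≤ t) (htT : t ≤ T) (P : CTree)
    (R : ℝ) {δ : ℝ} (hδ : 0 < δ) :
    ∀ᶠ k in atTop, ∃ m : Space3 → ℝ≥0∞, Measurable m ∧
      (∀ x, adiff (Hgh Φ f₀ (εk k) P ((Sk k).shift x) tw t)
        (gain Φ f₀ (εk k) tw t (Sk k) S P x) ≤ m x) ∧
      ∫⁻ x in Metric.closedBall (0 : Space3) R, m x ≤ ENNReal.ofReal δ := by
  have hΦ := hD.adm
  have hf : Measurable f₀ := hD.contDiff.continuous.measurable
  have h1 : ∫⁻ z, ENNReal.ofReal (f₀ z) ≤ 1 :=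
    (FM167.lintegral_density_eq_one hD.nonneg hD.integrable hD.mass).le
  have hβ := hD.beta_pos
  obtain ⟨C0, hC0, hk⟩ := FluxDCT491.exists_bound hD
  obtain ⟨C, hC, hdom⟩ := le_domG hΦ hC0 (show β < 2 * β by linarith) hk P
  obtain ⟨M, hlipk, hlip⟩ := hconv.lip
  obtain ⟨F, hF⟩ := exists_subdiv hconv htw htwt htT
  set B : Set Space3 := Metric.closedBall (0 : Space3) R with hB
  have hvB : volume B ≠ ∞ := (isCompact_closedBall _ _).measure_lt_top.ne
  have hdP : ∫⁻ p : Par P, domP β T P p ≠ ∞ := lintegral_domP_ne_top hβ T P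
  have hm1 : mom C β (M + 1) ≠ ∞ := mom_ne_top hC hβ (by positivity)
  have hm2 : mom C β M ≠ ∞ := mom_ne_top hC hβ M.2
  set c1 : ℝ≥0∞ := F.card * (Fintype.card ι *
    (Sweep815.c3 * mom C β (M + 1)) * ∫⁻ p : Par P, domP β T P p) with hc1
  set c2 : ℝ≥0∞ := Fintype.card ι * (F.card * (mom C β M *
    (volume (Metric.ball (0 : Plane) 1) * ∫⁻ p : Par P, domP β T P p))) with hc2
  have hc1t : c1 ≠ ∞ := by
    refine ENNReal.mul_ne_top (ENNReal.natCast_ne_top _) (ENNReal.mul_ne_top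
      (ENNReal.mul_ne_top (ENNReal.natCast_ne_top _) (ENNReal.mul_ne_top ?_ hm1)) hdP)
    unfold Sweep815.c3
    exact ENNReal.ofReal_ne_top
  have hc2t : c2 ≠ ∞ :=
    ENNReal.mul_ne_top (ENNReal.natCast_ne_top _) (ENNReal.mul_ne_top (ENNReal.natCast_ne_top _)
      (ENNReal.mul_ne_top hm2 (ENNReal.mul_ne_top measure_ball_lt_top.ne hdP)))
  -- choice of `η`
  set L : ℝ≥0∞ := (32 * c1 + 2 * c2) * volume B with hL
  have hLt : L ≠ ∞ := by
    refine ENNReal.mul_ne_top (ENNReal.add_ne_top.2 ⟨?_, ?_⟩) hvB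
    · exact ENNReal.mul_ne_top (by simp) hc1t
    · exact ENNReal.mul_ne_top (by simp) hc2t
  set η : ℝ := δ / 3 / (L.toReal + 1) with hη
  have hL0 : 0 ≤ L.toReal := ENNReal.toReal_nonneg
  have hη0 : 0 < η := by positivity
  have hηL : ENNReal.ofReal η * L ≤ ENNReal.ofReal (δ / 3) := by
    rw [← ENNReal.ofReal_toReal hLt, ← ENNReal.ofReal_mul hη0.le]
    refine ENNReal.ofReal_le_ofReal ?_
    rw [hη, div_mul_eq_mul_div, div_le_iff₀ (by positivity)]
    nlinarith
  obtain ⟨J, K, V, hS, hSk, hV⟩ := hF η hη0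
  -- the two limits
  have t1 : Tendsto (fun k => ∫⁻ x in B, (K.card : ℝ≥0∞) * ∑ i, ∫⁻ θ : HPar P,
      if Touch (εk k) (Sk k) S i θ then wE Φ f₀ (εk k) tw t (Sk k) S i θ x else 0) atTop
      (𝓝 0) := by
    have h2 : ∀ᶠ k in atTop, ∫⁻ x in B, (K.card : ℝ≥0∞) * ∑ i, ∫⁻ θ : HPar P,
        (if Touch (εk k) (Sk k) S i θ then wE Φ f₀ (εk k) tw t (Sk k) S i θ x else 0) =
        K.card * ∑ i, ∫⁻ x in B, ∫⁻ θ : HPar P, (if ∃ i', i' ≠ i ∧ θ.1 ≤ (Sk k).b i' ∧
          dist ((Sk k).c i' θ.1) (onLine (rootL (εk k) ((Sk k).c i θ.1) (deriv (S.c i) θ.1) θ.1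
          θ.2.1 θ.2.2.1) θ.1).1 ≤ εk k
          then FluxDCT491.wH Φ f₀ (εk k) tw t (Sk k) S i θ x else 0) := by
      filter_upwards [hlipk] with k hk
      have hSkc : ∀ i, ContinuousOn ((Sk k).c i) (Icc 0 T) := fun i => (hk i).continuousOn
      have hmt : ∀ i, Measurable fun x : Space3 => ∫⁻ θ : HPar P,
          (if Touch (εk k) (Sk k) S i θ then wE Φ f₀ (εk k) tw t (Sk k) S i θ x else 0) :=
        fun i => (measurable_touch (P := P) (S := S) hΦ (hε0 k) hf htw htT hD.T_pos.le hSkc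
          i).lintegral_prod_left'
      rw [lintegral_const_mul _ (Finset.measurable_sum _ fun i _ => hmt i),
        lintegral_finsetSum _ fun i _ => hmt i]
      congr 1
      refine Finset.sum_congr rfl fun i _ => lintegral_congr fun x => ?_
      refine lintegral_congr_ae ?_
      filter_upwards [FluxDCT491.ae_time_ne P tw] with θ hθ
      rw [wE_eq_wH hθ]
      by_cases hTo : Touch (εk k) (Sk k) S i θ
      · rw [if_pos hTo]
        exact (if_pos hTo).symm
      · rw [if_neg hTo]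
        exact (if_neg hTo).symm
    refine Tendsto.congr' (EventuallyEq.symm h2) ?_
    have h3 : Tendsto (fun k => (K.card : ℝ≥0∞) * ∑ i, ∫⁻ x in B, ∫⁻ θ : HPar P,
        (if ∃ i', i' ≠ i ∧ θ.1 ≤ (Sk k).b i' ∧
          dist ((Sk k).c i' θ.1) (onLine (rootL (εk k) ((Sk k).c i θ.1) (deriv (S.c i) θ.1) θ.1
          θ.2.1 θ.2.2.1) θ.1).1 ≤ εk k
          then FluxDCT491.wH Φ f₀ (εk k) tw t (Sk k) S i θ x else 0)) atTop
        (𝓝 ((K.card : ℝ≥0∞) * ∑ _i : ι, 0)) := by
      refine ENNReal.Tendsto.const_mul ?_ (Or.inr (ENNReal.natCast_ne_top _))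
      refine tendsto_finsetSum _ fun i _ => ?_
      exact FluxDCT491.tendsto_double hD hε0 hlim hconv hgen htw htT i P R
    simpa using h3
  have t2 : Tendsto (fun k => ∫⁻ x in B, ∑ i, ∫⁻ θ : HPar P,
      absd (wE Φ f₀ (εk k) tw t (Sk k) S i θ x) (wgt Φ f₀ tw t S i θ x)) atTop (𝓝 0) := by
    have h2 : ∀ᶠ k in atTop, ∫⁻ x in B, ∑ i, ∫⁻ θ : HPar P,
        absd (wE Φ f₀ (εk k) tw t (Sk k) S i θ x) (wgt Φ f₀ tw t S i θ x) =
        ∑ i, ∫⁻ x in B, ∫⁻ θ : HPar P,
          adiff (FluxDCT491.wH Φ f₀ (εk k) tw t (Sk k) S i θ x) (wgt Φ f₀ tw t S i θ x) := by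
      filter_upwards [hlipk] with k hk
      have hSkc : ∀ i, ContinuousOn ((Sk k).c i) (Icc 0 T) := fun i => (hk i).continuousOn
      have hmt : ∀ i, Measurable fun x : Space3 => ∫⁻ θ : HPar P,
          absd (wE Φ f₀ (εk k) tw t (Sk k) S i θ x) (wgt Φ f₀ tw t S i θ x) := fun i =>
        (measurable_absd (measurable_wE (P := P) (S := S) hΦ (hε0 k) hf htw htT hD.T_pos.le
          hSkc i) (measurable_wgt (P := P) hΦ hf htw htT hD.T_pos.le
          (fun i => (hlip i).continuousOn) i)).lintegral_prod_left'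
      rw [lintegral_finsetSum _ fun i _ => hmt i]
      refine Finset.sum_congr rfl fun i _ => lintegral_congr fun x => ?_
      refine lintegral_congr_ae ?_
      filter_upwards [FluxDCT491.ae_time_ne P tw] with θ hθ
      rw [wE_eq_wH hθ]
      rfl
    refine Tendsto.congr' (EventuallyEq.symm h2) ?_
    have h3 : Tendsto (fun k => ∑ i, ∫⁻ x in B, ∫⁻ θ : HPar P,
          adiff (FluxDCT491.wH Φ f₀ (εk k) tw t (Sk k) S i θ x) (wgt Φ f₀ tw t S i θ x)) atTop
        (𝓝 (∑ _i : ι, 0)) := by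
      refine tendsto_finsetSum _ fun i _ => ?_
      exact FluxDCT491.tendsto_wH hD hε0 hlim hconv hgen htw htT i P R
    simpa using h3
  have hδ3 : (0 : ℝ≥0∞) < ENNReal.ofReal (δ / 3) := by
    rw [ENNReal.ofReal_pos]
    positivity
  filter_upwards [hSk, hlipk, hlim.eventually (gt_mem_nhds hη0),
    t1.eventually (gt_mem_nhds hδ3), t2.eventually (gt_mem_nhds hδ3)] with k k1 k2 k3 k4 k5
  have hSkc : ∀ i, ContinuousOn ((Sk k).c i) (Icc 0 T) := fun i => (k2 i).continuousOn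
  set c : ℝ≥0∞ := ENNReal.ofReal (16 * (η + εk k)) * c1 +
    Fintype.card ι * (F.card * ENNReal.ofReal (2 * η) * (mom C β M *
      (volume (Metric.ball (0 : Plane) 1) * ∫⁻ p : Par P, domP β T P p))) with hc
  refine ⟨mF Φ f₀ (εk k) tw t (Sk k) S P K.card c, ?_, fun x => ?_, ?_⟩
  · exact measurable_mF hΦ (hε0 k) hf htw htT hD.T_pos.le hSkc
      (fun i => (hlip i).continuousOn) P _ _
  · exact flux_le hΦ (hε0 k) hf h1 hC hdom htw htwt htT k2 hlip hη0 k1 hS hV x
  · have hcle : c * volume B ≤ ENNReal.ofReal (δ / 3) := by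
      refine le_trans ?_ hηL
      rw [hL, ← mul_assoc]
      refine mul_le_mul' ?_ le_rfl
      have e1 : ENNReal.ofReal (16 * (η + εk k)) ≤ ENNReal.ofReal η * 32 := by
        have e3 : (32 : ℝ≥0∞) = ENNReal.ofReal 32 := by simp
        rw [e3, ← ENNReal.ofReal_mul hη0.le]
        exact ENNReal.ofReal_le_ofReal (by linarith)
      have e2 : ENNReal.ofReal (2 * η) = 2 * ENNReal.ofReal η := by
        rw [ENNReal.ofReal_mul (by norm_num)]
        simp
      rw [hc, hc2, e2]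
      calc ENNReal.ofReal (16 * (η + εk k)) * c1 + Fintype.card ι * (F.card *
            (2 * ENNReal.ofReal η) * (mom C β M *
            (volume (Metric.ball (0 : Plane) 1) * ∫⁻ p : Par P, domP β T P p)))
          ≤ ENNReal.ofReal η * 32 * c1 + Fintype.card ι * (F.card *
            (2 * ENNReal.ofReal η) * (mom C β M *
            (volume (Metric.ball (0 : Plane) 1) * ∫⁻ p : Par P, domP β T P p))) :=
            add_le_add (mul_le_mul' e1 le_rfl) le_rfl
        _ = _ := by ring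
    have hma : Measurable fun x : Space3 => (K.card : ℝ≥0∞) * ∑ i, ∫⁻ θ : HPar P,
        (if Touch (εk k) (Sk k) S i θ then wE Φ f₀ (εk k) tw t (Sk k) S i θ x else 0) :=
      measurable_const.mul (Finset.measurable_sum _ fun i _ =>
        (measurable_touch (P := P) (S := S) hΦ (hε0 k) hf htw htT hD.T_pos.le hSkc
          i).lintegral_prod_left')
    have hmb : Measurable fun x : Space3 => c + (K.card : ℝ≥0∞) * ∑ i, ∫⁻ θ : HPar P,
        (if Touch (εk k) (Sk k) S i θ then wE Φ f₀ (εk k) tw t (Sk k) S i θ x else 0) :=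
      measurable_const.add hma
    unfold mF
    rw [lintegral_add_left hmb, lintegral_add_left measurable_const, setLIntegral_const]
    have e4 : ENNReal.ofReal δ =
        ENNReal.ofReal (δ / 3) + ENNReal.ofReal (δ / 3) + ENNReal.ofReal (δ / 3) := by
      rw [← ENNReal.ofReal_add (by positivity) (by positivity),
        ← ENNReal.ofReal_add (by positivity) (by positivity)]
      congr 1
      ring
    rw [e4]
    exact add_le_add (add_le_add hcle k4.le) k5.le

/-- **The flux limit (I2).** -/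
theorem flux_limit [Fintype ι] {β T : ℝ} {f : ℝ → PhasePoint → ℝ}
    (hD : Master566.KData Φ β T f₀ f) {εk : ℕ → ℝ} (hε0 : ∀ n, 0 < εk n)
    (hlim : Tendsto εk atTop (𝓝 0)) {Sk : ℕ → Tubes ι} {S : Tubes ι} (hconv : TubeConv T Sk S)
    (hgen : Generic T S) {tw t : ℝ} (htw : 0 ≤ tw) (htwt : tw ≤ t) (htT : t ≤ T) (P : CTree)
    (R : ℝ) :
    Tendsto (fun k => ∫⁻ x in Metric.closedBall (0 : Space3) R,
      adiff (Hgh Φ f₀ (εk k) P ((Sk k).shift x) tw t)
        (gain Φ f₀ (εk k) tw t (Sk k) S P x)) atTop (𝓝 0) := by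
  rw [ENNReal.tendsto_nhds_zero]
  intro δ hδ
  rcases eq_or_ne δ ∞ with rfl | hδt
  · exact Eventually.of_forall fun k => le_top
  · have hδ' : 0 < δ.toReal := ENNReal.toReal_pos hδ.ne' hδt
    filter_upwards [flux_majorant hD hε0 hlim hconv hgen htw htwt htT P R hδ'] with k hk
    obtain ⟨m, -, hm, hi⟩ := hk
    rw [ENNReal.ofReal_toReal hδt] at hi
    exact (lintegral_mono fun x => hm x).trans hi

end Crest.Agent.R122.Tube818
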