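import Crest.Agent.R122.TubeChild1_491
import Crest.Agent.R122.GIVDefs_566

/-!
Row 122, block FT (helper491): children of a tube family, part 2 (null sets).

`a = (s, v, y)` are the glueing parameters, `p` the parameters of the tree; for almost every
`θ = (a, p)` the straight-line tree glued at `(s, x s)` with velocity `v` meets no line of a given
countable family, except at the glueing point.
-/

set_option autoImplicit false

open MeasureTheory Set Filter
open scoped ENNReal Topology Classical RealInnerProductSpace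
open Crest.AnalysisR.Kinetic

noncomputable section

namespace Crest.Agent.R122.TubeChild491

open Kin796 Kin796.CTree Disc416 Tree674 Boltz814 TreeEps399 Hid424 Generic491 GIV566

variable {Φ : Space3 → ℝ}

/-! ### Product null sets -/

/-- the root line through `x` at time `s` with velocity `v` meets `z` at another time, or
`v = z.2` -/
def BadRoot (x : ℝ → Space3) (z : PhasePoint) (a : NodeP) : Prop :=
  Hit ((a.2.1 - z.2, -(z.1 + a.1 • z.2 - x a.1)) : PhasePoint)

lemma measurableSet_badRoot {x : ℝ → Space3} (hx : Measurable x) (z : PhasePoint) :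
    MeasurableSet {a : NodeP | BadRoot x z a} := by
  have h1 : Measurable fun a : NodeP => (a.2.1 - z.2, -(z.1 + a.1 • z.2 - x a.1)) := by
    have hv : Measurable fun a : NodeP => a.2.1 := measurable_fst.comp measurable_snd
    have hs : Measurable fun a : NodeP => a.1 := measurable_fst
    exact (hv.sub_const _).prodMk ((((hs.smul_const z.2).const_add z.1).sub (hx.comp hs)).neg)
  exact h1 measurableSet_hit

lemma ae_not_badRoot {x : ℝ → Space3} (hx : Measurable x) (z : PhasePoint) :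
    ∀ᵐ a : NodeP, ¬ BadRoot x z a := by
  refine ae_prod_of_left (μ := (volume : Measure ℝ)) (ν := (volume : Measure (Space3 × Disc416.Plane)))
    (measurableSet_badRoot hx z).compl fun s => ?_
  have h : ∀ᵐ c : Space3 × Disc416.Plane, ∀ t : ℝ, c.1 ≠ z.2 + t • (z.1 + s • z.2 - x s) :=
    (Measure.quasiMeasurePreserving_fst (μ := (volume : Measure Space3))
      (ν := (volume : Measure Disc416.Plane))).ae (ae_not_line _ _)
  filter_upwards [h] with c hc
  rintro ⟨t, ht⟩
  apply hc t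
  simp only at ht
  have h1 : c.1 - z.2 = t • (z.1 + s • z.2 - x s) := by
    rw [smul_neg] at ht
    exact sub_eq_zero.1 (by rw [← ht]; abel)
  rw [← h1]; abel

lemma ne_of_not_badRoot {x : ℝ → Space3} {z : PhasePoint} {a : NodeP} (h : ¬ BadRoot x z a) :
    a.2.1 ≠ z.2 := by
  intro h0
  apply h
  exact ⟨0, by simp [h0]⟩

lemma meet_of_not_badRoot {x : ℝ → Space3} {z : PhasePoint} {a : NodeP} (h : ¬ BadRoot x z a)
    {u : ℝ} (hu : (onLine (x a.1 - a.1 • a.2.1, a.2.1) u).1 = (onLine z u).1) : u = a.1 := by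
  by_contra hne
  have hus : u - a.1 ≠ 0 := sub_ne_zero.2 hne
  apply h
  refine ⟨(u - a.1)⁻¹, ?_⟩
  simp only [onLine] at hu
  have h3 : (u - a.1) • (a.2.1 - z.2) = z.1 + a.1 • z.2 - x a.1 := by
    have : (u - a.1) • (a.2.1 - z.2) - (z.1 + a.1 • z.2 - x a.1) =
        (x a.1 - a.1 • a.2.1 + u • a.2.1) - (z.1 + u • z.2) := by module
    rw [← sub_eq_zero, this, hu, sub_self]
  simp only
  rw [← h3, smul_neg, smul_smul, inv_mul_cancel₀ hus, one_smul, add_neg_cancel]

/-- the boost to the rest frame of the root, as a map on `NodeP × Par P` -/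
def restMap (P : CTree) (θ : NodeP × Par P) : NodeP × Par P := (θ.1, boostP P (-θ.1.2.1) θ.2)

theorem measurePreserving_restMap (P : CTree) :
    MeasurePreserving (restMap P) ((volume : Measure NodeP).prod (volume : Measure (Par P)))
      ((volume : Measure NodeP).prod (volume : Measure (Par P))) := by
  refine MeasurePreserving.skew_product (f := id) (MeasurePreserving.id _)
    (g := fun (a : NodeP) (q : Par P) => boostP P (-a.2.1) q) ?_ ?_
  · exact (measurable_boostP P).comp (f := fun z : NodeP × Par P => (-z.1.2.1, z.2))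
      ((measurable_fst.comp (measurable_snd.comp measurable_fst)).neg.prodMk measurable_snd)
  · exact Filter.Eventually.of_forall fun a => (measurePreserving_boostP P _).map_eq

/-- **Avoidance, one line.** -/
theorem ae_theta_line (hΦ : AdmissiblePotential Φ) (P : CTree) {x : ℝ → Space3}
    (hx : Measurable x) (z : PhasePoint) :
    ∀ᵐ θ : NodeP × Par P, Adm Φ P θ.1.2.1 θ.2 → θ.1.2.1 ≠ z.2 ∧
      ∀ (j : Idx P) (u : ℝ),
        (path Φ 0 P (x θ.1.1 - θ.1.1 • θ.1.2.1, θ.1.2.1) θ.2 u j).1 = (onLine z u).1 →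
        u = θ.1.1 ∧ (onLine z θ.1.1).1 = x θ.1.1 := by
  have : Countable (Seg P) := Finite.to_countable
  have S := Scat818.scatFacts hΦ
  have hx1 : Measurable fun θ : NodeP × Par P => x θ.1.1 := hx.comp (measurable_fst.comp measurable_fst)
  have hs : Measurable fun θ : NodeP × Par P => θ.1.1 := measurable_fst.comp measurable_fst
  have hv : Measurable fun θ : NodeP × Par P => θ.1.2.1 :=
    measurable_fst.comp (measurable_snd.comp measurable_fst)
  -- rest frame
  have h1 : ∀ k : Seg P, ∀ᵐ θ ∂((volume : Measure NodeP).prod (volume : Measure (Par P))),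
      ¬ BadRoot x z θ.1 → ¬ StrM Φ P θ.2 k →
        ¬ Hit (segM Φ P θ.2 k - shL (-(x θ.1.1 - θ.1.1 • θ.1.2.1)) (-θ.1.2.1) z) := by
    intro k
    refine ae_prod_of_left ?_ fun a => ?_
    · have m1 : MeasurableSet {θ : NodeP × Par P | BadRoot x z θ.1} :=
        measurable_fst (measurableSet_badRoot hx z)
      have m2 : MeasurableSet {θ : NodeP × Par P | StrM Φ P θ.2 k} :=
        measurable_snd (measurableSet_strM S P k)
      have hsh : Measurable fun θ : NodeP × Par P =>
          shL (-(x θ.1.1 - θ.1.1 • θ.1.2.1)) (-θ.1.2.1) z :=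
        ((hx1.sub (hs.smul hv)).neg.const_add z.1).prodMk (hv.neg.const_add z.2)
      have m3 : MeasurableSet {θ : NodeP × Par P |
          Hit (segM Φ P θ.2 k - shL (-(x θ.1.1 - θ.1.1 • θ.1.2.1)) (-θ.1.2.1) z)} :=
        (((measurable_segM S P k).comp measurable_snd).sub hsh) measurableSet_hit
      have hset : {θ : NodeP × Par P | ¬ BadRoot x z θ.1 → ¬ StrM Φ P θ.2 k →
          ¬ Hit (segM Φ P θ.2 k - shL (-(x θ.1.1 - θ.1.1 • θ.1.2.1)) (-θ.1.2.1) z)} =
          {θ | BadRoot x z θ.1} ∪ ({θ | StrM Φ P θ.2 k} ∪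
            {θ | Hit (segM Φ P θ.2 k - shL (-(x θ.1.1 - θ.1.1 • θ.1.2.1)) (-θ.1.2.1) z)}ᶜ) := by
        ext θ; simp only [mem_ofPred_eq, mem_union, mem_compl_iff]; tauto
      rw [hset]
      exact m1.union (m2.union m3.compl)
    · by_cases hb : BadRoot x z a
      · exact Filter.Eventually.of_forall fun q h => absurd hb h
      · have hz : shL (-(x a.1 - a.1 • a.2.1)) (-a.2.1) z ≠ 0 := by
          refine shL_ne_zero ?_
          rw [neg_neg, neg_neg]
          intro h
          exact ne_of_not_badRoot hb (by rw [h])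
        filter_upwards [ae_segM_hit hΦ S P k hz] with q hq _
        exact hq
  have h2 := (measurePreserving_restMap P).quasiMeasurePreserving.ae (ae_all_iff.2 h1)
  have h3 := (Measure.quasiMeasurePreserving_fst (μ := (volume : Measure NodeP))
    (ν := (volume : Measure (Par P)))).ae (ae_not_badRoot hx z)
  have h4 : (volume : Measure (NodeP × Par P)) =
      (volume : Measure NodeP).prod (volume : Measure (Par P)) := rfl
  rw [h4]
  filter_upwards [h2, h3] with θ a2 a3 hA
  refine ⟨ne_of_not_badRoot a3, fun j u hu => ?_⟩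
  have hA1 : Adm Φ P 0 (boostP P (-θ.1.2.1) θ.2) := by
    have := (adm_boost (Φ := Φ) P (-θ.1.2.1) θ.1.2.1 θ.2).2 hA
    rwa [add_neg_cancel] at this
  have hstr : Str Φ P θ.1.2.1 θ.2 (legOf P θ.2 u j) := by
    by_contra hn
    have hn' : ¬ StrM Φ P (boostP P (-θ.1.2.1) θ.2) (legOf P θ.2 u j) := by
      rwa [← strM_iff P _ hA1, ← str_rest]
    apply a2 (legOf P θ.2 u j) a3 hn'
    show Hit (segM Φ P (boostP P (-θ.1.2.1) θ.2) (legOf P θ.2 u j) -
      shL (-(x θ.1.1 - θ.1.1 • θ.1.2.1)) (-θ.1.2.1) z)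
    rw [← segM_eq P _ hA1, ← hit_shL, ← seg_rest P
      ((x θ.1.1 - θ.1.1 • θ.1.2.1, θ.1.2.1) : PhasePoint) θ.2, hit_sub_iff]
    rw [path_eq_seg] at hu
    exact ⟨u, hu⟩
  have hpos := path_of_str P ((x θ.1.1 - θ.1.1 • θ.1.2.1, θ.1.2.1) : PhasePoint) θ.2 j u hstr
  rw [hpos] at hu
  have hus : u = θ.1.1 := meet_of_not_badRoot a3 hu
  refine ⟨hus, ?_⟩
  rw [hus] at hu
  rw [← hu]
  simp [onLine]

/-- **Avoidance, countable family of lines.** -/
theorem ae_theta (hΦ : AdmissiblePotential Φ) (P : CTree) {x : ℝ → Space3}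
    (hx : Measurable x) {A : Set PhasePoint} (hA : A.Countable) :
    ∀ᵐ θ : NodeP × Par P, Adm Φ P θ.1.2.1 θ.2 → ∀ z ∈ A, θ.1.2.1 ≠ z.2 ∧
      ∀ (j : Idx P) (u : ℝ),
        (path Φ 0 P (x θ.1.1 - θ.1.1 • θ.1.2.1, θ.1.2.1) θ.2 u j).1 = (onLine z u).1 →
        u = θ.1.1 ∧ (onLine z θ.1.1).1 = x θ.1.1 := by
  have h := (ae_ball_iff hA (p := fun (θ : NodeP × Par P) (z : PhasePoint) (_ : z ∈ A) =>
    Adm Φ P θ.1.2.1 θ.2 → θ.1.2.1 ≠ z.2 ∧
      ∀ (j : Idx P) (u : ℝ),
        (path Φ 0 P (x θ.1.1 - θ.1.1 • θ.1.2.1, θ.1.2.1) θ.2 u j).1 = (onLine z u).1 →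
        u = θ.1.1 ∧ (onLine z θ.1.1).1 = x θ.1.1)).2 fun z _ => ae_theta_line hΦ P hx z
  filter_upwards [h] with θ hθ hAdm z hz
  exact hθ z hz hAdm

/-- Theorem C in the variables `(a, p)` -/
theorem ae_theta_gen (hΦ : AdmissiblePotential Φ) (P : CTree) (T : ℝ) :
    ∀ᵐ θ : NodeP × Par P, Valid Φ 0 P T θ.1.2.1 θ.2 → ∀ X : Space3, Gen Φ P (X, θ.1.2.1) θ.2 := by
  have h1 := (Measure.quasiMeasurePreserving_snd (μ := (volume : Measure NodeP))
    (ν := (volume : Measure (Par P)))).ae (gen_ae_rest hΦ (Scat818.scatFacts hΦ) P T)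
  have h2 := (measurePreserving_restMap P).quasiMeasurePreserving.ae h1
  have h4 : (volume : Measure (NodeP × Par P)) =
      (volume : Measure NodeP).prod (volume : Measure (Par P)) := rfl
  rw [h4]
  filter_upwards [h2] with θ hθ hV X
  rw [gen_rest]
  exact hθ ((valid_rest P T θ.1.2.1 θ.2).1 hV)

/-! ### Covering a tube family by countably many lines -/

variable {κ : Type}

/-- at every active time, every curve of the family is on a line of `A` -/
def Cover (A : Set PhasePoint) (S : Tubes κ) (T : ℝ) : Prop :=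
  ∀ i, ∀ u ∈ Icc 0 T, u ≤ S.b i → ∃ z ∈ A, S.c i u = (onLine z u).1

/-- a curve with constant velocity on a ball is on a line -/
lemma affine_of_hasDerivAt {c : ℝ → Space3} {V : Space3} {s δ : ℝ}
    (h : ∀ u ∈ Metric.ball s δ, HasDerivAt c V u) {u : ℝ} (hu : u ∈ Metric.ball s δ) :
    c u = c s + (u - s) • V := by
  have hδ : 0 < δ := by
    by_contra hn
    rw [Metric.ball_eq_empty.2 (not_lt.1 hn)] at hu
    exact hu
  have hd : ∀ w ∈ Metric.ball s δ, HasDerivAt (fun w => c w - (w - s) • V) 0 w := by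
    intro w hw
    have h2 : HasDerivAt (fun w : ℝ => (w - s) • V) ((1 : ℝ) • V) w :=
      ((hasDerivAt_id w).sub_const s).smul_const V
    have := (h w hw).sub h2
    rwa [one_smul, sub_self] at this
  have h3 := Metric.isOpen_ball.is_const_of_deriv_eq_zero
    ((convex_ball s δ).isPreconnected) (f := fun w => c w - (w - s) • V)
    (fun w hw => (hd w hw).differentiableAt.differentiableWithinAt)
    (fun w hw => (hd w hw).deriv) hu (Metric.mem_ball_self hδ)
  simp only [sub_self, zero_smul, sub_zero] at h3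
  rw [← h3]; abel

theorem exists_cover [Finite κ] {T : ℝ} {S : Tubes κ}
    (h : ∃ B : Set ℝ, B.Finite ∧ ∀ s ∈ Ioo 0 T, s ∉ B → ∀ i, s < S.b i →
      ∃ v : Space3, ∃ U ∈ 𝓝 s, ∀ u ∈ U, HasDerivAt (S.c i) v u) :
    ∃ A : Set PhasePoint, A.Countable ∧ Cover A S T := by
  obtain ⟨B, hB, h⟩ := h
  have : Countable κ := Finite.to_countable
  have key : ∀ i : κ, ∃ A : Set PhasePoint, A.Countable ∧
      ∀ u ∈ Icc 0 T, u ≤ S.b i → ∃ z ∈ A, S.c i u = (onLine z u).1 := by
    intro i
    set D : Set ℝ := {u | u ∈ Ioo 0 T ∧ u ∉ B ∧ u < S.b i} with hD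
    have hloc : ∀ u ∈ D, ∃ (δ : ℝ) (z : PhasePoint), 0 < δ ∧
        ∀ u' ∈ Metric.ball u δ, S.c i u' = (onLine z u').1 := by
      intro u hu
      obtain ⟨v, U, hU, hv⟩ := h u hu.1 hu.2.1 i hu.2.2
      obtain ⟨δ, hδ, hball⟩ := Metric.mem_nhds_iff.1 hU
      refine ⟨δ, (S.c i u - u • v, v), hδ, fun u' hu' => ?_⟩
      rw [affine_of_hasDerivAt (fun w hw => hv w (hball hw)) hu']
      simp only [onLine]; module
    choose! δ z hδ hz using hloc
    obtain ⟨D', hD', hc, hcov⟩ := TopologicalSpace.countable_cover_nhdsWithin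
      (f := fun u => Metric.ball u (δ u)) (s := D)
      (fun u hu => mem_nhdsWithin_of_mem_nhds (Metric.ball_mem_nhds u (hδ u hu)))
    set E : Set ℝ := B ∪ {0, T, S.b i} with hE
    have hEc : E.Countable := hB.countable.union (by simp)
    refine ⟨z '' D' ∪ (fun u => ((S.c i u, 0) : PhasePoint)) '' E,
      (hc.image z).union (hEc.image _), fun u hu hub => ?_⟩
    by_cases huE : u ∈ E
    · exact ⟨(S.c i u, 0), Or.inr ⟨u, huE, rfl⟩, by simp [onLine]⟩
    · rw [hE, mem_union, not_or] at huE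
      simp only [mem_insert_iff, mem_singleton_iff, not_or] at huE
      have huD : u ∈ D := ⟨⟨lt_of_le_of_ne hu.1 (Ne.symm huE.2.1), lt_of_le_of_ne hu.2 huE.2.2.1⟩,
        huE.1, lt_of_le_of_ne hub huE.2.2.2⟩
      obtain ⟨u1, hu1, hu2⟩ := mem_iUnion₂.1 (hcov huD)
      exact ⟨z u1, Or.inl ⟨u1, hu1, rfl⟩, hz u1 (hD' hu1) u hu2⟩
  choose A hA hcov using key
  exact ⟨⋃ i, A i, countable_iUnion hA, fun i u hu hub => by
    obtain ⟨z, hz, e⟩ := hcov i u hu hub
    exact ⟨z, mem_iUnion.2 ⟨i, hz⟩, e⟩⟩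

end Crest.Agent.R122.TubeChild491

end
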