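import Crest.Agent.R122.TubeChild2_491

/-!
Row 122, block FT (helper491): children of a tube family, part 3: F3 and F4 on the tube families of
`GIVDefs_566`.

`child`: let `S_k → S` (`TubeConv`), `S` generic, `ε_k → 0+`.  For almost every `θ = (a, p)`,
`a = (s, v, y)`: if `0 < s < T`, `s < b i0`, `‖y‖ < 1`, and the straight-line tree `(P, v, p)` is valid
at time `s`, then eventually the `ε_k`-tree glued to the tube `i0` at time `s` is valid, separated,
its entrance is the first good hit, and the families `S_k ∪ (protected tubes)` converge to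
`S ∪ (protected tubes)`, which is generic.
-/

set_option autoImplicit false

open MeasureTheory Set Filter
open scoped ENNReal Topology Classical RealInnerProductSpace NNReal
open Crest.AnalysisR.Kinetic

noncomputable section

namespace Crest.Agent.R122.TubeChild491

open Kin796 Kin796.CTree Disc416 Tree674 Boltz814 TreeEps399 Hid424 Generic491 GIV566

variable {Φ : Space3 → ℝ} {κ : Type}

/-- protected tubes of a tree with root line `ℓ`, up to time `s` -/
def ptubes (Φ : Space3 → ℝ) (ε : ℝ) (P : CTree) (ℓ : PhasePoint) (p : Par P) (s : ℝ) :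
    Tubes (Idx P) := ⟨fun j u => (path Φ ε P ℓ p u j).1, prot P s p⟩

/-- no protected particle of the tree is within `ε` of an active curve of `S` before time `s` -/
def First (Φ : Space3 → ℝ) (ε : ℝ) (S : Tubes κ) (P : CTree) (ℓ : PhasePoint) (p : Par P)
    (s : ℝ) : Prop :=
  ∀ u ∈ Ico 0 s, ∀ j : Idx P, u ≤ prot P s p j → ∀ i, u ≤ S.b i →
    ε < dist (path Φ ε P ℓ p u j).1 (S.c i u)

/-! ### Convergence and genericity of the children (deterministic) -/

/-- the union of convergent families with a convergent tree -/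
theorem conv_child (hΦ : AdmissiblePotential Φ) {T s : ℝ} {Sk : ℕ → Tubes κ} {S : Tubes κ}
    {εk : ℕ → ℝ} (hε : Tendsto εk atTop TreeEps399.L) (hconv : TubeConv T Sk S) {P : CTree}
    {v : Space3} {p : Par P} (hs0 : 0 ≤ s) (hsT : s ≤ T) (hV : Valid Φ 0 P s v p)
    (hG : Gen Φ P (0, v) p) {X : ℕ → Space3} {X0 : Space3} (hX : Tendsto X atTop (𝓝 X0)) :
    TubeConv T (fun k => (Sk k).sum (ptubes Φ (εk k) P (X k, v) p s))
      (S.sum (ptubes Φ 0 P (X0, v) p s)) := by
  have hT0 : 0 ≤ T := hs0.trans hsT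
  have hVT : Valid Φ 0 P T v p := valid_mono P hsT v p hV
  obtain ⟨M, hM, hM0⟩ := pathlip hΦ hε hT0 hVT hG X
  refine ⟨?_, ?_, ?_, ?_⟩
  · obtain ⟨M1, h1, h2⟩ := hconv.lip
    refine ⟨max M1 M, ?_, ?_⟩
    · filter_upwards [h1, hM] with k a1 a2
      rintro (i | j)
      · exact (a1 i).weaken (le_max_left _ _)
      · exact (a2 j).weaken (le_max_right _ _)
    · rintro (i | j)
      · exact (h2 i).weaken (le_max_left _ _)
      · exact (hM0 X0 j).weaken (le_max_right _ _)
  · rintro (i | j)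
    · exact hconv.curves i
    · exact pathunif (l := atTop) hε hV hX (Icc 0 T) j
  · rintro (i | j)
    · exact hconv.active i
    · exact tendsto_const_nhds
  · obtain ⟨B, hB, hvel⟩ := hconv.vel
    refine ⟨B ∪ {u | ¬ NotTime P p u}, hB.union (finite_times P p), fun s' hs' hsB => ?_⟩
    rw [mem_union, not_or] at hsB
    rintro (i | j) hi
    · obtain ⟨w, U, hU, h1, h2⟩ := hvel s' hs' hsB.1 i hi
      exact ⟨w, U, hU, h1, h2⟩
    · have hnt : NotTime P p s' := not_not.1 hsB.2
      obtain ⟨w, δ, hδ, h1, h2⟩ := pathvel (Φ := Φ) (l := atTop) hε (v := v) hnt X X0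
      refine ⟨w j, Metric.ball s' δ, Metric.ball_mem_nhds s' hδ, h1 j, ?_⟩
      filter_upwards [h2] with k hk
      exact hk j

/-- the limit child is generic -/
theorem generic_child {T s : ℝ} {S : Tubes κ} (hgen : Generic T S) {A : Set PhasePoint}
    (hcov : Cover A S T) {P : CTree} {v X0 : Space3} {p : Par P} (hG : Gen Φ P (X0, v) p)
    (hav : ∀ z ∈ A, ∀ (j : Idx P) (u : ℝ),
      (path Φ 0 P (X0, v) p u j).1 = (onLine z u).1 → u = s) :
    Generic T (S.sum (ptubes Φ 0 P (X0, v) p s)) := by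
  have hmix : ∀ (i : κ) (j : Idx P), {u | u ∈ Icc 0 (min T (min (S.b i) (prot P s p j))) ∧
      S.c i u = (path Φ 0 P (X0, v) p u j).1}.Finite := by
    intro i j
    refine (finite_singleton s).subset ?_
    rintro u ⟨hu, he⟩
    obtain ⟨z, hz, hz'⟩ := hcov i u ⟨hu.1, hu.2.trans (min_le_left _ _)⟩
      (hu.2.trans ((min_le_right _ _).trans (min_le_left _ _)))
    exact hav z hz j u (he.symm.trans hz')
  rintro (i | j) (i' | j') hne
  · exact hgen i i' fun h => hne (by rw [h])
  · exact hmix i j'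
  · refine (hmix i' j).subset ?_
    rintro u ⟨hu, he⟩
    exact ⟨⟨hu.1, hu.2.trans (min_le_min_left _ (min_comm _ _).le)⟩, he.symm⟩
  · refine (finite_meet hG (i := j) (j := j') fun h => hne (by rw [h])).subset ?_
    rintro u ⟨hu, he⟩
    exact ⟨hu.1, he⟩

/-! ### The theorem -/

lemma ae_time_notMem {F : Set ℝ} (hF : F.Countable) : ∀ᵐ a : NodeP, a.1 ∉ F :=
  (Measure.quasiMeasurePreserving_fst (μ := (volume : Measure ℝ))
    (ν := (volume : Measure (Space3 × Disc416.Plane)))).ae (hF.ae_notMem volume)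

lemma ae_ne_deriv (c : ℝ → Space3) : ∀ᵐ a : NodeP, a.2.1 ≠ deriv c a.1 := by
  refine ae_prod_of_left (μ := (volume : Measure ℝ))
    (ν := (volume : Measure (Space3 × Disc416.Plane))) ?_ fun s => ?_
  · exact (measurableSet_eq_fun (measurable_fst.comp measurable_snd)
      ((measurable_deriv c).comp measurable_fst)).compl
  · exact (Measure.quasiMeasurePreserving_fst (μ := (volume : Measure Space3))
      (ν := (volume : Measure Disc416.Plane))).ae
      (compl_mem_ae_iff.2 (MeasureTheory.measure_singleton (deriv c s)))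

/-- **Children of a tube family** (F3 + F4). -/
theorem child [Fintype κ] (hΦ : AdmissiblePotential Φ) {T : ℝ} {Sk : ℕ → Tubes κ} {S : Tubes κ}
    {εk : ℕ → ℝ} (hε0 : ∀ k, 0 < εk k) (hlim : Tendsto εk atTop (𝓝 0))
    (hconv : TubeConv T Sk S) (hgen : Generic T S) (i0 : κ) (P : CTree) :
    ∀ᵐ θ : NodeP × Par P, 0 < θ.1.1 → θ.1.1 < T → θ.1.1 < S.b i0 → ‖θ.1.2.2‖ < 1 →
      Valid Φ 0 P θ.1.1 θ.1.2.1 θ.2 →
      (∀ᶠ k in atTop, Valid Φ (εk k) P θ.1.1 θ.1.2.1 θ.2 ∧
        Sep Φ (εk k) P θ.1.1 (rootAt (εk k) ((Sk k).c i0 θ.1.1) (deriv (S.c i0) θ.1.1) θ.1.2.1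
          θ.1.2.2 θ.1.1) θ.2 ∧
        First Φ (εk k) (Sk k) P (rootAt (εk k) ((Sk k).c i0 θ.1.1) (deriv (S.c i0) θ.1.1)
          θ.1.2.1 θ.1.2.2 θ.1.1) θ.2 θ.1.1) ∧
      TubeConv T (fun k => (Sk k).sum (ptubes Φ (εk k) P
          (rootAt (εk k) ((Sk k).c i0 θ.1.1) (deriv (S.c i0) θ.1.1) θ.1.2.1 θ.1.2.2 θ.1.1)
          θ.2 θ.1.1))
        (S.sum (ptubes Φ 0 P (S.c i0 θ.1.1 - θ.1.1 • θ.1.2.1, θ.1.2.1) θ.2 θ.1.1)) ∧
      Generic T (S.sum (ptubes Φ 0 P (S.c i0 θ.1.1 - θ.1.1 • θ.1.2.1, θ.1.2.1) θ.2 θ.1.1)) := by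
  by_cases hT : T ≤ 0
  · exact Filter.Eventually.of_forall fun θ h1 h2 => absurd (h1.trans h2) (not_lt.2 hT)
  push Not at hT
  have hε : Tendsto εk atTop TreeEps399.L :=
    tendsto_nhdsWithin_iff.2 ⟨hlim, Eventually.of_forall hε0⟩
  obtain ⟨M1, hlipk, hlip⟩ := hconv.lip
  obtain ⟨B, hB, hvel⟩ := hconv.vel
  obtain ⟨A, hA, hcov⟩ := exists_cover (S := S) (T := T)
    ⟨B, hB, fun s hs hsB i hi => by
      obtain ⟨w, U, hU, h1, -⟩ := hvel s hs hsB i hi
      exact ⟨w, U, hU, h1⟩⟩
  -- the curve of the tube, measurable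
  set x : ℝ → Space3 := fun s => S.c i0 (projIcc 0 T hT.le s) with hxdef
  have hxc : Continuous x := by
    have h1 : ContinuousOn (S.c i0) (Icc 0 T) := (hlip i0).continuousOn
    exact h1.comp_continuous (continuous_subtype_val.comp continuous_projIcc)
      fun s => (projIcc 0 T hT.le s).2
  have hxe : ∀ s ∈ Icc 0 T, x s = S.c i0 s := fun s hs => by
    rw [hxdef]; simp only; rw [projIcc_of_mem hT.le hs]
  -- exceptional times
  set F : Set ℝ := B ∪ ⋃ i, {u | i ≠ i0 ∧ u ∈ Icc 0 (min T (min (S.b i) (S.b i0))) ∧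
    S.c i u = S.c i0 u} with hF
  have hFc : F.Countable := by
    refine hB.countable.union (countable_iUnion fun i => ?_)
    by_cases hi : i = i0
    · convert countable_empty
      ext u; simp [hi]
    · exact (hgen i i0 hi).countable.mono fun u hu => hu.2
  have e1 := (Measure.quasiMeasurePreserving_fst (μ := (volume : Measure NodeP))
    (ν := (volume : Measure (Par P)))).ae (ae_time_notMem hFc)
  have e2 := (Measure.quasiMeasurePreserving_fst (μ := (volume : Measure NodeP))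
    (ν := (volume : Measure (Par P)))).ae (ae_ne_deriv (S.c i0))
  have e3 := ae_theta hΦ P hxc.measurable hA
  have e4 := ae_theta_gen hΦ P T
  have h4 : (volume : Measure (NodeP × Par P)) =
      (volume : Measure NodeP).prod (volume : Measure (Par P)) := rfl
  rw [h4] at e3 e4 ⊢
  filter_upwards [e1, e2, e3, e4] with θ a1 a2 a3 a4 h0 hsT hsb hy hV
  obtain ⟨⟨s, v, y⟩, p⟩ := θ
  simp only at a1 a2 a3 a4 h0 hsT hsb hy hV ⊢
  have hsI : s ∈ Icc 0 T := ⟨h0.le, hsT.le⟩
  have hVT : Valid Φ 0 P T v p := valid_mono P hsT.le v p hV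
  have hG := a4 hVT
  rw [hxe s hsI] at a3
  have a5 := a3 hV.1
  have hBs : s ∉ B := fun h => a1 (Or.inl h)
  obtain ⟨w, U, hU, hd0, hdk⟩ := hvel s ⟨h0, hsT⟩ hBs i0 hsb
  have hw : deriv (S.c i0) s = w := (hd0 s (mem_of_mem_nhds hU)).deriv
  rw [hw] at a2 ⊢
  have hXk : Tendsto (fun k => (rootAt (εk k) ((Sk k).c i0 s) w v y s).1) atTop
      (𝓝 (S.c i0 s - s • v)) := by
    have h1 : Tendsto (fun k => εk k • entrancePoint (Disc416.frameMap (v - w) y) (v - w)) atTop
        (𝓝 0) := by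
      have := hlim.smul_const (entrancePoint (Disc416.frameMap (v - w) y) (v - w))
      rwa [zero_smul] at this
    have h2 : Tendsto (fun k => (Sk k).c i0 s) atTop (𝓝 (S.c i0 s)) :=
      (hconv.curves i0).tendsto_at hsI
    have h3 := (h2.add h1).sub_const (s • v)
    rw [add_zero] at h3
    exact h3
  refine ⟨?_, ?_, ?_⟩
  · -- first good hit
    have hcc : ∀ η > 0, ∀ᶠ k in atTop, ∀ i, ∀ u ∈ Icc 0 T,
        dist ((Sk k).c i u) (S.c i u) < η := by
      intro η hη
      rw [eventually_all]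
      intro i
      have := Metric.tendstoUniformlyOn_iff.1 (hconv.curves i) η hη
      filter_upwards [this] with k hk u hu
      rw [dist_comm]
      exact hk u hu
    have hloc : ∃ δ > 0, ∀ᶠ k in atTop, ∀ u, s - δ < u → u ≤ s → u ∈ Icc 0 T →
        (Sk k).c i0 u = (Sk k).c i0 s + (u - s) • w := by
      obtain ⟨δ, hδ, hball⟩ := Metric.mem_nhds_iff.1 hU
      refine ⟨δ, hδ, ?_⟩
      filter_upwards [hdk] with k hk u hu1 hu2 _
      refine affine_of_hasDerivAt (fun u' hu' => hk u' (hball hu')) ?_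
      rw [Metric.mem_ball, Real.dist_eq, abs_lt]
      exact ⟨by linarith, by linarith⟩
    have hne : ∀ (i : κ) (j : Idx P), ∀ u ∈ Icc 0 s, u ≤ S.b i → u ≤ prot P s p j →
        (path Φ 0 P (S.c i0 s - s • v, v) p u j).1 = S.c i u → i = i0 ∧ u = s := by
      intro i j u hu hub _ he
      obtain ⟨z, hz, hz'⟩ := hcov i u ⟨hu.1, hu.2.trans hsT.le⟩ hub
      obtain ⟨hus, hzs⟩ := (a5 z hz).2 j u (he.trans hz')
      refine ⟨?_, hus⟩
      by_contra hi
      apply a1
      refine Or.inr (mem_iUnion.2 ⟨i, hi, ⟨h0.le, ?_⟩, ?_⟩)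
      · rw [hus] at hub
        exact le_min hsT.le (le_min hub hsb.le)
      · rw [← hzs]
        rw [hus] at hz'
        exact hz'
    have hfirst := first_hit_eventually (Φ := Φ) hε hsT.le (c := fun k => (Sk k).c) (c0 := S.c)
      (b := fun k => (Sk k).b) (b0 := S.b) hcc (fun i => (hlip i).continuousOn) hconv.active i0
      hloc a2 hy h0.le hV hne
    have hgood := hε.eventually (eventually_good hΦ hV (hG 0))
    filter_upwards [hfirst, hgood] with k hk1 hk2
    exact ⟨hk2.2.1, hk2.2.2 _, hk1⟩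
  · exact conv_child hΦ hε hconv h0.le hsT.le hV (hG 0) hXk
  · exact generic_child hgen hcov (hG _) fun z hz j u hu => ((a5 z hz).2 j u hu).1

end Crest.Agent.R122.TubeChild491

end
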