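import Crest.Agent.R122.TubeLim_818
import Crest.Agent.R122.TopF_602

/-!
Row 122, block FT (helper818): the flux limit as input of the top skeleton of helper602.
-/

set_option autoImplicit false

open MeasureTheory Set Filter Topology
open scoped ENNReal
open Crest.AnalysisR.Kinetic

namespace Crest.Agent.R122.Tube818

theorem fluxLimIn {Φ : Space3 → ℝ} {f₀ : PhasePoint → ℝ} {f : ℝ → PhasePoint → ℝ} {β T : ℝ}
    (hD : Master566.KData Φ β T f₀ f) : Top602.FluxLimIn Φ f₀ T :=
  fun _ _ htw htwt htT => fluxLimM hD htw htwt htT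

end Crest.Agent.R122.Tube818
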