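import Crest.Agent.R122.E4Hyp_879
import Crest.Agent.R122.Rst_515

/-!
# Superposition facts with a reborn root line (row 122, H1), helper263

`E4Hyp` (helper879) gives helper285's `UnlB` for a family of lines pairwise unlinked in the base
worlds up to the touch times of the two lines. For the family `c + exits`, `c` = the undeflected root
reborn at the exit time `u` of the encounter with the test line, the links of `c` are known only as long
as the exits have not touched. This is enough: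

* `theta_iff_local`, `le_theta_local` : world consistency at one time.
* `unlAt_of_noLk` : superposition facts from `NoLk` (links up to the first touch of the family).
* `link_reb` : the links of a reborn line are links of the line.
* `noLk_reb` : from the pairwise unlinked family with `c`, the family with `c` reborn at `u`, if `c` has
  no contact up to `u` in the world `Z + exits + c`.
* `unlB_reb` : **`UnlB` for the family with the reborn line.**
-/

set_option autoImplicit false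
set_option linter.unusedSectionVars false

open MeasureTheory Set Filter Topology
open scoped ENNReal
open Crest.AnalysisR.Kinetic
open Crest.Agent.R122.Flow671 Crest.Agent.R122.Loc45 Crest.Agent.R122.Ins45
open Crest.Agent.R122.Causal291 Crest.Agent.R122.CausalGen291
open Crest.Agent.R122.Inf879 Crest.Agent.R122.EDefs602 Crest.Agent.R122.MWAlg255
open Crest.Agent.R122.MWFam255 Crest.Agent.R122.Decomp285 Crest.Agent.R122.Line285
open Crest.Agent.R122.E4Hyp879

namespace Crest.Agent.R122.UnlC263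

noncomputable section

open scoped Classical

variable {Φ : Space3 → ℝ} {ε T s : ℝ} {K : ℕ} {ι κ κ₁ μ : Type}
variable [Fintype ι] [Fintype κ] [Fintype κ₁] [Fintype μ]

/-! ### World consistency at one time -/

theorem theta_iff_local (hΦ : AdmissiblePotential Φ) (hε : 0 < ε) {Z : MW ι} {A : MW κ} {B : MW μ}
    (h : Ok4 Φ ε Z A B) (hs0 : 0 ≤ s) (hsT : s ≤ T) (hA : s ≤ Z.theta Φ ε K T A)
    (hB : s ≤ Z.theta Φ ε K T B) (hlk : ¬ Z.LINK Φ ε K A B s) :
    Z.theta Φ ε K T B ≤ s ↔ (Z.add A).theta Φ ε K T B ≤ s := by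
  have hd := MW.four_dyn hΦ hε h.z h.a h.b h.ab T
  have hX := MW.four_cohX Φ ε Z A B T
  have hR := MW.four_rules h.z h.a h.b h.ab K 0 T
  have hn := h.noLink hΦ hε hsT hA hB hlk
  have h1 := Four.touched_iff_closed hd hX hR le_rfl ⟨hs0, hsT⟩ hn.untA hn.untL hn.nl
  have h2 := touched_iff_theta_le hd.p₀L le_rfl hR.r₀ hR.rL ⟨hs0, hsT⟩
  have h3 := touched_iff_theta_le hd.pA le_rfl hR.rA hR.r ⟨hs0, hsT⟩
  exact h2.symm.trans (h1.trans h3)

theorem le_theta_local (hΦ : AdmissiblePotential Φ) (hε : 0 < ε) {Z : MW ι} {A : MW κ} {B : MW μ}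
    (h : Ok4 Φ ε Z A B) (hs0 : 0 ≤ s) (hsT : s ≤ T) (hA : s ≤ Z.theta Φ ε K T A)
    (hB : s ≤ Z.theta Φ ε K T B) (hlk : ¬ Z.LINK Φ ε K A B s) :
    s ≤ (Z.add A).theta Φ ε K T B := by
  by_contra hlt
  rw [not_le] at hlt
  have h0 : 0 ≤ (Z.add A).theta Φ ε K T B := MW.theta_nonneg (hs0.trans hsT)
  have h1 := (theta_iff_local (s := (Z.add A).theta Φ ε K T B) hΦ hε h h0 (hlt.le.trans hsT)
    (hlt.le.trans hA) (hlt.le.trans hB) fun hl => hlk (hl.mono hlt.le)).2 le_rfl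
  exact absurd (hB.trans h1) (not_le.2 hlt)

/-! ### Families, at one time -/

/-- At the time `s` no line of the family has touched before and no two lines are linked. -/
structure At (Φ : Space3 → ℝ) (ε : ℝ) (K : ℕ) (T : ℝ) (Z : MW ι) (ls : κ → ML) (s : ℝ) : Prop where
  s0 : 0 ≤ s
  sT : s ≤ T
  le : ∀ k, s ≤ Z.thetaL Φ ε K T (ls k)
  nl : ∀ j k, j ≠ k → ¬ Z.LINK Φ ε K (MW.line (ls j)) (MW.line (ls k)) s

theorem At.le_lines (hΦ : AdmissiblePotential Φ) (hε : 0 < ε) {Z : MW ι} {ls : κ → ML}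
    (hok : MW.OkFam Φ ε Z ls) (h : At Φ ε K T Z ls s) (f : κ₁ ↪ κ) :
    s ≤ Z.theta Φ ε K T (MW.lines fun i => ls (f i)) := by
  have h1 := (fam_core hΦ hε (okF_of_okFam hΦ hε hok) h.s0 h.sT (Finset.univ.map f)
    (fun k _ => h.le k) fun j _ k _ hjk => h.nl j k hjk).1
  rw [lines_eq_sub ls f, theta_comap_right hΦ hε]
  exact h1

theorem At.not_link (hΦ : AdmissiblePotential Φ) (hε : 0 < ε) {Z : MW ι} {ls : κ → ML}
    (hok : MW.OkFam Φ ε Z ls) (h : At Φ ε K T Z ls s) (f : κ₁ ↪ κ) {k : κ} (hk : ∀ i, f i ≠ k) :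
    ¬ Z.LINK Φ ε K (MW.lines fun i => ls (f i)) (MW.line (ls k)) s := by
  have h1 := (fam_core hΦ hε (okF_of_okFam hΦ hε hok) h.s0 h.sT (Finset.univ.map f)
    (fun k _ => h.le k) fun j _ k _ hjk => h.nl j k hjk).2.1 Unit (MW.line (ls k)) fun j hj => by
      obtain ⟨i, _, rfl⟩ := Finset.mem_map.1 hj
      exact h.nl _ _ (hk i)
  rw [lines_eq_sub ls f, link_comap hΦ hε]
  exact h1

theorem ok4_lines (hΦ : AdmissiblePotential Φ) (hε : 0 < ε) {Z : MW ι} {ls : κ → ML}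
    (hok : MW.OkFam Φ ε Z ls) (f : κ₁ ↪ κ) {k : κ} (hk : ∀ i, f i ≠ k) :
    Ok4 Φ ε Z (MW.lines fun i => ls (f i)) (MW.line (ls k)) :=
  ⟨hok.base hΦ hε, (okFam_comp hΦ hε hok f).lines hΦ hε, hok.line hΦ hε k,
    ok_lines_add hΦ hε hok f (⟨fun _ : Unit => k, fun _ _ _ => rfl⟩ : Unit ↪ κ) fun i _ => hk i⟩

theorem At.le_theta (hΦ : AdmissiblePotential Φ) (hε : 0 < ε) {Z : MW ι} {ls : κ → ML}
    (hok : MW.OkFam Φ ε Z ls) (h : At Φ ε K T Z ls s) (f : κ₁ ↪ κ) {k : κ} (hk : ∀ i, f i ≠ k) :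
    s ≤ (Z.add (MW.lines fun i => ls (f i))).thetaL Φ ε K T (ls k) :=
  le_theta_local hΦ hε (ok4_lines hΦ hε hok f hk) h.s0 h.sT (h.le_lines hΦ hε hok f) (h.le k)
    (h.not_link hΦ hε hok f hk)

theorem At.of_theta_le (hΦ : AdmissiblePotential Φ) (hε : 0 < ε) {Z : MW ι} {ls : κ → ML}
    (hok : MW.OkFam Φ ε Z ls) (h : At Φ ε K T Z ls s) (f : κ₁ ↪ κ) {k : κ} (hk : ∀ i, f i ≠ k)
    (hle : (Z.add (MW.lines fun i => ls (f i))).thetaL Φ ε K T (ls k) ≤ s) :
    Z.thetaL Φ ε K T (ls k) ≤ s :=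
  (theta_iff_local hΦ hε (ok4_lines hΦ hε hok f hk) h.s0 h.sT (h.le_lines hΦ hε hok f) (h.le k)
    (h.not_link hΦ hε hok f hk)).2 hle

/-- No link up to the first touch of the family. -/
def NoLkF (Φ : Space3 → ℝ) (ε : ℝ) (K : ℕ) (T : ℝ) (Z : MW ι) (ls : κ → ML) : Prop :=
  ∀ s, 0 ≤ s → s ≤ T → (∀ k, s ≤ Z.thetaL Φ ε K T (ls k)) → ∀ j k, j ≠ k →
    ¬ Z.LINK Φ ε K (MW.line (ls j)) (MW.line (ls k)) s

/-- Superposition facts in the base world `Z` from `NoLkF`. -/
theorem facts_of_noLkF (hΦ : AdmissiblePotential Φ) (hε : 0 < ε) (hT : 0 ≤ T) {Z : MW ι}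
    {ls : κ → ML} (hok : MW.OkFam Φ ε Z ls) (hn : NoLkF Φ ε K T Z ls) {s : ℝ}
    (hs : ∀ k, s ≤ Z.thetaL Φ ε K T (ls k)) (f : κ₁ ↪ κ) {k : κ} (hk : ∀ i, f i ≠ k) :
    s ≤ (Z.add (MW.lines fun i => ls (f i))).thetaL Φ ε K T (ls k) ∧
      ((Z.add (MW.lines fun i => ls (f i))).thetaL Φ ε K T (ls k) ≤ s →
        Z.thetaL Φ ε K T (ls k) ≤ s) := by
  have h4 := ok4_lines hΦ hε hok f hk
  rcases lt_or_ge s 0 with h0 | h0
  · refine ⟨h0.le.trans (MW.theta_nonneg hT), fun h => ?_⟩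
    exact absurd ((MW.theta_nonneg hT).trans h) (not_le.2 h0)
  rcases le_or_gt s T with h1 | h1
  · have hA : At Φ ε K T Z ls s := ⟨h0, h1, hs, hn s h0 h1 hs⟩
    exact ⟨hA.le_theta hΦ hε hok f hk, hA.of_theta_le hΦ hε hok f hk⟩
  · have hsT : ∀ k, T ≤ Z.thetaL Φ ε K T (ls k) := fun k => h1.le.trans (hs k)
    have hA : At Φ ε K T Z ls T := ⟨hT, le_rfl, hsT, hn T hT le_rfl hsT⟩
    have h5 : (Z.add (MW.lines fun i => ls (f i))).thetaL Φ ε K T (ls k) = T + 1 := by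
      rcases MW.theta_le_or (K := K) (T := T) hΦ hε h4.a h4.ab with h2 | h2
      · have h3 := hA.of_theta_le hΦ hε hok f hk h2
        exact absurd (h1.trans_le (hs k)) (not_lt.2 h3)
      · exact h2
    have h6 : Z.thetaL Φ ε K T (ls k) ≤ T + 1 := MW.theta_le
    rw [h5]
    exact ⟨(hs k).trans h6, fun h => h6.trans h⟩

variable {Z : MW ι} {ls : κ → ML} {E F : Finset κ}

/-- **Superposition facts** in the base world `Z`. -/
theorem unlAt_of_noLkF (hΦ : AdmissiblePotential Φ) (hε : 0 < ε) (hT : 0 ≤ T)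
    (hok : MW.OkFam Φ ε Z (fun x : F => ls x)) (hn : NoLkF Φ ε K T Z (fun x : F => ls x)) :
    UnlAt (thF Φ ε K T Z ls) ∅ F := by
  have key : ∀ s, (∀ a ∈ F, a ∉ (∅ : Finset κ) → s ≤ thF Φ ε K T Z ls ∅ a) → ∀ G ⊆ F, ∀ b ∈ F,
      b ∉ G → s ≤ thF Φ ε K T Z ls G b ∧
        (thF Φ ε K T Z ls G b ≤ s → thF Φ ε K T Z ls ∅ b ≤ s) := by
    intro s hs G hG b hb hbG
    have hs' : ∀ a : F, s ≤ Z.thetaL Φ ε K T (ls a) := fun a => by
      have h1 := hs a.1 a.2 (Finset.notMem_empty _)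
      rwa [thF_empty hΦ hε] at h1
    have h1 := facts_of_noLkF hΦ hε hT hok hn hs'
      (⟨fun i : G => (⟨i.1, hG i.2⟩ : F), fun i j h => Subtype.ext (congrArg (fun y : F => y.1) h)⟩ :
        G ↪ F) (k := ⟨b, hb⟩) fun i h => hbG (by
          have h1 : (i : κ) = b := congrArg (fun y : F => y.1) h
          rw [← h1]
          exact i.2)
    rw [thF_empty hΦ hε]
    exact h1
  refine ⟨fun s hs G hG b hb _ hbG => ?_, fun s hs G hG b hb _ hbG hle => ?_⟩
  · rw [Finset.union_empty]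
    exact (key s hs G hG b hb hbG).1
  · rw [Finset.union_empty] at hle
    exact (key s hs G hG b hb hbG).2 hle

/-- Superposition facts in the base world `Z + d`. -/
theorem unlAt_singleton' (hΦ : AdmissiblePotential Φ) (hε : 0 < ε) (hT : 0 ≤ T)
    (hok : MW.OkFam Φ ε Z (fun x : F => ls x)) {d : κ} (hd : d ∈ F)
    (hn : NoLkF Φ ε K T (Z.ins (ls d)) (fun x : (F.erase d : Finset κ) => ls x)) :
    UnlAt (thF Φ ε K T Z ls) {d} F := by
  have h1 := unlAt_of_noLkF hΦ hε hT (okFam_ins hΦ hε hok hd) hn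
  have e0 : ∀ b, thF Φ ε K T Z ls {d} b = thF Φ ε K T (Z.ins (ls d)) ls ∅ b := fun b =>
    thX_insert_base hΦ hε K T Z ls (ls b) (d := d) (G := ∅) (Finset.notMem_empty d)
  have e1 : ∀ (G : Finset κ) (b : κ), thF Φ ε K T Z ls (G ∪ {d}) b =
      thF Φ ε K T (Z.ins (ls d)) ls (G.erase d) b := by
    intro G b
    have h2 : G ∪ {d} = insert d (G.erase d) := by
      ext x
      simp only [Finset.mem_union, Finset.mem_singleton, Finset.mem_insert, Finset.mem_erase]
      by_cases hx : x = d <;> simp [hx]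
    rw [h2]
    exact thX_insert_base hΦ hε K T Z ls (ls b) (Finset.notMem_erase d G)
  refine ⟨fun s hs G hG b hb hbd hbG => ?_, fun s hs G hG b hb hbd hbG hle => ?_⟩
  · rw [e1]
    have hbd' : b ≠ d := fun h => hbd (Finset.mem_singleton.2 h)
    have h2 := h1.ge s (fun a ha _ => by
      rw [← e0]
      exact hs a (Finset.mem_of_mem_erase ha)
        fun h => (Finset.mem_erase.1 ha).1 (Finset.mem_singleton.1 h)) (G.erase d)
      (Finset.erase_subset_erase d hG) b (Finset.mem_erase.2 ⟨hbd', hb⟩) (Finset.notMem_empty b)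
      (fun h => hbG (Finset.mem_of_mem_erase h))
    rwa [Finset.union_empty] at h2
  · rw [e1] at hle
    rw [e0]
    have hbd' : b ≠ d := fun h => hbd (Finset.mem_singleton.2 h)
    exact h1.of_le s (fun a ha _ => by
      rw [← e0]
      exact hs a (Finset.mem_of_mem_erase ha)
        fun h => (Finset.mem_erase.1 ha).1 (Finset.mem_singleton.1 h)) (G.erase d)
      (Finset.erase_subset_erase d hG) b (Finset.mem_erase.2 ⟨hbd', hb⟩) (Finset.notMem_empty b)
      (fun h => hbG (Finset.mem_of_mem_erase h)) (by rwa [Finset.union_empty])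

/-! ### Links of a reborn line -/

section reb

variable {l : ML} {σ : ℝ} {B : MW μ}

/-- Clean closures: self-contacts are irrelevant. -/
theorem cfut_mono_ne {β γ α : Type} {X : Type*} {C₁ : ℝ → β → β → Prop} {z₁ : ℝ → β → X}
    {C C' : ℝ → α → α → Prop} {z₂ z₂' : ℝ → α → X} {e₁ : γ → β} {e₂ : γ → α} {x : γ} {a : ℝ}
    {P₁ : ℝ → β → Prop} {P₂ P₂' : ℝ → α → Prop}
    (he : Function.Injective e₂) (h : ∀ s j k, j ≠ k → C s j k → C' s j k)
    (h0 : ∀ k, z₂ 0 (e₂ k) = z₂' 0 (e₂ k)) (hP : ∀ s j, P₂' s j → P₂ s j)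
    (hp : CFut C₁ z₁ C z₂ e₁ e₂ a P₁ P₂ s x) : CFut C₁ z₁ C' z₂' e₁ e₂ a P₁ P₂' s x := by
  have hcl : ∀ {s : ℝ} {k : γ}, CleanB a P₁ P₂ e₁ e₂ s k → CleanB a P₁ P₂' e₁ e₂ s k :=
    fun hc u hu hus => ⟨(hc u hu hus).1, fun h' => (hc u hu hus).2 (hP _ _ h')⟩
  induction hp with
  | init hne hs => exact .init (by rw [← h0]; exact hne) hs
  | new₁ j hj hc h1 hs hb => exact .new₁ j hj hc h1 hs (hcl hb)
  | new₂ j hj hc h1 hs hb =>
    exact .new₂ j hj (h _ _ _ (fun he' => hj ⟨_, he'.symm⟩) hc) h1 hs (hcl hb)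
  | chain₁ _ hc hs hb ih => exact .chain₁ ih hc hs (hcl hb)
  | @chain₂ s₁ s₂ k l _ hc hs hb ih =>
    by_cases hkl : l = k
    · subst hkl
      exact ih.mono hs
    · exact .chain₂ ih (h _ _ _ (fun he' => hkl (he he')) hc) hs (hcl hb)

variable (h : NoCt Φ ε Z l σ) (hΦ : AdmissiblePotential Φ) (hε : 0 < ε)
  (hZl : (Z.ins l).Ok Φ ε)

include h hΦ hε hZl in
theorem cf_reb {k : ι} (hk : CF Φ ε K Z (MW.line (reb l σ)) s k) :
    CF Φ ε K Z (MW.line l) s k := by
  refine cfut_mono_ne Sum.inl_injective (fun s j k hjk => (h.C_reb hΦ hε hZl s j k hjk).1)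
    (fun k => ?_) (fun s j hj => (h.inf_reb hΦ hε hZl j).2 hj) hk
  exact congrFun (h.path_reb hΦ hε hZl le_rfl) (Sum.inl k)

include h hΦ hε hZl in
/-- **The links of the reborn line are links of the line.** -/
theorem link_reb (hlk : Z.LINK Φ ε K (MW.line (reb l σ)) B s) : Z.LINK Φ ε K (MW.line l) B s := by
  obtain ⟨u, hu, ⟨k, hk, hk'⟩ | ⟨x, y, hx, hy, hc⟩⟩ := link_iff.1 hlk
  · exact link_iff.2 ⟨u, hu, Or.inl ⟨k, cf_reb h hΦ hε hZl hk, hk'⟩⟩
  · obtain ⟨c1, c2, c3, c4⟩ := hc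
    have hbl : (Z.ins l).b x ≤ (Z.ins (reb l σ)).b x := h.b_le x
    refine link_iff.2 ⟨u, hu, Or.inr ⟨x, y, fun k hk => cf_reb h hΦ hε hZl (hx k hk), hy,
      hbl.trans c1, c2, ?_, ?_⟩⟩
    · exact c3.imp id fun h' => h'.imp (fun h' => hbl.trans_lt h') id
    · have h1 : (Z.ins (reb l σ)).path Φ ε u x = (Z.ins l).path Φ ε u x :=
        congrFun (h.path_reb hΦ hε hZl hu.1) x
      change dist ((Z.ins (reb l σ)).path Φ ε u x).1 _ ≤ ε at c4
      rw [h1] at c4
      exact c4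

end reb

/-- A line which is not yet born is unlinked. -/
theorem not_link_unborn (hΦ : AdmissiblePotential Φ) (hε : 0 < ε) {l : ML} {B : MW μ}
    (hs : s < l.1.1) : ¬ Z.LINK Φ ε K (MW.line l) B s := by
  have hcf : ∀ {u : ℝ} {k : ι}, CF Φ ε K Z (MW.line l) u k → l.1.1 ≤ u := by
    intro u k hk
    unfold CF at hk
    induction hk with
    | @init s k hne h0 =>
      refine absurd ?_ hne
      change Z.path Φ ε 0 k = (Z.add (MW.line l)).path Φ ε 0 (Sum.inl k)
      rw [MW.path_zero hΦ hε, MW.path_zero hΦ hε]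
      rfl
    | new₁ j hj _ _ _ _ => exact absurd ⟨j, rfl⟩ hj
    | @new₂ s s' k j hj hc h0 h1 hb =>
      rcases j with j | j
      · exact absurd ⟨j, rfl⟩ hj
      · have h2 : (Z.add (MW.line l)).b (Sum.inr j) ≤ s' := MW.C_born hc
        exact le_trans h2 h1
    | chain₁ _ _ h1 _ ih => exact ih.trans h1
    | chain₂ _ _ h1 _ ih => exact ih.trans h1
  intro hlk
  obtain ⟨u, hu, ⟨k, hk, _⟩ | ⟨x, y, hx, _, hc⟩⟩ := link_iff.1 hlk
  · exact absurd (hcf hk) (not_le.2 (hu.2.trans_lt hs))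
  · rcases x with x | x
    · exact absurd (hcf hx.inl) (not_le.2 (hu.2.trans_lt hs))
    · have h2 : (Z.add (MW.line l)).b (Sum.inr x) ≤ u := hc.1
      exact absurd (show l.1.1 ≤ u from h2) (not_le.2 (hu.2.trans_lt hs))

/-! ### The family with the reborn line -/

/-- `(Z + E) + c` is `(Z + c) + E`. -/
def swapEquiv (ι α : Type) : (ι ⊕ Unit) ⊕ α ≃ (ι ⊕ α) ⊕ Unit where
  toFun x := match x with
    | Sum.inl (Sum.inl i) => Sum.inl (Sum.inl i)
    | Sum.inl (Sum.inr u) => Sum.inr u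
    | Sum.inr a => Sum.inl (Sum.inr a)
  invFun x := match x with
    | Sum.inl (Sum.inl i) => Sum.inl (Sum.inl i)
    | Sum.inl (Sum.inr a) => Sum.inr a
    | Sum.inr u => Sum.inl (Sum.inr u)
  left_inv := by rintro ((i | u) | a) <;> rfl
  right_inv := by rintro ((i | u) | a) <;> rfl

theorem swap_comap (Z : MW ι) (A : MW κ) (l : ML) :
    ((Z.add A).ins l).comap (swapEquiv ι κ) = (Z.add (MW.line l)).add A := by
  unfold MW.comap MW.ins MW.add
  congr 1 <;> · funext x; rcases x with (x | x) | x <;> rfl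

/-- The embedding of one line. -/
def uEmb {κ : Type} (x : κ) : Unit ↪ κ := ⟨fun _ => x, fun _ _ _ => rfl⟩

/-- **Links of the reborn root line up to the first touch of the family.** -/
theorem noLkF_reb (hΦ : AdmissiblePotential Φ) (hε : 0 < ε) (hT : 0 ≤ T) {c : κ} (hcE : c ∉ E)
    {ls' : κ → ML} {u : ℝ} (hok : MW.OkFam Φ ε Z (fun x : (insert c E : Finset κ) => ls x))
    (hnl : PairNL Φ ε K T Z (fun x : (insert c E : Finset κ) => ls x))
    (hE : ∀ i ∈ E, ls' i = ls i) (hc' : ls' c = reb (ls c) u)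
    (hborn : ∀ k, 0 ≤ Z.b k) (h0 : 0 ≤ (ls c).1.1) (hu : (ls c).1.1 ≤ u) (hm : (ls c).2 ≤ K)
    (hno : ∀ t k, t ≤ u → ¬ ((Z.add (sub ls E)).ins (ls c)).C Φ ε t (Sum.inr ())
      (Sum.inl (Sum.inl k))) :
    NoLkF Φ ε K T Z (fun x : (insert c E : Finset κ) => ls' x) := by
  have hcF : c ∈ insert c E := Finset.mem_insert_self c E
  have hEF : ∀ {i}, i ∈ E → i ∈ insert c E := fun h => Finset.mem_insert_of_mem h
  set eE : E ↪ (insert c E : Finset κ) :=
    ⟨fun i => ⟨i.1, hEF i.2⟩, fun i j h => Subtype.ext (congrArg (fun y : (insert c E : Finset κ) =>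
      y.1) h)⟩ with heE
  have hfg : ∀ (i : Unit) (j : E), uEmb (⟨c, hcF⟩ : (insert c E : Finset κ)) i ≠ eE j := by
    intro _ j h
    exact hcE (by
      have h1 : c = (j : κ) := congrArg (fun y : (insert c E : Finset κ) => y.1) h
      rw [h1]
      exact j.2)
  have h4 : Ok4 Φ ε Z (MW.line (ls c)) (sub ls E) :=
    ⟨hok.base hΦ hε, hok.line hΦ hε ⟨c, hcF⟩, (okFam_comp hΦ hε hok eE).lines hΦ hε,
      ok_lines_add hΦ hε hok (uEmb (⟨c, hcF⟩ : (insert c E : Finset κ))) eE hfg⟩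
  have hNL : MW.NoLink Φ ε K T Z (MW.line (ls c)) (sub ls E) :=
    noLink_lines hΦ hε hT hok hnl (uEmb (⟨c, hcF⟩ : (insert c E : Finset κ))) eE hfg
  intro s hs0 hsT hs
  -- touch times of the exits
  have hsE : ∀ i ∈ E, s ≤ Z.thetaL Φ ε K T (ls i) := fun i hi => by
    have h1 := hs ⟨i, hEF hi⟩
    have h2 : ls' i = ls i := hE i hi
    change s ≤ Z.thetaL Φ ε K T (ls' i) at h1
    rwa [h2] at h1
  have hsc : s ≤ Z.thetaL Φ ε K T (reb (ls c) u) := by
    have h1 := hs ⟨c, hcF⟩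
    change s ≤ Z.thetaL Φ ε K T (ls' c) at h1
    rwa [hc'] at h1
  -- the pairs with the reborn line
  have claim : ∀ k ∈ E, ¬ Z.LINK Φ ε K (MW.line (reb (ls c) u)) (MW.line (ls k)) s := by
    intro k hk
    rcases lt_or_ge s u with hsu | hus
    · exact not_link_unborn hΦ hε hsu
    have hθE : s ≤ Z.theta Φ ε K T (sub ls E) := by
      have h1 : Z.theta Φ ε K T (sub ls E) =
          Decomp811.firstT Φ ε K T Z (fun i : E => ls i) :=
        theta_lines_eq hΦ hε hT hok hnl eE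
      rw [h1]
      exact Decomp811.le_firstT (hsT.trans (by linarith)) fun i => hsE i.1 i.2
    have hθ0 : 0 ≤ Z.thetaL Φ ε K T (ls c) := MW.theta_nonneg hT
    have hm0 : 0 ≤ min s (Z.thetaL Φ ε K T (ls c)) := le_min hs0 hθ0
    have hmT : min s (Z.thetaL Φ ε K T (ls c)) ≤ T := (min_le_left _ _).trans hsT
    have hmE : min s (Z.thetaL Φ ε K T (ls c)) ≤ Z.theta Φ ε K T (sub ls E) :=
      (min_le_left _ _).trans hθE
    have hn := h4.noLink (K := K) hΦ hε hmT (min_le_right _ _) hmE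
      (hNL _ hm0 hmT (min_le_right _ _) hmE)
    have key : ∀ t k, t ≤ u → t ≤ min s (Z.thetaL Φ ε K T (ls c)) →
        ¬ (Z.ins (ls c)).C Φ ε t (Sum.inr ()) (Sum.inl k) := by
      intro t k htu hts hc
      have ht0 : 0 ≤ t := h0.trans (MW.C_born hc)
      have h5 := Rst515.contact_lift hΦ hε h4 ⟨hm0, hmT⟩ hn ⟨ht0, hts⟩ hc
      rw [← swap_comap, C_comap hΦ hε] at h5
      exact hno t k htu h5
    have hlt : u < Z.thetaL Φ ε K T (ls c) := by
      by_contra hle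
      rw [not_lt] at hle
      obtain ⟨r, hr, x, k, hc⟩ := MW.exists_contact_le_theta (K := K) (T := T) hΦ hε h4.z h4.a hT
        (hle.trans (hus.trans hsT)) (by simpa [MW.line, MW.lines] using hm)
      cases x
      exact key r k (hr.2.trans hle) (le_min (hr.2.trans (hle.trans hus)) hr.2) hc
    have hNo : NoCt Φ ε Z (ls c) u :=
      ⟨h0, hborn, hu, fun t k ht => key t k ht (le_min (ht.trans hus) (ht.trans hlt.le))⟩
    intro hlk
    have hθc : s ≤ Z.thetaL Φ ε K T (ls c) := by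
      rwa [hNo.thetaL_reb hΦ hε h4.a] at hsc
    have hne : (⟨c, hcF⟩ : (insert c E : Finset κ)) ≠ ⟨k, hEF hk⟩ := fun h =>
      hcE (by
        have h1 : c = k := congrArg (fun y : (insert c E : Finset κ) => y.1) h
        rw [h1]
        exact hk)
    exact hnl _ _ hne s hs0 hsT hθc (hsE k hk) (link_reb hNo hΦ hε h4.a hlk)
  rintro ⟨j, hj⟩ ⟨k, hk⟩ hjk
  rcases Finset.mem_insert.1 hj with rfl | hjE <;> rcases Finset.mem_insert.1 hk with rfl | hkE
  · exact absurd rfl hjk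
  · change ¬ Z.LINK Φ ε K (MW.line (ls' j)) (MW.line (ls' k)) s
    rw [hc', hE k hkE]
    exact claim k hkE
  · change ¬ Z.LINK Φ ε K (MW.line (ls' j)) (MW.line (ls' k)) s
    rw [hc', hE j hjE]
    exact fun h => claim j hjE (link_symm h)
  · change ¬ Z.LINK Φ ε K (MW.line (ls' j)) (MW.line (ls' k)) s
    rw [hE j hjE, hE k hkE]
    exact hnl ⟨j, hj⟩ ⟨k, hk⟩ hjk s hs0 hsT (hsE j hjE) (hsE k hkE)

/-- **`UnlB` for the family with the reborn line `c`**, from the pairwise unlinked family with `c`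
(helper879's `E4Hyp`), if `c` has no contact up to `u` in the world `Z + exits + c`. -/
theorem unlB_reb (hΦ : AdmissiblePotential Φ) (hε : 0 < ε) (hT : 0 ≤ T) {c : κ} (hcE : c ∉ E)
    {ls' : κ → ML} {u : ℝ} (h : E4Hyp Φ ε K T Z ls E (insert c E))
    (hok' : MW.OkFam Φ ε Z (fun x : (insert c E : Finset κ) => ls' x))
    (hE : ∀ i ∈ E, ls' i = ls i) (hc' : ls' c = reb (ls c) u)
    (hborn : ∀ k, 0 ≤ Z.b k) (hbE : ∀ i ∈ E, 0 ≤ (ls i).1.1) (h0 : 0 ≤ (ls c).1.1)
    (hu : (ls c).1.1 ≤ u) (hm : (ls c).2 ≤ K)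
    (hno : ∀ t (x : ι ⊕ E), t ≤ u → ¬ ((Z.add (sub ls E)).ins (ls c)).C Φ ε t (Sum.inr ())
      (Sum.inl x)) : UnlB (thF Φ ε K T Z ls') E (insert c E) := by
  rintro A₀ (rfl | ⟨d, hd, rfl⟩)
  · exact unlAt_of_noLkF hΦ hε hT hok' (noLkF_reb hΦ hε hT hcE h.ok h.nl hE hc' hborn h0 hu hm
      fun t k ht => hno t (Sum.inl k) ht)
  · have hdF : d ∈ insert c E := Finset.mem_insert_of_mem hd
    have hcd : c ≠ d := fun h => hcE (h ▸ hd)
    have hF : (insert c E).erase d = insert c (E.erase d) := Finset.erase_insert_of_ne hcd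
    have hcE' : c ∉ E.erase d := fun h => hcE (Finset.mem_of_mem_erase h)
    refine unlAt_singleton' hΦ hε hT hok' hdF ?_
    rw [hE d hd]
    have hok1 := okFam_ins hΦ hε h.ok hdF
    have hnl1 := h.nld d hd
    rw [hF] at hok1 hnl1 ⊢
    refine noLkF_reb hΦ hε hT hcE' hok1 hnl1 (fun i hi => hE i (Finset.mem_of_mem_erase hi)) hc' ?_
      h0 hu hm ?_
    · rintro (k | k)
      · exact hborn k
      · exact hbE d hd
    · intro t k ht hc
      have hG : d ∉ E.erase d := Finset.notMem_erase d E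
      have hI : insert d (E.erase d) = E := Finset.insert_erase hd
      have hc2 : ((Z.add (sub ls (insert d (E.erase d)))).ins (ls c)).C Φ ε t (Sum.inr ())
          (Sum.inl (((Equiv.sumAssoc ι Unit (E.erase d : Finset κ)).trans
            (Equiv.sumCongr (Equiv.refl ι) ((Equiv.sumComm Unit (E.erase d : Finset κ)).trans
              (insertEquiv hG)))) (Sum.inl k))) := by
        have h1 := ins_comap _ (sub_insert_base (Z := Z) (ls := ls) hG).symm (ls c)
        rw [← h1, C_comap hΦ hε] at hc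
        exact hc
      revert hc2
      generalize (((Equiv.sumAssoc ι Unit (E.erase d : Finset κ)).trans
            (Equiv.sumCongr (Equiv.refl ι) ((Equiv.sumComm Unit (E.erase d : Finset κ)).trans
              (insertEquiv hG)))) (Sum.inl k)) = x
      revert x
      rw [hI]
      exact fun x => hno t x ht

/-- The same for any instance of decidable equality. -/
theorem unlB_reb' [dec : DecidableEq κ] (hΦ : AdmissiblePotential Φ) (hε : 0 < ε) (hT : 0 ≤ T)
    {c : κ} (hcE : c ∉ E) (hF : ∀ x, x ∈ F ↔ x = c ∨ x ∈ E)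
    {ls' : κ → ML} {u : ℝ} (h : E4Hyp Φ ε K T Z ls E F)
    (hok' : MW.OkFam Φ ε Z (fun x : F => ls' x))
    (hE : ∀ i ∈ E, ls' i = ls i) (hc' : ls' c = reb (ls c) u)
    (hborn : ∀ k, 0 ≤ Z.b k) (hbE : ∀ i ∈ E, 0 ≤ (ls i).1.1) (h0 : 0 ≤ (ls c).1.1)
    (hu : (ls c).1.1 ≤ u) (hm : (ls c).2 ≤ K)
    (hno : ∀ t (x : ι ⊕ E), t ≤ u → ¬ ((Z.add (sub ls E)).ins (ls c)).C Φ ε t (Sum.inr ())
      (Sum.inl x)) : @UnlB κ dec ℝ _ (thF Φ ε K T Z ls') E F := by
  have hd : dec = fun a b => Classical.propDecidable (a = b) := Subsingleton.elim _ _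
  subst hd
  have hF' : F = insert c E := by
    ext x
    rw [hF, Finset.mem_insert]
  subst hF'
  exact unlB_reb hΦ hε hT hcE h hok' hE hc' hborn hbE h0 hu hm hno

/-- helper879's `E4Hyp.unlB` for any instance of decidable equality. -/
theorem unlB_of_E4Hyp [dec : DecidableEq κ] (hΦ : AdmissiblePotential Φ) (hε : 0 < ε)
    (hT : 0 ≤ T) (hEF : E ⊆ F) (h : E4Hyp Φ ε K T Z ls E F) :
    @UnlB κ dec ℝ _ (thF Φ ε K T Z ls) E F := by
  have hd : dec = fun a b => Classical.propDecidable (a = b) := Subsingleton.elim _ _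
  subst hd
  exact h.unlB hΦ hε hT hEF

end

end Crest.Agent.R122.UnlC263
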