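import Crest.Agent.R122.Fin_410
import Crest.Agent.R122.TopDefs_602

/-!
# Unweighting, uniformly in time (row 122)

* `JE_s_le` : (U4) at every time of the window, `JE s ≤ JE tw + C e^{LM} aE + C / M`.
* `JSup_te` : `JSup tw` and `aE` small give `JSup te`.
-/

set_option autoImplicit false
set_option linter.unusedSectionVars false

open MeasureTheory Set Filter Topology
open scoped ENNReal
open Crest.AnalysisR.Kinetic
open Crest.Agent.R122.Flow671 Crest.Agent.R122.Loc45 Crest.Agent.R122.Causal291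
open Crest.Agent.R122.Ins45
open Crest.Agent.R122.Inf879 Crest.Agent.R122.GC311 Crest.Agent.R122.Master566
open Crest.Agent.R122.Energy410 Crest.Agent.R122.EDefs602 Crest.Agent.R122.EW370
open Crest.Agent.R122.Mom974 Crest.Agent.R122.MeasE416 Crest.Agent.R122.Top602

namespace Crest.Agent.R122.Unw410

noncomputable section

variable {Φ : Space3 → ℝ} {f₀ : PhasePoint → ℝ} {ε : ℝ} {K : ℕ}

/-- **(U4)**: the energy of the infected family at every time of the window. -/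
theorem JE_s_le (hΦ : AdmissiblePotential Φ) (hf : Measurable f₀) (hε : 0 < ε) (hε1 : ε ≤ 1)
    {P : EPar} (hL : 0 ≤ P.L) (htw : 0 ≤ P.tw) {s : ℝ} (hs1 : P.tw ≤ s) (hs2 : s ≤ P.te)
    {γ₀ : ℝ} (hγm : Measurable P.γ) (hγ : ∀ τ ∈ Ioc 0 P.te, γ₀ ≤ P.γ τ) {M : ℝ} (hM : 0 < M)
    (hρ : P.ρ < 1) (hγ0 : 0 < γ₀) :
    JE Φ f₀ ε K s ≤ JE Φ f₀ ε K P.tw +
      ENNReal.ofReal (cB Φ) * ENNReal.ofReal (Real.exp (P.L * M)) * aE Φ f₀ ε K P +
      (c1 Φ * (cX γ₀ P.ρ P.te * c1 Φ)) / ENNReal.ofReal M * sqY f₀ ε := by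
  have hte : P.tw ≤ P.te := hs1.trans hs2
  have hcX : cX γ₀ P.ρ P.te ≠ ∞ := (cX_lt_top hγ0 hρ _).ne
  have hc1 : c1 Φ ≠ ∞ := ENNReal.ofReal_ne_top
  have hMt : (c1 Φ * (cX γ₀ P.ρ P.te * c1 Φ)) / ENNReal.ofReal M ≠ ∞ :=
    ENNReal.div_ne_top (ENNReal.mul_ne_top hc1 (ENNReal.mul_ne_top hcX hc1)) (by simpa using hM)
  have hpt : ∀ n, ∀ w ∈ PairExcluded ε n, (activity ε)⁻¹ *
      ENNReal.ofReal (Jeng Φ ε (bad Φ ε K (w : Config n) s) (flow Φ ε s w)) ≤
      (activity ε)⁻¹ *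
        ENNReal.ofReal (Jeng Φ ε (bad Φ ε K (w : Config n) P.tw) (flow Φ ε P.tw w)) +
      ENNReal.ofReal (cB Φ) * ENNReal.ofReal (Real.exp (P.L * M)) * ((activity ε)⁻¹ *
        aW Φ ε K P (w : Config n) ((MW.cfg w).Wm Φ ε K P)) +
      (c1 Φ * (cX γ₀ P.ρ P.te * c1 Φ)) / ENNReal.ofReal M * Y1 ε w ^ 2 := by
    intro n w hw
    rcases le_or_gt ((MW.cfg w).X Φ ε K P P.te) (ENNReal.ofReal M) with hX | hX
    · refine le_trans ?_ (le_self_add)
      have h1 := ofReal_Jeng_bad_le (K := K) hΦ hε hw htw hs1 hs2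
      have h2 : ∑ p ∈ bad Φ ε K w s \ bad Φ ε K w P.tw,
          eW w (preC Φ ε w (iTime Φ ε K P.te w p) p) ≤ ENNReal.ofReal (Real.exp (P.L * M)) *
            aW Φ ε K P w ((MW.cfg w).Wm Φ ε K P) := by
        refine le_exp_mul (sum_window_le hΦ hε w htw hs1 hs2 fun p hp => ?_)
        exact Wm_ge hL hM.le hX ((mem_window hΦ hε w htw hs1 hs2 hp).2.trans hs2)
      calc _ ≤ (activity ε)⁻¹ *
            (ENNReal.ofReal (Jeng Φ ε (bad Φ ε K w P.tw) (flow Φ ε P.tw w)) +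
              ENNReal.ofReal (cB Φ) * (ENNReal.ofReal (Real.exp (P.L * M)) *
            aW Φ ε K P w ((MW.cfg w).Wm Φ ε K P))) := by
            gcongr
            exact h1.trans (by gcongr)
        _ = _ := by ring
    · refine le_trans ?_ (le_add_self)
      have h1 : ENNReal.ofReal (Jeng Φ ε (bad Φ ε K w s) (flow Φ ε s w)) ≤
          ENNReal.ofReal (totE Φ w) := ENNReal.ofReal_le_ofReal
        (Jeng_le_total hΦ hε (far_of_mem hw) (htw.trans hs1)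
          fun i hi j hj => (bad_iso w s i hi j hj).le)
      have h2 := one_le_of_lt hM hX (X_le_Y1 hΦ hε hε1 hw (htw.trans hte) hγm hγ le_rfl)
      calc _ ≤ (activity ε)⁻¹ * ENNReal.ofReal (totE Φ w) := by gcongr
        _ ≤ c1 Φ * Y1 ε w := act_totE_le w
        _ ≤ c1 Φ * Y1 ε w * (cX γ₀ P.ρ P.te * c1 Φ * Y1 ε w / ENNReal.ofReal M) :=
            le_mul_of_one_le_right' h2
        _ = _ := by simp only [div_eq_mul_inv]; ring
  have hm1 : ∀ n, Measurable fun w : Config n => (activity ε)⁻¹ *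
        ENNReal.ofReal (Jeng Φ ε (bad Φ ε K (w : Config n) P.tw) (flow Φ ε P.tw w)) := fun n =>
    (measurable_Jeng_bad hΦ hε n P.tw).ennreal_ofReal.const_mul _
  have hm2 : ∀ n, Measurable fun w : Config n => (activity ε)⁻¹ *
        aW Φ ε K P (w : Config n) ((MW.cfg w).Wm Φ ε K P) := fun n =>
    measurable_aE_integrand hΦ hε K P n
  calc JE Φ f₀ ε K s ≤ gcE f₀ ε (fun n w => ((activity ε)⁻¹ *
        ENNReal.ofReal (Jeng Φ ε (bad Φ ε K (w : Config n) P.tw) (flow Φ ε P.tw w)) +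
      ENNReal.ofReal (cB Φ) * ENNReal.ofReal (Real.exp (P.L * M)) * ((activity ε)⁻¹ *
        aW Φ ε K P (w : Config n) ((MW.cfg w).Wm Φ ε K P))) +
      (c1 Φ * (cX γ₀ P.ρ P.te * c1 Φ)) / ENNReal.ofReal M * Y1 ε w ^ 2) := by
        rw [JE_eq]
        exact gcE_mono f₀ ε hpt
    _ = _ := by
        rw [gcE_add hf ε (F := fun n w => (activity ε)⁻¹ *
        ENNReal.ofReal (Jeng Φ ε (bad Φ ε K (w : Config n) P.tw) (flow Φ ε P.tw w)) +
      ENNReal.ofReal (cB Φ) * ENNReal.ofReal (Real.exp (P.L * M)) * ((activity ε)⁻¹ *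
        aW Φ ε K P (w : Config n) ((MW.cfg w).Wm Φ ε K P)))
          (fun n => (hm1 n).add ((hm2 n).const_mul _)), gcE_add hf ε hm1,
          gcE_const_mul f₀ ε (ENNReal.mul_ne_top ENNReal.ofReal_ne_top ENNReal.ofReal_ne_top),
          gcE_const_mul f₀ ε hMt]
        rfl

theorem JE_le_iSup {t s : ℝ} (hs : s ∈ Icc 0 t) :
    JE Φ f₀ ε K s ≤ ⨆ s ∈ Icc 0 t, JE Φ f₀ ε K s := le_iSup₂ (f := fun s _ => JE Φ f₀ ε K s) s hs

/-- `JSup` gives the energy-weighted no escape at every earlier time. -/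
theorem JS_of_JSup {t s : ℝ} (hs : s ∈ Icc 0 t) (h : JSup Φ f₀ t) : JS Φ f₀ s :=
  Small.mono h fun _ _ _ => JE_le_iSup hs

theorem JSup_mono {t s : ℝ} (hs : s ≤ t) (h : JSup Φ f₀ t) : JSup Φ f₀ s :=
  Small.mono h fun _ _ _ => iSup₂_le fun _ hr => JE_le_iSup ⟨hr.1, hr.2.trans hs⟩

/-- **The uniform energy-weighted no-escape property propagates through the window.** -/
theorem JSup_te (hΦ : AdmissiblePotential Φ) (hf : Measurable f₀)
    (h1 : ∫⁻ z, ENNReal.ofReal (f₀ z) ≤ 1) {g : ℝ} (hg : 0 < g)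
    (hb : HasSummableGaussianBound g (fun x v => f₀ (x, v))) {P : EPar} (hP : PGood P)
    (hJ : JSup Φ f₀ P.tw) (ha : Small fun K ε => aE Φ f₀ ε K P) : JSup Φ f₀ P.te := by
  obtain ⟨γ₀, hγ0, hγ⟩ := hP.gam
  obtain ⟨C, hC, hCε⟩ := exists_sqY_le hg hf h1 hb
  have hc : c1 Φ * (cX γ₀ P.ρ P.te * c1 Φ) ≠ ∞ :=
    ENNReal.mul_ne_top ENNReal.ofReal_ne_top
      (ENNReal.mul_ne_top (cX_lt_top hγ0 hP.rho _).ne ENNReal.ofReal_ne_top)
  choose M hM hMle using fun (δ : ℝ) (hδ : 0 < δ) => exists_M_le hc hC hδ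
  refine Small.of_forall_le (Q := fun δ K ε => (⨆ s ∈ Icc 0 P.tw, JE Φ f₀ ε K s) +
    ENNReal.ofReal (cB Φ) *
    ENNReal.ofReal (Real.exp (P.L * if hδ : 0 < δ then M δ hδ else 0)) * aE Φ f₀ ε K P) ?_ ?_
  · intro δ hδ
    exact Small.add hJ (ha.const_mul
      (ENNReal.mul_ne_top ENNReal.ofReal_ne_top ENNReal.ofReal_ne_top))
  · intro δ hδ
    refine (EvK.of_eps one_pos fun K ε hε hε1 => ?_).ev
    rw [dif_pos hδ]
    refine iSup₂_le fun s hs => ?_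
    rcases le_total s P.tw with h | h
    · exact (JE_le_iSup ⟨hs.1, h⟩).trans (le_self_add.trans le_add_self)
    · refine (JE_s_le hΦ hf hε hε1.le hP.L hP.tw h hs.2 hP.meas hγ (hM δ hδ) hP.rho hγ0).trans ?_
      rw [add_comm (ENNReal.ofReal δ)]
      gcongr
      · exact JE_le_iSup ⟨hP.tw, le_rfl⟩
      · refine le_trans ?_ (hMle δ hδ)
        gcongr
        exact hCε ε hε hε1.le

end

end Crest.Agent.R122.Unw410
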