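import Crest.Agent.R122.VCA_442
import Crest.Agent.R122.PartProd_973

/-!
# Row 122, D3 (helper973): from the fixed-velocity bound of helper442 to `VC`

* `gaussK` : Gaussian integral of a power of the speed bound.
* `VcB` : the fixed-velocity bound; `vc_of_vcB : VcB Φ → VC Φ`.
-/

set_option autoImplicit false

open MeasureTheory Set Filter Topology
open scoped NNReal ENNReal Nat
open Crest.AnalysisR.Kinetic
open Crest.Agent.R122.Loc45 Crest.Agent.R122.GC311
open Crest.Agent.R122.VL581 Crest.Agent.R122.VL581.VSys Crest.Agent.R122.VLInst442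

noncomputable section

namespace Crest.Agent.R122.VC973

theorem one_add_sum_le_prod {J : Type} (s : Finset J) (a : J → ℝ) (ha : ∀ j, 0 ≤ a j) :
    1 + ∑ j ∈ s, a j ≤ ∏ j ∈ s, (1 + a j) := by
  classical
  induction s using Finset.induction_on with
  | empty => simp
  | insert i s hi ih =>
    rw [Finset.sum_insert hi, Finset.prod_insert hi]
    have h0 : 0 ≤ ∑ j ∈ s, a j := Finset.sum_nonneg fun j _ => ha j
    have h1 := ha i
    nlinarith

theorem pow_le_gauss {β : ℝ} (hβ : 0 < β) (n : ℕ) {r : ℝ} (hr : 0 ≤ r) :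
    (1 + r) ^ n ≤ ((n ! : ℝ) * Real.exp (1 + 1 / (2 * β))) * Real.exp (β / 2 * r ^ 2) := by
  have h1 := Real.pow_div_factorial_le_exp (1 + r) (by positivity) n
  have h0 : (0 : ℝ) < (n ! : ℝ) := by exact_mod_cast Nat.factorial_pos n
  rw [div_le_iff₀ h0] at h1
  refine h1.trans ?_
  rw [mul_comm, mul_assoc, ← Real.exp_add]
  refine mul_le_mul_of_nonneg_left (Real.exp_le_exp.2 ?_) h0.le
  have h2 : 0 ≤ (β * r - 1) ^ 2 / (2 * β) := by positivity
  have h3 : (β * r - 1) ^ 2 / (2 * β) = β / 2 * r ^ 2 - r + 1 / (2 * β) := by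
    field_simp
    ring
  rw [h3] at h2
  linarith

/-- One-particle Gaussian moment. -/
theorem gauss_one {β : ℝ} (hβ : 0 < β) (n : ℕ) :
    ∫⁻ v : Space3, ENNReal.ofReal (Real.exp (-β * ‖v‖ ^ 2)) * ENNReal.ofReal ((1 + ‖v‖) ^ n) < ⊤ := by
  set c : ℝ := (n ! : ℝ) * Real.exp (1 + 1 / (2 * β)) with hc
  have hc0 : 0 ≤ c := by positivity
  have hG := lintegral_gaussian_lt_top (γ := β / 2) (by positivity)
  have hle : ∀ v : Space3, ENNReal.ofReal (Real.exp (-β * ‖v‖ ^ 2)) *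
      ENNReal.ofReal ((1 + ‖v‖) ^ n) ≤
      ENNReal.ofReal c * ENNReal.ofReal (Real.exp (-(β / 2 * ‖v‖ ^ 2))) := by
    intro v
    rw [← ENNReal.ofReal_mul (Real.exp_pos _).le, ← ENNReal.ofReal_mul hc0]
    refine ENNReal.ofReal_le_ofReal ?_
    calc Real.exp (-β * ‖v‖ ^ 2) * (1 + ‖v‖) ^ n
        ≤ Real.exp (-β * ‖v‖ ^ 2) * (c * Real.exp (β / 2 * ‖v‖ ^ 2)) :=
          mul_le_mul_of_nonneg_left (pow_le_gauss hβ n (norm_nonneg v)) (Real.exp_pos _).le
      _ = c * (Real.exp (-β * ‖v‖ ^ 2) * Real.exp (β / 2 * ‖v‖ ^ 2)) := by ring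
      _ = _ := by
          rw [← Real.exp_add]
          congr 2
          ring
  refine (lintegral_mono hle).trans_lt ?_
  rw [lintegral_const_mul' _ _ ENNReal.ofReal_ne_top]
  exact ENNReal.mul_lt_top ENNReal.ofReal_lt_top hG

theorem spd_le (Φ : Space3 → ℝ) (m : ℕ) {V : ℝ} (hV : 0 ≤ V) :
    spd Φ m V ≤ ((m + 1) * (2 * stabB Φ + 3)) * (1 + V) := by
  have hB := stabB_nonneg Φ
  unfold spd
  refine Real.sqrt_le_iff.2 ⟨by positivity, ?_⟩
  have hm : (0 : ℝ) ≤ m := by positivity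
  have e1 : (m : ℝ) * (V ^ 2 + 2 * stabB Φ + 3) ≤ (m + 1) * ((2 * stabB Φ + 3) * (1 + V) ^ 2) := by
    have : V ^ 2 + 2 * stabB Φ + 3 ≤ (2 * stabB Φ + 3) * (1 + V) ^ 2 := by nlinarith
    have h2 : 0 ≤ V ^ 2 + 2 * stabB Φ + 3 := by positivity
    nlinarith
  refine e1.trans ?_
  have e2 : ((m : ℝ) + 1) * (2 * stabB Φ + 3) ≤ ((m + 1) * (2 * stabB Φ + 3)) ^ 2 := by
    have : (1 : ℝ) ≤ (m + 1) * (2 * stabB Φ + 3) := by nlinarith
    nlinarith
  calc ((m : ℝ) + 1) * ((2 * stabB Φ + 3) * (1 + V) ^ 2)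
      = (((m : ℝ) + 1) * (2 * stabB Φ + 3)) * (1 + V) ^ 2 := by ring
    _ ≤ ((m + 1) * (2 * stabB Φ + 3)) ^ 2 * (1 + V) ^ 2 :=
        mul_le_mul_of_nonneg_right e2 (by positivity)
    _ = _ := by ring

theorem measurable_gaussI {J : Type} [Fintype J] (Φ : Space3 → ℝ) (β a L : ℝ) (m n : ℕ) :
    Measurable fun v : J → Space3 => (∏ j, ENNReal.ofReal (Real.exp (-β * ‖v j‖ ^ 2))) *
      ENNReal.ofReal ((a * (1 + (spd Φ m (∑ j, ‖v j‖) + L))) ^ n) := by
  unfold spd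
  fun_prop

/-- **Gaussian integral of a power of the speed bound.** -/
theorem gaussK {J : Type} [Fintype J] (Φ : Space3 → ℝ) {β a L : ℝ} (hβ : 0 < β) (ha : 0 ≤ a)
    (hL : 0 ≤ L) (m n : ℕ) :
    ∫⁻ v : J → Space3, (∏ j, ENNReal.ofReal (Real.exp (-β * ‖v j‖ ^ 2))) *
      ENNReal.ofReal ((a * (1 + (spd Φ m (∑ j, ‖v j‖) + L))) ^ n) < ⊤ := by
  have hB := stabB_nonneg Φ
  set c : ℝ := (m + 1) * (2 * stabB Φ + 3) with hc
  have hc0 : 0 ≤ c := by positivity
  set D : ℝ := (a * (1 + c + L)) ^ n with hD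
  have hD0 : 0 ≤ D := by positivity
  have hle : ∀ v : J → Space3, (∏ j, ENNReal.ofReal (Real.exp (-β * ‖v j‖ ^ 2))) *
      ENNReal.ofReal ((a * (1 + (spd Φ m (∑ j, ‖v j‖) + L))) ^ n) ≤
      ENNReal.ofReal D * ∏ j, (ENNReal.ofReal (Real.exp (-β * ‖v j‖ ^ 2)) *
        ENNReal.ofReal ((1 + ‖v j‖) ^ n)) := by
    intro v
    set V : ℝ := ∑ j, ‖v j‖ with hV
    have hV0 : 0 ≤ V := Finset.sum_nonneg fun j _ => norm_nonneg _
    have h1 := spd_le Φ m hV0
    have h2 : 1 + (spd Φ m V + L) ≤ (1 + c + L) * (1 + V) := by nlinarith [h1, hV0, hL]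
    have h3 := one_add_sum_le_prod Finset.univ (fun j => ‖v j‖) fun j => norm_nonneg _
    have h0 : 0 ≤ 1 + (spd Φ m V + L) := by
      have := spd_nonneg Φ m V
      linarith
    have h4 : (a * (1 + (spd Φ m V + L))) ^ n ≤ D * ∏ j, (1 + ‖v j‖) ^ n := by
      rw [hD, Finset.prod_pow, ← mul_pow]
      refine pow_le_pow_left₀ (mul_nonneg ha h0) ?_ n
      calc a * (1 + (spd Φ m V + L)) ≤ a * ((1 + c + L) * (1 + V)) :=
            mul_le_mul_of_nonneg_left h2 ha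
        _ ≤ a * ((1 + c + L) * ∏ j, (1 + ‖v j‖)) := by
            refine mul_le_mul_of_nonneg_left (mul_le_mul_of_nonneg_left h3 ?_) ha
            positivity
        _ = _ := by ring
    calc (∏ j, ENNReal.ofReal (Real.exp (-β * ‖v j‖ ^ 2))) *
          ENNReal.ofReal ((a * (1 + (spd Φ m V + L))) ^ n)
        ≤ (∏ j, ENNReal.ofReal (Real.exp (-β * ‖v j‖ ^ 2))) *
          ENNReal.ofReal (D * ∏ j, (1 + ‖v j‖) ^ n) :=
          mul_le_mul_right (ENNReal.ofReal_le_ofReal h4) _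
      _ = _ := by
          rw [ENNReal.ofReal_mul hD0, ENNReal.ofReal_prod_of_nonneg fun j _ => by positivity,
            Finset.prod_mul_distrib]
          ring
  refine (lintegral_mono hle).trans_lt ?_
  rw [lintegral_const_mul' _ _ ENNReal.ofReal_ne_top,
    PartProd973.lintegral_pi_prod' (ι := J) (X := fun _ => Space3)
      (w := fun _ v => ENNReal.ofReal (Real.exp (-β * ‖v‖ ^ 2)) * ENNReal.ofReal ((1 + ‖v‖) ^ n))
      (fun _ => by fun_prop)]
  exact ENNReal.mul_lt_top ENNReal.ofReal_lt_top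
    (ENNReal.prod_lt_top fun _ _ => gauss_one hβ n)

/-- **The bound at fixed velocities** (helper442). -/
def VcB (Φ : Space3 → ℝ) : Prop :=
  ∀ (J κ : Type) [Fintype J] [Fintype κ] (T C : ℝ) (L : ℝ≥0), ∃ K₁ : ℝ, 0 ≤ K₁ ∧
    ∀ M : VSys J κ, M.Φ = Φ → M.T = T → 0 < M.ε → M.ε ≤ 1 →
      (∀ k, LipschitzOnWith L (M.S.c k) (Icc 0 T)) →
      ∀ i₀ : J, (∀ j, M.o = some j → i₀ = j) → ∀ ρ : Space3 → ℝ≥0∞, Measurable ρ →
      ∀ v : J → Space3,
        ∫⁻ x : J → Space3, {x | M.Conn C Finset.univ (zip x v)}.indicator (fun x => ρ (x i₀)) x ≤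
          ENNReal.ofReal ((K₁ * (1 + (spd Φ (Fintype.card J) (∑ j, ‖v j‖) + L)) * M.ε ^ 2) ^
            (Fintype.card J - 1)) * ∫⁻ x, ρ x

/-- Integral over `J → Space3 × Space3` in the order positions, velocities. -/
theorem lintegral_zip_le {J : Type} [Fintype J] (f : (J → PhasePoint) → ℝ≥0∞) :
    ∫⁻ Z, f Z ≤ ∫⁻ v : J → Space3, ∫⁻ x : J → Space3, f (zip x v) := by
  have h1 := volume_measurePreserving_arrowProdEquivProdArrow Space3 Space3 J
  have h2 := (h1.symm _).lintegral_comp_emb (MeasurableEquiv.measurableEmbedding _) f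
  rw [← h2]
  have h3 : MeasurePreserving (Prod.swap : (J → Space3) × (J → Space3) → _)
      (volume.prod volume) (volume.prod volume) := Measure.measurePreserving_swap
  have h4 := h3.lintegral_comp_emb MeasurableEquiv.prodComm.measurableEmbedding
    (fun p => f ((MeasurableEquiv.arrowProdEquivProdArrow Space3 Space3 J).symm p))
  have h5 : ∫⁻ p : (J → Space3) × (J → Space3),
      f ((MeasurableEquiv.arrowProdEquivProdArrow Space3 Space3 J).symm p) =
      ∫⁻ p : (J → Space3) × (J → Space3),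
        f ((MeasurableEquiv.arrowProdEquivProdArrow Space3 Space3 J).symm p.swap) := h4.symm
  rw [h5]
  exact lintegral_prod_le _

/-- **VC from the fixed-velocity bound.** -/
theorem vc_of_vcB {Φ : Space3 → ℝ} (h : VcB Φ) : VC Φ := by
  classical
  intro J κ _ _ β T C L hβ
  obtain ⟨K₁, hK₁, hb⟩ := h J κ T C L
  set n : ℕ := Fintype.card J - 1 with hn
  set I : ℝ≥0∞ := ∫⁻ v : J → Space3, (∏ j, ENNReal.ofReal (Real.exp (-β * ‖v j‖ ^ 2))) *
      ENNReal.ofReal ((K₁ * (1 + (spd Φ (Fintype.card J) (∑ j, ‖v j‖) + L))) ^ n) with hI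
  have hIt : I < ⊤ := gaussK Φ hβ hK₁ L.2 (Fintype.card J) n
  refine ⟨I.toNNReal, ?_⟩
  intro M hMΦ hMT hε hε1 hL i₀ ho ρ hρ
  rw [ENNReal.coe_toNNReal hIt.ne]
  refine (lintegral_zip_le _).trans ?_
  have hin : ∀ v : J → Space3, ∫⁻ x : J → Space3,
      {Z | M.Conn C Finset.univ Z}.indicator (wgt β ρ i₀) (zip x v) ≤
      ((∏ j, ENNReal.ofReal (Real.exp (-β * ‖v j‖ ^ 2))) *
      ENNReal.ofReal ((K₁ * (1 + (spd Φ (Fintype.card J) (∑ j, ‖v j‖) + L))) ^ n)) *
        (ENNReal.ofReal (M.ε ^ (2 * n)) * ∫⁻ x, ρ x) := by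
    intro v
    have h1 : ∀ x : J → Space3, {Z | M.Conn C Finset.univ Z}.indicator (wgt β ρ i₀) (zip x v) =
        (∏ j, ENNReal.ofReal (Real.exp (-β * ‖v j‖ ^ 2))) *
        {x | M.Conn C Finset.univ (zip x v)}.indicator (fun x => ρ (x i₀)) x := by
      intro x
      by_cases hx : M.Conn C Finset.univ (zip x v)
      · rw [indicator_of_mem (show zip x v ∈ {Z | M.Conn C Finset.univ Z} from hx),
          indicator_of_mem (show x ∈ {x | M.Conn C Finset.univ (zip x v)} from hx)]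
        unfold wgt
        rw [mul_comm]
        rfl
      · rw [indicator_of_notMem (show zip x v ∉ {Z | M.Conn C Finset.univ Z} from hx),
          indicator_of_notMem (show x ∉ {x | M.Conn C Finset.univ (zip x v)} from hx), mul_zero]
    simp_rw [h1]
    rw [lintegral_const_mul' _ _ (ENNReal.prod_ne_top fun _ _ => ENNReal.ofReal_ne_top)]
    have h2 := hb M hMΦ hMT hε hε1 hL i₀ ho ρ hρ v
    refine (mul_le_mul_right h2 _).trans (le_of_eq ?_)
    have hS : 0 ≤ K₁ * (1 + (spd Φ (Fintype.card J) (∑ j, ‖v j‖) + L)) := by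
      have := spd_nonneg Φ (Fintype.card J) (∑ j, ‖v j‖)
      have h3 : (0 : ℝ) ≤ L := L.2
      exact mul_nonneg hK₁ (by linarith)
    rw [mul_pow, ← pow_mul, ENNReal.ofReal_mul (pow_nonneg hS _)]
    ring
  refine (lintegral_mono hin).trans (le_of_eq ?_)
  rw [lintegral_mul_const _ (measurable_gaussI Φ β K₁ L _ n)]
  ring

end Crest.Agent.R122.VC973

end
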