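import Crest.Agent.R122.VLBInv_399

/-!
# Row 122, block D3 (B) (helper399): `AE` from `AGen` and `BInv`

* `sig_ne_bb`, `sig_inj`: the times of the edges are generic.
* `treeLike_of_invC`: the invariant gives `TreeLike`.
* `not_act_eventually`: an inactive merge tube is inactive for the approximations.
* `ae_treeLike`.
-/

set_option autoImplicit false
set_option linter.unusedSectionVars false

open MeasureTheory Set Filter Topology
open scoped ENNReal NNReal
open Crest.AnalysisR.Kinetic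
open Crest.Agent.R122.Ins45 Crest.Agent.R122.GIV566 Crest.Agent.R122.VLPar823
open Crest.Agent.R122.VLPar823.MTree
open Crest.Agent.R122.VLcore564 Crest.Agent.R122.VL581 Crest.Agent.R122.VLInst442

noncomputable section

namespace Crest.Agent.R122.VLInv399

open scoped Classical

section

variable {J κ : Type} [Fintype J] {M : ℕ → VSys J κ} {N : VSys J κ} {Bd : Set ℝ}

theorem sig_ne_bb : ∀ {τ : MTree J κ}, WF N.o τ → ∀ {π : Par τ} {z : PhasePoint}
    {x : J → PhasePoint}, N.Gen Bd τ π z x → ∀ {e : J × J}, e ∈ edg τ → ∀ p, sig τ π e ≠ N.bb p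
  | leaf j, _, _, _, _, _, e, he, _ => absurd he (Finset.notMem_empty e)
  | node A k i B l j P Q, hW, π, z, x, hG, e, he, p => by
    obtain ⟨hGP, hGQ, hGN⟩ := hG
    rcases mem_edg_node.1 he with rfl | he | he
    · rw [sig_new]
      exact hGN.tbb p
    · rw [sig_left hW π he]
      exact sig_ne_bb hW.2.2.2.2.2.2.1 hGP he p
    · rw [sig_right hW π he]
      exact sig_ne_bb hW.2.2.2.2.2.2.2 hGQ he p

theorem sig_inj : ∀ {τ : MTree J κ}, WF N.o τ → ∀ {u : ℝ} {π : Par τ} {z : PhasePoint}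
    {x : J → PhasePoint}, Ord τ u π → N.Gen Bd τ π z x → ∀ {e e' : J × J}, e ∈ edg τ →
    e' ∈ edg τ → e ≠ e' → sig τ π e ≠ sig τ π e'
  | leaf j, _, _, _, _, _, _, _, e, _, he, _, _ => absurd he (Finset.notMem_empty e)
  | node A k i B l j P Q, hW, u, π, z, x, hO, hG, e, e', he, he', hne => by
    obtain ⟨hGP, hGQ, hGN⟩ := hG
    have hWP := hW.2.2.2.2.2.2.1
    have hWQ := hW.2.2.2.2.2.2.2
    rcases mem_edg_node.1 he with rfl | h1 | h1 <;> rcases mem_edg_node.1 he' with rfl | h2 | h2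
    · exact absurd rfl hne
    · rw [sig_new, sig_left hW π h2]
      exact (sig_bounds hWP hO.2.2.1 h2).2.ne'
    · rw [sig_new, sig_right hW π h2]
      exact (sig_bounds hWQ hO.2.2.2 h2).2.ne'
    · rw [sig_new, sig_left hW π h1]
      exact (sig_bounds hWP hO.2.2.1 h1).2.ne
    · rw [sig_left hW π h1, sig_left hW π h2]
      exact sig_inj hWP hO.2.2.1 hGP h1 h2 hne
    · rw [sig_left hW π h1, sig_right hW π h2]
      exact hGN.tPQ e h1 e' h2
    · rw [sig_new, sig_right hW π h1]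
      exact (sig_bounds hWQ hO.2.2.2 h1).2.ne
    · rw [sig_right hW π h1, sig_left hW π h2]
      exact (hGN.tPQ e' h2 e h1).symm
    · rw [sig_right hW π h1, sig_right hW π h2]
      exact sig_inj hWQ hO.2.2.2 hGQ h1 h2 hne

/-- **TreeLike from the invariant.** -/
theorem treeLike_of_invC (hH : Hyp M N Bd) {τ : MTree J κ} (hW : WF N.o τ) {π : Par τ}
    {z : PhasePoint} {x : J → PhasePoint} (hO : Ord τ N.T π) (hG : N.Gen Bd τ π z x)
    {Z : ℕ → J → PhasePoint} {Zl : J → PhasePoint} (hI : InvC M N τ π Z Zl) (C : ℝ)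
    {R ς : ℕ → ℝ} (hR : Tendsto R atTop atTop) (hς : Tendsto ς atTop (𝓝 0)) :
    ∀ᶠ n in atTop, (M n).TreeLike C (R n * (M n).ε) (ς n) (supp τ) (Z n) := by
  obtain ⟨R₀, hR₀⟩ := hI.ct C
  have h1 : ∀ᶠ n in atTop, ∀ e ∈ edg τ, ς n < sig τ π e ∧ sig τ π e < N.T - ς n := by
    rw [Filter.eventually_all_finset]
    intro e he
    have hb := sig_bounds hW hO he
    have h2 : Tendsto (fun n => N.T - ς n) atTop (𝓝 (N.T - 0)) := tendsto_const_nhds.sub hς
    rw [sub_zero] at h2
    exact (hς.eventually (gt_mem_nhds hb.1)).and (h2.eventually (lt_mem_nhds hb.2))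
  have h2 : ∀ᶠ n in atTop, ∀ e ∈ edg τ, ∀ i, ς n < |sig τ π e - (M n).b i| := by
    rw [Filter.eventually_all_finset]
    intro e he
    rw [eventually_all]
    intro i
    have hb := sig_bounds hW hO he
    have hne : sig τ π e ≠ N.b i := by
      intro h
      have h3 := sig_ne_bb hW hG he i
      unfold VSys.bb at h3
      rw [max_eq_left (by rw [← h]; exact hb.1.le)] at h3
      exact h3 h
    have h3 : Tendsto (fun n => |sig τ π e - (M n).b i| - ς n) atTop
        (𝓝 (|sig τ π e - N.b i| - 0)) :=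
      ((tendsto_const_nhds.sub (hH.births i)).abs).sub hς
    rw [sub_zero] at h3
    filter_upwards [h3.eventually (lt_mem_nhds (abs_pos.2 (sub_ne_zero.2 hne)))] with n hn
    linarith
  have h3 : ∀ᶠ n in atTop, ∀ e ∈ edg τ, ∀ e' ∈ edg τ, e ≠ e' →
      ς n < |sig τ π e - sig τ π e'| := by
    rw [Filter.eventually_all_finset]
    intro e he
    rw [Filter.eventually_all_finset]
    intro e' he'
    by_cases hne : e = e'
    · exact Eventually.of_forall fun _ h => absurd hne h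
    · exact (hς.eventually (gt_mem_nhds (abs_pos.2 (sub_ne_zero.2
        (sig_inj hW hO hG he he' hne))))).mono fun n hn _ => hn
  filter_upwards [h1, h2, h3, hI.ok, hR₀, hR.eventually_ge_atTop R₀] with n g1 g2 g3 g4 g5 g6
  obtain ⟨e1, e2, e3, e4⟩ := hH.eq n
  refine ⟨fun A hA => by rw [e2]; exact g4 A hA, edg τ, sig τ π, edg_card hW,
    fun e he => ⟨(edg_supp hW he).1, (edg_supp hW he).2, edg_ne hW he⟩, ?_, g2, g3, ?_⟩
  · intro e he
    rw [e2]
    exact g1 e he
  · intro i hi j hj hij t ht hct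
    obtain ⟨A, hA, B, hB, k, l, hiA, hjB, -, -, a1, a2, hd⟩ := hct
    rw [e2] at ht
    obtain ⟨e, he, hee, hte⟩ := g5 A hA B hB k l i hiA j hjB hij t ht a1 a2 hd
    exact ⟨e, he, hee, hte.trans (mul_le_mul_of_nonneg_right g6 e4.le)⟩

theorem not_act_eventually (hH : Hyp M N Bd) : ∀ (τ : MTree J κ) (π : Par τ), ¬ Act N τ π →
    ∀ᶠ n in atTop, ¬ Act (M n) τ π
  | leaf j => fun π h => absurd trivial h
  | node A k i B l j P Q => fun π h => by
    by_cases h1 : N.o = some i → π.1.1 ≤ N.S.b k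
    · by_cases h2 : Act N P π.2.1
      · have h3 : ¬ Act N Q π.2.2 := fun h3 => h ⟨h1, h2, h3⟩
        exact (not_act_eventually hH Q π.2.2 h3).mono fun n hn hA => hn hA.2.2
      · exact (not_act_eventually hH P π.2.1 h2).mono fun n hn hA => hn hA.2.1
    · push Not at h1
      have h4 := (hH.tubes.active k).eventually (gt_mem_nhds h1.2)
      filter_upwards [h4] with n hn hA
      obtain ⟨e1, e2, e3, e4⟩ := hH.eq n
      exact absurd (hA.1 (by rw [e3]; exact h1.1)) (not_le.2 hn)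

end

/-- **(A)** almost all parameters with active merge tubes are generic. -/
def AGenA (Φ : Space3 → ℝ) : Prop :=
  ∀ (J κ : Type) [Fintype J] [Fintype κ] (N : VSys J κ) (Bd : Set ℝ), N.Φ = Φ → 0 < N.T →
    Bd.Finite → (∃ L : ℝ≥0, ∀ k, LipschitzOnWith L (N.S.c k) (Icc 0 N.T)) → Generic N.T N.S →
    ∀ τ : MTree J κ, WF N.o τ → ∀ x : J → PhasePoint,
      ∀ᵐ p : Par τ × PhasePoint, Ord τ N.T p.1 → Act N τ p.1 → N.Gen Bd τ p.1 p.2 x

/-- **AE, with active merge tubes**. -/
theorem ae_treeLike {Φ : Space3 → ℝ} (hΦ : AdmissiblePotential Φ) (hA : AGenA Φ) (hB : BInv Φ)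
    (J κ : Type) [Fintype J] [Fintype κ] (T C : ℝ) (hT : 0 < T)
    (M : ℕ → VSys J κ) (o : Option J) (b : J → ℝ) (S : Tubes κ) (R ς : ℕ → ℝ)
    (hM : ∀ k, (M k).Φ = Φ ∧ (M k).T = T ∧ (M k).o = o ∧ 0 < (M k).ε)
    (hε : Tendsto (fun k => (M k).ε) atTop (𝓝 0))
    (hb : ∀ i, Tendsto (fun k => (M k).b i) atTop (𝓝 (b i)))
    (hS : TubeConv T (fun k => (M k).S) S) (hgen : Generic T S)
    (hR : Tendsto R atTop atTop) (hς : Tendsto ς atTop (𝓝 0))
    (τ : MTree J κ) (hW : WF o τ) (hsupp : supp τ = Finset.univ) :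
    ∀ᵐ p : Par τ × PhasePoint, Ord τ T p.1 →
      ∀ᶠ k in atTop, Act (M k) τ p.1 →
        (M k).TreeLike C (R k * (M k).ε) (ς k) Finset.univ (ov (M k) τ p.1 p.2 0) := by
  set N : VSys J κ := { Φ := Φ, T := T, ε := 1, b := b, o := o, S := S } with hN
  obtain ⟨Bd, hBd, hvel⟩ := hS.vel
  have hH : Hyp M N Bd :=
    { adm := hΦ
      Tpos := hT
      eq := hM
      eps := hε
      births := hb
      tubes := hS
      gen := hgen
      fin := hBd
      vel := hvel }
  obtain ⟨L, -, hL⟩ := hS.lip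
  filter_upwards [hA J κ N Bd rfl hT hBd ⟨L, hL⟩ hgen τ hW 0] with p hp hO
  by_cases hact : Act N τ p.1
  · have hG := hp hO hact
    have hI := hB J κ M N Bd rfl hH τ hW p.1 p.2 0 hO hact hG
    have h1 := treeLike_of_invC hH hW hO hG hI C hR hς
    rw [hsupp] at h1
    exact h1.mono fun n hn _ => hn
  · exact (not_act_eventually hH τ p.1 hact).mono fun n hn h => absurd h hn

/-- **AE from (A) and (B)**. -/
theorem ae_of_AB {Φ : Space3 → ℝ} (hΦ : AdmissiblePotential Φ) (hA : AGenA Φ) (hB : BInv Φ) :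
    AE Φ := by
  intro J κ _ _ T C hT _ M o b S R ς hM hε hb hS hgen hR hς τ hW hsupp
  filter_upwards [ae_treeLike hΦ hA hB J κ T C hT M o b S R ς hM hε hb hS hgen hR hς τ hW hsupp]
    with p hp hO
  exact (hp hO).mono fun k hk hact _ => hk hact

end Crest.Agent.R122.VLInv399

end
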