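import Crest.Agent.R122.VLPlace_399

/-!
# Row 122, block D3 (B) (helper399): `BInv` from `NodeStep`

* `BInv Φ`: generic parameters (with active merge tubes) satisfy the invariant.
* `binv_of_nodeStep : NodeStep Φ → BInv Φ`.
-/

set_option autoImplicit false
set_option linter.unusedSectionVars false

open MeasureTheory Set Filter Topology
open scoped ENNReal NNReal
open Crest.AnalysisR.Kinetic
open Crest.Agent.R122.Ins45 Crest.Agent.R122.GIV566 Crest.Agent.R122.VLPar823
open Crest.Agent.R122.VLPar823.MTree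
open Crest.Agent.R122.VLcore564 Crest.Agent.R122.VL581 Crest.Agent.R122.VLInst442

noncomputable section

namespace Crest.Agent.R122.VLInv399

open scoped Classical

/-- **(B)** generic parameters with active merge tubes satisfy the invariant. -/
def BInv (Φ : Space3 → ℝ) : Prop :=
  ∀ (J κ : Type) [Fintype J] [Fintype κ] (M : ℕ → VSys J κ) (N : VSys J κ) (Bd : Set ℝ),
    N.Φ = Φ → Hyp M N Bd → ∀ τ : MTree J κ, WF N.o τ → ∀ (π : Par τ) (z : PhasePoint)
      (x : J → PhasePoint), Ord τ N.T π → Act N τ π → N.Gen Bd τ π z x → Inv M N τ π z x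

theorem binv_aux {Φ : Space3 → ℝ} (hNS : NodeStep Φ) {J κ : Type} [Fintype J] [Fintype κ]
    {M : ℕ → VSys J κ} {N : VSys J κ} {Bd : Set ℝ} (hN : N.Φ = Φ) (hH : Hyp M N Bd) :
    ∀ τ : MTree J κ, WF N.o τ → ∀ (u : ℝ), u ≤ N.T → ∀ (π : Par τ) (z : PhasePoint)
      (x : J → PhasePoint), Ord τ u π → Act N τ π → N.Gen Bd τ π z x →
      InvC M N τ π (fun n => ov (M n) τ π z x) (N.ovL τ π z x) ∧
        Coinc N τ π (N.ovL τ π z x) ∧ ∀ᶠ n in atTop, OkT (M n) τ π
  | leaf j => fun _ u hu π z x _ _ _ =>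
      ⟨invC_leaf hH j π (Function.update x j z), coinc_leaf j π _, Eventually.of_forall fun _ => trivial⟩
  | node A k i B l j P Q => fun hW u hu π z x hO hAct hG => by
    have hW' := hW
    obtain ⟨hd, hA, hB, hi, hj, hoQ, hWP, hWQ⟩ := hW'
    obtain ⟨ht0, htu, hOP, hOQ⟩ := hO
    obtain ⟨hact, hActP, hActQ⟩ := hAct
    obtain ⟨hGP, hGQ, hGN⟩ := hG
    have htT : π.1.1 < N.T := htu.trans_le hu
    obtain ⟨hIP, hCP, hOkP⟩ := binv_aux hNS hN hH P hWP π.1.1 htT.le π.2.1 z x hOP hActP hGP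
    obtain ⟨hIQ, hCQ, hOkQ⟩ := binv_aux hNS hN hH Q hWQ π.1.1 htT.le π.2.2 0 x hOQ hActQ hGQ
    set t : ℝ := π.1.1 with ht
    set ξ : Space3 := π.1.2.1 with hξ
    set g : Space3 := π.1.2.2 with hg
    have hoj : N.o ≠ some j := hoQ j (hB hj)
    -- states of the touching labels
    set p : ℕ → PhasePoint := fun n => ph (M n) A k t (ov (M n) P π.2.1 z x) i with hp
    set q : ℕ → PhasePoint := fun n => ph (M n) B l t (ov (M n) Q π.2.2 0 x) j with hq
    set pl : PhasePoint := N.phL P π.2.1 A k t (N.ovL P π.2.1 z x) i with hpl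
    set ql : PhasePoint := N.phL Q π.2.2 B l t (N.ovL Q π.2.2 0 x) j with hql
    have hp' := ph_tendsto hH hIP hA k hi ht0.le htT.le (tlast_lt hOP ht0)
    have hq' := ph_tendsto hH hIQ hB l hj ht0.le htT.le (tlast_lt hOQ ht0)
    set w : ℕ → PhasePoint := fun n => mv (M n).ε t (p n) (q n) ξ g with hw
    set wl : PhasePoint := mv 0 t pl ql ξ g with hwl
    have hw2 : ∀ᶠ n in atTop, (w n).2 = wl.2 := by
      filter_upwards [hp'.1, hq'.1] with n h1 h2
      show (p n).2 - g - (q n).2 = pl.2 - g - ql.2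
      rw [hp, hq, hpl, hql]
      simp only
      rw [h1, h2]
    have hw1 : Tendsto (fun n => (w n).1) atTop (𝓝 wl.1) := by
      have h1 : Tendsto (fun n => (p n).1 - (M n).ε • ξ - (q n).1 - t • wl.2) atTop
          (𝓝 (pl.1 - (0 : ℝ) • ξ - ql.1 - t • wl.2)) :=
        ((hp'.2.sub (hH.eps.smul_const ξ)).sub hq'.2).sub tendsto_const_nhds
      refine h1.congr' ?_
      filter_upwards [hw2] with n hn
      rw [← hn]
      rfl
    -- the overlay at the node
    have hnw : ∀ n, nw (M n) A k i B l j P Q t π.2.1 π.2.2 z x ξ g = w n := by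
      intro n
      have h1 : ph (M n) B l t (ov (M n) Q π.2.2 0 (ov (M n) P π.2.1 z x)) j = q n :=
        ph_loc' (fun b hb => ov_on' Q hWQ π.2.2 0 _ _ b (hB hb)) hj
      unfold nw
      rw [h1]
    set Z : ℕ → J → PhasePoint := fun n => ov (M n) (node A k i B l j P Q) π z x with hZ
    have hZP : ∀ n, ∀ y ∈ supp P, Z n y = ov (M n) P π.2.1 z x y := fun n y hy =>
      ov_node_left hW π z x hy
    have hZQ : ∀ᶠ n in atTop, ∀ y ∈ supp Q, Z n y = ov (M n) Q π.2.2 0 x y + w n := by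
      filter_upwards [hOkQ] with n hn y hy
      obtain ⟨e1, e2, e3, e4⟩ := hH.eq n
      show ov (M n) (node A k i B l j P Q) π z x y = _
      rw [ov_node, hnw n]
      have h1 := ov_cov' (M := M n) (by rw [e1]; exact hH.adm) e4 Q (by rw [e3]; exact hWQ)
        (by rw [e3]; exact hoQ) π.2.2 hn 0 (w n) (ov (M n) P π.2.1 z x) x y hy
      rwa [zero_add] at h1
    -- the limit
    have hwl' : mv 0 t pl (N.phL Q π.2.2 B l t (N.ovL Q π.2.2 0 (N.ovL P π.2.1 z x)) j) ξ g = wl := by
      have h1 : N.phL Q π.2.2 B l t (N.ovL Q π.2.2 0 (N.ovL P π.2.1 z x)) j = ql := by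
        have := VLGen692.ovL_congr N Q hWQ π.2.2 0 (N.ovL P π.2.1 z x) x (hB hj)
        simp only [hql, VSys.phL, VSys.Gam, this]
      rw [h1]
    set Zl : J → PhasePoint := N.ovL (node A k i B l j P Q) π z x with hZl
    have hZl' : ∀ y, Zl y = N.ovL Q π.2.2 wl (N.ovL P π.2.1 z x) y := by
      intro y
      rw [← hwl']
      rfl
    have hZlP : ∀ y ∈ supp P, Zl y = N.ovL P π.2.1 z x y := fun y hy => by
      rw [hZl' y, VLGen692.ovL_of_notMem N Q _ _ _ (not_mem_Q hW hy)]
    have hZlQ : ∀ y ∈ supp Q, Zl y = N.ovL Q π.2.2 0 x y + wl := fun y hy => by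
      have h1 := VLGen692.ovL_shift N Q hWQ hoQ π.2.2 0 wl x hy
      rw [zero_add] at h1
      rw [hZl' y, ← h1]
      exact VLGen692.ovL_congr N Q hWQ π.2.2 wl _ _ hy
    -- the invariants of the two parts
    have hIP' : InvC M N P π.2.1 Z Zl := invC_congr hIP (Eventually.of_forall hZP) hZlP
    have hIQ' : InvC M N Q π.2.2 Z Zl :=
      invC_congr (invC_shift hH hIQ hoQ hw2 hw1) hZQ hZlQ
    have hCP' : Coinc N P π.2.1 Zl := coinc_congr hCP hZlP
    have hCQ' : Coinc N Q π.2.2 Zl := coinc_congr (coinc_shift hCQ hoQ wl) hZlQ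
    -- the touching labels
    have hrel : ∀ᶠ m in atTop, ph (M m) A k t (Z m) i - ph (M m) B l t (Z m) j =
        ((M m).ε • π.1.2.1, π.1.2.2) := by
      filter_upwards [hZQ, hIQ.ok] with m h1 h2
      obtain ⟨e1, e2, e3, e4⟩ := hH.eq m
      have h3 : ph (M m) A k t (Z m) i = p m := ph_loc' (fun a ha => hZP m a (hA ha)) hi
      have h4 : ph (M m) B l t (Z m) j = q m + ((w m).1 + t • (w m).2, (w m).2) := by
        have h5 : ph (M m) B l t (Z m) j =
            ph (M m) B l t (fun y => ov (M m) Q π.2.2 0 x y + w m) j :=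
          ph_loc' (fun b hb => h1 b (hB hb)) hj
        rw [h5]
        exact ph_vadd (by rw [e1]; exact hH.adm) e4 (ok_anti htT.le (h2 B hB)) (w m)
          (by rw [e3]; exact hoj)
      rw [h3, h4]
      simp only [hw, mv]
      ext1
      · simp only [Prod.fst_sub, Prod.fst_add]
        module
      · simp only [Prod.snd_sub, Prod.snd_add]
        module
    have hrelL : N.phL P π.2.1 A k t Zl i - N.phL Q π.2.2 B l t Zl j = (0, π.1.2.2) := by
      have h3 : N.phL P π.2.1 A k t Zl i = pl := by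
        have := hZlP i (hA hi)
        simp only [hpl, VSys.phL, VSys.Gam, this]
      have h4 : N.phL Q π.2.2 B l t Zl j = ql + (wl.1 + t • wl.2, wl.2) :=
        VLGen692.phL_shift N hoj (hZlQ j (hB hj))
      rw [h3, h4]
      simp only [hwl, mv]
      ext1
      · simp only [Prod.fst_sub, Prod.fst_add]
        module
      · simp only [Prod.snd_sub, Prod.snd_add]
        module
    refine ⟨?_, ?_, ?_⟩
    · exact hNS J κ M N Bd hN hH A k i B l j P Q hW t π.1.2 π.2.1 π.2.2 Z Zl ht0 htT hact hOP hOQ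
        hGN hIP' hIQ' hCP' hCQ' hrel
    · exact coinc_node N hH.adm hW hact hOP hOQ hGN hrelL hCP' hCQ'
    · filter_upwards [hOkP, hOkQ, hIP.ok] with n h1 h2 h3
      exact ⟨h1, h2, z, x, ok_anti htT.le (h3 A hA)⟩

/-- **(B) from the node step.** -/
theorem binv_of_nodeStep {Φ : Space3 → ℝ} (hNS : NodeStep Φ) : BInv Φ :=
  fun _ _ _ _ _ N _ hN hH τ hW π z x hO hAct hG =>
    (binv_aux hNS hN hH τ hW N.T le_rfl π z x hO hAct hG).1

end Crest.Agent.R122.VLInv399

end
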