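import Crest.Agent.R122.VLSub_973
import Crest.Agent.R122.PartProd_973

/-!
# Row 122, H11 (helper973): LN2 in class form

* `VSys.BadPart` : existential partition into connected parts meeting the anchors, with fewer than
  `s` parts, or exactly `s` parts one of which is not tree-like.
* `badQ` : measurable majorant (jointly in births and states: `measurableSet_badQ`).
* `lintegral_badQ_le` : union bound over partitions.
-/

set_option autoImplicit false
set_option linter.unusedSectionVars false

open MeasureTheory Set Filter Topology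
open Crest.AnalysisR.Kinetic
open Crest.Agent.R122.Ins45 Crest.Agent.R122.GIV566 Crest.Agent.R122.VL581
open scoped Classical ENNReal NNReal

noncomputable section

/-- **Bad partition**: all parts are connected and meet the anchors `A`; there are fewer than `s`
parts, or `s` parts and one of them is not tree-like. -/
def Crest.Agent.R122.VL581.VSys.BadPart {J κ : Type} [Fintype J] (M : VSys J κ) (C ℓ ς : ℝ) (s : ℕ)
    (A : Finset J) (Z : J → PhasePoint) : Prop :=
  ∃ π : Finpartition (Finset.univ : Finset J),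
    (∀ P ∈ π.parts, M.Conn C P Z ∧ ∃ x ∈ P, x ∈ A) ∧
    (π.parts.card < s ∨
      (π.parts.card = s ∧ ∃ P ∈ π.parts, ¬ Crest.Agent.R122.VLMeas973.TLP M C ℓ ς P Z))

namespace Crest.Agent.R122.VLMeas973

variable {J κ : Type} [Fintype J]

/-- The embedding of a part. -/
def sub (P : Finset J) : P ↪ J := Function.Embedding.subtype _

theorem map_sub (P : Finset J) : (Finset.univ : Finset P).map (sub P) = P := by
  ext x
  simp [sub]

theorem conn_sub {M : VSys J κ} (hM : Good M) (C : ℝ) (P : Finset J) (Z : J → PhasePoint) :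
    (pull M (sub P)).Conn C Finset.univ (fun j => Z (sub P j)) ↔ M.Conn C P Z := by
  rw [conn_pull M (sub P) hM.adm hM.eps, map_sub]

/-- Measurable majorant of `BadPart`. -/
def badQ (M : VSys J κ) (C ℓ ς : ℝ) (s : ℕ) (A : Finset J) : Set (J → PhasePoint) :=
  {Z | ∃ π : Finpartition (Finset.univ : Finset J),
    (∀ P ∈ π.parts, M.Conn C P Z ∧ ∃ x ∈ P, x ∈ A) ∧
    (π.parts.card < s ∨ (π.parts.card = s ∧
      ∃ P ∈ π.parts, ¬ TLQ (pull M (sub P)) C ℓ ς Finset.univ (fun j => Z (sub P j))))}

theorem badPart_subset {M : VSys J κ} (hM : Good M) {C ℓ ς : ℝ} {s : ℕ} {A : Finset J}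
    {Z : J → PhasePoint} (h : M.BadPart C ℓ ς s A Z) : Z ∈ badQ M C ℓ ς s A := by
  obtain ⟨π, h1, h2⟩ := h
  refine ⟨π, h1, h2.imp_right ?_⟩
  rintro ⟨h3, P, hP, h4⟩
  refine ⟨h3, P, hP, fun h5 => h4 ?_⟩
  have h6 := tlp_of_pull M (sub P) hM.adm hM.eps h5.treeLike
  rwa [map_sub] at h6

theorem Good.pull {J' : Type} [Fintype J'] {M : VSys J κ} (hM : Good M) (e : J' ↪ J) :
    Good (pull M e) := ⟨hM.adm, hM.eps, hM.T0, hM.tubes⟩

theorem pull_wb {J' : Type} [Fintype J'] (M : VSys J κ) (e : J' ↪ J) (b : J → ℝ) :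
    VLMeas973.pull (wb M b) e = wb (VLMeas973.pull M e) (fun j => b (e j)) := rfl

/-- The majorant is jointly measurable in the births and the states. -/
theorem measurableSet_badQ [Finite κ] {Ω : Type*} [MeasurableSpace Ω] {M : VSys J κ} (hM : Good M)
    {b : Ω → J → ℝ} {Z : Ω → J → PhasePoint} (hb : Measurable b) (hZ : Measurable Z)
    (C ℓ ς : ℝ) (s : ℕ) (A : Finset J) :
    MeasurableSet {ω | Z ω ∈ badQ (wb M (b ω)) C ℓ ς s A} := by
  have hb' : ∀ P : Finset J, Measurable fun ω (j : P) => b ω (sub P j) := fun P =>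
    measurable_pi_lambda _ fun j => (measurable_pi_apply _).comp hb
  have hZ' : ∀ P : Finset J, Measurable fun ω (j : P) => Z ω (sub P j) := fun P =>
    measurable_pi_lambda _ fun j => (measurable_pi_apply _).comp hZ
  have h : {ω | Z ω ∈ badQ (wb M (b ω)) C ℓ ς s A} =
      ⋃ π : Finpartition (Finset.univ : Finset J),
        (⋂ P ∈ π.parts, ({ω | (wb M (b ω)).Conn C P (Z ω)} ∩ {_ω | ∃ x ∈ P, x ∈ A})) ∩
        ({_ω | π.parts.card < s} ∪ ({_ω | π.parts.card = s} ∩ ⋃ P ∈ π.parts,
          {ω | TLQ (wb (VLMeas973.pull M (sub P)) (fun j => b ω (sub P j))) C ℓ ς Finset.univ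
            (fun j => Z ω (sub P j))}ᶜ)) := by
    ext ω
    simp only [badQ, pull_wb, mem_ofPred_eq, mem_iUnion, mem_inter_iff, mem_iInter, mem_union,
      mem_compl_iff, exists_prop]
  rw [h]
  refine MeasurableSet.iUnion fun π => ?_
  refine (Finset.measurableSet_biInter _ fun P _ =>
    (measurableSet_conn hM hb hZ C P).inter (MeasurableSet.const _)).inter ?_
  refine (MeasurableSet.const _).union ((MeasurableSet.const _).inter ?_)
  refine Finset.measurableSet_biUnion _ fun P _ => MeasurableSet.compl ?_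
  exact measurableSet_tlq (hM.pull (sub P)) (hb' P) (hZ' P) C ℓ ς Finset.univ

theorem measurableSet_badQ' [Finite κ] {M : VSys J κ} (hM : Good M) (C ℓ ς : ℝ) (s : ℕ)
    (A : Finset J) : MeasurableSet (badQ M C ℓ ς s A) :=
  measurableSet_badQ (Ω := J → PhasePoint) (b := fun _ => M.b) (Z := fun Z => Z) hM
    measurable_const measurable_id C ℓ ς s A

/-! ### Weights -/

/-- Gaussian weight of a velocity. -/
def gv (β : ℝ) (z : PhasePoint) : ℝ≥0∞ := ENNReal.ofReal (Real.exp (-β * ‖z.2‖ ^ 2))

/-- Weight with densities at the anchors. -/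
def wA (β : ℝ) (ρ : Space3 → ℝ≥0∞) (A : Finset J) (Z : J → PhasePoint) : ℝ≥0∞ :=
  (∏ j ∈ A, ρ (Z j).1) * ∏ j, gv β (Z j)

theorem measurable_gv (β : ℝ) : Measurable (gv β) := by
  unfold gv
  fun_prop

/-- Root of a part: the obstacle if it is in the part. -/
def rt (o : Option J) (A P : Finset J) (h : ∃ x : P, x.1 ∈ A) : P :=
  if h' : ∃ x : P, o = some x.1 then h'.choose else h.choose

theorem rt_mem {o : Option J} {A P : Finset J} (ho : ∀ j, o = some j → j ∈ A)
    (h : ∃ x : P, x.1 ∈ A) : (rt o A P h).1 ∈ A := by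
  unfold rt
  by_cases h' : ∃ x : P, o = some x.1
  · rw [dif_pos h']
    exact ho _ h'.choose_spec
  · rw [dif_neg h']
    exact h.choose_spec

theorem rt_obs {o : Option J} {A P : Finset J} (h : ∃ x : P, x.1 ∈ A) (j : P)
    (hj : o = some j.1) : rt o A P h = j := by
  unfold rt
  have h' : ∃ x : P, o = some x.1 := ⟨j, hj⟩
  rw [dif_pos h']
  have h1 : some j.1 = some h'.choose.1 := hj.symm.trans h'.choose_spec
  rw [Option.some.injEq] at h1
  exact Subtype.ext h1.symm

/-- Weight of a part. -/
def wP (β : ℝ) (ρ : Space3 → ℝ≥0∞) (o : Option J) (A P : Finset J) (z : P → PhasePoint) : ℝ≥0∞ :=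
  if h : ∃ x : P, x.1 ∈ A then wgt β ρ (rt o A P h) z else 0

theorem measurable_wgt {J' : Type} [Fintype J'] {β : ℝ} {ρ : Space3 → ℝ≥0∞} (hρ : Measurable ρ)
    (i : J') : Measurable (wgt β ρ i) := by
  unfold wgt
  refine (hρ.comp (measurable_pi_apply i).fst).mul (Finset.measurable_prod _ fun j _ => ?_)
  exact (measurable_gv β).comp (measurable_pi_apply j)

theorem measurable_wP {β : ℝ} {ρ : Space3 → ℝ≥0∞} (hρ : Measurable ρ) (o : Option J)
    (A P : Finset J) : Measurable (wP β ρ o A P) := by
  unfold wP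
  by_cases h : ∃ x : P, x.1 ∈ A
  · simp only [dif_pos h]
    exact measurable_wgt hρ _
  · simp only [dif_neg h]
    exact measurable_const

theorem prod_parts (π : Finpartition (Finset.univ : Finset J)) (f : J → ℝ≥0∞) :
    ∏ j, f j = ∏ P ∈ π.parts, ∏ j ∈ P, f j := by
  conv_lhs => rw [← π.biUnion_parts]
  rw [Finset.prod_biUnion π.supIndep.pairwiseDisjoint]
  rfl

/-- The weight is bounded by the product of the weights of the parts. -/
theorem wA_le {β : ℝ} {ρ : Space3 → ℝ≥0∞} (h1 : ∀ x, ρ x ≤ 1) {o : Option J} {A : Finset J}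
    (ho : ∀ j, o = some j → j ∈ A) (π : Finpartition (Finset.univ : Finset J))
    (hπ : ∀ P ∈ π.parts, ∃ x ∈ P, x ∈ A) (Z : J → PhasePoint) :
    wA β ρ A Z ≤ ∏ P ∈ π.parts, wP β ρ o A P (fun j => Z (sub P j)) := by
  have h2 : wA β ρ A Z = ∏ j, ((if j ∈ A then ρ (Z j).1 else 1) * gv β (Z j)) := by
    unfold wA
    rw [Finset.prod_mul_distrib]
    congr 1
    rw [Finset.prod_ite_mem, Finset.univ_inter]
  rw [h2, prod_parts π]
  refine Finset.prod_le_prod' fun P hP => ?_
  obtain ⟨x, hx, hxA⟩ := hπ P hP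
  have hex : ∃ x : P, x.1 ∈ A := ⟨⟨x, hx⟩, hxA⟩
  unfold wP
  rw [dif_pos hex]
  unfold wgt
  rw [Finset.prod_mul_distrib]
  refine mul_le_mul' ?_ ?_
  · have h3 := (rt o A P hex).2
    rw [← Finset.mul_prod_erase P _ h3, if_pos (rt_mem ho hex)]
    refine (mul_le_mul_right (Finset.prod_le_one' fun j _ => ?_) _).trans (mul_one _).le
    split_ifs
    · exact h1 _
    · exact le_rfl
  · refine le_of_eq ?_
    rw [← Finset.prod_coe_sort]
    rfl

/-! ### The union bound -/

/-- Mass of the connected configurations of a part. -/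
def aP (M : VSys J κ) (C β : ℝ) (ρ : Space3 → ℝ≥0∞) (A P : Finset J) : ℝ≥0∞ :=
  ∫⁻ z : P → PhasePoint, {z | (pull M (sub P)).Conn C Finset.univ z}.indicator
    (wP β ρ M.o A P) z

/-- Mass of the connected configurations of a part which are not tree-like. -/
def dP (M : VSys J κ) (C ℓ ς β : ℝ) (ρ : Space3 → ℝ≥0∞) (A P : Finset J) : ℝ≥0∞ :=
  ∫⁻ z : P → PhasePoint, {z | (pull M (sub P)).Conn C Finset.univ z ∧
    ¬ TLQ (pull M (sub P)) C ℓ ς Finset.univ z}.indicator (wP β ρ M.o A P) z

theorem measurableSet_conn' [Finite κ] {J' : Type} [Fintype J'] {M : VSys J' κ} (hM : Good M)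
    (C : ℝ) (P : Finset J') : MeasurableSet {z | M.Conn C P z} :=
  measurableSet_conn (Ω := J' → PhasePoint) (b := fun _ => M.b) (Z := fun Z => Z) hM
    measurable_const measurable_id C P

theorem measurableSet_tlq' [Finite κ] {J' : Type} [Fintype J'] {M : VSys J' κ} (hM : Good M)
    (C ℓ ς : ℝ) (P : Finset J') : MeasurableSet {z | TLQ M C ℓ ς P z} :=
  measurableSet_tlq (Ω := J' → PhasePoint) (b := fun _ => M.b) (Z := fun Z => Z) hM
    measurable_const measurable_id C ℓ ς P

/-- **Union bound over the partitions.** -/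
theorem lintegral_badQ_le [Finite κ] {M : VSys J κ} (hM : Good M) (C ℓ ς : ℝ) (s : ℕ)
    {A : Finset J} {β : ℝ} {ρ : Space3 → ℝ≥0∞} (hρ : Measurable ρ) (h1 : ∀ x, ρ x ≤ 1)
    (ho : ∀ j, M.o = some j → j ∈ A) :
    ∫⁻ Z, (badQ M C ℓ ς s A).indicator (wA β ρ A) Z ≤
      ∑ π : Finpartition (Finset.univ : Finset J),
        ((if π.parts.card < s then ∏ P ∈ π.parts, aP M C β ρ A P else 0) +
        if π.parts.card = s then ∑ P₀ ∈ π.parts,
          dP M C ℓ ς β ρ A P₀ * ∏ P ∈ π.parts.erase P₀, aP M C β ρ A P else 0) := by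
  -- measurable functions of the parts
  let F : (P : Finset J) → (P → PhasePoint) → ℝ≥0∞ := fun P =>
    {z | (pull M (sub P)).Conn C Finset.univ z}.indicator (wP β ρ M.o A P)
  let D : (P : Finset J) → (P → PhasePoint) → ℝ≥0∞ := fun P =>
    {z | (pull M (sub P)).Conn C Finset.univ z ∧
      ¬ TLQ (pull M (sub P)) C ℓ ς Finset.univ z}.indicator (wP β ρ M.o A P)
  have hF : ∀ P, Measurable (F P) := fun P =>
    (measurable_wP hρ M.o A P).indicator (measurableSet_conn' (hM.pull (sub P)) C Finset.univ)
  have hD : ∀ P, Measurable (D P) := fun P =>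
    (measurable_wP hρ M.o A P).indicator
      ((measurableSet_conn' (hM.pull (sub P)) C Finset.univ).inter
        (measurableSet_tlq' (hM.pull (sub P)) C ℓ ς Finset.univ).compl)
  -- the pointwise bound
  have hpt : ∀ Z, (badQ M C ℓ ς s A).indicator (wA β ρ A) Z ≤
      ∑ π : Finpartition (Finset.univ : Finset J),
        ((if π.parts.card < s then ∏ P ∈ π.parts, F P (fun j => Z (sub P j)) else 0) +
        if π.parts.card = s then ∑ P₀ ∈ π.parts, ∏ P ∈ π.parts,
          (if P = P₀ then D P else F P) (fun j => Z (sub P j)) else 0) := by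
    intro Z
    by_cases hZ : Z ∈ badQ M C ℓ ς s A
    · rw [indicator_of_mem hZ]
      obtain ⟨π, hπ, hcase⟩ := hZ
      refine le_trans ?_ (Finset.single_le_sum (f := fun π : Finpartition _ =>
        ((if π.parts.card < s then ∏ P ∈ π.parts, F P (fun j => Z (sub P j)) else 0) +
        if π.parts.card = s then ∑ P₀ ∈ π.parts, ∏ P ∈ π.parts,
          (if P = P₀ then D P else F P) (fun j => Z (sub P j)) else 0))
        (fun _ _ => bot_le) (Finset.mem_univ π))
      have hw := wA_le (β := β) h1 ho π (fun P hP => (hπ P hP).2) Z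
      rcases hcase with hlt | ⟨heq, P₀, hP₀, hbad⟩
      · rw [if_pos hlt]
        refine hw.trans (le_trans (Finset.prod_le_prod' fun P hP => ?_) le_self_add)
        show _ ≤ indicator _ _ _
        rw [indicator_of_mem]
        exact (conn_sub hM C P Z).2 (hπ P hP).1
      · rw [if_pos heq]
        refine hw.trans (le_trans ?_ le_add_self)
        refine le_trans (Finset.prod_le_prod' fun P hP => ?_)
          (Finset.single_le_sum (f := fun P₀ => ∏ P ∈ π.parts,
            (if P = P₀ then D P else F P) (fun j => Z (sub P j))) (fun _ _ => bot_le) hP₀)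
        by_cases hPP : P = P₀
        · subst hPP
          rw [if_pos rfl]
          show _ ≤ indicator _ _ _
          rw [indicator_of_mem]
          exact ⟨(conn_sub hM C P Z).2 (hπ P hP).1, hbad⟩
        · rw [if_neg hPP]
          show _ ≤ indicator _ _ _
          rw [indicator_of_mem]
          exact (conn_sub hM C P Z).2 (hπ P hP).1
    · rw [indicator_of_notMem hZ]
      exact bot_le
  refine (lintegral_mono hpt).trans ?_
  have hsub : ∀ P : Finset J, Measurable fun (Z : J → PhasePoint) (j : P) => Z (sub P j) := fun P =>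
    measurable_pi_lambda _ fun j => measurable_pi_apply _
  have hm1 : ∀ π : Finpartition (Finset.univ : Finset J), Measurable fun Z : J → PhasePoint =>
      (if π.parts.card < s then ∏ P ∈ π.parts, F P (fun j => Z (sub P j)) else 0) := by
    intro π
    by_cases h : π.parts.card < s
    · simp only [if_pos h]
      exact Finset.measurable_prod _ fun P _ => (hF P).comp (hsub P)
    · simp only [if_neg h]
      exact measurable_const
  have hDF : ∀ P P₀ : Finset J, Measurable (if P = P₀ then D P else F P) := by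
    intro P P₀
    by_cases h : P = P₀
    · simp only [if_pos h]; exact hD P
    · simp only [if_neg h]; exact hF P
  have hm2 : ∀ π : Finpartition (Finset.univ : Finset J), Measurable fun Z : J → PhasePoint =>
      (if π.parts.card = s then ∑ P₀ ∈ π.parts, ∏ P ∈ π.parts,
          (if P = P₀ then D P else F P) (fun j => Z (sub P j)) else 0) := by
    intro π
    by_cases h : π.parts.card = s
    · simp only [if_pos h]
      exact Finset.measurable_sum _ fun P₀ _ => Finset.measurable_prod _ fun P _ =>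
        (hDF P P₀).comp (hsub P)
    · simp only [if_neg h]
      exact measurable_const
  refine (lintegral_finsetSum _ fun π _ => (hm1 π).add (hm2 π)).trans_le ?_
  refine Finset.sum_le_sum fun π _ => ?_
  simp only [Pi.add_apply]
  rw [lintegral_add_left (hm1 π)]
  refine add_le_add ?_ ?_
  · by_cases h : π.parts.card < s
    · simp only [if_pos h]
      rw [show (∫⁻ Z : J → PhasePoint, ∏ P ∈ π.parts, F P (fun j => Z (sub P j))) =
        ∏ P ∈ π.parts, ∫⁻ z : P → PhasePoint, F P z from
        PartProd973.lintegral_prod_parts π F hF]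
      exact le_rfl
    · simp only [if_neg h, lintegral_zero, le_refl]
  · by_cases h : π.parts.card = s
    · simp only [if_pos h]
      refine (lintegral_finsetSum _ fun P₀ _ => Finset.measurable_prod _ fun P _ =>
        (hDF P P₀).comp (hsub P)).trans_le ?_
      refine Finset.sum_le_sum fun P₀ hP₀ => ?_
      simp only [Function.comp_apply]
      rw [show (∫⁻ Z : J → PhasePoint, ∏ P ∈ π.parts,
          (if P = P₀ then D P else F P) (fun j => Z (sub P j))) =
        ∏ P ∈ π.parts, ∫⁻ z : P → PhasePoint, (if P = P₀ then D P else F P) z from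
        PartProd973.lintegral_prod_parts π (fun P => if P = P₀ then D P else F P)
          fun P => hDF P P₀]
      rw [← Finset.mul_prod_erase _ _ hP₀]
      refine le_of_eq ?_
      congr 1
      · rw [if_pos rfl]; rfl
      · refine Finset.prod_congr rfl fun P hP => ?_
        rw [if_neg (Finset.ne_of_mem_erase hP)]; rfl
    · simp only [if_neg h, lintegral_zero, le_refl]

end Crest.Agent.R122.VLMeas973
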