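import Crest.Agent.R122.VLnull_564
import Crest.Agent.R122.Rebirth_45

/-!
# Row 122, block VL: deterministic merge step (helper564)

* `pp`: the two-body motion started from two phase points;
* `dc_free`, `dc_pair` (for the flow), `bdc_free`, `bdc_pair` (for worlds with births after the last
  birth): after a merge all paths are free lines, except those of the pair, which follow the two-body
  motion;
* `pp_before`, `pp_after`, `pp_during`: the two-body motion in terms of the scaled state at the grid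
  time of the contact.
-/

set_option autoImplicit false
set_option linter.unusedSectionVars false
open MeasureTheory Metric Set Filter
open scoped ENNReal NNReal Topology
open Crest.AnalysisR.Kinetic

noncomputable section

namespace Crest.Agent.R122.VLcore564

open Scat818 Flow671 Loc45 Ins45

variable {Φ : Space3 → ℝ} {ε : ℝ}

/-- Free motion. -/
def fr (x : PhasePoint) (t : ℝ) : PhasePoint := (x.1 + t • x.2, x.2)

/-- The two-body motion started from the phase points `x`, `y`: states of the two particles at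
time `t`. -/
def pp (Φ : Space3 → ℝ) (ε : ℝ) (x y : PhasePoint) (t : ℝ) : PhasePoint × PhasePoint :=
  (((1 / 2 : ℝ) • (x.1 + y.1) + t • ((1 / 2 : ℝ) • (x.2 + y.2)) +
      (ε / 2) • (relFlow Φ (t / ε) ((1 / ε) • (x.1 - y.1), x.2 - y.2)).1,
    (1 / 2 : ℝ) • (x.2 + y.2) +
      (1 / 2 : ℝ) • (relFlow Φ (t / ε) ((1 / ε) • (x.1 - y.1), x.2 - y.2)).2),
   ((1 / 2 : ℝ) • (x.1 + y.1) + t • ((1 / 2 : ℝ) • (x.2 + y.2)) -
      (ε / 2) • (relFlow Φ (t / ε) ((1 / ε) • (x.1 - y.1), x.2 - y.2)).1,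
    (1 / 2 : ℝ) • (x.2 + y.2) -
      (1 / 2 : ℝ) • (relFlow Φ (t / ε) ((1 / ε) • (x.1 - y.1), x.2 - y.2)).2))

/-! ### Worlds after a merge -/

/-- No pair: all lines stay at mutual distance at least `ε`. -/
theorem dc_free {ι : Type*} [Fintype ι] (hΦ : AdmissiblePotential Φ) (hε : 0 < ε)
    {Z : ι → PhasePoint} {T : ℝ} (hT : 0 ≤ T)
    (hfar : ∀ t ∈ Icc 0 T, ∀ k l, k ≠ l → ε ≤ dist (fr (Z k) t).1 (fr (Z l) t).1) :
    ∀ t ∈ Icc 0 T, ∀ k, flow Φ ε t Z k = fr (Z k) t := by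
  intro t ht k
  have h := flow_eq_freeFlight hΦ hε (Z := Z) (a := 0) (b := T) ⟨le_rfl, hT⟩
    (fun s hs i j hij => hfar s hs i j hij) ht
  rw [h]
  rfl

/-- **Pair**: all the other lines stay at mutual distance at least `ε` and at distance at least `ε`
from the two-body motion of the pair. -/
theorem dc_pair {ι : Type*} [Fintype ι] (hΦ : AdmissiblePotential Φ) (hε : 0 < ε)
    {Z : ι → PhasePoint} {T : ℝ} (hT : 0 ≤ T) {i j : ι} (hij : i ≠ j)
    (hreg : Reg Φ ((Z i).1 - (Z j).1))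
    (hrest : ∀ t ∈ Icc 0 T, ∀ k l, k ≠ i → k ≠ j → l ≠ i → l ≠ j → k ≠ l →
      ε ≤ dist (fr (Z k) t).1 (fr (Z l) t).1)
    (hcross : ∀ t ∈ Icc 0 T, ∀ k, k ≠ i → k ≠ j →
      ε ≤ dist (pp Φ ε (Z i) (Z j) t).1.1 (fr (Z k) t).1 ∧
      ε ≤ dist (pp Φ ε (Z i) (Z j) t).2.1 (fr (Z k) t).1) :
    ∀ t ∈ Icc 0 T, flow Φ ε t Z i = (pp Φ ε (Z i) (Z j) t).1 ∧
      flow Φ ε t Z j = (pp Φ ε (Z i) (Z j) t).2 ∧
      ∀ k, k ≠ i → k ≠ j → flow Φ ε t Z k = fr (Z k) t := by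
  classical
  set p : ι → Prop := fun k => k = i ∨ k = j with hp
  set σ : {k // p k} ⊕ {k // ¬ p k} ≃ ι := Equiv.sumCompl p with hσ
  set Z₁ : {k // p k} → PhasePoint := fun k => Z k with hZ₁
  set Z₂ : {k // ¬ p k} → PhasePoint := fun k => Z k with hZ₂
  have hZ : (fun x => Z (σ x)) = Sum.elim Z₁ Z₂ := by
    funext x
    rcases x with x | x
    · simp [hσ, hZ₁]
    · simp [hσ, hZ₂]
  set i' : {k // p k} := ⟨i, Or.inl rfl⟩ with hi'
  set j' : {k // p k} := ⟨j, Or.inr rfl⟩ with hj'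
  have hij' : i' ≠ j' := fun h => hij (congrArg Subtype.val h)
  have htwo : ∀ k : {k // p k}, k = i' ∨ k = j' := by
    rintro ⟨k, hk⟩
    rcases hk with rfl | rfl
    · exact Or.inl rfl
    · exact Or.inr rfl
  have hflow₁ : ∀ t, flow Φ ε t Z₁ i' = (pp Φ ε (Z i) (Z j) t).1 ∧
      flow Φ ε t Z₁ j' = (pp Φ ε (Z i) (Z j) t).2 := by
    intro t
    have h := flow_pair hΦ hε hij' htwo (Z := Z₁) hreg t
    rw [h, pairConf_left, pairConf_right ε hij'.symm]
    exact ⟨rfl, rfl⟩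
  have hD₁ : Z₁ ∈ Dom Φ {k // p k} := dom_of_reg htwo hreg
  have hfar₂ : ∀ t ∈ Icc 0 T, ∀ k l : {k // ¬ p k}, k ≠ l →
      ε ≤ dist (freeFlight t Z₂ k).1 (freeFlight t Z₂ l).1 := by
    intro t ht k l hkl
    have hk := k.2
    have hl := l.2
    simp only [hp, not_or] at hk hl
    exact hrest t ht k l hk.1 hk.2 hl.1 hl.2 fun h => hkl (Subtype.ext h)
  have hflow₂ : ∀ t ∈ Icc 0 T, flow Φ ε t Z₂ = freeFlight t Z₂ := fun t ht =>
    flow_eq_freeFlight hΦ hε ⟨le_rfl, hT⟩ hfar₂ ht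
  have hD₂ : Z₂ ∈ Dom Φ {k // ¬ p k} := by
    refine Dom_of_far hε fun k l hkl => ?_
    have := hfar₂ 0 ⟨le_rfl, hT⟩ k l hkl
    simpa [freeFlight] using this
  intro t ht
  have hglue := flow_sum_elim hΦ hε hD₁ hD₂ (a := 0) (b := T) ⟨le_rfl, hT⟩ (by
    intro s hs k l
    have hl := l.2
    simp only [hp, not_or] at hl
    have hc := hcross s hs l hl.1 hl.2
    rw [hflow₂ s hs]
    rcases htwo k with rfl | rfl
    · rw [(hflow₁ s).1]; exact hc.1
    · rw [(hflow₁ s).2]; exact hc.2) ht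
  rw [← hZ, flow_equiv hΦ hε σ t Z] at hglue
  have hget : ∀ x, flow Φ ε t Z (σ x) = Sum.elim (flow Φ ε t Z₁) (flow Φ ε t Z₂) x := fun x =>
    congrFun hglue x
  refine ⟨?_, ?_, ?_⟩
  · have h := hget (Sum.inl i')
    simp only [Sum.elim_inl] at h
    rw [(hflow₁ t).1] at h
    exact h
  · have h := hget (Sum.inl j')
    simp only [Sum.elim_inl] at h
    rw [(hflow₁ t).2] at h
    exact h
  · intro k hki hkj
    have hk : ¬ p k := by
      rintro (h | h)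
      · exact hki h
      · exact hkj h
    have h := hget (Sum.inr ⟨k, hk⟩)
    simp only [Sum.elim_inr] at h
    rw [hflow₂ t ht] at h
    exact h

/-- No pair, world with births, after the last birth. -/
theorem bdc_free {ι : Type*} [Fintype ι] (hΦ : AdmissiblePotential Φ) (hε : 0 < ε)
    {b : ι → ℝ} {t₀ a T : ℝ} {X : ℝ → ι → PhasePoint} (hX : BWorld Φ ε b t₀ X) (ha : t₀ ≤ a)
    (haT : a ≤ T) (hb : ∀ k, b k ≤ a)
    (hfar : ∀ t ∈ Icc a T, ∀ k l, k ≠ l →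
      ε ≤ dist (fr (X a k) (t - a)).1 (fr (X a l) (t - a)).1) :
    ∀ t ∈ Icc a T, ∀ k, X t k = fr (X a k) (t - a) := by
  intro t ht k
  rw [(hX.mono ha).eq_flow hΦ hε hb ht.1]
  refine dc_free hΦ hε (T := T - a) (sub_nonneg.2 haT) (fun s hs k l hkl => ?_) (t - a)
    ⟨sub_nonneg.2 ht.1, by linarith [ht.2]⟩ k
  have := hfar (s + a) ⟨by linarith [hs.1], by linarith [hs.2]⟩ k l hkl
  rwa [add_sub_cancel_right] at this

/-- **Pair**, world with births, after the last birth. -/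
theorem bdc_pair {ι : Type*} [Fintype ι] (hΦ : AdmissiblePotential Φ) (hε : 0 < ε)
    {b : ι → ℝ} {t₀ a T : ℝ} {X : ℝ → ι → PhasePoint} (hX : BWorld Φ ε b t₀ X) (ha : t₀ ≤ a)
    (haT : a ≤ T) (hb : ∀ k, b k ≤ a) {i j : ι} (hij : i ≠ j)
    (hrest : ∀ t ∈ Icc a T, ∀ k l, k ≠ i → k ≠ j → l ≠ i → l ≠ j → k ≠ l →
      ε ≤ dist (fr (X a k) (t - a)).1 (fr (X a l) (t - a)).1)
    (hcross : ∀ t ∈ Icc a T, ∀ k, k ≠ i → k ≠ j →
      ε ≤ dist (pp Φ ε (X a i) (X a j) (t - a)).1.1 (fr (X a k) (t - a)).1 ∧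
      ε ≤ dist (pp Φ ε (X a i) (X a j) (t - a)).2.1 (fr (X a k) (t - a)).1) :
    ∀ t ∈ Icc a T, X t i = (pp Φ ε (X a i) (X a j) (t - a)).1 ∧
      X t j = (pp Φ ε (X a i) (X a j) (t - a)).2 ∧
      ∀ k, k ≠ i → k ≠ j → X t k = fr (X a k) (t - a) := by
  have hreg : Reg Φ ((X a i).1 - (X a j).1) := by
    rcases hX.dom a ha with h | h
    · exact Or.inr h
    · exact Or.inl (sub_ne_zero.2 (h i j hij (hb i) (hb j)))
  intro t ht
  have key := dc_pair hΦ hε (Z := X a) (T := T - a) (sub_nonneg.2 haT) hij hreg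
    (fun s hs k l h1 h2 h3 h4 h5 => by
      have := hrest (s + a) ⟨by linarith [hs.1], by linarith [hs.2]⟩ k l h1 h2 h3 h4 h5
      rwa [add_sub_cancel_right] at this)
    (fun s hs k h1 h2 => by
      have := hcross (s + a) ⟨by linarith [hs.1], by linarith [hs.2]⟩ k h1 h2
      rwa [add_sub_cancel_right] at this)
    (t - a) ⟨sub_nonneg.2 ht.1, by linarith [ht.2]⟩
  have hflow : ∀ k, X t k = flow Φ ε (t - a) (X a) k := fun k => by
    rw [(hX.mono ha).eq_flow hΦ hε hb ht.1]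
  rw [hflow i, hflow j]
  exact ⟨key.1, key.2.1, fun k h1 h2 => by rw [hflow k]; exact key.2.2 k h1 h2⟩

/-! ### The two-body motion in terms of the scaled state -/

/-- Scaled relative state of the free lines at time `τ`. -/
def ss (ε : ℝ) (x y : PhasePoint) (τ : ℝ) : Space3 × Space3 :=
  ((1 / ε) • ((fr x τ).1 - (fr y τ).1), x.2 - y.2)

/-- Displacement of a particle by the encounter (scaled). -/
def K1 (Φ : Space3 → ℝ) (R : ℝ) (z : Space3 × Space3) : Space3 :=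
  (1 / 2 : ℝ) • ((rel0 Φ R z).1 - R • (rel0 Φ R z).2 - z.1)

theorem ss_back (hε : 0 < ε) (x y : PhasePoint) (τ : ℝ) :
    (((1 / ε) • (x.1 - y.1), x.2 - y.2) : Space3 × Space3) =
      ((ss ε x y τ).1 - (τ / ε) • (ss ε x y τ).2, (ss ε x y τ).2) := by
  have h1 : (1 / ε) • (τ • (x.2 - y.2)) = (τ / ε) • (x.2 - y.2) := by
    rw [smul_smul]; congr 1; ring
  ext1
  · show (1 / ε) • (x.1 - y.1) =
      (1 / ε) • ((x.1 + τ • x.2) - (y.1 + τ • y.2)) - (τ / ε) • (x.2 - y.2)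
    have h2 : (x.1 + τ • x.2) - (y.1 + τ • y.2) = (x.1 - y.1) + τ • (x.2 - y.2) := by module
    rw [h2, smul_add, h1, add_sub_cancel_right]
  · rfl

/-- Before the window the motion is free. -/
theorem pp_before (hΦ : AdmissiblePotential Φ) (hε : 0 < ε) {x y : PhasePoint} {τ R : ℝ}
    (hz : Exi Φ R (ss ε x y τ)) (hRτ : R * ε ≤ τ) {t : ℝ} (ht : t ≤ τ - R * ε) :
    pp Φ ε x y t = (fr x t, fr y t) := by
  set z := ss ε x y τ with hzdef
  have h1 : ((z.1 - (τ / ε) • z.2, z.2) : Space3 × Space3) =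
      relFlow Φ (-(τ / ε - R)) (z.1 - R • z.2, z.2) := by
    rw [relFlow_free_neg hΦ hz.1 hz.2.1 (by
      have : R ≤ τ / ε := by rw [le_div_iff₀ hε]; exact hRτ
      linarith)]
    ext1
    · show z.1 - (τ / ε) • z.2 = z.1 - R • z.2 + (-(τ / ε - R)) • z.2
      module
    · rfl
  have h2 : relFlow Φ (t / ε) ((1 / ε) • (x.1 - y.1), x.2 - y.2) =
      ((1 / ε) • (x.1 - y.1) + (t / ε) • (x.2 - y.2), x.2 - y.2) := by
    rw [ss_back hε x y τ, ← hzdef, h1, ← relFlow_add hΦ,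
      relFlow_free_neg hΦ hz.1 hz.2.1 (by
        have : t / ε ≤ τ / ε - R := by
          rw [div_le_iff₀ hε]
          have : (τ / ε - R) * ε = τ - R * ε := by field_simp
          linarith
        linarith)]
    have h3 := ss_back hε x y τ
    rw [← hzdef] at h3
    have h4 : (1 / ε) • (x.1 - y.1) = z.1 - (τ / ε) • z.2 := congrArg Prod.fst h3
    have h5 : x.2 - y.2 = z.2 := congrArg Prod.snd h3
    rw [h4, h5]
    ext1
    · show z.1 - R • z.2 + (-(τ / ε - R) + t / ε) • z.2 = z.1 - (τ / ε) • z.2 + (t / ε) • z.2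
      module
    · rfl
  have h6 : (ε / 2) • ((1 / ε) • (x.1 - y.1) + (t / ε) • (x.2 - y.2)) =
      (1 / 2 : ℝ) • (x.1 - y.1) + (t / 2) • (x.2 - y.2) := by
    rw [smul_add, smul_smul, smul_smul]
    congr 2
    · field_simp
    · field_simp
  unfold pp
  rw [h2]
  simp only [h6]
  unfold fr
  ext1 <;> ext1
  · show (1 / 2 : ℝ) • (x.1 + y.1) + t • ((1 / 2 : ℝ) • (x.2 + y.2)) +
      ((1 / 2 : ℝ) • (x.1 - y.1) + (t / 2) • (x.2 - y.2)) = x.1 + t • x.2
    module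
  · show (1 / 2 : ℝ) • (x.2 + y.2) + (1 / 2 : ℝ) • (x.2 - y.2) = x.2
    module
  · show (1 / 2 : ℝ) • (x.1 + y.1) + t • ((1 / 2 : ℝ) • (x.2 + y.2)) -
      ((1 / 2 : ℝ) • (x.1 - y.1) + (t / 2) • (x.2 - y.2)) = y.1 + t • y.2
    module
  · show (1 / 2 : ℝ) • (x.2 + y.2) - (1 / 2 : ℝ) • (x.2 - y.2) = y.2
    module

/-- After the window: displacement with respect to the own line. -/
theorem pp_after (hΦ : AdmissiblePotential Φ) (hε : 0 < ε) {x y : PhasePoint} {τ R : ℝ}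
    (hz : Exi Φ R (ss ε x y τ)) (hRτ : R * ε ≤ τ) {t : ℝ} (ht : τ + R * ε ≤ t) :
    pp Φ ε x y t =
      (((fr x t).1 + (ε • K1 Φ R (ss ε x y τ) + (t - τ) • W1 Φ R (ss ε x y τ)),
        x.2 + W1 Φ R (ss ε x y τ)),
       ((fr y t).1 - (ε • K1 Φ R (ss ε x y τ) + (t - τ) • W1 Φ R (ss ε x y τ)),
        y.2 - W1 Φ R (ss ε x y τ))) := by
  set z := ss ε x y τ with hzdef
  have hR : R ≤ τ / ε := by rw [le_div_iff₀ hε]; exact hRτ
  have hr : 0 ≤ t / ε - τ / ε - R := by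
    have : τ / ε + R ≤ t / ε := by
      rw [le_div_iff₀ hε]
      have : (τ / ε + R) * ε = τ + R * ε := by field_simp
      linarith
    linarith
  have h2 : relFlow Φ (t / ε) ((1 / ε) • (x.1 - y.1), x.2 - y.2) =
      ((rel0 Φ R z).1 + (t / ε - τ / ε - R) • (rel0 Φ R z).2, (rel0 Φ R z).2) := by
    have h := rel0_eq hΦ hz hR hr
    rw [ss_back hε x y τ, ← hzdef, ← h]
    congr 1
    ring
  have h5 : x.2 - y.2 = z.2 := rfl
  have h4 : ε • z.1 = (x.1 + τ • x.2) - (y.1 + τ • y.2) := by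
    show ε • ((1 / ε) • ((x.1 + τ • x.2) - (y.1 + τ • y.2))) = _
    rw [smul_smul, mul_one_div_cancel hε.ne', one_smul]
  have h6 : (ε / 2) • ((rel0 Φ R z).1 + (t / ε - τ / ε - R) • (rel0 Φ R z).2) =
      (ε / 2) • ((rel0 Φ R z).1 - R • (rel0 Φ R z).2) + ((t - τ) / 2) • (rel0 Φ R z).2 := by
    rw [smul_add, smul_sub, smul_smul, smul_smul]
    have : ε / 2 * (t / ε - τ / ε - R) = (t - τ) / 2 - ε / 2 * R := by field_simp
    rw [this]
    module
  have h7 : ε • K1 Φ R z = (ε / 2) • ((rel0 Φ R z).1 - R • (rel0 Φ R z).2) - (1 / 2 : ℝ) • (ε • z.1) := by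
    unfold K1
    module
  unfold pp
  rw [h2]
  simp only [h6, h7, h4]
  unfold fr W1
  rw [← h5]
  ext1 <;> ext1
  · show (1 / 2 : ℝ) • (x.1 + y.1) + t • ((1 / 2 : ℝ) • (x.2 + y.2)) +
      ((ε / 2) • ((rel0 Φ R z).1 - R • (rel0 Φ R z).2) + ((t - τ) / 2) • (rel0 Φ R z).2) = _
    module
  · show (1 / 2 : ℝ) • (x.2 + y.2) + (1 / 2 : ℝ) • (rel0 Φ R z).2 = _
    module
  · show (1 / 2 : ℝ) • (x.1 + y.1) + t • ((1 / 2 : ℝ) • (x.2 + y.2)) -
      ((ε / 2) • ((rel0 Φ R z).1 - R • (rel0 Φ R z).2) + ((t - τ) / 2) • (rel0 Φ R z).2) = _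
    module
  · show (1 / 2 : ℝ) • (x.2 + y.2) - (1 / 2 : ℝ) • (rel0 Φ R z).2 = _
    module

end Crest.Agent.R122.VLcore564
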