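import Mathlib
import Crest.Agent.R122.VLLim_581
import Crest.Agent.R122.VLdyn_564

/-!
# Row 122, block D3 (helper581): tools for the node step
-/

set_option autoImplicit false

open MeasureTheory Set Filter Topology
open scoped ENNReal NNReal
open Crest.AnalysisR.Kinetic
open Crest.Agent.R122.Ins45 Crest.Agent.R122.GIV566 Crest.Agent.R122.VLPar823
open Crest.Agent.R122.VLPar823.MTree
open Crest.Agent.R122.VLcore564

noncomputable section

namespace Crest.Agent.R122.VL581

open scoped Classical

/-- Uniformity over finitely many labels. -/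
theorem exists_unif {Λ : Type*} [Finite Λ] {Pr : Λ → ℝ → ℕ → Prop}
    (hmono : ∀ l R R' m, R ≤ R' → Pr l R m → Pr l R' m)
    (h : ∀ l, ∃ R, ∀ᶠ m in atTop, Pr l R m) : ∃ R, ∀ᶠ m in atTop, ∀ l, Pr l R m := by
  have := Fintype.ofFinite Λ
  choose R hR using h
  refine ⟨∑ l, |R l|, ?_⟩
  rw [eventually_all]
  intro l
  filter_upwards [hR l] with m hm
  refine hmono l (R l) _ m ?_ hm
  exact (le_abs_self _).trans (Finset.single_le_sum (f := fun l => |R l|)
    (fun _ _ => abs_nonneg _) (Finset.mem_univ l))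

/-- **Far lemma**: two limit curves which do not meet on the active part of a compact set of times
stay at positive distance for the approximations. -/
theorem far {K : Set ℝ} (hK : IsCompact K) {f g : ℝ → Space3} {fm gm : ℕ → ℝ → Space3}
    (hf : ContinuousOn f K) (hg : ContinuousOn g K) (hfm : TendstoUniformlyOn fm f atTop K)
    (hgm : TendstoUniformlyOn gm g atTop K) {P₁ P₂ : Prop} {b₁ b₂ : ℝ} {bm₁ bm₂ : ℕ → ℝ}
    (h1 : P₁ → Tendsto bm₁ atTop (𝓝 b₁)) (h2 : P₂ → Tendsto bm₂ atTop (𝓝 b₂))
    (hne : ∀ s ∈ K, (P₁ → s ≤ b₁) → (P₂ → s ≤ b₂) → f s ≠ g s) :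
    ∃ c > 0, ∀ᶠ m in atTop, ∀ s ∈ K, (P₁ → s ≤ bm₁ m) → (P₂ → s ≤ bm₂ m) →
      c < dist (fm m s) (gm m s) := by
  have key : ∀ S ⊆ K, (∃ c > 0, ∀ᶠ m in atTop, ∀ s ∈ S, (P₁ → s ≤ bm₁ m) → (P₂ → s ≤ bm₂ m) →
      c < dist (fm m s) (gm m s)) → (∃ c > 0, ∀ᶠ m in atTop, ∀ s ∈ S, (P₁ → s ≤ bm₁ m) →
      (P₂ → s ≤ bm₂ m) → c < dist (fm m s) (gm m s)) := fun _ _ h => h
  -- inactive points
  have inact : ∀ {P : Prop} {b : ℝ} {bm : ℕ → ℝ}, (P → Tendsto bm atTop (𝓝 b)) → ∀ s : ℝ,
      ¬ (P → s ≤ b) → ∃ U ∈ 𝓝 s, ∀ᶠ m in atTop, ∀ u ∈ U, ¬ (P → u ≤ bm m) := by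
    intro P b bm hb s hs
    push Not at hs
    obtain ⟨hP, hs⟩ := hs
    refine ⟨Ioi ((b + s) / 2), Ioi_mem_nhds (by linarith), ?_⟩
    filter_upwards [(hb hP).eventually (gt_mem_nhds (show b < (b + s) / 2 by linarith))]
      with m hm u hu
    push Not
    exact ⟨hP, hm.trans hu⟩
  refine hK.induction_on (p := fun S => ∃ c > 0, ∀ᶠ m in atTop, ∀ s ∈ S, (P₁ → s ≤ bm₁ m) →
      (P₂ → s ≤ bm₂ m) → c < dist (fm m s) (gm m s)) ?_ ?_ ?_ ?_
  · exact ⟨1, one_pos, Eventually.of_forall fun m s hs => absurd hs (notMem_empty s)⟩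
  · rintro S S' hSS ⟨c, hc, h⟩
    exact ⟨c, hc, h.mono fun m hm s hs => hm s (hSS hs)⟩
  · rintro S S' ⟨c, hc, h⟩ ⟨c', hc', h'⟩
    refine ⟨min c c', lt_min hc hc', ?_⟩
    filter_upwards [h, h'] with m hm hm' s hs a1 a2
    rcases hs with hs | hs
    · exact (min_le_left _ _).trans_lt (hm s hs a1 a2)
    · exact (min_le_right _ _).trans_lt (hm' s hs a1 a2)
  · intro s hs
    by_cases ha1 : P₁ → s ≤ b₁
    · by_cases ha2 : P₂ → s ≤ b₂
      · have hd : 0 < dist (f s) (g s) := dist_pos.2 (hne s hs ha1 ha2)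
        set c := dist (f s) (g s) / 4 with hc
        have hc0 : 0 < c := by positivity
        have e1 := (hf s hs).eventually (Metric.ball_mem_nhds _ hc0)
        have e2 := (hg s hs).eventually (Metric.ball_mem_nhds _ hc0)
        refine ⟨{u | f u ∈ Metric.ball (f s) c} ∩ {u | g u ∈ Metric.ball (g s) c} ∩ K,
          inter_mem (inter_mem e1 e2) self_mem_nhdsWithin, c / 2, by positivity, ?_⟩
        have hc2 : 0 < c / 4 := by positivity
        filter_upwards [Metric.tendstoUniformlyOn_iff.1 hfm (c / 4) hc2,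
          Metric.tendstoUniformlyOn_iff.1 hgm (c / 4) hc2] with m h3 h4 u hu _ _
        have h5 : dist (f u) (f s) < c := hu.1.1
        have h6 : dist (g u) (g s) < c := hu.1.2
        have h7 := h3 u hu.2
        have h8 := h4 u hu.2
        have h9 : dist (f s) (g s) ≤ dist (f s) (f u) + dist (f u) (fm m u) +
            dist (fm m u) (gm m u) + dist (gm m u) (g u) + dist (g u) (g s) := by
          calc dist (f s) (g s) ≤ dist (f s) (f u) + dist (f u) (g s) := dist_triangle _ _ _
            _ ≤ dist (f s) (f u) + (dist (f u) (fm m u) + dist (fm m u) (g s)) := by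
                gcongr; exact dist_triangle _ _ _
            _ ≤ dist (f s) (f u) + (dist (f u) (fm m u) + (dist (fm m u) (gm m u) +
                  dist (gm m u) (g s))) := by gcongr; exact dist_triangle _ _ _
            _ ≤ dist (f s) (f u) + (dist (f u) (fm m u) + (dist (fm m u) (gm m u) +
                  (dist (gm m u) (g u) + dist (g u) (g s)))) := by
                gcongr; exact dist_triangle _ _ _
            _ = _ := by ring
        rw [dist_comm (f s) (f u), dist_comm (gm m u) (g u)] at h9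
        have h10 : dist (f s) (g s) = 4 * c := by rw [hc]; ring
        rw [h10] at h9
        linarith
      · obtain ⟨U, hU, h⟩ := inact h2 s ha2
        refine ⟨U, mem_nhdsWithin_of_mem_nhds hU, 1, one_pos, ?_⟩
        filter_upwards [h] with m hm u hu _ a2
        exact absurd a2 (hm u hu)
    · obtain ⟨U, hU, h⟩ := inact h1 s ha1
      refine ⟨U, mem_nhdsWithin_of_mem_nhds hU, 1, one_pos, ?_⟩
      filter_upwards [h] with m hm u hu a1 _
      exact absurd a1 (hm u hu)

/-! ### Continuity of the limit paths -/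

section limit

variable {J κ : Type} [Fintype J] (N : VSys J κ)

theorem continuous_Del : ∀ (τ : MTree J κ) (π : Par τ) (A : Finset J) (p : J),
    Continuous fun s => N.Del τ π A p s
  | leaf _ => fun _ _ _ => continuous_const
  | node A k i B l j P Q => fun π A' p => by
    have hP := continuous_Del P π.2.1 (A' ∩ supp P) p
    have hQ := continuous_Del Q π.2.2 (A' ∩ supp Q) p
    have e : (fun s => N.Del (node A k i B l j P Q) π A' p s) = fun s =>
        (if p ∈ supp P then N.Del P π.2.1 (A' ∩ supp P) p s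
          else N.Del Q π.2.2 (A' ∩ supp Q) p s) +
        if N.mrg A i B j P Q π.1.1 π.2.1 π.2.2 A' then
          (if p = i then max (s - π.1.1) 0 • kick N.Φ π.1.2
            else if p = j then -(max (s - π.1.1) 0 • kick N.Φ π.1.2) else 0)
        else 0 := rfl
    rw [e]
    refine Continuous.add ?_ ?_
    · split_ifs
      · exact hP
      · exact hQ
    · have hmax : Continuous fun s : ℝ => max (s - π.1.1) 0 • kick N.Φ π.1.2 :=
        ((continuous_id.sub continuous_const).max continuous_const).smul continuous_const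
      split_ifs
      · exact hmax
      · exact hmax.neg
      · exact continuous_const
      · exact continuous_const

theorem continuousOn_Gam (hS : ∃ L : ℝ≥0, ∀ i, LipschitzOnWith L (N.S.c i) (Icc 0 N.T))
    (τ : MTree J κ) (π : Par τ) (A : Finset J) (k : κ) (Z : J → PhasePoint) (p : J) :
    ContinuousOn (fun s => N.Gam τ π A k s Z p) (Icc 0 N.T) := by
  unfold VSys.Gam
  by_cases ho : N.o = some p
  · simp only [ho, if_true]
    obtain ⟨L, hL⟩ := hS
    refine continuousOn_const.add ?_
    refine ContinuousOn.congr (hL k).continuousOn ?_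
    intro s hs
    show N.S.c k (max 0 (min s N.T)) = N.S.c k s
    rw [min_eq_left hs.2, max_eq_right hs.1]
  · simp only [ho, if_false]
    have := continuous_Del N τ π A p
    fun_prop

end limit

end Crest.Agent.R122.VL581
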