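import Crest.Agent.R122.VLInstA_442
import Crest.Agent.R122.VLdyn_564

/-!
# Row 122, block D3 (B) (helper399), part A: local worlds

* `lworld_glue`: gluing in time.
* `lworld_of_cover`: a path is a local world, if every particle has an isolated cluster which is a
  local world.
* `lworld_pair`: the two-body motion is a local world.
* `pp_during`: the two-body motion stays close to the free lines during the encounter.
-/

set_option autoImplicit false
set_option linter.unusedSectionVars false

open MeasureTheory Set Filter Topology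
open scoped NNReal ENNReal
open Crest.AnalysisR.Kinetic
open Crest.Agent.R122.Flow671 Crest.Agent.R122.Loc45 Crest.Agent.R122.Ins45
open Crest.Agent.R122.VLInst442 Crest.Agent.R122.VLcore564 Crest.Agent.R122.Scat818

noncomputable section

namespace Crest.Agent.R122.VLInv399

variable {Φ : Space3 → ℝ} {ε : ℝ} {ι : Type*} [Fintype ι]

/-- Gluing in time. -/
theorem lworld_glue {b : ι → ℝ} {a s T : ℝ} {X : ℝ → ι → PhasePoint}
    (h₁ : LWorld Φ ε b a s X) (h₂ : LWorld Φ ε b s T X) (has : a ≤ s) (hsT : s ≤ T) :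
    LWorld Φ ε b a T X where
  cont := by
    have h3 : Icc a T = Icc a s ∪ Icc s T := (Icc_union_Icc_eq_Icc has hsT).symm
    rw [h3]
    exact ContinuousOn.union_of_isClosed h₁.cont h₂.cont isClosed_Icc isClosed_Icc
  der t ht := by
    rcases lt_or_ge t s with h | h
    · exact h₁.der t ⟨ht.1, h⟩
    · exact h₂.der t ⟨h, ht.2⟩
  dom t ht := by
    rcases lt_or_ge t s with h | h
    · exact h₁.dom t ⟨ht.1, h⟩
    · exact h₂.dom t ⟨h, ht.2⟩

/-- A path is a local world, if every particle has an isolated cluster which is a local world. -/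
theorem lworld_of_cover (hΦ : AdmissiblePotential Φ) (hε : 0 < ε) {b : ι → ℝ} {a T : ℝ}
    {X : ℝ → ι → PhasePoint}
    (h : ∀ i : ι, ∃ (κ : Type) (_ : Fintype κ) (e : κ ↪ ι), (∃ k, e k = i) ∧
      LWorld Φ ε (fun k => b (e k)) a T (fun t k => X t (e k)) ∧
      ∀ t ∈ Ico a T, ∀ j, (∀ k, e k ≠ j) → b i ≤ t → b j ≤ t → ε ≤ dist (X t i).1 (X t j).1) :
    LWorld Φ ε b a T X where
  cont := by
    refine continuousOn_pi.2 fun i => ?_
    obtain ⟨κ, _, e, ⟨k, rfl⟩, hL, -⟩ := h i
    exact hL.cont_apply k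
  der t ht := by
    classical
    rw [hasDerivWithinAt_pi]
    intro i
    obtain ⟨κ, _, e, ⟨k, rfl⟩, hL, hfar⟩ := h i
    have h1 := (hasDerivWithinAt_pi.1 (hL.der t ht)) k
    have h2 : bf Φ ε b t (X t) (e k) = bf Φ ε (fun k => b (e k)) t (fun k => X t (e k)) k := by
      unfold bf
      by_cases hi : b (e k) ≤ t
      · rw [if_pos hi, if_pos hi]
        congr 2
        rw [← Finset.sum_subset (Finset.subset_univ (Finset.univ.map e)), Finset.sum_map]
        intro j _ hj
        by_cases hj' : b j ≤ t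
        · rw [if_pos hj']
          refine grad_far hΦ hε (hfar t ht j (fun k' hk' => hj ?_) hi hj')
          rw [← hk']
          simp
        · rw [if_neg hj']
      · rw [if_neg hi, if_neg hi]
    rw [h2]
    exact h1
  dom t ht := by
    by_cases hC : ContDiff ℝ 2 Φ
    · exact Or.inl hC
    refine Or.inr fun i j hij hi hj => ?_
    obtain ⟨κ, _, e, ⟨k, rfl⟩, hL, hfar⟩ := h i
    by_cases hj' : ∃ k', e k' = j
    · obtain ⟨k', rfl⟩ := hj'
      exact ((hL.dom t ht).resolve_left hC) k k' (fun h => hij (by rw [h])) hi hj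
    · push Not at hj'
      exact ne_of_le_dist hε (hfar t ht j hj' hi hj)

/-- The two-body motion is a local world. -/
theorem lworld_pair (hΦ : AdmissiblePotential Φ) (hε : 0 < ε) {b : Bool → ℝ} {a T : ℝ}
    (hb : ∀ i, b i ≤ a) {x y : PhasePoint} (hxy : x.1 ≠ y.1) :
    LWorld Φ ε b a T (fun t i => bif i then (pp Φ ε x y (t - a)).1 else (pp Φ ε x y (t - a)).2) := by
  set Z : Bool → PhasePoint := fun i => bif i then x else y with hZ
  have htwo : ∀ k : Bool, k = true ∨ k = false := fun k => by cases k <;> simp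
  have hreg : Reg Φ ((Z true).1 - (Z false).1) := Or.inl (sub_ne_zero.2 hxy)
  have hD : Z ∈ Dom Φ Bool := dom_of_reg htwo hreg
  have hW : World Φ ε (fun t => flow Φ ε (t - a) Z) := by
    have := (world_flow hΦ hε hD).shift (-a)
    have h2 : (fun u => flow Φ ε (-a + u) Z) = fun u => flow Φ ε (u - a) Z := by
      funext u
      rw [neg_add_eq_sub]
    rwa [h2] at this
  have hB : BWorld Φ ε b a (fun t => flow Φ ε (t - a) Z) := World.bworld hW hb
  have hL : LWorld Φ ε b a T (fun t => flow Φ ε (t - a) Z) := LWorld.of_bworld hB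
  refine hL.congr fun t _ => ?_
  funext i
  rw [flow_pair hΦ hε (i := true) (j := false) (by simp) htwo hreg]
  cases i
  · rw [pairConf_right ε (by simp)]
    rfl
  · rw [pairConf_left]
    rfl

theorem pp_zero (hΦ : AdmissiblePotential Φ) (hε : 0 < ε) (x y : PhasePoint) :
    pp Φ ε x y 0 = (x, y) := by
  have h1 : (ε / 2) • ((1 / ε) • (x.1 - y.1)) = (1 / 2 : ℝ) • (x.1 - y.1) := by
    rw [smul_smul]; congr 1; field_simp
  unfold pp
  rw [zero_div, relFlow_zero hΦ]
  simp only [h1, zero_smul, add_zero]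
  ext1 <;> ext1
  · show (1 / 2 : ℝ) • (x.1 + y.1) + (1 / 2 : ℝ) • (x.1 - y.1) = x.1
    module
  · show (1 / 2 : ℝ) • (x.2 + y.2) + (1 / 2 : ℝ) • (x.2 - y.2) = x.2
    module
  · show (1 / 2 : ℝ) • (x.1 + y.1) - (1 / 2 : ℝ) • (x.1 - y.1) = y.1
    module
  · show (1 / 2 : ℝ) • (x.2 + y.2) - (1 / 2 : ℝ) • (x.2 - y.2) = y.2
    module

end Crest.Agent.R122.VLInv399

end
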