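import Mathlib
import Crest.Agent.R122.VLFar_581

/-!
# Row 122, block D3 (helper581): node step, interface

* `Ctx` : the hypotheses of `NodeStep`.
* `SubW` : description of the paths of the sub-worlds of the union of the two parts.
-/

set_option autoImplicit false
set_option linter.unusedSectionVars false

open MeasureTheory Set Filter Topology
open scoped ENNReal NNReal
open Crest.AnalysisR.Kinetic
open Crest.Agent.R122.Ins45 Crest.Agent.R122.GIV566 Crest.Agent.R122.VLPar823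
open Crest.Agent.R122.VLPar823.MTree
open Crest.Agent.R122.VLcore564

noncomputable section

namespace Crest.Agent.R122.VL581

open scoped Classical

/-- Context of the node step. -/
structure Ctx {J κ : Type} [Fintype J] (M : ℕ → VSys J κ) (N : VSys J κ) (Bd : Set ℝ)
    (A : Finset J) (k : κ) (i : J) (B : Finset J) (l : κ) (j : J) (P Q : MTree J κ) (t : ℝ)
    (ζ : Space3 × Space3) (πP : Par P) (πQ : Par Q) (Z : ℕ → J → PhasePoint)
    (Zl : J → PhasePoint) : Prop where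
  H : Hyp M N Bd
  wf : WF N.o (node A k i B l j P Q)
  t0 : 0 < t
  tT : t < N.T
  ac : N.act k i t
  oP : Ord P t πP
  oQ : Ord Q t πQ
  G : N.GenNode Bd A k i B l j P Q t ζ πP πQ Zl
  iP : InvC M N P πP Z Zl
  iQ : InvC M N Q πQ Z Zl
  cP : Coinc N P πP Zl
  cQ : Coinc N Q πQ Zl
  rel : ∀ᶠ m in atTop, ph (M m) A k t (Z m) i - ph (M m) B l t (Z m) j = ((M m).ε • ζ.1, ζ.2)

/-- Displacement of a particle by the encounter (scaled). -/
def kick1 (Φ : Space3 → ℝ) (z : Space3 × Space3) : Space3 := (1 / 2 : ℝ) • (qout Φ z - z.1)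

/-- The paths of the sub-worlds of the union. -/
structure SubW {J κ : Type} [Fintype J] (M : ℕ → VSys J κ) (N : VSys J κ)
    (A : Finset J) (i : J) (B : Finset J) (j : J) (P Q : MTree J κ) (t : ℝ)
    (ζ : Space3 × Space3) (πP : Par P) (πQ : Par Q) (Z : ℕ → J → PhasePoint) : Prop where
  old : ∀ᶠ m in atTop, ∀ A' ⊆ supp P ∪ supp Q, ¬ N.mrg A i B j P Q t πP πQ A' →
    (M m).ok A' N.T (Z m) ∧ ∀ s ∈ Icc 0 N.T,
      (∀ p ∈ A' ∩ supp P, (M m).st A' s (Z m) p = (M m).st (A' ∩ supp P) s (Z m) p) ∧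
      (∀ q ∈ A' ∩ supp Q, (M m).st A' s (Z m) q = (M m).st (A' ∩ supp Q) s (Z m) q)
  new : ∃ R K : ℝ, 0 ≤ R ∧ 0 ≤ K ∧ ∀ᶠ m in atTop, ∀ A' ⊆ supp P ∪ supp Q,
    N.mrg A i B j P Q t πP πQ A' →
    (M m).ok A' N.T (Z m) ∧ ∀ s ∈ Icc 0 N.T,
      (∀ p ∈ A' ∩ supp P, p ≠ i →
        (M m).st A' s (Z m) p = (M m).st (A' ∩ supp P) s (Z m) p) ∧
      (∀ q ∈ A' ∩ supp Q, q ≠ j →
        (M m).st A' s (Z m) q = (M m).st (A' ∩ supp Q) s (Z m) q) ∧
      (s ≤ t - R * (M m).ε →
        (M m).st A' s (Z m) i = (M m).st (A' ∩ supp P) s (Z m) i ∧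
        (M m).st A' s (Z m) j = (M m).st (A' ∩ supp Q) s (Z m) j) ∧
      (t + R * (M m).ε ≤ s →
        (M m).st A' s (Z m) i = (((M m).st (A' ∩ supp P) s (Z m) i).1 +
          ((M m).ε • kick1 N.Φ ζ + (s - t) • kick N.Φ ζ),
          ((M m).st (A' ∩ supp P) s (Z m) i).2 + kick N.Φ ζ) ∧
        (M m).st A' s (Z m) j = (((M m).st (A' ∩ supp Q) s (Z m) j).1 -
          ((M m).ε • kick1 N.Φ ζ + (s - t) • kick N.Φ ζ),
          ((M m).st (A' ∩ supp Q) s (Z m) j).2 - kick N.Φ ζ)) ∧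
      ‖((M m).st A' s (Z m) i).1 - (((M m).st (A' ∩ supp P) s (Z m) i).1 +
        max (s - t) 0 • kick N.Φ ζ)‖ ≤ K * (M m).ε ∧
      ‖((M m).st A' s (Z m) j).1 - (((M m).st (A' ∩ supp Q) s (Z m) j).1 -
        max (s - t) 0 • kick N.Φ ζ)‖ ≤ K * (M m).ε

/-! ### Times -/

section times

variable {J κ : Type}

theorem tlast_lt : ∀ (τ : MTree J κ) (π : Par τ) {t : ℝ}, 0 < t → Ord τ t π → tlast τ π < t
  | leaf _, _, _ => fun h _ => by
    show (-1 : ℝ) < _
    linarith
  | node _ _ _ _ _ _ _ _, _, _ => fun _ h => h.2.1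

theorem edg_sub {o : Option J} : ∀ (τ : MTree J κ), WF o τ → ∀ e ∈ edg τ,
    e.1 ∈ supp τ ∧ e.2 ∈ supp τ
  | leaf _ => fun _ e he => absurd he (Finset.notMem_empty e)
  | node A k i B l j P Q => fun h e he => by
    have he' : e = (i, j) ∨ e ∈ edg P ∨ e ∈ edg Q := by
      simpa [edg] using he
    show e.1 ∈ supp P ∪ supp Q ∧ e.2 ∈ supp P ∪ supp Q
    rw [Finset.mem_union, Finset.mem_union]
    obtain ⟨hd, hA, hB, hi, hj, -, hP, hQ⟩ := h
    rcases he' with rfl | he' | he'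
    · exact ⟨Or.inl (hA hi), Or.inr (hB hj)⟩
    · have := edg_sub P hP e he'
      exact ⟨Or.inl this.1, Or.inl this.2⟩
    · have := edg_sub Q hQ e he'
      exact ⟨Or.inr this.1, Or.inr this.2⟩

theorem sig_node {A : Finset J} {k : κ} {i : J} {B : Finset J} {l : κ} {j : J} {P Q : MTree J κ}
    (π : Par (node A k i B l j P Q)) (e : J × J) :
    sig (node A k i B l j P Q) π e = if e = (i, j) then π.1.1 else
      if e.1 ∈ supp P then sig P π.2.1 e else sig Q π.2.2 e := rfl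

theorem sig_left {o : Option J} {A : Finset J} {k : κ} {i : J} {B : Finset J} {l : κ} {j : J}
    {P Q : MTree J κ} (h : WF o (node A k i B l j P Q)) (π : Par (node A k i B l j P Q))
    {e : J × J} (he : e ∈ edg P) : sig (node A k i B l j P Q) π e = sig P π.2.1 e := by
  obtain ⟨hd, hA, hB, hi, hj, -, hP, hQ⟩ := h
  have he' := edg_sub P hP e he
  have hne : e ≠ (i, j) := by
    rintro rfl
    exact Finset.disjoint_left.1 hd he'.2 (hB hj)
  rw [sig_node, if_neg hne, if_pos he'.1]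

theorem sig_right {o : Option J} {A : Finset J} {k : κ} {i : J} {B : Finset J} {l : κ} {j : J}
    {P Q : MTree J κ} (h : WF o (node A k i B l j P Q)) (π : Par (node A k i B l j P Q))
    {e : J × J} (he : e ∈ edg Q) : sig (node A k i B l j P Q) π e = sig Q π.2.2 e := by
  obtain ⟨hd, hA, hB, hi, hj, -, hP, hQ⟩ := h
  have he' := edg_sub Q hQ e he
  have hne : e ≠ (i, j) := by
    rintro rfl
    exact Finset.disjoint_left.1 hd (hA hi) he'.1
  rw [sig_node, if_neg hne, if_neg (Finset.disjoint_right.1 hd he'.1)]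

theorem sig_le {o : Option J} : ∀ (τ : MTree J κ) (π : Par τ) {t : ℝ}, WF o τ → Ord τ t π →
    ∀ e ∈ edg τ, 0 < sig τ π e ∧ sig τ π e ≤ tlast τ π
  | leaf _, _, _ => fun _ _ e he => absurd he (Finset.notMem_empty e)
  | node A k i B l j P Q, π, t => fun h ho e he => by
    have he' : e = (i, j) ∨ e ∈ edg P ∨ e ∈ edg Q := by
      simpa [edg] using he
    rcases he' with rfl | he' | he'
    · rw [sig_node, if_pos rfl]
      exact ⟨ho.1, le_rfl⟩
    · rw [sig_left h π he']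
      have := sig_le P π.2.1 h.2.2.2.2.2.2.1 ho.2.2.1 e he'
      exact ⟨this.1, this.2.trans (tlast_lt P π.2.1 ho.1 ho.2.2.1).le⟩
    · rw [sig_right h π he']
      have := sig_le Q π.2.2 h.2.2.2.2.2.2.2 ho.2.2.2 e he'
      exact ⟨this.1, this.2.trans (tlast_lt Q π.2.2 ho.1 ho.2.2.2).le⟩

theorem sig_lt {o : Option J} (τ : MTree J κ) (π : Par τ) {t : ℝ} (ht : 0 < t) (h : WF o τ)
    (ho : Ord τ t π) (e : J × J) (he : e ∈ edg τ) : sig τ π e < t :=
  (sig_le τ π h ho e he).2.trans_lt (tlast_lt τ π ht ho)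

end times

namespace VSys

variable {J κ : Type} [Fintype J] (N : VSys J κ)

theorem D_node {A : Finset J} {k : κ} {i : J} {B : Finset J} {l : κ} {j : J} {P Q : MTree J κ}
    (π : Par (node A k i B l j P Q)) (A' : Finset J) (p : J) :
    N.D (node A k i B l j P Q) π A' p =
      (if p ∈ supp P then N.D P π.2.1 (A' ∩ supp P) p else N.D Q π.2.2 (A' ∩ supp Q) p) +
      if N.mrg A i B j P Q π.1.1 π.2.1 π.2.2 A' then
        (if p = i then (-(π.1.1 • kick N.Φ π.1.2), kick N.Φ π.1.2)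
          else if p = j then (π.1.1 • kick N.Φ π.1.2, -kick N.Φ π.1.2) else 0)
      else 0 := by
  by_cases h : N.mrg A i B j P Q π.1.1 π.2.1 π.2.2 A'
  · rw [if_pos h]
    exact congrArg (fun x => (if p ∈ supp P then N.D P π.2.1 (A' ∩ supp P) p
      else N.D Q π.2.2 (A' ∩ supp Q) p) + x) (if_pos h)
  · rw [if_neg h]
    exact congrArg (fun x => (if p ∈ supp P then N.D P π.2.1 (A' ∩ supp P) p
      else N.D Q π.2.2 (A' ∩ supp Q) p) + x) (if_neg h)

theorem Del_node {A : Finset J} {k : κ} {i : J} {B : Finset J} {l : κ} {j : J} {P Q : MTree J κ}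
    (π : Par (node A k i B l j P Q)) (A' : Finset J) (p : J) (s : ℝ) :
    N.Del (node A k i B l j P Q) π A' p s =
      (if p ∈ supp P then N.Del P π.2.1 (A' ∩ supp P) p s else N.Del Q π.2.2 (A' ∩ supp Q) p s) +
      if N.mrg A i B j P Q π.1.1 π.2.1 π.2.2 A' then
        (if p = i then max (s - π.1.1) 0 • kick N.Φ π.1.2
          else if p = j then -(max (s - π.1.1) 0 • kick N.Φ π.1.2) else 0)
      else 0 := rfl

/-- After the last merge the displacement is affine. -/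
theorem Del_eq : ∀ (τ : MTree J κ) (π : Par τ) {t : ℝ}, 0 < t → Ord τ t π → ∀ (A' : Finset J)
    (p : J) (s : ℝ), tlast τ π ≤ s → N.Del τ π A' p s = (N.D τ π A' p).1 + s • (N.D τ π A' p).2
  | leaf _, _, _ => fun _ _ A' p s _ => by
    show (0 : Space3) = (0 : PhasePoint).1 + s • (0 : PhasePoint).2
    simp
  | node A k i B l j P Q, π, t => fun ht ho A' p s hs => by
    have hs' : π.1.1 ≤ s := hs
    have hP := Del_eq P π.2.1 ho.1 ho.2.2.1 (A' ∩ supp P) p s
      ((tlast_lt P π.2.1 ho.1 ho.2.2.1).le.trans hs')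
    have hQ := Del_eq Q π.2.2 ho.1 ho.2.2.2 (A' ∩ supp Q) p s
      ((tlast_lt Q π.2.2 ho.1 ho.2.2.2).le.trans hs')
    rw [Del_node, D_node, hP, hQ, max_eq_left (sub_nonneg.2 hs')]
    split_ifs <;> simp only [Prod.fst_add, Prod.snd_add, Prod.fst_zero, Prod.snd_zero] <;> module

end VSys

end Crest.Agent.R122.VL581
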