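import Mathlib
import Crest.Agent.R122.VLNodeDefs_581

/-!
# Row 122, block D3 (helper581): node step, part 1 (window, unmixed cross contacts)
-/

set_option autoImplicit false
set_option linter.unusedSectionVars false

open MeasureTheory Set Filter Topology
open scoped ENNReal NNReal
open Crest.AnalysisR.Kinetic
open Crest.Agent.R122.Ins45 Crest.Agent.R122.GIV566 Crest.Agent.R122.VLPar823
open Crest.Agent.R122.VLPar823.MTree
open Crest.Agent.R122.VLcore564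

noncomputable section

namespace Crest.Agent.R122.VL581

open scoped Classical

/-- `far` with a multiple of `ε`. -/
theorem farε {K : Set ℝ} (hK : IsCompact K) {f g : ℝ → Space3} {fm gm : ℕ → ℝ → Space3}
    (hf : ContinuousOn f K) (hg : ContinuousOn g K) (hfm : TendstoUniformlyOn fm f atTop K)
    (hgm : TendstoUniformlyOn gm g atTop K) {P₁ P₂ : Prop} {b₁ b₂ : ℝ} {bm₁ bm₂ : ℕ → ℝ}
    (h1 : P₁ → Tendsto bm₁ atTop (𝓝 b₁)) (h2 : P₂ → Tendsto bm₂ atTop (𝓝 b₂))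
    (hne : ∀ s ∈ K, (P₁ → s ≤ b₁) → (P₂ → s ≤ b₂) → f s ≠ g s) {ε : ℕ → ℝ}
    (hε : Tendsto ε atTop (𝓝 0)) (C : ℝ) :
    ∀ᶠ m in atTop, ∀ s ∈ K, (P₁ → s ≤ bm₁ m) → (P₂ → s ≤ bm₂ m) →
      C * ε m < dist (fm m s) (gm m s) := by
  obtain ⟨c, hc, h⟩ := far hK hf hg hfm hgm h1 h2 hne
  have h3 : Tendsto (fun m => C * ε m) atTop (𝓝 0) := by
    simpa using hε.const_mul C
  filter_upwards [h, h3.eventually (gt_mem_nhds hc)] with m hm hm' s hs a1 a2
  exact hm'.trans (hm s hs a1 a2)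

/-- A curve with constant derivative is affine. -/
theorem affine_of_hasDerivAt {c : ℝ → Space3} {v : Space3} {a b : ℝ}
    (h : ∀ u ∈ Icc a b, HasDerivAt c v u) {s u : ℝ} (hs : s ∈ Icc a b) (hu : u ∈ Icc a b) :
    c s = c u + (s - u) • v := by
  have h1 : ∀ x ∈ Icc a b, c x - x • v = c a - a • v := by
    refine constant_of_has_deriv_right_zero (f := fun x => c x - x • v) ?_ ?_
    · intro x hx
      exact ((h x hx).continuousAt.sub (by fun_prop)).continuousWithinAt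
    · intro x hx
      have h2 : HasDerivAt (fun x : ℝ => x • v) ((1 : ℝ) • v) x :=
        (hasDerivAt_id x).smul_const v
      have h3 := (h x ⟨hx.1, hx.2.le⟩).sub h2
      rw [one_smul, sub_self] at h3
      exact h3.hasDerivWithinAt
  have h2 := h1 s hs
  rw [← h1 u hu] at h2
  have h3 : c s = c u - u • v + s • v := by rw [← h2]; abel
  rw [h3]
  module

/-- A norm bound gives a time bound. -/
theorem time_of_norm {ξ V : Space3} (hV : V ≠ 0) {ε C x : ℝ} (hε : 0 < ε)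
    (h : ‖ε • ξ + x • V‖ ≤ C * ε) : |x| ≤ (C + ‖ξ‖) / ‖V‖ * ε := by
  have hV' : 0 < ‖V‖ := norm_pos_iff.2 hV
  have h1 : ‖x • V‖ ≤ ‖ε • ξ + x • V‖ + ‖ε • ξ‖ := by
    have : x • V = (ε • ξ + x • V) - ε • ξ := by abel
    calc ‖x • V‖ = ‖(ε • ξ + x • V) - ε • ξ‖ := by rw [← this]
      _ ≤ _ := norm_sub_le _ _
  rw [norm_smul, norm_smul, Real.norm_eq_abs, Real.norm_eq_abs, abs_of_pos hε] at h1
  rw [div_mul_eq_mul_div, le_div_iff₀ hV']
  nlinarith

section ctx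

variable {J κ : Type} [Fintype J] [Fintype κ] {M : ℕ → VSys J κ} {N : VSys J κ} {Bd : Set ℝ}
  {A : Finset J} {k : κ} {i : J} {B : Finset J} {l : κ} {j : J} {P Q : MTree J κ} {t : ℝ}
  {ζ : Space3 × Space3} {πP : Par P} {πQ : Par Q} {Z : ℕ → J → PhasePoint} {Zl : J → PhasePoint}

theorem Hyp.lipS (H : Hyp M N Bd) : ∃ L : ℝ≥0, ∀ i, LipschitzOnWith L (N.S.c i) (Icc 0 N.T) :=
  ⟨H.tubes.lip.choose, H.tubes.lip.choose_spec.2⟩

theorem Hyp.epos (H : Hyp M N Bd) (m : ℕ) : 0 < (M m).ε := (H.eq m).2.2.2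

theorem Hyp.ho (H : Hyp M N Bd) (m : ℕ) : (M m).o = N.o := (H.eq m).2.2.1

theorem Hyp.hT (H : Hyp M N Bd) (m : ℕ) : (M m).T = N.T := (H.eq m).2.1

theorem Hyp.hΦ (H : Hyp M N Bd) (m : ℕ) : (M m).Φ = N.Φ := (H.eq m).1

theorem Hyp.bb (H : Hyp M N Bd) (p : J) : Tendsto (fun m => (M m).bb p) atTop (𝓝 (N.bb p)) :=
  (H.births p).max tendsto_const_nhds

/-- `R ε → 0`. -/
theorem Hyp.ev_lt (H : Hyp M N Bd) (R : ℝ) {x : ℝ} (hx : 0 < x) :
    ∀ᶠ m in atTop, R * (M m).ε < x := by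
  have h3 : Tendsto (fun m => R * (M m).ε) atTop (𝓝 0) := by
    simpa using H.eps.const_mul R
  exact h3.eventually (gt_mem_nhds hx)

theorem pos_particle {M : VSys J κ} {A : Finset J} {k : κ} {s : ℝ} {Z : J → PhasePoint} {p : J}
    (h : M.o ≠ some p) : M.pos A k s Z p = (M.st A s Z p).1 := by
  unfold VSys.pos
  rw [if_neg h]

theorem pos_tube {M : VSys J κ} {A : Finset J} {k : κ} {s : ℝ} {Z : J → PhasePoint} {p : J}
    (h : M.o = some p) (h0 : 0 ≤ s) (hT : s ≤ M.T) :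
    M.pos A k s Z p = (Z p).1 + M.S.c k s := by
  unfold VSys.pos
  rw [if_pos h, min_eq_left hT, max_eq_right h0]

theorem Gam_particle {τ : MTree J κ} {π : Par τ} {A : Finset J} {k : κ} {s : ℝ}
    {Z : J → PhasePoint} {p : J} (h : N.o ≠ some p) :
    N.Gam τ π A k s Z p = (Z p).1 + s • (Z p).2 + N.Del τ π A p s := by
  unfold VSys.Gam
  rw [if_neg h]

/-- Far lemma for two labels of subtrees, one time set. -/
theorem far_labels (H : Hyp M N Bd) {τ τ' : MTree J κ} {π : Par τ} {π' : Par τ'}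
    (hI : InvC M N τ π Z Zl) (hI' : InvC M N τ' π' Z Zl) {K : Set ℝ} (hK : IsCompact K)
    (hKT : K ⊆ Icc 0 N.T) {A' B' : Finset J} (hA : A' ⊆ supp τ) (hB : B' ⊆ supp τ') {k' l' : κ}
    {p q : J} (hp : p ∈ A') (hq : q ∈ B') {f g : ℝ → Space3} (hf : Continuous f)
    (hg : Continuous g)
    (hne : ∀ s ∈ K, N.act k' p s → N.act l' q s →
      N.Gam τ π A' k' s Zl p + f s ≠ N.Gam τ' π' B' l' s Zl q + g s) (C : ℝ) :
    ∀ᶠ m in atTop, ∀ s ∈ K, (M m).act k' p s → (M m).act l' q s →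
      C * (M m).ε < dist ((M m).pos A' k' s (Z m) p + f s) ((M m).pos B' l' s (Z m) q + g s) := by
  have h1 := (hI.conv A' hA k' p hp).mono hKT
  have h2 := (hI'.conv B' hB l' q hq).mono hKT
  have hcf : TendstoUniformlyOn (fun (_ : ℕ) s => f s) f atTop K :=
    Metric.tendstoUniformlyOn_iff.2 fun e he => Eventually.of_forall fun n x _ => by
      rw [dist_self]; exact he
  have hcg : TendstoUniformlyOn (fun (_ : ℕ) s => g s) g atTop K :=
    Metric.tendstoUniformlyOn_iff.2 fun e he => Eventually.of_forall fun n x _ => by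
      rw [dist_self]; exact he
  have h3 := farε hK (((continuousOn_Gam N H.lipS τ π A' k' Zl p).mono hKT).add hf.continuousOn)
    (((continuousOn_Gam N H.lipS τ' π' B' l' Zl q).mono hKT).add hg.continuousOn)
    (h1.add hcf) (h2.add hcg) (P₁ := N.o = some p) (P₂ := N.o = some q)
    (fun _ => H.tubes.active k') (fun _ => H.tubes.active l') hne H.eps C
  filter_upwards [h3] with m hm s hs a1 a2
  exact hm s hs (fun h => a1 (by rw [H.ho]; exact h)) (fun h => a2 (by rw [H.ho]; exact h))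

/-- The window. -/
structure Win (M : ℕ → VSys J κ) (N : VSys J κ) (A : Finset J) (k : κ) (i : J) (B : Finset J)
    (l : κ) (j : J) (P Q : MTree J κ) (t : ℝ) (ζ : Space3 × Space3) (πP : Par P) (πQ : Par Q)
    (Z : ℕ → J → PhasePoint) (δ : ℝ) (V : Space3) : Prop where
  pos : 0 < δ
  t0 : 0 < t - δ
  tT : t + δ < N.T
  lP : tlast P πP < t - δ
  lQ : tlast Q πQ < t - δ
  bb : ∀ p, N.bb p < t - δ ∨ t + δ < N.bb p
  V0 : V ≠ 0
  VV : N.o ≠ some i → V = ζ.2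
  act : N.o = some i → t + δ < N.S.b k
  diff : ∀ᶠ m in atTop, ∀ s ∈ Icc (t - δ) (t + δ),
    (M m).pos A k s (Z m) i - (M m).pos B l s (Z m) j = (M m).ε • ζ.1 + (s - t) • V
  diff' : N.o ≠ some i → ∀ᶠ m in atTop, ∀ s ∈ Icc (t - δ) N.T,
    ((M m).st A s (Z m) i).1 - ((M m).st B s (Z m) j).1 = (M m).ε • ζ.1 + (s - t) • V

variable (c : Ctx M N Bd A k i B l j P Q t ζ πP πQ Z Zl)
include c

theorem Ctx.hij : i ≠ j := by
  rintro rfl
  exact Finset.disjoint_left.1 c.wf.1 (c.wf.2.1 c.wf.2.2.2.1) (c.wf.2.2.1 c.wf.2.2.2.2.1)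

theorem Ctx.hiP : i ∈ supp P := c.wf.2.1 c.wf.2.2.2.1

theorem Ctx.hjQ : j ∈ supp Q := c.wf.2.2.1 c.wf.2.2.2.2.1

theorem Ctx.hoQ {q : J} (hq : q ∈ supp Q) : N.o ≠ some q := c.wf.2.2.2.2.2.1 q hq

/-- Lines after a time beyond the last merge, left part. -/
theorem Ctx.lineP {a : ℝ} (ha : tlast P πP < a) : ∀ᶠ m in atTop, ∀ A' ⊆ supp P, ∀ p ∈ A',
    N.o ≠ some p → ∀ s ∈ Icc a N.T, (M m).st A' s (Z m) p =
      (((M m).st A' N.T (Z m) p).1 - (N.T - s) • ((Zl p).2 + (N.D P πP A' p).2),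
        (Zl p).2 + (N.D P πP A' p).2) := by
  obtain ⟨R, hR⟩ := c.iP.line
  filter_upwards [hR, c.H.ev_lt R (sub_pos.2 ha)] with m hm hm' A' hA' p hp ho s hs
  exact hm A' hA' p hp ho s ⟨by linarith [hs.1], hs.2⟩

theorem Ctx.lineQ {a : ℝ} (ha : tlast Q πQ < a) : ∀ᶠ m in atTop, ∀ A' ⊆ supp Q, ∀ p ∈ A',
    N.o ≠ some p → ∀ s ∈ Icc a N.T, (M m).st A' s (Z m) p =
      (((M m).st A' N.T (Z m) p).1 - (N.T - s) • ((Zl p).2 + (N.D Q πQ A' p).2),
        (Zl p).2 + (N.D Q πQ A' p).2) := by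
  obtain ⟨R, hR⟩ := c.iQ.line
  filter_upwards [hR, c.H.ev_lt R (sub_pos.2 ha)] with m hm hm' A' hA' p hp ho s hs
  exact hm A' hA' p hp ho s ⟨by linarith [hs.1], hs.2⟩

theorem Ctx.eqvP {a : ℝ} (ha : tlast P πP < a) : ∀ᶠ m in atTop, ∀ A' ⊆ supp P, ∀ A'' ⊆ supp P,
    ∀ p ∈ A', p ∈ A'' → N.o ≠ some p → N.D P πP A' p = N.D P πP A'' p → ∀ s ∈ Icc a N.T,
      (M m).st A' s (Z m) p = (M m).st A'' s (Z m) p := by
  obtain ⟨R, hR⟩ := c.iP.eqv
  filter_upwards [hR, c.H.ev_lt R (sub_pos.2 ha)] with m hm hm' A' hA' A'' hA'' p hp hp' ho hD s hs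
  exact hm A' hA' A'' hA'' p hp hp' ho hD s ⟨by linarith [hs.1], hs.2⟩

theorem Ctx.eqvQ {a : ℝ} (ha : tlast Q πQ < a) : ∀ᶠ m in atTop, ∀ A' ⊆ supp Q, ∀ A'' ⊆ supp Q,
    ∀ p ∈ A', p ∈ A'' → N.o ≠ some p → N.D Q πQ A' p = N.D Q πQ A'' p → ∀ s ∈ Icc a N.T,
      (M m).st A' s (Z m) p = (M m).st A'' s (Z m) p := by
  obtain ⟨R, hR⟩ := c.iQ.eqv
  filter_upwards [hR, c.H.ev_lt R (sub_pos.2 ha)] with m hm hm' A' hA' A'' hA'' p hp hp' ho hD s hs
  exact hm A' hA' A'' hA'' p hp hp' ho hD s ⟨by linarith [hs.1], hs.2⟩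

/-- Existence of the window. -/
theorem Ctx.exists_win : ∃ δ V, Win M N A k i B l j P Q t ζ πP πQ Z δ V := by
  have hlP := tlast_lt P πP c.t0 c.oP
  have hlQ := tlast_lt Q πQ c.t0 c.oQ
  have hoj : N.o ≠ some j := c.hoQ c.hjQ
  -- the time interval
  have ev : ∀ᶠ δ in 𝓝[>] (0 : ℝ), 0 < δ ∧ 0 < t - δ ∧ t + δ < N.T ∧ tlast P πP < t - δ ∧
      tlast Q πQ < t - δ ∧ (∀ p, N.bb p < t - δ ∨ t + δ < N.bb p) ∧
      (N.o = some i → t + δ < N.S.b k) := by
    have hc1 : Tendsto (fun δ : ℝ => t - δ) (𝓝[>] 0) (𝓝 t) := by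
      have : Tendsto (fun δ : ℝ => t - δ) (𝓝 0) (𝓝 (t - 0)) :=
        (continuous_const.sub continuous_id).tendsto 0
      rw [sub_zero] at this
      exact this.mono_left nhdsWithin_le_nhds
    have hc2 : Tendsto (fun δ : ℝ => t + δ) (𝓝[>] 0) (𝓝 t) := by
      have : Tendsto (fun δ : ℝ => t + δ) (𝓝 0) (𝓝 (t + 0)) :=
        (continuous_const.add continuous_id).tendsto 0
      rw [add_zero] at this
      exact this.mono_left nhdsWithin_le_nhds
    refine Filter.Eventually.and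
      (show ∀ᶠ δ in 𝓝[>] (0 : ℝ), 0 < δ from self_mem_nhdsWithin) ?_
    refine (hc1.eventually (lt_mem_nhds c.t0)).and ?_
    refine (hc2.eventually (gt_mem_nhds c.tT)).and ?_
    refine (hc1.eventually (lt_mem_nhds hlP)).and ?_
    refine (hc1.eventually (lt_mem_nhds hlQ)).and ?_
    refine Eventually.and ?_ ?_
    · rw [eventually_all]
      intro p
      rcases lt_or_gt_of_ne (c.G.tbb p) with h | h
      · exact (hc2.eventually (gt_mem_nhds h)).mono fun _ h => Or.inr h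
      · exact (hc1.eventually (lt_mem_nhds h)).mono fun _ h => Or.inl h
    · by_cases ho : N.o = some i
      · have h1 : t < N.S.b k := lt_of_le_of_ne (c.ac ho) (c.G.tSb k)
        exact (hc2.eventually (gt_mem_nhds h1)).mono fun _ h _ => h
      · exact Eventually.of_forall fun _ h => absurd h ho
  by_cases ho : N.o = some i
  · -- tube
    have h1 : t < N.S.b k := lt_of_le_of_ne (c.ac ho) (c.G.tSb k)
    obtain ⟨v, U, hU, hv, hvm⟩ := c.H.vel t ⟨c.t0, c.tT⟩ c.G.tBd k h1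
    have hV : ζ.2 + v ≠ 0 := c.G.N4t ho v (hv t (mem_of_mem_nhds hU))
    have ev2 : ∀ᶠ δ in 𝓝[>] (0 : ℝ), Icc (t - δ) (t + δ) ⊆ U := by
      obtain ⟨r, hr, hrU⟩ := Metric.mem_nhds_iff.1 hU
      have : Iio r ∈ 𝓝[>] (0 : ℝ) := mem_nhdsWithin_of_mem_nhds (Iio_mem_nhds hr)
      filter_upwards [this, self_mem_nhdsWithin] with δ hδ hδ0 s hs
      refine hrU ?_
      rw [Metric.mem_ball, Real.dist_eq, abs_lt]
      have hδ' : δ < r := hδ
      exact ⟨by linarith [hs.1], by linarith [hs.2]⟩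
    obtain ⟨δ, ⟨d1, d2, d3, d4, d5, d6, d7⟩, hδU⟩ := (ev.and ev2).exists
    refine ⟨δ, ζ.2 + v, d1, d2, d3, d4, d5, d6, hV, fun h => absurd ho h, d7, ?_,
      fun h => absurd ho h⟩
    filter_upwards [hvm, c.rel, c.lineQ d5] with m hvm hrel hline s hs
    have hoi : (M m).o = some i := by rw [c.H.ho]; exact ho
    have hoj' : (M m).o ≠ some j := by rw [c.H.ho]; exact hoj
    have hts : t ∈ Icc (t - δ) (t + δ) := ⟨by linarith, by linarith⟩
    have hsT : s ≤ N.T := by linarith [hs.2]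
    have e1 : (M m).pos A k s (Z m) i = (M m).pos A k t (Z m) i + (s - t) • v := by
      rw [pos_tube hoi (by linarith [hs.1]) (by rw [c.H.hT]; exact hsT),
        pos_tube hoi c.t0.le (by rw [c.H.hT]; exact c.tT.le),
        affine_of_hasDerivAt (fun u hu => hvm u (hδU hu)) hs hts, add_assoc]
    have l1 := hline B c.wf.2.2.1 j c.wf.2.2.2.2.1 hoj s ⟨hs.1, hsT⟩
    have l2 := hline B c.wf.2.2.1 j c.wf.2.2.2.2.1 hoj t ⟨hts.1, c.tT.le⟩
    have r1 := congrArg Prod.fst hrel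
    have r2 := congrArg Prod.snd hrel
    simp only [ph, Prod.fst_sub, Prod.snd_sub, if_pos hoi, if_neg hoj', zero_sub] at r1 r2
    rw [e1, pos_particle hoj', l1]
    rw [pos_particle hoj', l2] at r1
    rw [l2] at r2
    simp only at r1 r2 ⊢
    rw [← r2, ← r1]
    module
  · obtain ⟨δ, ⟨d1, d2, d3, d4, d5, d6, d7⟩⟩ := ev.exists
    have key : ∀ᶠ m in atTop, ∀ s ∈ Icc (t - δ) N.T,
        ((M m).st A s (Z m) i).1 - ((M m).st B s (Z m) j).1 = (M m).ε • ζ.1 + (s - t) • ζ.2 := by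
      filter_upwards [c.rel, c.lineP d4, c.lineQ d5] with m hrel hlP hlQ s hs
      have hoi : (M m).o ≠ some i := by rw [c.H.ho]; exact ho
      have hoj' : (M m).o ≠ some j := by rw [c.H.ho]; exact hoj
      have l1 := hlQ B c.wf.2.2.1 j c.wf.2.2.2.2.1 hoj s hs
      have l2 := hlQ B c.wf.2.2.1 j c.wf.2.2.2.2.1 hoj t ⟨by linarith, c.tT.le⟩
      have l3 := hlP A c.wf.2.1 i c.wf.2.2.2.1 ho s hs
      have l4 := hlP A c.wf.2.1 i c.wf.2.2.2.1 ho t ⟨by linarith, c.tT.le⟩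
      have r1 := congrArg Prod.fst hrel
      have r2 := congrArg Prod.snd hrel
      simp only [ph, Prod.fst_sub, Prod.snd_sub, if_neg hoi, if_neg hoj'] at r1 r2
      rw [pos_particle hoj', pos_particle hoi, l2, l4] at r1
      rw [l2, l4] at r2
      rw [l1, l3]
      simp only at r1 r2 ⊢
      rw [← r2, ← r1]
      module
    refine ⟨δ, ζ.2, d1, d2, d3, d4, d5, d6, c.G.N4 ho, fun _ => rfl, d7, ?_, fun _ => key⟩
    filter_upwards [key] with m hm s hs
    have hoi : (M m).o ≠ some i := by rw [c.H.ho]; exact ho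
    have hoj' : (M m).o ≠ some j := by rw [c.H.ho]; exact hoj
    rw [pos_particle hoi, pos_particle hoj']
    exact hm s ⟨hs.1, by linarith [hs.2]⟩

/-- Labels with the final path of the merging label of the left part. -/
theorem Ctx.eqv_posP {δ : ℝ} {V : Space3} (w : Win M N A k i B l j P Q t ζ πP πQ Z δ V) :
    ∀ᶠ m in atTop, ∀ A' ⊆ supp P, ∀ k', ∀ p ∈ A', N.Eqv P πP A' k' p A k i →
      ∀ s ∈ Icc (t - δ) N.T, (M m).pos A' k' s (Z m) p = (M m).pos A k s (Z m) i := by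
  filter_upwards [c.eqvP w.lP] with m hm A' hA' k' p hp he s hs
  obtain ⟨rfl, h1, h2⟩ := he
  by_cases ho : N.o = some p
  · rw [h1 ho]
    unfold VSys.pos
    rw [c.H.ho, if_pos ho, if_pos ho]
  · have ho' : (M m).o ≠ some p := by rw [c.H.ho]; exact ho
    rw [pos_particle ho', pos_particle ho', hm A' hA' A c.wf.2.1 p hp c.wf.2.2.2.1 ho (h2 ho) s hs]

/-- Labels with the final path of the merging label of the right part. -/
theorem Ctx.eqv_posQ {δ : ℝ} {V : Space3} (w : Win M N A k i B l j P Q t ζ πP πQ Z δ V) :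
    ∀ᶠ m in atTop, ∀ B' ⊆ supp Q, ∀ l', ∀ q ∈ B', N.Eqv Q πQ B' l' q B l j →
      ∀ s ∈ Icc (t - δ) N.T, (M m).pos B' l' s (Z m) q = (M m).pos B l s (Z m) j := by
  filter_upwards [c.eqvQ w.lQ] with m hm B' hB' l' q hq he s hs
  obtain ⟨rfl, -, h2⟩ := he
  have ho : N.o ≠ some q := c.hoQ c.hjQ
  have ho' : (M m).o ≠ some q := by rw [c.H.ho]; exact ho
  rw [pos_particle ho', pos_particle ho', hm B' hB' B c.wf.2.2.1 q hq c.wf.2.2.2.2.1 ho (h2 ho) s
    hs]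

/-- **Cross contacts, unmixed**: only the labels with the final paths of the merging labels, and
only near the merge time. -/
theorem Ctx.crossX {δ : ℝ} {V : Space3} (w : Win M N A k i B l j P Q t ζ πP πQ Z δ V) (C : ℝ) :
    ∃ R, 0 ≤ R ∧ ∀ᶠ m in atTop, ∀ A' ⊆ supp P, ∀ B' ⊆ supp Q, ∀ k' l', ∀ p ∈ A', ∀ q ∈ B',
      ∀ s ∈ Icc 0 N.T, (M m).act k' p s →
        dist ((M m).pos A' k' s (Z m) p) ((M m).pos B' l' s (Z m) q) ≤ C * (M m).ε →
        N.Eqv P πP A' k' p A k i ∧ N.Eqv Q πQ B' l' q B l j ∧ |s - t| ≤ R * (M m).ε := by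
  have key := exists_unif (Λ := Finset J × κ × J × Finset J × κ × J) (Pr := fun x R m =>
    x.1 ⊆ supp P → x.2.2.2.1 ⊆ supp Q → x.2.2.1 ∈ x.1 → x.2.2.2.2.2 ∈ x.2.2.2.1 →
      ∀ s ∈ Icc 0 N.T, (M m).act x.2.1 x.2.2.1 s →
        dist ((M m).pos x.1 x.2.1 s (Z m) x.2.2.1)
          ((M m).pos x.2.2.2.1 x.2.2.2.2.1 s (Z m) x.2.2.2.2.2) ≤ C * (M m).ε →
        N.Eqv P πP x.1 x.2.1 x.2.2.1 A k i ∧
          N.Eqv Q πQ x.2.2.2.1 x.2.2.2.2.1 x.2.2.2.2.2 B l j ∧ |s - t| ≤ R * (M m).ε) ?_ ?_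
  · obtain ⟨R, hR⟩ := key
    refine ⟨max R 0, le_max_right _ _, ?_⟩
    filter_upwards [hR] with m hm A' hA' B' hB' k' l' p hp q hq s hs ha hd
    obtain ⟨h1, h2, h3⟩ := hm (A', k', p, B', l', q) hA' hB' hp hq s hs ha hd
    exact ⟨h1, h2, h3.trans (mul_le_mul_of_nonneg_right (le_max_left _ _) (c.H.epos m).le)⟩
  · intro x R R' m hRR h h1 h2 h3 h4 s hs ha hd
    obtain ⟨e1, e2, e3⟩ := h h1 h2 h3 h4 s hs ha hd
    exact ⟨e1, e2, e3.trans (mul_le_mul_of_nonneg_right hRR (c.H.epos m).le)⟩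
  · rintro ⟨A', k', p, B', l', q⟩
    by_cases hL : A' ⊆ supp P ∧ B' ⊆ supp Q ∧ p ∈ A' ∧ q ∈ B'
    swap
    · exact ⟨0, Eventually.of_forall fun m h1 h2 h3 h4 => absurd ⟨h1, h2, h3, h4⟩ hL⟩
    obtain ⟨hA', hB', hp, hq⟩ := hL
    have hactQ : ∀ m s, (M m).act l' q s := fun m s h => by
      rw [c.H.ho] at h
      exact absurd h (c.hoQ (hB' hq))
    by_cases he : N.Eqv P πP A' k' p A k i ∧ N.Eqv Q πQ B' l' q B l j
    · refine ⟨(C + ‖ζ.1‖) / ‖V‖, ?_⟩
      have hK : IsCompact (Icc 0 N.T \ Ioo (t - δ) (t + δ)) := isCompact_Icc.diff isOpen_Ioo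
      have hfar := far_labels c.H c.iP c.iQ hK diff_subset hA' hB' (k' := k') (l' := l') hp hq
        (f := fun _ => 0) (g := fun _ => 0) continuous_const continuous_const (by
          intro s hs ha _
          rw [add_zero, add_zero]
          refine c.G.N2 A' hA' B' hB' k' l' p hp q hq s hs.1 ?_ ha
          rintro rfl
          exact hs.2 ⟨by linarith [w.pos], by linarith [w.pos]⟩) C
      filter_upwards [hfar, c.eqv_posP w, c.eqv_posQ w, w.diff] with m hm h1 h2 hd _ _ _ _ s hs ha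
        hdist
      have hsw : s ∈ Ioo (t - δ) (t + δ) := by
        by_contra hcon
        have := hm s ⟨hs, hcon⟩ ha (hactQ m s)
        rw [add_zero, add_zero] at this
        exact absurd hdist (not_le.2 this)
      refine ⟨he.1, he.2, time_of_norm w.V0 (ξ := ζ.1) (c.H.epos m) ?_⟩
      rw [← hd s ⟨hsw.1.le, hsw.2.le⟩, ← h1 A' hA' k' p hp he.1 s ⟨hsw.1.le, hs.2⟩,
        ← h2 B' hB' l' q hq he.2 s ⟨hsw.1.le, hs.2⟩, ← dist_eq_norm]
      exact hdist
    · refine ⟨0, ?_⟩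
      have hfar := far_labels c.H c.iP c.iQ isCompact_Icc subset_rfl hA' hB' (k' := k')
        (l' := l') hp hq (f := fun _ => 0) (g := fun _ => 0) continuous_const continuous_const (by
          intro s hs ha _
          rw [add_zero, add_zero]
          by_cases hst : s = t
          · subst hst
            intro hG
            exact he (c.G.N3 c.ac A' hA' B' hB' k' l' p hp q hq ha hG)
          · exact c.G.N2 A' hA' B' hB' k' l' p hp q hq s hs hst ha) C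
      filter_upwards [hfar] with m hm _ _ _ _ s hs ha hdist
      have := hm s hs ha (hactQ m s)
      rw [add_zero, add_zero] at this
      exact absurd hdist (not_le.2 this)

end ctx

end Crest.Agent.R122.VL581
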