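import Mathlib
import Crest.Agent.R122.VLNode1_581
import Crest.Agent.R122.VLdynD_564
import Crest.Agent.R122.VLInstD_442

/-!
# Row 122, block D3 (helper581): node step, part 2 (distances to the outgoing lines)
-/

set_option autoImplicit false
set_option linter.unusedSectionVars false

open MeasureTheory Set Filter Topology
open scoped ENNReal NNReal
open Crest.AnalysisR.Kinetic
open Crest.Agent.R122.Ins45 Crest.Agent.R122.GIV566 Crest.Agent.R122.VLPar823
open Crest.Agent.R122.VLPar823.MTree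
open Crest.Agent.R122.VLcore564

noncomputable section

namespace Crest.Agent.R122.VL581

open scoped Classical

section ctx

variable {J κ : Type} [Fintype J] [Fintype κ] {M : ℕ → VSys J κ} {N : VSys J κ} {Bd : Set ℝ}
  {A : Finset J} {k : κ} {i : J} {B : Finset J} {l : κ} {j : J} {P Q : MTree J κ} {t : ℝ}
  {ζ : Space3 × Space3} {πP : Par P} {πQ : Par Q} {Z : ℕ → J → PhasePoint} {Zl : J → PhasePoint}

/-- The broken displacement. -/
def brk (t : ℝ) (w : Space3) (s : ℝ) : Space3 := max (s - t) 0 • w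

theorem continuous_brk (t : ℝ) (w : Space3) : Continuous (brk t w) := by
  unfold brk
  exact ((continuous_id.sub continuous_const).max continuous_const).smul continuous_const

theorem brk_of_le {t s : ℝ} (h : s ≤ t) (w : Space3) : brk t w s = 0 := by
  unfold brk
  rw [max_eq_right (sub_nonpos.2 h), zero_smul]

theorem brk_of_ge {t s : ℝ} (h : t ≤ s) (w : Space3) : brk t w s = (s - t) • w := by
  unfold brk
  rw [max_eq_left (sub_nonneg.2 h)]

theorem brk_zero (t s : ℝ) : brk t 0 s = 0 := by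
  unfold brk
  rw [smul_zero]

variable (c : Ctx M N Bd A k i B l j P Q t ζ πP πQ Z Zl)
include c

theorem Ctx.Gam_eqP {s : ℝ} (hs : t ≤ s) {A' : Finset J} (k' : κ)
    (ho : N.o ≠ some i) (hD : N.D P πP A' i = N.D P πP A i) :
    N.Gam P πP A' k' s Zl i = N.Gam P πP A k s Zl i := by
  have hl : tlast P πP ≤ s := (tlast_lt P πP c.t0 c.oP).le.trans hs
  rw [Gam_particle ho, Gam_particle ho, N.Del_eq P πP c.t0 c.oP A' i s hl,
    N.Del_eq P πP c.t0 c.oP A i s hl, hD]

theorem Ctx.Gam_eqQ {s : ℝ} (hs : t ≤ s) {B' : Finset J} (l' : κ)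
    (hD : N.D Q πQ B' j = N.D Q πQ B j) :
    N.Gam Q πQ B' l' s Zl j = N.Gam Q πQ B l s Zl j := by
  have hl : tlast Q πQ ≤ s := (tlast_lt Q πQ c.t0 c.oQ).le.trans hs
  have ho : N.o ≠ some j := c.hoQ c.hjQ
  rw [Gam_particle ho, Gam_particle ho, N.Del_eq Q πQ c.t0 c.oQ B' j s hl,
    N.Del_eq Q πQ c.t0 c.oQ B j s hl, hD]

/-- New line of `i` versus the labels of the left part. -/
theorem Ctx.farPP {δ : ℝ} {V : Space3} (w : Win M N A k i B l j P Q t ζ πP πQ Z δ V)
    (hr : N.real i j t) (C : ℝ) :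
    ∀ᶠ m in atTop, ∀ A' ⊆ supp P, i ∈ A' → N.D P πP A' i = N.D P πP A i → ∀ B' ⊆ supp P,
      ∀ k', ∀ p ∈ B', p ≠ i → ∀ s ∈ Icc (t - δ) N.T, (M m).act k' p s →
        C * (M m).ε < dist (((M m).st A' s (Z m) i).1 + brk t (kick N.Φ ζ) s)
          ((M m).pos B' k' s (Z m) p) := by
  have ho : N.o ≠ some i := hr.1
  simp only [eventually_all]
  intro A' hA' hi hD B' hB' k' p hp hpi
  have h := far_labels c.H c.iP c.iP (K := Icc (t - δ) N.T) isCompact_Icc
    (Icc_subset_Icc_left w.t0.le) hA' hB' (k' := k) (l' := k') hi hp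
    (f := brk t (kick N.Φ ζ)) (g := fun _ => 0) (continuous_brk _ _) continuous_const (by
      intro s hs _ ha
      rw [add_zero]
      have hs0 : s ∈ Icc 0 N.T := ⟨w.t0.le.trans hs.1, hs.2⟩
      by_cases hk : s ≤ t ∨ kick N.Φ ζ = 0
      · have hb : brk t (kick N.Φ ζ) s = 0 := by
          rcases hk with h | h
          · exact brk_of_le h _
          · rw [h]; exact brk_zero t s
        rw [hb, add_zero]
        intro hG
        obtain ⟨e, he, -, hse⟩ := c.cP A' hA' B' hB' k k' i hi p hp (Ne.symm hpi) s hs0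
          (fun h => absurd h ho) ha hG
        have h1 := (sig_le P πP c.wf.2.2.2.2.2.2.1 c.oP e he).2
        linarith [w.lP, hs.1]
      · push Not at hk
        rw [brk_of_ge hk.1.le, c.Gam_eqP hk.1.le k ho hD]
        exact (c.G.N6a hr hk.2 s ⟨hk.1, hs.2⟩ B' hB' k' p hp hpi ha).symm) C
  filter_upwards [h] with m hm s hs ha
  have hoi : (M m).o ≠ some i := by rw [c.H.ho]; exact ho
  have h2 := hm s hs (fun h => absurd h hoi) ha
  rw [add_zero, pos_particle hoi] at h2
  exact h2

/-- New line of `i` versus the labels of the right part. -/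
theorem Ctx.farPQ {δ : ℝ} {V : Space3} (w : Win M N A k i B l j P Q t ζ πP πQ Z δ V)
    (hr : N.real i j t) (C : ℝ) :
    ∀ᶠ m in atTop, ∀ A' ⊆ supp P, i ∈ A' → N.D P πP A' i = N.D P πP A i → ∀ B' ⊆ supp Q,
      ∀ l', ∀ q ∈ B', ¬ N.Eqv Q πQ B' l' q B l j → ∀ s ∈ Icc (t - δ) N.T,
        C * (M m).ε < dist (((M m).st A' s (Z m) i).1 + brk t (kick N.Φ ζ) s)
          ((M m).pos B' l' s (Z m) q) := by
  have ho : N.o ≠ some i := hr.1
  simp only [eventually_all]
  intro A' hA' hi hD B' hB' l' q hq hne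
  have h := far_labels c.H c.iP c.iQ (K := Icc (t - δ) N.T) isCompact_Icc
    (Icc_subset_Icc_left w.t0.le) hA' hB' (k' := k) (l' := l') hi hq
    (f := brk t (kick N.Φ ζ)) (g := fun _ => 0) (continuous_brk _ _) continuous_const (by
      intro s hs _ ha
      rw [add_zero]
      have hs0 : s ∈ Icc 0 N.T := ⟨w.t0.le.trans hs.1, hs.2⟩
      by_cases hk : s ≤ t ∨ kick N.Φ ζ = 0
      · have hb : brk t (kick N.Φ ζ) s = 0 := by
          rcases hk with h | h
          · exact brk_of_le h _
          · rw [h]; exact brk_zero t s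
        rw [hb, add_zero]
        by_cases hst : s = t
        · subst hst
          intro hG
          exact hne (c.G.N3 c.ac A' hA' B' hB' k l' i hi q hq (fun h => absurd h ho) hG).2
        · exact c.G.N2 A' hA' B' hB' k l' i hi q hq s hs0 hst fun h => absurd h ho
      · push Not at hk
        rw [brk_of_ge hk.1.le, c.Gam_eqP hk.1.le k ho hD]
        exact (c.G.N6b hr hk.2 s ⟨hk.1, hs.2⟩ B' hB' l' q hq hne).symm) C
  filter_upwards [h] with m hm s hs
  have hoi : (M m).o ≠ some i := by rw [c.H.ho]; exact ho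
  have hoq : (M m).o ≠ some q := by rw [c.H.ho]; exact c.hoQ (hB' hq)
  have h2 := hm s hs (fun h => absurd h hoi) (fun h => absurd h hoq)
  rw [add_zero, pos_particle hoi] at h2
  exact h2

/-- New line of `j` versus the labels of the right part. -/
theorem Ctx.farQQ {δ : ℝ} {V : Space3} (w : Win M N A k i B l j P Q t ζ πP πQ Z δ V)
    (hr : N.real i j t) (C : ℝ) :
    ∀ᶠ m in atTop, ∀ A' ⊆ supp Q, j ∈ A' → N.D Q πQ A' j = N.D Q πQ B j → ∀ B' ⊆ supp Q,
      ∀ l', ∀ q ∈ B', q ≠ j → ∀ s ∈ Icc (t - δ) N.T,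
        C * (M m).ε < dist (((M m).st A' s (Z m) j).1 - brk t (kick N.Φ ζ) s)
          ((M m).pos B' l' s (Z m) q) := by
  have ho : N.o ≠ some j := hr.2.1
  simp only [eventually_all]
  intro A' hA' hj hD B' hB' l' q hq hqj
  have h := far_labels c.H c.iQ c.iQ (K := Icc (t - δ) N.T) isCompact_Icc
    (Icc_subset_Icc_left w.t0.le) hA' hB' (k' := l) (l' := l') hj hq
    (f := fun s => -brk t (kick N.Φ ζ) s) (g := fun _ => 0) (continuous_brk _ _).neg
    continuous_const (by
      intro s hs _ ha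
      rw [add_zero]
      have hs0 : s ∈ Icc 0 N.T := ⟨w.t0.le.trans hs.1, hs.2⟩
      by_cases hk : s ≤ t ∨ kick N.Φ ζ = 0
      · have hb : brk t (kick N.Φ ζ) s = 0 := by
          rcases hk with h | h
          · exact brk_of_le h _
          · rw [h]; exact brk_zero t s
        rw [hb, neg_zero, add_zero]
        intro hG
        obtain ⟨e, he, -, hse⟩ := c.cQ A' hA' B' hB' l l' j hj q hq (Ne.symm hqj) s hs0
          (fun h => absurd h ho) ha hG
        have h1 := (sig_le Q πQ c.wf.2.2.2.2.2.2.2 c.oQ e he).2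
        linarith [w.lQ, hs.1]
      · push Not at hk
        rw [brk_of_ge hk.1.le, c.Gam_eqQ hk.1.le l hD, ← sub_eq_add_neg]
        exact (c.G.N6c hr hk.2 s ⟨hk.1, hs.2⟩ B' hB' l' q hq hqj).symm) C
  filter_upwards [h] with m hm s hs
  have hoj : (M m).o ≠ some j := by rw [c.H.ho]; exact ho
  have hoq : (M m).o ≠ some q := by rw [c.H.ho]; exact c.hoQ (hB' hq)
  have h2 := hm s hs (fun h => absurd h hoj) (fun h => absurd h hoq)
  rw [add_zero, pos_particle hoj, ← sub_eq_add_neg] at h2
  exact h2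

/-- New line of `j` versus the labels of the left part. -/
theorem Ctx.farQP {δ : ℝ} {V : Space3} (w : Win M N A k i B l j P Q t ζ πP πQ Z δ V)
    (hr : N.real i j t) (C : ℝ) :
    ∀ᶠ m in atTop, ∀ A' ⊆ supp Q, j ∈ A' → N.D Q πQ A' j = N.D Q πQ B j → ∀ B' ⊆ supp P,
      ∀ k', ∀ p ∈ B', ¬ N.Eqv P πP B' k' p A k i → ∀ s ∈ Icc (t - δ) N.T, (M m).act k' p s →
        C * (M m).ε < dist (((M m).st A' s (Z m) j).1 - brk t (kick N.Φ ζ) s)
          ((M m).pos B' k' s (Z m) p) := by
  have ho : N.o ≠ some j := hr.2.1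
  simp only [eventually_all]
  intro A' hA' hj hD B' hB' k' p hp hne
  have h := far_labels c.H c.iQ c.iP (K := Icc (t - δ) N.T) isCompact_Icc
    (Icc_subset_Icc_left w.t0.le) hA' hB' (k' := l) (l' := k') hj hp
    (f := fun s => -brk t (kick N.Φ ζ) s) (g := fun _ => 0) (continuous_brk _ _).neg
    continuous_const (by
      intro s hs _ ha
      rw [add_zero]
      have hs0 : s ∈ Icc 0 N.T := ⟨w.t0.le.trans hs.1, hs.2⟩
      by_cases hk : s ≤ t ∨ kick N.Φ ζ = 0
      · have hb : brk t (kick N.Φ ζ) s = 0 := by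
          rcases hk with h | h
          · exact brk_of_le h _
          · rw [h]; exact brk_zero t s
        rw [hb, neg_zero, add_zero]
        by_cases hst : s = t
        · subst hst
          intro hG
          exact hne (c.G.N3 c.ac B' hB' A' hA' k' l p hp j hj ha hG.symm).1
        · exact (c.G.N2 B' hB' A' hA' k' l p hp j hj s hs0 hst ha).symm
      · push Not at hk
        rw [brk_of_ge hk.1.le, c.Gam_eqQ hk.1.le l hD, ← sub_eq_add_neg]
        exact (c.G.N6d hr hk.2 s ⟨hk.1, hs.2⟩ B' hB' k' p hp hne ha).symm) C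
  filter_upwards [h] with m hm s hs ha
  have hoj : (M m).o ≠ some j := by rw [c.H.ho]; exact ho
  have h2 := hm s hs (fun h => absurd h hoj) ha
  rw [add_zero, pos_particle hoj, ← sub_eq_add_neg] at h2
  exact h2

end ctx

end Crest.Agent.R122.VL581
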