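import Mathlib
import Crest.Agent.R122.VLNode2_581
import Crest.Agent.R122.VLInvA_399

/-!
# Row 122, block D3 (helper581): node step, part 3 (the interacting sub-worlds of the union)
-/

set_option autoImplicit false
set_option linter.unusedSectionVars false

open MeasureTheory Set Filter Topology
open scoped ENNReal NNReal
open Crest.AnalysisR.Kinetic
open Crest.Agent.R122.Ins45 Crest.Agent.R122.GIV566 Crest.Agent.R122.VLPar823
open Crest.Agent.R122.VLPar823.MTree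
open Crest.Agent.R122.VLcore564 Crest.Agent.R122.VLInst442

noncomputable section

namespace Crest.Agent.R122.VL581

open scoped Classical

/-- **The world of a merge** (one system). -/
theorem node_world {J κ : Type} [Fintype J] {M : VSys J κ} (hΦ : AdmissiblePotential M.Φ)
    (hε : 0 < M.ε) {A1 A2 : Finset J} (hd : Disjoint A1 A2) {Z : J → PhasePoint} {a T' : ℝ}
    {i j : J} (hi : i ∈ A1) (hj : j ∈ A2) (hoi : M.o ≠ some i) (hoj : M.o ≠ some j)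
    (hbi : M.bb i < a) (hbj : M.bb j < a) (haT : a ≤ T') (hok1 : M.ok A1 a Z)
    (hok2 : M.ok A2 a Z)
    (hfar : ∀ s ∈ Ico 0 a, ∀ p ∈ A1, ∀ q ∈ A2, M.o ≠ some p → M.o ≠ some q → M.bb p ≤ s →
      M.bb q ≤ s → M.ε < dist (M.st A1 s Z p).1 (M.st A2 s Z q).1)
    {Z0 : J → PhasePoint} (hZ1 : ∀ p ∈ A1, Z0 p = M.st A1 a Z p)
    (hZ2 : ∀ p ∈ A2, Z0 p = M.st A2 a Z p)
    (hreg : Scat818.Reg M.Φ ((Z0 i).1 - (Z0 j).1))
    (hrest : ∀ s ∈ Icc a T', ∀ p ∈ A1 ∪ A2, ∀ q ∈ A1 ∪ A2, p ≠ i → p ≠ j → q ≠ i → q ≠ j →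
      p ≠ q → M.o ≠ some p → M.o ≠ some q →
      M.ε < dist (fr (Z0 p) (s - a)).1 (fr (Z0 q) (s - a)).1)
    (hcross : ∀ s ∈ Icc a T', ∀ p ∈ A1 ∪ A2, p ≠ i → p ≠ j → M.o ≠ some p →
      M.ε < dist (pp M.Φ M.ε (Z0 i) (Z0 j) (s - a)).1.1 (fr (Z0 p) (s - a)).1 ∧
      M.ε < dist (pp M.Φ M.ε (Z0 i) (Z0 j) (s - a)).2.1 (fr (Z0 p) (s - a)).1) :
    M.ok (A1 ∪ A2) T' Z ∧ (∀ s ≤ a, (∀ p ∈ A1, M.st (A1 ∪ A2) s Z p = M.st A1 s Z p) ∧
        ∀ q ∈ A2, M.st (A1 ∪ A2) s Z q = M.st A2 s Z q) ∧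
      ∀ s ∈ Icc a T', ∀ p ∈ A1 ∪ A2, M.o ≠ some p →
        M.st (A1 ∪ A2) s Z p = cand M.Φ M.ε Z0 i j a s p := by
  have hij : i ≠ j := by
    rintro rfl
    exact Finset.disjoint_left.1 hd hi hj
  have hoka := ok_union hΦ hε hd hok1 hok2 hfar
  have hfact := st_union hΦ hε hd hok1 hok2 fun s hs p hp q hq h1 h2 h3 h4 =>
    (hfar s hs p hp q hq h1 h2 h3 h4).le
  set iM : Mem M (A1 ∪ A2) := ⟨i, Finset.mem_union_left _ hi, hoi⟩ with hiM
  set jM : Mem M (A1 ∪ A2) := ⟨j, Finset.mem_union_right _ hj, hoj⟩ with hjM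
  have hijM : iM ≠ jM := fun h => hij (congrArg Subtype.val h)
  have hneI : ∀ p : Mem M (A1 ∪ A2), p ≠ iM → (p : J) ≠ i := fun p hp h => hp (Subtype.ext h)
  have hneJ : ∀ p : Mem M (A1 ∪ A2), p ≠ jM → (p : J) ≠ j := fun p hp h => hp (Subtype.ext h)
  have hL : LWorld M.Φ M.ε (fun p : Mem M (A1 ∪ A2) => M.bb p) a T'
      (cand M.Φ M.ε (fun p : Mem M (A1 ∪ A2) => Z0 p) iM jM a) := by
    refine lworld_pair hΦ hε hijM hreg hbi.le hbj.le ?_ ?_
    · intro s hs p q h1 h2 h3 h4 h5 _ _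
      exact (hrest s ⟨hs.1, hs.2.le⟩ p p.2.1 q q.2.1 (hneI p h1) (hneJ p h2) (hneI q h3)
        (hneJ q h4) (fun h => h5 (Subtype.ext h)) p.2.2 q.2.2).le
    · intro s hs p h1 h2 _
      have h := hcross s ⟨hs.1, hs.2.le⟩ p p.2.1 (hneI p h1) (hneJ p h2) p.2.2
      exact ⟨h.1.le, h.2.le⟩
  have hcand : ∀ s, ∀ p : Mem M (A1 ∪ A2),
      cand M.Φ M.ε (fun p : Mem M (A1 ∪ A2) => Z0 p) iM jM a s p =
        cand M.Φ M.ε Z0 i j a s p := by
    intro s p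
    by_cases h1 : p = iM
    · rw [h1, cand_left]
      exact (cand_left Z0 i j a s).symm
    · by_cases h2 : p = jM
      · rw [h2, cand_right _ hijM]
        exact (cand_right Z0 hij a s).symm
      · rw [cand_other _ h1 h2, cand_other _ (hneI p h1) (hneJ p h2)]
  have hZ0 : ∀ p ∈ A1 ∪ A2, Z0 p = M.st (A1 ∪ A2) a Z p := by
    intro p hp
    rcases Finset.mem_union.1 hp with h | h
    · rw [(hfact a le_rfl).1 p h, hZ1 p h]
    · rw [(hfact a le_rfl).2 p h, hZ2 p h]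
  have key := ok_of_lworld hΦ hε haT hL hoka (fun p => by
    rw [hcand, ← hZ0 p p.2.1]
    by_cases h1 : (p : J) = i
    · rw [h1, cand_left, sub_self, Crest.Agent.R122.VLInv399.pp_zero hΦ hε]
    · by_cases h2 : (p : J) = j
      · rw [h2, cand_right _ hij, sub_self, Crest.Agent.R122.VLInv399.pp_zero hΦ hε]
      · rw [cand_other _ h1 h2, sub_self]
        unfold fr
        simp) (fun p q hqp hap hpT hqp' => by
    have hpi : (p : J) ≠ i := by
      intro h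
      rw [h] at hap
      exact absurd hap (not_le.2 hbi)
    have hpj : (p : J) ≠ j := by
      intro h
      rw [h] at hap
      exact absurd hap (not_le.2 hbj)
    have hm : M.bb p ∈ Icc a T' := ⟨hap, hpT.le⟩
    rw [hcand, hcand, cand_other _ hpi hpj]
    by_cases h1 : (q : J) = i
    · rw [h1, cand_left, dist_comm]
      exact (hcross _ hm p p.2.1 hpi hpj p.2.2).1
    · by_cases h2 : (q : J) = j
      · rw [h2, cand_right _ hij, dist_comm]
        exact (hcross _ hm p p.2.1 hpi hpj p.2.2).2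
      · rw [cand_other _ h1 h2]
        exact hrest _ hm p p.2.1 q q.2.1 hpi hpj h1 h2 (fun h => hqp (Subtype.ext h.symm)) p.2.2
          q.2.2)
  refine ⟨key.1, hfact, fun s hs p hp ho => ?_⟩
  rw [key.2 s hs ⟨p, hp, ho⟩, hcand]

/-- The paths in the world of a merge (one system), from distances on the macroscopic window. -/
theorem node_paths {J κ : Type} [Fintype J] {M : VSys J κ} (hΦ : AdmissiblePotential M.Φ)
    (hε : 0 < M.ε) {A1 A2 : Finset J} (hd : Disjoint A1 A2) {Z : J → PhasePoint} {a t T' : ℝ}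
    {i j : J} (hi : i ∈ A1) (hj : j ∈ A2) (hoi : M.o ≠ some i) (hoj : M.o ≠ some j)
    (hbi : M.bb i < a) (hbj : M.bb j < a) (hat : a < t) (haT : a ≤ T') (hok1 : M.ok A1 a Z)
    (hok2 : M.ok A2 a Z)
    (hfar : ∀ s ∈ Ico 0 a, ∀ p ∈ A1, ∀ q ∈ A2, M.o ≠ some p → M.o ≠ some q → M.bb p ≤ s →
      M.bb q ≤ s → M.ε < dist (M.st A1 s Z p).1 (M.st A2 s Z q).1)
    (hl1 : ∀ s ∈ Icc a T', ∀ p ∈ A1, M.o ≠ some p → M.st A1 s Z p = fr (M.st A1 a Z p) (s - a))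
    (hl2 : ∀ s ∈ Icc a T', ∀ p ∈ A2, M.o ≠ some p → M.st A2 s Z p = fr (M.st A2 a Z p) (s - a))
    {R K : ℝ} {z : Space3 × Space3} {w k1 : Space3} (hR0 : 0 ≤ R) (hz : Exi M.Φ R z)
    (hw : W1 M.Φ R z = w) (hk1 : K1 M.Φ R z = k1) (hRa : R * M.ε ≤ t - a)
    (hss : ss M.ε (M.st A1 a Z i) (M.st A2 a Z j) (t - a) = z) (hK0 : 0 ≤ K)
    (hK : ∀ (Z : J → PhasePoint), ss M.ε (Z i) (Z j) (t - a) = z → ∀ (s : ℝ) (k : J),
      ‖(cand M.Φ M.ε Z i j a s k).1 -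
        ((fr (Z k) (s - a)).1 + max (s - t) 0 • kk i j (W1 M.Φ R z) k)‖ ≤ K * M.ε)
    (h11 : ∀ s ∈ Icc a T', ∀ p ∈ A1, ∀ q ∈ A1, p ≠ q → M.o ≠ some p → M.o ≠ some q →
      M.ε < dist (M.st A1 s Z p).1 (M.st A1 s Z q).1)
    (h22 : ∀ s ∈ Icc a T', ∀ p ∈ A2, ∀ q ∈ A2, p ≠ q → M.o ≠ some p → M.o ≠ some q →
      M.ε < dist (M.st A2 s Z p).1 (M.st A2 s Z q).1)
    (h12 : ∀ s ∈ Icc a T', ∀ p ∈ A1, ∀ q ∈ A2, p ≠ i → M.o ≠ some p → M.o ≠ some q →
      M.ε < dist (M.st A1 s Z p).1 (M.st A2 s Z q).1)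
    (hne : (M.st A1 a Z i).1 ≠ (M.st A2 a Z j).1)
    (hPP : ∀ s ∈ Icc a T', ∀ p ∈ A1, p ≠ i → M.o ≠ some p →
      (1 + K) * M.ε < dist ((M.st A1 s Z i).1 + brk t w s) (M.st A1 s Z p).1)
    (hPQ : ∀ s ∈ Icc a T', ∀ p ∈ A2, p ≠ j → M.o ≠ some p →
      (1 + K) * M.ε < dist ((M.st A1 s Z i).1 + brk t w s) (M.st A2 s Z p).1)
    (hQQ : ∀ s ∈ Icc a T', ∀ p ∈ A2, p ≠ j → M.o ≠ some p →
      (1 + K) * M.ε < dist ((M.st A2 s Z j).1 - brk t w s) (M.st A2 s Z p).1)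
    (hQP : ∀ s ∈ Icc a T', ∀ p ∈ A1, p ≠ i → M.o ≠ some p →
      (1 + K) * M.ε < dist ((M.st A2 s Z j).1 - brk t w s) (M.st A1 s Z p).1) :
    M.ok (A1 ∪ A2) T' Z ∧ ∀ s ≤ T',
      (∀ p ∈ A1, p ≠ i → M.st (A1 ∪ A2) s Z p = M.st A1 s Z p) ∧
      (∀ q ∈ A2, q ≠ j → M.st (A1 ∪ A2) s Z q = M.st A2 s Z q) ∧
      (s ≤ t - R * M.ε → M.st (A1 ∪ A2) s Z i = M.st A1 s Z i ∧
        M.st (A1 ∪ A2) s Z j = M.st A2 s Z j) ∧
      (t + R * M.ε ≤ s →
        M.st (A1 ∪ A2) s Z i = ((M.st A1 s Z i).1 + (M.ε • k1 + (s - t) • w),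
          (M.st A1 s Z i).2 + w) ∧
        M.st (A1 ∪ A2) s Z j = ((M.st A2 s Z j).1 - (M.ε • k1 + (s - t) • w),
          (M.st A2 s Z j).2 - w)) ∧
      ‖(M.st (A1 ∪ A2) s Z i).1 - ((M.st A1 s Z i).1 + max (s - t) 0 • w)‖ ≤ K * M.ε ∧
      ‖(M.st (A1 ∪ A2) s Z j).1 - ((M.st A2 s Z j).1 - max (s - t) 0 • w)‖ ≤ K * M.ε := by
  have hij : i ≠ j := by
    rintro rfl
    exact Finset.disjoint_left.1 hd hi hj
  have hdis : ∀ p ∈ A2, p ∉ A1 := fun p hp hp' => Finset.disjoint_left.1 hd hp' hp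
  set Z0 : J → PhasePoint := fun p => if p ∈ A1 then M.st A1 a Z p else M.st A2 a Z p with hZ0
  have hZ1 : ∀ p ∈ A1, Z0 p = M.st A1 a Z p := fun p hp => if_pos hp
  have hZ2 : ∀ p ∈ A2, Z0 p = M.st A2 a Z p := fun p hp => if_neg (hdis p hp)
  have hlA : ∀ s ∈ Icc a T', ∀ p ∈ A1, M.o ≠ some p → fr (Z0 p) (s - a) = M.st A1 s Z p :=
    fun s hs p hp ho => by rw [hZ1 p hp, hl1 s hs p hp ho]
  have hlB : ∀ s ∈ Icc a T', ∀ p ∈ A2, M.o ≠ some p → fr (Z0 p) (s - a) = M.st A2 s Z p :=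
    fun s hs p hp ho => by rw [hZ2 p hp, hl2 s hs p hp ho]
  have hss' : ss M.ε (Z0 i) (Z0 j) (t - a) = z := by rw [hZ1 i hi, hZ2 j hj]; exact hss
  have hKi : ∀ s ∈ Icc a T', ‖(pp M.Φ M.ε (Z0 i) (Z0 j) (s - a)).1.1 -
      ((M.st A1 s Z i).1 + brk t w s)‖ ≤ K * M.ε := by
    intro s hs
    have h := hK Z0 hss' s i
    rw [cand_left, kk_left, hlA s hs i hi hoi, hw] at h
    exact h
  have hKj : ∀ s ∈ Icc a T', ‖(pp M.Φ M.ε (Z0 i) (Z0 j) (s - a)).2.1 -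
      ((M.st A2 s Z j).1 - brk t w s)‖ ≤ K * M.ε := by
    intro s hs
    have h := hK Z0 hss' s j
    rw [cand_right _ hij, kk_right hij, hlB s hs j hj hoj, hw, smul_neg, ← sub_eq_add_neg] at h
    exact h
  -- from the broken lines to the two-body motion
  have tri : ∀ x y u : Space3, ‖x - y‖ ≤ K * M.ε → (1 + K) * M.ε < dist y u → M.ε < dist x u := by
    intro x y u h1 h2
    have h3 : dist y u ≤ dist y x + dist x u := dist_triangle _ _ _
    rw [dist_comm y x, dist_eq_norm x y] at h3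
    linarith
  obtain ⟨k1', k2', k3'⟩ := node_world hΦ hε hd hi hj hoi hoj hbi hbj haT hok1 hok2 hfar hZ1 hZ2
    (Or.inl (sub_ne_zero.2 (by rw [hZ1 i hi, hZ2 j hj]; exact hne)))
    (by
      intro s hs p hp q hq hpi hpj hqi hqj hpq hop hoq
      rcases Finset.mem_union.1 hp with hp | hp <;> rcases Finset.mem_union.1 hq with hq | hq
      · rw [hlA s hs p hp hop, hlA s hs q hq hoq]
        exact h11 s hs p hp q hq hpq hop hoq
      · rw [hlA s hs p hp hop, hlB s hs q hq hoq]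
        exact h12 s hs p hp q hq hpi hop hoq
      · rw [hlB s hs p hp hop, hlA s hs q hq hoq, dist_comm]
        exact h12 s hs q hq p hp hqi hoq hop
      · rw [hlB s hs p hp hop, hlB s hs q hq hoq]
        exact h22 s hs p hp q hq hpq hop hoq)
    (by
      intro s hs p hp hpi hpj hop
      rcases Finset.mem_union.1 hp with hp | hp
      · rw [hlA s hs p hp hop]
        exact ⟨tri _ _ _ (hKi s hs) (hPP s hs p hp hpi hop),
          tri _ _ _ (hKj s hs) (hQP s hs p hp hpi hop)⟩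
      · rw [hlB s hs p hp hop]
        exact ⟨tri _ _ _ (hKi s hs) (hPQ s hs p hp hpj hop),
          tri _ _ _ (hKj s hs) (hQQ s hs p hp hpj hop)⟩)
  have hiU : i ∈ A1 ∪ A2 := Finset.mem_union_left _ hi
  have hjU : j ∈ A1 ∪ A2 := Finset.mem_union_right _ hj
  refine ⟨k1', fun s hs => ?_⟩
  rcases le_total s a with hsa | hsa
  · obtain ⟨e1, e2⟩ := k2' s hsa
    refine ⟨fun p hp _ => e1 p hp, fun q hq _ => e2 q hq, fun _ => ⟨e1 i hi, e2 j hj⟩,
      fun hts => ?_, ?_, ?_⟩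
    · have := mul_nonneg hR0 hε.le
      linarith
    · rw [e1 i hi, max_eq_right (by linarith), zero_smul, add_zero, sub_self, norm_zero]
      exact mul_nonneg hK0 hε.le
    · rw [e2 j hj, max_eq_right (by linarith), zero_smul, sub_zero, sub_self, norm_zero]
      exact mul_nonneg hK0 hε.le
  · have hs' : s ∈ Icc a T' := ⟨hsa, hs⟩
    have c1 := k3' s hs'
    refine ⟨fun p hp hpi => ?_, fun q hq hqj => ?_, fun hst => ?_, fun hts => ?_, ?_, ?_⟩
    · by_cases ho : M.o = some p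
      · rw [st_obstacle M ho, st_obstacle M ho]
      · rw [c1 p (Finset.mem_union_left _ hp) ho, cand_other _ hpi (fun h : p = j => hdis j hj (by rw [← h]; exact hp)),
          hlA s hs' p hp ho]
    · by_cases ho : M.o = some q
      · rw [st_obstacle M ho, st_obstacle M ho]
      · rw [c1 q (Finset.mem_union_right _ hq) ho, cand_other _ (fun h : q = i => hdis q hq (by rw [h]; exact hi)) hqj,
          hlB s hs' q hq ho]
    · have hb := cand_before hΦ hε hij (a := a) (t := t) (R := R) (Z := Z0) (by rw [hss']; exact hz)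
        hRa hst
      rw [c1 i hiU hoi, c1 j hjU hoj, hb i, hb j, hlA s hs' i hi hoi, hlB s hs' j hj hoj]
      exact ⟨rfl, rfl⟩
    · have hb := cand_after hΦ hε hij (a := a) (t := t) (R := R) (Z := Z0) (by rw [hss']; exact hz)
        hRa hts
      have v1 : (Z0 i).2 = (M.st A1 s Z i).2 := by rw [← hlA s hs' i hi hoi]; rfl
      have v2 : (Z0 j).2 = (M.st A2 s Z j).2 := by rw [← hlB s hs' j hj hoj]; rfl
      rw [c1 i hiU hoi, c1 j hjU hoj, hb i, hb j, hlA s hs' i hi hoi, hlB s hs' j hj hoj, hss',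
        kk_left, kk_left, kk_right hij, kk_right hij, hw, hk1, v1, v2]
      refine ⟨rfl, ?_⟩
      ext1
      · show (M.st A2 s Z j).1 + (M.ε • -k1 + (s - t) • -w) =
          (M.st A2 s Z j).1 - (M.ε • k1 + (s - t) • w)
        module
      · show (M.st A2 s Z j).2 + -w = (M.st A2 s Z j).2 - w
        abel
    · rw [c1 i hiU hoi, cand_left]
      exact hKi s hs'
    · rw [c1 j hjU hoj, cand_right _ hij]
      exact hKj s hs'

end Crest.Agent.R122.VL581
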