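import Mathlib
import Crest.Agent.R122.VLNode3_581

/-!
# Row 122, block D3 (helper581): node step, part 4 (`SubW.new`)
-/

set_option autoImplicit false
set_option linter.unusedSectionVars false

open MeasureTheory Set Filter Topology
open scoped ENNReal NNReal
open Crest.AnalysisR.Kinetic
open Crest.Agent.R122.Ins45 Crest.Agent.R122.GIV566 Crest.Agent.R122.VLPar823
open Crest.Agent.R122.VLPar823.MTree
open Crest.Agent.R122.VLcore564 Crest.Agent.R122.VLInst442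

noncomputable section

namespace Crest.Agent.R122.VL581

open scoped Classical

section ctx

variable {J κ : Type} [Fintype J] [Fintype κ] {M : ℕ → VSys J κ} {N : VSys J κ} {Bd : Set ℝ}
  {A : Finset J} {k : κ} {i : J} {B : Finset J} {l : κ} {j : J} {P Q : MTree J κ} {t : ℝ}
  {ζ : Space3 × Space3} {πP : Par P} {πQ : Par Q} {Z : ℕ → J → PhasePoint} {Zl : J → PhasePoint}

theorem union_parts {A' : Finset J} (h : A' ⊆ supp P ∪ supp Q) :
    (A' ∩ supp P) ∪ (A' ∩ supp Q) = A' := by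
  rw [← Finset.inter_union_distrib_left]
  exact Finset.inter_eq_left.2 h

theorem disj_parts (hd : Disjoint (supp P) (supp Q)) (A' : Finset J) :
    Disjoint (A' ∩ supp P) (A' ∩ supp Q) :=
  Finset.disjoint_of_subset_left Finset.inter_subset_right
    (Finset.disjoint_of_subset_right Finset.inter_subset_right hd)

/-- Line in the form `fr`. -/
theorem fr_of_line {x y : PhasePoint} {X ν : Space3} {T s a : ℝ}
    (hx : x = (X - (T - s) • ν, ν)) (hy : y = (X - (T - a) • ν, ν)) : x = fr y (s - a) := by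
  rw [hx, hy]
  unfold fr
  ext1
  · show X - (T - s) • ν = X - (T - a) • ν + (s - a) • ν
    module
  · rfl

variable (c : Ctx M N Bd A k i B l j P Q t ζ πP πQ Z Zl)
include c

theorem Ctx.subW_new : ∃ R K : ℝ, 0 ≤ R ∧ 0 ≤ K ∧ ∀ᶠ m in atTop, ∀ A' ⊆ supp P ∪ supp Q,
    N.mrg A i B j P Q t πP πQ A' →
    (M m).ok A' N.T (Z m) ∧ ∀ s ∈ Icc 0 N.T,
      (∀ p ∈ A' ∩ supp P, p ≠ i →
        (M m).st A' s (Z m) p = (M m).st (A' ∩ supp P) s (Z m) p) ∧
      (∀ q ∈ A' ∩ supp Q, q ≠ j →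
        (M m).st A' s (Z m) q = (M m).st (A' ∩ supp Q) s (Z m) q) ∧
      (s ≤ t - R * (M m).ε →
        (M m).st A' s (Z m) i = (M m).st (A' ∩ supp P) s (Z m) i ∧
        (M m).st A' s (Z m) j = (M m).st (A' ∩ supp Q) s (Z m) j) ∧
      (t + R * (M m).ε ≤ s →
        (M m).st A' s (Z m) i = (((M m).st (A' ∩ supp P) s (Z m) i).1 +
          ((M m).ε • kick1 N.Φ ζ + (s - t) • kick N.Φ ζ),
          ((M m).st (A' ∩ supp P) s (Z m) i).2 + kick N.Φ ζ) ∧
        (M m).st A' s (Z m) j = (((M m).st (A' ∩ supp Q) s (Z m) j).1 -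
          ((M m).ε • kick1 N.Φ ζ + (s - t) • kick N.Φ ζ),
          ((M m).st (A' ∩ supp Q) s (Z m) j).2 - kick N.Φ ζ)) ∧
      ‖((M m).st A' s (Z m) i).1 - (((M m).st (A' ∩ supp P) s (Z m) i).1 +
        max (s - t) 0 • kick N.Φ ζ)‖ ≤ K * (M m).ε ∧
      ‖((M m).st A' s (Z m) j).1 - (((M m).st (A' ∩ supp Q) s (Z m) j).1 -
        max (s - t) 0 • kick N.Φ ζ)‖ ≤ K * (M m).ε := by
  by_cases hr : N.real i j t
  swap
  · exact ⟨0, 0, le_rfl, le_rfl, Eventually.of_forall fun m A' _ h => absurd h.1 hr⟩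
  obtain ⟨δ, V, w⟩ := c.exists_win
  obtain ⟨⟨R0, hR0⟩, -, -⟩ := c.G.N5 hr
  set R := max R0 0 with hR
  have hRnn : 0 ≤ R := le_max_right _ _
  have hz : Exi N.Φ R ζ := exi_mono c.H.adm (le_max_left _ _) hR0
  have hW : W1 N.Φ R ζ = kick N.Φ ζ := W1_eq c.H.adm hz
  have hK1 : K1 N.Φ R ζ = kick1 N.Φ ζ := K1_eq c.H.adm hz
  obtain ⟨K, hK0, hK⟩ := cand_close c.H.adm hRnn hz
  obtain ⟨RX, hRX0, hX⟩ := c.crossX w 1
  obtain ⟨RP, hP⟩ := c.iP.ct 1
  obtain ⟨RQ, hQ⟩ := c.iQ.ct 1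
  have hoi : N.o ≠ some i := hr.1
  have hoj : N.o ≠ some j := hr.2.1
  have hbi : N.bb i < t - δ := (w.bb i).resolve_right fun h => by linarith [hr.2.2.1, w.pos]
  have hbj : N.bb j < t - δ := (w.bb j).resolve_right fun h => by linarith [hr.2.2.2, w.pos]
  refine ⟨R, K, hRnn, hK0, ?_⟩
  filter_upwards [hX, hP, hQ, c.lineP w.lP, c.lineQ w.lQ, c.eqvP w.lP, c.eqvQ w.lQ,
    w.diff' hoi, c.rel, c.farPP w hr (1 + K), c.farPQ w hr (1 + K), c.farQQ w hr (1 + K),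
    c.farQP w hr (1 + K), (c.H.bb i).eventually (gt_mem_nhds hbi),
    (c.H.bb j).eventually (gt_mem_nhds hbj), c.H.ev_lt R w.pos, c.H.ev_lt RX w.pos,
    c.H.ev_lt RP (sub_pos.2 w.lP), c.H.ev_lt RQ (sub_pos.2 w.lQ), c.iP.ok, c.iQ.ok]
    with m hX hP hQ hlP hlQ heP heQ hdiff hrel hPP hPQ hQQ hQP hbi hbj hRδ hRX hRP hRQ hokP hokQ
    A' hA' hmrg
  obtain ⟨-, hiA, hjA, hDi, hDj⟩ := hmrg
  set A1 := A' ∩ supp P with hA1
  set A2 := A' ∩ supp Q with hA2
  have hA1P : A1 ⊆ supp P := Finset.inter_subset_right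
  have hA2Q : A2 ⊆ supp Q := Finset.inter_subset_right
  have hU : A1 ∪ A2 = A' := union_parts hA'
  have hd : Disjoint A1 A2 := disj_parts c.wf.1 A'
  have hi : i ∈ A1 := Finset.mem_inter.2 ⟨hiA, c.hiP⟩
  have hj : j ∈ A2 := Finset.mem_inter.2 ⟨hjA, c.hjQ⟩
  have hε : 0 < (M m).ε := c.H.epos m
  have hΦm : AdmissiblePotential (M m).Φ := by rw [c.H.hΦ]; exact c.H.adm
  have hom : (M m).o = N.o := c.H.ho m
  have hoim : (M m).o ≠ some i := by rw [hom]; exact hoi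
  have hojm : (M m).o ≠ some j := by rw [hom]; exact hoj
  have hpos := w.pos
  have hta : t - δ ≤ N.T := by linarith [w.tT]
  have h0a : 0 ≤ t - δ := w.t0.le
  have hoP : ∀ {p : J}, (M m).o ≠ some p → N.o ≠ some p := fun h => by rw [← hom]; exact h
  -- the action conditions are void for particles
  have act_of : ∀ {p : J} {k' : κ} {s : ℝ}, (M m).o ≠ some p → (M m).act k' p s :=
    fun h h' => absurd h' h
  have haIcc : (t - δ) ∈ Icc (t - δ) N.T := ⟨le_rfl, hta⟩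
  have htIcc : t ∈ Icc (t - δ) N.T := ⟨by linarith, c.tT.le⟩
  -- lines
  have hl1 : ∀ s ∈ Icc (t - δ) N.T, ∀ p ∈ A1, (M m).o ≠ some p →
      (M m).st A1 s (Z m) p = fr ((M m).st A1 (t - δ) (Z m) p) (s - (t - δ)) :=
    fun s hs p hp ho => fr_of_line (hlP A1 hA1P p hp (hoP ho) s hs)
      (hlP A1 hA1P p hp (hoP ho) _ haIcc)
  have hl2 : ∀ s ∈ Icc (t - δ) N.T, ∀ p ∈ A2, (M m).o ≠ some p →
      (M m).st A2 s (Z m) p = fr ((M m).st A2 (t - δ) (Z m) p) (s - (t - δ)) :=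
    fun s hs p hp ho => fr_of_line (hlQ A2 hA2Q p hp (hoP ho) s hs)
      (hlQ A2 hA2Q p hp (hoP ho) _ haIcc)
  -- cross distances
  have hXst : ∀ s ∈ Icc 0 N.T, ∀ p ∈ A1, ∀ q ∈ A2, (M m).o ≠ some p → (M m).o ≠ some q →
      dist ((M m).st A1 s (Z m) p).1 ((M m).st A2 s (Z m) q).1 ≤ (M m).ε →
        p = i ∧ q = j ∧ |s - t| ≤ RX * (M m).ε := by
    intro s hs p hp q hq hop hoq hdist
    have h := hX A1 hA1P A2 hA2Q k l p hp q hq s hs (act_of hop) (by
      rw [pos_particle hop, pos_particle hoq, one_mul]; exact hdist)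
    exact ⟨h.1.1, h.2.1.1, h.2.2⟩
  have hfar : ∀ s ∈ Ico 0 (t - δ), ∀ p ∈ A1, ∀ q ∈ A2, (M m).o ≠ some p → (M m).o ≠ some q →
      (M m).bb p ≤ s → (M m).bb q ≤ s →
      (M m).ε < dist ((M m).st A1 s (Z m) p).1 ((M m).st A2 s (Z m) q).1 := by
    intro s hs p hp q hq hop hoq _ _
    by_contra hcon
    have h := (hXst s ⟨hs.1, hs.2.le.trans hta⟩ p hp q hq hop hoq (not_lt.1 hcon)).2.2
    rw [abs_of_nonpos (by linarith [hs.2])] at h
    linarith [hs.2]
  have h12 : ∀ s ∈ Icc (t - δ) N.T, ∀ p ∈ A1, ∀ q ∈ A2, p ≠ i → (M m).o ≠ some p →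
      (M m).o ≠ some q → (M m).ε < dist ((M m).st A1 s (Z m) p).1 ((M m).st A2 s (Z m) q).1 := by
    intro s hs p hp q hq hpi hop hoq
    by_contra hcon
    exact hpi (hXst s ⟨h0a.trans hs.1, hs.2⟩ p hp q hq hop hoq (not_lt.1 hcon)).1
  have hne : ((M m).st A1 (t - δ) (Z m) i).1 ≠ ((M m).st A2 (t - δ) (Z m) j).1 := by
    intro h
    have h2 := (hXst (t - δ) ⟨h0a, hta⟩ i hi j hj hoim hojm (by
      rw [h, dist_self]; exact hε.le)).2.2
    rw [show t - δ - t = -δ by ring, abs_neg, abs_of_pos w.pos] at h2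
    linarith
  have h11 : ∀ s ∈ Icc (t - δ) N.T, ∀ p ∈ A1, ∀ q ∈ A1, p ≠ q → (M m).o ≠ some p →
      (M m).o ≠ some q → (M m).ε < dist ((M m).st A1 s (Z m) p).1 ((M m).st A1 s (Z m) q).1 := by
    intro s hs p hp q hq hpq hop hoq
    by_contra hcon
    obtain ⟨e, he, -, hse⟩ := hP A1 hA1P A1 hA1P k k p hp q hq hpq s ⟨h0a.trans hs.1, hs.2⟩
      (act_of hop) (act_of hoq) (by
        rw [pos_particle hop, pos_particle hoq, one_mul]; exact not_lt.1 hcon)
    have h1 := (sig_le P πP c.wf.2.2.2.2.2.2.1 c.oP e he).2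
    have h2 := le_abs_self (s - sig P πP e)
    linarith [hs.1]
  have h22 : ∀ s ∈ Icc (t - δ) N.T, ∀ p ∈ A2, ∀ q ∈ A2, p ≠ q → (M m).o ≠ some p →
      (M m).o ≠ some q → (M m).ε < dist ((M m).st A2 s (Z m) p).1 ((M m).st A2 s (Z m) q).1 := by
    intro s hs p hp q hq hpq hop hoq
    by_contra hcon
    obtain ⟨e, he, -, hse⟩ := hQ A2 hA2Q A2 hA2Q k k p hp q hq hpq s ⟨h0a.trans hs.1, hs.2⟩
      (act_of hop) (act_of hoq) (by
        rw [pos_particle hop, pos_particle hoq, one_mul]; exact not_lt.1 hcon)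
    have h1 := (sig_le Q πQ c.wf.2.2.2.2.2.2.2 c.oQ e he).2
    have h2 := le_abs_self (s - sig Q πQ e)
    linarith [hs.1]
  -- the scaled state of the pair
  have eA : (M m).st A1 t (Z m) i = (M m).st A t (Z m) i :=
    heP A1 hA1P A c.wf.2.1 i hi c.wf.2.2.2.1 hoi hDi t htIcc
  have eB : (M m).st A2 t (Z m) j = (M m).st B t (Z m) j :=
    heQ A2 hA2Q B c.wf.2.2.1 j hj c.wf.2.2.2.2.1 hoj hDj t htIcc
  have hss : ss (M m).ε ((M m).st A1 (t - δ) (Z m) i) ((M m).st A2 (t - δ) (Z m) j)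
      (t - (t - δ)) = ζ := by
    have f1 := hl1 t htIcc i hi hoim
    have f2 := hl2 t htIcc j hj hojm
    have g1 := hdiff t htIcc
    rw [sub_self, zero_smul, add_zero, ← eA, ← eB] at g1
    have g2 := congrArg Prod.snd hrel
    simp only [ph, Prod.snd_sub, if_neg hoim, if_neg hojm] at g2
    rw [← eA, ← eB] at g2
    unfold ss
    ext1
    · show (1 / (M m).ε) • ((fr ((M m).st A1 (t - δ) (Z m) i) (t - (t - δ))).1 -
        (fr ((M m).st A2 (t - δ) (Z m) j) (t - (t - δ))).1) = ζ.1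
      rw [← f1, ← f2, g1, smul_smul, one_div_mul_cancel hε.ne', one_smul]
    · show ((M m).st A1 (t - δ) (Z m) i).2 - ((M m).st A2 (t - δ) (Z m) j).2 = ζ.2
      have v1 : ((M m).st A1 t (Z m) i).2 = ((M m).st A1 (t - δ) (Z m) i).2 := by rw [f1]; rfl
      have v2 : ((M m).st A2 t (Z m) j).2 = ((M m).st A2 (t - δ) (Z m) j).2 := by rw [f2]; rfl
      rw [← v1, ← v2, g2]
  have hΦe : (M m).Φ = N.Φ := c.H.hΦ m
  have key := node_paths hΦm hε hd (Z := Z m) (a := t - δ) (t := t) (T' := N.T) (i := i) (j := j)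
    (w := kick N.Φ ζ) (k1 := kick1 N.Φ ζ) (K := K)
    hi hj hoim hojm hbi hbj (by linarith) hta
    (ok_anti hta (hokP A1 hA1P)) (ok_anti hta (hokQ A2 hA2Q)) hfar hl1 hl2 hRnn
    (by rw [hΦe]; exact hz) (by rw [hΦe]; exact hW) (by rw [hΦe]; exact hK1) (by linarith) hss hK0
    (fun Z' hZ' s k'' => by
      have h := (hK J (M m).ε hε Z' i j c.hij (t - δ) t hZ' (by linarith) s k'').1
      rw [hΦe]
      exact h)
    h11 h22 h12 hne
    (fun s hs p hp hpi hop => by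
      have h := hPP A1 hA1P hi hDi A1 hA1P k p hp hpi s hs (act_of hop)
      rw [pos_particle hop] at h
      exact h)
    (fun s hs p hp hpj hop => by
      have h := hPQ A1 hA1P hi hDi A2 hA2Q k p hp (fun h => hpj h.1) s hs
      rw [pos_particle hop] at h
      exact h)
    (fun s hs p hp hpj hop => by
      have h := hQQ A2 hA2Q hj hDj A2 hA2Q k p hp hpj s hs
      rw [pos_particle hop] at h
      exact h)
    (fun s hs p hp hpi hop => by
      have h := hQP A2 hA2Q hj hDj A1 hA1P k p hp (fun h => hpi h.1) s hs (act_of hop)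
      rw [pos_particle hop] at h
      exact h)
  rw [hU] at key
  exact ⟨key.1, fun s hs => key.2 s hs.2⟩

end ctx

end Crest.Agent.R122.VL581
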