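import Crest.Agent.R122.VLNodeF_564
import Crest.Agent.R122.VLNode1_581
import Crest.Agent.R122.VLPlace_399
import Crest.Agent.R122.VLdynD_564

/-!
# Row 122, block D3 (helper564): node step, the contacts

`Ctx.ct'` : the field `ct` of `InvC` for the node, from `Ctx` and `SubW`.
-/

set_option autoImplicit false
set_option linter.unusedSectionVars false

open MeasureTheory Set Filter Topology
open scoped ENNReal NNReal
open Crest.AnalysisR.Kinetic
open Crest.Agent.R122.Ins45 Crest.Agent.R122.GIV566 Crest.Agent.R122.VLPar823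
open Crest.Agent.R122.VLPar823.MTree
open Crest.Agent.R122.VLcore564

noncomputable section

namespace Crest.Agent.R122.VL581

open scoped Classical

section nodeC

variable {J κ : Type} [Fintype J] [Fintype κ] {M : ℕ → VSys J κ} {N : VSys J κ} {Bd : Set ℝ}
  {A : Finset J} {k : κ} {i : J} {B : Finset J} {l : κ} {j : J} {P Q : MTree J κ} {t : ℝ}
  {ζ : Space3 × Space3} {πP : Par P} {πQ : Par Q} {Z : ℕ → J → PhasePoint}
  {Zl : J → PhasePoint}

variable (c : Ctx M N Bd A k i B l j P Q t ζ πP πQ Z Zl)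
include c

/-- The limit relation of the touching labels. -/
theorem Ctx.relL : N.phL P πP A k t Zl i - N.phL Q πQ B l t Zl j = (0, ζ.2) := by
  have h1 := VLInv399.ph_tendsto c.H c.iP c.wf.2.1 k c.wf.2.2.2.1 c.t0.le c.tT.le
    (tlast_lt P πP c.t0 c.oP)
  have h2 := VLInv399.ph_tendsto c.H c.iQ c.wf.2.2.1 l c.wf.2.2.2.2.1 c.t0.le c.tT.le
    (tlast_lt Q πQ c.t0 c.oQ)
  have h3 : Tendsto (fun m => (ph (M m) A k t (Z m) i).1 - (ph (M m) B l t (Z m) j).1) atTop
      (𝓝 ((N.phL P πP A k t Zl i).1 - (N.phL Q πQ B l t Zl j).1)) := h1.2.sub h2.2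
  have h4 : Tendsto (fun m => (ph (M m) A k t (Z m) i).1 - (ph (M m) B l t (Z m) j).1) atTop
      (𝓝 (0 : Space3)) := by
    have h5 : Tendsto (fun m => (M m).ε • ζ.1) atTop (𝓝 ((0 : ℝ) • ζ.1)) :=
      c.H.eps.smul_const ζ.1
    rw [zero_smul] at h5
    refine h5.congr' ?_
    filter_upwards [c.rel] with m hm
    exact (congrArg Prod.fst hm).symm
  ext1
  · exact tendsto_nhds_unique h3 h4
  · obtain ⟨m, hm1, hm2, hm3⟩ := (h1.1.and (h2.1.and c.rel)).exists
    have h6 : (ph (M m) A k t (Z m) i).2 - (ph (M m) B l t (Z m) j).2 = ζ.2 :=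
      congrArg Prod.snd hm3
    rw [hm1, hm2] at h6
    exact h6

/-- Limit paths of different particles of the node meet only at the times of the edges. -/
theorem Ctx.coincN : Coinc N (node A k i B l j P Q) ((t, ζ), πP, πQ) Zl :=
  VLInv399.coinc_node N c.H.adm c.wf c.ac c.oP c.oQ c.G c.relL c.cP c.cQ

/-- Far lemma for two labels of the node. -/
theorem Ctx.far_node (hS : SubW M N A i B j P Q t ζ πP πQ Z) {K : Set ℝ} (hK : IsCompact K)
    (hKT : K ⊆ Icc 0 N.T) {A' B' : Finset J} (hA : A' ⊆ supp (node A k i B l j P Q))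
    (hB : B' ⊆ supp (node A k i B l j P Q)) {k' l' : κ} {p q : J} (hp : p ∈ A') (hq : q ∈ B')
    (hne : ∀ s ∈ K, N.act k' p s → N.act l' q s →
      N.Gam (node A k i B l j P Q) ((t, ζ), πP, πQ) A' k' s Zl p ≠
        N.Gam (node A k i B l j P Q) ((t, ζ), πP, πQ) B' l' s Zl q) (C : ℝ) :
    ∀ᶠ m in atTop, ∀ s ∈ K, (M m).act k' p s → (M m).act l' q s →
      C * (M m).ε < dist ((M m).pos A' k' s (Z m) p) ((M m).pos B' l' s (Z m) q) := by
  have h1 := (c.conv' hS A' hA k' p hp).mono hKT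
  have h2 := (c.conv' hS B' hB l' q hq).mono hKT
  have h3 := farε hK ((continuousOn_Gam N c.H.lipS _ _ A' k' Zl p).mono hKT)
    ((continuousOn_Gam N c.H.lipS _ _ B' l' Zl q).mono hKT)
    h1 h2 (P₁ := N.o = some p) (P₂ := N.o = some q)
    (fun _ => c.H.tubes.active k') (fun _ => c.H.tubes.active l') hne c.H.eps C
  filter_upwards [h3] with m hm s hs a1 a2
  exact hm s hs (fun h => a1 (by rw [c.H.ho]; exact h)) (fun h => a2 (by rw [c.H.ho]; exact h))

/-- Position of a label of the node in terms of its part. -/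
theorem Ctx.pos_node (hS : SubW M N A i B j P Q t ζ πP πQ Z) :
    ∃ K : ℝ, 0 ≤ K ∧ ∀ᶠ m in atTop, ∀ A' ⊆ supp P ∪ supp Q, ∀ k', ∀ p ∈ A', ∀ s ∈ Icc 0 N.T,
      ‖(M m).pos A' k' s (Z m) p - ((M m).pos (sub' P Q A' p) k' s (Z m) p +
        max (s - t) 0 • kv N A i B j P Q t πP πQ (kick N.Φ ζ) A' p)‖ ≤ K * (M m).ε := by
  obtain ⟨R, K, hR, hK, h⟩ := c.paths hS
  refine ⟨K, hK, ?_⟩
  filter_upwards [h] with m hm A' hA' k' p hp s hs
  by_cases ho : N.o = some p
  · have ho' : (M m).o = some p := by rw [c.H.ho]; exact ho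
    have hpos : (M m).pos A' k' s (Z m) p = (M m).pos (sub' P Q A' p) k' s (Z m) p := by
      unfold VSys.pos
      rw [if_pos ho', if_pos ho']
    rw [kv_zero_of_o ho, smul_zero, add_zero, hpos, sub_self, norm_zero]
    exact mul_nonneg hK (c.H.epos m).le
  · have ho' : (M m).o ≠ some p := by rw [c.H.ho]; exact ho
    rw [pos_particle ho', pos_particle ho']
    exact ((hm A' hA').2 p hp s hs).2

/-- The relative velocities after the encounter do not vanish. -/
theorem Ctx.rel_ne {V : Space3} (hV0 : V ≠ 0) (hVV : N.o ≠ some i → V = ζ.2)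
    (A' B' : Finset J) :
    V + (kv N A i B j P Q t πP πQ (kick N.Φ ζ) A' i -
      kv N A i B j P Q t πP πQ (kick N.Φ ζ) B' j) ≠ 0 := by
  have hij := c.ij
  by_cases h1 : N.mrg A i B j P Q t πP πQ A'
  · have hr : N.real i j t := h1.1
    have hV := hVV hr.1
    have hk1 : kv N A i B j P Q t πP πQ (kick N.Φ ζ) A' i = kick N.Φ ζ := by
      unfold kv; rw [if_pos h1, if_pos rfl]
    by_cases h2 : N.mrg A i B j P Q t πP πQ B'
    · have hk2 : kv N A i B j P Q t πP πQ (kick N.Φ ζ) B' j = -kick N.Φ ζ := by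
        unfold kv; rw [if_pos h2, if_neg hij.symm, if_pos rfl]
      rw [hk1, hk2, hV]
      have h3 : ζ.2 + (kick N.Φ ζ - -kick N.Φ ζ) = pout N.Φ ζ := by
        unfold kick; module
      rw [h3]
      intro h4
      have h5 := norm_pout c.H.adm (c.G.N5 hr).1
      rw [h4, norm_zero] at h5
      exact c.G.N4 hr.1 (norm_eq_zero.1 h5.symm)
    · have hk2 : kv N A i B j P Q t πP πQ (kick N.Φ ζ) B' j = 0 := by
        unfold kv; rw [if_neg h2]
      rw [hk1, hk2, hV]
      intro h4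
      apply (c.G.N5 hr).2.1
      have h3 : pout N.Φ ζ + ζ.2 = (2 : ℝ) • (ζ.2 + (kick N.Φ ζ - 0)) := by
        unfold kick; module
      rw [h3, h4, smul_zero]
  · have hk1 : kv N A i B j P Q t πP πQ (kick N.Φ ζ) A' i = 0 := by
      unfold kv; rw [if_neg h1]
    by_cases h2 : N.mrg A i B j P Q t πP πQ B'
    · have hr : N.real i j t := h2.1
      have hV := hVV hr.1
      have hk2 : kv N A i B j P Q t πP πQ (kick N.Φ ζ) B' j = -kick N.Φ ζ := by
        unfold kv; rw [if_pos h2, if_neg hij.symm, if_pos rfl]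
      rw [hk1, hk2, hV]
      intro h4
      apply (c.G.N5 hr).2.1
      have h3 : pout N.Φ ζ + ζ.2 = (2 : ℝ) • (ζ.2 + (0 - -kick N.Φ ζ)) := by
        unfold kick; module
      rw [h3, h4, smul_zero]
    · have hk2 : kv N A i B j P Q t πP πQ (kick N.Φ ζ) B' j = 0 := by
        unfold kv; rw [if_neg h2]
      rw [hk1, hk2, sub_zero, add_zero]
      exact hV0

/-- An edge of the node between different parts is the new one. -/
theorem Ctx.edge_new {p q : J} (hp : p ∈ supp P) (hq : q ∈ supp Q) {e : J × J}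
    (he : e ∈ edg (node A k i B l j P Q)) (hpq : e = (p, q) ∨ e = (q, p)) :
    e = (i, j) ∧ p = i ∧ q = j := by
  rcases VLInv399.mem_edg_node.1 he with h | h | h
  · refine ⟨h, ?_⟩
    rcases hpq with h' | h'
    · rw [h] at h'
      exact ⟨(congrArg Prod.fst h').symm, (congrArg Prod.snd h').symm⟩
    · rw [h] at h'
      have h1 : i = q := congrArg Prod.fst h'
      exact absurd (h1 ▸ hq) (c.not_Q c.iP_mem)
  · have h1 := edg_sub P c.wf.2.2.2.2.2.2.1 e h
    rcases hpq with h' | h'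
    · rw [h'] at h1
      exact absurd hq (c.not_Q h1.2)
    · rw [h'] at h1
      exact absurd hq (c.not_Q h1.1)
  · have h1 := edg_sub Q c.wf.2.2.2.2.2.2.2 e h
    rcases hpq with h' | h'
    · rw [h'] at h1
      exact absurd hp (c.not_P h1.1)
    · rw [h'] at h1
      exact absurd hp (c.not_P h1.2)

theorem Ctx.edge_left {p q : J} (hp : p ∈ supp P) (hq : q ∈ supp P) {e : J × J}
    (he : e ∈ edg (node A k i B l j P Q)) (hpq : e = (p, q) ∨ e = (q, p)) : e ∈ edg P := by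
  rcases VLInv399.mem_edg_node.1 he with h | h | h
  · exfalso
    rcases hpq with h' | h'
    · rw [h] at h'
      have h1 : j = q := congrArg Prod.snd h'
      exact c.not_P c.jQ_mem (h1 ▸ hq)
    · rw [h] at h'
      have h1 : j = p := congrArg Prod.snd h'
      exact c.not_P c.jQ_mem (h1 ▸ hp)
  · exact h
  · exfalso
    have h1 := edg_sub Q c.wf.2.2.2.2.2.2.2 e h
    rcases hpq with h' | h'
    · rw [h'] at h1
      exact c.not_P h1.1 hp
    · rw [h'] at h1
      exact c.not_P h1.1 hq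

theorem Ctx.edge_right {p q : J} (hp : p ∈ supp Q) (hq : q ∈ supp Q) {e : J × J}
    (he : e ∈ edg (node A k i B l j P Q)) (hpq : e = (p, q) ∨ e = (q, p)) : e ∈ edg Q := by
  rcases VLInv399.mem_edg_node.1 he with h | h | h
  · exfalso
    rcases hpq with h' | h'
    · rw [h] at h'
      have h1 : i = p := congrArg Prod.fst h'
      exact c.not_Q c.iP_mem (h1 ▸ hp)
    · rw [h] at h'
      have h1 : i = q := congrArg Prod.fst h'
      exact c.not_Q c.iP_mem (h1 ▸ hq)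
  · exfalso
    have h1 := edg_sub P c.wf.2.2.2.2.2.2.1 e h
    rcases hpq with h' | h'
    · rw [h'] at h1
      exact c.not_Q h1.1 hp
    · rw [h'] at h1
      exact c.not_Q h1.1 hq
  · exact h

/-- Contacts of a label of the left part with a label of the right part. -/
theorem Ctx.ctPQ (hS : SubW M N A i B j P Q t ζ πP πQ Z) (C : ℝ) {A' B' : Finset J}
    (hA : A' ⊆ supp P ∪ supp Q) (hB : B' ⊆ supp P ∪ supp Q) (k' l' : κ) {p q : J} (hp : p ∈ A')
    (hq : q ∈ B') (hpP : p ∈ supp P) (hqQ : q ∈ supp Q) :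
    ∃ R : ℝ, ∀ᶠ m in atTop, ∀ s ∈ Icc 0 N.T, (M m).act k' p s → (M m).act l' q s →
      dist ((M m).pos A' k' s (Z m) p) ((M m).pos B' l' s (Z m) q) ≤ C * (M m).ε →
      p = i ∧ q = j ∧ |s - t| ≤ R * (M m).ε := by
  have hpq : p ≠ q := fun h => c.not_Q hpP (h ▸ hqQ)
  obtain ⟨δ, V, w⟩ := c.exists_win
  obtain ⟨K, hK0, hK⟩ := c.pos_node hS
  have hsubP : sub' P Q A' p = A' ∩ supp P := if_pos hpP
  have hsubQ : sub' P Q B' q = B' ∩ supp Q := if_neg (c.not_P hqQ)
  have hpA : p ∈ A' ∩ supp P := Finset.mem_inter.2 ⟨hp, hpP⟩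
  have hqB : q ∈ B' ∩ supp Q := Finset.mem_inter.2 ⟨hq, hqQ⟩
  -- meetings of the limit paths
  have meet : ∀ s ∈ Icc 0 N.T, N.act k' p s → N.act l' q s →
      N.Gam (node A k i B l j P Q) ((t, ζ), πP, πQ) A' k' s Zl p =
        N.Gam (node A k i B l j P Q) ((t, ζ), πP, πQ) B' l' s Zl q →
      s = t ∧ N.Eqv P πP (A' ∩ supp P) k' p A k i ∧ N.Eqv Q πQ (B' ∩ supp Q) l' q B l j := by
    intro s hs ha hb heq
    obtain ⟨e, he, hee, hse⟩ := c.coincN A' hA B' hB k' l' p hp q hq hpq s hs ha hb heq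
    obtain ⟨he', -, -⟩ := c.edge_new hpP hqQ he hee
    have hst : s = t := by
      rw [hse, he']
      exact VLInv399.sig_new _
    subst hst
    refine ⟨rfl, ?_⟩
    rw [Gam_kv, Gam_kv, if_pos hpP, if_neg (c.not_P hqQ), sub_self, max_self, zero_smul,
      zero_smul, add_zero, add_zero] at heq
    exact c.G.N3 c.ac _ Finset.inter_subset_right _ Finset.inter_subset_right k' l' p hpA q hqB
      ha heq
  by_cases he : N.Eqv P πP (A' ∩ supp P) k' p A k i ∧ N.Eqv Q πQ (B' ∩ supp Q) l' q B l j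
  swap
  · -- no meeting at all
    refine ⟨0, ?_⟩
    have hfar := c.far_node hS isCompact_Icc subset_rfl hA hB (k' := k') (l' := l') hp hq
      (fun s hs ha hb heq => he (meet s hs ha hb heq).2) C
    filter_upwards [hfar] with m hm s hs ha hb hd
    exact absurd hd (not_le.2 (hm s hs ha hb))
  · obtain ⟨heP, heQ⟩ := he
    have hpi : p = i := heP.1
    have hqj : q = j := heQ.1
    set g' : Space3 := V + (kv N A i B j P Q t πP πQ (kick N.Φ ζ) A' i -
      kv N A i B j P Q t πP πQ (kick N.Φ ζ) B' j) with hg'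
    have hg'0 : g' ≠ 0 := c.rel_ne w.V0 w.VV A' B'
    obtain ⟨R', hR'⟩ := ct_broken w.V0 hg'0 (‖ζ.1‖ + 2 * K) C
    refine ⟨R', ?_⟩
    have hKc : IsCompact (Icc 0 N.T \ Ioo (t - δ) (t + δ)) := isCompact_Icc.diff isOpen_Ioo
    have hfar := c.far_node hS hKc sdiff_subset hA hB (k' := k') (l' := l') hp hq
      (fun s hs ha hb heq => by
        have h1 := (meet s hs.1 ha hb heq).1
        refine hs.2 ?_
        rw [h1]
        exact ⟨by linarith [w.pos], by linarith [w.pos]⟩) C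
    filter_upwards [hfar, c.eqv_posP w, c.eqv_posQ w, w.diff, hK] with m hm h1 h2 hd hKm s hs ha
      hb hdist
    refine ⟨hpi, hqj, ?_⟩
    have hsw : s ∈ Ioo (t - δ) (t + δ) := by
      by_contra hcon
      exact absurd hdist (not_le.2 (hm s ⟨hs, hcon⟩ ha hb))
    have e1 := h1 _ Finset.inter_subset_right k' p hpA heP s ⟨hsw.1.le, hs.2⟩
    have e2 := h2 _ Finset.inter_subset_right l' q hqB heQ s ⟨hsw.1.le, hs.2⟩
    have e3 := hd s ⟨hsw.1.le, hsw.2.le⟩
    have e4 := hKm A' hA k' p hp s hs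
    have e5 := hKm B' hB l' q hq s hs
    rw [hsubP, e1, hpi] at e4
    rw [hsubQ, e2, hqj] at e5
    have hε := c.H.epos m
    refine hR' (M m).ε t s ((M m).pos A' k' s (Z m) p - (M m).pos B' l' s (Z m) q) hε ?_ ?_
    · have e6 : (M m).pos A' k' s (Z m) p - (M m).pos B' l' s (Z m) q -
          ((s - t) • V + max (s - t) 0 • (g' - V)) =
          ((M m).pos A' k' s (Z m) p - ((M m).pos A k s (Z m) i +
            max (s - t) 0 • kv N A i B j P Q t πP πQ (kick N.Φ ζ) A' i)) -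
          ((M m).pos B' l' s (Z m) q - ((M m).pos B l s (Z m) j +
            max (s - t) 0 • kv N A i B j P Q t πP πQ (kick N.Φ ζ) B' j)) + (M m).ε • ζ.1 := by
        have e7 : (M m).pos A k s (Z m) i =
            (M m).pos B l s (Z m) j + ((M m).ε • ζ.1 + (s - t) • V) := by
          rw [← e3]; abel
        rw [e7, hg']
        module
      rw [e6]
      refine (norm_add_le _ _).trans ?_
      have e8 : ‖(M m).ε • ζ.1‖ = ‖ζ.1‖ * (M m).ε := by
        rw [norm_smul, Real.norm_eq_abs, abs_of_pos hε, mul_comm]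
      rw [e8]
      have e9 := (norm_sub_le ((M m).pos A' k' s (Z m) p - ((M m).pos A k s (Z m) i +
            max (s - t) 0 • kv N A i B j P Q t πP πQ (kick N.Φ ζ) A' i))
          ((M m).pos B' l' s (Z m) q - ((M m).pos B l s (Z m) j +
            max (s - t) 0 • kv N A i B j P Q t πP πQ (kick N.Φ ζ) B' j)))
      rw [hpi] at e9 ⊢
      rw [hqj] at e9 ⊢
      linarith
    · rw [← dist_eq_norm]
      exact hdist

/-- Contacts of two labels of the left part. -/
theorem Ctx.ctPP (hS : SubW M N A i B j P Q t ζ πP πQ Z) (C : ℝ) {A' B' : Finset J}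
    (hA : A' ⊆ supp P ∪ supp Q) (hB : B' ⊆ supp P ∪ supp Q) (k' l' : κ) {p q : J} (hp : p ∈ A')
    (hq : q ∈ B') (hpP : p ∈ supp P) (hqP : q ∈ supp P) (hpq : p ≠ q) :
    ∃ R : ℝ, ∀ᶠ m in atTop, ∀ s ∈ Icc 0 N.T, (M m).act k' p s → (M m).act l' q s →
      dist ((M m).pos A' k' s (Z m) p) ((M m).pos B' l' s (Z m) q) ≤ C * (M m).ε →
      ∃ e ∈ edg P, (e = (p, q) ∨ e = (q, p)) ∧ |s - sig P πP e| ≤ R * (M m).ε := by
  obtain ⟨δ, V, w⟩ := c.exists_win
  obtain ⟨K, hK0, hK⟩ := c.pos_node hS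
  have hsubP : sub' P Q A' p = A' ∩ supp P := if_pos hpP
  have hsubQ : sub' P Q B' q = B' ∩ supp P := if_pos hqP
  obtain ⟨R, hR⟩ := c.iP.ct (C + 2 * K)
  refine ⟨R, ?_⟩
  have hfar := c.far_node hS (isCompact_Icc (a := t - δ) (b := N.T))
    (Icc_subset_Icc_left w.t0.le) hA hB (k' := k') (l' := l') hp hq
    (fun s hs ha hb heq => by
      obtain ⟨e, he, hee, hse⟩ := c.coincN A' hA B' hB k' l' p hp q hq hpq s
        ⟨w.t0.le.trans hs.1, hs.2⟩ ha hb heq
      have he' := c.edge_left hpP hqP he hee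
      have h1 := sig_left c.wf ((t, ζ), πP, πQ) he'
      rw [h1] at hse
      have h2 : s ≤ tlast P πP := by
        rw [hse]
        exact (sig_le P πP c.wf.2.2.2.2.2.2.1 c.oP e he').2
      linarith [w.lP, hs.1]) C
  filter_upwards [hfar, hR, hK] with m hm hRm hKm s hs ha hb hd
  have hst : s ≤ t - δ := by
    by_contra hcon
    push Not at hcon
    exact absurd hd (not_le.2 (hm s ⟨hcon.le, hs.2⟩ ha hb))
  have hmax : max (s - t) 0 = 0 := max_eq_right (by linarith [w.pos])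
  have e4 := hKm A' hA k' p hp s hs
  have e5 := hKm B' hB l' q hq s hs
  rw [hsubP, hmax, zero_smul, add_zero] at e4
  rw [hsubQ, hmax, zero_smul, add_zero] at e5
  refine hRm _ Finset.inter_subset_right _ Finset.inter_subset_right k' l' p
    (Finset.mem_inter.2 ⟨hp, hpP⟩) q (Finset.mem_inter.2 ⟨hq, hqP⟩) hpq s hs ha hb ?_
  have h1 := dist_triangle4 ((M m).pos (A' ∩ supp P) k' s (Z m) p)
    ((M m).pos A' k' s (Z m) p) ((M m).pos B' l' s (Z m) q)
    ((M m).pos (B' ∩ supp P) l' s (Z m) q)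
  rw [← dist_eq_norm] at e4 e5
  rw [dist_comm] at e4
  linarith

/-- Contacts of two labels of the right part. -/
theorem Ctx.ctQQ (hS : SubW M N A i B j P Q t ζ πP πQ Z) (C : ℝ) {A' B' : Finset J}
    (hA : A' ⊆ supp P ∪ supp Q) (hB : B' ⊆ supp P ∪ supp Q) (k' l' : κ) {p q : J} (hp : p ∈ A')
    (hq : q ∈ B') (hpP : p ∈ supp Q) (hqP : q ∈ supp Q) (hpq : p ≠ q) :
    ∃ R : ℝ, ∀ᶠ m in atTop, ∀ s ∈ Icc 0 N.T, (M m).act k' p s → (M m).act l' q s →
      dist ((M m).pos A' k' s (Z m) p) ((M m).pos B' l' s (Z m) q) ≤ C * (M m).ε →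
      ∃ e ∈ edg Q, (e = (p, q) ∨ e = (q, p)) ∧ |s - sig Q πQ e| ≤ R * (M m).ε := by
  obtain ⟨δ, V, w⟩ := c.exists_win
  obtain ⟨K, hK0, hK⟩ := c.pos_node hS
  have hsubP : sub' P Q A' p = A' ∩ supp Q := if_neg (c.not_P hpP)
  have hsubQ : sub' P Q B' q = B' ∩ supp Q := if_neg (c.not_P hqP)
  obtain ⟨R, hR⟩ := c.iQ.ct (C + 2 * K)
  refine ⟨R, ?_⟩
  have hfar := c.far_node hS (isCompact_Icc (a := t - δ) (b := N.T))
    (Icc_subset_Icc_left w.t0.le) hA hB (k' := k') (l' := l') hp hq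
    (fun s hs ha hb heq => by
      obtain ⟨e, he, hee, hse⟩ := c.coincN A' hA B' hB k' l' p hp q hq hpq s
        ⟨w.t0.le.trans hs.1, hs.2⟩ ha hb heq
      have he' := c.edge_right hpP hqP he hee
      have h1 := sig_right c.wf ((t, ζ), πP, πQ) he'
      rw [h1] at hse
      have h2 : s ≤ tlast Q πQ := by
        rw [hse]
        exact (sig_le Q πQ c.wf.2.2.2.2.2.2.2 c.oQ e he').2
      linarith [w.lQ, hs.1]) C
  filter_upwards [hfar, hR, hK] with m hm hRm hKm s hs ha hb hd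
  have hst : s ≤ t - δ := by
    by_contra hcon
    push Not at hcon
    exact absurd hd (not_le.2 (hm s ⟨hcon.le, hs.2⟩ ha hb))
  have hmax : max (s - t) 0 = 0 := max_eq_right (by linarith [w.pos])
  have e4 := hKm A' hA k' p hp s hs
  have e5 := hKm B' hB l' q hq s hs
  rw [hsubP, hmax, zero_smul, add_zero] at e4
  rw [hsubQ, hmax, zero_smul, add_zero] at e5
  refine hRm _ Finset.inter_subset_right _ Finset.inter_subset_right k' l' p
    (Finset.mem_inter.2 ⟨hp, hpP⟩) q (Finset.mem_inter.2 ⟨hq, hqP⟩) hpq s hs ha hb ?_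
  have h1 := dist_triangle4 ((M m).pos (A' ∩ supp Q) k' s (Z m) p)
    ((M m).pos A' k' s (Z m) p) ((M m).pos B' l' s (Z m) q)
    ((M m).pos (B' ∩ supp Q) l' s (Z m) q)
  rw [← dist_eq_norm] at e4 e5
  rw [dist_comm] at e4
  linarith

/-- **The contacts of the node.** -/
theorem Ctx.ct' (hS : SubW M N A i B j P Q t ζ πP πQ Z) :
    ∀ C : ℝ, ∃ R : ℝ, ∀ᶠ m in atTop, ∀ A' ⊆ supp (node A k i B l j P Q),
      ∀ B' ⊆ supp (node A k i B l j P Q), ∀ k' l', ∀ p ∈ A', ∀ q ∈ B', p ≠ q →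
      ∀ s ∈ Icc 0 N.T, (M m).act k' p s → (M m).act l' q s →
      dist ((M m).pos A' k' s (Z m) p) ((M m).pos B' l' s (Z m) q) ≤ C * (M m).ε →
      ∃ e ∈ edg (node A k i B l j P Q), (e = (p, q) ∨ e = (q, p)) ∧
        |s - sig (node A k i B l j P Q) ((t, ζ), πP, πQ) e| ≤ R * (M m).ε := by
  intro C
  have key := exists_unif (Λ := Finset J × κ × J × Finset J × κ × J) (Pr := fun x R m =>
    x.1 ⊆ supp P ∪ supp Q → x.2.2.2.1 ⊆ supp P ∪ supp Q → x.2.2.1 ∈ x.1 →
      x.2.2.2.2.2 ∈ x.2.2.2.1 → x.2.2.1 ≠ x.2.2.2.2.2 →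
      ∀ s ∈ Icc 0 N.T, (M m).act x.2.1 x.2.2.1 s → (M m).act x.2.2.2.2.1 x.2.2.2.2.2 s →
        dist ((M m).pos x.1 x.2.1 s (Z m) x.2.2.1)
          ((M m).pos x.2.2.2.1 x.2.2.2.2.1 s (Z m) x.2.2.2.2.2) ≤ C * (M m).ε →
        ∃ e ∈ edg (node A k i B l j P Q), (e = (x.2.2.1, x.2.2.2.2.2) ∨
          e = (x.2.2.2.2.2, x.2.2.1)) ∧
          |s - sig (node A k i B l j P Q) ((t, ζ), πP, πQ) e| ≤ R * (M m).ε) ?_ ?_
  · obtain ⟨R, hR⟩ := key
    refine ⟨R, ?_⟩
    filter_upwards [hR] with m hm A' hA' B' hB' k' l' p hp q hq hpq s hs ha hb hd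
    exact hm (A', k', p, B', l', q) hA' hB' hp hq hpq s hs ha hb hd
  · intro x R R' m hRR h h1 h2 h3 h4 h5 s hs ha hb hd
    obtain ⟨e, he, hee, hse⟩ := h h1 h2 h3 h4 h5 s hs ha hb hd
    exact ⟨e, he, hee, hse.trans (mul_le_mul_of_nonneg_right hRR (c.H.epos m).le)⟩
  · rintro ⟨A', k', p, B', l', q⟩
    by_cases hL : A' ⊆ supp P ∪ supp Q ∧ B' ⊆ supp P ∪ supp Q ∧ p ∈ A' ∧ q ∈ B' ∧ p ≠ q
    swap
    · exact ⟨0, Eventually.of_forall fun m h1 h2 h3 h4 h5 => absurd ⟨h1, h2, h3, h4, h5⟩ hL⟩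
    obtain ⟨hA', hB', hp, hq, hpq⟩ := hL
    have hnew : (i, j) ∈ edg (node A k i B l j P Q) := VLInv399.mem_edg_node.2 (Or.inl rfl)
    have hsig : sig (node A k i B l j P Q) ((t, ζ), πP, πQ) (i, j) = t := VLInv399.sig_new _
    rcases Finset.mem_union.1 (hA' hp) with hpP | hpQ
    · rcases Finset.mem_union.1 (hB' hq) with hqP | hqQ
      · obtain ⟨R, hR⟩ := c.ctPP hS C hA' hB' k' l' hp hq hpP hqP hpq
        refine ⟨R, ?_⟩
        filter_upwards [hR] with m hm _ _ _ _ _ s hs ha hb hd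
        obtain ⟨e, he, hee, hse⟩ := hm s hs ha hb hd
        refine ⟨e, VLInv399.mem_edg_node.2 (Or.inr (Or.inl he)), hee, ?_⟩
        rw [sig_left c.wf ((t, ζ), πP, πQ) he]
        exact hse
      · obtain ⟨R, hR⟩ := c.ctPQ hS C hA' hB' k' l' hp hq hpP hqQ
        refine ⟨R, ?_⟩
        filter_upwards [hR] with m hm _ _ _ _ _ s hs ha hb hd
        obtain ⟨h1, h2, h3⟩ := hm s hs ha hb hd
        refine ⟨(i, j), hnew, Or.inl ?_, ?_⟩
        · show (i, j) = (p, q)
          rw [h1, h2]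
        · rw [hsig]
          exact h3
    · rcases Finset.mem_union.1 (hB' hq) with hqP | hqQ
      · obtain ⟨R, hR⟩ := c.ctPQ hS C hB' hA' l' k' hq hp hqP hpQ
        refine ⟨R, ?_⟩
        filter_upwards [hR] with m hm _ _ _ _ _ s hs ha hb hd
        obtain ⟨h1, h2, h3⟩ := hm s hs hb ha (by rw [dist_comm]; exact hd)
        refine ⟨(i, j), hnew, Or.inr ?_, ?_⟩
        · show (i, j) = (q, p)
          rw [h1, h2]
        · rw [hsig]
          exact h3
      · obtain ⟨R, hR⟩ := c.ctQQ hS C hA' hB' k' l' hp hq hpQ hqQ hpq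
        refine ⟨R, ?_⟩
        filter_upwards [hR] with m hm _ _ _ _ _ s hs ha hb hd
        obtain ⟨e, he, hee, hse⟩ := hm s hs ha hb hd
        refine ⟨e, VLInv399.mem_edg_node.2 (Or.inr (Or.inr he)), hee, ?_⟩
        rw [sig_right c.wf ((t, ζ), πP, πQ) he]
        exact hse

/-- **The invariant of the node** from the description of the sub-worlds. -/
theorem Ctx.invC (hS : SubW M N A i B j P Q t ζ πP πQ Z) :
    InvC M N (node A k i B l j P Q) ((t, ζ), πP, πQ) Z Zl where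
  vel := c.vel'
  posn := c.posn'
  ok := c.ok' hS
  line := c.line' hS
  eqv := c.eqv' hS
  conv := c.conv' hS
  ct := c.ct' hS

end nodeC

end Crest.Agent.R122.VL581
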