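import Crest.Agent.R122.VLNodeDefs_581

/-!
# Row 122, block D3 (helper564): node step, the fields of `InvC` except the contacts

From `Ctx` (hypotheses of the node step) and `SubW` (paths of the sub-worlds of the union):
`vel`, `posn`, `ok`, `line`, `eqv`, `conv` for the node.
-/

set_option autoImplicit false
set_option linter.unusedSectionVars false

open MeasureTheory Set Filter Topology
open scoped ENNReal NNReal
open Crest.AnalysisR.Kinetic
open Crest.Agent.R122.Ins45 Crest.Agent.R122.GIV566 Crest.Agent.R122.VLPar823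
open Crest.Agent.R122.VLPar823.MTree
open Crest.Agent.R122.VLcore564

noncomputable section

namespace Crest.Agent.R122.VL581

open scoped Classical

section nodeF

variable {J κ : Type} [Fintype J] {M : ℕ → VSys J κ} {N : VSys J κ} {Bd : Set ℝ}
  {A : Finset J} {k : κ} {i : J} {B : Finset J} {l : κ} {j : J} {P Q : MTree J κ} {t : ℝ}
  {ζ : Space3 × Space3} {πP : Par P} {πQ : Par Q} {Z : ℕ → J → PhasePoint}
  {Zl : J → PhasePoint}

/-- Kick vector of the particle `p` of the sub-world `A'`. -/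
def kv (N : VSys J κ) (A : Finset J) (i : J) (B : Finset J) (j : J) (P Q : MTree J κ) (t : ℝ)
    (πP : Par P) (πQ : Par Q) (w : Space3) (A' : Finset J) (p : J) : Space3 :=
  if N.mrg A i B j P Q t πP πQ A' then (if p = i then w else if p = j then -w else 0) else 0

/-- The part of the sub-world which contains `p`. -/
def sub' (P Q : MTree J κ) (A' : Finset J) (p : J) : Finset J :=
  if p ∈ supp P then A' ∩ supp P else A' ∩ supp Q

/-- The displacement in the part. -/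
def Dold (N : VSys J κ) (P Q : MTree J κ) (πP : Par P) (πQ : Par Q) (A' : Finset J) (p : J) :
    PhasePoint :=
  if p ∈ supp P then N.D P πP (A' ∩ supp P) p else N.D Q πQ (A' ∩ supp Q) p

theorem kv_zero_of_o {w : Space3} {A' : Finset J} {p : J} (ho : N.o = some p) :
    kv N A i B j P Q t πP πQ w A' p = 0 := by
  unfold kv
  split_ifs with h1 h2 h3
  · exact absurd (h2 ▸ ho) h1.1.1
  · exact absurd (h3 ▸ ho) h1.1.2.1
  · rfl
  · rfl

theorem D_kv (A' : Finset J) (p : J) :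
    N.D (node A k i B l j P Q) ((t, ζ), πP, πQ) A' p = Dold N P Q πP πQ A' p +
      (-(t • kv N A i B j P Q t πP πQ (kick N.Φ ζ) A' p),
        kv N A i B j P Q t πP πQ (kick N.Φ ζ) A' p) := by
  rw [VSys.D_node]
  unfold Dold kv
  congr 1
  split_ifs
  · rfl
  · ext1
    · show t • kick N.Φ ζ = -(t • -kick N.Φ ζ)
      rw [smul_neg, neg_neg]
    · rfl
  · ext1
    · show (0 : Space3) = -(t • (0 : Space3))
      rw [smul_zero, neg_zero]
    · rfl
  · ext1
    · show (0 : Space3) = -(t • (0 : Space3))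
      rw [smul_zero, neg_zero]
    · rfl

theorem Gam_kv (A' : Finset J) (k' : κ) (s : ℝ) (p : J) :
    N.Gam (node A k i B l j P Q) ((t, ζ), πP, πQ) A' k' s Zl p =
      (if p ∈ supp P then N.Gam P πP (A' ∩ supp P) k' s Zl p
        else N.Gam Q πQ (A' ∩ supp Q) k' s Zl p) +
      max (s - t) 0 • kv N A i B j P Q t πP πQ (kick N.Φ ζ) A' p := by
  by_cases ho : N.o = some p
  · rw [kv_zero_of_o ho, smul_zero, add_zero]
    unfold VSys.Gam
    simp only [if_pos ho, ite_self]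
  · unfold VSys.Gam
    simp only [if_neg ho]
    rw [VSys.Del_node]
    unfold kv
    show (Zl p).1 + s • (Zl p).2 + ((if p ∈ supp P then N.Del P πP (A' ∩ supp P) p s
      else N.Del Q πQ (A' ∩ supp Q) p s) + (if N.mrg A i B j P Q t πP πQ A' then
        (if p = i then max (s - t) 0 • kick N.Φ ζ
          else if p = j then -(max (s - t) 0 • kick N.Φ ζ) else 0) else 0)) = _
    split_ifs <;> simp only [smul_neg, smul_zero, add_zero, add_assoc]

variable (hC : Ctx M N Bd A k i B l j P Q t ζ πP πQ Z Zl)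

include hC

theorem Ctx.iP_mem : i ∈ supp P := hC.wf.2.1 hC.wf.2.2.2.1

theorem Ctx.jQ_mem : j ∈ supp Q := hC.wf.2.2.1 hC.wf.2.2.2.2.1

theorem Ctx.not_Q {p : J} (hp : p ∈ supp P) : p ∉ supp Q := Finset.disjoint_left.1 hC.wf.1 hp

theorem Ctx.not_P {p : J} (hp : p ∈ supp Q) : p ∉ supp P := Finset.disjoint_right.1 hC.wf.1 hp

theorem Ctx.ij : i ≠ j := fun h => hC.not_Q hC.iP_mem (h ▸ hC.jQ_mem)

theorem Ctx.eps_pos (m : ℕ) : 0 < (M m).ε := (hC.H.eq m).2.2.2

/-- Kick vector of a particle of the left part. -/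
theorem Ctx.kv_left (w : Space3) (A' : Finset J) {p : J} (hp : p ∈ supp P) :
    kv N A i B j P Q t πP πQ w A' p =
      if N.mrg A i B j P Q t πP πQ A' ∧ p = i then w else 0 := by
  have hpj : p ≠ j := fun h => hC.not_P hC.jQ_mem (h ▸ hp)
  unfold kv
  by_cases h1 : N.mrg A i B j P Q t πP πQ A'
  · by_cases h2 : p = i
    · rw [if_pos h1, if_pos h2, if_pos ⟨h1, h2⟩]
    · rw [if_pos h1, if_neg h2, if_neg hpj, if_neg fun h => h2 h.2]
  · rw [if_neg h1, if_neg fun h => h1 h.1]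

theorem Ctx.kv_right (w : Space3) (A' : Finset J) {p : J} (hp : p ∈ supp Q) :
    kv N A i B j P Q t πP πQ w A' p =
      if N.mrg A i B j P Q t πP πQ A' ∧ p = j then -w else 0 := by
  have hpi : p ≠ i := fun h => hC.not_Q hC.iP_mem (h ▸ hp)
  unfold kv
  by_cases h1 : N.mrg A i B j P Q t πP πQ A'
  · by_cases h2 : p = j
    · rw [if_pos h1, if_neg hpi, if_pos h2, if_pos ⟨h1, h2⟩]
    · rw [if_pos h1, if_neg hpi, if_neg h2, if_neg fun h => h2 h.2]
  · rw [if_neg h1, if_neg fun h => h1 h.1]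

/-- **The paths of the sub-worlds of the union, unified form**. -/
theorem Ctx.paths (hS : SubW M N A i B j P Q t ζ πP πQ Z) :
    ∃ R K : ℝ, 0 ≤ R ∧ 0 ≤ K ∧ ∀ᶠ m in atTop, ∀ A' ⊆ supp P ∪ supp Q,
      (M m).ok A' N.T (Z m) ∧ ∀ p ∈ A', ∀ s ∈ Icc 0 N.T,
        (t + R * (M m).ε ≤ s → (M m).st A' s (Z m) p =
          (((M m).st (sub' P Q A' p) s (Z m) p).1 +
            ((M m).ε • kv N A i B j P Q t πP πQ (kick1 N.Φ ζ) A' p +
              (s - t) • kv N A i B j P Q t πP πQ (kick N.Φ ζ) A' p),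
            ((M m).st (sub' P Q A' p) s (Z m) p).2 +
              kv N A i B j P Q t πP πQ (kick N.Φ ζ) A' p)) ∧
        ‖((M m).st A' s (Z m) p).1 - (((M m).st (sub' P Q A' p) s (Z m) p).1 +
          max (s - t) 0 • kv N A i B j P Q t πP πQ (kick N.Φ ζ) A' p)‖ ≤ K * (M m).ε := by
  obtain ⟨R, K, hR, hK, hnew⟩ := hS.new
  refine ⟨R, K, hR, hK, ?_⟩
  filter_upwards [hS.old, hnew] with m hold hnew A' hA'
  have hKε : 0 ≤ K * (M m).ε := mul_nonneg hK (hC.eps_pos m).le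
  by_cases hm : N.mrg A i B j P Q t πP πQ A'
  · obtain ⟨hok, hst⟩ := hnew A' hA' hm
    refine ⟨hok, fun p hp s hs => ?_⟩
    obtain ⟨h1, h2, h3, h4, h5, h6⟩ := hst s hs
    rcases Finset.mem_union.1 (hA' hp) with hpP | hpQ
    · have hsub : sub' P Q A' p = A' ∩ supp P := if_pos hpP
      rw [hsub, hC.kv_left _ _ hpP, hC.kv_left _ _ hpP]
      by_cases hpi : p = i
      · rw [if_pos ⟨hm, hpi⟩, if_pos ⟨hm, hpi⟩]
        subst hpi
        exact ⟨fun h => (h4 h).1, h5⟩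
      · rw [if_neg fun h => hpi h.2, if_neg fun h => hpi h.2,
          h1 p (Finset.mem_inter.2 ⟨hp, hpP⟩) hpi]
        simp [hKε]
    · have hsub : sub' P Q A' p = A' ∩ supp Q := if_neg (hC.not_P hpQ)
      rw [hsub, hC.kv_right _ _ hpQ, hC.kv_right _ _ hpQ]
      by_cases hpj : p = j
      · rw [if_pos ⟨hm, hpj⟩, if_pos ⟨hm, hpj⟩]
        subst hpj
        refine ⟨fun h => ?_, ?_⟩
        · rw [(h4 h).2]
          ext1
          · show _ - _ = _ + _
            rw [smul_neg, smul_neg]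
            abel
          · show _ - _ = _ + _
            abel
        · rw [smul_neg, ← sub_eq_add_neg]
          exact h6
      · rw [if_neg fun h => hpj h.2, if_neg fun h => hpj h.2,
          h2 p (Finset.mem_inter.2 ⟨hp, hpQ⟩) hpj]
        simp [hKε]
  · obtain ⟨hok, hst⟩ := hold A' hA' hm
    refine ⟨hok, fun p hp s hs => ?_⟩
    obtain ⟨h1, h2⟩ := hst s hs
    have hkv : ∀ w : Space3, kv N A i B j P Q t πP πQ w A' p = 0 := fun w => if_neg hm
    rw [hkv, hkv]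
    have he : (M m).st A' s (Z m) p = (M m).st (sub' P Q A' p) s (Z m) p := by
      rcases Finset.mem_union.1 (hA' hp) with hpP | hpQ
      · have hsub : sub' P Q A' p = A' ∩ supp P := if_pos hpP
        rw [hsub]
        exact h1 p (Finset.mem_inter.2 ⟨hp, hpP⟩)
      · have hsub : sub' P Q A' p = A' ∩ supp Q := if_neg (hC.not_P hpQ)
        rw [hsub]
        exact h2 p (Finset.mem_inter.2 ⟨hp, hpQ⟩)
    rw [he]
    simp [hKε]

omit hC in
theorem tendsto_eps (hH : Hyp M N Bd) (R : ℝ) {a t : ℝ} (h : a < t) :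
    ∀ᶠ m in atTop, a + R * (M m).ε ≤ t := by
  have h1 : Tendsto (fun m => a + R * (M m).ε) atTop (𝓝 (a + R * 0)) :=
    tendsto_const_nhds.add (hH.eps.const_mul R)
  rw [mul_zero, add_zero] at h1
  exact (h1.eventually (gt_mem_nhds h)).mono fun m hm => hm.le

/-- The parts move on lines after `t`. -/
theorem Ctx.line_old : ∀ᶠ m in atTop, ∀ A' ⊆ supp P ∪ supp Q, ∀ p ∈ A', N.o ≠ some p →
    ∀ s ∈ Icc t N.T, (M m).st (sub' P Q A' p) s (Z m) p =
      (((M m).st (sub' P Q A' p) N.T (Z m) p).1 -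
        (N.T - s) • ((Zl p).2 + (Dold N P Q πP πQ A' p).2),
        (Zl p).2 + (Dold N P Q πP πQ A' p).2) := by
  obtain ⟨RP, hRP⟩ := hC.iP.line
  obtain ⟨RQ, hRQ⟩ := hC.iQ.line
  filter_upwards [hRP, hRQ, tendsto_eps hC.H RP (tlast_lt P πP hC.t0 hC.oP),
    tendsto_eps hC.H RQ (tlast_lt Q πQ hC.t0 hC.oQ)] with m h1 h2 h3 h4 A' hA' p hp ho s hs
  rcases Finset.mem_union.1 (hA' hp) with hpP | hpQ
  · have hsub : sub' P Q A' p = A' ∩ supp P := if_pos hpP
    have hD : Dold N P Q πP πQ A' p = N.D P πP (A' ∩ supp P) p := if_pos hpP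
    rw [hsub, hD]
    exact h1 _ Finset.inter_subset_right p (Finset.mem_inter.2 ⟨hp, hpP⟩) ho s
      ⟨h3.trans hs.1, hs.2⟩
  · have hsub : sub' P Q A' p = A' ∩ supp Q := if_neg (hC.not_P hpQ)
    have hD : Dold N P Q πP πQ A' p = N.D Q πQ (A' ∩ supp Q) p := if_neg (hC.not_P hpQ)
    rw [hsub, hD]
    exact h2 _ Finset.inter_subset_right p (Finset.mem_inter.2 ⟨hp, hpQ⟩) ho s
      ⟨h4.trans hs.1, hs.2⟩

/-- Equal old displacements give equal old paths after `t`. -/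
theorem Ctx.eqv_old : ∀ᶠ m in atTop, ∀ A₁ ⊆ supp P ∪ supp Q, ∀ A₂ ⊆ supp P ∪ supp Q,
    ∀ p ∈ A₁, p ∈ A₂ → N.o ≠ some p → Dold N P Q πP πQ A₁ p = Dold N P Q πP πQ A₂ p →
    ∀ s ∈ Icc t N.T, (M m).st (sub' P Q A₁ p) s (Z m) p =
      (M m).st (sub' P Q A₂ p) s (Z m) p := by
  obtain ⟨RP, hRP⟩ := hC.iP.eqv
  obtain ⟨RQ, hRQ⟩ := hC.iQ.eqv
  filter_upwards [hRP, hRQ, tendsto_eps hC.H RP (tlast_lt P πP hC.t0 hC.oP),
    tendsto_eps hC.H RQ (tlast_lt Q πQ hC.t0 hC.oQ)]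
    with m h1 h2 h3 h4 A₁ hA₁ A₂ hA₂ p hp₁ hp₂ ho hD s hs
  rcases Finset.mem_union.1 (hA₁ hp₁) with hpP | hpQ
  · unfold sub'
    unfold Dold at hD
    rw [if_pos hpP, if_pos hpP] at hD
    rw [if_pos hpP, if_pos hpP]
    exact h1 _ Finset.inter_subset_right _ Finset.inter_subset_right p
      (Finset.mem_inter.2 ⟨hp₁, hpP⟩) (Finset.mem_inter.2 ⟨hp₂, hpP⟩) ho hD s
      ⟨h3.trans hs.1, hs.2⟩
  · have hpP := hC.not_P hpQ
    unfold sub'
    unfold Dold at hD
    rw [if_neg hpP, if_neg hpP] at hD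
    rw [if_neg hpP, if_neg hpP]
    exact h2 _ Finset.inter_subset_right _ Finset.inter_subset_right p
      (Finset.mem_inter.2 ⟨hp₁, hpQ⟩) (Finset.mem_inter.2 ⟨hp₂, hpQ⟩) ho hD s
      ⟨h4.trans hs.1, hs.2⟩

/-- Equal displacements: equal old displacements and equal kicks. -/
theorem Ctx.kv_eq {A₁ A₂ : Finset J} (hA₁ : A₁ ⊆ supp P ∪ supp Q) (hA₂ : A₂ ⊆ supp P ∪ supp Q)
    {p : J} (hp₁ : p ∈ A₁) (hp₂ : p ∈ A₂)
    (hD : N.D (node A k i B l j P Q) ((t, ζ), πP, πQ) A₁ p =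
      N.D (node A k i B l j P Q) ((t, ζ), πP, πQ) A₂ p) :
    Dold N P Q πP πQ A₁ p = Dold N P Q πP πQ A₂ p ∧
      kv N A i B j P Q t πP πQ (kick N.Φ ζ) A₁ p = kv N A i B j P Q t πP πQ (kick N.Φ ζ) A₂ p ∧
      kv N A i B j P Q t πP πQ (kick1 N.Φ ζ) A₁ p =
        kv N A i B j P Q t πP πQ (kick1 N.Φ ζ) A₂ p := by
  -- if the kick vanishes, there is nothing to prove
  have hzero : N.real i j t → kick N.Φ ζ = 0 → kick1 N.Φ ζ = 0 := fun hr h => by
    unfold kick1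
    rw [(hC.G.N5 hr).2.2 h, sub_self, smul_zero]
  have hreal : ∀ A' : Finset J, N.mrg A i B j P Q t πP πQ A' → N.real i j t := fun _ h => h.1
  rw [D_kv, D_kv] at hD
  -- it suffices to compare the kicks by `kick`
  have key : (kv N A i B j P Q t πP πQ (kick N.Φ ζ) A₁ p =
      kv N A i B j P Q t πP πQ (kick N.Φ ζ) A₂ p ∧
      kv N A i B j P Q t πP πQ (kick1 N.Φ ζ) A₁ p =
        kv N A i B j P Q t πP πQ (kick1 N.Φ ζ) A₂ p) := by
    -- a mixed situation is impossible if the kick does not vanish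
    have mixed : ∀ A₁ A₂ : Finset J, A₁ ⊆ supp P ∪ supp Q → A₂ ⊆ supp P ∪ supp Q → p ∈ A₁ →
        p ∈ A₂ → N.mrg A i B j P Q t πP πQ A₁ → ¬ N.mrg A i B j P Q t πP πQ A₂ →
        Dold N P Q πP πQ A₁ p + (-(t • kv N A i B j P Q t πP πQ (kick N.Φ ζ) A₁ p),
          kv N A i B j P Q t πP πQ (kick N.Φ ζ) A₁ p) =
        Dold N P Q πP πQ A₂ p + (-(t • kv N A i B j P Q t πP πQ (kick N.Φ ζ) A₂ p),
          kv N A i B j P Q t πP πQ (kick N.Φ ζ) A₂ p) →
        kv N A i B j P Q t πP πQ (kick N.Φ ζ) A₁ p = 0 ∧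
          kv N A i B j P Q t πP πQ (kick1 N.Φ ζ) A₁ p = 0 := by
      intro A₁ A₂ hA₁ hA₂ hp₁ hp₂ hm₁ hm₂ hE
      have hr := hreal A₁ hm₁
      by_cases hk : kick N.Φ ζ = 0
      · have hk1 := hzero hr hk
        unfold kv
        rw [hk, hk1]
        simp
      have hkv2 : ∀ w, kv N A i B j P Q t πP πQ w A₂ p = 0 := fun w => if_neg hm₂
      rw [hkv2, smul_zero, neg_zero] at hE
      have hD2 : Dold N P Q πP πQ A₂ p + ((0 : Space3), (0 : Space3)) =
          Dold N P Q πP πQ A₂ p := add_zero _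
      rw [hD2] at hE
      rcases Finset.mem_union.1 (hA₁ hp₁) with hpP | hpQ
      · rw [hC.kv_left _ _ hpP, hC.kv_left _ _ hpP]
        rw [hC.kv_left _ _ hpP] at hE
        by_cases hpi : p = i
        · exfalso
          rw [if_pos ⟨hm₁, hpi⟩] at hE
          unfold Dold at hE
          rw [if_pos hpP, if_pos hpP] at hE
          subst hpi
          rw [hm₁.2.2.2.1] at hE
          exact hC.G.N7P hr hk _ Finset.inter_subset_right
            (Finset.mem_inter.2 ⟨hp₂, hpP⟩) hE.symm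
        · rw [if_neg fun h => hpi h.2, if_neg fun h => hpi h.2]
          exact ⟨rfl, rfl⟩
      · rw [hC.kv_right _ _ hpQ, hC.kv_right _ _ hpQ]
        rw [hC.kv_right _ _ hpQ] at hE
        by_cases hpj : p = j
        · exfalso
          rw [if_pos ⟨hm₁, hpj⟩] at hE
          unfold Dold at hE
          rw [if_neg (hC.not_P hpQ), if_neg (hC.not_P hpQ)] at hE
          subst hpj
          rw [hm₁.2.2.2.2, smul_neg, neg_neg] at hE
          exact hC.G.N7Q hr hk _ Finset.inter_subset_right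
            (Finset.mem_inter.2 ⟨hp₂, hpQ⟩) hE.symm
        · rw [if_neg fun h => hpj h.2, if_neg fun h => hpj h.2]
          exact ⟨rfl, rfl⟩
    by_cases hm₁ : N.mrg A i B j P Q t πP πQ A₁
    · by_cases hm₂ : N.mrg A i B j P Q t πP πQ A₂
      · unfold kv
        rw [if_pos hm₁, if_pos hm₂, if_pos hm₁, if_pos hm₂]
        exact ⟨rfl, rfl⟩
      · obtain ⟨h1, h2⟩ := mixed A₁ A₂ hA₁ hA₂ hp₁ hp₂ hm₁ hm₂ hD
        rw [h1, h2]
        unfold kv
        rw [if_neg hm₂, if_neg hm₂]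
        exact ⟨rfl, rfl⟩
    · by_cases hm₂ : N.mrg A i B j P Q t πP πQ A₂
      · obtain ⟨h1, h2⟩ := mixed A₂ A₁ hA₂ hA₁ hp₂ hp₁ hm₂ hm₁ hD.symm
        rw [h1, h2]
        unfold kv
        rw [if_neg hm₁, if_neg hm₁]
        exact ⟨rfl, rfl⟩
      · unfold kv
        rw [if_neg hm₁, if_neg hm₂, if_neg hm₁, if_neg hm₂]
        exact ⟨rfl, rfl⟩
  refine ⟨?_, key⟩
  rw [key.1] at hD
  exact add_right_cancel hD

/-! ### The fields -/

theorem Ctx.vel' : ∀ᶠ m in atTop, ∀ p ∈ supp (node A k i B l j P Q), (Z m p).2 = (Zl p).2 := by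
  filter_upwards [hC.iP.vel, hC.iQ.vel] with m h1 h2 p hp
  rcases Finset.mem_union.1 (show p ∈ supp P ∪ supp Q from hp) with h | h
  · exact h1 p h
  · exact h2 p h

theorem Ctx.posn' : ∀ p ∈ supp (node A k i B l j P Q),
    Tendsto (fun m => (Z m p).1) atTop (𝓝 (Zl p).1) := by
  intro p hp
  rcases Finset.mem_union.1 (show p ∈ supp P ∪ supp Q from hp) with h | h
  · exact hC.iP.posn p h
  · exact hC.iQ.posn p h

theorem Ctx.ok' (hS : SubW M N A i B j P Q t ζ πP πQ Z) :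
    ∀ᶠ m in atTop, ∀ A' ⊆ supp (node A k i B l j P Q), (M m).ok A' N.T (Z m) := by
  obtain ⟨R, K, hR, hK, h⟩ := hC.paths hS
  filter_upwards [h] with m hm A' hA'
  exact (hm A' hA').1

theorem Ctx.line' (hS : SubW M N A i B j P Q t ζ πP πQ Z) :
    ∃ R : ℝ, ∀ᶠ m in atTop, ∀ A' ⊆ supp (node A k i B l j P Q), ∀ p ∈ A', N.o ≠ some p →
      ∀ s ∈ Icc (tlast (node A k i B l j P Q) ((t, ζ), πP, πQ) + R * (M m).ε) N.T,
      (M m).st A' s (Z m) p =
        (((M m).st A' N.T (Z m) p).1 - (N.T - s) •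
          ((Zl p).2 + (N.D (node A k i B l j P Q) ((t, ζ), πP, πQ) A' p).2),
          (Zl p).2 + (N.D (node A k i B l j P Q) ((t, ζ), πP, πQ) A' p).2) := by
  obtain ⟨R, K, hR, hK, h⟩ := hC.paths hS
  refine ⟨R, ?_⟩
  filter_upwards [h, hC.line_old, tendsto_eps hC.H R hC.tT] with m hm hl hmT A' hA' p hp ho s hs
  have hs1 : t + R * (M m).ε ≤ s := hs.1
  have hRε : 0 ≤ R * (M m).ε := mul_nonneg hR (hC.eps_pos m).le
  have hts : t ≤ s := by linarith
  have hs0 : 0 ≤ s := hC.t0.le.trans hts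
  have hT0 : 0 ≤ N.T := hs0.trans hs.2
  have h1 := ((hm A' hA').2 p hp s ⟨hs0, hs.2⟩).1 hs1
  have h2 := ((hm A' hA').2 p hp N.T ⟨hT0, le_rfl⟩).1 hmT
  have h3 := hl A' hA' p hp ho s ⟨hts, hs.2⟩
  rw [h1, h2, h3, D_kv]
  ext1
  · show _ = (_ + _) - (N.T - s) • ((Zl p).2 + ((Dold N P Q πP πQ A' p).2 + _))
    module
  · show _ + _ + _ = (Zl p).2 + ((Dold N P Q πP πQ A' p).2 + _)
    rw [add_assoc]

theorem Ctx.eqv' (hS : SubW M N A i B j P Q t ζ πP πQ Z) :
    ∃ R : ℝ, ∀ᶠ m in atTop, ∀ A₁ ⊆ supp (node A k i B l j P Q),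
      ∀ A₂ ⊆ supp (node A k i B l j P Q), ∀ p ∈ A₁, p ∈ A₂ → N.o ≠ some p →
      N.D (node A k i B l j P Q) ((t, ζ), πP, πQ) A₁ p =
        N.D (node A k i B l j P Q) ((t, ζ), πP, πQ) A₂ p →
      ∀ s ∈ Icc (tlast (node A k i B l j P Q) ((t, ζ), πP, πQ) + R * (M m).ε) N.T,
        (M m).st A₁ s (Z m) p = (M m).st A₂ s (Z m) p := by
  obtain ⟨R, K, hR, hK, h⟩ := hC.paths hS
  refine ⟨R, ?_⟩
  filter_upwards [h, hC.eqv_old] with m hm he A₁ hA₁ A₂ hA₂ p hp₁ hp₂ ho hD s hs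
  have hs1 : t + R * (M m).ε ≤ s := hs.1
  have hRε : 0 ≤ R * (M m).ε := mul_nonneg hR (hC.eps_pos m).le
  have hts : t ≤ s := by linarith
  have hs0 : 0 ≤ s := hC.t0.le.trans hts
  obtain ⟨hd, hk, hk1⟩ := hC.kv_eq hA₁ hA₂ hp₁ hp₂ hD
  rw [((hm A₁ hA₁).2 p hp₁ s ⟨hs0, hs.2⟩).1 hs1, ((hm A₂ hA₂).2 p hp₂ s ⟨hs0, hs.2⟩).1 hs1,
    he A₁ hA₁ A₂ hA₂ p hp₁ hp₂ ho hd s ⟨hts, hs.2⟩, hk, hk1]

theorem Ctx.conv' (hS : SubW M N A i B j P Q t ζ πP πQ Z) :
    ∀ A' ⊆ supp (node A k i B l j P Q), ∀ k', ∀ p ∈ A',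
      TendstoUniformlyOn (fun m s => (M m).pos A' k' s (Z m) p)
        (fun s => N.Gam (node A k i B l j P Q) ((t, ζ), πP, πQ) A' k' s Zl p) atTop
        (Icc 0 N.T) := by
  intro A' hA' k' p hp
  obtain ⟨R, K, hR, hK, h⟩ := hC.paths hS
  -- the part
  have hold : TendstoUniformlyOn (fun m s => (M m).pos (sub' P Q A' p) k' s (Z m) p)
      (fun s => if p ∈ supp P then N.Gam P πP (A' ∩ supp P) k' s Zl p
        else N.Gam Q πQ (A' ∩ supp Q) k' s Zl p) atTop (Icc 0 N.T) := by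
    rcases Finset.mem_union.1 (hA' hp) with hpP | hpQ
    · have hsub : sub' P Q A' p = A' ∩ supp P := if_pos hpP
      simp only [hsub, if_pos hpP]
      exact hC.iP.conv _ Finset.inter_subset_right k' p (Finset.mem_inter.2 ⟨hp, hpP⟩)
    · have hsub : sub' P Q A' p = A' ∩ supp Q := if_neg (hC.not_P hpQ)
      simp only [hsub, if_neg (hC.not_P hpQ)]
      exact hC.iQ.conv _ Finset.inter_subset_right k' p (Finset.mem_inter.2 ⟨hp, hpQ⟩)
  rw [Metric.tendstoUniformlyOn_iff] at hold ⊢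
  intro δ hδ
  have hKε : ∀ᶠ m in atTop, K * (M m).ε < δ / 2 := by
    have h1 : Tendsto (fun m => K * (M m).ε) atTop (𝓝 (K * 0)) := hC.H.eps.const_mul K
    rw [mul_zero] at h1
    exact h1.eventually (gt_mem_nhds (half_pos hδ))
  filter_upwards [hold (δ / 2) (half_pos hδ), h, hKε] with m h1 h2 h3 s hs
  have h1s := h1 s hs
  rw [Gam_kv]
  by_cases ho : N.o = some p
  · rw [kv_zero_of_o ho, smul_zero, add_zero]
    have hpos : (M m).pos A' k' s (Z m) p = (M m).pos (sub' P Q A' p) k' s (Z m) p := by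
      unfold VSys.pos
      have ho' : (M m).o = some p := by rw [(hC.H.eq m).2.2.1]; exact ho
      rw [if_pos ho', if_pos ho']
    rw [hpos]
    linarith
  · have ho' : (M m).o ≠ some p := by rw [(hC.H.eq m).2.2.1]; exact ho
    have hpos : (M m).pos A' k' s (Z m) p = ((M m).st A' s (Z m) p).1 := if_neg ho'
    have hpos' : (M m).pos (sub' P Q A' p) k' s (Z m) p =
        ((M m).st (sub' P Q A' p) s (Z m) p).1 := if_neg ho'
    rw [hpos'] at h1s
    rw [hpos]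
    have h4 := ((h2 A' hA').2 p hp s hs).2
    set G := (if p ∈ supp P then N.Gam P πP (A' ∩ supp P) k' s Zl p
        else N.Gam Q πQ (A' ∩ supp Q) k' s Zl p) with hG
    set w := max (s - t) 0 • kv N A i B j P Q t πP πQ (kick N.Φ ζ) A' p with hw
    set y := ((M m).st (sub' P Q A' p) s (Z m) p).1 with hy
    set x := ((M m).st A' s (Z m) p).1 with hx
    have h5 : dist (G + w) (y + w) = dist G y := dist_add_right _ _ _
    have h6 : dist (y + w) x ≤ K * (M m).ε := by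
      rw [dist_comm, dist_eq_norm]; exact h4
    calc dist (G + w) x ≤ dist (G + w) (y + w) + dist (y + w) x := dist_triangle _ _ _
      _ < δ := by rw [h5]; linarith

end nodeF

end Crest.Agent.R122.VL581
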