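import Crest.Agent.R122.VLNode1_581
import Crest.Agent.R122.VLInstC_442

/-!
# Row 122, block D3 (helper399): the sub-worlds of a node without interaction

`Ctx.subW_old`: the field `old` of `SubW` : if the two touching particles do not interact in the
sub-world `A'`, then its paths are those of the two parts.
-/

set_option autoImplicit false
set_option linter.unusedSectionVars false

open MeasureTheory Set Filter Topology
open scoped ENNReal NNReal
open Crest.AnalysisR.Kinetic
open Crest.Agent.R122.Ins45 Crest.Agent.R122.GIV566 Crest.Agent.R122.VLPar823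
open Crest.Agent.R122.VLPar823.MTree
open Crest.Agent.R122.VLcore564 Crest.Agent.R122.VLInst442

noncomputable section

namespace Crest.Agent.R122.VL581

open scoped Classical

variable {J κ : Type} [Fintype J] [Fintype κ] {M : ℕ → VSys J κ} {N : VSys J κ} {Bd : Set ℝ}
  {A : Finset J} {k : κ} {i : J} {B : Finset J} {l : κ} {j : J} {P Q : MTree J κ} {t : ℝ}
  {ζ : Space3 × Space3} {πP : Par P} {πQ : Par Q} {Z : ℕ → J → PhasePoint} {Zl : J → PhasePoint}

theorem Ctx.subW_old (c : Ctx M N Bd A k i B l j P Q t ζ πP πQ Z Zl) :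
    ∀ᶠ m in atTop, ∀ A' ⊆ supp P ∪ supp Q, ¬ N.mrg A i B j P Q t πP πQ A' →
      (M m).ok A' N.T (Z m) ∧ ∀ s ∈ Icc 0 N.T,
        (∀ p ∈ A' ∩ supp P, (M m).st A' s (Z m) p = (M m).st (A' ∩ supp P) s (Z m) p) ∧
        (∀ q ∈ A' ∩ supp Q, (M m).st A' s (Z m) q = (M m).st (A' ∩ supp Q) s (Z m) q) := by
  obtain ⟨δ, V, w⟩ := c.exists_win
  obtain ⟨R, hR0, hR⟩ := c.crossX w 1
  have hlate : ∀ p : J, t < N.bb p → ∀ᶠ m in atTop, t + R * (M m).ε < (M m).bb p := by
    intro p hp
    have h1 : Tendsto (fun m => (M m).bb p - R * (M m).ε) atTop (𝓝 (N.bb p - R * 0)) :=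
      (c.H.bb p).sub (c.H.eps.const_mul R)
    rw [mul_zero, sub_zero] at h1
    filter_upwards [h1.eventually (lt_mem_nhds hp)] with m hm
    linarith
  have hi : ∀ᶠ m in atTop, t < N.bb i → t + R * (M m).ε < (M m).bb i := by
    by_cases h : t < N.bb i
    · exact (hlate i h).mono fun m hm _ => hm
    · exact Eventually.of_forall fun m h' => absurd h' h
  have hj : ∀ᶠ m in atTop, t < N.bb j → t + R * (M m).ε < (M m).bb j := by
    by_cases h : t < N.bb j
    · exact (hlate j h).mono fun m hm _ => hm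
    · exact Eventually.of_forall fun m h' => absurd h' h
  filter_upwards [hR, hi, hj, c.iP.ok, c.iQ.ok] with m h1 h2 h3 h4 h5 A' hA' hm
  have hΦ : AdmissiblePotential (M m).Φ := by rw [c.H.hΦ]; exact c.H.adm
  have hε := c.H.epos m
  set A₁ := A' ∩ supp P with hA₁
  set A₂ := A' ∩ supp Q with hA₂
  have hd : Disjoint A₁ A₂ := Finset.disjoint_of_subset_left Finset.inter_subset_right
    (Finset.disjoint_of_subset_right Finset.inter_subset_right c.wf.1)
  have hun : A₁ ∪ A₂ = A' := by
    rw [hA₁, hA₂, ← Finset.inter_union_distrib_left]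
    exact Finset.inter_eq_left.2 hA'
  have hok₁ : (M m).ok A₁ N.T (Z m) := h4 A₁ Finset.inter_subset_right
  have hok₂ : (M m).ok A₂ N.T (Z m) := h5 A₂ Finset.inter_subset_right
  have hfar : ∀ s ∈ Ico 0 N.T, ∀ p ∈ A₁, ∀ q ∈ A₂, (M m).o ≠ some p → (M m).o ≠ some q →
      (M m).bb p ≤ s → (M m).bb q ≤ s →
      (M m).ε < dist ((M m).st A₁ s (Z m) p).1 ((M m).st A₂ s (Z m) q).1 := by
    intro s hs p hp q hq hop hoq hbp hbq
    by_contra hcon
    rw [not_lt] at hcon
    have hact : (M m).act k p s := fun h => absurd h hop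
    have hdist : dist ((M m).pos A₁ k s (Z m) p) ((M m).pos A₂ l s (Z m) q) ≤ 1 * (M m).ε := by
      rw [pos_particle hop, pos_particle hoq, one_mul]
      exact hcon
    obtain ⟨hE1, hE2, hst⟩ := h1 A₁ Finset.inter_subset_right A₂ Finset.inter_subset_right k l
      p hp q hq s ⟨hs.1, hs.2.le⟩ hact hdist
    have hpi : p = i := hE1.1
    have hqj : q = j := hE2.1
    rw [hpi] at hp hop hbp
    rw [hqj] at hq hoq hbq
    rw [c.H.ho m] at hop hoq
    apply hm
    have hs' : s ≤ t + R * (M m).ε := by linarith [(abs_le.1 hst).2]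
    refine ⟨⟨hop, hoq, ?_, ?_⟩, (Finset.mem_inter.1 hp).1, (Finset.mem_inter.1 hq).1,
      hE1.2.2 hop, hE2.2.2 hoq⟩
    · rcases lt_or_gt_of_ne (c.G.tbb i) with h | h
      · exact absurd (hbp.trans hs') (not_le.2 (h2 h))
      · exact h
    · rcases lt_or_gt_of_ne (c.G.tbb j) with h | h
      · exact absurd (hbq.trans hs') (not_le.2 (h3 h))
      · exact h
  have hok := ok_union hΦ hε hd hok₁ hok₂ hfar
  have hst := st_union hΦ hε hd hok₁ hok₂ fun s hs p hp q hq ho ho' hb hb' =>
    (hfar s hs p hp q hq ho ho' hb hb').le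
  rw [hun] at hok hst
  exact ⟨hok, fun s hs => hst s hs.2⟩

end Crest.Agent.R122.VL581

end
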