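import Mathlib
import Crest.Agent.R122.VLNode4_581
import Crest.Agent.R122.VLNodeO_399
import Crest.Agent.R122.VLNodeF_564
import Crest.Agent.R122.VLNodeC_564

/-!
# Row 122, block D3 (helper581): the node step
-/

set_option autoImplicit false

open MeasureTheory Set Filter Topology
open Crest.AnalysisR.Kinetic
open Crest.Agent.R122.VLPar823 Crest.Agent.R122.VLPar823.MTree

noncomputable section

namespace Crest.Agent.R122.VL581

/-- **Node step.** -/
theorem node_step {Φ : Space3 → ℝ} : NodeStep Φ := by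
  intro J κ _ _ M N Bd hN H A k i B l j P Q hW t ζ πP πQ Z Zl h0 hT hac hoP hoQ hG hIP hIQ hcP hcQ
    hrel
  have c : Ctx M N Bd A k i B l j P Q t ζ πP πQ Z Zl :=
    ⟨H, hW, h0, hT, hac, hoP, hoQ, hG, hIP, hIQ, hcP, hcQ, hrel⟩
  have hS : SubW M N A i B j P Q t ζ πP πQ Z := ⟨c.subW_old, c.subW_new⟩
  exact ⟨c.vel', c.posn', c.ok' hS, c.line' hS, c.eqv' hS, c.conv' hS, c.ct' hS⟩

end Crest.Agent.R122.VL581
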