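import Mathlib
import Crest.Prelude.Def_KineticLimit
import Crest.Agent.R122.Scat6_818

/-!
# Row 122, block VL: measure cores (helper564)

All estimates are for a fixed configuration of the two merging blocks, as functions of the relative
translation `y` and the relative boost `u`.

* `two_balls_exact`, `E1`: two ball constraints at two times;
* `far_point`, `far_pair`: contacts of two curves at two times at distance at least `η`;
* `sweep`, `sweep_boost`: sweep over an arbitrary set of times;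
* `window_one`, `window_sum`: the scaled relative phase point, `dy du = ε³ dξ dg`;
* `Iso`, `iso_ball_le`, `iso_curve_le`, `iso_small`: isotropic laws on `ℝ³` do not charge thin
  neighbourhoods of Lipschitz curves, apart from an atom at the origin;
* `rel0`, `Exi`, `box`: the scaled two-body problem.
-/

set_option autoImplicit false
set_option linter.unusedSectionVars false
open MeasureTheory Metric Set Filter
open scoped ENNReal NNReal Pointwise Topology
open Crest.AnalysisR.Kinetic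

namespace Crest.Agent.R122.VLcore564

section window

variable {E : Type*} [NormedAddCommGroup E] [NormedSpace ℝ E] [FiniteDimensional ℝ E]
  [MeasurableSpace E] [BorelSpace E]


/-- Two ball constraints on `(y, u)` at two different times. -/
theorem prod_two_balls (μ : Measure E) [μ.IsAddHaarMeasure] {s s' r r' : ℝ} (hs : s ≠ s')
    (c c' : E) :
    (μ.prod μ) {p : E × E | ‖p.1 + s • p.2 + c‖ ≤ r ∧ ‖p.1 + s' • p.2 + c'‖ ≤ r'} ≤
      μ (closedBall (0 : E) r) * μ (closedBall (0 : E) ((r + r') / |s' - s|)) := by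
  have hne : s' - s ≠ 0 := sub_ne_zero.mpr (Ne.symm hs)
  have hpos : 0 < |s' - s| := abs_pos.mpr hne
  set S : Set (E × E) := {p | ‖p.1 + s • p.2 + c‖ ≤ r ∧ ‖(s' - s) • p.2 + (c' - c)‖ ≤ r + r'} with hS
  have hsub : {p : E × E | ‖p.1 + s • p.2 + c‖ ≤ r ∧ ‖p.1 + s' • p.2 + c'‖ ≤ r'} ⊆ S := by
    rintro ⟨y, u⟩ ⟨h1, h2⟩
    refine ⟨h1, ?_⟩
    have : (s' - s) • u + (c' - c) = (y + s' • u + c') - (y + s • u + c) := by
      rw [sub_smul]; abel
    calc ‖(s' - s) • u + (c' - c)‖ = ‖(y + s' • u + c') - (y + s • u + c)‖ := by rw [this]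
      _ ≤ ‖y + s' • u + c'‖ + ‖y + s • u + c‖ := norm_sub_le _ _
      _ ≤ r + r' := by simp only at h1 h2; linarith
  have hSm : MeasurableSet S := by
    have h1 : IsClosed {p : E × E | ‖p.1 + s • p.2 + c‖ ≤ r} :=
      isClosed_le (by fun_prop) continuous_const
    have h2 : IsClosed {p : E × E | ‖(s' - s) • p.2 + (c' - c)‖ ≤ r + r'} :=
      isClosed_le (by fun_prop) continuous_const
    exact (h1.inter h2).measurableSet
  refine (measure_mono hsub).trans ?_
  rw [Measure.prod_apply_symm hSm]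
  have hslice : ∀ u : E, μ ((fun x : E => (x, u)) ⁻¹' S) ≤
      (closedBall ((s' - s)⁻¹ • (c - c')) ((r + r') / |s' - s|)).indicator
        (fun _ => μ (closedBall (0 : E) r)) u := by
    intro u
    by_cases hu : u ∈ closedBall ((s' - s)⁻¹ • (c - c')) ((r + r') / |s' - s|)
    · rw [indicator_of_mem hu]
      have : (fun x : E => (x, u)) ⁻¹' S ⊆ closedBall (-(s • u + c)) r := by
        intro x hx
        have h1 : ‖x + s • u + c‖ ≤ r := hx.1
        rw [mem_closedBall, dist_eq_norm, sub_neg_eq_add, ← add_assoc]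
        exact h1
      refine (measure_mono this).trans ?_
      rw [Measure.addHaar_closedBall_center μ (-(s • u + c))]
    · rw [indicator_of_notMem hu]
      have : (fun x : E => (x, u)) ⁻¹' S = ∅ := by
        ext x
        simp only [mem_preimage, mem_empty_iff_false, iff_false]
        intro hx
        apply hu
        have h2 : ‖(s' - s) • u + (c' - c)‖ ≤ r + r' := hx.2
        rw [mem_closedBall, dist_eq_norm, le_div_iff₀ hpos]
        have e : (s' - s) • u + (c' - c) = (s' - s) • (u - (s' - s)⁻¹ • (c - c')) := by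
          rw [smul_sub, smul_smul, mul_inv_cancel₀ hne, one_smul]; abel
        rw [e, norm_smul, Real.norm_eq_abs] at h2
        linarith [mul_comm |s' - s| ‖u - (s' - s)⁻¹ • (c - c')‖]
      rw [this, measure_empty]
  refine (lintegral_mono hslice).trans ?_
  rw [lintegral_indicator_const isClosed_closedBall.measurableSet,
    Measure.addHaar_closedBall_center μ ((s' - s)⁻¹ • (c - c'))]

theorem closedBall_mono_measure (μ : Measure E) {r r' : ℝ} (h : r ≤ r') :
    μ (closedBall (0 : E) r) ≤ μ (closedBall (0 : E) r') := measure_mono (closedBall_subset_closedBall h)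

/-- Rounding down to a grid. -/
theorem grid_exists {a b δ : ℝ} (hδ : 0 < δ) {s : ℝ} (hs : s ∈ Icc a b) :
    ∃ n ∈ Finset.range (⌊(b - a) / δ⌋₊ + 1), a + n * δ ∈ Icc a b ∧ a + n * δ ≤ s ∧
      s < a + n * δ + δ := by
  have h0 : 0 ≤ (s - a) / δ := div_nonneg (sub_nonneg.2 hs.1) hδ.le
  refine ⟨⌊(s - a) / δ⌋₊, ?_, ?_, ?_, ?_⟩
  · rw [Finset.mem_range, Nat.lt_succ_iff]
    exact Nat.floor_mono (div_le_div_of_nonneg_right (by linarith [hs.2]) hδ.le)
  · have h1 : (⌊(s - a) / δ⌋₊ : ℝ) ≤ (s - a) / δ := Nat.floor_le h0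
    rw [le_div_iff₀ hδ] at h1
    refine ⟨by nlinarith [Nat.cast_nonneg (α := ℝ) ⌊(s - a) / δ⌋₊], by linarith [hs.2]⟩
  · have h1 : (⌊(s - a) / δ⌋₊ : ℝ) ≤ (s - a) / δ := Nat.floor_le h0
    rw [le_div_iff₀ hδ] at h1
    linarith
  · have h1 : (s - a) / δ < ⌊(s - a) / δ⌋₊ + 1 := Nat.lt_floor_add_one _
    rw [div_lt_iff₀ hδ] at h1
    linarith

/-- Moving a contact to a nearby grid time. -/
theorem contact_move {V L δ r : ℝ} {D : ℝ → E} {y u : E} (hu : ‖u‖ ≤ V) {s t : ℝ}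
    (hst : |s - t| ≤ δ) (hL : 0 ≤ L) (hD : ‖D s - D t‖ ≤ L * |s - t|)
    (h : ‖y + s • u + D s‖ ≤ r) : ‖y + t • u + D t‖ ≤ r + δ * (V + L) := by
  have e : y + t • u + D t = (y + s • u + D s) - ((s - t) • u + (D s - D t)) := by
    rw [sub_smul]; abel
  have hV : 0 ≤ V := (norm_nonneg u).trans hu
  have h1 : ‖(s - t) • u‖ ≤ δ * V := by
    rw [norm_smul, Real.norm_eq_abs]
    exact mul_le_mul hst hu (norm_nonneg _) ((abs_nonneg _).trans hst)
  have h2 : ‖D s - D t‖ ≤ δ * L := hD.trans (by nlinarith [abs_nonneg (s - t)])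
  rw [e]
  calc ‖(y + s • u + D s) - ((s - t) • u + (D s - D t))‖
      ≤ ‖y + s • u + D s‖ + ‖(s - t) • u + (D s - D t)‖ := norm_sub_le _ _
    _ ≤ r + (‖(s - t) • u‖ + ‖D s - D t‖) := add_le_add h (norm_add_le _ _)
    _ ≤ r + δ * (V + L) := by linarith

/-- **Far point** (non-concentration for two different blocks): a contact within `r` at some time
`s`, and `y + s' u + c' = O(r')` at a fixed time `s'` with `|s' - s| ≥ η`. -/
theorem far_point (μ : Measure E) [μ.IsAddHaarMeasure] {V L a b η δ r r' s' : ℝ} (hδ : 0 < δ)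
    (hη : 2 * δ ≤ η) (hL : 0 ≤ L) {D : ℝ → E}
    (hD : ∀ s ∈ Icc a b, ∀ t ∈ Icc a b, ‖D s - D t‖ ≤ L * |s - t|) (c' : E) :
    (μ.prod μ) {p : E × E | ‖p.2‖ ≤ V ∧ (∃ s ∈ Icc a b, η ≤ |s' - s| ∧
        ‖p.1 + s • p.2 + D s‖ ≤ r) ∧ ‖p.1 + s' • p.2 + c'‖ ≤ r'} ≤
      (⌊(b - a) / δ⌋₊ + 1 : ℕ) * (μ (closedBall (0 : E) (r + δ * (V + L))) *
        μ (closedBall (0 : E) (2 * (r + δ * (V + L) + r') / η))) := by
  set N := ⌊(b - a) / δ⌋₊ + 1 with hN
  set R := r + δ * (V + L) with hR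
  have hηpos : 0 < η := by linarith
  by_cases hr' : r' < 0
  · have : {p : E × E | ‖p.2‖ ≤ V ∧ (∃ s ∈ Icc a b, η ≤ |s' - s| ∧
        ‖p.1 + s • p.2 + D s‖ ≤ r) ∧ ‖p.1 + s' • p.2 + c'‖ ≤ r'} = ∅ := by
      ext p
      simp only [mem_ofPred_eq, mem_empty_iff_false, iff_false]
      rintro ⟨_, _, h⟩
      linarith [norm_nonneg (p.1 + s' • p.2 + c')]
    rw [this, measure_empty]; exact bot_le
  push Not at hr'
  have hsub : {p : E × E | ‖p.2‖ ≤ V ∧ (∃ s ∈ Icc a b, η ≤ |s' - s| ∧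
        ‖p.1 + s • p.2 + D s‖ ≤ r) ∧ ‖p.1 + s' • p.2 + c'‖ ≤ r'} ⊆
      ⋃ n ∈ Finset.range N, {p : E × E | (a + n * δ ≠ s' ∧ η / 2 ≤ |s' - (a + n * δ)|) ∧
        ‖p.1 + (a + n * δ) • p.2 + D (a + n * δ)‖ ≤ R ∧ ‖p.1 + s' • p.2 + c'‖ ≤ r'} := by
    rintro p ⟨hu, ⟨s, hs, hss, hc⟩, hc'⟩
    obtain ⟨n, hn, htI, ht1, ht2⟩ := grid_exists hδ hs
    simp only [mem_iUnion, exists_prop]
    have hst : |s - (a + n * δ)| ≤ δ := by rw [abs_le]; constructor <;> linarith
    have h3 : η / 2 ≤ |s' - (a + n * δ)| := by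
      have h4 : |s' - s| ≤ |s' - (a + n * δ)| + |s - (a + n * δ)| := by
        have : s' - s = (s' - (a + n * δ)) - (s - (a + n * δ)) := by ring
        rw [this]; exact abs_sub _ _
      linarith
    refine ⟨n, hn, ⟨?_, h3⟩, contact_move hu hst hL (hD s hs _ htI) hc, hc'⟩
    intro he
    rw [he, sub_self, abs_zero] at h3
    linarith
  refine (measure_mono hsub).trans ((measure_biUnion_finset_le _ _).trans ?_)
  have hbd : ∀ n ∈ Finset.range N, (μ.prod μ) {p : E × E |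
      (a + n * δ ≠ s' ∧ η / 2 ≤ |s' - (a + n * δ)|) ∧
        ‖p.1 + (a + n * δ) • p.2 + D (a + n * δ)‖ ≤ R ∧ ‖p.1 + s' • p.2 + c'‖ ≤ r'} ≤
      μ (closedBall (0 : E) R) * μ (closedBall (0 : E) (2 * (R + r') / η)) := by
    intro n _
    by_cases hc : a + n * δ ≠ s' ∧ η / 2 ≤ |s' - (a + n * δ)|
    · by_cases hR0 : R < 0
      · have : {p : E × E | (a + n * δ ≠ s' ∧ η / 2 ≤ |s' - (a + n * δ)|) ∧
            ‖p.1 + (a + n * δ) • p.2 + D (a + n * δ)‖ ≤ R ∧ ‖p.1 + s' • p.2 + c'‖ ≤ r'} = ∅ := by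
          ext p
          simp only [mem_ofPred_eq, mem_empty_iff_false, iff_false]
          rintro ⟨_, h, _⟩
          linarith [norm_nonneg (p.1 + (a + n * δ) • p.2 + D (a + n * δ))]
        rw [this, measure_empty]; exact bot_le
      push Not at hR0
      calc (μ.prod μ) {p : E × E | (a + n * δ ≠ s' ∧ η / 2 ≤ |s' - (a + n * δ)|) ∧
            ‖p.1 + (a + n * δ) • p.2 + D (a + n * δ)‖ ≤ R ∧ ‖p.1 + s' • p.2 + c'‖ ≤ r'}
          ≤ (μ.prod μ) {p : E × E | ‖p.1 + (a + n * δ) • p.2 + D (a + n * δ)‖ ≤ R ∧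
              ‖p.1 + s' • p.2 + c'‖ ≤ r'} := measure_mono fun p hp => hp.2
        _ ≤ μ (closedBall (0 : E) R) * μ (closedBall (0 : E) ((R + r') / |s' - (a + n * δ)|)) :=
            prod_two_balls μ hc.1 _ _
        _ ≤ μ (closedBall (0 : E) R) * μ (closedBall (0 : E) (2 * (R + r') / η)) := by
            have h5 : 0 < |s' - (a + n * δ)| := by linarith [hc.2]
            refine mul_le_mul' le_rfl (measure_mono (closedBall_subset_closedBall ?_))
            rw [div_le_div_iff₀ h5 hηpos]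
            nlinarith [hc.2, add_nonneg hR0 hr']
    · have : {p : E × E | (a + n * δ ≠ s' ∧ η / 2 ≤ |s' - (a + n * δ)|) ∧
            ‖p.1 + (a + n * δ) • p.2 + D (a + n * δ)‖ ≤ R ∧ ‖p.1 + s' • p.2 + c'‖ ≤ r'} = ∅ := by
        ext p
        simp only [mem_ofPred_eq, mem_empty_iff_false, iff_false]
        rintro ⟨h, _⟩
        exact hc h
      rw [this, measure_empty]; exact bot_le
  refine (Finset.sum_le_sum hbd).trans ?_
  rw [Finset.sum_const, Finset.card_range, nsmul_eq_mul]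

/-- **Far pair**: contacts of two (possibly different) difference curves at two times at distance
at least `η`. -/
theorem far_pair (μ : Measure E) [μ.IsAddHaarMeasure] {V L a b η δ r r' : ℝ} (hδ : 0 < δ)
    (hη : 4 * δ ≤ η) (hL : 0 ≤ L) {D D' : ℝ → E}
    (hD : ∀ s ∈ Icc a b, ∀ t ∈ Icc a b, ‖D s - D t‖ ≤ L * |s - t|)
    (hD' : ∀ s ∈ Icc a b, ∀ t ∈ Icc a b, ‖D' s - D' t‖ ≤ L * |s - t|) :
    (μ.prod μ) {p : E × E | ‖p.2‖ ≤ V ∧ ∃ s ∈ Icc a b, ∃ s' ∈ Icc a b, η ≤ |s' - s| ∧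
        ‖p.1 + s • p.2 + D s‖ ≤ r ∧ ‖p.1 + s' • p.2 + D' s'‖ ≤ r'} ≤
      (⌊(b - a) / δ⌋₊ + 1 : ℕ) * ((⌊(b - a) / δ⌋₊ + 1 : ℕ) *
        (μ (closedBall (0 : E) (r + δ * (V + L))) *
        μ (closedBall (0 : E) (4 * (r + r' + 2 * (δ * (V + L))) / η)))) := by
  set N := ⌊(b - a) / δ⌋₊ + 1 with hN
  have hηpos : 0 < η := by linarith
  have hsub : {p : E × E | ‖p.2‖ ≤ V ∧ ∃ s ∈ Icc a b, ∃ s' ∈ Icc a b, η ≤ |s' - s| ∧
        ‖p.1 + s • p.2 + D s‖ ≤ r ∧ ‖p.1 + s' • p.2 + D' s'‖ ≤ r'} ⊆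
      ⋃ n ∈ Finset.range N, {p : E × E | ‖p.2‖ ≤ V ∧ (∃ s ∈ Icc a b, η / 2 ≤ |(a + n * δ) - s| ∧
        ‖p.1 + s • p.2 + D s‖ ≤ r) ∧
          ‖p.1 + (a + n * δ) • p.2 + D' (a + n * δ)‖ ≤ r' + δ * (V + L)} := by
    rintro p ⟨hu, s, hs, s', hs', hss, hc, hc'⟩
    obtain ⟨n, hn, htI, ht1, ht2⟩ := grid_exists hδ hs'
    simp only [mem_iUnion, exists_prop]
    have hst : |s' - (a + n * δ)| ≤ δ := by rw [abs_le]; constructor <;> linarith
    refine ⟨n, hn, hu, ⟨s, hs, ?_, hc⟩, contact_move hu hst hL (hD' s' hs' _ htI) hc'⟩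
    have h4 : |s' - s| ≤ |s' - (a + n * δ)| + |(a + n * δ) - s| := by
      have : s' - s = (s' - (a + n * δ)) + ((a + n * δ) - s) := by ring
      rw [this]; exact abs_add_le _ _
    linarith
  refine (measure_mono hsub).trans ((measure_biUnion_finset_le _ _).trans ?_)
  have hbd : ∀ n ∈ Finset.range N, (μ.prod μ) {p : E × E | ‖p.2‖ ≤ V ∧
      (∃ s ∈ Icc a b, η / 2 ≤ |(a + n * δ) - s| ∧ ‖p.1 + s • p.2 + D s‖ ≤ r) ∧
          ‖p.1 + (a + n * δ) • p.2 + D' (a + n * δ)‖ ≤ r' + δ * (V + L)} ≤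
      (N : ℕ) * (μ (closedBall (0 : E) (r + δ * (V + L))) *
        μ (closedBall (0 : E) (4 * (r + r' + 2 * (δ * (V + L))) / η))) := by
    intro n _
    have h := far_point μ (V := V) (L := L) (a := a) (b := b) (η := η / 2) (δ := δ) (r := r)
      (r' := r' + δ * (V + L)) (s' := a + n * δ) hδ (by linarith) hL hD (D' (a + n * δ))
    refine h.trans (le_of_eq ?_)
    have e : 2 * (r + δ * (V + L) + (r' + δ * (V + L))) / (η / 2) =
        4 * (r + r' + 2 * (δ * (V + L))) / η := by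
      field_simp; ring
    rw [e]
  refine (Finset.sum_le_sum hbd).trans ?_
  rw [Finset.sum_const, Finset.card_range, nsmul_eq_mul]

/-- **Sweep over an arbitrary time set**: the set of translations `y` for which the curve `D` comes
within `r` of `-y` at some time of `B`. -/
theorem sweep (μ : Measure E) [μ.IsAddHaarMeasure] {L δ r : ℝ} (hδ : 0 < δ) (hL : 0 ≤ L)
    {D : ℝ → E} {B : Set ℝ} (hD : ∀ s ∈ B, ∀ t ∈ B, ‖D s - D t‖ ≤ L * |s - t|) :
    ENNReal.ofReal δ * μ {y : E | ∃ s ∈ B, ‖y + D s‖ ≤ r} ≤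
      volume (Metric.thickening δ B) * μ (closedBall (0 : E) (r + L * δ)) := by
  classical
  set J : Set ℤ := {n | (Ico (n * δ) (n * δ + δ) ∩ B).Nonempty} with hJ
  have hch : ∀ n : J, ∃ t, t ∈ Ico ((n : ℤ) * δ) ((n : ℤ) * δ + δ) ∩ B := fun n => n.2
  choose t ht using hch
  have hcell : ∀ s : ℝ, s ∈ Ico (⌊s / δ⌋ * δ) (⌊s / δ⌋ * δ + δ) := by
    intro s
    have h1 := Int.floor_le (s / δ)
    have h2 := Int.lt_floor_add_one (s / δ)
    rw [le_div_iff₀ hδ] at h1
    rw [div_lt_iff₀ hδ] at h2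
    exact ⟨h1, by linarith⟩
  have hsub : {y : E | ∃ s ∈ B, ‖y + D s‖ ≤ r} ⊆ ⋃ n : J, closedBall (-(D (t n))) (r + L * δ) := by
    rintro y ⟨s, hs, hy⟩
    have hn : ⌊s / δ⌋ ∈ J := ⟨s, hcell s, hs⟩
    refine mem_iUnion.2 ⟨⟨_, hn⟩, ?_⟩
    have htn := ht ⟨_, hn⟩
    have hst : |s - t ⟨_, hn⟩| ≤ δ := by
      have h1 := hcell s
      have h2 := htn.1
      rw [abs_le]
      constructor
      · linarith [h1.1, h2.2]
      · linarith [h1.2, h2.1]
    rw [mem_closedBall, dist_eq_norm, sub_neg_eq_add]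
    calc ‖y + D (t ⟨_, hn⟩)‖ = ‖(y + D s) - (D s - D (t ⟨_, hn⟩))‖ := by congr 1; abel
      _ ≤ ‖y + D s‖ + ‖D s - D (t ⟨_, hn⟩)‖ := norm_sub_le _ _
      _ ≤ r + L * δ := by
        refine add_le_add hy ((hD s hs _ htn.2).trans ?_)
        exact mul_le_mul_of_nonneg_left hst hL
  have hthick : (⋃ n : J, Ico (((n : ℤ) : ℝ) * δ) ((n : ℤ) * δ + δ)) ⊆ Metric.thickening δ B := by
    intro s hs
    obtain ⟨n, hn⟩ := mem_iUnion.1 hs
    refine Metric.mem_thickening_iff.2 ⟨t n, (ht n).2, ?_⟩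
    have h2 := (ht n).1
    rw [Real.dist_eq, abs_lt]
    constructor
    · linarith [hn.1, h2.2]
    · linarith [hn.2, h2.1]
  have hdis : Pairwise (Function.onFun Disjoint fun n : J =>
      Ico (((n : ℤ) : ℝ) * δ) ((n : ℤ) * δ + δ)) := by
    intro n m hnm
    rw [Function.onFun, Set.disjoint_left]
    intro s h1 h2
    apply hnm
    apply Subtype.ext
    have e1 : ⌊s / δ⌋ = (n : ℤ) := by
      rw [Int.floor_eq_iff, le_div_iff₀ hδ, div_lt_iff₀ hδ]
      exact ⟨h1.1, by linarith [h1.2]⟩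
    have e2 : ⌊s / δ⌋ = (m : ℤ) := by
      rw [Int.floor_eq_iff, le_div_iff₀ hδ, div_lt_iff₀ hδ]
      exact ⟨h2.1, by linarith [h2.2]⟩
    rw [← e1, e2]
  calc ENNReal.ofReal δ * μ {y : E | ∃ s ∈ B, ‖y + D s‖ ≤ r}
      ≤ ENNReal.ofReal δ * ∑' n : J, μ (closedBall (-(D (t n))) (r + L * δ)) := by
        gcongr
        exact (measure_mono hsub).trans (measure_iUnion_le _)
    _ = ENNReal.ofReal δ * ∑' _ : J, μ (closedBall (0 : E) (r + L * δ)) := by
        congr 1
        exact tsum_congr fun n => Measure.addHaar_closedBall_center μ _ _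
    _ = (∑' _ : J, ENNReal.ofReal δ) * μ (closedBall (0 : E) (r + L * δ)) := by
        rw [← ENNReal.tsum_mul_left, ← ENNReal.tsum_mul_right]
    _ ≤ volume (Metric.thickening δ B) * μ (closedBall (0 : E) (r + L * δ)) := by
        gcongr
        calc (∑' _ : J, ENNReal.ofReal δ)
            = ∑' n : J, volume (Ico (((n : ℤ) : ℝ) * δ) ((n : ℤ) * δ + δ)) := by
              refine tsum_congr fun n => ?_
              rw [Real.volume_Ico]; congr 1; ring
          _ = volume (⋃ n : J, Ico (((n : ℤ) : ℝ) * δ) ((n : ℤ) * δ + δ)) :=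
              (measure_iUnion hdis fun _ => measurableSet_Ico).symm
          _ ≤ _ := measure_mono hthick

/-- Sweep with a boost: for each fixed `u`. -/
theorem sweep_boost (μ : Measure E) [μ.IsAddHaarMeasure] {V L δ r : ℝ} (hδ : 0 < δ) (hL : 0 ≤ L)
    {D : ℝ → E} {B : Set ℝ} (hD : ∀ s ∈ B, ∀ t ∈ B, ‖D s - D t‖ ≤ L * |s - t|) {u : E}
    (hu : ‖u‖ ≤ V) :
    ENNReal.ofReal δ * μ {y : E | ∃ s ∈ B, ‖y + s • u + D s‖ ≤ r} ≤
      volume (Metric.thickening δ B) * μ (closedBall (0 : E) (r + (L + V) * δ)) := by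
  have hV : 0 ≤ V := (norm_nonneg u).trans hu
  have h := sweep μ (L := L + V) (r := r) hδ (add_nonneg hL hV) (D := fun s => s • u + D s) (B := B)
    (fun s hs t ht => ?_)
  · have e : {y : E | ∃ s ∈ B, ‖y + s • u + D s‖ ≤ r} =
        {y : E | ∃ s ∈ B, ‖y + (s • u + D s)‖ ≤ r} := by
      simp only [add_assoc]
    rw [e]; exact h
  · have e : (s • u + D s) - (t • u + D t) = (s - t) • u + (D s - D t) := by
      rw [sub_smul]; abel
    rw [e]
    calc ‖(s - t) • u + (D s - D t)‖ ≤ ‖(s - t) • u‖ + ‖D s - D t‖ := norm_add_le _ _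
      _ ≤ |s - t| * V + L * |s - t| := by
          refine add_le_add ?_ (hD s hs t ht)
          rw [norm_smul, Real.norm_eq_abs]
          exact mul_le_mul_of_nonneg_left hu (abs_nonneg _)
      _ = (L + V) * |s - t| := by ring


/-- **Window lemma** (one time): the relative phase point, scaled by `ε`, as a function of the
relative translation and boost. -/
theorem window_one (μ : Measure E) [μ.IsAddHaarMeasure] {ε : ℝ} (hε : 0 < ε) (d w : E) (t : ℝ)
    (N : Set (E × E)) :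
    (μ.prod μ) {p : E × E | (ε⁻¹ • (d - (p.1 + t • p.2)), w - p.2) ∈ N} ≤
      ENNReal.ofReal (ε ^ Module.finrank ℝ E) * (μ.prod μ) N := by
  set N' := toMeasurable (μ.prod μ) N with hN'
  have hNm : MeasurableSet N' := measurableSet_toMeasurable _ _
  have hfm : Measurable fun p : E × E => (ε⁻¹ • (d - (p.1 + t • p.2)), w - p.2) := by fun_prop
  have h1 : (μ.prod μ) {p : E × E | (ε⁻¹ • (d - (p.1 + t • p.2)), w - p.2) ∈ N} ≤
      (μ.prod μ) ((fun p : E × E => (ε⁻¹ • (d - (p.1 + t • p.2)), w - p.2)) ⁻¹' N') :=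
    measure_mono fun p hp => subset_toMeasurable _ _ hp
  refine h1.trans ?_
  rw [← measure_toMeasurable N, ← hN', Measure.prod_apply_symm (hfm hNm), Measure.prod_apply_symm hNm]
  have hslice : ∀ u : E, μ ((fun x : E => (x, u)) ⁻¹'
      ((fun p : E × E => (ε⁻¹ • (d - (p.1 + t • p.2)), w - p.2)) ⁻¹' N')) =
      ENNReal.ofReal (ε ^ Module.finrank ℝ E) * μ ((fun x : E => (x, w - u)) ⁻¹' N') := by
    intro u
    set M : Set E := (fun x : E => (x, w - u)) ⁻¹' N' with hM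
    have e : (fun x : E => (x, u)) ⁻¹'
        ((fun p : E × E => (ε⁻¹ • (d - (p.1 + t • p.2)), w - p.2)) ⁻¹' N') =
        (fun x : E => (d - t • u) - x) ⁻¹' ((fun x : E => ε⁻¹ • x) ⁻¹' M) := by
      ext x
      simp only [mem_preimage, hM]
      have : d - (x + t • u) = d - t • u - x := by abel
      rw [this]
    rw [e]
    have hMm : MeasurableSet M := by
      have : Measurable fun x : E => (x, w - u) := by fun_prop
      exact this hNm
    have hMm' : MeasurableSet ((fun x : E => ε⁻¹ • x) ⁻¹' M) := (measurable_const_smul ε⁻¹) hMm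
    rw [(MeasureTheory.Measure.measurePreserving_sub_left μ (d - t • u)).measure_preimage hMm'.nullMeasurableSet]
    rw [Measure.addHaar_preimage_smul μ (inv_ne_zero hε.ne')]
    congr 2
    rw [inv_pow, inv_inv, abs_of_nonneg (pow_nonneg hε.le _)]
  rw [lintegral_congr hslice, lintegral_const_mul' _ _ ENNReal.ofReal_ne_top]
  refine le_of_eq ?_
  congr 1
  exact lintegral_sub_left_eq_self (fun u => μ ((fun x : E => (x, u)) ⁻¹' N')) w

/-- **Window lemma** (finitely many times). -/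
theorem window_sum (μ : Measure E) [μ.IsAddHaarMeasure] {ε : ℝ} (hε : 0 < ε) {ι : Type*}
    (J : Finset ι) (d : ι → E) (w : E) (t : ι → ℝ) (N : ι → Set (E × E)) :
    (μ.prod μ) {p : E × E | ∃ k ∈ J, (ε⁻¹ • (d k - (p.1 + t k • p.2)), w - p.2) ∈ N k} ≤
      ∑ k ∈ J, ENNReal.ofReal (ε ^ Module.finrank ℝ E) * (μ.prod μ) (N k) := by
  have : {p : E × E | ∃ k ∈ J, (ε⁻¹ • (d k - (p.1 + t k • p.2)), w - p.2) ∈ N k} =
      ⋃ k ∈ J, {p : E × E | (ε⁻¹ • (d k - (p.1 + t k • p.2)), w - p.2) ∈ N k} := by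
    ext p; simp only [mem_ofPred_eq, mem_iUnion, exists_prop]
  rw [this]
  exact (measure_biUnion_finset_le _ _).trans
    (Finset.sum_le_sum fun k _ => window_one μ hε (d k) w (t k) (N k))

/-- Two ball constraints on `(y, u)` at two different times, sharp form. -/
theorem two_balls_exact (μ : Measure E) [μ.IsAddHaarMeasure] {s s' r r' : ℝ} (hs : s ≠ s')
    (c c' : E) :
    (μ.prod μ) {p : E × E | ‖p.1 + s • p.2 - c‖ ≤ r ∧ ‖p.1 + s' • p.2 - c'‖ ≤ r'} ≤
      μ (closedBall (0 : E) r) * μ (closedBall (0 : E) (r' / |s' - s|)) := by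
  have hne : s' - s ≠ 0 := sub_ne_zero.mpr (Ne.symm hs)
  have hpos : 0 < |s' - s| := abs_pos.mpr hne
  set S : Set (E × E) := {p : E × E | ‖p.1 + s • p.2 - c‖ ≤ r ∧ ‖p.1 + s' • p.2 - c'‖ ≤ r'} with hS
  set S' : Set (E × E) := {p : E × E | ‖p.1 - c‖ ≤ r ∧ ‖p.1 + (s' - s) • p.2 - c'‖ ≤ r'} with hS'
  have hSm : MeasurableSet S := by
    have h1 : IsClosed {p : E × E | ‖p.1 + s • p.2 - c‖ ≤ r} :=
      isClosed_le (by fun_prop) continuous_const
    have h2 : IsClosed {p : E × E | ‖p.1 + s' • p.2 - c'‖ ≤ r'} :=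
      isClosed_le (by fun_prop) continuous_const
    exact (h1.inter h2).measurableSet
  have hSm' : MeasurableSet S' := by
    have h1 : IsClosed {p : E × E | ‖p.1 - c‖ ≤ r} :=
      isClosed_le (by fun_prop) continuous_const
    have h2 : IsClosed {p : E × E | ‖p.1 + (s' - s) • p.2 - c'‖ ≤ r'} :=
      isClosed_le (by fun_prop) continuous_const
    exact (h1.inter h2).measurableSet
  have h1 : (μ.prod μ) S = (μ.prod μ) S' := by
    rw [Measure.prod_apply_symm hSm, Measure.prod_apply_symm hSm']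
    refine lintegral_congr fun u => ?_
    have e : (fun x : E => (x, u)) ⁻¹' S = (fun x => x + s • u) ⁻¹' ((fun x : E => (x, u)) ⁻¹' S') := by
      ext x
      simp only [mem_preimage, hS, hS', mem_ofPred_eq]
      have : x + s • u + (s' - s) • u = x + s' • u := by rw [sub_smul]; abel
      rw [this]
    rw [e, measure_preimage_add_right]
  rw [h1, Measure.prod_apply hSm']
  have hslice : ∀ a : E, μ (Prod.mk a ⁻¹' S') ≤
      (closedBall c r).indicator (fun _ => μ (closedBall (0 : E) (r' / |s' - s|))) a := by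
    intro a
    by_cases ha : a ∈ closedBall c r
    · rw [indicator_of_mem ha]
      have : Prod.mk a ⁻¹' S' ⊆ closedBall ((s' - s)⁻¹ • (c' - a)) (r' / |s' - s|) := by
        intro u hu
        have h2 : ‖a + (s' - s) • u - c'‖ ≤ r' := hu.2
        rw [mem_closedBall, dist_eq_norm, le_div_iff₀ hpos]
        have e : a + (s' - s) • u - c' = (s' - s) • (u - (s' - s)⁻¹ • (c' - a)) := by
          rw [smul_sub, smul_smul, mul_inv_cancel₀ hne, one_smul]; abel
        rw [e, norm_smul, Real.norm_eq_abs] at h2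
        linarith [mul_comm |s' - s| ‖u - (s' - s)⁻¹ • (c' - a)‖]
      refine (measure_mono this).trans ?_
      rw [Measure.addHaar_closedBall_center μ ((s' - s)⁻¹ • (c' - a))]
    · rw [indicator_of_notMem ha]
      have : Prod.mk a ⁻¹' S' = ∅ := by
        ext u
        simp only [mem_preimage, mem_empty_iff_false, iff_false]
        intro hu
        apply ha
        have h2 : ‖a - c‖ ≤ r := hu.1
        rwa [mem_closedBall, dist_eq_norm]
      rw [this, measure_empty]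
  refine (lintegral_mono hslice).trans ?_
  rw [lintegral_indicator_const isClosed_closedBall.measurableSet,
    Measure.addHaar_closedBall_center μ c, mul_comm]

end window

/-- **(E1)** in `ℝ³`. -/
theorem E1 {t t' r r' : ℝ} (ht : t ≠ t') (c c' : Space3) :
    volume {p : Space3 × Space3 | ‖p.1 + t • p.2 - c‖ ≤ r ∧ ‖p.1 + t' • p.2 - c'‖ ≤ r'} ≤
      volume (closedBall (0 : Space3) r) *
        (volume (closedBall (0 : Space3) r') / ENNReal.ofReal (|t' - t| ^ 3)) := by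
  have hne : t' - t ≠ 0 := sub_ne_zero.mpr (Ne.symm ht)
  have hpos : 0 < |t' - t| := abs_pos.mpr hne
  have h := two_balls_exact (volume : Measure Space3) (r := r) (r' := r') ht c c'
  rw [Measure.volume_eq_prod]
  refine h.trans (le_of_eq ?_)
  congr 1
  by_cases hr : 0 ≤ r'
  · have hfin : Module.finrank ℝ Space3 = 3 := by simp
    rw [Measure.addHaar_closedBall volume _ hr, Measure.addHaar_closedBall volume _ (by positivity),
      hfin, div_pow, ENNReal.ofReal_div_of_pos (by positivity)]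
    rw [ENNReal.div_eq_inv_mul, ENNReal.div_eq_inv_mul, mul_assoc]
  · have hr' : r' < 0 := not_le.1 hr
    rw [closedBall_eq_empty.2 hr', closedBall_eq_empty.2 (div_neg_of_neg_of_pos hr' hpos)]
    simp

/-! ### Isotropic laws -/

/-- Two vectors of the same norm are exchanged by a linear isometry. -/
theorem exists_isometry {x y : Space3} (h : ‖x‖ = ‖y‖) : ∃ R : Space3 ≃ₗᵢ[ℝ] Space3, R x = y := by
  refine ⟨(ℝ ∙ (x - y))ᗮ.reflection, ?_⟩
  exact Submodule.reflection_sub h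

/-- Isotropic measures. -/
def Iso (ν : Measure Space3) : Prop := ∀ R : Space3 ≃ₗᵢ[ℝ] Space3, ν.map R = ν

theorem iso_closedBall {ν : Measure Space3} (h : Iso ν) (R : Space3 ≃ₗᵢ[ℝ] Space3) (c : Space3)
    (ρ : ℝ) : ν (closedBall (R c) ρ) = ν (closedBall c ρ) := by
  conv_lhs => rw [← h R]
  rw [Measure.map_apply R.continuous.measurable isClosed_closedBall.measurableSet]
  congr 1
  ext x
  simp only [mem_preimage, mem_closedBall, R.dist_map]

/-- Balls away from the origin have small mass for isotropic laws. -/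
theorem iso_ball_le {ν : Measure Space3} [IsFiniteMeasure ν] (h : Iso ν) {c : Space3} {ρ : ℝ}
    (hρ : 0 < ρ) (hc : ρ ≤ ‖c‖) :
    ν (closedBall c ρ) ≤ ENNReal.ofReal (4 / 3 * (ρ / ‖c‖) ^ 2) * ν univ := by
  set t := ‖c‖ with ht
  have htpos : 0 < t := hρ.trans_le hc
  have hcne : c ≠ 0 := norm_pos_iff.1 htpos
  set κ : ℝ≥0∞ := volume (ball (0 : Space3) 1) with hκ
  have hκ0 : κ ≠ 0 := (measure_ball_pos volume (0 : Space3) one_pos).ne'
  have hκt : κ ≠ ⊤ := measure_ball_lt_top.ne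
  have hfin : Module.finrank ℝ Space3 = 3 := by simp
  -- the shell
  set Sh : Set Space3 := closedBall 0 (t + ρ) \ ball 0 (t - ρ) with hSh
  have hShm : MeasurableSet Sh := measurableSet_closedBall.diff measurableSet_ball
  have hSh_vol : κ * ENNReal.ofReal (6 * t ^ 2 * ρ) ≤ volume Sh := by
    have h1 : volume (closedBall (0 : Space3) (t + ρ)) = ENNReal.ofReal ((t + ρ) ^ 3) * κ := by
      rw [Measure.addHaar_closedBall volume _ (by positivity), hfin]
    have h2 : volume (ball (0 : Space3) (t - ρ)) = ENNReal.ofReal ((t - ρ) ^ 3) * κ := by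
      rw [Measure.addHaar_ball volume _ (by linarith), hfin]
    have h3 : volume Sh = volume (closedBall (0 : Space3) (t + ρ)) -
        volume (ball (0 : Space3) (t - ρ)) := by
      rw [hSh]
      refine measure_sdiff ?_ measurableSet_ball.nullMeasurableSet measure_ball_lt_top.ne
      exact (ball_subset_closedBall).trans (closedBall_subset_closedBall (by linarith))
    rw [h3, h1, h2, ← ENNReal.sub_mul (fun _ _ => hκt), ← ENNReal.ofReal_sub _ (by
      have : 0 ≤ t - ρ := by linarith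
      positivity), mul_comm]
    gcongr
    nlinarith [pow_pos hρ 3]
  have hx : ∀ x ∈ Sh, ν (closedBall c ρ) ≤ ν (closedBall x (2 * ρ)) := by
    intro x hx
    have hx1 : ‖x‖ ≤ t + ρ := by simpa using hx.1
    have hx2 : t - ρ ≤ ‖x‖ := by
      have := hx.2
      simp only [mem_ball, dist_zero_right, not_lt] at this
      exact this
    -- the point on the ray of `c` with the norm of `x`
    have hn : ‖(‖x‖ / t) • c‖ = ‖x‖ := by
      rw [norm_smul, Real.norm_eq_abs, abs_of_nonneg (by positivity), ← ht]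
      field_simp
    obtain ⟨R, hR⟩ := exists_isometry hn
    rw [← hR, iso_closedBall h]
    refine measure_mono ?_
    refine closedBall_subset_closedBall' ?_
    have : dist c ((‖x‖ / t) • c) = |t - ‖x‖| := by
      rw [dist_eq_norm]
      have e : c - (‖x‖ / t) • c = ((t - ‖x‖) / t) • c := by
        rw [sub_div, div_self htpos.ne', sub_smul, one_smul]
      rw [e, norm_smul, Real.norm_eq_abs, abs_div, abs_of_pos htpos, ← ht]
      field_simp
    rw [this]
    have : |t - ‖x‖| ≤ ρ := by rw [abs_le]; constructor <;> linarith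
    linarith
  have hmeas : Measurable fun x : Space3 => ν (closedBall x (2 * ρ)) := by
    have hs : MeasurableSet {p : Space3 × Space3 | dist p.2 p.1 ≤ 2 * ρ} :=
      (isClosed_le (by fun_prop) continuous_const).measurableSet
    exact measurable_measure_prodMk_left hs
  have hint : ∫⁻ x : Space3, ν (closedBall x (2 * ρ)) =
      ν univ * (ENNReal.ofReal (8 * ρ ^ 3) * κ) := by
    have hs : MeasurableSet {p : Space3 × Space3 | dist p.2 p.1 ≤ 2 * ρ} :=
      (isClosed_le (by fun_prop) continuous_const).measurableSet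
    have h1 : ∫⁻ x : Space3, ν (closedBall x (2 * ρ)) =
        ((volume : Measure Space3).prod ν) {p : Space3 × Space3 | dist p.2 p.1 ≤ 2 * ρ} := by
      rw [Measure.prod_apply hs]; rfl
    rw [h1, Measure.prod_apply_symm hs]
    have h2 : ∀ y : Space3, volume ((fun x : Space3 => (x, y)) ⁻¹'
        {p : Space3 × Space3 | dist p.2 p.1 ≤ 2 * ρ}) = ENNReal.ofReal (8 * ρ ^ 3) * κ := by
      intro y
      have e : (fun x : Space3 => (x, y)) ⁻¹' {p : Space3 × Space3 | dist p.2 p.1 ≤ 2 * ρ} =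
          closedBall y (2 * ρ) := by
        ext x
        simp only [mem_preimage, mem_ofPred_eq, mem_closedBall, dist_comm]
      rw [e, Measure.addHaar_closedBall volume _ (by positivity), hfin]
      congr 2
      ring
    rw [lintegral_congr h2, lintegral_const, mul_comm]
  have hmain : ν (closedBall c ρ) * (κ * ENNReal.ofReal (6 * t ^ 2 * ρ)) ≤
      ν univ * (ENNReal.ofReal (8 * ρ ^ 3) * κ) := by
    calc ν (closedBall c ρ) * (κ * ENNReal.ofReal (6 * t ^ 2 * ρ))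
        ≤ ν (closedBall c ρ) * volume Sh := by gcongr
      _ = ∫⁻ _ in Sh, ν (closedBall c ρ) := by rw [setLIntegral_const]
      _ ≤ ∫⁻ x in Sh, ν (closedBall x (2 * ρ)) := setLIntegral_mono hmeas hx
      _ ≤ ∫⁻ x : Space3, ν (closedBall x (2 * ρ)) := setLIntegral_le_lintegral _ _
      _ = _ := hint
  have h6 : 0 < 6 * t ^ 2 * ρ := by positivity
  have hfinal : ν (closedBall c ρ) * ENNReal.ofReal (6 * t ^ 2 * ρ) ≤
      ν univ * ENNReal.ofReal (8 * ρ ^ 3) := by
    have h7 : κ * (ν (closedBall c ρ) * ENNReal.ofReal (6 * t ^ 2 * ρ)) ≤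
        κ * (ν univ * ENNReal.ofReal (8 * ρ ^ 3)) := by
      calc κ * (ν (closedBall c ρ) * ENNReal.ofReal (6 * t ^ 2 * ρ))
          = ν (closedBall c ρ) * (κ * ENNReal.ofReal (6 * t ^ 2 * ρ)) := by ring
        _ ≤ ν univ * (ENNReal.ofReal (8 * ρ ^ 3) * κ) := hmain
        _ = _ := by ring
    exact (ENNReal.mul_le_mul_iff_right hκ0 hκt).1 h7
  have h8 : ν (closedBall c ρ) ≤ ν univ * ENNReal.ofReal (8 * ρ ^ 3) / ENNReal.ofReal (6 * t ^ 2 * ρ) := by
    rw [ENNReal.le_div_iff_mul_le (Or.inl (by positivity)) (Or.inl ENNReal.ofReal_ne_top)]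
    exact hfinal
  refine h8.trans (le_of_eq ?_)
  rw [mul_div_assoc, ← ENNReal.ofReal_div_of_pos h6, mul_comm]
  congr 2
  field_simp
  norm_num

/-- Neighbourhoods of Lipschitz curves have small mass away from the origin for isotropic laws. -/
theorem iso_curve_le {ν : Measure Space3} [IsFiniteMeasure ν] (h : Iso ν) {κ ρ L a b : ℝ}
    (hρ : 0 < ρ) (hκ : 4 * ρ ≤ κ) (hL : 0 ≤ L) (hab : a ≤ b) {c : ℝ → Space3}
    (hc : ∀ s ∈ Icc a b, ∀ t ∈ Icc a b, ‖c s - c t‖ ≤ L * |s - t|) :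
    ν {x | κ ≤ ‖x‖ ∧ ∃ s ∈ Icc a b, ‖x - c s‖ ≤ ρ} ≤
      ENNReal.ofReal (((b - a) * (L + 1) / ρ + 1) * (64 / 3 * (ρ / κ) ^ 2)) * ν univ := by
  have hκpos : 0 < κ := by linarith
  set δ := ρ / (L + 1) with hδ
  have hL1 : 0 < L + 1 := by linarith
  have hδpos : 0 < δ := div_pos hρ hL1
  have hLδ : L * δ ≤ ρ := by
    rw [hδ, mul_div_assoc', div_le_iff₀ hL1]; nlinarith
  set N := ⌊(b - a) / δ⌋₊ + 1 with hN
  have hsub : {x | κ ≤ ‖x‖ ∧ ∃ s ∈ Icc a b, ‖x - c s‖ ≤ ρ} ⊆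
      ⋃ n ∈ Finset.range N, {x | κ / 2 ≤ ‖c (a + n * δ)‖ ∧ x ∈ closedBall (c (a + n * δ)) (2 * ρ)} := by
    rintro x ⟨hx, s, hs, hxs⟩
    obtain ⟨n, hn, htI, ht1, ht2⟩ := grid_exists hδpos hs
    simp only [mem_iUnion, exists_prop]
    have hst : |s - (a + n * δ)| ≤ δ := by rw [abs_le]; constructor <;> linarith
    have h1 : ‖x - c (a + n * δ)‖ ≤ 2 * ρ := by
      calc ‖x - c (a + n * δ)‖ = ‖(x - c s) + (c s - c (a + n * δ))‖ := by congr 1; abel
        _ ≤ ‖x - c s‖ + ‖c s - c (a + n * δ)‖ := norm_add_le _ _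
        _ ≤ ρ + L * δ := add_le_add hxs ((hc s hs _ htI).trans (by gcongr))
        _ ≤ 2 * ρ := by linarith
    refine ⟨n, hn, ?_, ?_⟩
    · have h2 : ‖x‖ ≤ ‖x - c (a + n * δ)‖ + ‖c (a + n * δ)‖ := by
        calc ‖x‖ = ‖(x - c (a + n * δ)) + c (a + n * δ)‖ := by congr 1; abel
          _ ≤ _ := norm_add_le _ _
      linarith
    · rw [mem_closedBall, dist_eq_norm]; exact h1
  have hbd : ∀ n ∈ Finset.range N, ν {x | κ / 2 ≤ ‖c (a + n * δ)‖ ∧
      x ∈ closedBall (c (a + n * δ)) (2 * ρ)} ≤ ENNReal.ofReal (64 / 3 * (ρ / κ) ^ 2) * ν univ := by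
    intro n _
    by_cases hn : κ / 2 ≤ ‖c (a + n * δ)‖
    · calc ν {x | κ / 2 ≤ ‖c (a + n * δ)‖ ∧ x ∈ closedBall (c (a + n * δ)) (2 * ρ)}
          ≤ ν (closedBall (c (a + n * δ)) (2 * ρ)) := measure_mono fun x hx => hx.2
        _ ≤ ENNReal.ofReal (4 / 3 * (2 * ρ / ‖c (a + n * δ)‖) ^ 2) * ν univ :=
            iso_ball_le h (by linarith) (by linarith)
        _ ≤ ENNReal.ofReal (64 / 3 * (ρ / κ) ^ 2) * ν univ := by
            refine mul_le_mul' (ENNReal.ofReal_le_ofReal ?_) le_rfl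
            have h1 : 2 * ρ / ‖c (a + n * δ)‖ ≤ 4 * (ρ / κ) := by
              have e : 4 * (ρ / κ) = 4 * ρ / κ := by ring
              rw [e, div_le_div_iff₀ (by linarith) hκpos]
              nlinarith
            have h0 : 0 ≤ 2 * ρ / ‖c (a + n * δ)‖ := by positivity
            nlinarith
    · have : {x | κ / 2 ≤ ‖c (a + n * δ)‖ ∧ x ∈ closedBall (c (a + n * δ)) (2 * ρ)} = ∅ := by
        ext x
        simp only [mem_ofPred_eq, mem_empty_iff_false, iff_false]
        exact fun h => hn h.1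
      rw [this, measure_empty]; exact bot_le
  calc ν {x | κ ≤ ‖x‖ ∧ ∃ s ∈ Icc a b, ‖x - c s‖ ≤ ρ}
      ≤ ∑ n ∈ Finset.range N, ν {x | κ / 2 ≤ ‖c (a + n * δ)‖ ∧
          x ∈ closedBall (c (a + n * δ)) (2 * ρ)} :=
        (measure_mono hsub).trans (measure_biUnion_finset_le _ _)
    _ ≤ ∑ n ∈ Finset.range N, ENNReal.ofReal (64 / 3 * (ρ / κ) ^ 2) * ν univ :=
        Finset.sum_le_sum hbd
    _ = (N : ℝ≥0∞) * ENNReal.ofReal (64 / 3 * (ρ / κ) ^ 2) * ν univ := by
        rw [Finset.sum_const, Finset.card_range, nsmul_eq_mul, mul_assoc]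
    _ ≤ _ := by
        gcongr
        have h1 : (N : ℝ≥0∞) = ENNReal.ofReal (N : ℝ) := (ENNReal.ofReal_natCast N).symm
        rw [h1, ← ENNReal.ofReal_mul (Nat.cast_nonneg _)]
        apply ENNReal.ofReal_le_ofReal
        gcongr
        rw [hN]
        push_cast
        have h2 : (⌊(b - a) / δ⌋₊ : ℝ) ≤ (b - a) / δ :=
          Nat.floor_le (div_nonneg (by linarith) hδpos.le)
        have h3 : (b - a) / δ = (b - a) * (L + 1) / ρ := by
          rw [hδ, div_div_eq_mul_div]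
        linarith

/-- **Isotropic laws do not charge thin neighbourhoods of Lipschitz curves**, apart from an atom at
the origin. -/
theorem iso_small {ν : Measure Space3} [IsFiniteMeasure ν] (h : Iso ν) {θ : ℝ≥0∞} (hθ : θ ≠ 0)
    (L T : ℝ) (hL : 0 ≤ L) :
    ∃ ρ₀ : ℝ, 0 < ρ₀ ∧ ∀ (a b : ℝ) (c : ℝ → Space3), b - a ≤ T →
      (∀ s ∈ Icc a b, ∀ t ∈ Icc a b, ‖c s - c t‖ ≤ L * |s - t|) →
      ν {x | x ≠ 0 ∧ ∃ s ∈ Icc a b, ‖x - c s‖ ≤ ρ₀} ≤ θ := by
  -- small vectors
  have hθ2 : θ / 2 ≠ 0 := (ENNReal.half_pos hθ).ne'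
  obtain ⟨κ, hκ, hsmall⟩ : ∃ κ : ℝ, 0 < κ ∧ ν {x | x ≠ 0 ∧ ‖x‖ < κ} ≤ θ / 2 := by
    have hanti : Antitone fun n : ℕ => {x : Space3 | x ≠ 0 ∧ ‖x‖ < 1 / ((n : ℝ) + 1)} := by
      intro n m hnm x hx
      refine ⟨hx.1, hx.2.trans_le ?_⟩
      exact one_div_le_one_div_of_le (by positivity) (by simpa using hnm)
    have hinter : (⋂ n : ℕ, {x : Space3 | x ≠ 0 ∧ ‖x‖ < 1 / ((n : ℝ) + 1)}) = ∅ := by
      ext x
      simp only [mem_iInter, mem_ofPred_eq, mem_empty_iff_false, iff_false, not_forall]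
      by_cases hx : x = 0
      · exact ⟨0, fun h => h.1 hx⟩
      · obtain ⟨n, hn⟩ := exists_nat_one_div_lt (norm_pos_iff.2 hx)
        exact ⟨n, fun h => absurd h.2 (not_lt.2 hn.le)⟩
    have hlim := tendsto_measure_iInter_atTop (μ := ν)
      (s := fun n : ℕ => {x : Space3 | x ≠ 0 ∧ ‖x‖ < 1 / ((n : ℝ) + 1)})
      (fun n => ((measurableSet_singleton (0 : Space3)).compl.inter
        (isOpen_lt continuous_norm continuous_const).measurableSet).nullMeasurableSet) hanti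
      ⟨0, measure_ne_top ν _⟩
    rw [hinter, measure_empty] at hlim
    obtain ⟨n, hn⟩ := ((tendsto_order.1 hlim).2 (θ / 2) (pos_iff_ne_zero.2 hθ2)).exists
    exact ⟨1 / ((n : ℝ) + 1), by positivity, hn.le⟩
  -- the curve part
  have hlim : Tendsto (fun ρ : ℝ => ENNReal.ofReal ((T * (L + 1) / ρ + 1) *
      (64 / 3 * (ρ / κ) ^ 2)) * ν univ) (𝓝[>] 0) (𝓝 0) := by
    have h1 : Tendsto (fun ρ : ℝ => (T * (L + 1) * ρ + ρ ^ 2) * (64 / 3 / κ ^ 2)) (𝓝[>] 0) (𝓝 0) := by
      have : Tendsto (fun ρ : ℝ => (T * (L + 1) * ρ + ρ ^ 2) * (64 / 3 / κ ^ 2)) (𝓝 0)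
          (𝓝 ((T * (L + 1) * 0 + 0 ^ 2) * (64 / 3 / κ ^ 2))) :=
        (Continuous.tendsto (by fun_prop) 0)
      simp only [mul_zero, ne_eq, OfNat.ofNat_ne_zero, not_false_eq_true, zero_pow, add_zero,
        zero_mul] at this
      exact this.mono_left nhdsWithin_le_nhds
    have h2 : Tendsto (fun ρ : ℝ => (T * (L + 1) / ρ + 1) * (64 / 3 * (ρ / κ) ^ 2)) (𝓝[>] 0)
        (𝓝 0) := by
      refine h1.congr' ?_
      filter_upwards [self_mem_nhdsWithin] with ρ hρ
      have hρ' : ρ ≠ 0 := ne_of_gt hρ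
      field_simp
    have h3 := (ENNReal.tendsto_ofReal h2)
    rw [ENNReal.ofReal_zero] at h3
    have h4 := ENNReal.Tendsto.mul_const h3 (b := ν univ) (Or.inr (measure_ne_top ν _))
    rwa [zero_mul] at h4
  have hev := (tendsto_order.1 hlim).2 (θ / 2) (pos_iff_ne_zero.2 hθ2)
  have hev2 : ∀ᶠ ρ : ℝ in 𝓝[>] 0, 4 * ρ ≤ κ := by
    have : Tendsto (fun ρ : ℝ => 4 * ρ) (𝓝[>] 0) (𝓝 0) := by
      have : Tendsto (fun ρ : ℝ => 4 * ρ) (𝓝 0) (𝓝 (4 * 0)) := (Continuous.tendsto (by fun_prop) 0)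
      rw [mul_zero] at this
      exact this.mono_left nhdsWithin_le_nhds
    filter_upwards [(tendsto_order.1 this).2 κ hκ] with ρ hρ using hρ.le
  obtain ⟨ρ, hρ1, hρ2, hρ0⟩ := (hev.and (hev2.and self_mem_nhdsWithin)).exists
  refine ⟨ρ, hρ0, ?_⟩
  intro a b c hab hc
  by_cases hle : a ≤ b
  · have hsub : {x | x ≠ 0 ∧ ∃ s ∈ Icc a b, ‖x - c s‖ ≤ ρ} ⊆
        {x | x ≠ 0 ∧ ‖x‖ < κ} ∪ {x | κ ≤ ‖x‖ ∧ ∃ s ∈ Icc a b, ‖x - c s‖ ≤ ρ} := by
      rintro x ⟨hx0, hx⟩
      by_cases hxκ : ‖x‖ < κ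
      · exact Or.inl ⟨hx0, hxκ⟩
      · exact Or.inr ⟨not_lt.1 hxκ, hx⟩
    calc ν {x | x ≠ 0 ∧ ∃ s ∈ Icc a b, ‖x - c s‖ ≤ ρ}
        ≤ ν {x | x ≠ 0 ∧ ‖x‖ < κ} + ν {x | κ ≤ ‖x‖ ∧ ∃ s ∈ Icc a b, ‖x - c s‖ ≤ ρ} :=
          (measure_mono hsub).trans (measure_union_le _ _)
      _ ≤ θ / 2 + θ / 2 := by
          refine add_le_add hsmall ((iso_curve_le h hρ0 hρ2 hL hle hc).trans (le_trans ?_ hρ1.le))
          gcongr
      _ = θ := ENNReal.add_halves θ
  · have : {x | x ≠ 0 ∧ ∃ s ∈ Icc a b, ‖x - c s‖ ≤ ρ} = (∅ : Set Space3) := by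
      ext x
      simp only [mem_ofPred_eq, mem_empty_iff_false, iff_false]
      rintro ⟨_, s, hs, _⟩
      exact hle (hs.1.trans hs.2)
    rw [this, measure_empty]; exact bot_le

/-! ### The scaled two-body problem -/

open Scat818

/-- State at scaled time `R` of the relative motion whose incoming line is `z` (position at scaled
time `0`, velocity). -/
noncomputable def rel0 (Φ : Space3 → ℝ) (R : ℝ) (z : Space3 × Space3) : Space3 × Space3 :=
  relFlow Φ (2 * R) (z.1 - R • z.2, z.2)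

/-- Not yet entered at scaled time `-R` and exited at scaled time `R`. -/
def Exi (Φ : Space3 → ℝ) (R : ℝ) (z : Space3 × Space3) : Prop :=
  1 ≤ ‖z.1 - R • z.2‖ ∧ inner ℝ (z.1 - R • z.2) z.2 ≤ 0 ∧ 1 ≤ ‖(rel0 Φ R z).1‖ ∧
    0 ≤ inner ℝ (rel0 Φ R z).1 (rel0 Φ R z).2

/-- Bounded scaled states. -/
def box (C V : ℝ) : Set (Space3 × Space3) := closedBall 0 C ×ˢ closedBall 0 V

end Crest.Agent.R122.VLcore564
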