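import Crest.Agent.R122.VLdyn_564
import Crest.Agent.R122.VLout_564

/-!
# Row 122, block VL: gluing in worlds with births, hypotheses on the candidates only (helper564)

* `bglue`: a world with births is equal to a candidate path made of independent groups as long as
  the candidates of different groups stay at distance more than `ε` (alive ones), finite horizon;
* `bdcB_free`, `bdcB_pair`: free lines, free lines and one pair.
-/

set_option autoImplicit false
set_option linter.unusedSectionVars false
open MeasureTheory Metric Set Filter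
open scoped ENNReal NNReal Topology
open Crest.AnalysisR.Kinetic

noncomputable section

namespace Crest.Agent.R122.VLcore564

open Scat818 Flow671 Loc45 Ins45

variable {Φ : Space3 → ℝ} {ε : ℝ}

/-- Local step: for a short time after `x` nobody is born and distances vary little. -/
theorem local_window {ι : Type*} [Fintype ι] {X : ℝ → ι → PhasePoint} {b : ι → ℝ} {t₀ x : ℝ}
    (hc : ContinuousOn X (Ici t₀)) (hx : t₀ ≤ x) (p : ι → ι → Prop)
    (h : ∀ k l, p k l → b k ≤ x → b l ≤ x → ε < dist (X x k).1 (X x l).1) :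
    ∃ δ > 0, ∀ r ∈ Icc x (x + δ), (∀ k, b k ≤ r ↔ b k ≤ x) ∧
      ∀ k l, p k l → b k ≤ r → b l ≤ r → ε < dist (X r k).1 (X r l).1 := by
  have hcx : ContinuousWithinAt X (Ici x) x := (hc x hx).mono (Ici_subset_Ici.2 hx)
  have hpos : ∀ k, ContinuousWithinAt (fun r => (X r k).1) (Ici x) x := fun k =>
    ((continuousWithinAt_pi.1 hcx) k).fst
  have h1 : ∀ᶠ r in 𝓝[≥] x, ∀ k, (b k ≤ r ↔ b k ≤ x) := by
    rw [eventually_all]
    intro k
    by_cases hk : b k ≤ x
    · filter_upwards [self_mem_nhdsWithin] with r hr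
      exact ⟨fun _ => hk, fun _ => hk.trans hr⟩
    · have hk' : x < b k := not_le.1 hk
      filter_upwards [mem_nhdsWithin_of_mem_nhds (Iio_mem_nhds hk')] with r hr
      exact ⟨fun h' => absurd h' (not_le.2 hr), fun h' => absurd h' hk⟩
  have h2 : ∀ᶠ r in 𝓝[≥] x, ∀ k l, p k l → b k ≤ x → b l ≤ x →
      ε < dist (X r k).1 (X r l).1 := by
    rw [eventually_all]
    intro k
    rw [eventually_all]
    intro l
    by_cases hp : p k l ∧ b k ≤ x ∧ b l ≤ x
    · have h3 : Tendsto (fun r => dist (X r k).1 (X r l).1) (𝓝[≥] x)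
          (𝓝 (dist (X x k).1 (X x l).1)) := (hpos k).dist (hpos l)
      filter_upwards [(tendsto_order.1 h3).1 ε (h k l hp.1 hp.2.1 hp.2.2)] with r hr _ _ _
      exact hr
    · filter_upwards with r h3 h4 h5
      exact absurd ⟨h3, h4, h5⟩ hp
  obtain ⟨u, hu, hsub⟩ := mem_nhdsGE_iff_exists_Icc_subset.1 (h1.and h2)
  refine ⟨u - x, sub_pos.2 hu, fun r hr => ?_⟩
  have hr' : r ∈ Icc x u := ⟨hr.1, by linarith [hr.2]⟩
  obtain ⟨h3, h4⟩ := hsub hr'
  exact ⟨h3, fun k l hp hk hl => h4 k l hp ((h3 k).1 hk) ((h3 l).1 hl)⟩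

/-- **Gluing, finite horizon, hypotheses on the candidates only.**  `c` is the group of a particle;
the group `g` of the candidate path `Y` is, on the particles `k` of the group, a world with births
`Yg g` (over any index type containing the group).  As long as alive candidates of different groups
stay at distance more than `ε`, the world `X` started at time `a` from the candidate is the
candidate. -/
theorem bglue {ι : Type*} [Fintype ι] {γ : Type*} [DecidableEq γ] (hΦ : AdmissiblePotential Φ) (hε : 0 < ε)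
    {b : ι → ℝ} {t₀ a T : ℝ} {X : ℝ → ι → PhasePoint} (hX : BWorld Φ ε b t₀ X) (ha : t₀ ≤ a)
    (c : ι → γ) {Y : ℝ → ι → PhasePoint}
    (hY : ∀ g : γ, ∃ Yg : ℝ → {k // c k = g} → PhasePoint,
      BWorld Φ ε (fun k : {k // c k = g} => b k) a Yg ∧
        ∀ t ∈ Icc a T, ∀ k : {k // c k = g}, Yg t k = Y t k)
    (h0 : ∀ k, X a k = Y a k)
    (hfar : ∀ t ∈ Icc a T, ∀ k l, c k ≠ c l → b k ≤ t → b l ≤ t →
      ε < dist (Y t k).1 (Y t l).1) :
    ∀ t ∈ Icc a T, ∀ k, X t k = Y t k := by
  classical
  by_cases haT : a ≤ T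
  swap
  · intro t ht
    exact absurd (ht.1.trans ht.2) haT
  have hYc : ContinuousOn Y (Icc a T) := by
    refine continuousOn_pi.2 fun k => ?_
    obtain ⟨Yg, hYg, hEq⟩ := hY (c k)
    have h1 := (hYg.cont_apply ⟨k, rfl⟩).mono (fun t (ht : t ∈ Icc a T) => ht.1)
    exact h1.congr fun t ht => (hEq t ht ⟨k, rfl⟩).symm
  have hXc : ContinuousOn X (Icc a T) := hX.cont.mono fun t ht => ha.trans ht.1
  set S : Set ℝ := {t | ∀ k, X t k = Y t k} with hS
  have hclosed : IsClosed (S ∩ Icc a T) := by
    have h1 : S ∩ Icc a T = {t ∈ Icc a T | X t = Y t} := by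
      ext t
      simp only [hS, mem_inter_iff, mem_ofPred_eq, funext_iff, and_comm]
    rw [h1]
    have h2 := isClosed_Icc.isClosed_eq hXc hYc
    exact h2
  have hsub : Icc a T ⊆ S := by
    refine hclosed.Icc_subset_of_forall_exists_gt h0 ?_
    rintro x ⟨hxS, hxI⟩ y hy
    have hxS' : ∀ k, X x k = Y x k := hxS
    obtain ⟨δ, hδ, hwin⟩ := local_window (ε := ε) (b := b) hX.cont (ha.trans hxI.1)
      (fun k l => c k ≠ c l) (fun k l hp hk hl => by
        rw [hxS' k, hxS' l]
        exact hfar x ⟨hxI.1, hxI.2.le⟩ k l hp hk hl)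
    set u := min (min (x + δ) y) T with hu
    have hxu : x < u := lt_min (lt_min (by linarith) hy) hxI.2
    have hux : u ≤ x + δ := (min_le_left _ _).trans (min_le_left _ _)
    have huT : u ≤ T := min_le_right _ _
    refine ⟨u, ?_, hxu, (min_le_left _ _).trans (min_le_right _ _)⟩
    intro k
    obtain ⟨Yg, hYg, hEq⟩ := hY (c k)
    have hYa : ∀ t ∈ Icc a T, ∀ m : {m // c m = c k}, Yg t m = Y t m := hEq
    -- first: the group of `k` stays close to itself on `[x, u]`; second window for mixed distances
    have key := BWorld.agree hΦ hε hX hYg (μ := {m // c m = c k})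
      (e := fun m => (m : ι)) (f := fun m => m) Subtype.val_injective (fun _ _ h => h)
      (S := univ) (A := ∅) (a := x) (T := u) (ha.trans hxI.1) hxI.1
      (fun _ _ _ _ => Iff.rfl) (fun _ h => absurd h (notMem_empty _))
      (fun m _ => by
        rw [hxS' m, hYa x ⟨hxI.1, hxI.2.le⟩ m])
      (fun t ht m _ hbm l hbl hne => by
        have hcl : c (m : ι) ≠ c l := by
          intro h
          have : c l = c k := by rw [← h]; exact m.2
          exact hne ⟨l, this⟩ (Or.inl (mem_univ _)) rfl
        exact ((hwin t ⟨ht.1, (ht.2.le.trans hux)⟩).2 m l hcl hbm hbl).le)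
      (fun t ht m _ hbm l hbl hne => absurd rfl (hne l (Or.inl (mem_univ _))))
    have h1 := key ⟨k, rfl⟩ (mem_univ _) u ⟨hxu.le, le_rfl⟩
    have h2 := hYa u ⟨hxI.1.trans hxu.le, huT⟩ ⟨k, rfl⟩
    exact h1.trans h2
  intro t ht k
  exact hsub ht k

/-- At most one particle: free flight is a world with births. -/
theorem bworld_subsingleton {μ : Type*} [Fintype μ] [Subsingleton μ] (hΦ : AdmissiblePotential Φ)
    (β : μ → ℝ) (Z : μ → PhasePoint) (a : ℝ) :
    BWorld Φ ε β a (fun t k => fr (Z k) (t - a)) where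
  cont := by
    refine (continuous_pi fun k => ?_).continuousOn
    unfold fr
    fun_prop
  der t _ := by
    classical
    rw [hasDerivWithinAt_pi]
    intro k
    have h2 : bf Φ ε β t (fun k => fr (Z k) (t - a)) k = ((Z k).2, 0) := by
      unfold bf
      have hsum : ∑ j, (if β j ≤ t then
          gradient Φ ((1 / ε) • ((fr (Z k) (t - a)).1 - (fr (Z j) (t - a)).1)) else 0) = 0 := by
        refine Finset.sum_eq_zero fun j _ => ?_
        rw [Subsingleton.elim j k, sub_self, smul_zero, grad_origin hΦ, ite_self]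
      rw [hsum, smul_zero, ite_self]
      rfl
    rw [h2]
    unfold fr
    refine HasDerivAt.hasDerivWithinAt (HasDerivAt.prodMk ?_ (hasDerivAt_const _ _))
    have h3 := (((hasDerivAt_id t).sub_const a).smul_const (Z k).2).const_add (Z k).1
    simpa using h3
  dom t _ := Or.inr fun i j hij => absurd (Subsingleton.elim i j) hij

/-- **No pair**: candidates = free lines from time `a`. -/
theorem bdcB_free {ι : Type*} [Fintype ι] (hΦ : AdmissiblePotential Φ) (hε : 0 < ε)
    {b : ι → ℝ} {t₀ a T : ℝ} {X : ℝ → ι → PhasePoint} (hX : BWorld Φ ε b t₀ X) (ha : t₀ ≤ a)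
    (hfar : ∀ t ∈ Icc a T, ∀ k l, k ≠ l → b k ≤ t → b l ≤ t →
      ε < dist (fr (X a k) (t - a)).1 (fr (X a l) (t - a)).1) :
    ∀ t ∈ Icc a T, ∀ k, X t k = fr (X a k) (t - a) := by
  classical
  refine bglue hΦ hε hX ha (fun k : ι => some k) (Y := fun t k => fr (X a k) (t - a)) ?_ ?_
    (fun t ht k l hkl => hfar t ht k l fun h => hkl (congrArg some h))
  · intro g
    have : Subsingleton {k : ι // some k = g} :=
      ⟨fun x y => Subtype.ext (Option.some.inj (x.2.trans y.2.symm))⟩
    exact ⟨_, bworld_subsingleton hΦ _ (fun k : {k : ι // some k = g} => X a k) a,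
      fun t _ k => rfl⟩
  · intro k
    unfold fr
    simp

/-- **Pair**: candidates = two-body motion of `i`, `j` (born before `a`), free lines for the
others. -/
theorem bdcB_pair {ι : Type*} [Fintype ι] (hΦ : AdmissiblePotential Φ) (hε : 0 < ε)
    {b : ι → ℝ} {t₀ a T : ℝ} {X : ℝ → ι → PhasePoint} (hX : BWorld Φ ε b t₀ X) (ha : t₀ ≤ a)
    {i j : ι} (hij : i ≠ j) (hbi : b i ≤ a) (hbj : b j ≤ a)
    (hrest : ∀ t ∈ Icc a T, ∀ k l, k ≠ i → k ≠ j → l ≠ i → l ≠ j → k ≠ l → b k ≤ t → b l ≤ t →
      ε < dist (fr (X a k) (t - a)).1 (fr (X a l) (t - a)).1)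
    (hcross : ∀ t ∈ Icc a T, ∀ k, k ≠ i → k ≠ j → b k ≤ t →
      ε < dist (pp Φ ε (X a i) (X a j) (t - a)).1.1 (fr (X a k) (t - a)).1 ∧
      ε < dist (pp Φ ε (X a i) (X a j) (t - a)).2.1 (fr (X a k) (t - a)).1) :
    ∀ t ∈ Icc a T, X t i = (pp Φ ε (X a i) (X a j) (t - a)).1 ∧
      X t j = (pp Φ ε (X a i) (X a j) (t - a)).2 ∧
      ∀ k, k ≠ i → k ≠ j → X t k = fr (X a k) (t - a) := by
  classical
  set c : ι → Option ι := fun k => if k = i ∨ k = j then none else some k with hc
  have hci : c i = none := by simp [hc]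
  have hcj : c j = none := by simp [hc]
  have hck : ∀ k, k ≠ i → k ≠ j → c k = some k := by
    intro k h1 h2
    simp [hc, h1, h2]
  have hnone : ∀ k, c k = none → k = i ∨ k = j := by
    intro k hk
    by_contra h
    simp only [hc, if_neg h] at hk
    exact absurd hk (by simp)
  set Y : ℝ → ι → PhasePoint := fun t k =>
    if k = i then (pp Φ ε (X a i) (X a j) (t - a)).1 else
      if k = j then (pp Φ ε (X a i) (X a j) (t - a)).2 else fr (X a k) (t - a) with hYdef
  have hYi : ∀ t, Y t i = (pp Φ ε (X a i) (X a j) (t - a)).1 := fun t => by simp [hYdef]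
  have hYj : ∀ t, Y t j = (pp Φ ε (X a i) (X a j) (t - a)).2 := fun t => by
    simp [hYdef, hij.symm]
  have hYk : ∀ t k, k ≠ i → k ≠ j → Y t k = fr (X a k) (t - a) := fun t k h1 h2 => by
    simp [hYdef, h1, h2]
  have hreg : Reg Φ ((X a i).1 - (X a j).1) := by
    rcases hX.dom a ha with h | h
    · exact Or.inr h
    · exact Or.inl (sub_ne_zero.2 (h i j hij hbi hbj))
  -- the pair world
  set P : Type _ := {k // c k = none} with hP
  set i' : P := ⟨i, hci⟩ with hi'
  set j' : P := ⟨j, hcj⟩ with hj'
  have hij' : i' ≠ j' := fun h => hij (congrArg Subtype.val h)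
  have htwo : ∀ k : P, k = i' ∨ k = j' := by
    rintro ⟨k, hk⟩
    rcases hnone k hk with rfl | rfl
    · exact Or.inl rfl
    · exact Or.inr rfl
  set Z : P → PhasePoint := fun k => X a k with hZ
  have hflow : ∀ s, flow Φ ε s Z i' = (pp Φ ε (X a i) (X a j) s).1 ∧
      flow Φ ε s Z j' = (pp Φ ε (X a i) (X a j) s).2 := by
    intro s
    have h := flow_pair hΦ hε hij' htwo (Z := Z) hreg s
    rw [h, pairConf_left, pairConf_right ε hij'.symm]
    exact ⟨rfl, rfl⟩
  have hD : Z ∈ Dom Φ P := dom_of_reg htwo hreg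
  have hWorld : World Φ ε (fun t => flow Φ ε (t - a) Z) := by
    have := (world_flow hΦ hε hD).shift (-a)
    have h2 : (fun t => flow Φ ε (-a + t) Z) = fun t => flow Φ ε (t - a) Z := by
      funext t
      rw [neg_add_eq_sub]
    rwa [h2] at this
  have hPB : BWorld Φ ε (fun k : P => b k) a (fun t => flow Φ ε (t - a) Z) := by
    refine World.bworld hWorld fun k => ?_
    rcases htwo k with rfl | rfl
    · exact hbi
    · exact hbj
  have key : ∀ t ∈ Icc a T, ∀ k, X t k = Y t k := by
    refine bglue hΦ hε hX ha c ?_ ?_ ?_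
    · intro g
      rcases g with _ | g
      · refine ⟨_, hPB, fun t _ k => ?_⟩
        rcases htwo k with rfl | rfl
        · rw [(hflow (t - a)).1]; exact (hYi t).symm
        · rw [(hflow (t - a)).2]; exact (hYj t).symm
      · have hss : Subsingleton {k : ι // c k = some g} := by
          refine ⟨fun x y => Subtype.ext ?_⟩
          have hval : ∀ w : {k : ι // c k = some g}, (w : ι) = g := by
            intro w
            have hw := w.2
            by_cases h : (w : ι) = i ∨ (w : ι) = j
            · simp only [hc, if_pos h] at hw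
              exact absurd hw (by simp)
            · simp only [hc, if_neg h] at hw
              exact Option.some.inj hw
          rw [hval x, hval y]
        refine ⟨_, bworld_subsingleton hΦ _ (fun k : {k : ι // c k = some g} => X a k) a,
          fun t _ k => ?_⟩
        have hk1 : (k : ι) ≠ i := by
          intro h
          have h2 := k.2
          rw [h, hci] at h2
          exact absurd h2 (by simp)
        have hk2 : (k : ι) ≠ j := by
          intro h
          have h2 := k.2
          rw [h, hcj] at h2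
          exact absurd h2 (by simp)
        exact (hYk t k hk1 hk2).symm
    · intro k
      have hz := hflow 0
      rw [flow_zero hΦ hε] at hz
      by_cases h1 : k = i
      · subst h1; rw [hYi, sub_self]; exact hz.1
      · by_cases h2 : k = j
        · subst h2; rw [hYj, sub_self]; exact hz.2
        · rw [hYk a k h1 h2]
          unfold fr
          simp
    · intro t ht k l hkl hbk hbl
      by_cases hk : k = i ∨ k = j
      · by_cases hl : l = i ∨ l = j
        · exact absurd (by simp only [hc, if_pos hk, if_pos hl]) hkl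
        · rw [not_or] at hl
          rw [hYk t l hl.1 hl.2]
          rcases hk with rfl | rfl
          · rw [hYi]; exact (hcross t ht l hl.1 hl.2 hbl).1
          · rw [hYj]; exact (hcross t ht l hl.1 hl.2 hbl).2
      · rw [not_or] at hk
        by_cases hl : l = i ∨ l = j
        · rw [hYk t k hk.1 hk.2, dist_comm]
          rcases hl with rfl | rfl
          · rw [hYi]; exact (hcross t ht k hk.1 hk.2 hbk).1
          · rw [hYj]; exact (hcross t ht k hk.1 hk.2 hbk).2
        · rw [not_or] at hl
          rw [hYk t k hk.1 hk.2, hYk t l hl.1 hl.2]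
          refine hrest t ht k l hk.1 hk.2 hl.1 hl.2 ?_ hbk hbl
          rintro rfl
          exact hkl rfl
  intro t ht
  refine ⟨?_, ?_, ?_⟩
  · rw [key t ht i, hYi]
  · rw [key t ht j, hYj]
  · intro k h1 h2
    rw [key t ht k, hYk t k h1 h2]

end Crest.Agent.R122.VLcore564
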