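import Crest.Agent.R122.VLdynB_564

/-!
# Row 122, block VL: the two-body motion near the contact time, `ε → 0` (helper564)

* `pp_rel`: the two-body motion in scaled coordinates;
* `pp_close`: for a fixed scaled state `z` the paths of the two particles are within `C ε` of the
  broken lines, velocities bounded, for all times, all `ε`;
* `W1_eq`, `K1_eq`: in terms of `pout`, `qout`;
* `eventually_far`: uniformly converging continuous paths which never meet in the limit.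
-/

set_option autoImplicit false
set_option linter.unusedSectionVars false
open MeasureTheory Metric Set Filter
open scoped ENNReal NNReal Topology
open Crest.AnalysisR.Kinetic

noncomputable section

namespace Crest.Agent.R122.VLcore564

open Scat818 Flow671 Loc45 Ins45

variable {Φ : Space3 → ℝ} {ε : ℝ}

theorem W1_eq (hΦ : AdmissiblePotential Φ) {R : ℝ} {z : Space3 × Space3} (hz : Exi Φ R z) :
    W1 Φ R z = (1 / 2 : ℝ) • (pout Φ z - z.2) := by
  unfold W1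
  rw [pout_eq hΦ hz]

theorem K1_eq (hΦ : AdmissiblePotential Φ) {R : ℝ} {z : Space3 × Space3} (hz : Exi Φ R z) :
    K1 Φ R z = (1 / 2 : ℝ) • (qout Φ z - z.1) := by
  unfold K1
  rw [qout_eq hΦ hz]

/-- The relative motion stays bounded in a bounded time interval. -/
theorem relFlow_bdd (hΦ : AdmissiblePotential Φ) {z : Space3 × Space3} (hz : Reg Φ z.1) (a b : ℝ) :
    ∃ M : ℝ, 0 ≤ M ∧ ∀ u ∈ Icc a b, ‖(relFlow Φ u z).1‖ ≤ M ∧ ‖(relFlow Φ u z).2‖ ≤ M := by
  obtain ⟨M1, hM1⟩ := (isCompact_Icc (a := a) (b := b)).exists_bound_of_continuousOn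
    (f := fun u => (relFlow Φ u z).1) (isRel_relFlow hΦ hz).continuous_q.continuousOn
  obtain ⟨M2, hM2⟩ := (isCompact_Icc (a := a) (b := b)).exists_bound_of_continuousOn
    (f := fun u => (relFlow Φ u z).2) (isRel_relFlow hΦ hz).continuous_p.continuousOn
  refine ⟨max 0 (max M1 M2), le_max_left _ _, fun u hu => ⟨?_, ?_⟩⟩
  · exact (hM1 u hu).trans ((le_max_left _ _).trans (le_max_right _ _))
  · exact (hM2 u hu).trans ((le_max_right _ _).trans (le_max_right _ _))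

/-- The two-body motion in scaled coordinates. -/
theorem pp_rel (hΦ : AdmissiblePotential Φ) (hε : 0 < ε) {x y : PhasePoint} {τ R : ℝ}
    (hz : Exi Φ R (ss ε x y τ)) (hRτ : R * ε ≤ τ) (t : ℝ) :
    relFlow Φ (t / ε) ((1 / ε) • (x.1 - y.1), x.2 - y.2) =
      relFlow Φ ((t - τ) / ε + R) ((ss ε x y τ).1 - R • (ss ε x y τ).2, (ss ε x y τ).2) := by
  set z := ss ε x y τ with hzdef
  have h1 : ((z.1 - (τ / ε) • z.2, z.2) : Space3 × Space3) =
      relFlow Φ (-(τ / ε - R)) (z.1 - R • z.2, z.2) := by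
    rw [relFlow_free_neg hΦ hz.1 hz.2.1 (by
      have : R ≤ τ / ε := by rw [le_div_iff₀ hε]; exact hRτ
      linarith)]
    ext1
    · show z.1 - (τ / ε) • z.2 = z.1 - R • z.2 + (-(τ / ε - R)) • z.2
      module
    · rfl
  rw [ss_back hε x y τ, ← hzdef, h1, ← relFlow_add hΦ]
  congr 1
  ring

/-- **The two-body motion is within `C ε` of the broken lines**, `C` depends only on the scaled
state. -/
theorem pp_close (hΦ : AdmissiblePotential Φ) {R : ℝ} (hR : 0 ≤ R) {z : Space3 × Space3}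
    (hz : Exi Φ R z) :
    ∃ C : ℝ, 0 ≤ C ∧ ∀ ε : ℝ, 0 < ε → ∀ (x y : PhasePoint) (τ : ℝ), ss ε x y τ = z →
      R * ε ≤ τ → ∀ t : ℝ,
        ‖(pp Φ ε x y t).1.1 - ((fr x t).1 + max (t - τ) 0 • W1 Φ R z)‖ ≤ C * ε ∧
        ‖(pp Φ ε x y t).2.1 - ((fr y t).1 - max (t - τ) 0 • W1 Φ R z)‖ ≤ C * ε ∧
        ‖(pp Φ ε x y t).1.2 - x.2‖ ≤ C ∧ ‖(pp Φ ε x y t).2.2 - y.2‖ ≤ C := by
  have hreg : Reg Φ (z.1 - R • z.2, z.2).1 := by
    refine Or.inl fun h => ?_
    have := hz.1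
    have h' : z.1 - R • z.2 = 0 := h
    rw [h', norm_zero] at this
    linarith
  obtain ⟨M, hM0, hM⟩ := relFlow_bdd hΦ hreg 0 (2 * R)
  set C : ℝ := ‖K1 Φ R z‖ + R * ‖W1 Φ R z‖ + M + ‖z.1‖ + R * ‖z.2‖ + ‖z.2‖ + ‖W1 Φ R z‖ with hC
  have hK : 0 ≤ ‖K1 Φ R z‖ := norm_nonneg _
  have hW : 0 ≤ ‖W1 Φ R z‖ := norm_nonneg _
  have hRW : 0 ≤ R * ‖W1 Φ R z‖ := mul_nonneg hR hW
  have hz1 : 0 ≤ ‖z.1‖ := norm_nonneg _
  have hz2 : 0 ≤ ‖z.2‖ := norm_nonneg _
  have hRz : 0 ≤ R * ‖z.2‖ := mul_nonneg hR hz2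
  have hC0 : 0 ≤ C := by positivity
  refine ⟨C, hC0, fun ε hε x y τ hss hRτ t => ?_⟩
  have hz' : Exi Φ R (ss ε x y τ) := hss ▸ hz
  have hvel : x.2 - y.2 = z.2 := by rw [← hss]; rfl
  have hpos : ε • z.1 = (x.1 - y.1) + τ • (x.2 - y.2) := by
    rw [← hss]
    show ε • ((1 / ε) • ((x.1 + τ • x.2) - (y.1 + τ • y.2))) = _
    rw [smul_smul, mul_one_div_cancel hε.ne', one_smul]
    module
  rcases le_or_gt t (τ - R * ε) with h1 | h1
  · -- before
    rw [pp_before hΦ hε hz' hRτ h1]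
    have hRε : 0 ≤ R * ε := mul_nonneg hR hε.le
    have hmax : max (t - τ) 0 = 0 := max_eq_right (by linarith)
    have h0 : 0 ≤ C * ε := mul_nonneg hC0 hε.le
    rw [hmax, zero_smul, add_zero, sub_zero, sub_self, sub_self, norm_zero]
    refine ⟨h0, h0, ?_, ?_⟩
    · show ‖x.2 - x.2‖ ≤ C
      rw [sub_self, norm_zero]; exact hC0
    · show ‖y.2 - y.2‖ ≤ C
      rw [sub_self, norm_zero]; exact hC0
  rcases le_or_gt (τ + R * ε) t with h2 | h2
  · -- after
    have hRε : 0 ≤ R * ε := mul_nonneg hR hε.le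
    rw [pp_after hΦ hε hz' hRτ h2, hss]
    have hmax : max (t - τ) 0 = t - τ := max_eq_left (by linarith)
    rw [hmax]
    have e1 : (fr x t).1 + (ε • K1 Φ R z + (t - τ) • W1 Φ R z) -
        ((fr x t).1 + (t - τ) • W1 Φ R z) = ε • K1 Φ R z := by module
    have e2 : (fr y t).1 - (ε • K1 Φ R z + (t - τ) • W1 Φ R z) -
        ((fr y t).1 - (t - τ) • W1 Φ R z) = -(ε • K1 Φ R z) := by module
    have e3 : ‖ε • K1 Φ R z‖ ≤ C * ε := by
      rw [norm_smul, Real.norm_eq_abs, abs_of_pos hε, mul_comm]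
      exact mul_le_mul_of_nonneg_right (by rw [hC]; linarith) hε.le
    refine ⟨?_, ?_, ?_, ?_⟩
    · show ‖(fr x t).1 + (ε • K1 Φ R z + (t - τ) • W1 Φ R z) -
        ((fr x t).1 + (t - τ) • W1 Φ R z)‖ ≤ C * ε
      rw [e1]; exact e3
    · show ‖(fr y t).1 - (ε • K1 Φ R z + (t - τ) • W1 Φ R z) -
        ((fr y t).1 - (t - τ) • W1 Φ R z)‖ ≤ C * ε
      rw [e2, norm_neg]; exact e3
    · show ‖x.2 + W1 Φ R z - x.2‖ ≤ C
      rw [add_sub_cancel_left, hC]; linarith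
    · show ‖y.2 - W1 Φ R z - y.2‖ ≤ C
      have : y.2 - W1 Φ R z - y.2 = -W1 Φ R z := by module
      rw [this, norm_neg, hC]; linarith
  · -- during
    set u : ℝ := (t - τ) / ε + R with hu
    have htu : (t - τ) = (u - R) * ε := by rw [hu]; field_simp; ring
    have hu1 : 0 ≤ u := by
      by_contra h
      push Not at h
      have : (u - R) * ε < (-R) * ε := mul_lt_mul_of_pos_right (by linarith) hε
      linarith
    have hu2 : u ≤ 2 * R := by
      by_contra h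
      push Not at h
      have : R * ε < (u - R) * ε := mul_lt_mul_of_pos_right (by linarith) hε
      linarith
    have huR : |u - R| ≤ R := abs_le.2 ⟨by linarith, by linarith⟩
    obtain ⟨hq, hp⟩ := hM u ⟨hu1, hu2⟩
    have hrel := pp_rel hΦ hε hz' hRτ t
    rw [hss] at hrel
    set q := relFlow Φ u (z.1 - R • z.2, z.2) with hqdef
    have hrel' : relFlow Φ (t / ε) ((1 / ε) • (x.1 - y.1), x.2 - y.2) = q := hrel
    have hmaxW : ‖max (t - τ) 0 • W1 Φ R z‖ ≤ R * ‖W1 Φ R z‖ * ε := by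
      rw [norm_smul, Real.norm_eq_abs, abs_of_nonneg (le_max_right _ _)]
      have h3 : max (t - τ) 0 ≤ R * ε := max_le (by linarith) (mul_nonneg hR hε.le)
      calc max (t - τ) 0 * ‖W1 Φ R z‖ ≤ R * ε * ‖W1 Φ R z‖ := mul_le_mul_of_nonneg_right h3 hW
        _ = R * ‖W1 Φ R z‖ * ε := by ring
    have hmain : ‖(ε / 2) • (q.1 - z.1 - (u - R) • z.2)‖ ≤ (M + ‖z.1‖ + R * ‖z.2‖) * ε := by
      rw [norm_smul, Real.norm_eq_abs, abs_of_pos (by positivity)]
      have h3 : ‖q.1 - z.1 - (u - R) • z.2‖ ≤ M + ‖z.1‖ + R * ‖z.2‖ := by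
        calc ‖q.1 - z.1 - (u - R) • z.2‖ ≤ ‖q.1 - z.1‖ + ‖(u - R) • z.2‖ := norm_sub_le _ _
          _ ≤ (‖q.1‖ + ‖z.1‖) + |u - R| * ‖z.2‖ := by
              refine add_le_add (norm_sub_le _ _) ?_
              rw [norm_smul, Real.norm_eq_abs]
          _ ≤ M + ‖z.1‖ + R * ‖z.2‖ := by
              have := mul_le_mul_of_nonneg_right huR hz2
              linarith
      have h4 : 0 ≤ ‖q.1 - z.1 - (u - R) • z.2‖ := norm_nonneg _
      nlinarith
    have e1 : (pp Φ ε x y t).1.1 = (fr x t).1 + (ε / 2) • (q.1 - z.1 - (u - R) • z.2) := by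
      unfold pp
      rw [hrel']
      show (1 / 2 : ℝ) • (x.1 + y.1) + t • ((1 / 2 : ℝ) • (x.2 + y.2)) + (ε / 2) • q.1 =
        x.1 + t • x.2 + (ε / 2) • (q.1 - z.1 - (u - R) • z.2)
      have h5 : (ε / 2) • (q.1 - z.1 - (u - R) • z.2) = (ε / 2) • q.1 - (1 / 2 : ℝ) • (ε • z.1) -
          ((1 / 2 : ℝ) * ((u - R) * ε)) • z.2 := by module
      rw [h5, hpos, ← htu, ← hvel]
      module
    have e2 : (pp Φ ε x y t).2.1 = (fr y t).1 - (ε / 2) • (q.1 - z.1 - (u - R) • z.2) := by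
      unfold pp
      rw [hrel']
      show (1 / 2 : ℝ) • (x.1 + y.1) + t • ((1 / 2 : ℝ) • (x.2 + y.2)) - (ε / 2) • q.1 =
        y.1 + t • y.2 - (ε / 2) • (q.1 - z.1 - (u - R) • z.2)
      have h5 : (ε / 2) • (q.1 - z.1 - (u - R) • z.2) = (ε / 2) • q.1 - (1 / 2 : ℝ) • (ε • z.1) -
          ((1 / 2 : ℝ) * ((u - R) * ε)) • z.2 := by module
      rw [h5, hpos, ← htu, ← hvel]
      module
    have e3 : (pp Φ ε x y t).1.2 - x.2 = (1 / 2 : ℝ) • (q.2 - z.2) := by
      unfold pp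
      rw [hrel']
      show (1 / 2 : ℝ) • (x.2 + y.2) + (1 / 2 : ℝ) • q.2 - x.2 = _
      rw [← hvel]
      module
    have e4 : (pp Φ ε x y t).2.2 - y.2 = -((1 / 2 : ℝ) • (q.2 - z.2)) := by
      unfold pp
      rw [hrel']
      show (1 / 2 : ℝ) • (x.2 + y.2) - (1 / 2 : ℝ) • q.2 - y.2 = _
      rw [← hvel]
      module
    have hvelb : ‖(1 / 2 : ℝ) • (q.2 - z.2)‖ ≤ C := by
      rw [norm_smul, Real.norm_eq_abs, abs_of_pos (by norm_num)]
      have h3 : ‖q.2 - z.2‖ ≤ M + ‖z.2‖ := (norm_sub_le _ _).trans (by linarith)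
      have h4 : 0 ≤ ‖q.2 - z.2‖ := norm_nonneg _
      rw [hC]
      linarith
    have hCε : R * ‖W1 Φ R z‖ * ε + (M + ‖z.1‖ + R * ‖z.2‖) * ε ≤ C * ε := by
      rw [← add_mul]
      exact mul_le_mul_of_nonneg_right (by rw [hC]; linarith) hε.le
    refine ⟨?_, ?_, ?_, ?_⟩
    · rw [e1]
      have h5 : (fr x t).1 + (ε / 2) • (q.1 - z.1 - (u - R) • z.2) -
          ((fr x t).1 + max (t - τ) 0 • W1 Φ R z) =
          (ε / 2) • (q.1 - z.1 - (u - R) • z.2) - max (t - τ) 0 • W1 Φ R z := by module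
      rw [h5]
      exact (norm_sub_le _ _).trans (by linarith)
    · rw [e2]
      have h5 : (fr y t).1 - (ε / 2) • (q.1 - z.1 - (u - R) • z.2) -
          ((fr y t).1 - max (t - τ) 0 • W1 Φ R z) =
          -((ε / 2) • (q.1 - z.1 - (u - R) • z.2)) + max (t - τ) 0 • W1 Φ R z := by module
      rw [h5]
      refine (norm_add_le _ _).trans ?_
      rw [norm_neg]
      linarith
    · rw [e3]; exact hvelb
    · rw [e4, norm_neg]; exact hvelb

/-- Uniformly converging paths, continuous limits which never meet: eventually uniformly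
separated. -/
theorem eventually_far {a T : ℝ} {F G : ℕ → ℝ → Space3} {f g : ℝ → Space3}
    (hf : ContinuousOn f (Icc a T)) (hg : ContinuousOn g (Icc a T))
    (hF : TendstoUniformlyOn F f atTop (Icc a T)) (hG : TendstoUniformlyOn G g atTop (Icc a T))
    (hne : ∀ s ∈ Icc a T, f s ≠ g s) :
    ∃ δ > 0, ∀ᶠ n in atTop, ∀ s ∈ Icc a T, δ ≤ dist (F n s) (G n s) := by
  by_cases haT : a ≤ T
  swap
  · exact ⟨1, one_pos, Eventually.of_forall fun n s hs => absurd (hs.1.trans hs.2) haT⟩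
  have hdc : ContinuousOn (fun s => dist (f s) (g s)) (Icc a T) := fun s hs =>
    (hf s hs).dist (hg s hs)
  obtain ⟨s₀, hs₀, hmin⟩ := isCompact_Icc.exists_isMinOn (nonempty_Icc.2 haT) hdc
  set m := dist (f s₀) (g s₀) with hm
  have hmpos : 0 < m := dist_pos.2 (hne s₀ hs₀)
  refine ⟨m / 2, by positivity, ?_⟩
  rw [Metric.tendstoUniformlyOn_iff] at hF hG
  filter_upwards [hF (m / 4) (by positivity), hG (m / 4) (by positivity)] with n h1 h2 s hs
  have h3 : m ≤ dist (f s) (g s) := isMinOn_iff.1 hmin s hs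
  have h4 := h1 s hs
  have h5 := h2 s hs
  have h6 : dist (f s) (g s) ≤ dist (f s) (F n s) + dist (F n s) (G n s) + dist (G n s) (g s) :=
    dist_triangle4 _ _ _ _
  rw [dist_comm (G n s)] at h6
  linarith

end Crest.Agent.R122.VLcore564
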