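import Crest.Agent.R122.VLtrap_564

/-!
# Row 122, block VL: laws of the outgoing velocities, final forms (helper564)

`IsOut Φ R W`: `W` is a measurable equivariant function of the scaled incoming state, bounded by the
relative speed on exited states; instances `isOut_W1 .. isOut_W4`; `I1`, `I2`.
-/

set_option autoImplicit false
set_option linter.unusedSectionVars false
open MeasureTheory Metric Set Filter
open scoped ENNReal NNReal Topology
open Crest.AnalysisR.Kinetic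

noncomputable section

namespace Crest.Agent.R122.VLcore564

open Scat818

variable {Φ : Space3 → ℝ}

/-- Equivariant functions of the scaled incoming state. -/
structure IsOut (Φ : Space3 → ℝ) (R : ℝ) (W : Space3 × Space3 → Space3) : Prop where
  meas : Measurable W
  iso : ∀ (U : Space3 ≃ₗᵢ[ℝ] Space3) (z : Space3 × Space3), Exi Φ R z → W (U z.1, U z.2) = U (W z)
  bd : ∀ z, Exi Φ R z → ‖W z‖ ≤ ‖z.2‖

/-- displacement rate of a particle with respect to its own undisturbed line -/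
def W1 (Φ : Space3 → ℝ) (R : ℝ) (z : Space3 × Space3) : Space3 :=
  (1 / 2 : ℝ) • ((rel0 Φ R z).2 - z.2)

/-- displacement rate of a particle with respect to the undisturbed line of its partner -/
def W2 (Φ : Space3 → ℝ) (R : ℝ) (z : Space3 × Space3) : Space3 :=
  (1 / 2 : ℝ) • ((rel0 Φ R z).2 + z.2)

/-- outgoing relative velocity -/
def W3 (Φ : Space3 → ℝ) (R : ℝ) (z : Space3 × Space3) : Space3 := (rel0 Φ R z).2

/-- incoming relative velocity -/
def W4 (z : Space3 × Space3) : Space3 := z.2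

theorem rel0_vel_isometry (hΦ : AdmissiblePotential Φ) (U : Space3 ≃ₗᵢ[ℝ] Space3) {R : ℝ}
    {z : Space3 × Space3} (hz : Exi Φ R z) : (rel0 Φ R (U z.1, U z.2)).2 = U (rel0 Φ R z).2 := by
  rw [rel0_isometry hΦ U hz.1]

theorem isOut_W1 (hΦ : AdmissiblePotential Φ) (R : ℝ) : IsOut Φ R (W1 Φ R) where
  meas := by
    unfold W1
    exact ((measurable_rel0 hΦ R).snd.sub measurable_snd).const_smul (1 / 2 : ℝ)
  iso := by
    intro U z hz
    unfold W1
    rw [rel0_vel_isometry hΦ U hz, ← map_sub, ← map_smul]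
  bd := by
    intro z hz
    have h := norm_rel0 hΦ hz
    unfold W1
    rw [norm_smul]
    have h1 := norm_sub_le (rel0 Φ R z).2 z.2
    norm_num
    linarith

theorem isOut_W2 (hΦ : AdmissiblePotential Φ) (R : ℝ) : IsOut Φ R (W2 Φ R) where
  meas := by
    unfold W2
    exact ((measurable_rel0 hΦ R).snd.add measurable_snd).const_smul (1 / 2 : ℝ)
  iso := by
    intro U z hz
    unfold W2
    rw [rel0_vel_isometry hΦ U hz, ← map_add, ← map_smul]
  bd := by
    intro z hz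
    have h := norm_rel0 hΦ hz
    unfold W2
    rw [norm_smul]
    have h1 := norm_add_le (rel0 Φ R z).2 z.2
    norm_num
    linarith

theorem isOut_W3 (hΦ : AdmissiblePotential Φ) (R : ℝ) : IsOut Φ R (W3 Φ R) where
  meas := (measurable_rel0 hΦ R).snd
  iso := fun U z hz => rel0_vel_isometry hΦ U hz
  bd := fun z hz => (norm_rel0 hΦ hz).le

theorem isOut_W4 (Φ : Space3 → ℝ) (R : ℝ) : IsOut Φ R W4 where
  meas := measurable_snd
  iso := fun _ _ _ => rfl
  bd := fun _ _ => le_rfl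

theorem gbox_invariant (hΦ : AdmissiblePotential Φ) (R C V : ℝ) (U : Space3 ≃ₗᵢ[ℝ] Space3)
    (z : Space3 × Space3) : ((U z.1, U z.2) : Space3 × Space3) ∈ gbox Φ R C V ↔ z ∈ gbox Φ R C V := by
  unfold gbox
  exact and_congr (box_isometry U C V z) (exi_isometry hΦ U z)

theorem volume_gbox_ne_top (Φ : Space3 → ℝ) (R C V : ℝ) : volume (gbox Φ R C V) ≠ ⊤ :=
  ((measure_mono inter_subset_left).trans_lt (lt_top_iff_ne_top.2 (volume_box_ne_top C V))).ne

/-- **(I1)** No concentration of the outgoing velocities, apart from an atom at the origin. -/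
theorem I1 (hΦ : AdmissiblePotential Φ) (C V R : ℝ) {W : Space3 × Space3 → Space3}
    (hW : IsOut Φ R W) {δ : ℝ} (hδ : 0 < δ) :
    ∃ r : ℝ, 0 < r ∧ ∀ a : Space3,
      volume (box C V ∩ {z | Exi Φ R z ∧ W z ≠ 0 ∧ ‖W z - a‖ ≤ r}) ≤ ENNReal.ofReal δ := by
  obtain ⟨r, hr, h⟩ := law_small_ball (measurableSet_gbox hΦ R C V) (volume_gbox_ne_top Φ R C V)
    (gbox_invariant hΦ R C V) hW.meas (fun U z hz => hW.iso U z hz.2) hδ
  refine ⟨r, hr, fun a => le_trans (measure_mono ?_) (h a)⟩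
  rintro z ⟨h1, h2, h3, h4⟩
  exact ⟨⟨h1, h2⟩, h3, h4⟩

/-- **(I2)** The outgoing lines do not meet a Lipschitz curve, apart from an atom at the origin. -/
theorem I2 (hΦ : AdmissiblePotential Φ) (C V R : ℝ) {W : Space3 × Space3 → Space3}
    (hW : IsOut Φ R W) {δ L T η : ℝ} (hδ : 0 < δ) (hL : 0 ≤ L) (hη : 0 < η) :
    ∃ r : ℝ, 0 < r ∧ ∀ c : ℝ → Space3,
      (∀ s ∈ Icc 0 T, ∀ t ∈ Icc 0 T, ‖c s - c t‖ ≤ L * |s - t|) →
      volume (box C V ∩ {z | Exi Φ R z ∧ W z ≠ 0 ∧ ∃ s ∈ Icc η T, ‖c s - s • W z‖ ≤ r}) ≤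
        ENNReal.ofReal δ := by
  obtain ⟨r, hr, h⟩ := law_small_curve (measurableSet_gbox hΦ R C V) (volume_gbox_ne_top Φ R C V)
    (gbox_invariant hΦ R C V) hW.meas (fun U z hz => hW.iso U z hz.2) (V := V)
    (fun z hz => (hW.bd z hz.2).trans (by simpa using hz.1.2)) hδ hL hη
  refine ⟨r, hr, fun c hc => le_trans (measure_mono ?_) (h c hc)⟩
  rintro z ⟨h1, h2, h3, h4⟩
  exact ⟨⟨h1, h2⟩, h3, h4⟩

/-- Small nonzero values of `W` are rare. -/
theorem I3 (hΦ : AdmissiblePotential Φ) (C V R : ℝ) {W : Space3 × Space3 → Space3}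
    (hW : IsOut Φ R W) {δ : ℝ} (hδ : 0 < δ) :
    ∃ r : ℝ, 0 < r ∧
      volume (box C V ∩ {z | Exi Φ R z ∧ W z ≠ 0 ∧ ‖W z‖ ≤ r}) ≤ ENNReal.ofReal δ := by
  obtain ⟨r, hr, h⟩ := I1 hΦ C V R hW hδ
  refine ⟨r, hr, ?_⟩
  have := h 0
  simpa only [sub_zero] using this

end Crest.Agent.R122.VLcore564
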