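import Crest.Agent.R122.VLlaw_564
import Crest.Agent.R122.Swap3_350

/-!
# Row 122, block VL: null sets of scaled states (helper564)

* `exi_pass`: an exited state is the outgoing line of its passage;
* `swap_null` (Sw): exact exchange of the velocities is null;
* `glance_null` (Gl): no deflection and a displaced outgoing line is null.
-/

set_option autoImplicit false
set_option linter.unusedSectionVars false
open MeasureTheory Metric Set Filter
open scoped ENNReal NNReal Topology
open Crest.AnalysisR.Kinetic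

noncomputable section

namespace Crest.Agent.R122.VLcore564

open Scat818 Flux663

variable {Φ : Space3 → ℝ}

/-- A line missing the ball is free. -/
theorem rel0_miss (hΦ : AdmissiblePotential Φ) {R : ℝ} {z : Space3 × Space3} (hg : z.2 ≠ 0)
    (hb : 1 ≤ ‖bline z‖) : rel0 Φ R z = (z.1 + R • z.2, z.2) := by
  have hin : inner ℝ (bline z) z.2 = 0 := inner_bline hg
  have hz1 : z.1 = bline z + tline z • z.2 := line_decomp z
  have e1 : z.1 - R • z.2 = bline z + (tline z - R) • z.2 := by
    conv_lhs => rw [hz1]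
    module
  have e2 : z.1 + R • z.2 = bline z + (tline z - R + 2 * R) • z.2 := by
    conv_lhs => rw [hz1]
    module
  unfold rel0
  rw [e1, relFlow_line_miss hΦ hin hb, e2]

/-- An exited state with a passage is on the outgoing line of its passage. -/
theorem exi_pass (hΦ : AdmissiblePotential Φ) {R : ℝ} {z : Space3 × Space3} (hz : Exi Φ R z)
    (hg : z.2 ≠ 0) (hb : ‖bline z‖ < 1) (hp : HasPass Φ (bline z) z.2) :
    exitTime Φ (bline z) z.2 ≤ tline z + R + chord (bline z) z.2 ∧
    rel0 Φ R z = (exitPoint Φ (bline z) z.2 +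
      (tline z + R + chord (bline z) z.2 - exitTime Φ (bline z) z.2) •
        exitVelocity Φ (bline z) z.2, exitVelocity Φ (bline z) z.2) := by
  set b := bline z with hb'
  set g := z.2 with hg'
  set s := tline z with hs'
  have hz1 : z.1 = b + s • g := line_decomp z
  have hin : inner ℝ b g = 0 := inner_bline hg
  have hbd : b ∈ impactDisc g := ⟨hin, hb⟩
  have hgn : 0 < ‖g‖ := norm_pos_iff.2 hg
  have hgg : 0 < ‖g‖ ^ 2 := by positivity
  have e1 : z.1 - R • g = b + (s - R) • g := by rw [hz1]; module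
  obtain ⟨h1, h2, h3, h4⟩ := hz
  rw [← hg', e1] at h1 h2
  have hinner : inner ℝ (b + (s - R) • g) g = (s - R) * ‖g‖ ^ 2 := by
    rw [inner_add_left, inner_smul_left, real_inner_self_eq_norm_sq, hin]
    simp only [conj_trivial, zero_add]
  rw [hinner] at h2
  have hsR0 : s - R ≤ 0 := by
    by_contra hneg
    rw [not_le] at hneg
    nlinarith
  have hsR : s - R ≤ -chord b g := by
    rw [one_le_norm_iff, norm_sq_line, hin] at h1
    have h5 : 1 - ‖b‖ ^ 2 ≤ ((R - s) * ‖g‖) ^ 2 := by nlinarith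
    have h6 : Real.sqrt (1 - ‖b‖ ^ 2) ≤ (R - s) * ‖g‖ := by
      rw [← Real.sqrt_sq (mul_nonneg (by linarith : 0 ≤ R - s) hgn.le)]
      exact Real.sqrt_le_sqrt h5
    have h7 : chord b g ≤ R - s := by
      unfold chord
      rw [div_le_iff₀ hgn]
      exact h6
    linarith
  have hrel : rel0 Φ R z = relFlow Φ (s - R + chord b g + 2 * R) (inc b g) := by
    unfold rel0
    rw [← hg', e1, relFlow_line hΦ hbd hg hsR]
  set t := s - R + chord b g + 2 * R with ht
  have het : exitTime Φ b g ≤ t := by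
    by_contra hlt
    rw [not_le] at hlt
    by_cases ht0 : 0 < t
    · have h5 := hp.norm_lt (s := t) ⟨ht0, hlt⟩
      rw [← hrel] at h5
      linarith
    · rw [not_lt] at ht0
      rw [hrel, relFlow_before hΦ hbd hg ht0] at h4
      have h5 := inner_entrance_neg hbd hg
      have h6 : inner ℝ (entrancePoint b g + t • g) g =
          inner ℝ (entrancePoint b g) g + t * ‖g‖ ^ 2 := by
        rw [inner_add_left, inner_smul_left, real_inner_self_eq_norm_sq]
        simp only [conj_trivial]
      have h7 : (0 : ℝ) ≤ inner ℝ (entrancePoint b g + t • g) g := h4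
      rw [h6] at h7
      nlinarith
  have htt : t = s + R + chord b g := by rw [ht]; ring
  refine ⟨by rw [← htt]; exact het, ?_⟩
  rw [hrel, hp.after hΦ hbd hg het, htt]

/-- The union of null sets in which one of the alternatives fails. -/
theorem volume_vel_zero : volume {z : Space3 × Space3 | z.2 = 0} = 0 := by
  have : {z : Space3 × Space3 | z.2 = 0} = (univ : Set Space3) ×ˢ {(0 : Space3)} := by
    ext z; simp
  rw [this, Measure.volume_eq_prod, Measure.prod_prod]
  simp

theorem volume_trapped (hΦ : AdmissiblePotential Φ) :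
    volume (Cyl ∩ {z : Space3 × Space3 | (bline z, z.2) ∈ gincid \ passSet Φ}) = 0 := by
  have hNm : MeasurableSet (gincid \ passSet Φ) :=
    measurableSet_gincid.diff (measurableSet_passSet hΦ)
  refine null_of_flux hNm (flux_null hNm ?_)
  filter_upwards [Measure.ae_ne volume (0 : Space3)] with g hg
  refine measure_mono_null ?_ (measure_trapped hΦ hg)
  rintro b ⟨hb, hbN⟩
  exact ⟨hb, fun hex => hbN.2 ⟨hbN.1, hex⟩⟩

/-- Reduction of a null statement on exited states to impact data. -/
theorem null_of_pass (hΦ : AdmissiblePotential Φ) {N : Set (Space3 × Space3)}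
    (hN : MeasurableSet N) (hN0 : flux N = 0) {R : ℝ} {S : Set (Space3 × Space3)}
    (hSm : ∀ z ∈ S, z.2 ≠ 0 → 1 ≤ ‖bline z‖ → False)
    (hS : ∀ z ∈ S, z.2 ≠ 0 → ‖bline z‖ < 1 → HasPass Φ (bline z) z.2 → Exi Φ R z →
      (bline z, z.2) ∈ N) : volume (S ∩ {z | Exi Φ R z}) = 0 := by
  refine measure_mono_null ?_ (measure_union_null volume_vel_zero
    (measure_union_null (volume_trapped hΦ) (null_of_flux hN hN0)))
  rintro z ⟨hzS, hz⟩
  by_cases hg : z.2 = 0
  · exact Or.inl hg
  right
  by_cases hb : 1 ≤ ‖bline z‖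
  · exact (hSm z hzS hg hb).elim
  rw [not_le] at hb
  by_cases hp : HasPass Φ (bline z) z.2
  · exact Or.inr ⟨⟨hg, hb⟩, hS z hzS hg hb hp hz⟩
  · exact Or.inl ⟨⟨hg, hb⟩, ⟨⟨inner_bline hg, hb⟩, hg⟩, fun h => hp h.2⟩

/-- **(Sw)** Exact exchange of the velocities is null. -/
theorem swap_null (hΦ : AdmissiblePotential Φ) (R : ℝ) :
    volume {z : Space3 × Space3 | Exi Φ R z ∧ (rel0 Φ R z).2 = -z.2} = 0 := by
  set N : Set (Space3 × Space3) := passSet Φ ∩ {p | (exitM Φ p).2 = -p.2} with hN
  have hNm : MeasurableSet N := (measurableSet_passSet hΦ).inter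
    (measurableSet_eq_fun (measurable_exitM hΦ).snd measurable_snd.neg)
  have hN0 : flux N = 0 := by
    refine flux_null hNm ?_
    filter_upwards [Swap350.ae_measure_swap hΦ] with g hg
    refine measure_mono_null ?_ hg
    rintro b ⟨hb, hbN⟩
    refine ⟨hb, ?_⟩
    have h := hbN.2
    simp only [mem_ofPred_eq] at h
    rw [exitM_of_mem hΦ hbN.1] at h
    exact h
  have h := null_of_pass hΦ hNm hN0 (R := R) (S := {z : Space3 × Space3 | z.2 ≠ 0 ∧
    (rel0 Φ R z).2 = -z.2}) ?_ ?_
  · refine measure_mono_null ?_ (measure_union_null volume_vel_zero h)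
    rintro z ⟨h1, h2⟩
    by_cases hg : z.2 = 0
    · exact Or.inl hg
    · exact Or.inr ⟨⟨hg, h2⟩, h1⟩
  · rintro z ⟨hg, h2⟩ _ hb
    rw [rel0_miss hΦ hg hb] at h2
    have h3 : (2 : ℝ) • z.2 = 0 := by
      rw [two_smul]
      have h2' : z.2 = -z.2 := h2
      nth_rewrite 2 [h2']
      exact add_neg_cancel _
    rcases smul_eq_zero.1 h3 with h4 | h4
    · norm_num at h4
    · exact hg h4
  · rintro z ⟨_, h2⟩ hg hb hp hz
    have h3 := (exi_pass hΦ hz hg hb hp).2
    rw [h3] at h2
    have hmem : (bline z, z.2) ∈ passSet Φ := ⟨⟨⟨inner_bline hg, hb⟩, hg⟩, hp⟩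
    refine ⟨hmem, ?_⟩
    show (exitM Φ (bline z, z.2)).2 = -z.2
    rw [exitM_of_mem hΦ hmem]
    exact h2

/-- **(Gl)** No deflection with a displaced outgoing line is null. -/
theorem glance_null (hΦ : AdmissiblePotential Φ) (R : ℝ) :
    volume {z : Space3 × Space3 | Exi Φ R z ∧ (rel0 Φ R z).2 = z.2 ∧
      (rel0 Φ R z).1 ≠ z.1 + R • z.2} = 0 := by
  set N : Set (Space3 × Space3) := passSet Φ ∩ ({p | (exitM Φ p).2 = p.2} ∩
    {p | (exitM Φ p).1 = entrancePoint p.1 p.2 + tauM Φ p • p.2}ᶜ) with hN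
  have hNm : MeasurableSet N := by
    refine (measurableSet_passSet hΦ).inter
      ((measurableSet_eq_fun (measurable_exitM hΦ).snd measurable_snd).inter
        (MeasurableSet.compl (measurableSet_eq_fun (measurable_exitM hΦ).fst ?_)))
    exact measurable_entrancePoint.add ((measurable_tauM hΦ).smul measurable_snd)
  have hN0 : flux N = 0 := by
    refine flux_null hNm ?_
    filter_upwards [Swap350.ae_measure_undef hΦ] with g hg
    refine measure_mono_null ?_ hg
    rintro b ⟨hb, hbN⟩
    obtain ⟨hmem, h1, h2⟩ := hbN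
    have h1' : (exitM Φ (b, g)).2 = g := h1
    have h2' : ¬ (exitM Φ (b, g)).1 = entrancePoint b g + tauM Φ (b, g) • g := h2
    rw [exitM_of_mem hΦ hmem] at h1' h2'
    refine ⟨hb, h1', fun hall => h2' ?_⟩
    rw [tauM_of_mem hmem]
    have h3 := hall (exitTime Φ b g)
    have h4 := hmem.2.relFlow_exit hΦ hmem.1.1 hmem.1.2
    have h5 : (exitPoint Φ b g, exitVelocity Φ b g) =
        (entrancePoint b g + exitTime Φ b g • g, g) := h4.symm.trans h3
    exact congrArg Prod.fst h5
  have h := null_of_pass hΦ hNm hN0 (R := R) (S := {z : Space3 × Space3 | z.2 ≠ 0 ∧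
    (rel0 Φ R z).2 = z.2 ∧ (rel0 Φ R z).1 ≠ z.1 + R • z.2}) ?_ ?_
  · refine measure_mono_null ?_ (measure_union_null volume_vel_zero h)
    rintro z ⟨h1, h2⟩
    by_cases hg : z.2 = 0
    · exact Or.inl hg
    · exact Or.inr ⟨⟨hg, h2⟩, h1⟩
  · rintro z ⟨hg, _, h3⟩ _ hb
    rw [rel0_miss hΦ hg hb] at h3
    exact h3 rfl
  · rintro z ⟨_, h2, h3⟩ hg hb hp hz
    have h4 := (exi_pass hΦ hz hg hb hp).2
    rw [h4] at h2 h3
    have h2' : exitVelocity Φ (bline z) z.2 = z.2 := h2
    have hmem : (bline z, z.2) ∈ passSet Φ := ⟨⟨⟨inner_bline hg, hb⟩, hg⟩, hp⟩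
    refine ⟨hmem, ?_, ?_⟩
    · show (exitM Φ (bline z, z.2)).2 = z.2
      rw [exitM_of_mem hΦ hmem]
      exact h2'
    · show ¬ (exitM Φ (bline z, z.2)).1 = entrancePoint (bline z) z.2 +
        tauM Φ (bline z, z.2) • z.2
      rw [exitM_of_mem hΦ hmem, tauM_of_mem hmem]
      intro h5
      apply h3
      have h5' : exitPoint Φ (bline z) z.2 =
        entrancePoint (bline z) z.2 + exitTime Φ (bline z) z.2 • z.2 := h5
      show exitPoint Φ (bline z) z.2 + (tline z + R + chord (bline z) z.2 -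
        exitTime Φ (bline z) z.2) • exitVelocity Φ (bline z) z.2 = z.1 + R • z.2
      rw [h2', h5', entrancePoint_eq_chord]
      conv_rhs => rw [line_decomp z]
      module

/-- **(W2)** has no atom at the origin. -/
theorem W2_ne_zero (hΦ : AdmissiblePotential Φ) (R : ℝ) :
    volume {z : Space3 × Space3 | Exi Φ R z ∧ W2 Φ R z = 0} = 0 := by
  refine measure_mono_null ?_ (swap_null hΦ R)
  rintro z ⟨h1, h2⟩
  refine ⟨h1, ?_⟩
  unfold W2 at h2
  rcases smul_eq_zero.1 h2 with h3 | h3
  · norm_num at h3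
  · exact eq_neg_of_add_eq_zero_left h3

/-- On the complement of a null set, `W1 = 0` means that the motion is free (seen at time `R`). -/
theorem W1_eq_zero (hΦ : AdmissiblePotential Φ) (R : ℝ) :
    volume {z : Space3 × Space3 | Exi Φ R z ∧ W1 Φ R z = 0 ∧
      rel0 Φ R z ≠ (z.1 + R • z.2, z.2)} = 0 := by
  refine measure_mono_null ?_ (glance_null hΦ R)
  rintro z ⟨h1, h2, h3⟩
  have h4 : (rel0 Φ R z).2 = z.2 := by
    unfold W1 at h2
    rcases smul_eq_zero.1 h2 with h5 | h5
    · norm_num at h5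
    · exact sub_eq_zero.1 h5
  refine ⟨h1, h4, fun h5 => h3 ?_⟩
  exact Prod.ext h5 h4

/-- `W3` and `W4` vanish only for zero relative velocity. -/
theorem W3_ne_zero (hΦ : AdmissiblePotential Φ) (R : ℝ) :
    volume {z : Space3 × Space3 | Exi Φ R z ∧ W3 Φ R z = 0} = 0 := by
  refine measure_mono_null ?_ volume_vel_zero
  rintro z ⟨h1, h2⟩
  have h3 := norm_rel0 hΦ h1
  have h4 : (rel0 Φ R z).2 = 0 := h2
  rw [h4, norm_zero] at h3
  exact norm_eq_zero.1 h3.symm

theorem W4_ne_zero : volume {z : Space3 × Space3 | W4 z = 0} = 0 := volume_vel_zero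

end Crest.Agent.R122.VLcore564
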