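import Crest.Agent.R122.VLwin_564

/-!
# Row 122, block VL: trapped scaled states (helper564)

* `exi_mono`: once exited, exited;
* `null_of_flux`: a null set of impact data gives a null set of phase points;
* `exi_eventually`: every state with a passage (or missing the ball) is exited at large times;
* `trapped_small` (T).
-/

set_option autoImplicit false
set_option linter.unusedSectionVars false
open MeasureTheory Metric Set Filter
open scoped ENNReal NNReal Topology
open Crest.AnalysisR.Kinetic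

noncomputable section

namespace Crest.Agent.R122.VLcore564

open Scat818

variable {Φ : Space3 → ℝ}

/-- Coming from the past of an incoming line. -/
theorem incoming_back {x v : Space3} (h1 : 1 ≤ ‖x‖) (h2 : inner ℝ x v ≤ 0) {t : ℝ} (ht : 0 ≤ t) :
    1 ≤ ‖x - t • v‖ ∧ inner ℝ (x - t • v) v ≤ 0 := by
  constructor
  · have e : x - t • v = x + (-t) • v := by rw [neg_smul, sub_eq_add_neg]
    rw [e, one_le_norm_iff, norm_sq_line]
    have h3 := one_le_norm_iff.1 h1
    have h4 : 0 ≤ 2 * (-t) * inner ℝ x v := by nlinarith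
    have h5 : 0 ≤ (-t) ^ 2 * ‖v‖ ^ 2 := by positivity
    linarith
  · rw [inner_sub_left, inner_smul_left, real_inner_self_eq_norm_sq]
    simp only [conj_trivial]
    have : 0 ≤ t * ‖v‖ ^ 2 := by positivity
    linarith

/-- Going to the future of an outgoing line. -/
theorem outgoing_fwd {x v : Space3} (h1 : 1 ≤ ‖x‖) (h2 : 0 ≤ inner ℝ x v) {t : ℝ} (ht : 0 ≤ t) :
    1 ≤ ‖x + t • v‖ ∧ 0 ≤ inner ℝ (x + t • v) v := by
  constructor
  · rw [one_le_norm_iff, norm_sq_line]
    have h3 := one_le_norm_iff.1 h1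
    have h4 : 0 ≤ 2 * t * inner ℝ x v := by positivity
    have h5 : 0 ≤ t ^ 2 * ‖v‖ ^ 2 := by positivity
    linarith
  · rw [inner_add_left, inner_smul_left, real_inner_self_eq_norm_sq]
    simp only [conj_trivial]
    have : 0 ≤ t * ‖v‖ ^ 2 := by positivity
    linarith

/-- The relative motion started from the incoming line at scaled time `-t`, `t ≥ R`, at scaled time
`R + r`. -/
theorem rel0_eq (hΦ : AdmissiblePotential Φ) {R : ℝ} {z : Space3 × Space3} (hz : Exi Φ R z)
    {t r : ℝ} (ht : R ≤ t) (hr : 0 ≤ r) :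
    relFlow Φ (t + R + r) (z.1 - t • z.2, z.2) =
      ((rel0 Φ R z).1 + r • (rel0 Φ R z).2, (rel0 Φ R z).2) := by
  have h1 : ((z.1 - t • z.2, z.2) : Space3 × Space3) =
      relFlow Φ (-(t - R)) (z.1 - R • z.2, z.2) := by
    rw [relFlow_free_neg hΦ hz.1 hz.2.1 (by linarith)]
    ext1
    · show z.1 - t • z.2 = z.1 - R • z.2 + (-(t - R)) • z.2
      module
    · rfl
  rw [h1, ← relFlow_add hΦ]
  have h2 : -(t - R) + (t + R + r) = 2 * R + r := by ring
  rw [h2, relFlow_add hΦ]
  exact relFlow_free_pos hΦ hz.2.2.1 hz.2.2.2 hr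

theorem rel0_mono (hΦ : AdmissiblePotential Φ) {R R' : ℝ} (hR : R ≤ R') {z : Space3 × Space3}
    (hz : Exi Φ R z) : rel0 Φ R' z =
      ((rel0 Φ R z).1 + (R' - R) • (rel0 Φ R z).2, (rel0 Φ R z).2) := by
  have h := rel0_eq hΦ hz hR (sub_nonneg.2 hR)
  rw [← h]
  unfold rel0
  congr 1
  ring

theorem exi_mono (hΦ : AdmissiblePotential Φ) {R R' : ℝ} (hR : R ≤ R') {z : Space3 × Space3}
    (hz : Exi Φ R z) : Exi Φ R' z := by
  have h1 := incoming_back hz.1 hz.2.1 (sub_nonneg.2 hR)
  have e : z.1 - R • z.2 - (R' - R) • z.2 = z.1 - R' • z.2 := by module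
  rw [e] at h1
  have h2 := outgoing_fwd hz.2.2.1 hz.2.2.2 (sub_nonneg.2 hR)
  refine ⟨h1.1, h1.2, ?_⟩
  rw [rel0_mono hΦ hR hz]
  exact h2

/-! ### Null sets of impact data -/

open Flux663

/-- A null set of impact data gives a null set of phase points. -/
theorem null_of_flux {N : Set (Space3 × Space3)} (hN : MeasurableSet N) (h : flux N = 0) :
    volume (Cyl ∩ {z : Space3 × Space3 | (bline z, z.2) ∈ N}) = 0 := by
  set S : Set (Space3 × Space3) := {z | (bline z, z.2) ∈ N} with hS
  have hSm : MeasurableSet S := (measurable_bline.prodMk measurable_snd) hN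
  rw [inter_comm, ← Measure.restrict_apply hSm, ← measurePreserving_line.map_eq,
    Measure.map_apply measurable_lineMap hSm]
  have hsub : lineMap ⁻¹' S ⊆ (univ : Set ℝ) ×ˢ (N ∪ FSᶜ) := by
    rintro ⟨s, e⟩ hp
    refine ⟨mem_univ _, ?_⟩
    by_cases he : e ∈ FS
    · left
      have h1 : (bline (lineMap (s, e)), (lineMap (s, e)).2) ∈ N := hp
      rw [bline_lineMap he] at h1
      exact h1
    · exact Or.inr he
  refine measure_mono_null hsub ?_
  rw [Measure.prod_prod]
  have : flux (N ∪ FSᶜ) = 0 := measure_union_null h flux_compl_FS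
  rw [this, mul_zero]

/-- The flux measure of a measurable set with null slices. -/
theorem flux_null {N : Set (Space3 × Space3)} (hN : MeasurableSet N)
    (h : ∀ᵐ g : Space3, (μHE[2] : Measure Space3) {b | b ∈ impactDisc g ∧ (b, g) ∈ N} = 0) :
    flux N = 0 := by
  rw [← lintegral_indicator_one hN, lintegral_flux (measurable_one.indicator hN)]
  rw [lintegral_eq_zero_iff']
  · filter_upwards [h] with g hg
    simp only [Pi.zero_apply, mul_eq_zero]
    right
    have h1 : ∀ b : Space3, N.indicator (1 : Space3 × Space3 → ℝ≥0∞) (b, g) =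
        {b | (b, g) ∈ N}.indicator (1 : Space3 → ℝ≥0∞) b := by
      intro b
      by_cases hb : (b, g) ∈ N
      · rw [indicator_of_mem hb, indicator_of_mem (show b ∈ {b | (b, g) ∈ N} from hb)]; rfl
      · rw [indicator_of_notMem hb, indicator_of_notMem (show b ∉ {b | (b, g) ∈ N} from hb)]
    have hm : MeasurableSet {b : Space3 | (b, g) ∈ N} := by
      have : Measurable fun b : Space3 => (b, g) := by fun_prop
      exact this hN
    rw [lintegral_congr h1, lintegral_indicator_one hm, Measure.restrict_apply hm]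
    refine measure_mono_null ?_ hg
    rintro b ⟨hb1, hb2⟩
    exact ⟨hb2, hb1⟩
  · exact (Disc416.measurable_lintegral_disc (α := Space3) (G := fun p => p) measurable_id
        (F := fun p b => N.indicator (1 : Space3 × Space3 → ℝ≥0∞) (b, p))
        ((measurable_one.indicator hN).comp (measurable_snd.prodMk measurable_fst))).aemeasurable

/-- Decomposition of a phase point along its line. -/
theorem line_decomp (z : Space3 × Space3) : z.1 = bline z + tline z • z.2 := by
  unfold bline; abel

/-- Every state with a passage, or missing the ball, is exited at large times. -/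
theorem exi_eventually (hΦ : AdmissiblePotential Φ) {z : Space3 × Space3} (hg : z.2 ≠ 0)
    (h : 1 ≤ ‖bline z‖ ∨ HasPass Φ (bline z) z.2) : ∃ R₀ : ℝ, ∀ R, R₀ ≤ R → Exi Φ R z := by
  set b := bline z with hb
  set g := z.2 with hg'
  set s := tline z with hs
  have hz1 : z.1 = b + s • g := line_decomp z
  have hin : inner ℝ b g = 0 := inner_bline hg
  have hgg : 0 < ‖g‖ ^ 2 := by positivity
  have e1 : ∀ R : ℝ, z.1 - R • g = b + (s - R) • g := by intro R; rw [hz1]; module
  have hinner : ∀ t : ℝ, inner ℝ (b + t • g) g = t * ‖g‖ ^ 2 := by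
    intro t
    rw [inner_add_left, inner_smul_left, real_inner_self_eq_norm_sq, hin]
    simp only [conj_trivial, zero_add]
  by_cases hb1 : 1 ≤ ‖b‖
  · -- missing the ball
    have hnorm : ∀ t : ℝ, 1 ≤ ‖b + t • g‖ := by
      intro t
      rw [one_le_norm_iff, norm_sq_line, hin]
      have h2 := one_le_norm_iff.1 hb1
      have h3 : 0 ≤ t ^ 2 * ‖g‖ ^ 2 := by positivity
      linarith
    refine ⟨|s|, fun R hR => ?_⟩
    have h1 : -R ≤ s := by linarith [neg_abs_le s]
    have h2 : s ≤ R := (le_abs_self s).trans hR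
    have hrel : rel0 Φ R z = (b + (s + R) • g, g) := by
      unfold rel0
      rw [← hg', e1, relFlow_line_miss hΦ hin hb1]
      congr 2
      ring_nf
    refine ⟨?_, ?_, ?_, ?_⟩
    · rw [e1]; exact hnorm _
    · rw [e1, hinner]; nlinarith
    · rw [hrel]; exact hnorm _
    · rw [hrel]
      show 0 ≤ inner ℝ (b + (s + R) • g) g
      rw [hinner]; nlinarith
  · have hb1' : ‖b‖ < 1 := not_le.1 hb1
    have hpass : HasPass Φ b g := h.resolve_left hb1
    have hbd : b ∈ impactDisc g := ⟨hin, hb1'⟩
    refine ⟨|s| + chord b g + exitTime Φ b g, fun R hR => ?_⟩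
    have hch := chord_pos hbd hg
    have het := exitTime_nonneg (Φ := Φ) b g
    have h1 : -|s| ≤ s := neg_abs_le s
    have h2 : s ≤ |s| := le_abs_self s
    have hsR : s - R ≤ -chord b g := by linarith
    have hline : ((b + (s - R) • g, g) : Space3 × Space3) =
        relFlow Φ (s - R + chord b g) (inc b g) := line_eq_relFlow hΦ hbd hg hsR
    have hrel : rel0 Φ R z = relFlow Φ (s - R + chord b g + 2 * R) (inc b g) := by
      unfold rel0
      rw [← hg', e1, relFlow_line hΦ hbd hg hsR]
    have ht : exitTime Φ b g ≤ s - R + chord b g + 2 * R := by linarith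
    refine ⟨?_, ?_, ?_, ?_⟩
    · rw [e1]
      have h3 := hpass.one_le_norm hΦ hbd hg (t := s - R + chord b g) (Or.inl (by linarith))
      rw [← hline] at h3
      exact h3
    · rw [e1, hinner]; nlinarith
    · rw [hrel]
      exact hpass.one_le_norm hΦ hbd hg (Or.inr ht)
    · rw [hrel, hpass.after hΦ hbd hg ht]
      have h3 : 0 < inner ℝ (exitPoint Φ b g) (exitVelocity Φ b g) := by
        have h4 := hpass.hasExit.inner_pos hΦ (reg_entrance Φ hbd hg)
        rw [hpass.relFlow_exit hΦ hbd hg] at h4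
        exact h4
      show 0 ≤ inner ℝ (exitPoint Φ b g + (s - R + chord b g + 2 * R - exitTime Φ b g) •
        exitVelocity Φ b g) (exitVelocity Φ b g)
      rw [inner_add_left, inner_smul_left, real_inner_self_eq_norm_sq]
      simp only [conj_trivial]
      have h5 : 0 ≤ (s - R + chord b g + 2 * R - exitTime Φ b g) * ‖exitVelocity Φ b g‖ ^ 2 :=
        mul_nonneg (by linarith) (by positivity)
      linarith

/-- Almost every phase point is eventually exited. -/
theorem ae_exi_eventually (hΦ : AdmissiblePotential Φ) :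
    ∀ᵐ z : Space3 × Space3, ∃ R₀ : ℝ, ∀ R, R₀ ≤ R → Exi Φ R z := by
  set N : Set (Space3 × Space3) := gincid \ passSet Φ with hN
  have hNm : MeasurableSet N := measurableSet_gincid.diff (measurableSet_passSet hΦ)
  have hflux : flux N = 0 := by
    refine flux_null hNm ?_
    filter_upwards [Measure.ae_ne volume (0 : Space3)] with g hg
    refine measure_mono_null ?_ (measure_trapped hΦ hg)
    rintro b ⟨hb, hbN⟩
    refine ⟨hb, fun hex => hbN.2 ⟨hbN.1, hex⟩⟩
  have h1 := null_of_flux hNm hflux
  have h0 : volume {z : Space3 × Space3 | z.2 = 0} = 0 := by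
    have : {z : Space3 × Space3 | z.2 = 0} = (univ : Set Space3) ×ˢ {(0 : Space3)} := by
      ext z; simp
    rw [this, Measure.volume_eq_prod, Measure.prod_prod]
    simp
  rw [ae_iff]
  refine measure_mono_null ?_ (measure_union_null h0 h1)
  intro z hz
  by_cases hg : z.2 = 0
  · exact Or.inl hg
  right
  by_cases hb : 1 ≤ ‖bline z‖
  · exact absurd (exi_eventually hΦ hg (Or.inl hb)) hz
  · have hb' : ‖bline z‖ < 1 := not_le.1 hb
    by_cases hp : HasPass Φ (bline z) z.2
    · exact absurd (exi_eventually hΦ hg (Or.inr hp)) hz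
    · refine ⟨⟨hg, hb'⟩, ⟨⟨inner_bline hg, hb'⟩, hg⟩, fun h => hp h.2⟩

/-- **(T)** The part of a box which is not exited at time `R` is small for `R` large. -/
theorem trapped_small (hΦ : AdmissiblePotential Φ) (C V : ℝ) {δ : ℝ} (hδ : 0 < δ) :
    ∃ R₀ : ℝ, ∀ R, R₀ ≤ R → volume (box C V ∩ {z | ¬ Exi Φ R z}) ≤ ENNReal.ofReal δ := by
  have hmeas : ∀ n : ℕ, MeasurableSet (box C V ∩ {z | ¬ Exi Φ (n : ℝ) z}) := fun n =>
    (measurableSet_box C V).inter (measurableSet_exi hΦ (n : ℝ)).compl
  have hanti : Antitone fun n : ℕ => box C V ∩ {z | ¬ Exi Φ (n : ℝ) z} := by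
    intro n m hnm z hz
    exact ⟨hz.1, fun h => hz.2 (exi_mono hΦ (by exact_mod_cast hnm) h)⟩
  have hfin : ∃ n : ℕ, volume (box C V ∩ {z | ¬ Exi Φ (n : ℝ) z}) ≠ ⊤ :=
    ⟨0, ((measure_mono inter_subset_left).trans_lt
      (lt_top_iff_ne_top.2 (volume_box_ne_top C V))).ne⟩
  have hlim := tendsto_measure_iInter_atTop (μ := (volume : Measure (Space3 × Space3)))
    (fun n => (hmeas n).nullMeasurableSet) hanti hfin
  have hzero : volume (⋂ n : ℕ, box C V ∩ {z | ¬ Exi Φ (n : ℝ) z}) = 0 := by
    refine measure_mono_null ?_ (ae_iff.1 (ae_exi_eventually hΦ))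
    intro z hz
    simp only [mem_iInter] at hz
    rintro ⟨R₀, hR₀⟩
    obtain ⟨n, hn⟩ := exists_nat_ge R₀
    exact (hz n).2 (hR₀ n hn)
  rw [hzero] at hlim
  obtain ⟨n, hn⟩ := ((tendsto_order.1 hlim).2 (ENNReal.ofReal δ) (by simpa using hδ)).exists
  refine ⟨n, fun R hR => le_trans (measure_mono ?_) hn.le⟩
  rintro z ⟨hz1, hz2⟩
  exact ⟨hz1, fun h => hz2 (exi_mono hΦ hR h)⟩

end Crest.Agent.R122.VLcore564
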