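import Crest.Agent.R122.VLcore_564
import Crest.Agent.R122.Flux_663

/-!
# Row 122, block VL: the scaled two-body problem (helper564)

* `rel0_isometry`, `exi_isometry`, `norm_rel0`: equivariance and energy;
* `exi_mono`, `trapped_small` (T): the trapped part of a box is small;
* `law_small_ball` (I1), `law_small_curve` (I2): laws of the outgoing velocities.
-/

set_option autoImplicit false
set_option linter.unusedSectionVars false
open MeasureTheory Metric Set Filter
open scoped ENNReal NNReal Topology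
open Crest.AnalysisR.Kinetic

noncomputable section

namespace Crest.Agent.R122.VLcore564

open Scat818

variable {Φ : Space3 → ℝ}

/-! ### Equivariance, energy, measurability -/

theorem rel0_isometry (hΦ : AdmissiblePotential Φ) (U : Space3 ≃ₗᵢ[ℝ] Space3) {R : ℝ}
    {z : Space3 × Space3} (hz : 1 ≤ ‖z.1 - R • z.2‖) :
    rel0 Φ R (U z.1, U z.2) = (U (rel0 Φ R z).1, U (rel0 Φ R z).2) := by
  have hreg : Reg Φ (z.1 - R • z.2) := reg_of_norm_pos (by linarith)
  have h := relFlow_isometry hΦ U (z := (z.1 - R • z.2, z.2)) hreg (2 * R)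
  unfold rel0
  have e : ((U z.1, U z.2) : Space3 × Space3).1 - R • ((U z.1, U z.2) : Space3 × Space3).2 =
      U (z.1 - R • z.2) := by
    simp only [map_sub, map_smul]
  rw [e]
  exact h

theorem exi_isometry (hΦ : AdmissiblePotential Φ) (U : Space3 ≃ₗᵢ[ℝ] Space3) {R : ℝ}
    (z : Space3 × Space3) : Exi Φ R (U z.1, U z.2) ↔ Exi Φ R z := by
  have e : ((U z.1, U z.2) : Space3 × Space3).1 - R • ((U z.1, U z.2) : Space3 × Space3).2 =
      U (z.1 - R • z.2) := by
    simp only [map_sub, map_smul]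
  unfold Exi
  rw [e]
  simp only [U.norm_map, U.inner_map_map]
  constructor
  · rintro ⟨h1, h2, h3, h4⟩
    rw [rel0_isometry hΦ U h1] at h3 h4
    simp only [U.norm_map, U.inner_map_map] at h3 h4
    exact ⟨h1, h2, h3, h4⟩
  · rintro ⟨h1, h2, h3, h4⟩
    rw [rel0_isometry hΦ U h1]
    simp only [U.norm_map, U.inner_map_map]
    exact ⟨h1, h2, h3, h4⟩

theorem norm_rel0 (hΦ : AdmissiblePotential Φ) {R : ℝ} {z : Space3 × Space3} (hz : Exi Φ R z) :
    ‖(rel0 Φ R z).2‖ = ‖z.2‖ := by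
  have hreg : Reg Φ (z.1 - R • z.2) := reg_of_norm_pos (by linarith [hz.1])
  have h := en_relFlow hΦ (z := (z.1 - R • z.2, z.2)) hreg (2 * R)
  have h1 : Φ (rel0 Φ R z).1 = 0 := hΦ.eq_zero_of_one_le_norm _ hz.2.2.1
  have h2 : Φ (z.1 - R • z.2) = 0 := hΦ.eq_zero_of_one_le_norm _ hz.1
  unfold en at h
  have h3 : ‖(rel0 Φ R z).2‖ ^ 2 = ‖z.2‖ ^ 2 := by
    have h' : ‖(rel0 Φ R z).2‖ ^ 2 + 4 * Φ (rel0 Φ R z).1 = ‖z.2‖ ^ 2 + 4 * Φ (z.1 - R • z.2) := h
    rw [h1, h2] at h'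
    linarith
  exact (sq_eq_sq₀ (norm_nonneg _) (norm_nonneg _)).1 h3

theorem measurable_rel0 (hΦ : AdmissiblePotential Φ) (R : ℝ) : Measurable (rel0 Φ R) := by
  unfold rel0
  exact (measurable_relFlow hΦ (2 * R)).comp (by fun_prop)

theorem measurableSet_exi (hΦ : AdmissiblePotential Φ) (R : ℝ) : MeasurableSet {z | Exi Φ R z} := by
  have hr := measurable_rel0 hΦ R
  have h1 : MeasurableSet {z : Space3 × Space3 | 1 ≤ ‖z.1 - R • z.2‖} :=
    measurableSet_le measurable_const (by fun_prop)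
  have h2 : MeasurableSet {z : Space3 × Space3 | inner ℝ (z.1 - R • z.2) z.2 ≤ 0} :=
    measurableSet_le (by fun_prop) measurable_const
  have h3 : MeasurableSet {z : Space3 × Space3 | 1 ≤ ‖(rel0 Φ R z).1‖} :=
    measurableSet_le measurable_const hr.fst.norm
  have h4 : MeasurableSet {z : Space3 × Space3 | 0 ≤ inner ℝ (rel0 Φ R z).1 (rel0 Φ R z).2} :=
    measurableSet_le measurable_const (hr.fst.inner hr.snd)
  exact h1.inter (h2.inter (h3.inter h4))

theorem measurableSet_box (C V : ℝ) : MeasurableSet (box C V) :=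
  measurableSet_closedBall.prod measurableSet_closedBall

theorem box_isometry (U : Space3 ≃ₗᵢ[ℝ] Space3) (C V : ℝ) (z : Space3 × Space3) :
    ((U z.1, U z.2) : Space3 × Space3) ∈ box C V ↔ z ∈ box C V := by
  simp only [box, mem_prod, mem_closedBall, dist_zero_right, U.norm_map]

theorem volume_box_ne_top (C V : ℝ) : volume (box C V) ≠ ⊤ := by
  unfold box
  rw [Measure.volume_eq_prod, Measure.prod_prod]
  exact ENNReal.mul_ne_top measure_closedBall_lt_top.ne measure_closedBall_lt_top.ne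

/-- The good part of a box. -/
def gbox (Φ : Space3 → ℝ) (R C V : ℝ) : Set (Space3 × Space3) := box C V ∩ {z | Exi Φ R z}

theorem measurableSet_gbox (hΦ : AdmissiblePotential Φ) (R C V : ℝ) :
    MeasurableSet (gbox Φ R C V) := (measurableSet_box C V).inter (measurableSet_exi hΦ R)

/-! ### Laws -/

theorem measurePreserving_isoPair (U : Space3 ≃ₗᵢ[ℝ] Space3) :
    MeasurePreserving (fun z : Space3 × Space3 => (U z.1, U z.2)) volume volume := by
  have h := (U.measurePreserving).prod (U.measurePreserving)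
  exact h

/-- The law of an equivariant function on an invariant set is isotropic. -/
theorem iso_law {G : Set (Space3 × Space3)} (hG : MeasurableSet G)
    (hGU : ∀ (U : Space3 ≃ₗᵢ[ℝ] Space3) (z : Space3 × Space3),
      ((U z.1, U z.2) : Space3 × Space3) ∈ G ↔ z ∈ G)
    {W : Space3 × Space3 → Space3} (hW : Measurable W)
    (hWU : ∀ (U : Space3 ≃ₗᵢ[ℝ] Space3), ∀ z ∈ G, W (U z.1, U z.2) = U (W z)) :
    Iso ((volume.restrict G).map W) := by
  intro U
  have hUm : Measurable fun z : Space3 × Space3 => (U z.1, U z.2) :=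
    (measurePreserving_isoPair U).measurable
  have hpre : (fun z : Space3 × Space3 => (U z.1, U z.2)) ⁻¹' G = G := by
    ext z; exact hGU U z
  have h1 : (volume.restrict G).map (fun z : Space3 × Space3 => (U z.1, U z.2)) =
      volume.restrict G := by
    have := (measurePreserving_isoPair U).restrict_preimage hG
    rw [hpre] at this
    exact this.map_eq
  rw [Measure.map_map U.continuous.measurable hW]
  conv_rhs => rw [← h1]
  rw [Measure.map_map hW hUm]
  refine Measure.map_congr ?_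
  filter_upwards [ae_restrict_mem hG] with z hz
  exact (hWU U z hz).symm

/-- From sets in the space of values to sets in phase space. -/
theorem law_le {G : Set (Space3 × Space3)} (hG : MeasurableSet G)
    {W : Space3 × Space3 → Space3} (hW : Measurable W) (A : Set Space3) :
    volume (G ∩ {z | W z ∈ A}) ≤ ((volume.restrict G).map W) A := by
  refine le_trans ?_ (Measure.le_map_apply hW.aemeasurable A)
  rw [inter_comm]
  exact Measure.le_restrict_apply G (W ⁻¹' A)

/-- **(I1)**, abstract form. -/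
theorem law_small_ball {G : Set (Space3 × Space3)} (hG : MeasurableSet G) (hfin : volume G ≠ ⊤)
    (hGU : ∀ (U : Space3 ≃ₗᵢ[ℝ] Space3) (z : Space3 × Space3),
      ((U z.1, U z.2) : Space3 × Space3) ∈ G ↔ z ∈ G)
    {W : Space3 × Space3 → Space3} (hW : Measurable W)
    (hWU : ∀ (U : Space3 ≃ₗᵢ[ℝ] Space3), ∀ z ∈ G, W (U z.1, U z.2) = U (W z))
    {δ : ℝ} (hδ : 0 < δ) :
    ∃ r : ℝ, 0 < r ∧ ∀ a : Space3,
      volume (G ∩ {z | W z ≠ 0 ∧ ‖W z - a‖ ≤ r}) ≤ ENNReal.ofReal δ := by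
  have hfm : IsFiniteMeasure (volume.restrict G) := ⟨by
    rw [Measure.restrict_apply_univ]; exact lt_top_iff_ne_top.2 hfin⟩
  have hfm2 : IsFiniteMeasure ((volume.restrict G).map W) := Measure.isFiniteMeasure_map _ _
  obtain ⟨r, hr, h⟩ := iso_small (iso_law hG hGU hW hWU) (θ := ENNReal.ofReal δ)
    (by simpa using hδ) 0 0 le_rfl
  refine ⟨r, hr, fun a => ?_⟩
  have h1 := h 0 0 (fun _ => a) (by simp) (by simp)
  refine (le_trans ?_ (law_le hG hW _)).trans h1
  refine measure_mono ?_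
  rintro z ⟨hz, hz0, hz1⟩
  exact ⟨hz, hz0, 0, ⟨le_rfl, le_rfl⟩, hz1⟩

/-- **(I2)**, abstract form. -/
theorem law_small_curve {G : Set (Space3 × Space3)} (hG : MeasurableSet G) (hfin : volume G ≠ ⊤)
    (hGU : ∀ (U : Space3 ≃ₗᵢ[ℝ] Space3) (z : Space3 × Space3),
      ((U z.1, U z.2) : Space3 × Space3) ∈ G ↔ z ∈ G)
    {W : Space3 × Space3 → Space3} (hW : Measurable W)
    (hWU : ∀ (U : Space3 ≃ₗᵢ[ℝ] Space3), ∀ z ∈ G, W (U z.1, U z.2) = U (W z))
    {V : ℝ} (hWV : ∀ z ∈ G, ‖W z‖ ≤ V) {δ L T η : ℝ} (hδ : 0 < δ) (hL : 0 ≤ L) (hη : 0 < η) :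
    ∃ r : ℝ, 0 < r ∧ ∀ c : ℝ → Space3,
      (∀ s ∈ Icc 0 T, ∀ t ∈ Icc 0 T, ‖c s - c t‖ ≤ L * |s - t|) →
      volume (G ∩ {z | W z ≠ 0 ∧ ∃ s ∈ Icc η T, ‖c s - s • W z‖ ≤ r}) ≤ ENNReal.ofReal δ := by
  by_cases hTη : T < η
  · refine ⟨1, one_pos, fun c _ => ?_⟩
    have : G ∩ {z | W z ≠ 0 ∧ ∃ s ∈ Icc η T, ‖c s - s • W z‖ ≤ 1} = ∅ := by
      ext z
      simp only [mem_inter_iff, mem_ofPred_eq, mem_empty_iff_false, iff_false]
      rintro ⟨_, _, s, hs, _⟩
      linarith [hs.1, hs.2]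
    rw [this, measure_empty]; exact bot_le
  push Not at hTη
  have hT : 0 < T := hη.trans_le hTη
  by_cases hV : V < 0
  · refine ⟨1, one_pos, fun c _ => ?_⟩
    have : G ∩ {z | W z ≠ 0 ∧ ∃ s ∈ Icc η T, ‖c s - s • W z‖ ≤ 1} = ∅ := by
      ext z
      simp only [mem_inter_iff, mem_ofPred_eq, mem_empty_iff_false, iff_false]
      rintro ⟨hz, _⟩
      linarith [hWV z hz, norm_nonneg (W z)]
    rw [this, measure_empty]; exact bot_le
  push Not at hV
  have hfm : IsFiniteMeasure (volume.restrict G) := ⟨by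
    rw [Measure.restrict_apply_univ]; exact lt_top_iff_ne_top.2 hfin⟩
  have hfm2 : IsFiniteMeasure ((volume.restrict G).map W) := Measure.isFiniteMeasure_map _ _
  set M : ℝ := 1 + T * V + L * T with hM
  have hM0 : 0 ≤ M := by positivity
  set L' : ℝ := L / η + M / η ^ 2 with hL'
  have hL'0 : 0 ≤ L' := by positivity
  obtain ⟨r, hr, h⟩ := iso_small (iso_law hG hGU hW hWU) (θ := ENNReal.ofReal δ)
    (by simpa using hδ) L' T hL'0
  refine ⟨min 1 (r * η), lt_min one_pos (by positivity), fun c hc => ?_⟩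
  by_cases hne : (G ∩ {z | W z ≠ 0 ∧ ∃ s ∈ Icc η T, ‖c s - s • W z‖ ≤ min 1 (r * η)}).Nonempty
  · obtain ⟨z₀, hz₀, _, s₀, hs₀, hcs₀⟩ := hne
    have hs₀' : s₀ ∈ Icc 0 T := ⟨hη.le.trans hs₀.1, hs₀.2⟩
    have hb₀ : ‖c s₀‖ ≤ 1 + T * V := by
      calc ‖c s₀‖ = ‖(c s₀ - s₀ • W z₀) + s₀ • W z₀‖ := by congr 1; abel
        _ ≤ ‖c s₀ - s₀ • W z₀‖ + ‖s₀ • W z₀‖ := norm_add_le _ _
        _ ≤ 1 + T * V := by
          refine add_le_add (hcs₀.trans (min_le_left _ _)) ?_
          rw [norm_smul, Real.norm_eq_abs, abs_of_nonneg hs₀'.1]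
          exact mul_le_mul hs₀'.2 (hWV z₀ hz₀) (norm_nonneg _) hT.le
    have hbt : ∀ t ∈ Icc η T, ‖c t‖ ≤ M := by
      intro t ht
      have ht' : t ∈ Icc 0 T := ⟨hη.le.trans ht.1, ht.2⟩
      calc ‖c t‖ = ‖(c t - c s₀) + c s₀‖ := by congr 1; abel
        _ ≤ ‖c t - c s₀‖ + ‖c s₀‖ := norm_add_le _ _
        _ ≤ L * T + (1 + T * V) := by
          refine add_le_add ((hc t ht' s₀ hs₀').trans ?_) hb₀
          refine mul_le_mul_of_nonneg_left ?_ hL
          rw [abs_le]
          constructor <;> linarith [ht'.1, ht'.2, hs₀'.1, hs₀'.2]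
        _ = M := by rw [hM]; ring
    have hlip : ∀ s ∈ Icc η T, ∀ t ∈ Icc η T,
        ‖s⁻¹ • c s - t⁻¹ • c t‖ ≤ L' * |s - t| := by
      intro s hs t ht
      have hs0 : 0 < s := hη.trans_le hs.1
      have ht0 : 0 < t := hη.trans_le ht.1
      have e : s⁻¹ • c s - t⁻¹ • c t = s⁻¹ • (c s - c t) + (s⁻¹ - t⁻¹) • c t := by
        rw [smul_sub, sub_smul]; abel
      rw [e]
      refine (norm_add_le _ _).trans ?_
      have h1 : ‖s⁻¹ • (c s - c t)‖ ≤ L / η * |s - t| := by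
        rw [norm_smul, norm_inv, Real.norm_eq_abs, abs_of_pos hs0]
        have h2 := hc s ⟨hs0.le, hs.2⟩ t ⟨ht0.le, ht.2⟩
        calc s⁻¹ * ‖c s - c t‖ ≤ η⁻¹ * (L * |s - t|) := by
              refine mul_le_mul ?_ h2 (norm_nonneg _) (by positivity)
              exact inv_anti₀ hη hs.1
          _ = L / η * |s - t| := by rw [div_eq_mul_inv]; ring
      have h3 : ‖(s⁻¹ - t⁻¹) • c t‖ ≤ M / η ^ 2 * |s - t| := by
        rw [norm_smul, Real.norm_eq_abs]
        have h4 : |s⁻¹ - t⁻¹| ≤ |s - t| / η ^ 2 := by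
          rw [inv_sub_inv hs0.ne' ht0.ne', abs_div, abs_of_pos (mul_pos hs0 ht0), abs_sub_comm t s]
          refine div_le_div_of_nonneg_left (abs_nonneg _) (by positivity) ?_
          nlinarith [hs.1, ht.1]
        calc |s⁻¹ - t⁻¹| * ‖c t‖ ≤ |s - t| / η ^ 2 * M :=
              mul_le_mul h4 (hbt t ht) (norm_nonneg _) (by positivity)
          _ = M / η ^ 2 * |s - t| := by ring
      calc ‖s⁻¹ • (c s - c t)‖ + ‖(s⁻¹ - t⁻¹) • c t‖ ≤ L / η * |s - t| + M / η ^ 2 * |s - t| :=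
            add_le_add h1 h3
        _ = L' * |s - t| := by rw [hL']; ring
    have h1 := h η T (fun s => s⁻¹ • c s) (by linarith) hlip
    refine (le_trans ?_ (law_le hG hW _)).trans h1
    refine measure_mono ?_
    rintro z ⟨hz, hz0, s, hs, hz1⟩
    refine ⟨hz, hz0, s, hs, ?_⟩
    have hs0 : 0 < s := hη.trans_le hs.1
    have e : W z - s⁻¹ • c s = -(s⁻¹ • (c s - s • W z)) := by
      rw [smul_sub, smul_smul, inv_mul_cancel₀ hs0.ne', one_smul]; abel
    rw [e, norm_neg, norm_smul, norm_inv, Real.norm_eq_abs, abs_of_pos hs0]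
    calc s⁻¹ * ‖c s - s • W z‖ ≤ η⁻¹ * (r * η) := by
          refine mul_le_mul (inv_anti₀ hη hs.1) (hz1.trans (min_le_right _ _)) (norm_nonneg _)
            (by positivity)
      _ = r := by field_simp
  · rw [not_nonempty_iff_eq_empty.1 hne, measure_empty]; exact bot_le

end Crest.Agent.R122.VLcore564
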