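import Crest.Agent.R122.VolChain_365
import Crest.Agent.R122.BadDefs_726

/-!
Row 122, helper365: the one-particle alternative of `BadStep` and its measure statement
(proved by helper350).
-/

set_option autoImplicit false

open MeasureTheory Set Filter
open Crest.AnalysisR.Kinetic
open Crest.Agent.R122.Flow671 Crest.Agent.R122.Loc45 Crest.Agent.R122.Chain726
open scoped ENNReal Classical Topology

noncomputable section

namespace Crest.Agent.R122.Vol365

/-- One released particle: grazing release, or bad graft (second alternative of `BadStep`). -/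
def BadAlt (Φ : Space3 → ℝ) (ε T s : ℝ) {ι : Type} {A A' : Finset ι} (W : A → PhasePoint)
    (W' : A' → PhasePoint) (j : A) (m i' : A') : Prop :=
  (j : ι) ∉ A' ∧ dist (flow Φ ε s W j).1 (flow Φ ε s W' m).1 = ε ∧
    (inner ℝ ((flow Φ ε s W j).1 - (flow Φ ε s W' m).1)
        ((flow Φ ε s W j).2 - (flow Φ ε s W' m).2) = 0 ∨
      0 < inner ℝ ((flow Φ ε s W j).1 - (flow Φ ε s W' m).1)
        ((flow Φ ε s W j).2 - (flow Φ ε s W' m).2) ∧
      BadGraft Φ ε T i' s W' m (flow Φ ε s W j))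

/-- Measure of the one-particle alternative. -/
def BadOneStatement (Φ : Space3 → ℝ) (T : ℝ) : Prop :=
  ∀ (ι : Type) [Fintype ι] (γ : ℝ), 0 < γ → ∃ q : ℝ → ℝ≥0∞, Tendsto q (𝓝[>] 0) (𝓝 0) ∧
    ∀ ε : ℝ, 0 < ε → ε ≤ 1 → ∀ A A' : Finset ι, A'.card + 1 = A.card → ∀ i' : A',
    ∀ f : Space3 → ℝ≥0∞, Measurable f → ∃ M : (A → PhasePoint) → ℝ≥0∞, Measurable M ∧
      (∀ s ∈ Icc 0 T, ∀ (W : A → PhasePoint) (W' : A' → PhasePoint), Step Φ ε s W W' →
        ∀ (j : A) (m : A'), BadAlt Φ ε T s W W' j m i' → f (W' i').1 ≤ M W) ∧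
      eint Φ ε γ M ≤ q ε * ENNReal.ofReal ε ^ (2 * (A.card - 1)) * ∫⁻ x, f x

end Crest.Agent.R122.Vol365

end
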