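import Crest.Agent.R122.VolFub_365

/-!
Row 122, helper365: the crude undamped cluster volume bound (strong induction on the cluster size).
-/

set_option autoImplicit false

open MeasureTheory Set
open Crest.AnalysisR.Kinetic
open scoped ENNReal Classical

noncomputable section

namespace Crest.Agent.R122.Vol365

/-- Bound on clusters of size at most `k`. -/
def Bd (k : ℕ) (C : ℝ≥0∞) (q : ℕ) : Prop :=
  ∀ (ε B : ℝ) (S : Bodies ε B) (K : ℕ) (E V T : ℝ), ε ≤ 1 → 1 ≤ V → 1 ≤ T →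
    2 * (E + B * K * (k + 1)) ≤ V ^ 2 →
    ∀ (ι : Type) [Fintype ι], Fintype.card ι ≤ k → Fintype.card ι ≤ K →
    ∀ (i : ι) (A : Set PhasePoint), MeasurableSet A → ∀ (a b : ℝ), a ≤ 0 → 0 ≤ b → b - a ≤ T →
      volume (S.SSet ι a b E i A) ≤
        C * ENNReal.ofReal (V * T) ^ q * ENNReal.ofReal ε ^ (2 * (Fintype.card ι - 1)) * volume A ∧
      ∀ σ ∈ Icc a b, volume (S.RSet ι a b σ E i A) ≤
        C * ENNReal.ofReal (V * T) ^ q * ENNReal.ofReal ε ^ (2 * (Fintype.card ι - 1)) * volume A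

namespace Bodies

variable {ε B : ℝ} (S : Bodies ε B)

/-- Connected with links but not by contacts alone. -/
def DSet (ι : Type) (a b σ E : ℝ) (i : ι) (A : Set PhasePoint) : Set (ι → PhasePoint) :=
  {z | z ∈ S.dom ι ∧ S.energy ι z ≤ E ∧
    AllConn (fun j k => S.Contact a b z j k ∨ S.Link σ z j k) ∧ ¬ AllConn (S.Contact a b z) ∧ z i ∈ A}

variable {ι : Type} [Fintype ι]

theorem contact_symm {a b : ℝ} {z : ι → PhasePoint} {i j : ι} (h : S.Contact a b z i j) :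
    S.Contact a b z j i := by
  obtain ⟨t, ht, h⟩ := h; exact ⟨t, ht, by rwa [dist_comm]⟩

theorem link_symm {σ : ℝ} {z : ι → PhasePoint} {i j : ι} (h : S.Link σ z i j) : S.Link σ z j i := by
  unfold Link at *; rwa [dist_comm]

theorem speed {z : ι → PhasePoint} (hz : z ∈ S.dom ι) {E V : ℝ} (hE : S.energy ι z ≤ E) (hV : 0 ≤ V)
    (h : 2 * (E + B * Fintype.card ι) ≤ V ^ 2) (i : ι) : ‖(z i).2‖ ≤ V := by
  have h1 := S.vel_le ι z hz i
  have : ‖(z i).2‖ ^ 2 ≤ V ^ 2 := by linarith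
  exact le_of_sq_le_sq this hV |>.trans (le_refl _)

theorem ext_right {z : ι → PhasePoint} (hz : z ∈ S.dom ι) {E V δ : ℝ} (hE : S.energy ι z ≤ E)
    (hV : 0 ≤ V) (h : 2 * (E + B * Fintype.card ι) ≤ V ^ 2) (hδ : 2 * V * δ ≤ ε) {a b b' : ℝ}
    (hbb : b' - b ≤ δ) {i j : ι} (hc : S.Contact a b' z i j) :
    S.Contact a b z i j ∨ S.Link b z i j := by
  obtain ⟨t, ht, hd⟩ := hc
  rcases le_or_gt t b with htb | htb
  · exact Or.inl ⟨t, ⟨ht.1, htb⟩, hd⟩
  · right
    have h2 : 2 * (S.energy ι z + B * Fintype.card ι) ≤ V ^ 2 := by linarith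
    have hi := S.lip ι z hz i b t V hV h2
    have hj := S.lip ι z hz j t b V hV h2
    have habs1 : |b - t| ≤ δ := by rw [abs_le]; constructor <;> linarith [ht.2]
    have habs2 : |t - b| ≤ δ := by rw [abs_le]; constructor <;> linarith [ht.2]
    have e1 : V * |b - t| ≤ V * δ := mul_le_mul_of_nonneg_left habs1 hV
    have e2 : V * |t - b| ≤ V * δ := mul_le_mul_of_nonneg_left habs2 hV
    show dist (S.pos z b i) (S.pos z b j) ≤ 2 * ε
    calc dist (S.pos z b i) (S.pos z b j)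
        ≤ dist (S.pos z b i) (S.pos z t i) + dist (S.pos z t i) (S.pos z t j) +
          dist (S.pos z t j) (S.pos z b j) := dist_triangle4 _ _ _ _
      _ ≤ V * δ + ε + V * δ := by
          refine add_le_add (add_le_add (le_trans hi e1) hd) (le_trans hj e2)
      _ ≤ 2 * ε := by linarith

theorem ext_left {z : ι → PhasePoint} (hz : z ∈ S.dom ι) {E V δ : ℝ} (hE : S.energy ι z ≤ E)
    (hV : 0 ≤ V) (h : 2 * (E + B * Fintype.card ι) ≤ V ^ 2) (hδ : 2 * V * δ ≤ ε) {a a' b : ℝ}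
    (haa : a - a' ≤ δ) {i j : ι} (hc : S.Contact a' b z i j) :
    S.Contact a b z i j ∨ S.Link a z i j := by
  obtain ⟨t, ht, hd⟩ := hc
  rcases le_or_gt a t with hta | hta
  · exact Or.inl ⟨t, ⟨hta, ht.2⟩, hd⟩
  · right
    have h2 : 2 * (S.energy ι z + B * Fintype.card ι) ≤ V ^ 2 := by linarith
    have hi := S.lip ι z hz i a t V hV h2
    have hj := S.lip ι z hz j t a V hV h2
    have habs1 : |a - t| ≤ δ := by rw [abs_le]; constructor <;> linarith [ht.1]
    have habs2 : |t - a| ≤ δ := by rw [abs_le]; constructor <;> linarith [ht.1]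
    have e1 : V * |a - t| ≤ V * δ := mul_le_mul_of_nonneg_left habs1 hV
    have e2 : V * |t - a| ≤ V * δ := mul_le_mul_of_nonneg_left habs2 hV
    show dist (S.pos z a i) (S.pos z a j) ≤ 2 * ε
    calc dist (S.pos z a i) (S.pos z a j)
        ≤ dist (S.pos z a i) (S.pos z t i) + dist (S.pos z t i) (S.pos z t j) +
          dist (S.pos z t j) (S.pos z a j) := dist_triangle4 _ _ _ _
      _ ≤ V * δ + ε + V * δ := by
          refine add_le_add (add_le_add (le_trans hi e1) hd) (le_trans hj e2)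
      _ ≤ 2 * ε := by linarith

/-- section bound for a `SSet` block whose root must be near `q` at time `σ`. -/
theorem near_S {k : ℕ} {C : ℝ≥0∞} {q' : ℕ} (hBd : Bd k C q') {K : ℕ} {E V T : ℝ} (hε : ε ≤ 1)
    (hV : 1 ≤ V) (hT : 1 ≤ T) (hEV : 2 * (E + B * K * (k + 1)) ≤ V ^ 2)
    (hk : Fintype.card ι ≤ k) (hK : Fintype.card ι ≤ K) (y : ι) {a b σ : ℝ} (hσ : σ ∈ Icc a b)
    (hT' : b - a ≤ T) (q : Space3) :
    volume {z : ι → PhasePoint | z ∈ S.SSet ι a b E y univ ∧ dist (S.pos z σ y) q ≤ 2 * ε} ≤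
      C * ENNReal.ofReal (V * T) ^ q' * ENNReal.ofReal ε ^ (2 * (Fintype.card ι - 1)) *
        volume (cell q (2 * ε) V) := by
  have hV0 : (0 : ℝ) ≤ V := by linarith
  have hBK : B * Fintype.card ι ≤ B * K * (k + 1) := by
    have h1 : B * (Fintype.card ι : ℝ) ≤ B * K := mul_le_mul_of_nonneg_left (by exact_mod_cast hK) S.B_nonneg
    have h2 : B * K ≤ B * K * (k + 1) := by
      have : 0 ≤ B * K * k := by have := S.B_nonneg; positivity
      linarith
    linarith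
  have hsub : {z : ι → PhasePoint | z ∈ S.SSet ι a b E y univ ∧ dist (S.pos z σ y) q ≤ 2 * ε} ⊆
      S.flow ι σ ⁻¹' (S.SSet ι (a - σ) (b - σ) E y (cell q (2 * ε) V)) := by
    refine Subset.trans ?_ (S.SSet_shift a b E σ y (cell q (2 * ε) V))
    rintro z ⟨⟨h1, h2, h3, -⟩, h5⟩
    refine ⟨h1, h2, h3, ?_, ?_⟩
    · exact h5
    · rw [mem_closedBall_zero_iff]
      exact S.speed (S.flow_dom ι σ z h1) (E := E) (by rw [S.energy_flow ι σ z h1]; exact h2) hV0
        (by linarith) y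
  refine (measure_mono hsub).trans ?_
  rw [(S.flow_mp ι σ).measure_preimage (S.measurableSet_SSet _ _ _ _ (measurableSet_cell _ _ _)).nullMeasurableSet]
  exact (hBd ε B S K E V T hε hV hT hEV ι hk hK y _ (measurableSet_cell _ _ _) (a - σ) (b - σ)
    (by linarith [hσ.1]) (by linarith [hσ.2]) (by linarith)).1

theorem near_R {k : ℕ} {C : ℝ≥0∞} {q' : ℕ} (hBd : Bd k C q') {K : ℕ} {E V T : ℝ} (hε : ε ≤ 1)
    (hV : 1 ≤ V) (hT : 1 ≤ T) (hEV : 2 * (E + B * K * (k + 1)) ≤ V ^ 2)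
    (hk : Fintype.card ι ≤ k) (hK : Fintype.card ι ≤ K) (y : ι) {a b σ : ℝ} (hσ : σ ∈ Icc a b)
    (hT' : b - a ≤ T) (q : Space3) :
    volume {z : ι → PhasePoint | z ∈ S.RSet ι a b σ E y univ ∧ dist (S.pos z σ y) q ≤ 2 * ε} ≤
      C * ENNReal.ofReal (V * T) ^ q' * ENNReal.ofReal ε ^ (2 * (Fintype.card ι - 1)) *
        volume (cell q (2 * ε) V) := by
  have hV0 : (0 : ℝ) ≤ V := by linarith
  have hBK : B * Fintype.card ι ≤ B * K * (k + 1) := by
    have h1 : B * (Fintype.card ι : ℝ) ≤ B * K := mul_le_mul_of_nonneg_left (by exact_mod_cast hK) S.B_nonneg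
    have h2 : B * K ≤ B * K * (k + 1) := by
      have : 0 ≤ B * K * k := by have := S.B_nonneg; positivity
      linarith
    linarith
  have hsub : {z : ι → PhasePoint | z ∈ S.RSet ι a b σ E y univ ∧ dist (S.pos z σ y) q ≤ 2 * ε} ⊆
      S.flow ι σ ⁻¹' (S.RSet ι (a - σ) (b - σ) 0 E y (cell q (2 * ε) V)) := by
    refine Subset.trans ?_ (S.RSet_shift a b E σ y (cell q (2 * ε) V))
    rintro z ⟨⟨h1, h2, h3, -⟩, h5⟩
    refine ⟨h1, h2, h3, ?_, ?_⟩
    · exact h5
    · rw [mem_closedBall_zero_iff]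
      exact S.speed (S.flow_dom ι σ z h1) (E := E) (by rw [S.energy_flow ι σ z h1]; exact h2) hV0
        (by linarith) y
  refine (measure_mono hsub).trans ?_
  rw [(S.flow_mp ι σ).measure_preimage (S.measurableSet_RSet _ _ _ _ _ (measurableSet_cell _ _ _)).nullMeasurableSet]
  exact (hBd ε B S K E V T hε hV hT hEV ι hk hK y _ (measurableSet_cell _ _ _) (a - σ) (b - σ)
    (by linarith [hσ.1]) (by linarith [hσ.2]) (by linarith)).2 0 ⟨by linarith [hσ.1], by linarith [hσ.2]⟩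

theorem res_contact {z : ι → PhasePoint} {p : ι → Prop} {a b : ℝ}
    (h : ∀ t ∈ Icc a b, ∀ i : {i // p i}, S.flow ι t z i = S.flow {i // p i} t (res p z) i)
    (i j : {i // p i}) : S.Contact a b (res p z) i j ↔ S.Contact a b z i j := by
  unfold Contact pos
  constructor
  · rintro ⟨t, ht, hd⟩; exact ⟨t, ht, by rw [h t ht i, h t ht j]; exact hd⟩
  · rintro ⟨t, ht, hd⟩; exact ⟨t, ht, by rw [h t ht i, h t ht j] at hd; exact hd⟩

theorem res_link {z : ι → PhasePoint} {p : ι → Prop} {σ : ℝ}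
    (h : ∀ i : {i // p i}, S.flow ι σ z i = S.flow {i // p i} σ (res p z) i)
    (i j : {i // p i}) : S.Link σ (res p z) i j ↔ S.Link σ z i j := by
  unfold Link pos; rw [h i, h j]

/-- Decomposition of a configuration of `DSet` in a linked block and a contact block. -/
theorem D_sub {a b σ E : ℝ} (ha : a ≤ 0) (hb : 0 ≤ b) (hσ : σ ∈ Icc a b) {i : ι} {A : Set PhasePoint}
    {z : ι → PhasePoint} (hz : z ∈ S.DSet ι a b σ E i A) :
    ∃ (P : Set ι) (x y : ι) (hx : x ∈ P) (hy : ¬ y ∈ P),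
      ((∃ hi : i ∈ P, res (fun j => j ∈ P) z ∈
            S.RSet {j // j ∈ P} a b σ (E + B * Fintype.card ι) ⟨i, hi⟩ A ∧
          res (fun j => ¬ j ∈ P) z ∈
            S.SSet {j // ¬ j ∈ P} a b (E + B * Fintype.card ι) ⟨y, hy⟩ univ) ∨
        (∃ hi : ¬ i ∈ P, res (fun j => j ∈ P) z ∈
            S.RSet {j // j ∈ P} a b σ (E + B * Fintype.card ι) ⟨x, hx⟩ univ ∧
          res (fun j => ¬ j ∈ P) z ∈
            S.SSet {j // ¬ j ∈ P} a b (E + B * Fintype.card ι) ⟨i, hi⟩ A)) ∧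
      dist (S.pos (res (fun j => j ∈ P) z) σ ⟨x, hx⟩) (S.pos (res (fun j => ¬ j ∈ P) z) σ ⟨y, hy⟩)
        ≤ 2 * ε := by
  obtain ⟨hdom, hE, hR, hN, hiA⟩ := hz
  obtain ⟨P, -, -, hno, hC, hD, x, y, hx, hy, hl⟩ :=
    VolGraph365.split (c := S.Contact a b z) (l := S.Link σ z)
      (fun i j h => S.contact_symm h) (fun i j h => S.link_symm h) hR hN
  have hsep : ∀ t ∈ Icc a b, ∀ i j, i ∈ P → ¬ j ∈ P →
      ε < dist (S.flow ι t z i).1 (S.flow ι t z j).1 := by
    intro t ht i j hi hj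
    by_contra hcon
    exact hno i hi j hj ⟨t, ht, not_lt.1 hcon⟩
  have hsep' : ∀ t ∈ Icc a b, ∀ i j, ¬ i ∈ P → ¬ ¬ j ∈ P →
      ε < dist (S.flow ι t z i).1 (S.flow ι t z j).1 := by
    intro t ht i j hi hj
    rw [dist_comm]; exact hsep t ht j i (not_not.1 hj) hi
  have h0 : (0 : ℝ) ∈ Icc a b := ⟨ha, hb⟩
  have hsep0 : ∀ i j, i ∈ P → ¬ j ∈ P → ε < dist (z i).1 (z j).1 := by
    intro i j hi hj
    have := hsep 0 h0 i j hi hj
    rwa [S.flow_zero ι z hdom] at this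
  have hsep0' : ∀ i j, ¬ i ∈ P → ¬ ¬ j ∈ P → ε < dist (z i).1 (z j).1 := by
    intro i j hi hj
    rw [dist_comm]; exact hsep0 j i (not_not.1 hj) hi
  have hloc := S.flow_local ι (fun j => j ∈ P) z hdom a b ha hb hsep
  have hloc' := S.flow_local ι (fun j => ¬ j ∈ P) z hdom a b ha hb hsep'
  have hdC := S.dom_restrict ι (fun j => j ∈ P) z hdom
  have hdD := S.dom_restrict ι (fun j => ¬ j ∈ P) z hdom
  have hEC := S.energy_restrict ι (fun j => j ∈ P) z hdom hsep0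
  have hED := S.energy_restrict ι (fun j => ¬ j ∈ P) z hdom hsep0'
  have hCC : AllConn (fun j k => S.Contact a b (res (fun j => j ∈ P) z) j k ∨
      S.Link σ (res (fun j => j ∈ P) z) j k) := by
    intro j k
    refine Relation.ReflTransGen.mono (r := fun x y : {i // i ∈ P} => S.Contact a b z x y ∨ S.Link σ z x y)
      (p := fun j k => S.Contact a b (res (fun j => j ∈ P) z) j k ∨
      S.Link σ (res (fun j => j ∈ P) z) j k) ?_ _ _ (hC j k)
    intro u v huv
    rcases huv with h | h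
    · exact Or.inl ((S.res_contact hloc u v).2 h)
    · exact Or.inr ((S.res_link (fun i => hloc σ hσ i) u v).2 h)
  have hDD : AllConn (S.Contact a b (res (fun j => ¬ j ∈ P) z)) := by
    intro j k
    refine Relation.ReflTransGen.mono (r := fun x y : {i // ¬ i ∈ P} => S.Contact a b z x y)
      (p := S.Contact a b (res (fun j => ¬ j ∈ P) z)) ?_ _ _ (hD j k)
    intro u v huv
    exact (S.res_contact hloc' u v).2 huv
  have hlink : dist (S.pos (res (fun j => j ∈ P) z) σ ⟨x, hx⟩)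
      (S.pos (res (fun j => ¬ j ∈ P) z) σ ⟨y, hy⟩) ≤ 2 * ε := by
    have e1 : S.pos (res (fun j => j ∈ P) z) σ ⟨x, hx⟩ = S.pos z σ x := by
      unfold pos; rw [← hloc σ hσ ⟨x, hx⟩]
    have e2 : S.pos (res (fun j => ¬ j ∈ P) z) σ ⟨y, hy⟩ = S.pos z σ y := by
      unfold pos; rw [← hloc' σ hσ ⟨y, hy⟩]
    rw [e1, e2]; exact hl
  refine ⟨P, x, y, hx, hy, ?_, hlink⟩
  by_cases hi : i ∈ P
  · left
    exact ⟨hi, ⟨hdC, by linarith, hCC, hiA⟩, ⟨hdD, by linarith, hDD, trivial⟩⟩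
  · right
    exact ⟨hi, ⟨hdC, by linarith, hCC, trivial⟩, ⟨hdD, by linarith, hDD, hiA⟩⟩

end Bodies

end Crest.Agent.R122.Vol365
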