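import Crest.Agent.R122.VolTaperDyn_365

/-!
Row 122, helper365: board D4, the tapered crude bound (multi-root, every environment).
-/

set_option autoImplicit false

open MeasureTheory Set Filter
open Crest.AnalysisR.Kinetic
open Crest.Agent.R122.Flow671 Crest.Agent.R122.Loc45
open Crest.Agent.R122.Causal291 (Past Ct pth BC)
open scoped ENNReal Classical Topology

noncomputable section

namespace Crest.Agent.R122.Vol365

/-- From volumes of sets to functions: a measurable majorant. -/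
theorem exists_majorant {X Y : Type*} [MeasurableSpace X] [MeasurableSpace Y] {μ : Measure X}
    {ν : Measure Y} {S : X → Y → Prop} {c : ℝ≥0∞}
    (h : ∀ A, MeasurableSet A → μ {x | ∃ y ∈ A, S x y} ≤ c * ν A) {F : Y → ℝ≥0∞}
    (hF : Measurable F) :
    ∃ G : X → ℝ≥0∞, Measurable G ∧ (∀ x y, S x y → F y ≤ G x) ∧ ∫⁻ x, G x ∂μ ≤ c * ∫⁻ y, F y ∂ν := by
  revert F
  intro F hF
  refine Measurable.ennreal_induction (motive := fun F : Y → ℝ≥0∞ => ∃ G : X → ℝ≥0∞, Measurable G ∧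
    (∀ x y, S x y → F y ≤ G x) ∧ ∫⁻ x, G x ∂μ ≤ c * ∫⁻ y, F y ∂ν) ?_ ?_ ?_ hF
  · intro c0 s hs
    refine ⟨(toMeasurable μ {x | ∃ y ∈ s, S x y}).indicator fun _ => c0,
      measurable_const.indicator (measurableSet_toMeasurable _ _), ?_, ?_⟩
    · intro x y hxy
      by_cases hy : y ∈ s
      · rw [indicator_of_mem hy, indicator_of_mem (subset_toMeasurable _ _
          (show x ∈ {x | ∃ y ∈ s, S x y} from ⟨y, hy, hxy⟩))]
      · rw [indicator_of_notMem hy]; exact bot_le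
    · rw [lintegral_indicator_const (measurableSet_toMeasurable _ _), measure_toMeasurable,
        lintegral_indicator_const hs]
      calc c0 * μ {x | ∃ y ∈ s, S x y} ≤ c0 * (c * ν s) := by gcongr; exact h s hs
        _ = _ := by ring
  · rintro f g - hf hg ⟨G₁, hG₁, h1, h1'⟩ ⟨G₂, hG₂, h2, h2'⟩
    refine ⟨G₁ + G₂, hG₁.add hG₂, fun x y hxy => add_le_add (h1 x y hxy) (h2 x y hxy), ?_⟩
    simp only [Pi.add_apply]
    rw [lintegral_add_left hG₁, lintegral_add_left hf, mul_add]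
    exact add_le_add h1' h2'
  · intro f hf hmono ih
    choose G hG h1 h2 using ih
    refine ⟨fun x => liminf (fun n => G n x) atTop, Measurable.liminf hG, ?_, ?_⟩
    · intro x y hxy
      refine iSup_le fun m => ?_
      refine le_liminf_of_le (by isBoundedDefault) ?_
      filter_upwards [eventually_ge_atTop m] with n hn
      exact (hmono hn y).trans (h1 n x y hxy)
    · refine (lintegral_liminf_le hG).trans ?_
      have h3 : ∀ n, ∫⁻ x, G n x ∂μ ≤ c * ∫⁻ y, ⨆ n, f n y ∂ν := fun n =>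
        (h2 n).trans (mul_le_mul_right (lintegral_mono fun y => le_iSup (fun n => f n y) n) _)
      calc liminf (fun n => ∫⁻ x, G n x ∂μ) atTop
          ≤ liminf (fun _ : ℕ => c * ∫⁻ y, ⨆ n, f n y ∂ν) atTop :=
            liminf_le_liminf (Eventually.of_forall h3)
        _ = _ := by rw [liminf_const]

variable {Φ : Space3 → ℝ} {ε : ℝ}

/-- A cluster in an environment is tapered. -/
theorem tapered_of_tapIn (hΦ : AdmissiblePotential Φ) (hε : 0 < ε) {t : ℝ} (ht : 0 ≤ t)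
    {ρ ι : Type} [Fintype ρ] [Fintype ι] {e : ρ → ι} (he : Function.Injective e)
    {V : ι → PhasePoint} {y : ρ → PhasePoint} (h : TapIn Φ ε t e V y) {K : ℕ}
    (hK : Fintype.card ι ≤ K) {E W : ℝ} (hE : energy Φ ε V ≤ E) (hW : 0 ≤ W)
    (hWE : 2 * (E + stabB Φ * K * K + stabB Φ * K) ≤ W ^ 2) {Y : Set (ρ → PhasePoint)}
    (hy : y ∈ Y) :
    (∀ᶠ N : ℕ in atTop, Tap (newton hΦ hε) Y W (2 * K) (t / N) N ι e V) ∧
      energy Φ ε y ≤ E + 2 * (stabB Φ * K * K) := by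
  obtain ⟨κ, _, Z, a, ha, hZ, hZV, hact, hy'⟩ := h
  have hB := stabB_nonneg Φ
  have hyy : (fun r => flow Φ ε t Z (a (e r))) = y := funext hy'
  obtain ⟨η, hη, hiso⟩ := exists_uniform_isolation hΦ hε Z (t := t) (fun r => a (e r))
  have hact' : range a = MAct (Ct (pth Φ ε Z) ε) t (fun r => a (e r)) 0 := hact.symm
  have hK' : (Fintype.card ι : ℝ) ≤ K := by exact_mod_cast hK
  have h0 : (fun i => flow Φ ε 0 Z (a i)) = V := by
    funext i; rw [flow_zero hΦ hε, hZV]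
  have hEE : energy Φ ε (fun i => flow Φ ε 0 Z (a i)) + stabB Φ * K * Fintype.card ι ≤
      E + stabB Φ * K * K := by
    rw [h0]
    have : stabB Φ * K * Fintype.card ι ≤ stabB Φ * K * K :=
      mul_le_mul_of_nonneg_left hK' (by positivity)
    linarith
  have hlim : Tendsto (fun N : ℕ => t / N) atTop (𝓝 0) := tendsto_const_div_atTop_nhds_zero_nat t
  have hlim2 : Tendsto (fun N : ℕ => 2 * W * (t / N)) atTop (𝓝 0) := by
    have := hlim.const_mul (2 * W)
    rwa [mul_zero] at this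
  have hev : ∀ᶠ N : ℕ in atTop, 1 ≤ N ∧ t / N ≤ η ∧ 2 * W * (t / N) ≤ ε := by
    filter_upwards [eventually_ge_atTop 1, hlim.eventually (Iio_mem_nhds hη),
      hlim2.eventually (Iio_mem_nhds hε)] with N h1 h2 h3
    exact ⟨h1, h2.le, h3.le⟩
  have key : ∀ N : ℕ, 1 ≤ N → t / N ≤ η → 2 * W * (t / N) ≤ ε →
      Tap (newton hΦ hε) Y W (2 * K) (t / N) N ι e V ∧
        energy Φ ε y ≤ E + 2 * (stabB Φ * K * K) := by
    intro N h1 h2 h3
    have h4 := tap_of_group hΦ hε hZ (t := t) (R := fun r => a (e r)) (δ := t / N) (η := η)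
      (by positivity) h2 hiso (K := K) (E := E) (V := W) (L := 2 * K) hW hWE le_rfl h3
      (Y := Y) (ha.comp he) (by rw [hyy]; exact hy) N 0 le_rfl (by
        have : (N : ℝ) ≠ 0 := by positivity
        field_simp; ring) ι a e ha hact' (fun r => rfl) hK hEE
    rw [h0, hyy] at h4
    exact h4
  refine ⟨hev.mono fun N h => (key N h.1 h.2.1 h.2.2).1, ?_⟩
  obtain ⟨N, h⟩ := hev.exists
  exact (key N h.1 h.2.1 h.2.2).2

theorem tapIn_dom {t : ℝ} {ρ ι : Type} [Fintype ι] {e : ρ → ι} {V : ι → PhasePoint}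
    {y : ρ → PhasePoint} (h : TapIn Φ ε t e V y) : V ∈ Dom Φ ι := by
  obtain ⟨κ, _, Z, a, ha, hZ, hZV, -⟩ := h
  have := Dom_comp ⟨a, ha⟩ hZ
  have e1 : (fun i => Z (a i)) = V := funext hZV
  rw [← e1]; exact this

/-- **D4, volume form.** -/
theorem vol_tapIn (hΦ : AdmissiblePotential Φ) (hε : 0 < ε) (hε1 : ε ≤ 1) {t : ℝ} (ht : 0 ≤ t)
    {ρ ι : Type} [Fintype ρ] [Fintype ι] {e : ρ → ι} (he : Function.Injective e) {K : ℕ}
    (hK : Fintype.card ι ≤ K) {E W : ℝ} (hW : 0 ≤ W)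
    (hWE : 2 * (E + stabB Φ * K * K + stabB Φ * K) ≤ W ^ 2) {Y : Set (ρ → PhasePoint)}
    (hY : MeasurableSet Y) :
    volume {V : ι → PhasePoint | energy Φ ε V ≤ E ∧ ∃ y ∈ Y, TapIn Φ ε t e V y} ≤
      (MM K W (2 * K) * ENNReal.ofReal ε ^ 2) ^ (Fintype.card ι - Fintype.card ρ) *
        ENNReal.ofReal (Real.exp t) * volume Y := by
  refine (measure_mono ?_).trans (vol_taper (newton hΦ hε) hY hε1 hW (by positivity) ht he hK)
  rintro V ⟨hE, y, hy, h⟩
  exact (tapered_of_tapIn hΦ hε ht he h hK hE hW hWE hy).1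

theorem MM_le (K : ℕ) {W : ℝ} (hW : 1 ≤ W) : MM K W (2 * K) ≤
    (1 + 2 ^ K * (14 * (K : ℝ≥0∞) ^ 2 * kap ^ 2 + (K : ℝ≥0∞) * ENNReal.ofReal (2 * K) ^ 3 * kap ^ 2)) *
      ENNReal.ofReal W ^ 4 := by
  have h1 : 1 ≤ ENNReal.ofReal W := by
    rw [← ENNReal.ofReal_one]; exact ENNReal.ofReal_le_ofReal hW
  have h3 : ENNReal.ofReal W ^ 3 ≤ ENNReal.ofReal W ^ 4 := pow_le_pow_right₀ h1 (by norm_num)
  unfold MM M0
  calc 2 ^ K * (14 * (K : ℝ≥0∞) ^ 2 * kap ^ 2 * ENNReal.ofReal W ^ 4 +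
        (K : ℝ≥0∞) * ENNReal.ofReal (2 * K) ^ 3 * kap ^ 2 * ENNReal.ofReal W ^ 3)
      ≤ 2 ^ K * (14 * (K : ℝ≥0∞) ^ 2 * kap ^ 2 * ENNReal.ofReal W ^ 4 +
        (K : ℝ≥0∞) * ENNReal.ofReal (2 * K) ^ 3 * kap ^ 2 * ENNReal.ofReal W ^ 4) := by gcongr
    _ = (2 ^ K * (14 * (K : ℝ≥0∞) ^ 2 * kap ^ 2 + (K : ℝ≥0∞) * ENNReal.ofReal (2 * K) ^ 3 * kap ^ 2)) *
      ENNReal.ofReal W ^ 4 := by ring
    _ ≤ _ := mul_le_mul_left le_add_self _

/-- The constant. -/
def C4 (K : ℕ) : ℝ≥0∞ :=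
  1 + 2 ^ K * (14 * (K : ℝ≥0∞) ^ 2 * kap ^ 2 + (K : ℝ≥0∞) * ENNReal.ofReal (2 * K) ^ 3 * kap ^ 2)

theorem C4_ne_top (K : ℕ) : C4 K ≠ ∞ := by
  unfold C4
  have hk : kap ≠ ∞ := kap_ne_top
  refine ENNReal.add_ne_top.2 ⟨ENNReal.one_ne_top, ENNReal.mul_ne_top (by simp)
    (ENNReal.add_ne_top.2 ⟨?_, ?_⟩)⟩
  · exact ENNReal.mul_ne_top (ENNReal.mul_ne_top (by simp) (by simp)) (ENNReal.pow_ne_top hk)
  · exact ENNReal.mul_ne_top (ENNReal.mul_ne_top (by simp) (ENNReal.pow_ne_top ENNReal.ofReal_ne_top))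
      (ENNReal.pow_ne_top hk)

/-- One energy level. -/
theorem level_majorant (hΦ : AdmissiblePotential Φ) (hε : 0 < ε) (hε1 : ε ≤ 1) {t T : ℝ} (ht : 0 ≤ t)
    (htT : t ≤ T) {ρ ι : Type} [Fintype ρ] [Fintype ι] {e : ρ → ι} (he : Function.Injective e)
    {k : ℕ} (hk : Fintype.card ι = k) {F : (ρ → PhasePoint) → ℝ≥0∞} (hF : Measurable F) (n : ℕ) :
    ∃ G : (ι → PhasePoint) → ℝ≥0∞, Measurable G ∧
      (∀ V y, TapIn Φ ε t e V y → energy Φ ε V + stabB Φ * k ≤ n → F y ≤ G V) ∧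
      ∫⁻ V, G V ≤ (ENNReal.ofReal (Real.exp T) * (C4 k ^ k *
        ENNReal.ofReal ((1 + 2 * n + 2 * (2 * stabB Φ) * k * k) * 1) ^ (4 * k)) *
          ENNReal.ofReal ε ^ (2 * (Fintype.card ι - Fintype.card ρ))) * ∫⁻ y, F y := by
  have hB := stabB_nonneg Φ
  set W : ℝ := (1 + 2 * n + 2 * (2 * stabB Φ) * k * k) * 1 with hWdef
  have hn : (0 : ℝ) ≤ n := by positivity
  have hBk : 0 ≤ stabB Φ * k * k := by positivity
  have hBk2 : stabB Φ * k ≤ stabB Φ * k * k := by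
    rcases Nat.eq_zero_or_pos k with h0 | h0
    · simp [h0]
    · have : (1 : ℝ) ≤ k := by exact_mod_cast h0
      exact le_mul_of_one_le_right (by positivity) this
  have hW1 : 1 ≤ W := by
    rw [hWdef]; nlinarith
  have hWE : 2 * ((n : ℝ) + stabB Φ * k * k + stabB Φ * k) ≤ W ^ 2 := by
    have h1 : W = 1 + 2 * (n + 2 * (stabB Φ * k * k)) := by rw [hWdef]; ring
    rw [h1]
    nlinarith [sq_nonneg ((n : ℝ) + 2 * (stabB Φ * k * k))]
  obtain ⟨G, hG, h1, h2⟩ := exists_majorant (μ := (volume : Measure (ι → PhasePoint)))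
    (ν := (volume : Measure (ρ → PhasePoint)))
    (S := fun V y => TapIn Φ ε t e V y ∧ energy Φ ε V + stabB Φ * k ≤ n)
    (c := ENNReal.ofReal (Real.exp T) * (C4 k ^ k * ENNReal.ofReal W ^ (4 * k)) *
          ENNReal.ofReal ε ^ (2 * (Fintype.card ι - Fintype.card ρ))) (by
      intro A hA
      have h3 : {V : ι → PhasePoint | ∃ y ∈ A, TapIn Φ ε t e V y ∧
          energy Φ ε V + stabB Φ * k ≤ n} ⊆
          {V : ι → PhasePoint | energy Φ ε V ≤ n ∧ ∃ y ∈ A, TapIn Φ ε t e V y} := by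
        rintro V ⟨y, hy, h4, h5⟩
        have : 0 ≤ stabB Φ * k := by positivity
        exact ⟨by linarith, y, hy, h4⟩
      refine (measure_mono h3).trans ((vol_tapIn hΦ hε hε1 ht he hk.le (zero_le_one.trans hW1) hWE
        hA).trans ?_)
      refine mul_le_mul_left ?_ _
      rw [mul_pow, ← pow_mul]
      have h4 : MM k W (2 * k) ^ (Fintype.card ι - Fintype.card ρ) ≤
          C4 k ^ k * ENNReal.ofReal W ^ (4 * k) := by
        have h5 : 1 ≤ C4 k * ENNReal.ofReal W ^ 4 := by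
          refine one_le_mul (by unfold C4; exact le_self_add) (one_le_pow₀ ?_)
          rw [← ENNReal.ofReal_one]; exact ENNReal.ofReal_le_ofReal hW1
        calc MM k W (2 * k) ^ (Fintype.card ι - Fintype.card ρ)
            ≤ (C4 k * ENNReal.ofReal W ^ 4) ^ (Fintype.card ι - Fintype.card ρ) :=
              pow_le_pow_left' (MM_le k hW1) _
          _ ≤ (C4 k * ENNReal.ofReal W ^ 4) ^ k := pow_le_pow_right₀ h5 (by omega)
          _ = _ := by rw [mul_pow, ← pow_mul]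
      have h6 : ENNReal.ofReal (Real.exp t) ≤ ENNReal.ofReal (Real.exp T) :=
        ENNReal.ofReal_le_ofReal (Real.exp_le_exp.2 htT)
      calc MM k W (2 * k) ^ (Fintype.card ι - Fintype.card ρ) *
            ENNReal.ofReal ε ^ (2 * (Fintype.card ι - Fintype.card ρ)) * ENNReal.ofReal (Real.exp t)
          ≤ (C4 k ^ k * ENNReal.ofReal W ^ (4 * k)) *
            ENNReal.ofReal ε ^ (2 * (Fintype.card ι - Fintype.card ρ)) *
            ENNReal.ofReal (Real.exp T) := by gcongr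
        _ = _ := by ring) hF
  exact ⟨G, hG, fun V y hV hE => h1 V y ⟨hV, hE⟩, h2⟩

/-- **D4**, with a measurable majorant. -/
theorem d4_majorant (hΦ : AdmissiblePotential Φ) {γ : ℝ} (hγ : 0 < γ) (T : ℝ) (k : ℕ) :
    ∃ C : ℝ≥0∞, C ≠ ∞ ∧
    ∀ ε : ℝ, 0 < ε → ε ≤ 1 → ∀ (ρ ι : Type) [Fintype ρ] [Fintype ι], Fintype.card ι = k →
    ∀ e : ρ → ι, Function.Injective e → ∀ t : ℝ, 0 ≤ t → t ≤ T →
    ∀ F : (ρ → PhasePoint) → ℝ≥0∞, Measurable F → ∃ G : (ι → PhasePoint) → ℝ≥0∞, Measurable G ∧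
      (∀ V y, TapIn Φ ε t e V y →
        ENNReal.ofReal (Real.exp (-(γ * energy Φ ε V))) * F y ≤ G V) ∧
      ∫⁻ V, G V ≤ C * ENNReal.ofReal ε ^ (2 * (Fintype.card ι - Fintype.card ρ)) *
          ∫⁻ y : ρ → PhasePoint, ENNReal.ofReal (Real.exp (-(γ / 2 * energy Φ ε y))) * F y := by
  have hB := stabB_nonneg Φ
  set B := stabB Φ with hBdef
  refine ⟨ENNReal.ofReal (Real.exp T) * ENNReal.ofReal (Real.exp (γ * (B * k * k))) *
    Cg (2 * B) γ 1 k (C4 k ^ k) (4 * k), ?_, ?_⟩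
  · exact ENNReal.mul_ne_top (ENNReal.mul_ne_top ENNReal.ofReal_ne_top ENNReal.ofReal_ne_top)
      (Cg_ne_top (by positivity) hγ zero_le_one k (ENNReal.pow_ne_top (C4_ne_top k)) _)
  intro ε hε hε1 ρ ι _ _ hk e he t ht htT F hF
  have hem : Measurable fun y : ρ → PhasePoint => energy Φ ε y := by
    have h0 : (newton hΦ hε).energy ρ = fun y => energy Φ ε y :=
      funext fun y => newton_energy hΦ hε ρ y
    rw [← h0]
    exact (newton hΦ hε).energy_meas ρ
  set F' : (ρ → PhasePoint) → ℝ≥0∞ := fun y =>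
    ENNReal.ofReal (Real.exp (-(γ / 2 * energy Φ ε y))) * F y with hF'
  have hF'm : Measurable F' :=
    (by fun_prop : Measurable fun y : ρ → PhasePoint =>
      ENNReal.ofReal (Real.exp (-(γ / 2 * energy Φ ε y)))).mul hF
  choose G hG h1 h2 using level_majorant hΦ hε hε1 ht htT he hk hF'm
  set κ : ℕ → ℝ≥0∞ := fun n => ENNReal.ofReal (Real.exp (γ * (B * k * k))) *
    ENNReal.ofReal (Real.exp (γ * (1 + 2 * B * k)) * Real.exp (-(γ / 2 * n))) with hκ
  refine ⟨fun V => ∑' n, κ n * G n V, Measurable.tsum fun n => (hG n).const_mul _, ?_, ?_⟩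
  · intro V y hV
    have hVd := tapIn_dom hV
    set n : ℕ := ⌈energy Φ ε V + B * k⌉₊ with hn
    have hkin : 0 ≤ energy Φ ε V + B * k := by
      have h3 := kin_le hΦ hε hVd
      rw [hk] at h3
      exact (kin_nonneg V).trans h3
    have hn1 : energy Φ ε V + B * k ≤ n := Nat.le_ceil _
    have hn2 : (n : ℝ) < energy Φ ε V + B * k + 1 := Nat.ceil_lt_add_one hkin
    have h3 := h1 n V y hV hn1
    have hEy : energy Φ ε y ≤ n + 2 * (B * k * k) := by
      set W : ℝ := 1 + 2 * (n + B * k * k + B * k) with hW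
      have hX : 0 ≤ (n : ℝ) + B * k * k + B * k := by positivity
      have h4 := (tapered_of_tapIn hΦ hε ht he hV (K := k) hk.le (E := n) (W := W)
        (by have : 0 ≤ B * k := by positivity
            linarith) (by rw [hW]; linarith) (by rw [hW]; nlinarith) (Y := univ) (mem_univ y)).2
      exact h4
    refine le_trans ?_ (ENNReal.le_tsum n)
    have h5 : ENNReal.ofReal (Real.exp (-(γ * energy Φ ε V))) * F y ≤
        κ n * F' y := by
      rw [hF', hκ]
      simp only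
      rw [← mul_assoc]
      refine mul_le_mul_left ?_ _
      rw [← ENNReal.ofReal_mul (by positivity), ← ENNReal.ofReal_mul (by positivity)]
      refine ENNReal.ofReal_le_ofReal ?_
      rw [← Real.exp_add, ← Real.exp_add, ← Real.exp_add]
      refine Real.exp_le_exp.2 ?_
      have h6 : γ * n ≤ γ * (energy Φ ε V + B * k + 1) := mul_le_mul_of_nonneg_left hn2.le hγ.le
      have h7 : γ / 2 * energy Φ ε y ≤ γ / 2 * (n + 2 * (B * k * k)) :=
        mul_le_mul_of_nonneg_left hEy (by positivity)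
      have h8 : 0 ≤ γ * (B * k) := by positivity
      nlinarith
    exact h5.trans (mul_le_mul_right h3 _)
  · rw [lintegral_tsum fun n => ((hG n).const_mul _).aemeasurable]
    have e0 : ∀ n, ∫⁻ V, κ n * G n V = κ n * ∫⁻ V, G n V := fun n =>
      lintegral_const_mul _ (hG n)
    simp_rw [e0]
    have e1 : ∀ n : ℕ, κ n * ((ENNReal.ofReal (Real.exp T) * (C4 k ^ k *
        ENNReal.ofReal ((1 + 2 * n + 2 * (2 * B) * k * k) * 1) ^ (4 * k)) *
          ENNReal.ofReal ε ^ (2 * (Fintype.card ι - Fintype.card ρ))) * ∫⁻ y, F' y) =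
        (ENNReal.ofReal (Real.exp T) * ENNReal.ofReal (Real.exp (γ * (B * k * k)))) *
        (ENNReal.ofReal (Real.exp (γ * (1 + 2 * B * k)) * Real.exp (-(γ / 2 * n))) *
          (C4 k ^ k * ENNReal.ofReal ((1 + 2 * n + 2 * (2 * B) * k * k) * 1) ^ (4 * k))) *
        (ENNReal.ofReal ε ^ (2 * (Fintype.card ι - Fintype.card ρ)) * ∫⁻ y, F' y) := by
      intro n; rw [hκ]; ring
    refine (ENNReal.tsum_le_tsum fun n =>
      (mul_le_mul_right (h2 n) (κ n)).trans (e1 n).le).trans (le_of_eq ?_)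
    rw [ENNReal.tsum_mul_right, ENNReal.tsum_mul_left]
    unfold Cg
    ring

/-- **D4.** -/
theorem d4 (hΦ : AdmissiblePotential Φ) : D4Statement Φ := by
  intro γ hγ T k
  obtain ⟨C, hC, h⟩ := d4_majorant hΦ hγ T k
  refine ⟨C, hC, ?_⟩
  intro ε hε hε1 ρ ι _ _ hk e he t ht htT F hF
  obtain ⟨G, hG, h1, h2⟩ := h ε hε hε1 ρ ι hk e he t ht htT F hF
  refine (lintegral_mono fun V => ?_).trans h2
  rw [ENNReal.mul_iSup]
  refine iSup_le fun y => ?_
  rw [ENNReal.mul_iSup]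
  exact iSup_le fun hy => h1 V y hy

end Crest.Agent.R122.Vol365

end
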