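import Mathlib
import Crest.Prelude.Def_KineticLimit

/-!
Row 122, crude undamped cluster volume bounds (helper365): abstract many-body families.

`Bodies ε B` packages, for all finite index types, a measure preserving flow on configurations with
energy conservation, a speed bound coming from stability, and locality: groups which stay at mutual
distance `> ε` evolve separately.
-/

set_option autoImplicit false

open MeasureTheory Set
open Crest.AnalysisR.Kinetic
open scoped ENNReal Classical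

noncomputable section

namespace Crest.Agent.R122.Vol365

/-- An abstract family of many-body evolutions at interaction range `ε` and stability constant `B`. -/
structure Bodies (ε B : ℝ) where
  /-- the flow -/
  flow : (ι : Type) → ℝ → (ι → PhasePoint) → (ι → PhasePoint)
  /-- the domain (conull, invariant) -/
  dom : (ι : Type) → Set (ι → PhasePoint)
  /-- the energy -/
  energy : (ι : Type) → (ι → PhasePoint) → ℝ
  eps_pos : 0 < ε
  B_nonneg : 0 ≤ B
  dom_meas : ∀ (ι : Type) [Fintype ι], MeasurableSet (dom ι)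
  dom_ae : ∀ (ι : Type) [Fintype ι], ∀ᵐ z : ι → PhasePoint, z ∈ dom ι
  flow_dom : ∀ (ι : Type) [Fintype ι] (t : ℝ) (z : ι → PhasePoint), z ∈ dom ι → flow ι t z ∈ dom ι
  flow_zero : ∀ (ι : Type) [Fintype ι] (z : ι → PhasePoint), z ∈ dom ι → flow ι 0 z = z
  flow_add : ∀ (ι : Type) [Fintype ι] (s t : ℝ) (z : ι → PhasePoint), z ∈ dom ι →
    flow ι (s + t) z = flow ι s (flow ι t z)
  flow_mp : ∀ (ι : Type) [Fintype ι] (t : ℝ),
    MeasurePreserving (flow ι t) (volume : Measure (ι → PhasePoint)) volume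
  cont : ∀ (ι : Type) [Fintype ι] (z : ι → PhasePoint), z ∈ dom ι → ∀ i, Continuous fun t => (flow ι t z i).1
  energy_meas : ∀ (ι : Type) [Fintype ι], Measurable (energy ι)
  energy_flow : ∀ (ι : Type) [Fintype ι] (t : ℝ) (z : ι → PhasePoint), z ∈ dom ι →
    energy ι (flow ι t z) = energy ι z
  vel_le : ∀ (ι : Type) [Fintype ι] (z : ι → PhasePoint), z ∈ dom ι → ∀ i,
    ‖(z i).2‖ ^ 2 ≤ 2 * (energy ι z + B * Fintype.card ι)
  lip : ∀ (ι : Type) [Fintype ι] (z : ι → PhasePoint), z ∈ dom ι → ∀ (i : ι) (s t V : ℝ), 0 ≤ V →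
    2 * (energy ι z + B * Fintype.card ι) ≤ V ^ 2 →
    dist (flow ι s z i).1 (flow ι t z i).1 ≤ V * |s - t|
  dom_restrict : ∀ (ι : Type) [Fintype ι] (p : ι → Prop) (z : ι → PhasePoint), z ∈ dom ι →
    (fun i : {i // p i} => z i) ∈ dom {i // p i}
  flow_local : ∀ (ι : Type) [Fintype ι] (p : ι → Prop) (z : ι → PhasePoint), z ∈ dom ι →
    ∀ a b : ℝ, a ≤ 0 → 0 ≤ b →
    (∀ t ∈ Icc a b, ∀ i j, p i → ¬ p j → ε < dist (flow ι t z i).1 (flow ι t z j).1) →
    ∀ t ∈ Icc a b, ∀ i : {i // p i}, flow ι t z i = flow {i // p i} t (fun i => z i) i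
  energy_restrict : ∀ (ι : Type) [Fintype ι] (p : ι → Prop) (z : ι → PhasePoint), z ∈ dom ι →
    (∀ i j, p i → ¬ p j → ε < dist (z i).1 (z j).1) →
    energy {i // p i} (fun i => z i) ≤ energy ι z + B * Fintype.card ι

variable {ε B : ℝ} (S : Bodies ε B)

namespace Bodies

/-- Position of particle `i` at time `t`. -/
def pos {ι : Type} (z : ι → PhasePoint) (t : ℝ) (i : ι) : Space3 := (S.flow ι t z i).1

/-- `i` and `j` come within distance `ε` during `[a,b]`. -/
def Contact {ι : Type} (a b : ℝ) (z : ι → PhasePoint) (i j : ι) : Prop :=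
  ∃ t ∈ Icc a b, dist (S.pos z t i) (S.pos z t j) ≤ ε

/-- `i` and `j` are within distance `2ε` at time `σ`. -/
def Link {ι : Type} (σ : ℝ) (z : ι → PhasePoint) (i j : ι) : Prop :=
  dist (S.pos z σ i) (S.pos z σ j) ≤ 2 * ε

end Bodies

/-- All vertices are connected by chains of the relation. -/
def AllConn {ι : Type} (r : ι → ι → Prop) : Prop := ∀ i j, Relation.ReflTransGen r i j

namespace Bodies

/-- Connected-by-contacts configurations on `[a,b]` with energy at most `E` and root state in `A`. -/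
def SSet (ι : Type) (a b E : ℝ) (i : ι) (A : Set PhasePoint) : Set (ι → PhasePoint) :=
  {z | z ∈ S.dom ι ∧ S.energy ι z ≤ E ∧ AllConn (S.Contact a b z) ∧ z i ∈ A}

/-- Connected by contacts on `[a,b]` and links at time `σ`. -/
def RSet (ι : Type) (a b σ E : ℝ) (i : ι) (A : Set PhasePoint) : Set (ι → PhasePoint) :=
  {z | z ∈ S.dom ι ∧ S.energy ι z ≤ E ∧
    AllConn (fun j k => S.Contact a b z j k ∨ S.Link σ z j k) ∧ z i ∈ A}

variable {ι : Type} [Fintype ι]

theorem measurable_pos (t : ℝ) (i : ι) : Measurable fun z : ι → PhasePoint => S.pos z t i :=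
  ((measurable_pi_apply i).comp (S.flow_mp ι t).measurable).fst

theorem continuous_pos {z : ι → PhasePoint} (hz : z ∈ S.dom ι) (i : ι) :
    Continuous fun t => S.pos z t i := S.cont ι z hz i

theorem pos_shift {z : ι → PhasePoint} (hz : z ∈ S.dom ι) (s t : ℝ) (i : ι) :
    S.pos (S.flow ι t z) s i = S.pos z (s + t) i := by
  unfold pos; rw [S.flow_add ι s t z hz]

theorem contact_shift {z : ι → PhasePoint} (hz : z ∈ S.dom ι) (a b t : ℝ) (i j : ι) :
    S.Contact (a - t) (b - t) (S.flow ι t z) i j ↔ S.Contact a b z i j := by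
  unfold Contact
  constructor
  · rintro ⟨s, hs, h⟩
    refine ⟨s + t, ⟨by linarith [hs.1], by linarith [hs.2]⟩, ?_⟩
    rwa [S.pos_shift hz, S.pos_shift hz] at h
  · rintro ⟨s, hs, h⟩
    refine ⟨s - t, ⟨by linarith [hs.1], by linarith [hs.2]⟩, ?_⟩
    rw [S.pos_shift hz, S.pos_shift hz]; simpa using h

theorem link_shift {z : ι → PhasePoint} (hz : z ∈ S.dom ι) (σ t : ℝ) (i j : ι) :
    S.Link (σ - t) (S.flow ι t z) i j ↔ S.Link σ z i j := by
  unfold Link; rw [S.pos_shift hz, S.pos_shift hz]; simp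

/-- Measurability of the contact event inside the domain. -/
theorem measurableSet_contact (a b : ℝ) (i j : ι) :
    MeasurableSet {z : ι → PhasePoint | z ∈ S.dom ι ∧ S.Contact a b z i j} := by
  rcases lt_or_ge b a with hba | hab
  · have : {z : ι → PhasePoint | z ∈ S.dom ι ∧ S.Contact a b z i j} = ∅ := by
      ext z; simp only [mem_setOf_eq, mem_empty_iff_false, iff_false, not_and]
      rintro - ⟨t, ht, -⟩
      exact absurd (ht.1.trans ht.2) (not_le.2 hba)
    rw [this]; exact MeasurableSet.empty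
  · -- dense countable subset of Icc a b
    obtain ⟨D, hDc, hDd⟩ := TopologicalSpace.exists_countable_dense (Icc a b)
    have key : {z : ι → PhasePoint | z ∈ S.dom ι ∧ S.Contact a b z i j}
        = S.dom ι ∩ ⋂ n : ℕ, ⋃ t ∈ D, {z | dist (S.pos z (t : ℝ) i) (S.pos z (t : ℝ) j) < ε + 1 / ((n : ℝ) + 1)} := by
      ext z
      simp only [mem_setOf_eq, mem_inter_iff, mem_iInter, mem_iUnion, exists_prop]
      constructor
      · rintro ⟨hz, t, ht, h⟩
        refine ⟨hz, fun n => ?_⟩
        have hc : Continuous fun s : Icc a b => dist (S.pos z (s : ℝ) i) (S.pos z (s : ℝ) j) :=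
          ((S.continuous_pos hz i).dist (S.continuous_pos hz j)).comp continuous_subtype_val
        have hopen : IsOpen {s : Icc a b | dist (S.pos z (s : ℝ) i) (S.pos z (s : ℝ) j) < ε + 1 / ((n : ℝ) + 1)} :=
          isOpen_lt hc continuous_const
        have hne : {s : Icc a b | dist (S.pos z (s : ℝ) i) (S.pos z (s : ℝ) j) < ε + 1 / ((n : ℝ) + 1)}.Nonempty :=
          ⟨⟨t, ht⟩, lt_of_le_of_lt h (by simpa using by positivity)⟩
        obtain ⟨s, hs, hsD⟩ := hDd.inter_open_nonempty _ hopen hne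
        exact ⟨s, hsD, hs⟩
      · rintro ⟨hz, h⟩
        refine ⟨hz, ?_⟩
        have hc : ContinuousOn (fun s : ℝ => dist (S.pos z s i) (S.pos z s j)) (Icc a b) :=
          ((S.continuous_pos hz i).dist (S.continuous_pos hz j)).continuousOn
        obtain ⟨t, ht, hmin⟩ := isCompact_Icc.exists_isMinOn (nonempty_Icc.2 hab) hc
        refine ⟨t, ht, ?_⟩
        refine le_of_forall_pos_lt_add ?_ 
        intro η hη
        obtain ⟨n, hn⟩ := exists_nat_one_div_lt hη
        obtain ⟨s, -, hs⟩ := h n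
        calc dist (S.pos z t i) (S.pos z t j) ≤ dist (S.pos z (s : ℝ) i) (S.pos z (s : ℝ) j) := hmin s.2
          _ < ε + 1 / ((n : ℝ) + 1) := hs
          _ < ε + η := by linarith
    rw [key]
    refine (S.dom_meas ι).inter (MeasurableSet.iInter fun n => MeasurableSet.biUnion hDc fun t _ => ?_)
    exact measurableSet_lt ((S.measurable_pos _ i).dist (S.measurable_pos _ j)) measurable_const

theorem measurableSet_link (σ : ℝ) (i j : ι) :
    MeasurableSet {z : ι → PhasePoint | S.Link σ z i j} :=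
  measurableSet_le ((S.measurable_pos _ i).dist (S.measurable_pos _ j)) measurable_const

/-- A finite family of measurable events has a measurable "relation" for every property. -/
theorem measurableSet_rel {X : Type*} [MeasurableSpace X] {D : Set X} (hD : MeasurableSet D)
    (r : X → ι → ι → Prop) (hr : ∀ i j, MeasurableSet {z | z ∈ D ∧ r z i j})
    (Q : (ι → ι → Prop) → Prop) : MeasurableSet {z | z ∈ D ∧ Q (r z)} := by
  have : {z | z ∈ D ∧ Q (r z)} = ⋃ r₀ ∈ {r₀ : ι → ι → Prop | Q r₀},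
      D ∩ ⋂ i, ⋂ j, (if r₀ i j then {z | z ∈ D ∧ r z i j} else D \ {z | z ∈ D ∧ r z i j}) := by
    ext z
    simp only [mem_iUnion, mem_iInter, exists_prop, mem_inter_iff]
    constructor
    · rintro ⟨hz, hQ⟩
      refine ⟨r z, hQ, hz, fun i j => ?_⟩
      by_cases h : r z i j
      · rw [if_pos h]; exact ⟨hz, h⟩
      · rw [if_neg h]; exact ⟨hz, fun h' => h h'.2⟩
    · rintro ⟨r₀, hQ, hz, h⟩
      have : r z = r₀ := by
        ext i j
        have := h i j
        by_cases h0 : r₀ i j
        · rw [if_pos h0] at this; exact ⟨fun _ => h0, fun _ => this.2⟩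
        · rw [if_neg h0] at this; exact ⟨fun h1 => absurd ⟨hz, h1⟩ this.2, fun h1 => absurd h1 h0⟩
      refine ⟨hz, ?_⟩
      rw [this]; exact hQ
  rw [this]
  refine MeasurableSet.biUnion (Set.to_countable _) fun r₀ _ => hD.inter ?_
  refine MeasurableSet.iInter fun i => MeasurableSet.iInter fun j => ?_
  split_ifs
  · exact hr i j
  · exact hD.diff (hr i j)

theorem measurableSet_SSet (a b E : ℝ) (i : ι) {A : Set PhasePoint} (hA : MeasurableSet A) :
    MeasurableSet (S.SSet ι a b E i A) := by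
  have h1 : MeasurableSet {z : ι → PhasePoint | z ∈ S.dom ι ∧ AllConn (S.Contact a b z)} :=
    measurableSet_rel (S.dom_meas ι) (fun z => S.Contact a b z)
      (fun i j => S.measurableSet_contact a b i j) AllConn
  have h2 : MeasurableSet {z : ι → PhasePoint | S.energy ι z ≤ E} :=
    measurableSet_le (S.energy_meas ι) measurable_const
  have h3 : MeasurableSet {z : ι → PhasePoint | z i ∈ A} := measurable_pi_apply i hA
  have : S.SSet ι a b E i A = {z : ι → PhasePoint | z ∈ S.dom ι ∧ AllConn (S.Contact a b z)} ∩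
      ({z | S.energy ι z ≤ E} ∩ {z | z i ∈ A}) := by
    ext z; constructor
    · rintro ⟨h1, h2, h3, h4⟩; exact ⟨⟨h1, h3⟩, h2, h4⟩
    · rintro ⟨⟨h1, h3⟩, h2, h4⟩; exact ⟨h1, h2, h3, h4⟩
  rw [this]; exact h1.inter (h2.inter h3)

theorem measurableSet_RSet (a b σ E : ℝ) (i : ι) {A : Set PhasePoint} (hA : MeasurableSet A) :
    MeasurableSet (S.RSet ι a b σ E i A) := by
  have h1 : MeasurableSet {z : ι → PhasePoint | z ∈ S.dom ι ∧
      AllConn (fun j k => S.Contact a b z j k ∨ S.Link σ z j k)} := by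
    refine measurableSet_rel (S.dom_meas ι) (fun z => fun j k => S.Contact a b z j k ∨ S.Link σ z j k)
      (fun i j => ?_) AllConn
    have : {z : ι → PhasePoint | z ∈ S.dom ι ∧ (S.Contact a b z i j ∨ S.Link σ z i j)} =
        {z | z ∈ S.dom ι ∧ S.Contact a b z i j} ∪ (S.dom ι ∩ {z | S.Link σ z i j}) := by
      ext z; constructor
      · rintro ⟨h, h1 | h1⟩
        · exact Or.inl ⟨h, h1⟩
        · exact Or.inr ⟨h, h1⟩
      · rintro (⟨h, h1⟩ | ⟨h, h1⟩)
        · exact ⟨h, Or.inl h1⟩
        · exact ⟨h, Or.inr h1⟩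
    rw [this]
    exact (S.measurableSet_contact a b i j).union ((S.dom_meas ι).inter (S.measurableSet_link σ i j))
  have h2 : MeasurableSet {z : ι → PhasePoint | S.energy ι z ≤ E} :=
    measurableSet_le (S.energy_meas ι) measurable_const
  have h3 : MeasurableSet {z : ι → PhasePoint | z i ∈ A} := measurable_pi_apply i hA
  have : S.RSet ι a b σ E i A = {z : ι → PhasePoint | z ∈ S.dom ι ∧
      AllConn (fun j k => S.Contact a b z j k ∨ S.Link σ z j k)} ∩
      ({z | S.energy ι z ≤ E} ∩ {z | z i ∈ A}) := by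
    ext z; constructor
    · rintro ⟨h1, h2, h3, h4⟩; exact ⟨⟨h1, h3⟩, h2, h4⟩
    · rintro ⟨⟨h1, h3⟩, h2, h4⟩; exact ⟨h1, h2, h3, h4⟩
  rw [this]; exact h1.inter (h2.inter h3)

/-- Time shift of `SSet`: the root condition is evaluated at time `σ`. -/
theorem SSet_shift (a b E σ : ℝ) (i : ι) (A : Set PhasePoint) :
    {z : ι → PhasePoint | z ∈ S.dom ι ∧ S.energy ι z ≤ E ∧ AllConn (S.Contact a b z) ∧
      S.flow ι σ z i ∈ A} ⊆ S.flow ι σ ⁻¹' (S.SSet ι (a - σ) (b - σ) E i A) := by
  rintro z ⟨h1, h2, h3, h4⟩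
  refine ⟨S.flow_dom ι σ z h1, by rw [S.energy_flow ι σ z h1]; exact h2, ?_, h4⟩
  have : S.Contact (a - σ) (b - σ) (S.flow ι σ z) = S.Contact a b z := by
    ext i j; exact S.contact_shift h1 a b σ i j
  rw [this]; exact h3

/-- Time shift of `RSet` at its link time. -/
theorem RSet_shift (a b E σ : ℝ) (i : ι) (A : Set PhasePoint) :
    {z : ι → PhasePoint | z ∈ S.dom ι ∧ S.energy ι z ≤ E ∧
      AllConn (fun j k => S.Contact a b z j k ∨ S.Link σ z j k) ∧ S.flow ι σ z i ∈ A} ⊆
      S.flow ι σ ⁻¹' (S.RSet ι (a - σ) (b - σ) 0 E i A) := by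
  rintro z ⟨h1, h2, h3, h4⟩
  refine ⟨S.flow_dom ι σ z h1, by rw [S.energy_flow ι σ z h1]; exact h2, ?_, h4⟩
  have : (fun j k => S.Contact (a - σ) (b - σ) (S.flow ι σ z) j k ∨ S.Link 0 (S.flow ι σ z) j k) =
      fun j k => S.Contact a b z j k ∨ S.Link σ z j k := by
    ext i j
    rw [S.contact_shift h1 a b σ i j]
    have := S.link_shift h1 σ σ i j
    rw [sub_self] at this
    rw [this]
  rw [this]; exact h3

end Bodies

end Crest.Agent.R122.Vol365
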