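import Crest.Agent.R122.VolFlux1_350
import Crest.Agent.R122.CausalMeas_291
import Crest.Agent.R122.LocFlow_45

/-!
Row 122, helper350: translation averaging, last contact time, flux of one time cell.
-/

set_option autoImplicit false
set_option linter.unusedSectionVars false

open MeasureTheory Set Filter Topology
open Crest.AnalysisR.Kinetic
open Crest.Agent.R122.Flow671 Crest.Agent.R122.Loc45 Crest.Agent.R122.Causal291
open Crest.Agent.R122.Omega969
open scoped Classical ENNReal

noncomputable section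

namespace Crest.Agent.R122.Flux350

variable {Φ : Space3 → ℝ} {ε : ℝ} {υ κ : Type*} [Fintype υ] [Fintype κ]

/-! ### Averaging over translations -/

/-- uniform density of the unit ball -/
def kw (x : Space3) : ℝ≥0∞ :=
  (Metric.ball (0 : Space3) 1).indicator (fun _ => (volume (Metric.ball (0 : Space3) 1))⁻¹) x

lemma measurable_kw : Measurable kw := measurable_const.indicator measurableSet_ball

lemma lintegral_kw : ∫⁻ x, kw x = 1 := by
  unfold kw
  rw [lintegral_indicator measurableSet_ball, lintegral_const, Measure.restrict_apply_univ]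
  exact ENNReal.inv_mul_cancel (Metric.measure_ball_pos _ _ one_pos).ne' measure_ball_lt_top.ne

lemma lintegral_kw_add (x : Space3) : ∫⁻ a, kw (x + a) = 1 := by
  rw [lintegral_add_left_eq_self kw x, lintegral_kw]

lemma lintegral_kw_sub (x : Space3) : ∫⁻ a, kw (x - a) = 1 := by
  rw [lintegral_sub_left_eq_self kw x, lintegral_kw]

lemma shiftX_eq (a : Space3) (U : υ → PhasePoint) : shiftX a U = U + fun _ => (a, 0) := by
  funext i
  simp [shiftX, Prod.ext_iff]

lemma measurable_shiftX : Measurable (fun p : Space3 × (υ → PhasePoint) => shiftX p.1 p.2) := by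
  refine measurable_pi_lambda _ fun i => ?_
  have h : Measurable (fun p : Space3 × (υ → PhasePoint) => p.2 i) :=
    (measurable_pi_apply i).comp measurable_snd
  exact (h.fst.add measurable_fst).prodMk h.snd

lemma shiftX_shiftX (a b : Space3) (U : υ → PhasePoint) :
    shiftX a (shiftX b U) = shiftX (a + b) U := by
  funext i
  simp only [shiftX, Prod.mk.injEq, and_true]
  abel

lemma lintegral_shiftX (a : Space3) {m : (υ → PhasePoint) → ℝ≥0∞} :
    ∫⁻ U, m (shiftX a U) = ∫⁻ U, m U := by
  simp only [shiftX_eq]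
  exact lintegral_add_right_eq_self m (fun _ => (a, 0))

/-- **Averaging over translations.** -/
lemma lintegral_avg {p : (υ → PhasePoint) → Space3} (hp : Measurable p)
    (hpt : ∀ a U, p (shiftX a U) = p U + a) {m : (υ → PhasePoint) → ℝ≥0∞} (hm : Measurable m) :
    ∫⁻ U, m U = ∫⁻ U, kw (p U) * ∫⁻ a, m (shiftX a U) := by
  have hsw : Measurable (fun q : (υ → PhasePoint) × Space3 => m (shiftX q.2 q.1)) := by
    have h := hm.comp (measurable_shiftX.comp
      (measurable_snd.prodMk measurable_fst : Measurable fun q : (υ → PhasePoint) × Space3 => (q.2, q.1)))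
    exact h
  have h1 : ∀ U : υ → PhasePoint, kw (p U) * ∫⁻ a, m (shiftX a U) =
      ∫⁻ a, kw (p U) * m (shiftX a U) := by
    intro U
    rw [lintegral_const_mul]
    have h := hsw.comp (measurable_const.prodMk measurable_id : Measurable fun a : Space3 => (U, a))
    exact h
  simp only [h1]
  rw [lintegral_lintegral_swap]
  · have h2 : ∀ a : Space3, ∫⁻ U, kw (p U) * m (shiftX a U) = ∫⁻ U, kw (p U - a) * m U := by
      intro a
      rw [← lintegral_shiftX a (m := fun U => kw (p U - a) * m U)]
      refine lintegral_congr fun U => ?_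
      rw [hpt, add_sub_cancel_right]
    simp only [h2]
    rw [lintegral_lintegral_swap]
    · refine lintegral_congr fun U => ?_
      rw [lintegral_mul_const, lintegral_kw_sub, one_mul]
      exact measurable_kw.comp (measurable_const.sub measurable_id)
    · refine Measurable.aemeasurable ?_
      refine Measurable.mul ?_ (hm.comp measurable_snd)
      exact measurable_kw.comp ((hp.comp measurable_snd).sub measurable_fst)
  · refine Measurable.aemeasurable ?_
    exact ((measurable_kw.comp hp).comp measurable_fst).mul hsw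

/-- the position used in the weight is irrelevant for translation invariant integrands -/
lemma weight_indep {p q : (υ → PhasePoint) → Space3} (hp : Measurable p)
    (hpt : ∀ a U, p (shiftX a U) = p U + a) (hq : Measurable q)
    (hqt : ∀ a U, q (shiftX a U) = q U + a) {K : (υ → PhasePoint) → ℝ≥0∞} (hK : Measurable K)
    (hKt : ∀ a U, K (shiftX a U) = K U) :
    ∫⁻ U, kw (p U) * K U = ∫⁻ U, kw (q U) * K U := by
  rw [lintegral_avg hq hqt (m := fun U => kw (p U) * K U) ((measurable_kw.comp hp).mul hK)]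
  refine lintegral_congr fun U => ?_
  simp only [hpt, hKt]
  rw [lintegral_mul_const, lintegral_kw_add, one_mul]
  exact measurable_kw.comp (measurable_const_add _)

/-- Liouville and averaging: the weight may be taken at any time. -/
lemma lintegral_kw_flow (hΦ : AdmissiblePotential Φ) (hε : 0 < ε) (j : υ) (s : ℝ)
    {K : (υ → PhasePoint) → ℝ≥0∞} (hK : Measurable K) (hKt : ∀ a U, K (shiftX a U) = K U) :
    ∫⁻ U, kw (U j).1 * K (flow Φ ε s U) = ∫⁻ U, kw (U j).1 * K U := by
  have hp : Measurable (fun U : υ → PhasePoint => (U j).1) := (measurable_pi_apply j).fst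
  have hq : Measurable (fun U : υ → PhasePoint => (flow Φ ε (-s) U j).1) :=
    hp.comp (measurable_flow hΦ hε (-s))
  have h1 : ∫⁻ U : υ → PhasePoint, kw (U j).1 * K (flow Φ ε s U) =
      ∫⁻ U : υ → PhasePoint, kw (flow Φ ε (-s) U j).1 * K U := by
    rw [← (measurePreserving_flow (ι := υ) hΦ hε s).lintegral_comp
      (f := fun U : υ → PhasePoint => kw (flow Φ ε (-s) U j).1 * K U)
      ((measurable_kw.comp hq).mul hK)]
    refine lintegral_congr fun U => ?_
    rw [flow_neg_flow hΦ hε]
  rw [h1]
  refine weight_indep hq ?_ hp ?_ hK hKt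
  · intro a U
    rw [flow_shiftX hΦ hε]
    rfl
  · intro a U
    rfl

/-! ### The flux density -/

/-- flux density at time `s` (after the spherical integration) -/
def Kin (Φ : Space3 → ℝ) (ε : ℝ) (j : υ) (m : κ)
    (G : ℝ → (κ → PhasePoint) → (υ → PhasePoint) → ℝ≥0∞) (s : ℝ) (Y : κ → PhasePoint)
    (U : υ → PhasePoint) : ℝ≥0∞ :=
  ∫⁻ w, ENNReal.ofReal (inner ℝ w ((U j).2 - (flow Φ ε s Y m).2)) *
    G s Y (shiftX ((flow Φ ε s Y m).1 + ε • w - (U j).1) U) ∂sphM

lemma Kin_shift (j : υ) (m : κ) (G : ℝ → (κ → PhasePoint) → (υ → PhasePoint) → ℝ≥0∞) (s : ℝ)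
    (Y : κ → PhasePoint) (a : Space3) (U : υ → PhasePoint) :
    Kin Φ ε j m G s Y (shiftX a U) = Kin Φ ε j m G s Y U := by
  unfold Kin
  refine lintegral_congr fun w => ?_
  rw [shiftX_shiftX]
  have h1 : (shiftX a U j).2 = (U j).2 := rfl
  have h2 : (shiftX a U j).1 = (U j).1 + a := rfl
  rw [h1, h2]
  congr 3
  abel

section
variable (hΦ : AdmissiblePotential Φ) (hε : 0 < ε)
include hΦ hε

lemma measurable_flow_apply (m : κ) :
    Measurable (fun p : ℝ × (κ → PhasePoint) => flow Φ ε p.1 p.2 m) :=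
  (measurable_pi_apply m).comp (measurable_flow_joint hΦ hε)

lemma measurable_KinG (j : υ) (m : κ) {G : ℝ → (κ → PhasePoint) → (υ → PhasePoint) → ℝ≥0∞}
    (hG : Measurable fun p : ℝ × (κ → PhasePoint) × (υ → PhasePoint) => G p.1 p.2.1 p.2.2) :
    Measurable (fun p : (ℝ × (κ → PhasePoint) × (υ → PhasePoint)) × Space3 =>
      ENNReal.ofReal (inner ℝ p.2 ((p.1.2.2 j).2 - (flow Φ ε p.1.1 p.1.2.1 m).2)) *
      G p.1.1 p.1.2.1 (shiftX ((flow Φ ε p.1.1 p.1.2.1 m).1 + ε • p.2 - (p.1.2.2 j).1) p.1.2.2)) := by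
  have hs : Measurable (fun p : (ℝ × (κ → PhasePoint) × (υ → PhasePoint)) × Space3 => p.1.1) :=
    measurable_fst.comp measurable_fst
  have hY : Measurable (fun p : (ℝ × (κ → PhasePoint) × (υ → PhasePoint)) × Space3 => p.1.2.1) :=
    measurable_fst.comp (measurable_snd.comp measurable_fst)
  have hU : Measurable (fun p : (ℝ × (κ → PhasePoint) × (υ → PhasePoint)) × Space3 => p.1.2.2) :=
    measurable_snd.comp (measurable_snd.comp measurable_fst)
  have hw : Measurable (fun p : (ℝ × (κ → PhasePoint) × (υ → PhasePoint)) × Space3 => p.2) :=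
    measurable_snd
  have hf : Measurable (fun p : (ℝ × (κ → PhasePoint) × (υ → PhasePoint)) × Space3 =>
      flow Φ ε p.1.1 p.1.2.1 m) := by
    have h := (measurable_flow_apply hΦ hε m).comp (hs.prodMk hY)
    exact h
  have hUj : Measurable (fun p : (ℝ × (κ → PhasePoint) × (υ → PhasePoint)) × Space3 => p.1.2.2 j) :=
    (measurable_pi_apply j).comp hU
  have hin : Measurable (fun p : (ℝ × (κ → PhasePoint) × (υ → PhasePoint)) × Space3 =>
      inner ℝ p.2 ((p.1.2.2 j).2 - (flow Φ ε p.1.1 p.1.2.1 m).2)) := by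
    have h2 : Measurable (fun q : Space3 × Space3 => inner ℝ q.1 q.2) :=
      Continuous.measurable (by fun_prop)
    have h := h2.comp (hw.prodMk (hUj.snd.sub hf.snd))
    exact h
  have hsh : Measurable (fun p : (ℝ × (κ → PhasePoint) × (υ → PhasePoint)) × Space3 =>
      shiftX ((flow Φ ε p.1.1 p.1.2.1 m).1 + ε • p.2 - (p.1.2.2 j).1) p.1.2.2) := by
    have h := measurable_shiftX.comp (((hf.fst.add (hw.const_smul ε)).sub hUj.fst).prodMk hU)
    exact h
  refine (ENNReal.measurable_ofReal.comp hin).mul ?_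
  have h := hG.comp (hs.prodMk (hY.prodMk hsh))
  exact h

lemma measurable_Kin (j : υ) (m : κ) {G : ℝ → (κ → PhasePoint) → (υ → PhasePoint) → ℝ≥0∞}
    (hG : Measurable fun p : ℝ × (κ → PhasePoint) × (υ → PhasePoint) => G p.1 p.2.1 p.2.2) :
    Measurable (fun p : ℝ × (κ → PhasePoint) × (υ → PhasePoint) =>
      Kin Φ ε j m G p.1 p.2.1 p.2.2) := by
  have h := (measurable_KinG hΦ hε j m hG).lintegral_prod_right' (ν := sphM)
  exact h

end

/-! ### Last contact -/

/-- distance of the pair, both groups in time-0 coordinates of their own flows -/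
def dd (Φ : Space3 → ℝ) (ε : ℝ) (j : υ) (m : κ) (p : (υ → PhasePoint) × (κ → PhasePoint)) (s : ℝ) : ℝ :=
  dist (flow Φ ε s p.1 j).1 (flow Φ ε s p.2 m).1

/-- last contact in `[a, b]` -/
def Lc (Φ : Space3 → ℝ) (ε : ℝ) (j : υ) (m : κ) (a b : ℝ)
    (p : (υ → PhasePoint) × (κ → PhasePoint)) : ℝ :=
  sSup {s | s ∈ Icc a b ∧ dd Φ ε j m p s ≤ ε}

/-- there is a contact in `[a, b]` -/
def HasC (Φ : Space3 → ℝ) (ε : ℝ) (j : υ) (m : κ) (a b : ℝ) :
    Set ((υ → PhasePoint) × (κ → PhasePoint)) :=
  {p | ∃ s ∈ Icc a b, dd Φ ε j m p s ≤ ε}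

section
variable (hΦ : AdmissiblePotential Φ) (hε : 0 < ε)
include hΦ hε

lemma continuous_dd (j : υ) (m : κ) (p : (υ → PhasePoint) × (κ → PhasePoint)) :
    Continuous (dd Φ ε j m p) := by
  unfold dd
  have h1 := flow_continuous_time hΦ hε p.1
  have h2 := flow_continuous_time hΦ hε p.2
  exact (continuous_fst.comp ((continuous_apply j).comp h1)).dist
    (continuous_fst.comp ((continuous_apply m).comp h2))

lemma measurable_dd_joint (j : υ) (m : κ) :
    Measurable (fun q : ℝ × ((υ → PhasePoint) × (κ → PhasePoint)) => dd Φ ε j m q.2 q.1) := by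
  unfold dd
  have h1 : Measurable (fun q : ℝ × ((υ → PhasePoint) × (κ → PhasePoint)) => flow Φ ε q.1 q.2.1 j) := by
    have h := (measurable_flow_apply hΦ hε j).comp
      (measurable_fst.prodMk (measurable_fst.comp measurable_snd) :
        Measurable fun q : ℝ × ((υ → PhasePoint) × (κ → PhasePoint)) => (q.1, q.2.1))
    exact h
  have h2 : Measurable (fun q : ℝ × ((υ → PhasePoint) × (κ → PhasePoint)) => flow Φ ε q.1 q.2.2 m) := by
    have h := (measurable_flow_apply hΦ hε m).comp
      (measurable_fst.prodMk (measurable_snd.comp measurable_snd) :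
        Measurable fun q : ℝ × ((υ → PhasePoint) × (κ → PhasePoint)) => (q.1, q.2.2))
    exact h
  exact h1.fst.dist h2.fst

lemma measurable_dd (j : υ) (m : κ) (s : ℝ) :
    Measurable (fun p : (υ → PhasePoint) × (κ → PhasePoint) => dd Φ ε j m p s) := by
  have h := (measurable_dd_joint hΦ hε j m).comp (measurable_const.prodMk measurable_id :
    Measurable fun p : (υ → PhasePoint) × (κ → PhasePoint) => (s, p))
  exact h

lemma measurableSet_HasC (j : υ) (m : κ) (a b : ℝ) : MeasurableSet (HasC Φ ε j m a b) :=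
  measurableSet_exists_Icc (Ω := (υ → PhasePoint) × (κ → PhasePoint)) measurable_const
    measurable_const (continuous_dd hΦ hε j m) (measurable_dd hΦ hε j m) ε

lemma Lc_spec {j : υ} {m : κ} {a b : ℝ} {p : (υ → PhasePoint) × (κ → PhasePoint)}
    (hp : p ∈ HasC Φ ε j m a b) : Lc Φ ε j m a b p ∈ Icc a b ∧ dd Φ ε j m p (Lc Φ ε j m a b p) ≤ ε := by
  have hcl : IsCompact {s | s ∈ Icc a b ∧ dd Φ ε j m p s ≤ ε} := by
    have h1 : {s | s ∈ Icc a b ∧ dd Φ ε j m p s ≤ ε} = Icc a b ∩ {s | dd Φ ε j m p s ≤ ε} := rfl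
    rw [h1]
    exact isCompact_Icc.inter_right (isClosed_le (continuous_dd hΦ hε j m p) continuous_const)
  obtain ⟨s, hs1, hs2⟩ := hp
  exact hcl.sSup_mem ⟨s, hs1, hs2⟩

lemma Lc_max {j : υ} {m : κ} {a b : ℝ} {p : (υ → PhasePoint) × (κ → PhasePoint)} {s : ℝ}
    (hs : s ∈ Icc a b) (h : dd Φ ε j m p s ≤ ε) : s ≤ Lc Φ ε j m a b p :=
  le_csSup ⟨b, fun _ ht => ht.1.2⟩ ⟨hs, h⟩

lemma Lc_eq {j : υ} {m : κ} {a b : ℝ} {p : (υ → PhasePoint) × (κ → PhasePoint)} {s : ℝ}
    (hs : s ∈ Icc a b) (h : dd Φ ε j m p s ≤ ε) (h' : ∀ u ∈ Ioc s b, ε < dd Φ ε j m p u) :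
    Lc Φ ε j m a b p = s := by
  have h1 := Lc_max hΦ hε hs h
  obtain ⟨h2, h3⟩ := Lc_spec hΦ hε (show p ∈ HasC Φ ε j m a b from ⟨s, hs, h⟩)
  rcases h1.lt_or_eq with h4 | h4
  · exact absurd (h' _ ⟨h4, h2.2⟩) (not_lt.2 h3)
  · exact h4.symm

lemma measurable_Lc (j : υ) (m : κ) (a b : ℝ) : Measurable (Lc Φ ε j m a b) := by
  refine measurable_of_Ici fun r => ?_
  have h1 : Lc Φ ε j m a b ⁻¹' Ici r = (HasC Φ ε j m (max r a) b) ∪
      ((HasC Φ ε j m a b)ᶜ ∩ {_p | r ≤ 0}) := by
    ext p
    constructor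
    · intro hp
      by_cases hc : p ∈ HasC Φ ε j m a b
      · obtain ⟨h2, h3⟩ := Lc_spec hΦ hε hc
        exact Or.inl ⟨_, ⟨max_le hp h2.1, h2.2⟩, h3⟩
      · refine Or.inr ⟨hc, ?_⟩
        have h2 : {s | s ∈ Icc a b ∧ dd Φ ε j m p s ≤ ε} = ∅ := by
          ext s
          simp only [mem_empty_iff_false, iff_false]
          exact fun h => hc ⟨s, h.1, h.2⟩
        have h3 : r ≤ Lc Φ ε j m a b p := hp
        unfold Lc at h3
        rw [h2, Real.sSup_empty] at h3
        exact h3
    · rintro (⟨s, hs, h2⟩ | ⟨hc, h2⟩)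
      · exact (le_trans (le_max_left _ _) hs.1).trans
          (Lc_max hΦ hε ⟨(le_max_right _ _).trans hs.1, hs.2⟩ h2)
      · have h3 : {s | s ∈ Icc a b ∧ dd Φ ε j m p s ≤ ε} = ∅ := by
          ext s
          simp only [mem_empty_iff_false, iff_false]
          exact fun h => hc ⟨s, h.1, h.2⟩
        show r ≤ Lc Φ ε j m a b p
        unfold Lc
        rw [h3, Real.sSup_empty]
        exact h2
  rw [h1]
  exact (measurableSet_HasC hΦ hε j m _ b).union
    ((measurableSet_HasC hΦ hε j m a b).compl.inter (MeasurableSet.const _))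

end

/-- outgoing at time `s` -/
def Out (Φ : Space3 → ℝ) (ε : ℝ) (j : υ) (m : κ) (p : (υ → PhasePoint) × (κ → PhasePoint)) (s : ℝ) :
    Prop :=
  0 ≤ inner ℝ ((flow Φ ε s p.1 j).1 - (flow Φ ε s p.2 m).1)
    ((flow Φ ε s p.1 j).2 - (flow Φ ε s p.2 m).2)

/-- captured configurations of the cell -/
def Cap (Φ : Space3 → ℝ) (ε : ℝ) (j : υ) (m : κ) (a b : ℝ) :
    Set ((υ → PhasePoint) × (κ → PhasePoint)) :=
  {p | p ∈ HasC Φ ε j m a b ∧ dd Φ ε j m p (Lc Φ ε j m a b p) = ε ∧ Out Φ ε j m p (Lc Φ ε j m a b p)}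

/-- cell majorant in time-0 coordinates -/
def mc (Φ : Space3 → ℝ) (ε : ℝ) (j : υ) (m : κ) (G : ℝ → (κ → PhasePoint) → (υ → PhasePoint) → ℝ≥0∞)
    (a b : ℝ) (p : (υ → PhasePoint) × (κ → PhasePoint)) : ℝ≥0∞ :=
  (Cap Φ ε j m a b).indicator
    (fun p => G (Lc Φ ε j m a b p) p.2 (flow Φ ε (Lc Φ ε j m a b p) p.1)) p

section
variable (hΦ : AdmissiblePotential Φ) (hε : 0 < ε)
include hΦ hε

lemma measurableSet_Cap (j : υ) (m : κ) (a b : ℝ) : MeasurableSet (Cap Φ ε j m a b) := by
  have hL := measurable_Lc hΦ hε j m a b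
  have h1 : Measurable (fun p : (υ → PhasePoint) × (κ → PhasePoint) =>
      dd Φ ε j m p (Lc Φ ε j m a b p)) := by
    have h := (measurable_dd_joint hΦ hε j m).comp (hL.prodMk measurable_id)
    exact h
  have h2 : Measurable (fun p : (υ → PhasePoint) × (κ → PhasePoint) =>
      flow Φ ε (Lc Φ ε j m a b p) p.1 j) := by
    have h := (measurable_flow_apply hΦ hε j).comp (hL.prodMk measurable_fst)
    exact h
  have h3 : Measurable (fun p : (υ → PhasePoint) × (κ → PhasePoint) =>
      flow Φ ε (Lc Φ ε j m a b p) p.2 m) := by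
    have h := (measurable_flow_apply hΦ hε m).comp (hL.prodMk measurable_snd)
    exact h
  have h4 : Measurable (fun q : Space3 × Space3 => inner ℝ q.1 q.2) :=
    Continuous.measurable (by fun_prop)
  have h5 : MeasurableSet {p : (υ → PhasePoint) × (κ → PhasePoint) |
      Out Φ ε j m p (Lc Φ ε j m a b p)} := by
    unfold Out
    have h := h4.comp ((h2.fst.sub h3.fst).prodMk (h2.snd.sub h3.snd))
    exact measurableSet_le measurable_const h
  exact (measurableSet_HasC hΦ hε j m a b).inter ((measurableSet_eq_fun h1 measurable_const).inter h5)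

lemma measurable_mc (j : υ) (m : κ) {G : ℝ → (κ → PhasePoint) → (υ → PhasePoint) → ℝ≥0∞}
    (hG : Measurable fun p : ℝ × (κ → PhasePoint) × (υ → PhasePoint) => G p.1 p.2.1 p.2.2)
    (a b : ℝ) : Measurable (mc Φ ε j m G a b) := by
  have hL := measurable_Lc hΦ hε j m a b
  refine Measurable.indicator ?_ (measurableSet_Cap hΦ hε j m a b)
  have h2 : Measurable (fun p : (υ → PhasePoint) × (κ → PhasePoint) =>
      flow Φ ε (Lc Φ ε j m a b p) p.1) := by
    have h := (measurable_flow_joint (ι := υ) hΦ hε).comp (hL.prodMk measurable_fst)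
    exact h
  have h := hG.comp (hL.prodMk (measurable_snd.prodMk h2))
  exact h

/-- the fibre over translations of the outer group -/
lemma fibre_le {j : υ} {m : κ} {G : ℝ → (κ → PhasePoint) → (υ → PhasePoint) → ℝ≥0∞}
    (hG : Measurable fun p : ℝ × (κ → PhasePoint) × (υ → PhasePoint) => G p.1 p.2.1 p.2.2)
    (a b : ℝ) {U : υ → PhasePoint} (hU : U ∈ Dom Φ υ) {Y : κ → PhasePoint} (hY : Y ∈ Dom Φ κ) :
    ∫⁻ x : Space3, mc Φ ε j m G a b (shiftX x U, Y) ≤
      ENNReal.ofReal (ε ^ 2) * ∫⁻ s in Icc a b, Kin Φ ε j m G s Y (flow Φ ε s U) := by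
  -- curve
  set γ : ℝ → Space3 := fun s => (flow Φ ε s Y m).1 - (flow Φ ε s U j).1 with hγd
  set γ' : ℝ → Space3 := fun s => (flow Φ ε s Y m).2 - (flow Φ ε s U j).2 with hγ'd
  have hγ : ∀ s, HasDerivAt γ (γ' s) s := fun s =>
    (hasDerivAt_pos_flow hΦ hε hY s m).sub (hasDerivAt_pos_flow hΦ hε hU s j)
  have hfY : Measurable (fun s : ℝ => flow Φ ε s Y m) := by
    have h := (measurable_flow_apply hΦ hε m).comp (measurable_id.prodMk measurable_const :
      Measurable fun s : ℝ => (s, Y))
    exact h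
  have hfU : Measurable (fun s : ℝ => flow Φ ε s U j) := by
    have h := (measurable_flow_apply hΦ hε j).comp (measurable_id.prodMk measurable_const :
      Measurable fun s : ℝ => (s, U))
    exact h
  have hγ' : Measurable γ' := hfY.snd.sub hfU.snd
  -- the section
  have hsec : Measurable (fun x : Space3 => (shiftX x U, Y)) := by
    have h := (measurable_shiftX (υ := υ)).comp (measurable_id.prodMk measurable_const :
      Measurable fun x : Space3 => (x, U))
    exact (show Measurable (fun x : Space3 => shiftX x U) from h).prodMk measurable_const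
  have hS : Measurable (fun x : Space3 => Lc Φ ε j m a b (shiftX x U, Y)) := by
    have h := (measurable_Lc hΦ hε j m a b).comp hsec
    exact h
  have hD : MeasurableSet {x : Space3 | (shiftX x U, Y) ∈ Cap Φ ε j m a b} := by
    have h := hsec (measurableSet_Cap hΦ hε j m a b)
    exact h
  have hpos : ∀ (x : Space3) (s : ℝ), flow Φ ε s (shiftX x U) j =
      ((flow Φ ε s U j).1 + x, (flow Φ ε s U j).2) := by
    intro x s
    rw [flow_shiftX hΦ hε]
    rfl
  have hSD : ∀ x ∈ {x : Space3 | (shiftX x U, Y) ∈ Cap Φ ε j m a b},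
      Lc Φ ε j m a b (shiftX x U, Y) ∈ Icc a b ∧
        ‖x - γ (Lc Φ ε j m a b (shiftX x U, Y))‖ = ε := by
    rintro x ⟨h1, h2, -⟩
    refine ⟨(Lc_spec hΦ hε h1).1, ?_⟩
    unfold dd at h2
    simp only [hpos] at h2
    rw [dist_eq_norm] at h2
    refine Eq.trans ?_ h2
    rw [hγd]
    congr 1
    simp only
    abel
  -- integrand
  set F : ℝ → Space3 → ℝ≥0∞ := fun s x =>
    if 0 ≤ inner ℝ (x - γ s) (-(γ' s)) then G s Y (flow Φ ε s (shiftX x U)) else 0 with hFd
  have hγm : Measurable γ := (continuous_iff_continuousAt.2 fun s => (hγ s).continuousAt).measurable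
  have hF : Measurable (Function.uncurry F) := by
    have h1 : Measurable (fun p : ℝ × Space3 => inner ℝ (p.2 - γ p.1) (-(γ' p.1))) := by
      have h2 : Measurable (fun q : Space3 × Space3 => inner ℝ q.1 q.2) :=
        Continuous.measurable (by fun_prop)
      have h := h2.comp ((measurable_snd.sub (hγm.comp measurable_fst)).prodMk
        (hγ'.comp measurable_fst).neg)
      exact h
    refine Measurable.ite (measurableSet_le measurable_const h1) ?_ measurable_const
    have h3 : Measurable (fun p : ℝ × Space3 => flow Φ ε p.1 (shiftX p.2 U)) := by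
      have h4 := (measurable_shiftX (υ := υ)).comp (measurable_snd.prodMk measurable_const :
        Measurable fun p : ℝ × Space3 => (p.2, U))
      have h := (measurable_flow_joint (ι := υ) hΦ hε).comp (measurable_fst.prodMk h4)
      exact h
    have h := hG.comp (measurable_fst.prodMk ((measurable_const (a := Y)).prodMk h3))
    exact h
  have hmain := flux_sphere (F := F) (a := a) (b := b) hε hγ hγ' hS hD hSD hF
  calc ∫⁻ x : Space3, mc Φ ε j m G a b (shiftX x U, Y)
      = ∫⁻ x in {x : Space3 | (shiftX x U, Y) ∈ Cap Φ ε j m a b},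
          F (Lc Φ ε j m a b (shiftX x U, Y)) x := by
        rw [← lintegral_indicator hD]
        refine lintegral_congr fun x => ?_
        unfold mc
        by_cases hx : (shiftX x U, Y) ∈ Cap Φ ε j m a b
        · rw [indicator_of_mem hx, indicator_of_mem (show x ∈ {x : Space3 | (shiftX x U, Y) ∈
            Cap Φ ε j m a b} from hx)]
          rw [hFd]
          simp only
          rw [if_pos]
          have h3 := hx.2.2
          unfold Out at h3
          simp only [hpos] at h3
          rw [hγd, hγ'd]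
          simp only
          rw [neg_sub]
          convert h3 using 2
          abel
        · rw [indicator_of_notMem hx, indicator_of_notMem (show x ∉ {x : Space3 | (shiftX x U, Y) ∈
            Cap Φ ε j m a b} from hx)]
    _ ≤ _ := hmain
    _ ≤ _ := by
        gcongr with s
        unfold Kin
        refine lintegral_mono fun w => ?_
        rw [hFd]
        simp only
        split_ifs with hw
        · rw [add_sub_cancel_left, real_inner_smul_left] at hw
          have h1 : 0 ≤ inner ℝ w (-(γ' s)) := by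
            by_contra hcon
            push Not at hcon
            have := mul_neg_of_pos_of_neg hε hcon
            linarith
          have h2 : |inner ℝ (γ' s) w| = inner ℝ w ((flow Φ ε s U j).2 - (flow Φ ε s Y m).2) := by
            rw [inner_neg_right] at h1
            rw [real_inner_comm, abs_of_nonpos (by linarith), ← inner_neg_right, hγ'd]
            simp only
            rw [neg_sub]
          rw [h2, flow_shiftX hΦ hε]
          refine le_of_eq ?_
          congr 3
          rw [hγd]
          simp only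
          abel
        · rw [mul_zero]
          exact zero_le

/-- **Flux of one cell.** -/
theorem cell_flux {j : υ} {m : κ} {G : ℝ → (κ → PhasePoint) → (υ → PhasePoint) → ℝ≥0∞}
    (hG : Measurable fun p : ℝ × (κ → PhasePoint) × (υ → PhasePoint) => G p.1 p.2.1 p.2.2)
    (a b : ℝ) :
    ∫⁻ Y : κ → PhasePoint, ∫⁻ U : υ → PhasePoint, mc Φ ε j m G a b (U, Y) ≤
      ENNReal.ofReal (ε ^ 2) * ∫⁻ s in Icc a b, ∫⁻ Y : κ → PhasePoint, ∫⁻ U : υ → PhasePoint,
        kw (U j).1 * Kin Φ ε j m G s Y U := by
  have hmc := measurable_mc hΦ hε j m hG a b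
  have hK := measurable_Kin hΦ hε j m hG
  have hKf : Measurable (fun q : (κ → PhasePoint) × ((υ → PhasePoint) × ℝ) =>
      kw (q.2.1 j).1 * Kin Φ ε j m G q.2.2 q.1 (flow Φ ε q.2.2 q.2.1)) := by
    have hU : Measurable (fun q : (κ → PhasePoint) × ((υ → PhasePoint) × ℝ) => q.2.1) :=
      measurable_fst.comp measurable_snd
    have hs : Measurable (fun q : (κ → PhasePoint) × ((υ → PhasePoint) × ℝ) => q.2.2) :=
      measurable_snd.comp measurable_snd
    have h1 : Measurable (fun q : (κ → PhasePoint) × ((υ → PhasePoint) × ℝ) => flow Φ ε q.2.2 q.2.1) := by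
      have h := (measurable_flow_joint (ι := υ) hΦ hε).comp (hs.prodMk hU)
      exact h
    have h2 : Measurable (fun q : (κ → PhasePoint) × ((υ → PhasePoint) × ℝ) => q.2.1 j) :=
      (measurable_pi_apply j).comp hU
    have h3 := hK.comp (hs.prodMk (measurable_fst.prodMk h1))
    exact (measurable_kw.comp h2.fst).mul h3
  have hKY : ∀ Y : κ → PhasePoint, Measurable (fun q : (υ → PhasePoint) × ℝ =>
      kw (q.1 j).1 * Kin Φ ε j m G q.2 Y (flow Φ ε q.2 q.1)) := by
    intro Y
    have h := hKf.comp (measurable_const.prodMk measurable_id :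
      Measurable fun q : (υ → PhasePoint) × ℝ => (Y, q))
    exact h
  have hp : Measurable (fun U : υ → PhasePoint => (U j).1) := (measurable_pi_apply j).fst
  have hstep : ∀ᵐ Y : κ → PhasePoint, ∫⁻ U : υ → PhasePoint, mc Φ ε j m G a b (U, Y) ≤
      ENNReal.ofReal (ε ^ 2) * ∫⁻ s in Icc a b, ∫⁻ U : υ → PhasePoint,
        kw (U j).1 * Kin Φ ε j m G s Y U := by
    filter_upwards [ae_mem_Dom (ι := κ) Φ] with Y hY
    have hmY : Measurable (fun U : υ → PhasePoint => mc Φ ε j m G a b (U, Y)) := by
      have h := hmc.comp (measurable_id.prodMk measurable_const :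
        Measurable fun U : υ → PhasePoint => (U, Y))
      exact h
    rw [lintegral_avg hp (fun a U => rfl) hmY]
    calc ∫⁻ U : υ → PhasePoint, kw (U j).1 * ∫⁻ x, mc Φ ε j m G a b (shiftX x U, Y)
        ≤ ∫⁻ U : υ → PhasePoint, kw (U j).1 * (ENNReal.ofReal (ε ^ 2) *
            ∫⁻ s in Icc a b, Kin Φ ε j m G s Y (flow Φ ε s U)) := by
          refine lintegral_mono_ae ?_
          filter_upwards [ae_mem_Dom (ι := υ) Φ] with U hU
          exact mul_le_mul_right (fibre_le hΦ hε hG a b hU hY) _
      _ = ENNReal.ofReal (ε ^ 2) * ∫⁻ U : υ → PhasePoint, ∫⁻ s in Icc a b,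
            kw (U j).1 * Kin Φ ε j m G s Y (flow Φ ε s U) := by
          rw [← lintegral_const_mul' _ _ ENNReal.ofReal_ne_top]
          refine lintegral_congr fun U => ?_
          rw [lintegral_const_mul, mul_left_comm]
          have h := hK.comp (measurable_id.prodMk ((measurable_const (a := Y)).prodMk
            ((measurable_flow_joint (ι := υ) hΦ hε).comp (measurable_id.prodMk measurable_const :
              Measurable fun s : ℝ => (s, U)))))
          exact h
      _ = ENNReal.ofReal (ε ^ 2) * ∫⁻ s in Icc a b, ∫⁻ U : υ → PhasePoint,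
            kw (U j).1 * Kin Φ ε j m G s Y (flow Φ ε s U) := by
          rw [lintegral_lintegral_swap]
          exact (hKY Y).aemeasurable
      _ = _ := by
          congr 1
          refine lintegral_congr fun s => ?_
          refine lintegral_kw_flow hΦ hε j s (K := fun U => Kin Φ ε j m G s Y U) ?_ ?_
          · have h := hK.comp (measurable_const.prodMk (measurable_const.prodMk measurable_id) :
              Measurable fun U : υ → PhasePoint => (s, (Y, U)))
            exact h
          · intro a U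
            exact Kin_shift j m G s Y a U
  refine (lintegral_mono_ae hstep).trans (le_of_eq ?_)
  rw [lintegral_const_mul' _ _ ENNReal.ofReal_ne_top, lintegral_lintegral_swap]
  refine Measurable.aemeasurable ?_
  have h1 : Measurable (fun q : ((κ → PhasePoint) × ℝ) × (υ → PhasePoint) =>
      kw (q.2 j).1 * Kin Φ ε j m G q.1.2 q.1.1 q.2) := by
    have h3 := hK.comp ((measurable_snd.comp measurable_fst).prodMk
      ((measurable_fst.comp measurable_fst).prodMk measurable_snd) :
        Measurable fun q : ((κ → PhasePoint) × ℝ) × (υ → PhasePoint) => (q.1.2, (q.1.1, q.2)))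
    exact (measurable_kw.comp (hp.comp measurable_snd)).mul h3
  exact h1.lintegral_prod_right'

end

end Crest.Agent.R122.Flux350

end
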