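import Crest.Agent.R122.VolFlux2_350

/-!
Row 122, helper350: the flux step (FSJ), (FS1) in time-0 pull-back form.
-/

set_option autoImplicit false
set_option linter.unusedSectionVars false

open MeasureTheory Set Filter Topology
open Crest.AnalysisR.Kinetic
open Crest.Agent.R122.Flow671 Crest.Agent.R122.Loc45 Crest.Agent.R122.Causal291
open Crest.Agent.R122.Omega969 Crest.Agent.R122.Disc416
open scoped Classical ENNReal

noncomputable section

namespace Crest.Agent.R122.Flux350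

variable {Φ : Space3 → ℝ} {ε : ℝ} {υ κ : Type*} [Fintype υ] [Fintype κ]

/-- **Release step**: in the isolated evolution of `W` the group `υ` is released at time `s`. -/
structure Rel (Φ : Space3 → ℝ) (ε T : ℝ) (j : υ) (m : κ) (W : υ ⊕ κ → PhasePoint) (s : ℝ) : Prop where
  dom : W ∈ Dom Φ (υ ⊕ κ)
  s0 : 0 ≤ s
  sT : s ≤ T
  hit : dist (flow Φ ε s W (Sum.inl j)).1 (flow Φ ε s W (Sum.inr m)).1 = ε
  sep : ∃ h > 0, ∀ u ∈ Ioo s (s + h), ∀ i k,
    ε < dist (flow Φ ε u W (Sum.inl i)).1 (flow Φ ε u W (Sum.inr k)).1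

/-- the kept group, pulled back to time `0` by its own flow -/
def keep (Φ : Space3 → ℝ) (ε s : ℝ) (W : υ ⊕ κ → PhasePoint) : κ → PhasePoint :=
  flow Φ ε (-s) (fun k => flow Φ ε s W (Sum.inr k))

/-- the released group at time `s` -/
def gone (Φ : Space3 → ℝ) (ε s : ℝ) (W : υ ⊕ κ → PhasePoint) : υ → PhasePoint :=
  fun i => flow Φ ε s W (Sum.inl i)

/-- both groups at time `b`, pulled back to time `0` by their own flows -/
def Rg (Φ : Space3 → ℝ) (ε b : ℝ) (W : υ ⊕ κ → PhasePoint) : (υ → PhasePoint) × (κ → PhasePoint) :=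
  (flow Φ ε (-b) (fun i => flow Φ ε b W (Sum.inl i)),
    flow Φ ε (-b) (fun k => flow Φ ε b W (Sum.inr k)))

/-- a function with a right minimum has nonnegative derivative -/
lemma deriv_nonneg_of_right {f : ℝ → ℝ} {f' s h : ℝ} (hf : HasDerivAt f f' s) (hh : 0 < h)
    (hle : ∀ u ∈ Ioo s (s + h), f s ≤ f u) : 0 ≤ f' := by
  have h1 : Tendsto (slope f s) (𝓝[>] s) (𝓝 f') := by
    have := (hf.hasDerivWithinAt (s := Ioi s))
    rw [hasDerivWithinAt_iff_tendsto_slope'] at this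
    · exact this
    · simp
  refine ge_of_tendsto h1 ?_
  have h2 : Ioo s (s + h) ∈ 𝓝[>] s := Ioo_mem_nhdsGT (by linarith)
  filter_upwards [h2] with u hu
  rw [slope_def_field]
  exact div_nonneg (by linarith [hle u hu]) (by linarith [hu.1])

section
variable (hΦ : AdmissiblePotential Φ) (hε : 0 < ε)
include hΦ hε

lemma measurable_Rg (b : ℝ) : Measurable (Rg (υ := υ) (κ := κ) Φ ε b) := by
  have h1 : Measurable (fun W : υ ⊕ κ → PhasePoint => fun i : υ => flow Φ ε b W (Sum.inl i)) :=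
    measurable_pi_lambda _ fun i => (measurable_pi_apply _).comp (measurable_flow hΦ hε b)
  have h2 : Measurable (fun W : υ ⊕ κ → PhasePoint => fun k : κ => flow Φ ε b W (Sum.inr k)) :=
    measurable_pi_lambda _ fun i => (measurable_pi_apply _).comp (measurable_flow hΦ hε b)
  exact ((measurable_flow hΦ hε (-b)).comp h1).prodMk ((measurable_flow hΦ hε (-b)).comp h2)

/-- `Rg` preserves the volume. -/
lemma lintegral_Rg (b : ℝ) {m : (υ → PhasePoint) × (κ → PhasePoint) → ℝ≥0∞} (hm : Measurable m) :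
    ∫⁻ W : υ ⊕ κ → PhasePoint, m (Rg Φ ε b W) = ∫⁻ Y, ∫⁻ U, m (U, Y) := by
  set m' : (υ ⊕ κ → PhasePoint) → ℝ≥0∞ := fun V => m (flow Φ ε (-b) (fun i => V (Sum.inl i)),
    flow Φ ε (-b) (fun k => V (Sum.inr k))) with hm'd
  have hm' : Measurable m' := by
    have h1 : Measurable (fun W : υ ⊕ κ → PhasePoint => fun i : υ => W (Sum.inl i)) :=
      measurable_pi_lambda _ fun i => measurable_pi_apply _
    have h2 : Measurable (fun W : υ ⊕ κ → PhasePoint => fun k : κ => W (Sum.inr k)) :=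
      measurable_pi_lambda _ fun i => measurable_pi_apply _
    exact hm.comp (((measurable_flow hΦ hε (-b)).comp h1).prodMk
      ((measurable_flow hΦ hε (-b)).comp h2))
  have h0 : ∫⁻ W : υ ⊕ κ → PhasePoint, m (Rg Φ ε b W) = ∫⁻ W : υ ⊕ κ → PhasePoint, m' (flow Φ ε b W) :=
    rfl
  rw [h0, (measurePreserving_flow (ι := υ ⊕ κ) hΦ hε b).lintegral_comp hm']
  have hmp := measurePreserving_sumPiEquivProdPi_symm (ι := υ) (ι' := κ)
    (X := fun _ => PhasePoint) (fun _ => (volume : Measure PhasePoint))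
  have h1 : ∫⁻ V : υ ⊕ κ → PhasePoint, m' V =
      ∫⁻ p : (υ → PhasePoint) × (κ → PhasePoint), m (flow Φ ε (-b) p.1, flow Φ ε (-b) p.2)
        ∂((Measure.pi fun _ => (volume : Measure PhasePoint)).prod
          (Measure.pi fun _ => (volume : Measure PhasePoint))) := by
    have h2 := hmp.lintegral_comp hm'
    rw [volume_pi, ← h2]
    rfl
  have hmm : Measurable (fun p : (υ → PhasePoint) × (κ → PhasePoint) =>
      m (flow Φ ε (-b) p.1, flow Φ ε (-b) p.2)) :=
    hm.comp (((measurable_flow hΦ hε (-b)).comp measurable_fst).prodMk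
      ((measurable_flow hΦ hε (-b)).comp measurable_snd))
  have hsf1 : SFinite (Measure.pi fun _ : υ => (volume : Measure PhasePoint)) := by
    rw [← volume_pi]; infer_instance
  have hsf2 : SFinite (Measure.pi fun _ : κ => (volume : Measure PhasePoint)) := by
    rw [← volume_pi]; infer_instance
  rw [h1, lintegral_prod_symm' _ hmm]
  have h3 : ∀ Y : κ → PhasePoint, ∫⁻ U : υ → PhasePoint, m (flow Φ ε (-b) U, Y) =
      ∫⁻ U : υ → PhasePoint, m (U, Y) := by
    intro Y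
    exact (measurePreserving_flow (ι := υ) hΦ hε (-b)).lintegral_comp
      (hm.comp (measurable_id.prodMk measurable_const))
  have h4 : ∫⁻ Y : κ → PhasePoint, ∫⁻ U : υ → PhasePoint, m (flow Φ ε (-b) U, flow Φ ε (-b) Y) =
      ∫⁻ Y : κ → PhasePoint, ∫⁻ U : υ → PhasePoint, m (U, Y) := by
    simp only [h3]
    exact (measurePreserving_flow (ι := κ) hΦ hε (-b)).lintegral_comp
      (f := fun Y => ∫⁻ U : υ → PhasePoint, m (U, Y)) hm.lintegral_prod_left'
  exact h4

variable {T : ℝ} {j : υ} {m : κ} {W : υ ⊕ κ → PhasePoint} {s : ℝ}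

lemma Rel.sep_le (hR : Rel Φ ε T j m W s) (i : υ) (k : κ) :
    ε ≤ dist (flow Φ ε s W (Sum.inl i)).1 (flow Φ ε s W (Sum.inr k)).1 := by
  obtain ⟨h, hh, hsep⟩ := hR.sep
  have hc : Continuous (fun u => dist (flow Φ ε u W (Sum.inl i)).1 (flow Φ ε u W (Sum.inr k)).1) := by
    have h1 := flow_continuous_time hΦ hε W
    exact (continuous_fst.comp ((continuous_apply _).comp h1)).dist
      (continuous_fst.comp ((continuous_apply _).comp h1))
  have h1 : Tendsto (fun u => dist (flow Φ ε u W (Sum.inl i)).1 (flow Φ ε u W (Sum.inr k)).1)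
      (𝓝[>] s) (𝓝 (dist (flow Φ ε s W (Sum.inl i)).1 (flow Φ ε s W (Sum.inr k)).1)) :=
    (hc.tendsto s).mono_left nhdsWithin_le_nhds
  refine ge_of_tendsto h1 ?_
  have h2 : Ioo s (s + h) ∈ 𝓝[>] s := Ioo_mem_nhdsGT (by linarith)
  filter_upwards [h2] with u hu using (hsep u hu i k).le

lemma Rel.split (hR : Rel Φ ε T j m W s) {b : ℝ} (hsb : s ≤ b)
    (hb : ∀ u ∈ Ioc s b, ∀ i k,
      ε < dist (flow Φ ε u W (Sum.inl i)).1 (flow Φ ε u W (Sum.inr k)).1) {u : ℝ} (hu : u ∈ Icc s b) :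
    flow Φ ε u (Rg Φ ε b W).1 = (fun i => flow Φ ε u W (Sum.inl i)) ∧
      flow Φ ε u (Rg Φ ε b W).2 = (fun k => flow Φ ε u W (Sum.inr k)) := by
  have hfar : ∀ t ∈ Icc s b, ∀ i k,
      ε ≤ dist (flow Φ ε t W (Sum.inl i)).1 (flow Φ ε t W (Sum.inr k)).1 := by
    intro t ht i k
    rcases ht.1.eq_or_lt with h | h
    · rw [← h]; exact hR.sep_le hΦ hε i k
    · exact (hb t ⟨h, ht.2⟩ i k).le
  have h1 := flow_comp hΦ hε (Function.Embedding.inl : υ ↪ υ ⊕ κ) hR.dom (a := s) (b := b) (t₀ := b)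
    (right_mem_Icc.2 hsb) (by
      rintro t ht i (k | k) hk
      · exact absurd ⟨k, rfl⟩ hk
      · exact hfar t ht i k) hu
  have h2 := flow_comp hΦ hε (Function.Embedding.inr : κ ↪ υ ⊕ κ) hR.dom (a := s) (b := b) (t₀ := b)
    (right_mem_Icc.2 hsb) (by
      rintro t ht i (k | k) hk
      · rw [dist_comm]; exact hfar t ht k i
      · exact absurd ⟨k, rfl⟩ hk) hu
  simp only [Function.Embedding.inl_apply] at h1
  simp only [Function.Embedding.inr_apply] at h2
  refine ⟨?_, ?_⟩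
  · rw [h1]
    unfold Rg
    simp only
    rw [← flow_add hΦ hε, neg_add_eq_sub]
  · rw [h2]
    unfold Rg
    simp only
    rw [← flow_add hΦ hε, neg_add_eq_sub]

lemma Rel.out (hR : Rel Φ ε T j m W s) :
    0 ≤ inner ℝ ((flow Φ ε s W (Sum.inl j)).1 - (flow Φ ε s W (Sum.inr m)).1)
      ((flow Φ ε s W (Sum.inl j)).2 - (flow Φ ε s W (Sum.inr m)).2) := by
  obtain ⟨h, hh, hsep⟩ := hR.sep
  have h1 := ((hasDerivAt_pos_flow hΦ hε hR.dom s (Sum.inl j)).sub
    (hasDerivAt_pos_flow hΦ hε hR.dom s (Sum.inr m))).norm_sq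
  have h2 := deriv_nonneg_of_right h1 hh (by
    intro u hu
    have h3 := hsep u hu j m
    have h4 := hR.hit
    rw [dist_eq_norm] at h3 h4
    simp only [Pi.sub_apply]
    rw [h4]
    exact pow_le_pow_left₀ hε.le h3.le 2)
  simp only [Pi.sub_apply] at h2
  linarith

/-- a release in a cell is captured by the cell majorant -/
lemma Rel.le_mc (hR : Rel Φ ε T j m W s)
    (G : ℝ → (κ → PhasePoint) → (υ → PhasePoint) → ℝ≥0∞) {a b : ℝ} (has : a ≤ s) (hsb : s ≤ b)
    (hb : ∀ u ∈ Ioc s b, ∀ i k,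
      ε < dist (flow Φ ε u W (Sum.inl i)).1 (flow Φ ε u W (Sum.inr k)).1) :
    G s (keep Φ ε s W) (gone Φ ε s W) ≤ mc Φ ε j m G a b (Rg Φ ε b W) := by
  have hs := hR.split hΦ hε hsb hb (left_mem_Icc.2 hsb)
  have hdd : ∀ u ∈ Icc s b, dd Φ ε j m (Rg Φ ε b W) u =
      dist (flow Φ ε u W (Sum.inl j)).1 (flow Φ ε u W (Sum.inr m)).1 := by
    intro u hu
    obtain ⟨h1, h2⟩ := hR.split hΦ hε hsb hb hu
    unfold dd
    rw [h1, h2]
  have hL : Lc Φ ε j m a b (Rg Φ ε b W) = s := by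
    refine Lc_eq hΦ hε ⟨has, hsb⟩ ?_ ?_
    · rw [hdd s (left_mem_Icc.2 hsb), hR.hit]
    · intro u hu
      rw [hdd u ⟨hu.1.le, hu.2⟩]
      exact hb u hu j m
  have hcap : Rg Φ ε b W ∈ Cap Φ ε j m a b := by
    refine ⟨⟨s, ⟨has, hsb⟩, ?_⟩, ?_, ?_⟩
    · rw [hdd s (left_mem_Icc.2 hsb), hR.hit]
    · rw [hL, hdd s (left_mem_Icc.2 hsb), hR.hit]
    · rw [hL]
      unfold Out
      rw [hs.1, hs.2]
      exact hR.out hΦ hε
  unfold mc
  rw [indicator_of_mem hcap, hL, hs.1]
  refine le_of_eq ?_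
  have h1 : (Rg Φ ε b W).2 = keep Φ ε s W := by
    unfold keep
    rw [← hs.2, flow_neg_flow hΦ hε]
  rw [h1]
  rfl

end

/-- sums of integrals over a uniform grid -/
lemma grid_sum (f : ℝ → ℝ≥0∞) {c : ℝ} (hc : 0 ≤ c) (N : ℕ) :
    ∑ i ∈ Finset.range N, ∫⁻ s in Icc ((i : ℝ) * c) (((i : ℝ) + 1) * c), f s =
      ∫⁻ s in Icc 0 ((N : ℝ) * c), f s := by
  have h0 : ∀ a b : ℝ, ∫⁻ s in Icc a b, f s = ∫⁻ s in Ioc a b, f s := fun a b =>
    setLIntegral_congr Ioc_ae_eq_Icc.symm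
  simp only [h0]
  induction N with
  | zero => simp
  | succ n ih =>
    rw [Finset.sum_range_succ, ih, ← lintegral_union measurableSet_Ioc]
    · rw [Ioc_union_Ioc_eq_Ioc (by positivity) (by nlinarith)]
      push_cast
      rfl
    · rw [Set.disjoint_left]
      intro x hx hx'
      exact absurd hx.2 (not_le.2 hx'.1)

/-- **(FSJ) Flux step, general released group.** -/
theorem FSJ (hΦ : AdmissiblePotential Φ) (hε : 0 < ε) {T : ℝ} (hT : 0 ≤ T) (j : υ) (m : κ)
    {G : ℝ → (κ → PhasePoint) → (υ → PhasePoint) → ℝ≥0∞}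
    (hG : Measurable fun p : ℝ × (κ → PhasePoint) × (υ → PhasePoint) => G p.1 p.2.1 p.2.2) :
    ∃ M : (υ ⊕ κ → PhasePoint) → ℝ≥0∞, Measurable M ∧
      (∀ W s, Rel Φ ε T j m W s → G s (keep Φ ε s W) (gone Φ ε s W) ≤ M W) ∧
      ∫⁻ W, M W ≤ ENNReal.ofReal (ε ^ 2) * ∫⁻ s in Icc 0 T, ∫⁻ Y : κ → PhasePoint,
        ∫⁻ U : υ → PhasePoint, kw (U j).1 * Kin Φ ε j m G s Y U := by
  set c : ℕ → ℝ := fun n => T / ((n : ℝ) + 1) with hcd
  have hc0 : ∀ n, 0 ≤ c n := fun n => by rw [hcd]; positivity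
  set M : ℕ → (υ ⊕ κ → PhasePoint) → ℝ≥0∞ := fun n W => ∑ i ∈ Finset.range (n + 1),
    mc Φ ε j m G ((i : ℝ) * c n) (((i : ℝ) + 1) * c n) (Rg Φ ε (((i : ℝ) + 1) * c n) W) with hMd
  have hMm : ∀ n, Measurable (M n) := fun n =>
    Finset.measurable_sum _ fun i _ => (measurable_mc hΦ hε j m hG _ _).comp (measurable_Rg hΦ hε _)
  refine ⟨fun W => liminf (fun n => M n W) atTop, Measurable.liminf hMm, ?_, ?_⟩
  · intro W s hR
    obtain ⟨h, hh, hsep⟩ := hR.sep
    have h1 : Tendsto c atTop (𝓝 0) := by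
      have := (tendsto_one_div_add_atTop_nhds_zero_nat (𝕜 := ℝ)).const_mul T
      rw [mul_zero] at this
      refine this.congr fun n => ?_
      rw [hcd]; ring
    refine le_liminf_of_le ?_ ?_
    · exact isCobounded_ge_of_top
    filter_upwards [h1.eventually (gt_mem_nhds hh)] with n hn
    -- the cell
    obtain ⟨i, hi, hi1, hi2⟩ : ∃ i : ℕ, i < n + 1 ∧ (i : ℝ) * c n ≤ s ∧ s ≤ ((i : ℝ) + 1) * c n := by
      rcases (hc0 n).eq_or_lt with h0 | h0
      · have hT0 : T = 0 := by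
          have : T / ((n : ℝ) + 1) = 0 := h0.symm
          rw [div_eq_zero_iff] at this
          rcases this with h | h
          · exact h
          · exact absurd h (by positivity)
        have hs0 : s = 0 := le_antisymm (by rw [← hT0]; exact hR.sT) hR.s0
        refine ⟨0, by omega, ?_, ?_⟩
        · rw [hs0, ← h0]; simp
        · rw [hs0, ← h0]; simp
      · by_cases hsT : s = T
        · refine ⟨n, by omega, ?_, ?_⟩
          · rw [hsT, hcd]
            simp only
            rw [← mul_div_assoc, div_le_iff₀ (by positivity)]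
            nlinarith
          · rw [hsT, hcd]
            simp only
            rw [mul_div_cancel₀ _ (by positivity)]
        · have hlt : s < T := lt_of_le_of_ne hR.sT hsT
          refine ⟨⌊s / c n⌋₊, ?_, ?_, ?_⟩
          · rw [Nat.floor_lt (div_nonneg hR.s0 (hc0 n)), div_lt_iff₀ h0]
            rw [hcd]
            simp only
            push_cast
            rw [mul_div_cancel₀ _ (by positivity)]
            exact hlt
          · have := Nat.floor_le (div_nonneg hR.s0 (hc0 n))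
            rwa [le_div_iff₀ h0] at this
          · have := Nat.lt_floor_add_one (s / c n)
            rw [div_lt_iff₀ h0] at this
            exact this.le
    have hle : mc Φ ε j m G ((i : ℝ) * c n) (((i : ℝ) + 1) * c n) (Rg Φ ε (((i : ℝ) + 1) * c n) W) ≤
        M n W := by
      rw [hMd]
      exact Finset.single_le_sum (f := fun i : ℕ => mc Φ ε j m G ((i : ℝ) * c n)
        (((i : ℝ) + 1) * c n) (Rg Φ ε (((i : ℝ) + 1) * c n) W)) (fun _ _ => zero_le)
        (Finset.mem_range.2 hi)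
    refine le_trans (hR.le_mc hΦ hε G hi1 hi2 ?_) hle
    intro u hu i' k
    refine hsep u ⟨hu.1, ?_⟩ i' k
    have : ((i : ℝ) + 1) * c n = (i : ℝ) * c n + c n := by ring
    linarith [hu.2]
  · refine (lintegral_liminf_le hMm).trans ?_
    refine (liminf_le_liminf (Eventually.of_forall fun n => ?_)).trans (liminf_const _).le
    have h1 : ∫⁻ W, M n W ≤ ∑ i ∈ Finset.range (n + 1), ENNReal.ofReal (ε ^ 2) *
        ∫⁻ s in Icc ((i : ℝ) * c n) (((i : ℝ) + 1) * c n), ∫⁻ Y : κ → PhasePoint,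
          ∫⁻ U : υ → PhasePoint, kw (U j).1 * Kin Φ ε j m G s Y U := by
      rw [hMd]
      simp only
      have hmi : ∀ i ∈ Finset.range (n + 1), Measurable (fun W : υ ⊕ κ → PhasePoint =>
          mc Φ ε j m G ((i : ℝ) * c n) (((i : ℝ) + 1) * c n) (Rg Φ ε (((i : ℝ) + 1) * c n) W)) :=
        fun i _ => (measurable_mc hΦ hε j m hG _ _).comp (measurable_Rg hΦ hε _)
      rw [lintegral_finsetSum _ hmi]
      refine Finset.sum_le_sum fun i _ => ?_
      rw [lintegral_Rg hΦ hε _ (measurable_mc hΦ hε j m hG _ _)]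
      exact cell_flux hΦ hε hG _ _
    refine h1.trans (le_of_eq ?_)
    rw [← Finset.mul_sum, grid_sum _ (hc0 n)]
    congr 2
    rw [hcd]
    simp only
    push_cast
    rw [mul_div_cancel₀ _ (by positivity)]

end Crest.Agent.R122.Flux350

end
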