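import Crest.Agent.R122.VolMain_365
import Crest.Agent.R122.LocFlow_45

/-!
Row 122, helper365: the Newton flows of an admissible potential form a `Bodies` family.
-/

set_option autoImplicit false

open MeasureTheory Set
open Crest.AnalysisR.Kinetic
open Crest.Agent.R122.Flow671 Crest.Agent.R122.Loc45
open scoped ENNReal Classical

noncomputable section

namespace Crest.Agent.R122.Vol365

/-- The Newton flow without instance argument. -/
def nflow (Φ : Space3 → ℝ) (ε : ℝ) (ι : Type) (t : ℝ) (z : ι → PhasePoint) : ι → PhasePoint :=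
  if h : Nonempty (Fintype ι) then @Flow671.flow ι h.some Φ ε t z else z

/-- The energy without instance argument. -/
def nenergy (Φ : Space3 → ℝ) (ε : ℝ) (ι : Type) (z : ι → PhasePoint) : ℝ :=
  if h : Nonempty (Fintype ι) then @Flow671.energy ι h.some Φ ε z else 0

theorem nflow_eq (Φ : Space3 → ℝ) (ε : ℝ) (ι : Type) [inst : Fintype ι] (t : ℝ) :
    nflow Φ ε ι t = Flow671.flow (ι := ι) Φ ε t := by
  funext z
  unfold nflow
  rw [dif_pos ⟨inst⟩]
  congr 1
  exact Subsingleton.elim _ _

theorem nenergy_eq (Φ : Space3 → ℝ) (ε : ℝ) (ι : Type) [inst : Fintype ι] :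
    nenergy Φ ε ι = Flow671.energy (ι := ι) Φ ε := by
  funext z
  unfold nenergy
  rw [dif_pos ⟨inst⟩]
  congr 1
  exact Subsingleton.elim _ _

variable {Φ : Space3 → ℝ} {ε : ℝ}

/-- Admissible potentials are measurable. -/
theorem measurable_pot (hΦ : AdmissiblePotential Φ) : Measurable Φ := by
  refine measurable_of_isOpen fun U hU => ?_
  have h1 : IsOpen ({q : Space3 | q ≠ 0} ∩ Φ ⁻¹' U) :=
    hΦ.contDiff_away_from_origin.continuousOn.isOpen_inter_preimage isOpen_ne hU
  have h2 : Φ ⁻¹' U = ({q : Space3 | q ≠ 0} ∩ Φ ⁻¹' U) ∪ ({0} ∩ Φ ⁻¹' U) := by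
    ext q
    by_cases hq : q = 0 <;> simp [hq]
  rw [h2]
  exact h1.measurableSet.union (((Set.finite_singleton _).subset inter_subset_left).measurableSet)

/-- Extraction of the energy of a far sub-family. -/
theorem energy_sub_le (hΦ : AdmissiblePotential Φ) (hε : 0 < ε) {ι : Type} [Fintype ι] (p : ι → Prop)
    {z : ι → PhasePoint} (hz : z ∈ Dom Φ ι)
    (h : ∀ i j, p i → ¬ p j → ε < dist (z i).1 (z j).1) :
    Flow671.energy Φ ε (fun i : {i // p i} => z i) ≤ Flow671.energy Φ ε z + stabB Φ * Fintype.card ι := by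
  have h1 := energy_equiv Φ ε (Equiv.sumCompl p) z
  have h2 : (fun i => z (Equiv.sumCompl p i)) =
      Sum.elim (fun i : {i // p i} => z i) (fun i : {i // ¬ p i} => z i) := by
    funext i; rcases i with i | i <;> rfl
  rw [h2] at h1
  have h3 := energy_sum_elim hΦ hε (fun i : {i // p i} => z i) (fun i : {i // ¬ p i} => z i)
    (fun i j => (h i j i.2 j.2).le)
  rw [h3] at h1
  have hd : (fun i : {i // ¬ p i} => z i) ∈ Dom Φ {i // ¬ p i} :=
    Dom_comp (Function.Embedding.subtype _) hz
  have h4 := kin_le hΦ hε hd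
  have h5 := kin_nonneg (fun i : {i // ¬ p i} => z i)
  have h6 : (Fintype.card {i // ¬ p i} : ℝ) ≤ Fintype.card ι := by
    exact_mod_cast Fintype.card_subtype_le _
  have h7 := mul_le_mul_of_nonneg_left h6 (stabB_nonneg Φ)
  linarith

/-- **The Newton family.** -/
def newton (hΦ : AdmissiblePotential Φ) (hε : 0 < ε) : Bodies ε (stabB Φ) where
  flow := nflow Φ ε
  dom := Dom Φ
  energy := nenergy Φ ε
  eps_pos := hε
  B_nonneg := stabB_nonneg Φ
  dom_meas := fun ι _ => measurableSet_Dom Φ
  dom_ae := fun ι _ => ae_mem_Dom Φ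
  flow_dom := fun ι _ t z hz => by rw [nflow_eq]; exact flow_mem hΦ hε hz t
  flow_zero := fun ι _ z _ => by rw [nflow_eq]; exact flow_zero hΦ hε z
  flow_add := fun ι _ s t z _ => by
    rw [nflow_eq, nflow_eq, nflow_eq, add_comm]; exact flow_add hΦ hε t s z
  flow_mp := fun ι _ t => by rw [nflow_eq]; exact measurePreserving_flow hΦ hε t
  cont := fun ι _ z _ i => by
    simp only [nflow_eq]
    exact ((continuous_apply i).comp (flow_continuous_time hΦ hε z)).fst
  energy_meas := fun ι _ => by
    rw [nenergy_eq]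
    have hm : Measurable Φ := measurable_pot hΦ
    unfold Flow671.energy
    fun_prop
  energy_flow := fun ι _ t z _ => by rw [nflow_eq, nenergy_eq]; exact energy_flow hΦ hε t z
  vel_le := fun ι _ z hz i => by
    rw [nenergy_eq]
    have h1 := norm_sq_le_two_kin z i
    have h2 := kin_le hΦ hε hz
    linarith
  lip := fun ι _ z hz i s t V hV h => by
    rw [nflow_eq, nflow_eq]
    rw [nenergy_eq] at h
    refine (dist_pos_flow_le hΦ hε hz t s i).trans ?_
    refine mul_le_mul_of_nonneg_right ?_ (abs_nonneg _)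
    rw [show V = Real.sqrt (V ^ 2) from (Real.sqrt_sq hV).symm]
    exact Real.sqrt_le_sqrt h
  dom_restrict := fun ι _ p z hz => Dom_comp (Function.Embedding.subtype _) hz
  flow_local := fun ι _ p z hz a b ha hb h t ht i => by
    rw [nflow_eq, nflow_eq]
    simp only [nflow_eq] at h
    have := flow_comp_zero hΦ hε (Function.Embedding.subtype p) hz ⟨ha, hb⟩
      (fun s hs i j hj => (h s hs i j i.2 (fun hp => hj ⟨⟨j, hp⟩, rfl⟩)).le) ht
    exact congrFun this i
  energy_restrict := fun ι _ p z hz h => by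
    rw [nenergy_eq, nenergy_eq]
    exact energy_sub_le hΦ hε p hz h

end Crest.Agent.R122.Vol365
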