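import Crest.Agent.R122.VolFlux4_350
import Crest.Agent.R122.VolNewton_365
import Crest.Agent.R122.ChainDefs_726

/-!
Row 122, helper350: the flux step with energy weight, for 726's release steps of Finset groups.
-/

set_option autoImplicit false
set_option linter.unusedSectionVars false

open MeasureTheory Set Filter Topology
open Crest.AnalysisR.Kinetic
open Crest.Agent.R122.Flow671 Crest.Agent.R122.Loc45 Crest.Agent.R122.Causal291
open Crest.Agent.R122.Omega969 Crest.Agent.R122.Disc416 Crest.Agent.R122.Chain726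
open scoped Classical ENNReal

noncomputable section

namespace Crest.Agent.R122.Flux350

variable {Φ : Space3 → ℝ} {ε : ℝ} {υ κ : Type*} [Fintype υ] [Fintype κ]

/-! ### Energy -/

lemma measurable_energy (hΦ : AdmissiblePotential Φ) (ε : ℝ) :
    Measurable (energy (ι := κ) Φ ε) := by
  have hm : Measurable Φ := Vol365.measurable_pot hΦ
  unfold Flow671.energy
  fun_prop

lemma energy_shiftX (Φ : Space3 → ℝ) (ε : ℝ) (a : Space3) (Z : κ → PhasePoint) :
    energy Φ ε (shiftX a Z) = energy Φ ε Z := by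
  unfold Flow671.energy shiftX
  simp only [add_sub_add_right_eq_sub]

lemma energy_unique [Unique υ] (Φ : Space3 → ℝ) (ε : ℝ) (Z : υ → PhasePoint) :
    energy Φ ε Z = ‖(Z default).2‖ ^ 2 / 2 := by
  unfold Flow671.energy
  simp [Fintype.card_unique]
  ring

/-- the energy splits at a release -/
lemma Rel.energy (hΦ : AdmissiblePotential Φ) (hε : 0 < ε) {T : ℝ} {j : υ} {m : κ}
    {W : υ ⊕ κ → PhasePoint} {s : ℝ} (hR : Rel Φ ε T j m W s) :
    Flow671.energy Φ ε W = Flow671.energy Φ ε (keep Φ ε s W) + Flow671.energy Φ ε (gone Φ ε s W) := by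
  have h1 : flow Φ ε s W = Sum.elim (gone Φ ε s W) (fun k => flow Φ ε s W (Sum.inr k)) := by
    funext i
    rcases i with i | i <;> rfl
  have h2 := energy_sum_elim hΦ hε (gone Φ ε s W) (fun k => flow Φ ε s W (Sum.inr k))
    (fun i k => hR.sep_le hΦ hε i k)
  rw [← h1, energy_flow hΦ hε] at h2
  rw [h2, keep, energy_flow hΦ hε, add_comm]

/-- **(FS1Z) with energy weight.** -/
theorem FS1w [Unique υ] (hΦ : AdmissiblePotential Φ) (hε : 0 < ε) {T : ℝ} (hT : 0 ≤ T) (m : κ)
    {G : ℝ → (κ → PhasePoint) → PhasePoint → ℝ≥0∞}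
    (hG : Measurable fun p : ℝ × (κ → PhasePoint) × PhasePoint => G p.1 p.2.1 p.2.2) (γ : ℝ) :
    ∃ M : (υ ⊕ κ → PhasePoint) → ℝ≥0∞, Measurable M ∧
      (∀ W s, Rel Φ ε T default m W s →
        G s (keep Φ ε s W) (flow Φ ε s W (Sum.inl default)) ≤ M W) ∧
      ∫⁻ W, ENNReal.ofReal (Real.exp (-(γ * energy Φ ε W))) * M W ≤
        ENNReal.ofReal (ε ^ 2) * ∫⁻ s in Icc 0 T, ∫⁻ Z : κ → PhasePoint,
        ∫⁻ w : Space3, ∫⁻ y in Metric.ball (0 : Plane) 1,
          ENNReal.ofReal (Real.exp (-(γ * (energy Φ ε Z + ‖w‖ ^ 2 / 2)))) *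
          (ENNReal.ofReal ‖(Z m).2 - w‖ * G s (flow Φ ε (-s) Z)
            ((Z m).1 + ε • entrancePoint (frameMap ((Z m).2 - w) y) ((Z m).2 - w), w)) := by
  have hE : Measurable (energy (ι := κ) Φ ε) := measurable_energy hΦ ε
  have hw : Measurable (fun p : ℝ × (κ → PhasePoint) × PhasePoint =>
      ENNReal.ofReal (Real.exp (-(γ * (energy Φ ε p.2.1 + ‖p.2.2.2‖ ^ 2 / 2))))) := by
    have h1 : Measurable (fun p : ℝ × (κ → PhasePoint) × PhasePoint => energy Φ ε p.2.1) :=
      hE.comp (measurable_fst.comp measurable_snd)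
    have h2 : Measurable (fun p : ℝ × (κ → PhasePoint) × PhasePoint => ‖p.2.2.2‖ ^ 2 / 2) :=
      ((measurable_snd.comp (measurable_snd.comp measurable_snd)).norm.pow_const 2).div_const 2
    exact ENNReal.measurable_ofReal.comp (Real.measurable_exp.comp
      ((h1.add h2).const_mul γ).neg)
  obtain ⟨M, hM, hM1, hM2⟩ := FS1Z (υ := υ) hΦ hε hT m
    (G := fun s Y z => ENNReal.ofReal (Real.exp (-(γ * (energy Φ ε Y + ‖z.2‖ ^ 2 / 2)))) * G s Y z)
    (hw.mul hG)
  have hEs : Measurable (energy (ι := υ ⊕ κ) Φ ε) := measurable_energy hΦ ε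
  refine ⟨fun W => ENNReal.ofReal (Real.exp (γ * energy Φ ε W)) * M W, ?_, ?_, ?_⟩
  · exact (ENNReal.measurable_ofReal.comp (Real.measurable_exp.comp (hEs.const_mul γ))).mul hM
  · intro W s hR
    have h1 := hM1 W s hR
    have h2 : energy Φ ε (keep Φ ε s W) + ‖(flow Φ ε s W (Sum.inl default)).2‖ ^ 2 / 2 =
        energy Φ ε W := by
      rw [hR.energy hΦ hε, energy_unique Φ ε (gone Φ ε s W)]
      rfl
    rw [h2] at h1
    calc G s (keep Φ ε s W) (flow Φ ε s W (Sum.inl default))
        = ENNReal.ofReal (Real.exp (γ * energy Φ ε W)) *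
          (ENNReal.ofReal (Real.exp (-(γ * energy Φ ε W))) *
            G s (keep Φ ε s W) (flow Φ ε s W (Sum.inl default))) := by
          rw [← mul_assoc, ← ENNReal.ofReal_mul (Real.exp_pos _).le, ← Real.exp_add, add_neg_cancel,
            Real.exp_zero, ENNReal.ofReal_one, one_mul]
      _ ≤ _ := mul_le_mul_right h1 _
  · have h1 : ∀ W : υ ⊕ κ → PhasePoint, ENNReal.ofReal (Real.exp (-(γ * energy Φ ε W))) *
        (ENNReal.ofReal (Real.exp (γ * energy Φ ε W)) * M W) = M W := by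
      intro W
      rw [← mul_assoc, ← ENNReal.ofReal_mul (Real.exp_pos _).le, ← Real.exp_add, neg_add_cancel,
        Real.exp_zero, ENNReal.ofReal_one, one_mul]
    simp only [h1]
    refine hM2.trans (le_of_eq ?_)
    simp only [energy_flow hΦ hε]
    congr 1
    refine lintegral_congr fun s => lintegral_congr fun Z => lintegral_congr fun w =>
      lintegral_congr fun y => ?_
    rw [mul_left_comm]

/-! ### Finset groups -/

variable {ι : Type*}

lemma lintegral_relabel {α β : Type*} [Fintype α] [Fintype β] (e : α ≃ β)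
    {f : (α → PhasePoint) → ℝ≥0∞} :
    ∫⁻ W : β → PhasePoint, f (fun i => W (e i)) = ∫⁻ V : α → PhasePoint, f V := by
  have h := (volume_measurePreserving_piCongrLeft (fun _ : β => PhasePoint) e).symm
  have h2 := h.lintegral_comp_emb
    (MeasurableEquiv.piCongrLeft (fun _ : β => PhasePoint) e).symm.measurableEmbedding f
  rw [← h2]
  rfl

/-- the released particle and the kept group -/
def spl {A A' : Finset ι} (h : A' ⊆ A) (hc : A'.card + 1 = A.card) (j : A) (hj : (j : ι) ∉ A') :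
    Unit ⊕ A' ≃ A :=
  Equiv.ofBijective (Sum.elim (fun _ => j) (fun k => ⟨k, h k.2⟩)) (by
    rw [Fintype.bijective_iff_injective_and_card]
    refine ⟨?_, ?_⟩
    · rintro (a | a) (b | b) hab
      · rfl
      · exact absurd (by have := congrArg Subtype.val hab; simpa using this ▸ b.2) hj
      · exact absurd (by have := congrArg Subtype.val hab; simpa using this ▸ a.2) hj
      · have := congrArg Subtype.val hab
        simp only [Sum.elim_inr] at this
        rw [Subtype.ext this]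
    · rw [Fintype.card_sum, Fintype.card_unit, Fintype.card_coe, Fintype.card_coe, ← hc]
      ring)

@[simp] lemma spl_inl {A A' : Finset ι} (h : A' ⊆ A) (hc : A'.card + 1 = A.card) (j : A)
    (hj : (j : ι) ∉ A') (u : Unit) : spl h hc j hj (Sum.inl u) = j := rfl

@[simp] lemma spl_inr {A A' : Finset ι} (h : A' ⊆ A) (hc : A'.card + 1 = A.card) (j : A)
    (hj : (j : ι) ∉ A') (k : A') : spl h hc j hj (Sum.inr k) = ⟨k, h k.2⟩ := rfl

/-- a step releasing one particle is a release in the sense of `Rel` -/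
lemma rel_of_step (hΦ : AdmissiblePotential Φ) (hε : 0 < ε) {T s : ℝ} (hs : s ∈ Icc 0 T)
    {A A' : Finset ι} (h : A' ⊆ A) (hc : A'.card + 1 = A.card) (j : A) (hj : (j : ι) ∉ A')
    {W : A → PhasePoint} {W' : A' → PhasePoint} (hS : Step Φ ε s W W') (m : A')
    (hm : dist (flow Φ ε s W j).1 (flow Φ ε s W ⟨m, h m.2⟩).1 = ε) :
    Rel Φ ε T () m (fun i => W (spl h hc j hj i)) s ∧
      keep Φ ε s (fun i => W (spl h hc j hj i)) = W' := by
  have hfl : ∀ u, flow Φ ε u (fun i => W (spl h hc j hj i)) =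
      fun i => flow Φ ε u W (spl h hc j hj i) := fun u => flow_equiv hΦ hε _ u W
  refine ⟨⟨(Dom_equiv _).2 hS.dom, hs.1, hs.2, ?_, ?_⟩, ?_⟩
  · rw [hfl]
    exact hm
  · obtain ⟨d, hd, hsep⟩ := hS.sep
    refine ⟨d, hd, fun u hu i k => ?_⟩
    rw [hfl]
    exact hsep u hu j ⟨k, h k.2⟩ hj k.2
  · rw [hS.state]
    unfold keep
    rw [hfl]
    rfl

/-- **(FS1) for Finset groups, with energy weight.** -/
theorem FS1fin (hΦ : AdmissiblePotential Φ) (hε : 0 < ε) {T : ℝ} (hT : 0 ≤ T)
    {A A' : Finset ι} (h : A' ⊆ A) (hc : A'.card + 1 = A.card) (j : A) (hj : (j : ι) ∉ A')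
    {G : ℝ → (A' → PhasePoint) → A' → PhasePoint → ℝ≥0∞}
    (hG : ∀ m, Measurable fun p : ℝ × (A' → PhasePoint) × PhasePoint => G p.1 p.2.1 m p.2.2)
    (γ : ℝ) :
    ∃ M : (A → PhasePoint) → ℝ≥0∞, Measurable M ∧
      (∀ (W : A → PhasePoint) (W' : A' → PhasePoint) (s : ℝ), s ∈ Icc 0 T → Step Φ ε s W W' →
        ∀ m : A', dist (flow Φ ε s W j).1 (flow Φ ε s W ⟨m, h m.2⟩).1 = ε →
          G s W' m (flow Φ ε s W j) ≤ M W) ∧
      ∫⁻ W, ENNReal.ofReal (Real.exp (-(γ * energy Φ ε W))) * M W ≤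
        ENNReal.ofReal (ε ^ 2) * ∑ m : A', ∫⁻ s in Icc 0 T, ∫⁻ Z : A' → PhasePoint,
        ∫⁻ w : Space3, ∫⁻ y in Metric.ball (0 : Plane) 1,
          ENNReal.ofReal (Real.exp (-(γ * (energy Φ ε Z + ‖w‖ ^ 2 / 2)))) *
          (ENNReal.ofReal ‖(Z m).2 - w‖ * G s (flow Φ ε (-s) Z) m
            ((Z m).1 + ε • entrancePoint (frameMap ((Z m).2 - w) y) ((Z m).2 - w), w)) := by
  have hF := fun m : A' => FS1w (υ := Unit) hΦ hε hT m (G := fun s Y z => G s Y m z) (hG m) γ
  choose M hM hM1 hM2 using hF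
  have hre : Measurable (fun W : A → PhasePoint => fun i => W (spl h hc j hj i)) :=
    measurable_pi_lambda _ fun i => measurable_pi_apply _
  have hMr : ∀ m, Measurable (fun W : A → PhasePoint => M m (fun i => W (spl h hc j hj i))) :=
    fun m => (hM m).comp hre
  refine ⟨fun W => ∑ m, M m (fun i => W (spl h hc j hj i)), Finset.measurable_sum _ fun m _ => hMr m,
    ?_, ?_⟩
  · intro W W' s hs hS m hm
    obtain ⟨h1, h2⟩ := rel_of_step hΦ hε hs h hc j hj hS m hm
    have h3 := hM1 m _ s h1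
    rw [h2, flow_equiv hΦ hε] at h3
    simp only at h3
    refine le_trans h3 ?_
    exact Finset.single_le_sum (f := fun m => M m (fun i => W (spl h hc j hj i)))
      (fun _ _ => zero_le) (Finset.mem_univ m)
  · have hE : Measurable (fun W : A → PhasePoint =>
        ENNReal.ofReal (Real.exp (-(γ * energy Φ ε W)))) :=
      ENNReal.measurable_ofReal.comp (Real.measurable_exp.comp
        ((measurable_energy hΦ ε).const_mul γ).neg)
    simp only [Finset.mul_sum]
    have hp : ∀ m ∈ (Finset.univ : Finset A'), Measurable (fun W : A → PhasePoint =>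
        ENNReal.ofReal (Real.exp (-(γ * energy Φ ε W))) * M m (fun i => W (spl h hc j hj i))) :=
      fun m _ => hE.mul (hMr m)
    rw [lintegral_finsetSum _ hp]
    refine Finset.sum_le_sum fun m _ => ?_
    refine le_trans (le_of_eq ?_) (hM2 m)
    rw [← lintegral_relabel (spl h hc j hj) (f := fun V =>
      ENNReal.ofReal (Real.exp (-(γ * energy Φ ε V))) * M m V)]
    refine lintegral_congr fun W => ?_
    rw [energy_equiv]

end Crest.Agent.R122.Flux350

end
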