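import Mathlib

/-!
Row 122, helper365: splitting lemma for finite connected relations.
-/

set_option autoImplicit false

open Set

namespace Crest.Agent.R122.VolGraph365

variable {ι : Type} 

/-- Relation restricted to a set. -/
def Rin (r : ι → ι → Prop) (P : Set ι) (x y : ι) : Prop := r x y ∧ x ∈ P ∧ y ∈ P

/-- Connected inside `P`. -/
def ConnIn (r : ι → ι → Prop) (P : Set ι) : Prop := ∀ i ∈ P, ∀ j ∈ P, Relation.ReflTransGen (Rin r P) i j

/-- Closed under the relation. -/
def Clo (r : ι → ι → Prop) (P : Set ι) : Prop := ∀ i ∈ P, ∀ j, r i j → j ∈ P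

theorem rtg_symm {r : ι → ι → Prop} (hs : ∀ i j, r i j → r j i) {i j : ι}
    (h : Relation.ReflTransGen r i j) : Relation.ReflTransGen r j i := by
  induction h with
  | refl => exact .refl
  | tail _ h2 ih => exact Relation.ReflTransGen.head (hs _ _ h2) ih

theorem mem_of_clo {r : ι → ι → Prop} {P : Set ι} (hP : Clo r P) {i j : ι} (hi : i ∈ P)
    (h : Relation.ReflTransGen r i j) : j ∈ P := by
  induction h with
  | refl => exact hi
  | tail _ h2 ih => exact hP _ ih _ h2

theorem rin_of_clo {r : ι → ι → Prop} {P : Set ι} (hP : Clo r P) {i j : ι} (hi : i ∈ P)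
    (h : Relation.ReflTransGen r i j) : Relation.ReflTransGen (Rin r P) i j := by
  induction h with
  | refl => exact .refl
  | tail h1 h2 ih => exact ih.tail ⟨h2, mem_of_clo hP hi h1, hP _ (mem_of_clo hP hi h1) _ h2⟩

theorem clo_block (r : ι → ι → Prop) (i : ι) : Clo r {j | Relation.ReflTransGen r i j} :=
  fun _ hj _ h => Relation.ReflTransGen.tail hj h

theorem conn_block {r : ι → ι → Prop} (hs : ∀ i j, r i j → r j i) (i : ι) :
    ConnIn r {j | Relation.ReflTransGen r i j} := by
  intro j hj k hk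
  exact rin_of_clo (clo_block r i) hj ((rtg_symm hs hj).trans hk)

theorem rin_mono {r r' : ι → ι → Prop} (h : ∀ x y, r x y → r' x y) {P P' : Set ι} (hP : P ⊆ P')
    {i j : ι} (hij : Relation.ReflTransGen (Rin r P) i j) : Relation.ReflTransGen (Rin r' P') i j :=
  Relation.ReflTransGen.mono (r := Rin r P) (p := Rin r' P')
    (fun _ _ h' => ⟨h _ _ h'.1, hP h'.2.1, hP h'.2.2⟩) _ _ hij

theorem conn_union {r : ι → ι → Prop} (hs : ∀ i j, r i j → r j i) {P Q : Set ι}
    (hP : ConnIn r P) (hQ : ConnIn r Q) {i j : ι} (hi : i ∈ P) (hj : j ∈ Q) (hij : r i j) :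
    ConnIn r (P ∪ Q) := by
  have hPi : ∀ k ∈ P, Relation.ReflTransGen (Rin r (P ∪ Q)) k i := fun k hk =>
    rin_mono (fun _ _ h => h) subset_union_left (hP k hk i hi)
  have hQj : ∀ k ∈ Q, Relation.ReflTransGen (Rin r (P ∪ Q)) j k := fun k hk =>
    rin_mono (fun _ _ h => h) subset_union_right (hQ j hj k hk)
  have hss : ∀ x y, Rin r (P ∪ Q) x y → Rin r (P ∪ Q) y x := fun x y h => ⟨hs _ _ h.1, h.2.2, h.2.1⟩
  have hcross : Relation.ReflTransGen (Rin r (P ∪ Q)) i j := .single ⟨hij, Or.inl hi, Or.inr hj⟩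
  rintro x (hx | hx) y (hy | hy)
  · exact rin_mono (fun _ _ h => h) subset_union_left (hP x hx y hy)
  · exact ((hPi x hx).trans hcross).trans (hQj y hy)
  · exact ((rtg_symm hss (hQj x hx)).trans (rtg_symm hss hcross)).trans (rtg_symm hss (hPi y hy))
  · exact rin_mono (fun _ _ h => h) subset_union_right (hQ x hx y hy)

/-- A crossing edge. -/
theorem exists_cross {r : ι → ι → Prop} {P : Set ι} {i j : ι} (hi : i ∈ P) (hj : j ∉ P)
    (h : Relation.ReflTransGen r i j) : ∃ x y, x ∈ P ∧ y ∉ P ∧ r x y := by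
  induction h with
  | refl => exact absurd hi hj
  | @tail b c h1 h2 ih =>
    by_cases hb : b ∈ P
    · exact ⟨b, c, hb, hj, h2⟩
    · exact ih hb

theorem subtype_conn {r : ι → ι → Prop} {P : Set ι} (h : ConnIn r P) (i j : {i // i ∈ P}) :
    Relation.ReflTransGen (fun x y : {i // i ∈ P} => r x y) i j := by
  have key : ∀ k, Relation.ReflTransGen (Rin r P) i.1 k → ∀ hk : k ∈ P,
      Relation.ReflTransGen (fun x y : {i // i ∈ P} => r x y) i ⟨k, hk⟩ := by
    intro k h
    induction h with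
    | refl => intro hk; exact .refl
    | @tail b c h1 h2 ih => intro hk; exact (ih h2.2.1).tail h2.1
  exact key j.1 (h i.1 i.2 j.1 j.2) j.2

/-- **Splitting lemma.** -/
theorem split [Finite ι] {c l : ι → ι → Prop} (hc : ∀ i j, c i j → c j i) (hl : ∀ i j, l i j → l j i)
    (h1 : ∀ i j, Relation.ReflTransGen (fun x y => c x y ∨ l x y) i j)
    (h2 : ¬ ∀ i j, Relation.ReflTransGen c i j) :
    ∃ P : Set ι, (∃ i, i ∈ P) ∧ (∃ j, j ∉ P) ∧ (∀ i ∈ P, ∀ j ∉ P, ¬ c i j) ∧
      (∀ i j : {i // i ∈ P}, Relation.ReflTransGen (fun x y : {i // i ∈ P} => c x y ∨ l x y) i j) ∧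
      (∀ i j : {i // ¬ i ∈ P}, Relation.ReflTransGen (fun x y : {i // ¬ i ∈ P} => c x y) i j) ∧
      ∃ i j, i ∈ P ∧ j ∉ P ∧ l i j := by
  classical
  set r : ι → ι → Prop := fun x y => c x y ∨ l x y with hr
  have hrs : ∀ i j, r i j → r j i := fun i j h => h.imp (hc i j) (hl i j)
  push Not at h2
  obtain ⟨i₀, j₀, h0⟩ := h2
  let F : Set (Set ι) := {P | P.Nonempty ∧ P ≠ univ ∧ Clo c P ∧ ConnIn r P}
  have hF : F.Nonempty := by
    refine ⟨{j | Relation.ReflTransGen c i₀ j}, ⟨i₀, .refl⟩, ?_, clo_block c i₀, ?_⟩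
    · intro h
      exact h0 (by have : j₀ ∈ (univ : Set ι) := mem_univ _
                   rw [← h] at this; exact this)
    · intro x hx y hy
      exact rin_mono (fun _ _ h => Or.inl h) (le_refl _) (conn_block hc i₀ x hx y hy)
  obtain ⟨P, hP⟩ := (Set.toFinite F).exists_maximal hF
  obtain ⟨⟨i, hi⟩, hne, hclo, hconn⟩ := hP.1
  obtain ⟨j, hj⟩ : ∃ j, j ∉ P := by
    by_contra h; push Not at h
    exact hne (eq_univ_of_forall h)
  obtain ⟨x, y, hx, hy, hxy⟩ := exists_cross hi hj (h1 i j)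
  have hlxy : l x y := by
    rcases hxy with h | h
    · exact absurd (hclo x hx y h) hy
    · exact h
  set D : Set ι := {k | Relation.ReflTransGen c y k} with hD
  have hDconn : ConnIn c D := conn_block hc y
  have hdisj : ∀ k ∈ D, k ∉ P := fun k hk hkP => hy (mem_of_clo hclo hkP (rtg_symm hc hk))
  have hU : P ∪ D = univ := by
    by_contra hne'
    have hmem : P ∪ D ∈ F := by
      refine ⟨⟨x, Or.inl hx⟩, hne', ?_, ?_⟩
      · rintro a (ha | ha) b hab
        · exact Or.inl (hclo a ha b hab)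
        · exact Or.inr (clo_block c y a ha b hab)
      · exact conn_union hrs hconn
          (fun a ha b hb => rin_mono (fun _ _ h => Or.inl h) (le_refl _) (hDconn a ha b hb)) hx
          (show y ∈ D from .refl) (Or.inr hlxy)
    have := hP.2 hmem (subset_union_left (s := P) (t := D))
    exact hy (this (Or.inr (show y ∈ D from .refl)))
  have hcompl : ∀ k, ¬ k ∈ P ↔ k ∈ D := by
    intro k
    constructor
    · intro hk
      have : k ∈ P ∪ D := by rw [hU]; trivial
      exact this.resolve_left hk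
    · exact hdisj k
  refine ⟨P, ⟨i, hi⟩, ⟨j, hj⟩, fun a ha b hb hab => hb (hclo a ha b hab), ?_, ?_, x, y, hx, hy, hlxy⟩
  · exact subtype_conn hconn
  · have hPc : ConnIn c Pᶜ := by
      have : Pᶜ = D := by ext k; exact hcompl k
      rw [this]; exact hDconn
    exact subtype_conn hPc

end Crest.Agent.R122.VolGraph365
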