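import Crest.Agent.R122.VolDefs_365
import Crest.Agent.R122.VolGraph_365

/-!
Row 122, helper365: Fubini tools for splitting a configuration in two groups; ball volumes;
the static (time zero) cluster bound.
-/

set_option autoImplicit false

open MeasureTheory Set
open Crest.AnalysisR.Kinetic
open scoped ENNReal Classical

noncomputable section

namespace Crest.Agent.R122.Vol365

instance sf1 : SigmaFinite (volume : Measure PhasePoint) := inferInstance
instance sf2 {ι : Type} [Fintype ι] : SigmaFinite (volume : Measure (ι → PhasePoint)) :=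
  @Measure.instSigmaFiniteForallVolume ι _ (fun _ => PhasePoint) _ (fun _ => sf1)
instance sf3 {ι : Type} [Fintype ι] : SFinite (volume : Measure (ι → PhasePoint)) := inferInstance

variable {ι : Type} [Fintype ι]

/-- restriction of a configuration to the particles satisfying `p`. -/
abbrev res (p : ι → Prop) (z : ι → PhasePoint) : {i // p i} → PhasePoint := fun i => z i

theorem fub1 (p : ι → Prop) {X : Set ({i // p i} → PhasePoint)} (hX : MeasurableSet X)
    {W : Set (({i // p i} → PhasePoint) × ({i // ¬ p i} → PhasePoint))} (hW : MeasurableSet W)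
    (hWX : ∀ w ∈ W, w.1 ∈ X) {M : ℝ≥0∞} (hM : ∀ x ∈ X, volume {y | (x, y) ∈ W} ≤ M) :
    volume {z : ι → PhasePoint | (res p z, res (fun i => ¬ p i) z) ∈ W} ≤ volume X * M := by
  have hmp := volume_preserving_piEquivPiSubtypeProd (fun _ : ι => PhasePoint) p
  have h1 : volume {z : ι → PhasePoint | (res p z, res (fun i => ¬ p i) z) ∈ W} =
      ((volume : Measure ({i // p i} → PhasePoint)).prod
        (volume : Measure ({i // ¬ p i} → PhasePoint))) W :=
    hmp.measure_preimage hW.nullMeasurableSet
  rw [h1, Measure.prod_apply hW]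
  calc ∫⁻ x, volume (Prod.mk x ⁻¹' W) ≤ ∫⁻ x, X.indicator (fun _ => M) x := by
        refine lintegral_mono fun x => ?_
        by_cases hx : x ∈ X
        · rw [indicator_of_mem hx]; exact hM x hx
        · rw [indicator_of_notMem hx]
          have : Prod.mk x ⁻¹' W = ∅ := by
            ext y; constructor
            · intro hy; exact absurd (hWX _ hy) hx
            · intro hy; exact absurd hy (notMem_empty _)
          rw [this]; simp
    _ = volume X * M := by rw [lintegral_indicator hX, lintegral_const, Measure.restrict_apply_univ, mul_comm]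

theorem fub2 (p : ι → Prop) {Y : Set ({i // ¬ p i} → PhasePoint)} (hY : MeasurableSet Y)
    {W : Set (({i // p i} → PhasePoint) × ({i // ¬ p i} → PhasePoint))} (hW : MeasurableSet W)
    (hWY : ∀ w ∈ W, w.2 ∈ Y) {M : ℝ≥0∞} (hM : ∀ y ∈ Y, volume {x | (x, y) ∈ W} ≤ M) :
    volume {z : ι → PhasePoint | (res p z, res (fun i => ¬ p i) z) ∈ W} ≤ volume Y * M := by
  have hmp := volume_preserving_piEquivPiSubtypeProd (fun _ : ι => PhasePoint) p
  have h1 : volume {z : ι → PhasePoint | (res p z, res (fun i => ¬ p i) z) ∈ W} =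
      ((volume : Measure ({i // p i} → PhasePoint)).prod
        (volume : Measure ({i // ¬ p i} → PhasePoint))) W :=
    hmp.measure_preimage hW.nullMeasurableSet
  rw [h1, Measure.prod_apply_symm hW]
  calc ∫⁻ y, volume ((fun x => (x, y)) ⁻¹' W) ≤ ∫⁻ y, Y.indicator (fun _ => M) y := by
        refine lintegral_mono fun y => ?_
        by_cases hy : y ∈ Y
        · rw [indicator_of_mem hy]; exact hM y hy
        · rw [indicator_of_notMem hy]
          have : (fun x => (x, y)) ⁻¹' W = ∅ := by
            ext x; constructor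
            · intro hx; exact absurd (hWY _ hx) hy
            · intro hx; exact absurd hx (notMem_empty _)
          rw [this]; simp
    _ = volume Y * M := by rw [lintegral_indicator hY, lintegral_const, Measure.restrict_apply_univ, mul_comm]

/-- volume of the unit ball of `Space3`. -/
def kap : ℝ≥0∞ := volume (Metric.ball (0 : Space3) 1)

theorem kap_ne_top : kap ≠ ∞ := measure_ball_lt_top.ne

theorem vol_closedBall (x : Space3) {r : ℝ} (hr : 0 ≤ r) :
    volume (Metric.closedBall x r) = ENNReal.ofReal r ^ 3 * kap := by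
  rw [Measure.addHaar_closedBall _ _ hr, ← ENNReal.ofReal_pow hr]
  simp [kap]

/-- The set of phase points in a ball with bounded velocity. -/
def cell (x : Space3) (r V : ℝ) : Set PhasePoint := Metric.closedBall x r ×ˢ Metric.closedBall 0 V

theorem measurableSet_cell (x : Space3) (r V : ℝ) : MeasurableSet (cell x r V) :=
  Metric.isClosed_closedBall.measurableSet.prod Metric.isClosed_closedBall.measurableSet

theorem vol_cell (x : Space3) {r V : ℝ} (hr : 0 ≤ r) (hV : 0 ≤ V) :
    volume (cell x r V) = (ENNReal.ofReal r ^ 3 * kap) * (ENNReal.ofReal V ^ 3 * kap) := by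
  unfold cell
  rw [Measure.volume_eq_prod, Measure.prod_prod, vol_closedBall _ hr, vol_closedBall _ hV]

/-- Positions connected by chains of steps `≤ ε` are at distance `≤ card * ε`. -/
theorem dist_le_of_chain {x : ι → Space3} {ε : ℝ} (hε : 0 ≤ ε)
    (h : AllConn (fun i j => dist (x i) (x j) ≤ ε)) (i j : ι) : dist (x i) (x j) ≤ Fintype.card ι * ε := by
  let G : SimpleGraph ι := SimpleGraph.fromRel (fun i j => dist (x i) (x j) ≤ ε)
  have hadj : ∀ a b, G.Adj a b → dist (x a) (x b) ≤ ε := by
    intro a b hab
    rw [SimpleGraph.fromRel_adj] at hab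
    rcases hab.2 with h | h
    · exact h
    · rw [dist_comm]; exact h
  have hreach : ∀ a b, Relation.ReflTransGen (fun i j => dist (x i) (x j) ≤ ε) a b → G.Reachable a b := by
    intro a b hab
    induction hab with
    | refl => exact SimpleGraph.Reachable.refl _
    | @tail c d h1 h2 ih =>
      by_cases hcd : c = d
      · rw [← hcd]; exact ih
      · exact ih.trans (SimpleGraph.Adj.reachable ((SimpleGraph.fromRel_adj _ _ _).2 ⟨hcd, Or.inl h2⟩))
  have hwalk : ∀ a b (w : G.Walk a b), dist (x a) (x b) ≤ w.length * ε := by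
    intro a b w
    induction w with
    | nil => simp
    | @cons a b c hab w ih =>
      calc dist (x a) (x c) ≤ dist (x a) (x b) + dist (x b) (x c) := dist_triangle _ _ _
        _ ≤ ε + w.length * ε := add_le_add (hadj _ _ hab) ih
        _ = _ := by rw [SimpleGraph.Walk.length_cons]; push_cast; ring
  obtain ⟨w, hw⟩ := (hreach i j (h i j)).exists_isPath
  calc dist (x i) (x j) ≤ w.length * ε := hwalk i j w
    _ ≤ Fintype.card ι * ε := by
      refine mul_le_mul_of_nonneg_right ?_ hε
      exact_mod_cast hw.length_lt.le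

/-- Static bound: root in `A`, everybody else in the cell of the root. -/
theorem static_bound (i : ι) {A : Set PhasePoint} (hA : MeasurableSet A) {r V : ℝ} (hr : 0 ≤ r) (hV : 0 ≤ V) :
    volume {z : ι → PhasePoint | z i ∈ A ∧ ∀ j, z j ∈ cell (z i).1 r V} ≤
      volume A * ((ENNReal.ofReal r ^ 3 * kap) * (ENNReal.ofReal V ^ 3 * kap)) ^ (Fintype.card ι - 1) := by
  obtain ⟨p, hp⟩ : ∃ p : ι → Prop, ∀ j, p j ↔ j = i := ⟨fun j => j = i, fun _ => Iff.rfl⟩
  set i' : {j // p j} := ⟨i, (hp i).2 rfl⟩ with hi'
  set X : Set ({j // p j} → PhasePoint) := {x | x i' ∈ A} with hXdef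
  have hX : MeasurableSet X := measurable_pi_apply i' hA
  set W : Set (({j // p j} → PhasePoint) × ({j // ¬ p j} → PhasePoint)) :=
    {w | w.1 i' ∈ A ∧ ∀ j, dist (w.2 j).1 (w.1 i').1 ≤ r ∧ dist (w.2 j).2 0 ≤ V} with hWdef
  have hW : MeasurableSet W := by
    have h1 : MeasurableSet {w : ({j // p j} → PhasePoint) × ({j // ¬ p j} → PhasePoint) | w.1 i' ∈ A} :=
      ((measurable_pi_apply i').comp measurable_fst) hA
    have h2 : ∀ j, MeasurableSet {w : ({j // p j} → PhasePoint) × ({j // ¬ p j} → PhasePoint) |
        dist (w.2 j).1 (w.1 i').1 ≤ r ∧ dist (w.2 j).2 0 ≤ V} := by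
      intro j
      have hj : Measurable fun w : ({j // p j} → PhasePoint) × ({j // ¬ p j} → PhasePoint) => w.2 j :=
        (measurable_pi_apply j).comp measurable_snd
      have hi : Measurable fun w : ({j // p j} → PhasePoint) × ({j // ¬ p j} → PhasePoint) => w.1 i' :=
        (measurable_pi_apply i').comp measurable_fst
      exact (measurableSet_le (hj.fst.dist hi.fst) measurable_const).inter
        (measurableSet_le (hj.snd.dist measurable_const) measurable_const)
    have : W = {w | w.1 i' ∈ A} ∩ ⋂ j, {w | dist (w.2 j).1 (w.1 i').1 ≤ r ∧ dist (w.2 j).2 0 ≤ V} := by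
      ext w; simp only [hWdef, mem_inter_iff, mem_iInter]; rfl
    rw [this]; exact h1.inter (MeasurableSet.iInter h2)
  have hcard1 : Fintype.card {j // p j} = 1 := by
    rw [Fintype.card_eq_one_iff]
    exact ⟨i', fun j => Subtype.ext ((hp _).1 j.2)⟩
  have hcard : Fintype.card {j // ¬ p j} = Fintype.card ι - 1 := by
    rw [Fintype.card_subtype_compl, hcard1]
  have hvolX : volume X = volume A := by
    have hset : X = Set.pi univ fun _ => A := by
      ext x
      constructor
      · intro hx j _
        have : j = i' := Subtype.ext ((hp _).1 j.2)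
        rw [this]; exact hx
      · intro hx; exact hx i' (mem_univ _)
    rw [hset, volume_pi, Measure.pi_pi, Finset.prod_const, Finset.card_univ, hcard1, pow_one]
  have hsub : {z : ι → PhasePoint | z i ∈ A ∧ ∀ j, z j ∈ cell (z i).1 r V} ⊆
      {z : ι → PhasePoint | (res p z, res (fun i => ¬ p i) z) ∈ W} := by
    rintro z ⟨h1, h2⟩
    exact ⟨h1, fun j => ⟨(h2 j).1, (h2 j).2⟩⟩
  refine (measure_mono hsub).trans ?_
  refine (fub1 p hX hW (fun w hw => hw.1) (M := ((ENNReal.ofReal r ^ 3 * kap) *
    (ENNReal.ofReal V ^ 3 * kap)) ^ (Fintype.card ι - 1)) ?_).trans ?_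
  · intro x hx
    have : {y : {j // ¬ p j} → PhasePoint | (x, y) ∈ W} ⊆ Set.pi univ fun _ => cell (x i').1 r V := by
      intro y hy j _
      exact ⟨(hy.2 j).1, (hy.2 j).2⟩
    refine (measure_mono this).trans ?_
    rw [volume_pi, Measure.pi_pi]
    simp only [vol_cell _ hr hV, Finset.prod_const, Finset.card_univ, hcard]
    exact le_refl _
  · rw [hvolX]

end Crest.Agent.R122.Vol365
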