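import Crest.Agent.R122.VolCore_365

/-!
Row 122, helper365: induction step of the crude cluster volume bound.
-/

set_option autoImplicit false

open MeasureTheory Set
open Crest.AnalysisR.Kinetic
open scoped ENNReal Classical

noncomputable section

namespace Crest.Agent.R122.Vol365

theorem arith1 {C X α e v κ : ℝ≥0∞} {q c d n : ℕ} (hc : 1 ≤ c) (hd : 1 ≤ d) (hn : c + d = n) (hv : v ≤ X) :
    (C * X ^ q * e ^ (2 * (c - 1)) * α) * (C * X ^ q * e ^ (2 * (d - 1)) * (((2 * e) ^ 3 * κ) * (v ^ 3 * κ)))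
      ≤ (C ^ 2 * 8 * κ ^ 2) * X ^ (2 * q + 3) * e ^ (2 * (n - 1) + 1) * α := by
  obtain ⟨c', rfl⟩ := Nat.exists_eq_add_of_le' hc
  obtain ⟨d', rfl⟩ := Nat.exists_eq_add_of_le' hd
  subst hn
  have e1 : c' + 1 - 1 = c' := by omega
  have e2 : d' + 1 - 1 = d' := by omega
  have e3 : 2 * (c' + 1 + (d' + 1) - 1) + 1 = 2 * c' + 2 * d' + 3 := by omega
  rw [e1, e2, e3]
  calc (C * X ^ q * e ^ (2 * c') * α) * (C * X ^ q * e ^ (2 * d') * (((2 * e) ^ 3 * κ) * (v ^ 3 * κ)))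
      = (C ^ 2 * 8 * κ ^ 2) * (X ^ (2 * q) * v ^ 3) * e ^ (2 * c' + 2 * d' + 3) * α := by ring
    _ ≤ (C ^ 2 * 8 * κ ^ 2) * (X ^ (2 * q) * X ^ 3) * e ^ (2 * c' + 2 * d' + 3) * α := by gcongr
    _ = _ := by ring

namespace Bodies

variable {ε B : ℝ} (S : Bodies ε B) {ι : Type} [Fintype ι]

/-- The pieces in which `DSet` is decomposed. -/
def ZSet (a b σ E : ℝ) (i : ι) (A : Set PhasePoint) (P : Set ι) (x y : ι) : Set (ι → PhasePoint) :=
  {z | ∃ (hx : x ∈ P) (hy : ¬ y ∈ P),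
      ((∃ hi : i ∈ P, res (fun j => j ∈ P) z ∈
            S.RSet {j // j ∈ P} a b σ (E + B * Fintype.card ι) ⟨i, hi⟩ A ∧
          res (fun j => ¬ j ∈ P) z ∈
            S.SSet {j // ¬ j ∈ P} a b (E + B * Fintype.card ι) ⟨y, hy⟩ univ) ∨
        (∃ hi : ¬ i ∈ P, res (fun j => j ∈ P) z ∈
            S.RSet {j // j ∈ P} a b σ (E + B * Fintype.card ι) ⟨x, hx⟩ univ ∧
          res (fun j => ¬ j ∈ P) z ∈
            S.SSet {j // ¬ j ∈ P} a b (E + B * Fintype.card ι) ⟨i, hi⟩ A)) ∧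
      dist (S.pos (res (fun j => j ∈ P) z) σ ⟨x, hx⟩) (S.pos (res (fun j => ¬ j ∈ P) z) σ ⟨y, hy⟩)
        ≤ 2 * ε}

theorem vol_ZSet {k : ℕ} {C : ℝ≥0∞} {q : ℕ} (hBd : Bd k C q) {K : ℕ} {E V T : ℝ} (hε : ε ≤ 1)
    (hV : 1 ≤ V) (hT : 1 ≤ T) (hEV : 2 * (E + B * K * (k + 1 + 1)) ≤ V ^ 2)
    (hk : Fintype.card ι ≤ k + 1) (hK : Fintype.card ι ≤ K) (i : ι) {A : Set PhasePoint}
    (hA : MeasurableSet A) {a b σ : ℝ} (ha : a ≤ 0) (hb : 0 ≤ b) (hσ : σ ∈ Icc a b)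
    (hT' : b - a ≤ T) (P : Set ι) (x y : ι) :
    volume (S.ZSet a b σ E i A P x y) ≤ (C ^ 2 * 8 * kap ^ 2) * ENNReal.ofReal (V * T) ^ (2 * q + 3) *
      ENNReal.ofReal ε ^ (2 * (Fintype.card ι - 1) + 1) * volume A := by
  by_cases hx : x ∈ P
  swap
  · have : S.ZSet a b σ E i A P x y = ∅ := by
      ext z; constructor
      · rintro ⟨hx', -⟩; exact absurd hx' hx
      · intro h; exact absurd h (notMem_empty _)
    rw [this]; simp
  by_cases hy : ¬ y ∈ P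
  swap
  · have : S.ZSet a b σ E i A P x y = ∅ := by
      ext z; constructor
      · rintro ⟨-, hy', -⟩; exact absurd hy' hy
      · intro h; exact absurd h (notMem_empty _)
    rw [this]; simp
  have hV0 : (0 : ℝ) ≤ V := by linarith
  have hε0 : 0 ≤ ε := S.eps_pos.le
  set p : ι → Prop := fun j => j ∈ P with hp
  set E' : ℝ := E + B * Fintype.card ι with hE'
  set c := Fintype.card {j // p j} with hcdef
  set d := Fintype.card {j // ¬ p j} with hddef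
  have hcd : c + d = Fintype.card ι := by
    have h1 : c ≤ Fintype.card ι := Fintype.card_subtype_le _
    have h2 : d = Fintype.card ι - c := Fintype.card_subtype_compl _
    omega
  have hc1 : 1 ≤ c := Fintype.card_pos_iff.2 ⟨⟨x, hx⟩⟩
  have hd1 : 1 ≤ d := Fintype.card_pos_iff.2 ⟨⟨y, hy⟩⟩
  have hck : c ≤ k := by omega
  have hdk : d ≤ k := by omega
  have hcK : c ≤ K := by omega
  have hdK : d ≤ K := by omega
  have hBn : B * (Fintype.card ι : ℝ) ≤ B * K := mul_le_mul_of_nonneg_left (by exact_mod_cast hK) S.B_nonneg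
  have hEV' : 2 * (E' + B * K * (k + 1)) ≤ V ^ 2 := by
    have : 2 * (E' + B * K * (k + 1)) ≤ 2 * (E + B * K * (k + 1 + 1)) := by rw [hE']; linarith
    linarith
  have hvX : ENNReal.ofReal V ≤ ENNReal.ofReal (V * T) := ENNReal.ofReal_le_ofReal (by nlinarith)
  have h2e : ENNReal.ofReal (2 * ε) = 2 * ENNReal.ofReal ε := by
    rw [ENNReal.ofReal_mul (by norm_num)]; simp
  have hcell : ∀ q' : Space3, volume (cell q' (2 * ε) V) =
      ((2 * ENNReal.ofReal ε) ^ 3 * kap) * (ENNReal.ofReal V ^ 3 * kap) := by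
    intro q'; rw [vol_cell _ (by linarith) hV0, h2e]
  by_cases hi : i ∈ P
  · -- root in the linked block
    set X : Set ({j // p j} → PhasePoint) := S.RSet {j // p j} a b σ E' ⟨i, hi⟩ A with hXdef
    set Y : Set ({j // ¬ p j} → PhasePoint) := S.SSet {j // ¬ p j} a b E' ⟨y, hy⟩ univ with hYdef
    have hX : MeasurableSet X := S.measurableSet_RSet _ _ _ _ _ hA
    have hY : MeasurableSet Y := S.measurableSet_SSet _ _ _ _ MeasurableSet.univ
    set W : Set (({j // p j} → PhasePoint) × ({j // ¬ p j} → PhasePoint)) :=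
      {w | w.1 ∈ X ∧ w.2 ∈ Y ∧ dist (S.pos w.1 σ ⟨x, hx⟩) (S.pos w.2 σ ⟨y, hy⟩) ≤ 2 * ε} with hWdef
    have hW : MeasurableSet W := by
      have h3 : MeasurableSet {w : ({j // p j} → PhasePoint) × ({j // ¬ p j} → PhasePoint) |
          dist (S.pos w.1 σ ⟨x, hx⟩) (S.pos w.2 σ ⟨y, hy⟩) ≤ 2 * ε} :=
        measurableSet_le (((S.measurable_pos σ _).comp measurable_fst).dist
          ((S.measurable_pos σ _).comp measurable_snd)) measurable_const
      exact (measurable_fst hX).inter ((measurable_snd hY).inter h3)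
    have hsub : S.ZSet a b σ E i A P x y ⊆
        {z : ι → PhasePoint | (res p z, res (fun j => ¬ p j) z) ∈ W} := by
      rintro z ⟨_, _, h, hl⟩
      rcases h with ⟨hi', h1, h2⟩ | ⟨hi', h1, h2⟩
      · exact ⟨h1, h2, hl⟩
      · exact absurd hi hi'
    refine (measure_mono hsub).trans ((fub1 p hX hW (fun w hw => hw.1)
      (M := C * ENNReal.ofReal (V * T) ^ q * ENNReal.ofReal ε ^ (2 * (d - 1)) *
        (((2 * ENNReal.ofReal ε) ^ 3 * kap) * (ENNReal.ofReal V ^ 3 * kap))) ?_).trans ?_)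
    · intro w hw
      have hs : {y' | (w, y') ∈ W} ⊆ {z | z ∈ S.SSet {j // ¬ p j} a b E' ⟨y, hy⟩ univ ∧
          dist (S.pos z σ ⟨y, hy⟩) (S.pos w σ ⟨x, hx⟩) ≤ 2 * ε} := by
        rintro z ⟨-, h2, h3⟩
        exact ⟨h2, by rw [dist_comm]; exact h3⟩
      refine (measure_mono hs).trans ?_
      have := S.near_S hBd hε hV hT hEV' hdk hdK ⟨y, hy⟩ hσ hT' (S.pos w σ ⟨x, hx⟩)
      rwa [hcell] at this
    · refine le_trans ?_ (arith1 hc1 hd1 hcd hvX)
      gcongr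
      exact (hBd ε B S K E' V T hε hV hT hEV' {j // p j} hck hcK ⟨i, hi⟩ A hA a b ha hb hT').2 σ hσ
  · -- root in the contact block
    set X : Set ({j // p j} → PhasePoint) := S.RSet {j // p j} a b σ E' ⟨x, hx⟩ univ with hXdef
    set Y : Set ({j // ¬ p j} → PhasePoint) := S.SSet {j // ¬ p j} a b E' ⟨i, hi⟩ A with hYdef
    have hX : MeasurableSet X := S.measurableSet_RSet _ _ _ _ _ MeasurableSet.univ
    have hY : MeasurableSet Y := S.measurableSet_SSet _ _ _ _ hA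
    set W : Set (({j // p j} → PhasePoint) × ({j // ¬ p j} → PhasePoint)) :=
      {w | w.1 ∈ X ∧ w.2 ∈ Y ∧ dist (S.pos w.1 σ ⟨x, hx⟩) (S.pos w.2 σ ⟨y, hy⟩) ≤ 2 * ε} with hWdef
    have hW : MeasurableSet W := by
      have h3 : MeasurableSet {w : ({j // p j} → PhasePoint) × ({j // ¬ p j} → PhasePoint) |
          dist (S.pos w.1 σ ⟨x, hx⟩) (S.pos w.2 σ ⟨y, hy⟩) ≤ 2 * ε} :=
        measurableSet_le (((S.measurable_pos σ _).comp measurable_fst).dist
          ((S.measurable_pos σ _).comp measurable_snd)) measurable_const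
      exact (measurable_fst hX).inter ((measurable_snd hY).inter h3)
    have hsub : S.ZSet a b σ E i A P x y ⊆
        {z : ι → PhasePoint | (res p z, res (fun j => ¬ p j) z) ∈ W} := by
      rintro z ⟨_, _, h, hl⟩
      rcases h with ⟨hi', h1, h2⟩ | ⟨hi', h1, h2⟩
      · exact absurd hi' hi
      · exact ⟨h1, h2, hl⟩
    refine (measure_mono hsub).trans ((fub2 p hY hW (fun w hw => hw.2.1)
      (M := C * ENNReal.ofReal (V * T) ^ q * ENNReal.ofReal ε ^ (2 * (c - 1)) *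
        (((2 * ENNReal.ofReal ε) ^ 3 * kap) * (ENNReal.ofReal V ^ 3 * kap))) ?_).trans ?_)
    · intro w hw
      have hs : {x' | (x', w) ∈ W} ⊆ {z | z ∈ S.RSet {j // p j} a b σ E' ⟨x, hx⟩ univ ∧
          dist (S.pos z σ ⟨x, hx⟩) (S.pos w σ ⟨y, hy⟩) ≤ 2 * ε} := by
        rintro z ⟨h1, -, h3⟩
        exact ⟨h1, h3⟩
      refine (measure_mono hs).trans ?_
      have := S.near_R hBd hε hV hT hEV' hck hcK ⟨x, hx⟩ hσ hT' (S.pos w σ ⟨y, hy⟩)
      rwa [hcell] at this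
    · refine le_trans ?_ (arith1 hd1 hc1 (by omega) hvX)
      gcongr
      exact (hBd ε B S K E' V T hε hV hT hEV' {j // ¬ p j} hdk hdK ⟨i, hi⟩ A hA a b ha hb hT').1

/-- Volume of `DSet`. -/
theorem vol_DSet {k : ℕ} {C : ℝ≥0∞} {q : ℕ} (hBd : Bd k C q) {K : ℕ} {E V T : ℝ} (hε : ε ≤ 1)
    (hV : 1 ≤ V) (hT : 1 ≤ T) (hEV : 2 * (E + B * K * (k + 1 + 1)) ≤ V ^ 2)
    (hk : Fintype.card ι ≤ k + 1) (hK : Fintype.card ι ≤ K) (i : ι) {A : Set PhasePoint}
    (hA : MeasurableSet A) {a b σ : ℝ} (ha : a ≤ 0) (hb : 0 ≤ b) (hσ : σ ∈ Icc a b)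
    (hT' : b - a ≤ T) :
    volume (S.DSet ι a b σ E i A) ≤ ((2 ^ (k + 1) * ((k + 1) * (k + 1)) : ℕ) : ℝ≥0∞) *
      ((C ^ 2 * 8 * kap ^ 2) * ENNReal.ofReal (V * T) ^ (2 * q + 3) *
      ENNReal.ofReal ε ^ (2 * (Fintype.card ι - 1) + 1) * volume A) := by
  have hsub : S.DSet ι a b σ E i A ⊆ ⋃ w : Set ι × ι × ι, S.ZSet a b σ E i A w.1 w.2.1 w.2.2 := by
    intro z hz
    obtain ⟨P, x, y, hx, hy, h⟩ := S.D_sub ha hb hσ hz
    exact mem_iUnion.2 ⟨(P, x, y), hx, hy, h⟩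
  refine (measure_mono hsub).trans ((measure_iUnion_fintype_le _ _).trans ?_)
  refine (Finset.sum_le_card_nsmul _ _ _ (fun w _ =>
    S.vol_ZSet hBd hε hV hT hEV hk hK i hA ha hb hσ hT' w.1 w.2.1 w.2.2)).trans ?_
  rw [nsmul_eq_mul]
  gcongr
  rw [Finset.card_univ, Fintype.card_prod, Fintype.card_prod, Fintype.card_set]
  exact Nat.mul_le_mul (Nat.pow_le_pow_right (by norm_num) hk) (Nat.mul_le_mul hk hk)

end Bodies

end Crest.Agent.R122.Vol365
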