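import Crest.Agent.R122.VolInd_365

/-!
Row 122, helper365: the crude undamped cluster volume bound, conclusion of the induction.
-/

set_option autoImplicit false

open MeasureTheory Set
open Crest.AnalysisR.Kinetic
open scoped ENNReal Classical

noncomputable section

namespace Crest.Agent.R122.Vol365

namespace Bodies

variable {ε B : ℝ} (S : Bodies ε B) {ι : Type} [Fintype ι]

/-- One step of the exhaustion of the time interval. -/
theorem step {z : ι → PhasePoint} (hz : z ∈ S.dom ι) {E V δ : ℝ} (hE : S.energy ι z ≤ E)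
    (hV : 0 ≤ V) (h : 2 * (E + B * Fintype.card ι) ≤ V ^ 2) (hδ : 2 * V * δ ≤ ε) {i : ι}
    {A : Set PhasePoint} (hi : z i ∈ A) {a a' b b' : ℝ} (haa : a - a' ≤ δ) (hbb : b' - b ≤ δ)
    (hc : AllConn (S.Contact a' b' z)) :
    AllConn (S.Contact a b z) ∨ z ∈ S.DSet ι a' b b E i A ∨ z ∈ S.DSet ι a b a E i A := by
  have h1 : AllConn (fun j k => S.Contact a' b z j k ∨ S.Link b z j k) := fun j k =>
    Relation.ReflTransGen.mono (r := S.Contact a' b' z)
      (p := fun j k => S.Contact a' b z j k ∨ S.Link b z j k)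
      (fun u v huv => S.ext_right hz hE hV h hδ hbb huv) _ _ (hc j k)
  by_cases h2 : AllConn (S.Contact a' b z)
  · have h3 : AllConn (fun j k => S.Contact a b z j k ∨ S.Link a z j k) := fun j k =>
      Relation.ReflTransGen.mono (r := S.Contact a' b z)
        (p := fun j k => S.Contact a b z j k ∨ S.Link a z j k)
        (fun u v huv => S.ext_left hz hE hV h hδ haa huv) _ _ (h2 j k)
    by_cases h4 : AllConn (S.Contact a b z)
    · exact Or.inl h4
    · exact Or.inr (Or.inr ⟨hz, hE, h3, h4, hi⟩)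
  · exact Or.inr (Or.inl ⟨hz, hE, h1, h2, hi⟩)

/-- lower end of the `m`-th interval -/
def lo (a δ : ℝ) (m : ℕ) : ℝ := max a (-(m * δ))
/-- upper end of the `m`-th interval -/
def hi (b δ : ℝ) (m : ℕ) : ℝ := min b (m * δ)

theorem lo_step (a : ℝ) {δ : ℝ} (hδ : 0 ≤ δ) (m : ℕ) : lo a δ m - lo a δ (m + 1) ≤ δ := by
  unfold lo; push_cast
  rcases le_total a (-(m * δ)) with h | h
  · rw [max_eq_right h]; have := le_max_right a (-((m + 1 : ℝ) * δ)); linarith
  · rw [max_eq_left h]; have := le_max_left a (-((m + 1 : ℝ) * δ)); linarith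

theorem hi_step (b : ℝ) {δ : ℝ} (hδ : 0 ≤ δ) (m : ℕ) : hi b δ (m + 1) - hi b δ m ≤ δ := by
  unfold hi; push_cast
  rcases le_total b (m * δ) with h | h
  · rw [min_eq_left h]; have := min_le_left b ((m + 1 : ℝ) * δ); linarith
  · rw [min_eq_right h]; have := min_le_right b ((m + 1 : ℝ) * δ); linarith

theorem lo_le {a δ : ℝ} (ha : a ≤ 0) (hδ : 0 ≤ δ) (m : ℕ) : lo a δ m ≤ 0 :=
  max_le ha (by have : 0 ≤ (m : ℝ) * δ := by positivity
                linarith)

theorem le_hi {b δ : ℝ} (hb : 0 ≤ b) (hδ : 0 ≤ δ) (m : ℕ) : 0 ≤ hi b δ m :=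
  le_min hb (by positivity)

/-- Static part. -/
theorem vol_static {k : ℕ} {E V : ℝ} (hV : 0 ≤ V) (hE : 2 * (E + B * Fintype.card ι) ≤ V ^ 2)
    (hk : Fintype.card ι ≤ k + 1) (i : ι) {A : Set PhasePoint} (hA : MeasurableSet A) :
    volume {z : ι → PhasePoint | z ∈ S.dom ι ∧ S.energy ι z ≤ E ∧ AllConn (S.Contact 0 0 z) ∧ z i ∈ A}
      ≤ volume A * ((ENNReal.ofReal ((k + 1 : ℕ) * ε) ^ 3 * kap) * (ENNReal.ofReal V ^ 3 * kap)) ^
        (Fintype.card ι - 1) := by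
  have hε := S.eps_pos
  refine le_trans (measure_mono ?_) (static_bound i hA (r := ((k + 1 : ℕ) : ℝ) * ε) (V := V)
    (by positivity) hV)
  rintro z ⟨h1, h2, h3, h4⟩
  refine ⟨h4, fun j => ⟨?_, ?_⟩⟩
  · have hch : AllConn (fun i j => dist (z i).1 (z j).1 ≤ ε) := by
      intro u v
      refine Relation.ReflTransGen.mono (r := S.Contact 0 0 z)
        (p := fun i j => dist (z i).1 (z j).1 ≤ ε) ?_ _ _ (h3 u v)
      rintro x y ⟨t, ht, hd⟩
      have ht0 : t = 0 := le_antisymm ht.2 ht.1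
      subst ht0
      unfold pos at hd
      rwa [S.flow_zero ι z h1] at hd
    have := dist_le_of_chain hε.le hch j i
    show dist (z j).1 (z i).1 ≤ _
    refine this.trans ?_
    gcongr
  · rw [mem_closedBall_zero_iff]
    exact S.speed h1 h2 hV hE j

end Bodies

theorem arith_static {X α e v κ : ℝ≥0∞} {k n : ℕ} (hn : n ≤ k + 1) (he : e ≤ 1) (hv : v ≤ X) (hX : 1 ≤ X) :
    α * (((((k + 1 : ℕ) : ℝ≥0∞) * e) ^ 3 * κ) * (v ^ 3 * κ)) ^ (n - 1) ≤
      ((((k + 1 : ℕ) : ℝ≥0∞) ^ 3 * κ ^ 2 + 1) ^ k) * X ^ (3 * k) * e ^ (2 * (n - 1)) * α := by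
  set c : ℝ≥0∞ := ((k + 1 : ℕ) : ℝ≥0∞) with hc
  have h1 : (((c * e) ^ 3 * κ) * (v ^ 3 * κ)) ^ (n - 1) = (c ^ 3 * κ ^ 2) ^ (n - 1) *
      (v ^ 3) ^ (n - 1) * (e ^ 3) ^ (n - 1) := by
    rw [← mul_pow, ← mul_pow]; congr 1; ring
  rw [h1]
  have hn1 : n - 1 ≤ k := by omega
  have h2 : (c ^ 3 * κ ^ 2) ^ (n - 1) ≤ (c ^ 3 * κ ^ 2 + 1) ^ k :=
    (pow_le_pow_left' le_self_add _).trans (pow_le_pow_right₀ le_add_self hn1)
  have h3 : (v ^ 3) ^ (n - 1) ≤ X ^ (3 * k) := by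
    rw [pow_mul]
    exact (pow_le_pow_left' (pow_le_pow_left' hv 3) _).trans
      (pow_le_pow_right₀ (one_le_pow₀ hX) hn1)
  have h4 : (e ^ 3) ^ (n - 1) ≤ e ^ (2 * (n - 1)) := by
    rw [← pow_mul]
    exact pow_le_pow_right_of_le_one' he (by omega)
  calc α * ((c ^ 3 * κ ^ 2) ^ (n - 1) * (v ^ 3) ^ (n - 1) * (e ^ 3) ^ (n - 1))
      ≤ α * ((c ^ 3 * κ ^ 2 + 1) ^ k * X ^ (3 * k) * e ^ (2 * (n - 1))) := by gcongr
    _ = _ := by ring

/-- Induction step. -/
theorem Bd_step {k : ℕ} {C : ℝ≥0∞} {q : ℕ} (hBd : Bd k C q) :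
    Bd (k + 1) (((((k + 1 : ℕ) : ℝ≥0∞) ^ 3 * kap ^ 2 + 1) ^ k) +
      7 * (((2 ^ (k + 1) * ((k + 1) * (k + 1)) : ℕ) : ℝ≥0∞) * (C ^ 2 * 8 * kap ^ 2)))
      (2 * q + 4 + 3 * k) := by
  intro ε B S K E V T hε hV hT hEV ι _ hk hK i A hA a b ha hb hT'
  push_cast at hEV
  have hε0 := S.eps_pos
  have hV0 : (0 : ℝ) ≤ V := by linarith
  set X := ENNReal.ofReal (V * T) with hX
  set e := ENNReal.ofReal ε with he
  set n := Fintype.card ι with hn
  have hVT : 1 ≤ V * T := by nlinarith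
  have hX1 : 1 ≤ X := by
    rw [hX, ← ENNReal.ofReal_one]; exact ENNReal.ofReal_le_ofReal hVT
  have he1 : e ≤ 1 := by rw [he, ← ENNReal.ofReal_one]; exact ENNReal.ofReal_le_ofReal hε
  have hvX : ENNReal.ofReal V ≤ X := ENNReal.ofReal_le_ofReal (by nlinarith)
  set N : ℝ≥0∞ := ((2 ^ (k + 1) * ((k + 1) * (k + 1)) : ℕ) : ℝ≥0∞) with hN
  set D : ℝ≥0∞ := C ^ 2 * 8 * kap ^ 2 with hD
  set c0 : ℝ≥0∞ := (((k + 1 : ℕ) : ℝ≥0∞) ^ 3 * kap ^ 2 + 1) ^ k with hc0
  have hBn : B * (n : ℝ) ≤ B * K := mul_le_mul_of_nonneg_left (by exact_mod_cast hK) S.B_nonneg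
  have hBK : B * K ≤ B * K * (k + 1 + 1) := by
    have h0 : 0 ≤ B * K := mul_nonneg S.B_nonneg (by positivity)
    have h1 : 0 ≤ B * K * k := mul_nonneg h0 (by positivity)
    linarith
  have hE1 : 2 * (E + B * (n : ℝ)) ≤ V ^ 2 := by linarith
  -- bound for the D sets
  have hDbd : ∀ (a' b' σ : ℝ), a' ≤ 0 → 0 ≤ b' → b' - a' ≤ T → σ ∈ Icc a' b' →
      volume (S.DSet ι a' b' σ E i A) ≤ N * (D * X ^ (2 * q + 3) * e ^ (2 * (n - 1) + 1) * volume A) :=
    fun a' b' σ ha' hb' hT'' hσ => S.vol_DSet hBd hε hV hT hEV hk hK i hA ha' hb' hσ hT''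
  -- bound for the S set
  have hS : volume (S.SSet ι a b E i A) ≤
      (c0 + 6 * (N * D)) * X ^ (2 * q + 4 + 3 * k) * e ^ (2 * (n - 1)) * volume A := by
    set δ : ℝ := ε / (2 * V) with hδdef
    have hδ0 : 0 < δ := by positivity
    have hδ : 2 * V * δ ≤ ε := by
      rw [hδdef]; field_simp; exact le_refl _
    obtain ⟨M, hM1, hM2⟩ : ∃ M : ℕ, T ≤ M * δ ∧ (M : ℝ) * ε ≤ 3 * (V * T) := by
      refine ⟨⌈T / δ⌉₊, ?_, ?_⟩
      · have := Nat.le_ceil (T / δ)
        rwa [div_le_iff₀ hδ0] at this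
      · have h1 : (⌈T / δ⌉₊ : ℝ) < T / δ + 1 := Nat.ceil_lt_add_one (by positivity)
        have h2 : T / δ * ε = 2 * (V * T) := by
          rw [hδdef]; field_simp
        calc (⌈T / δ⌉₊ : ℝ) * ε ≤ (T / δ + 1) * ε := by
              exact mul_le_mul_of_nonneg_right h1.le hε0.le
          _ = 2 * (V * T) + ε := by rw [add_mul, h2, one_mul]
          _ ≤ 3 * (V * T) := by linarith
    have hloM : Bodies.lo a δ M = a := by
      unfold Bodies.lo; exact max_eq_left (by linarith)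
    have hhiM : Bodies.hi b δ M = b := by
      unfold Bodies.hi; exact min_eq_left (by linarith)
    have hlo0 : Bodies.lo a δ 0 = 0 := by
      unfold Bodies.lo; simp; exact ha
    have hhi0 : Bodies.hi b δ 0 = 0 := by
      unfold Bodies.hi; simp; exact hb
    have hkey : ∀ m : ℕ, ∀ z : ι → PhasePoint, z ∈ S.dom ι → S.energy ι z ≤ E → z i ∈ A →
        AllConn (S.Contact (Bodies.lo a δ m) (Bodies.hi b δ m) z) →
        AllConn (S.Contact 0 0 z) ∨ ∃ m' < m,
          z ∈ S.DSet ι (Bodies.lo a δ (m' + 1)) (Bodies.hi b δ m') (Bodies.hi b δ m') E i A ∨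
          z ∈ S.DSet ι (Bodies.lo a δ m') (Bodies.hi b δ m') (Bodies.lo a δ m') E i A := by
      intro m
      induction m with
      | zero => intro z _ _ _ h; left; rwa [hlo0, hhi0] at h
      | succ m ih =>
        intro z hz hEz hiz h
        rcases S.step hz hEz hV0 hE1 hδ hiz (Bodies.lo_step a hδ0.le m) (Bodies.hi_step b hδ0.le m) h
          with h' | h' | h'
        · rcases ih z hz hEz hiz h' with h'' | ⟨m', hm', h''⟩
          · exact Or.inl h''
          · exact Or.inr ⟨m', Nat.lt_succ_of_lt hm', h''⟩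
        · exact Or.inr ⟨m, Nat.lt_succ_self m, Or.inl h'⟩
        · exact Or.inr ⟨m, Nat.lt_succ_self m, Or.inr h'⟩
    have hsub : S.SSet ι a b E i A ⊆
        {z : ι → PhasePoint | z ∈ S.dom ι ∧ S.energy ι z ≤ E ∧ AllConn (S.Contact 0 0 z) ∧ z i ∈ A} ∪
        ⋃ m' : Fin M,
          (S.DSet ι (Bodies.lo a δ (m' + 1)) (Bodies.hi b δ m') (Bodies.hi b δ m') E i A ∪
          S.DSet ι (Bodies.lo a δ m') (Bodies.hi b δ m') (Bodies.lo a δ m') E i A) := by
      rintro z ⟨h1, h2, h3, h4⟩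
      rw [← hloM, ← hhiM] at h3
      rcases hkey M z h1 h2 h4 h3 with h | ⟨m', hm', h⟩
      · exact Or.inl ⟨h1, h2, h, h4⟩
      · exact Or.inr (mem_iUnion.2 ⟨⟨m', hm'⟩, h⟩)
    have hlen : ∀ m m' : ℕ, Bodies.hi b δ m' - Bodies.lo a δ m ≤ T := by
      intro m m'
      have h1 : Bodies.hi b δ m' ≤ b := min_le_left _ _
      have h2 : a ≤ Bodies.lo a δ m := le_max_left _ _
      linarith
    have hU : volume (⋃ m' : Fin M,
          (S.DSet ι (Bodies.lo a δ (m' + 1)) (Bodies.hi b δ m') (Bodies.hi b δ m') E i A ∪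
          S.DSet ι (Bodies.lo a δ m') (Bodies.hi b δ m') (Bodies.lo a δ m') E i A)) ≤
        (M : ℝ≥0∞) * (2 * (N * (D * X ^ (2 * q + 3) * e ^ (2 * (n - 1) + 1) * volume A))) := by
      refine (measure_iUnion_fintype_le _ _).trans ?_
      refine (Finset.sum_le_card_nsmul _ _
        (2 * (N * (D * X ^ (2 * q + 3) * e ^ (2 * (n - 1) + 1) * volume A))) (fun m' _ => ?_)).trans ?_
      · refine (measure_union_le _ _).trans ?_
        rw [two_mul]
        refine add_le_add ?_ ?_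
        · exact hDbd _ _ _ (Bodies.lo_le ha hδ0.le _) (Bodies.le_hi hb hδ0.le _) (hlen _ _)
            ⟨(Bodies.lo_le ha hδ0.le _).trans (Bodies.le_hi hb hδ0.le _), le_refl _⟩
        · exact hDbd _ _ _ (Bodies.lo_le ha hδ0.le _) (Bodies.le_hi hb hδ0.le _) (hlen _ _)
            ⟨le_refl _, (Bodies.lo_le ha hδ0.le _).trans (Bodies.le_hi hb hδ0.le _)⟩
      · rw [nsmul_eq_mul, Finset.card_univ, Fintype.card_fin]
    have hMe : (M : ℝ≥0∞) * e ≤ 3 * X := by
      rw [he, hX, ← ENNReal.ofReal_natCast, ← ENNReal.ofReal_mul (by positivity)]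
      refine (ENNReal.ofReal_le_ofReal hM2).trans ?_
      rw [ENNReal.ofReal_mul (by norm_num)]; simp
    refine (measure_mono hsub).trans ((measure_union_le _ _).trans ?_)
    have hst := S.vol_static (k := k) (E := E) hV0 hE1 hk i hA
    have h2e : ENNReal.ofReal (((k + 1 : ℕ) : ℝ) * ε) = ((k + 1 : ℕ) : ℝ≥0∞) * e := by
      rw [ENNReal.ofReal_mul (by positivity), ENNReal.ofReal_natCast]
    rw [h2e] at hst
    have hst2 := hst.trans (arith_static (X := X) hk he1 hvX hX1)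
    calc _ ≤ c0 * X ^ (3 * k) * e ^ (2 * (n - 1)) * volume A +
          (M : ℝ≥0∞) * (2 * (N * (D * X ^ (2 * q + 3) * e ^ (2 * (n - 1) + 1) * volume A))) :=
          add_le_add hst2 hU
      _ = c0 * X ^ (3 * k) * e ^ (2 * (n - 1)) * volume A +
          2 * (N * D) * X ^ (2 * q + 3) * ((M : ℝ≥0∞) * e) * e ^ (2 * (n - 1)) * volume A := by ring
      _ ≤ c0 * X ^ (2 * q + 4 + 3 * k) * e ^ (2 * (n - 1)) * volume A +
          2 * (N * D) * X ^ (2 * q + 3) * (3 * X) * e ^ (2 * (n - 1)) * volume A := by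
          have hp : X ^ (3 * k) ≤ X ^ (2 * q + 4 + 3 * k) := pow_le_pow_right₀ hX1 (by omega)
          exact add_le_add (mul_le_mul' (mul_le_mul' (mul_le_mul' le_rfl hp) le_rfl) le_rfl)
            (mul_le_mul' (mul_le_mul' (mul_le_mul' le_rfl hMe) le_rfl) le_rfl)
      _ = c0 * X ^ (2 * q + 4 + 3 * k) * e ^ (2 * (n - 1)) * volume A +
          6 * (N * D) * X ^ (2 * q + 4) * e ^ (2 * (n - 1)) * volume A := by ring
      _ ≤ c0 * X ^ (2 * q + 4 + 3 * k) * e ^ (2 * (n - 1)) * volume A +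
          6 * (N * D) * X ^ (2 * q + 4 + 3 * k) * e ^ (2 * (n - 1)) * volume A := by
          have hp : X ^ (2 * q + 4) ≤ X ^ (2 * q + 4 + 3 * k) :=
            pow_le_pow_right₀ hX1 (by omega)
          exact add_le_add le_rfl
            (mul_le_mul' (mul_le_mul' (mul_le_mul' le_rfl hp) le_rfl) le_rfl)
      _ = _ := by ring
  constructor
  · refine hS.trans ?_
    gcongr
    norm_num
  · intro σ hσ
    have hsub : S.RSet ι a b σ E i A ⊆ S.SSet ι a b E i A ∪ S.DSet ι a b σ E i A := by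
      rintro z ⟨h1, h2, h3, h4⟩
      by_cases h5 : AllConn (S.Contact a b z)
      · exact Or.inl ⟨h1, h2, h5, h4⟩
      · exact Or.inr ⟨h1, h2, h3, h5, h4⟩
    refine (measure_mono hsub).trans ((measure_union_le _ _).trans ?_)
    calc _ ≤ (c0 + 6 * (N * D)) * X ^ (2 * q + 4 + 3 * k) * e ^ (2 * (n - 1)) * volume A +
          N * (D * X ^ (2 * q + 3) * e ^ (2 * (n - 1) + 1) * volume A) :=
          add_le_add hS (hDbd a b σ ha hb hT' hσ)
      _ = (c0 + 6 * (N * D)) * X ^ (2 * q + 4 + 3 * k) * e ^ (2 * (n - 1)) * volume A +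
          N * D * X ^ (2 * q + 3) * e * e ^ (2 * (n - 1)) * volume A := by ring
      _ ≤ (c0 + 6 * (N * D)) * X ^ (2 * q + 4 + 3 * k) * e ^ (2 * (n - 1)) * volume A +
          N * D * X ^ (2 * q + 4 + 3 * k) * 1 * e ^ (2 * (n - 1)) * volume A := by
          have hp : X ^ (2 * q + 3) ≤ X ^ (2 * q + 4 + 3 * k) :=
            pow_le_pow_right₀ hX1 (by omega)
          exact add_le_add le_rfl (mul_le_mul' (mul_le_mul' (mul_le_mul'
            (mul_le_mul' le_rfl hp) he1) le_rfl) le_rfl)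
      _ = _ := by ring

/-- **Crude cluster volume bound**: finite constants for every cluster size. -/
theorem Bd_all (k : ℕ) : ∃ (C : ℝ≥0∞) (q : ℕ), C ≠ ∞ ∧ Bd k C q := by
  induction k with
  | zero =>
    refine ⟨0, 0, by simp, ?_⟩
    intro ε B S K E V T hε hV hT hEV ι _ hk hK i
    exact absurd (Fintype.card_pos_iff.2 ⟨i⟩) (by omega)
  | succ k ih =>
    obtain ⟨C, q, hC, hBd⟩ := ih
    refine ⟨_, _, ?_, Bd_step hBd⟩
    have hκ := kap_ne_top
    refine ENNReal.add_ne_top.2 ⟨ENNReal.pow_ne_top (ENNReal.add_ne_top.2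
      ⟨ENNReal.mul_ne_top (ENNReal.pow_ne_top (ENNReal.natCast_ne_top _)) (ENNReal.pow_ne_top hκ),
        ENNReal.one_ne_top⟩), ?_⟩
    refine ENNReal.mul_ne_top (by norm_num) (ENNReal.mul_ne_top (ENNReal.natCast_ne_top _) ?_)
    exact ENNReal.mul_ne_top (ENNReal.mul_ne_top (ENNReal.pow_ne_top hC) (by norm_num))
      (ENNReal.pow_ne_top hκ)

end Crest.Agent.R122.Vol365
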