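import Crest.Agent.R122.VolChain_365
import Crest.Agent.R122.BadDefs_726
import Crest.Agent.R122.NGmaj_416
import Crest.Agent.R122.Hid_424

/-!
Row 122, helper365: pinned majorants of bad events (`PinMaj`), their calculus (unions, chains,
steps) and the translation covariance of steps and chains.
-/

set_option autoImplicit false

open MeasureTheory Set Filter
open Crest.AnalysisR.Kinetic
open Crest.Agent.R122.Flow671 Crest.Agent.R122.Loc45 Crest.Agent.R122.Chain726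
open scoped ENNReal Classical Topology

noncomputable section

namespace Crest.Agent.R122.Vol365

variable {Φ : Space3 → ℝ} {ε : ℝ}

/-- **Pinned majorant** of a bad event: for every profile `h` there is a measurable function which
is at least `h (p + a)` on the translates of a bad configuration (`p` is some point), and whose
energy weighted integral is at most `δ ∫ h`. -/
def PinMaj (Φ : Space3 → ℝ) (ε γ : ℝ) {κ : Type} [Fintype κ] (Bad : (κ → PhasePoint) → Prop)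
    (δ : ℝ≥0∞) : Prop :=
  ∀ h : Space3 → ℝ≥0∞, Measurable h → ∃ M : (κ → PhasePoint) → ℝ≥0∞, Measurable M ∧
    (∀ W ∈ Dom Φ κ, Bad W → ∃ p : Space3, ∀ a, h (p + a) ≤ M (shiftX a W)) ∧
    eint Φ ε γ M ≤ δ * ∫⁻ x, h x

theorem PinMaj.mono {γ : ℝ} {κ : Type} [Fintype κ] {Bad Bad' : (κ → PhasePoint) → Prop}
    {δ δ' : ℝ≥0∞} (h : PinMaj Φ ε γ Bad δ) (hB : ∀ W ∈ Dom Φ κ, Bad' W → Bad W) (hδ : δ ≤ δ') :
    PinMaj Φ ε γ Bad' δ' := by
  intro f hf
  obtain ⟨M, hM, h1, h2⟩ := h f hf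
  exact ⟨M, hM, fun W hW hb => h1 W hW (hB W hW hb), h2.trans (mul_le_mul_left hδ _)⟩

theorem eint_add (hΦ : AdmissiblePotential Φ) (hε : 0 < ε) {γ : ℝ} {κ : Type} [Fintype κ]
    {F G : (κ → PhasePoint) → ℝ≥0∞} (hF : Measurable F) :
    eint Φ ε γ (fun W => F W + G W) = eint Φ ε γ F + eint Φ ε γ G := by
  have hem := measurable_energy' hΦ hε κ
  unfold eint
  simp_rw [mul_add]
  exact lintegral_add_left ((by fun_prop : Measurable fun W : κ → PhasePoint =>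
    ENNReal.ofReal (Real.exp (-(γ * energy Φ ε W)))).mul hF) _

theorem eint_sum (hΦ : AdmissiblePotential Φ) (hε : 0 < ε) {γ : ℝ} {κ : Type} [Fintype κ]
    {α : Type*} (s : Finset α) {F : α → (κ → PhasePoint) → ℝ≥0∞} (hF : ∀ x ∈ s, Measurable (F x)) :
    eint Φ ε γ (fun W => ∑ x ∈ s, F x W) = ∑ x ∈ s, eint Φ ε γ (F x) := by
  have hem := measurable_energy' hΦ hε κ
  unfold eint
  simp_rw [Finset.mul_sum]
  exact lintegral_finsetSum' _ fun x hx => ((by fun_prop : Measurable fun W : κ → PhasePoint =>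
    ENNReal.ofReal (Real.exp (-(γ * energy Φ ε W)))).mul (hF x hx)).aemeasurable

theorem PinMaj.false {γ : ℝ} {κ : Type} [Fintype κ] {Bad : (κ → PhasePoint) → Prop}
    (h : ∀ W ∈ Dom Φ κ, ¬ Bad W) : PinMaj Φ ε γ Bad 0 :=
  fun _ _ => ⟨fun _ => 0, measurable_const, fun W hW hb => absurd hb (h W hW), by simp [eint]⟩

theorem PinMaj.or (hΦ : AdmissiblePotential Φ) (hε : 0 < ε) {γ : ℝ} {κ : Type} [Fintype κ]
    {Bad Bad' : (κ → PhasePoint) → Prop} {δ δ' : ℝ≥0∞} (h : PinMaj Φ ε γ Bad δ)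
    (h' : PinMaj Φ ε γ Bad' δ') : PinMaj Φ ε γ (fun W => Bad W ∨ Bad' W) (δ + δ') := by
  intro f hf
  obtain ⟨M, hM, h1, h2⟩ := h f hf
  obtain ⟨M', hM', h1', h2'⟩ := h' f hf
  refine ⟨fun W => M W + M' W, hM.add hM', ?_, ?_⟩
  · rintro W hW (hb | hb)
    · obtain ⟨p, hp⟩ := h1 W hW hb
      exact ⟨p, fun a => (hp a).trans le_self_add⟩
    · obtain ⟨p, hp⟩ := h1' W hW hb
      exact ⟨p, fun a => (hp a).trans le_add_self⟩
  · rw [eint_add hΦ hε hM, add_mul]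
    exact add_le_add h2 h2'

theorem PinMaj.finset (hΦ : AdmissiblePotential Φ) (hε : 0 < ε) {γ : ℝ} {κ : Type} [Fintype κ]
    {α : Type*} (s : Finset α) {Bad : α → (κ → PhasePoint) → Prop} {δ : α → ℝ≥0∞}
    (h : ∀ x ∈ s, PinMaj Φ ε γ (Bad x) (δ x)) :
    PinMaj Φ ε γ (fun W => ∃ x ∈ s, Bad x W) (∑ x ∈ s, δ x) := by
  intro f hf
  have h0 : ∀ x, ∃ M : (κ → PhasePoint) → ℝ≥0∞, x ∈ s → Measurable M ∧
      (∀ W ∈ Dom Φ κ, Bad x W → ∃ p : Space3, ∀ a, f (p + a) ≤ M (shiftX a W)) ∧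
      eint Φ ε γ M ≤ δ x * ∫⁻ y, f y := by
    intro x
    by_cases hx : x ∈ s
    · obtain ⟨M, hM⟩ := h x hx f hf
      exact ⟨M, fun _ => hM⟩
    · exact ⟨fun _ => 0, fun h => absurd h hx⟩
  choose M hM using h0
  refine ⟨fun W => ∑ x ∈ s, M x W, Finset.measurable_sum _ fun x hx => (hM x hx).1, ?_, ?_⟩
  · rintro W hW ⟨x, hx, hb⟩
    obtain ⟨p, hp⟩ := (hM x hx).2.1 W hW hb
    refine ⟨p, fun a => (hp a).trans ?_⟩
    exact Finset.single_le_sum (f := fun x => M x (shiftX a W)) (fun _ _ => bot_le) hx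
  · rw [eint_sum hΦ hε s fun x hx => (hM x hx).1, Finset.sum_mul]
    exact Finset.sum_le_sum fun x hx => (hM x hx).2.2

/-! ### Translation covariance -/

theorem dst_shiftX {κ : Type*} (a : Space3) (Z : κ → PhasePoint) (j k : κ) :
    dst (shiftX a Z) j k = dst Z j k := by
  unfold dst shiftX
  simp only [dist_add_right]

theorem dst_flow_shiftX (hΦ : AdmissiblePotential Φ) (hε : 0 < ε) {κ : Type*} [Fintype κ]
    (a : Space3) (t : ℝ) (Z : κ → PhasePoint) (j k : κ) :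
    dst (flow Φ ε t (shiftX a Z)) j k = dst (flow Φ ε t Z) j k := by
  rw [flow_shiftX hΦ hε, dst_shiftX]

theorem step_shiftX (hΦ : AdmissiblePotential Φ) (hε : 0 < ε) {ι : Type*} {A A' : Finset ι}
    {s : ℝ} {W : A → PhasePoint} {W' : A' → PhasePoint} (a : Space3) (h : Step Φ ε s W W') :
    Step Φ ε s (shiftX a W) (shiftX a W') := by
  refine ⟨(Dom_shiftX a).2 h.dom, h.sub, ?_, ?_, ?_⟩
  · simp only [dst_flow_shiftX hΦ hε]
    exact h.touch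
  · simp only [dst_flow_shiftX hΦ hε]
    exact h.sep
  · have e1 : shiftX a W' = shiftX a (flow Φ ε (-s) (rs h.sub (flow Φ ε s W))) :=
      congrArg (shiftX a) h.state
    rw [e1, flow_shiftX hΦ hε a s W, ← flow_shiftX hΦ hε a (-s)]
    rfl

theorem chain_shiftX (hΦ : AdmissiblePotential Φ) (hε : 0 < ε) {T : ℝ} {ι : Type*} {A A' : Finset ι}
    {W : A → PhasePoint} {W' : A' → PhasePoint} (a : Space3) (h : Chain Φ ε T A W A' W') :
    Chain Φ ε T A (shiftX a W) A' (shiftX a W') := by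
  induction h with
  | refl A W => exact .refl _ _
  | step hs h _ ih => exact .step hs (step_shiftX hΦ hε a h) ih

/-- **Pinned majorants pull back along chains.** -/
theorem exists_pinMaj_chain (hΦ : AdmissiblePotential Φ) {T : ℝ} (hT : 0 ≤ T) (n : ℕ) {γ₁ γ₂ : ℝ}
    (h1 : 0 < γ₁) (h12 : γ₁ < γ₂) : ∃ C : ℝ≥0∞, C ≠ ∞ ∧ ∀ ε : ℝ, 0 < ε → ε ≤ 1 →
    ∀ (ι : Type) (A A' : Finset ι), A.card ≤ n →
    ∀ (Bad : (A' → PhasePoint) → Prop) (δ : ℝ≥0∞), PinMaj Φ ε γ₁ Bad δ →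
    PinMaj Φ ε γ₂ (fun W : A → PhasePoint => ∃ W' : A' → PhasePoint,
      Chain Φ ε T A W A' W' ∧ Bad W')
      (C * ENNReal.ofReal ε ^ (2 * (A.card - A'.card)) * δ) := by
  obtain ⟨C, hC, h⟩ := chain_majorant hΦ hT n γ₁ γ₂ h1 h12
  refine ⟨C, hC, fun ε hε hε1 ι A A' hA Bad δ hB f hf => ?_⟩
  obtain ⟨M', hM', h3, h4⟩ := hB f hf
  obtain ⟨M, hM, h5, h6⟩ := h ε hε hε1 ι A A' hA M' hM'
  refine ⟨M, hM, ?_, ?_⟩
  · rintro W hW ⟨W', hc, hb⟩
    obtain ⟨p, hp⟩ := h3 W' (hc.dom' hΦ hε hW) hb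
    exact ⟨p, fun a => (hp a).trans (h5 _ _ (chain_shiftX hΦ hε a hc))⟩
  · refine h6.trans ((mul_le_mul_right h4 _).trans (le_of_eq (by ring)))

/-- **Pinned majorants pull back along one step.** -/
theorem exists_pinMaj_step (hΦ : AdmissiblePotential Φ) {T : ℝ} (hT : 0 ≤ T) (K : ℕ) {γ₁ γ₂ : ℝ}
    (h1 : 0 < γ₁) (h12 : γ₁ < γ₂) : ∃ C : ℝ≥0∞, C ≠ ∞ ∧ ∀ ε : ℝ, 0 < ε →
    ∀ (ι : Type) (A A' : Finset ι), A.card ≤ K →
    ∀ (Bad : (A' → PhasePoint) → Prop) (δ : ℝ≥0∞), PinMaj Φ ε γ₁ Bad δ →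
    PinMaj Φ ε γ₂ (fun W : A → PhasePoint => ∃ s ∈ Icc 0 T, ∃ W' : A' → PhasePoint,
      Step Φ ε s W W' ∧ Bad W')
      (C * ENNReal.ofReal ε ^ (2 + 3 * (A.card - A'.card - 1)) * δ) := by
  obtain ⟨C, hC, h⟩ := fstep_majorant hΦ h1 h12 hT K
  refine ⟨C, hC, fun ε hε ι A A' hA Bad δ hB => ?_⟩
  by_cases hsub : A' ⊆ A
  swap
  · refine (PinMaj.false (Bad := fun W : A → PhasePoint => ∃ s ∈ Icc 0 T,
      ∃ W' : A' → PhasePoint, Step Φ ε s W W' ∧ Bad W') ?_).mono (fun W _ h => h) bot_le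
    rintro W - ⟨s, _, W', hst, _⟩
    exact hsub hst.sub
  intro f hf
  obtain ⟨M', hM', h3, h4⟩ := hB f hf
  obtain ⟨M, hM, h5, h6⟩ := h ε hε ι A A' hA hsub M' hM'
  refine ⟨M, hM, ?_, ?_⟩
  · rintro W hW ⟨s, hs, W', hst, hb⟩
    obtain ⟨p, hp⟩ := h3 W' (hst.dom' hΦ hε) hb
    exact ⟨p, fun a => (hp a).trans (h5 s hs _ _ (step_shiftX hΦ hε a hst))⟩
  · refine h6.trans ((mul_le_mul_right h4 _).trans (le_of_eq (by ring)))

end Crest.Agent.R122.Vol365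

end
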