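import Crest.Agent.R122.VolD4_365

/-!
Row 122, helper365: one release step (release of `J`, group `κ = J ⊔ A'`), volume and majorant, with
the extra factor `ε ^ (|J| - 1)`.
-/

set_option autoImplicit false

open MeasureTheory Set Filter
open Crest.AnalysisR.Kinetic
open Crest.Agent.R122.Flow671 Crest.Agent.R122.Loc45
open scoped ENNReal Classical Topology

noncomputable section

namespace Crest.Agent.R122.Vol365

/-- Fibre bound with the extra smallness of multiple releases. -/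
theorem vol_fib3 {κ μ : Type} [Fintype κ] [Fintype μ] [Nonempty μ] {K : ℕ} (hK : Fintype.card κ ≤ K)
    (hK' : Fintype.card μ ≤ K) (x : κ → PhasePoint) {ε V L δ : ℝ} (hε : 0 < ε)
    (hV : 0 ≤ V) (hL : 0 ≤ L) (hδ : 0 ≤ δ) (hh : 2 * V * δ ≤ ε) :
    volume {y : μ → PhasePoint |
        (∃ k i, ε < dist (y k).1 (x i).1 ∧ dist (y k).1 (x i).1 ≤ ε + 2 * V * δ) ∧
        (∀ k, ∃ i, dist (y k).1 (x i).1 ≤ L * ε) ∧ ∀ k, ‖(y k).2‖ ≤ V} ≤
      ENNReal.ofReal δ * (M0 K V L ^ Fintype.card μ *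
        ENNReal.ofReal ε ^ (2 + 3 * (Fintype.card μ - 1))) := by
  set Dn : Set PhasePoint := {y : PhasePoint | (∃ i, dist y.1 (x i).1 ≤ L * ε) ∧ ‖y.2‖ ≤ V}
    with hDn
  set Sh : Set PhasePoint := {y : PhasePoint | (∃ i, ε < dist y.1 (x i).1 ∧
      dist y.1 (x i).1 ≤ ε + 2 * V * δ) ∧ ‖y.2‖ ≤ V} with hSh
  have hsub : {y : μ → PhasePoint |
        (∃ k i, ε < dist (y k).1 (x i).1 ∧ dist (y k).1 (x i).1 ≤ ε + 2 * V * δ) ∧
        (∀ k, ∃ i, dist (y k).1 (x i).1 ≤ L * ε) ∧ ∀ k, ‖(y k).2‖ ≤ V} ⊆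
      ⋃ k : μ, Set.pi univ (fun q => if q = k then Sh else Dn) := by
    rintro y ⟨⟨k, i, h1⟩, h2, h3⟩
    refine mem_iUnion.2 ⟨k, fun q _ => ?_⟩
    show y q ∈ (if q = k then Sh else Dn)
    by_cases hq : q = k
    · subst hq; rw [if_pos rfl]; exact ⟨⟨i, h1⟩, h3 _⟩
    · rw [if_neg hq]; exact ⟨h2 q, h3 q⟩
  refine (measure_mono hsub).trans ((measure_iUnion_fintype_le _ _).trans ?_)
  have hm : 1 ≤ Fintype.card μ := Fintype.card_pos
  have h1 : ∀ k : μ, volume (Set.pi univ (fun q => if q = k then Sh else Dn)) =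
      volume Sh * volume Dn ^ (Fintype.card μ - 1) := by
    intro k
    rw [volume_pi, Measure.pi_pi, ← Finset.mul_prod_erase _ _ (Finset.mem_univ k), if_pos rfl]
    congr 1
    rw [Finset.prod_congr rfl (g := fun _ => volume Dn)
      (fun q hq => by rw [if_neg (Finset.ne_of_mem_erase hq)]), Finset.prod_const,
      Finset.card_erase_of_mem (Finset.mem_univ _), Finset.card_univ]
  simp_rw [h1]
  rw [Finset.sum_const, nsmul_eq_mul, Finset.card_univ]
  have hs := vol_sh hK x hε hV hδ hh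
  have hd := vol_near hK x hε hV hL
  have hd' : volume Dn ≤ M0 K V L * ENNReal.ofReal ε ^ 3 := by
    refine hd.trans ?_
    refine mul_le_mul_left ?_ _
    unfold M0
    exact le_add_self
  have hKm : (Fintype.card μ : ℝ≥0∞) ≤ K := by exact_mod_cast hK'
  have hs' : (Fintype.card μ : ℝ≥0∞) * volume Sh ≤
      ENNReal.ofReal δ * (M0 K V L * ENNReal.ofReal ε ^ 2) := by
    calc (Fintype.card μ : ℝ≥0∞) * volume Sh
        ≤ K * ((K : ℝ≥0∞) * 14 * kap ^ 2 * ENNReal.ofReal V ^ 4 * ENNReal.ofReal δ *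
            ENNReal.ofReal ε ^ 2) := mul_le_mul' hKm hs
      _ = ENNReal.ofReal δ * ((14 * (K : ℝ≥0∞) ^ 2 * kap ^ 2 * ENNReal.ofReal V ^ 4) *
            ENNReal.ofReal ε ^ 2) := by ring
      _ ≤ ENNReal.ofReal δ * (M0 K V L * ENNReal.ofReal ε ^ 2) := by
          refine mul_le_mul_right (mul_le_mul_left ?_ _) _
          unfold M0
          exact le_self_add
  calc (Fintype.card μ : ℝ≥0∞) * (volume Sh * volume Dn ^ (Fintype.card μ - 1))
      = ((Fintype.card μ : ℝ≥0∞) * volume Sh) * volume Dn ^ (Fintype.card μ - 1) := by ring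
    _ ≤ (ENNReal.ofReal δ * (M0 K V L * ENNReal.ofReal ε ^ 2)) *
          (M0 K V L * ENNReal.ofReal ε ^ 3) ^ (Fintype.card μ - 1) :=
        mul_le_mul' hs' (pow_le_pow_left' hd' _)
    _ = ENNReal.ofReal δ * ((M0 K V L * M0 K V L ^ (Fintype.card μ - 1)) *
          (ENNReal.ofReal ε ^ 2 * (ENNReal.ofReal ε ^ 3) ^ (Fintype.card μ - 1))) := by
        rw [mul_pow]; ring
    _ = _ := by
        rw [← pow_succ', ← pow_mul, ← pow_add]
        congr 3
        omega

/-- One deletion, precise power. -/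
theorem vol_delete3 {ι : Type} [Fintype ι] {K : ℕ} (hK : Fintype.card ι ≤ K) (p : ι → Prop)
    (hne : ∃ k, ¬ p k)
    (X : Set ({i // p i} → PhasePoint)) {ε V L δ : ℝ} (hε : 0 < ε) (hV : 0 ≤ V)
    (hL : 0 ≤ L) (hδ : 0 ≤ δ) (hh : 2 * V * δ ≤ ε) :
    volume {z : ι → PhasePoint | Shell ε V L δ p z ∧ res p z ∈ X} ≤
      ENNReal.ofReal δ * (M0 K V L ^ Fintype.card {i // ¬ p i} *
        ENNReal.ofReal ε ^ (2 + 3 * (Fintype.card {i // ¬ p i} - 1))) * volume X := by
  obtain ⟨k₀, hk₀⟩ := hne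
  have : Nonempty {i // ¬ p i} := ⟨⟨k₀, hk₀⟩⟩
  set X' := toMeasurable volume X with hX'
  have hX'm : MeasurableSet X' := measurableSet_toMeasurable _ _
  set W : Set (({j // p j} → PhasePoint) × ({j // ¬ p j} → PhasePoint)) :=
    {w | w.1 ∈ X'} ∩ {w | (∃ k i, ε < dist (w.2 k).1 (w.1 i).1 ∧
        dist (w.2 k).1 (w.1 i).1 ≤ ε + 2 * V * δ) ∧
        (∀ k, ∃ i, dist (w.2 k).1 (w.1 i).1 ≤ L * ε) ∧ ∀ k, ‖(w.2 k).2‖ ≤ V} with hWdef
  have hW : MeasurableSet W := (measurable_fst hX'm).inter (measurableSet_W ε V L δ)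
  have hsub : {z : ι → PhasePoint | Shell ε V L δ p z ∧ res p z ∈ X} ⊆
      {z : ι → PhasePoint | (res p z, res (fun i => ¬ p i) z) ∈ W} := by
    rintro z ⟨⟨⟨k, i, hk, hi, h1, h2⟩, h3, h4⟩, h5⟩
    refine ⟨subset_toMeasurable _ _ h5, ⟨⟨k, hk⟩, ⟨i, hi⟩, h1, h2⟩, fun k => ?_, fun k => h4 k k.2⟩
    obtain ⟨i, hi, hd⟩ := h3 k k.2
    exact ⟨⟨i, hi⟩, hd⟩
  refine (measure_mono hsub).trans ?_
  refine (fub1 p hX'm hW (fun w hw => hw.1)
    (M := ENNReal.ofReal δ * (M0 K V L ^ Fintype.card {i // ¬ p i} *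
        ENNReal.ofReal ε ^ (2 + 3 * (Fintype.card {i // ¬ p i} - 1)))) ?_).trans ?_
  · intro x hx
    have : {y : {j // ¬ p j} → PhasePoint | (x, y) ∈ W} ⊆ {y : {j // ¬ p j} → PhasePoint |
        (∃ k i, ε < dist (y k).1 (x i).1 ∧ dist (y k).1 (x i).1 ≤ ε + 2 * V * δ) ∧
        (∀ k, ∃ i, dist (y k).1 (x i).1 ≤ L * ε) ∧ ∀ k, ‖(y k).2‖ ≤ V} := fun y hy => hy.2
    refine (measure_mono this).trans ?_
    exact vol_fib3 ((Fintype.card_subtype_le _).trans hK) ((Fintype.card_subtype_le _).trans hK) x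
      hε hV hL hδ hh
  · rw [hX', measure_toMeasurable, mul_comm]

/-- A release step at time `s`: the particles outside `p` are released; states are time-`0`
pull-backs by the flow of the group. -/
def GStep (Φ : Space3 → ℝ) (ε s : ℝ) {κ : Type} [Fintype κ] (p : κ → Prop) (W : κ → PhasePoint)
    (W' : {i // p i} → PhasePoint) : Prop :=
  W ∈ Dom Φ κ ∧
  (∃ j, ¬ p j ∧ (∃ m, p m ∧ dist (flow Φ ε s W j).1 (flow Φ ε s W m).1 = ε) ∧
    ∀ k, ¬ p k → Relation.ReflTransGen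
      (fun a b => dist (flow Φ ε s W a).1 (flow Φ ε s W b).1 ≤ ε) j k) ∧
  (∃ h > 0, ∀ u ∈ Ioo s (s + h), ∀ j k, ¬ p j → p k →
    ε < dist (flow Φ ε u W j).1 (flow Φ ε u W k).1) ∧
  W' = flow Φ ε (-s) (res p (flow Φ ε s W))

variable {Φ : Space3 → ℝ} {ε : ℝ}

theorem GStep.dom' (hΦ : AdmissiblePotential Φ) (hε : 0 < ε) {s : ℝ} {κ : Type} [Fintype κ]
    {p : κ → Prop} {W : κ → PhasePoint} {W' : {i // p i} → PhasePoint}
    (h : GStep Φ ε s p W W') : W' ∈ Dom Φ {i // p i} := by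
  obtain ⟨hW, -, -, rfl⟩ := h
  exact flow_mem hΦ hε (Dom_comp (Function.Embedding.subtype _) (flow_mem hΦ hε hW s)) _

/-- Energy of the remaining group. -/
theorem GStep.energy_le (hΦ : AdmissiblePotential Φ) (hε : 0 < ε) {s : ℝ} {κ : Type} [Fintype κ]
    {p : κ → Prop} {W : κ → PhasePoint} {W' : {i // p i} → PhasePoint}
    (h : GStep Φ ε s p W W') :
    energy Φ ε W' ≤ energy Φ ε W + stabB Φ * Fintype.card κ * Fintype.card κ := by
  obtain ⟨hW, -, -, rfl⟩ := h
  rw [energy_flow hΦ hε]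
  have h1 := energy_comp_le hΦ hε (Function.Embedding.subtype p) (flow_mem hΦ hε hW s)
  rw [energy_flow hΦ hε] at h1
  exact h1

/-- **A step puts the state into the shell at the next grid time.** -/
theorem GStep.shell (hΦ : AdmissiblePotential Φ) (hε : 0 < ε) {s : ℝ} {κ : Type} [Fintype κ]
    {p : κ → Prop} {W : κ → PhasePoint} {W' : {i // p i} → PhasePoint}
    (h : GStep Φ ε s p W W') {K : ℕ} (hK : Fintype.card κ ≤ K) {V : ℝ} (hV : 0 ≤ V)
    (hE : 2 * (energy Φ ε W + stabB Φ * Fintype.card κ) ≤ V ^ 2) :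
    ∃ h > 0, ∀ δ : ℝ, 0 < δ → 2 * V * δ ≤ ε → ∀ τ ∈ Ioo s (s + h), τ ≤ s + δ →
      Shell ε V (2 * K + 2) δ p (flow Φ ε τ W) ∧
        res p (flow Φ ε τ W) = flow Φ ε τ W' := by
  obtain ⟨hW, ⟨j, hj, ⟨m, hm, hjm⟩, hconn⟩, ⟨h, hh, hsep⟩, hW'⟩ := h
  refine ⟨h, hh, fun δ hδ hVδ τ hτ hτδ => ?_⟩
  have hlip : ∀ i, dist (flow Φ ε s W i).1 (flow Φ ε τ W i).1 ≤ V * δ := by
    intro i
    have h3 := (newton hΦ hε).lip κ W hW i s τ V hV (by rw [newton_energy]; exact hE)
    simp only [newton_flow] at h3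
    refine h3.trans (mul_le_mul_of_nonneg_left ?_ hV)
    rw [abs_sub_comm, abs_of_nonneg (by linarith [hτ.1])]
    linarith
  have hmove : ∀ a b, dist (flow Φ ε s W a).1 (flow Φ ε s W b).1 ≤ ε →
      dist (flow Φ ε τ W a).1 (flow Φ ε τ W b).1 ≤ ε + 2 * V * δ := by
    intro a b hab
    have h1 := hlip a
    have h2 := hlip b
    rw [dist_comm] at h1
    calc dist (flow Φ ε τ W a).1 (flow Φ ε τ W b).1
        ≤ dist (flow Φ ε τ W a).1 (flow Φ ε s W a).1 + dist (flow Φ ε s W a).1 (flow Φ ε s W b).1 +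
          dist (flow Φ ε s W b).1 (flow Φ ε τ W b).1 := dist_triangle4 _ _ _ _
      _ ≤ V * δ + ε + V * δ := add_le_add (add_le_add h1 hab) h2
      _ = _ := by ring
  refine ⟨⟨⟨j, m, hj, hm, hsep τ hτ j m hj hm, hmove j m hjm.le⟩, ?_, ?_⟩, ?_⟩
  · intro k hk
    refine ⟨m, hm, ?_⟩
    have h1 : Relation.ReflTransGen (fun a b => dist (flow Φ ε τ W a).1 (flow Φ ε τ W b).1 ≤
        ε + 2 * V * δ) j k := by
      have h0 := hconn k hk
      clear hk
      induction h0 with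
      | refl => exact .refl
      | tail _ h4 ih => exact ih.tail (hmove _ _ h4)
    have h2 := dist_le_of_rtg (x := fun i => (flow Φ ε τ W i).1) (ε := ε + 2 * V * δ)
      (by positivity) h1
    have h3 := hmove j m hjm.le
    have hK' : (Fintype.card κ : ℝ) ≤ K := by exact_mod_cast hK
    have hK0 : (0 : ℝ) ≤ K := by positivity
    calc dist (flow Φ ε τ W k).1 (flow Φ ε τ W m).1
        ≤ dist (flow Φ ε τ W k).1 (flow Φ ε τ W j).1 + dist (flow Φ ε τ W j).1 (flow Φ ε τ W m).1 :=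
          dist_triangle _ _ _
      _ ≤ Fintype.card κ * (ε + 2 * V * δ) + (ε + 2 * V * δ) := by
          rw [dist_comm]; exact add_le_add h2 h3
      _ ≤ K * (ε + ε) + (ε + ε) := by
          refine add_le_add (mul_le_mul hK' (by linarith) (by positivity) hK0) (by linarith)
      _ = _ := by ring
  · intro k _
    have hd : flow Φ ε τ W ∈ Dom Φ κ := flow_mem hΦ hε hW τ
    have h1 := (newton hΦ hε).vel_le κ _ hd k
    rw [newton_energy, energy_flow hΦ hε] at h1
    exact abs_le_of_sq_le_sq' (h1.trans hE) hV |>.2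
  · -- locality on `[s, τ]`
    have hloc := flow_comp hΦ hε (Function.Embedding.subtype p) hW (a := s) (b := τ) (t₀ := s)
      ⟨le_rfl, hτ.1.le⟩ (by
        intro u hu i k hk
        have hk' : ¬ p k := fun hc => hk ⟨⟨k, hc⟩, rfl⟩
        rcases eq_or_lt_of_le hu.1 with h1 | h1
        · -- limit
          subst h1
          have hcont : Continuous fun u => dist (flow Φ ε u W (i : κ)).1 (flow Φ ε u W k).1 := by
            have hc := flow_continuous_time hΦ hε W
            exact (((continuous_apply (i : κ)).comp hc).fst).dist (((continuous_apply k).comp hc).fst)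
          refine ge_of_tendsto (hcont.continuousWithinAt (s := Ioi s) (x := s)).tendsto ?_
          filter_upwards [Ioo_mem_nhdsGT (show s < s + h by linarith)] with u hu'
          have := hsep u hu' k i hk' i.2
          rw [dist_comm]
          exact this.le
        · have := hsep u ⟨h1, hu.2.trans_lt hτ.2⟩ k i hk' i.2
          rw [dist_comm]
          exact this.le) (t := τ) ⟨hτ.1.le, le_rfl⟩
    have e1 : res p (flow Φ ε τ W) = flow Φ ε (τ - s) (res p (flow Φ ε s W)) := hloc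
    rw [e1, hW', ← flow_add hΦ hε]
    congr 1
    ring

/-- **Volume of one release step.** -/
theorem vol_step (hΦ : AdmissiblePotential Φ) (hε : 0 < ε) {T : ℝ} (hT : 0 ≤ T) {κ : Type}
    [Fintype κ] {K : ℕ} (hK : Fintype.card κ ≤ K) (p : κ → Prop) {E V : ℝ} (hV : 0 ≤ V)
    (hE : 2 * (E + stabB Φ * Fintype.card κ) ≤ V ^ 2) {Y : Set ({i // p i} → PhasePoint)} :
    volume {W : κ → PhasePoint | energy Φ ε W ≤ E ∧ ∃ s ∈ Icc 0 T, ∃ W' ∈ Y, GStep Φ ε s p W W'} ≤
      ENNReal.ofReal (T + 1) * (M0 K V (2 * K + 2) ^ Fintype.card {i // ¬ p i} *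
        ENNReal.ofReal ε ^ (2 + 3 * (Fintype.card {i // ¬ p i} - 1))) * volume Y := by
  by_cases hne : ∃ k, ¬ p k
  swap
  · have : {W : κ → PhasePoint | energy Φ ε W ≤ E ∧ ∃ s ∈ Icc 0 T, ∃ W' ∈ Y,
        GStep Φ ε s p W W'} = ∅ := by
      ext W; constructor
      · rintro ⟨-, s, -, W', -, -, ⟨j, hj, -⟩, -⟩; exact absurd ⟨j, hj⟩ hne
      · intro h; exact absurd h (notMem_empty _)
    rw [this]; simp
  -- the grid sets
  set D : ℕ → Set (κ → PhasePoint) := fun N => ⋃ m ∈ Finset.range N,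
    flow Φ ε ((m + 1 : ℝ) * ((T + 1) / N)) ⁻¹' {z | Shell ε V (2 * K + 2) ((T + 1) / N) p z ∧
      res p z ∈ flow Φ ε (-((m + 1 : ℝ) * ((T + 1) / N))) ⁻¹' Y} with hD
  obtain ⟨N₀, hN₀⟩ : ∃ N₀ : ℕ, ∀ N : ℕ, N₀ ≤ N → 1 ≤ N ∧ 2 * V * ((T + 1) / N) ≤ ε := by
    have h1 : Tendsto (fun N : ℕ => 2 * V * ((T + 1) / N)) atTop (nhds (2 * V * 0)) :=
      (tendsto_const_div_atTop_nhds_zero_nat (T + 1)).const_mul _
    rw [mul_zero] at h1
    have h2 := (h1.eventually (Iio_mem_nhds hε)).and (eventually_ge_atTop 1)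
    obtain ⟨N₀, h⟩ := eventually_atTop.1 h2
    exact ⟨N₀, fun N hN => ⟨(h N hN).2, (h N hN).1.le⟩⟩
  have hb : ∀ N : ℕ, N₀ ≤ N → volume (D N) ≤
      ENNReal.ofReal (T + 1) * (M0 K V (2 * K + 2) ^ Fintype.card {i // ¬ p i} *
        ENNReal.ofReal ε ^ (2 + 3 * (Fintype.card {i // ¬ p i} - 1))) * volume Y := by
    intro N hN
    obtain ⟨hN1, hN2⟩ := hN₀ N hN
    have hNpos : (0 : ℝ) < N := by exact_mod_cast hN1
    have hδ : 0 ≤ (T + 1) / N := by positivity
    refine (measure_biUnion_finset_le _ _).trans ?_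
    have hterm : ∀ m ∈ Finset.range N,
        volume (flow Φ ε ((m + 1 : ℝ) * ((T + 1) / N)) ⁻¹'
          {z : κ → PhasePoint | Shell ε V (2 * K + 2) ((T + 1) / N) p z ∧
            res p z ∈ flow Φ ε (-((m + 1 : ℝ) * ((T + 1) / N))) ⁻¹' Y}) ≤
        ENNReal.ofReal ((T + 1) / N) * (M0 K V (2 * K + 2) ^ Fintype.card {i // ¬ p i} *
          ENNReal.ofReal ε ^ (2 + 3 * (Fintype.card {i // ¬ p i} - 1))) * volume Y := by
      intro m _
      refine (measure_preimage_le' (measurePreserving_flow hΦ hε _) _).trans ?_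
      refine (vol_delete3 hK p hne _ hε hV (by positivity) hδ hN2).trans ?_
      refine mul_le_mul_right ?_ _
      exact measure_preimage_le' (measurePreserving_flow hΦ hε _) _
    refine (Finset.sum_le_card_nsmul _ _ _ hterm).trans (le_of_eq ?_)
    rw [nsmul_eq_mul, Finset.card_range, ← mul_assoc, ← mul_assoc]
    congr 2
    rw [← ENNReal.ofReal_natCast, ← ENNReal.ofReal_mul (by positivity)]
    congr 1
    field_simp
  have hsub : {W : κ → PhasePoint | energy Φ ε W ≤ E ∧ ∃ s ∈ Icc 0 T, ∃ W' ∈ Y,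
      GStep Φ ε s p W W'} ⊆ ⋃ M : ℕ, {W : κ → PhasePoint | ∀ N : ℕ, M ≤ N → W ∈ D N} := by
    rintro W ⟨hWE, s, hs, W', hW', hstep⟩
    obtain ⟨h, hh, hsh⟩ := hstep.shell hΦ hε hK hV (by linarith)
    have h1 : Tendsto (fun N : ℕ => (T + 1) / (N : ℝ)) atTop (nhds 0) :=
      tendsto_const_div_atTop_nhds_zero_nat (T + 1)
    have h2 := ((h1.eventually (Iio_mem_nhds hh)).and
      (h1.eventually (Iio_mem_nhds zero_lt_one))).and (eventually_ge_atTop N₀)
    obtain ⟨M, hM⟩ := eventually_atTop.1 h2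
    refine mem_iUnion.2 ⟨M, fun N hN => ?_⟩
    obtain ⟨⟨h3, h3'⟩, h4⟩ := hM N hN
    obtain ⟨hN1, hN2⟩ := hN₀ N h4
    have hNpos : (0 : ℝ) < N := by exact_mod_cast hN1
    set δ : ℝ := (T + 1) / N with hδdef
    have hδ : 0 < δ := by positivity
    have hδN : N * δ = T + 1 := by rw [hδdef]; field_simp
    have h3a : δ < h := h3
    have h3b : δ < 1 := h3'
    -- the cell of `s`
    set m : ℕ := ⌊s / δ⌋₊ with hm
    have hm1 : (m : ℝ) * δ ≤ s := by
      have := Nat.floor_le (div_nonneg hs.1 hδ.le)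
      rw [← hm] at this
      exact (le_div_iff₀ hδ).1 this
    have hm2 : s < (m + 1 : ℝ) * δ := by
      have := Nat.lt_floor_add_one (s / δ)
      rw [← hm] at this
      exact (div_lt_iff₀ hδ).1 this
    have hmN : m < N := by
      have : (m : ℝ) * δ < N * δ := by rw [hδN]; linarith [hs.2]
      have := lt_of_mul_lt_mul_right this hδ.le
      exact_mod_cast this
    obtain ⟨h5, h6⟩ := hsh δ hδ hN2 ((m + 1 : ℝ) * δ) ⟨hm2, by nlinarith⟩ (by nlinarith)
    refine mem_iUnion₂.2 ⟨m, Finset.mem_range.2 hmN, ?_⟩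
    refine ⟨h5, ?_⟩
    show flow Φ ε (-((m + 1 : ℝ) * δ)) (res p (flow Φ ε ((m + 1 : ℝ) * δ) W)) ∈ Y
    rw [h6, flow_neg_flow hΦ hε]
    exact hW'
  have hmono : Monotone fun M : ℕ => {W : κ → PhasePoint | ∀ N : ℕ, M ≤ N → W ∈ D N} :=
    fun M M' h z hz N hN => hz N (h.trans hN)
  refine (measure_mono hsub).trans ?_
  rw [hmono.measure_iUnion]
  refine iSup_le fun M => (measure_mono ?_).trans (hb (max M N₀) (le_max_right _ _))
  intro z hz
  exact hz _ (le_max_left _ _)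

/-- The constant. -/
def C5 (K : ℕ) : ℝ≥0∞ :=
  1 + (14 * (K : ℝ≥0∞) ^ 2 * kap ^ 2 + (K : ℝ≥0∞) * ENNReal.ofReal (2 * K + 2) ^ 3 * kap ^ 2)

theorem C5_ne_top (K : ℕ) : C5 K ≠ ∞ := by
  unfold C5
  have hk : kap ≠ ∞ := kap_ne_top
  refine ENNReal.add_ne_top.2 ⟨ENNReal.one_ne_top, (ENNReal.add_ne_top.2 ⟨?_, ?_⟩)⟩
  · exact ENNReal.mul_ne_top (ENNReal.mul_ne_top (by simp) (by simp)) (ENNReal.pow_ne_top hk)
  · exact ENNReal.mul_ne_top (ENNReal.mul_ne_top (by simp) (ENNReal.pow_ne_top ENNReal.ofReal_ne_top))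
      (ENNReal.pow_ne_top hk)

theorem one_le_C5 (K : ℕ) : 1 ≤ C5 K := by unfold C5; exact le_self_add

theorem M0_le (K : ℕ) {W : ℝ} (hW : 1 ≤ W) : M0 K W (2 * K + 2) ≤ C5 K * ENNReal.ofReal W ^ 4 := by
  have h1 : 1 ≤ ENNReal.ofReal W := by
    rw [← ENNReal.ofReal_one]; exact ENNReal.ofReal_le_ofReal hW
  have h3 : ENNReal.ofReal W ^ 3 ≤ ENNReal.ofReal W ^ 4 := pow_le_pow_right₀ h1 (by norm_num)
  unfold M0 C5
  calc 14 * (K : ℝ≥0∞) ^ 2 * kap ^ 2 * ENNReal.ofReal W ^ 4 +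
        (K : ℝ≥0∞) * ENNReal.ofReal (2 * K + 2) ^ 3 * kap ^ 2 * ENNReal.ofReal W ^ 3
      ≤ 14 * (K : ℝ≥0∞) ^ 2 * kap ^ 2 * ENNReal.ofReal W ^ 4 +
        (K : ℝ≥0∞) * ENNReal.ofReal (2 * K + 2) ^ 3 * kap ^ 2 * ENNReal.ofReal W ^ 4 := by gcongr
    _ = (14 * (K : ℝ≥0∞) ^ 2 * kap ^ 2 + (K : ℝ≥0∞) * ENNReal.ofReal (2 * K + 2) ^ 3 * kap ^ 2) *
      ENNReal.ofReal W ^ 4 := by ring
    _ ≤ _ := mul_le_mul_left le_add_self _

/-- Energy level with constant `B * K`. -/
def lvK (Φ : Space3 → ℝ) (ε : ℝ) (K : ℕ) {κ : Type} [Fintype κ] (W : κ → PhasePoint) : ℕ :=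
  ⌈energy Φ ε W + stabB Φ * K⌉₊

theorem measurable_energy' (hΦ : AdmissiblePotential Φ) (hε : 0 < ε) (κ : Type) [Fintype κ] :
    Measurable fun W : κ → PhasePoint => energy Φ ε W := by
  have h0 : (newton hΦ hε).energy κ = fun y => energy Φ ε y :=
    funext fun y => newton_energy hΦ hε κ y
  rw [← h0]
  exact (newton hΦ hε).energy_meas κ

theorem measurable_lvK (hΦ : AdmissiblePotential Φ) (hε : 0 < ε) (K : ℕ) (κ : Type) [Fintype κ] :
    Measurable fun W : κ → PhasePoint => lvK Φ ε K W :=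
  Nat.measurable_ceil.comp ((measurable_energy' hΦ hε κ).add_const _)

/-- **From level volumes to weighted majorants** (general principle): if for every energy level the
relation `S W W'` has volume at most `c · (C5^K V_n^{4K})`, then functions have majorants with
exponential energy weights. -/
theorem weighted_majorant (hΦ : AdmissiblePotential Φ) {γ' γ : ℝ} (h0 : 0 < γ') (hγ : γ' < γ)
    (K : ℕ) {D : ℝ≥0∞} (hD : D ≠ ∞) (q : ℕ) : ∃ C : ℝ≥0∞, C ≠ ∞ ∧
    ∀ ε : ℝ, 0 < ε → ∀ (κ κ' : Type) [Fintype κ] [Fintype κ'], Fintype.card κ ≤ K →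
    ∀ (S : (κ → PhasePoint) → (κ' → PhasePoint) → Prop) (c : ℝ≥0∞),
    (∀ W W', S W W' → W ∈ Dom Φ κ ∧ energy Φ ε W' ≤ energy Φ ε W + stabB Φ * K * K) →
    (∀ n : ℕ, ∀ Y : Set (κ' → PhasePoint), MeasurableSet Y →
      volume {W : κ → PhasePoint | energy Φ ε W + stabB Φ * K ≤ n ∧ ∃ W' ∈ Y, S W W'} ≤
        c * (D * ENNReal.ofReal ((1 + 2 * n + 2 * (2 * stabB Φ) * K * K) * 1) ^ q) * volume Y) →
    ∀ F : (κ' → PhasePoint) → ℝ≥0∞, Measurable F → ∃ M : (κ → PhasePoint) → ℝ≥0∞, Measurable M ∧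
      (∀ W W', S W W' → F W' ≤ M W) ∧
      ∫⁻ W, ENNReal.ofReal (Real.exp (-(γ * energy Φ ε W))) * M W ≤
        C * c * ∫⁻ W', ENNReal.ofReal (Real.exp (-(γ' * energy Φ ε W'))) * F W' := by
  have hB := stabB_nonneg Φ
  set B := stabB Φ with hBdef
  set a : ℝ≥0∞ := ENNReal.ofReal (Real.exp (γ * (1 + B * K) + γ' * (B * K * K))) with ha
  refine ⟨a * Cg (2 * B) (2 * (γ - γ')) 1 K D q, ENNReal.mul_ne_top ENNReal.ofReal_ne_top
    (Cg_ne_top (by positivity) (by linarith) zero_le_one K hD _), ?_⟩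
  intro ε hε κ κ' _ _ hK S c hS hvol F hF
  set F' : (κ' → PhasePoint) → ℝ≥0∞ := fun y =>
    ENNReal.ofReal (Real.exp (-(γ' * energy Φ ε y))) * F y with hF'
  have hem := measurable_energy' hΦ hε κ'
  have hem2 := measurable_energy' hΦ hε κ
  have hF'm : Measurable F' :=
    (by fun_prop : Measurable fun y : κ' → PhasePoint =>
      ENNReal.ofReal (Real.exp (-(γ' * energy Φ ε y)))).mul hF
  have hmaj := fun n : ℕ => exists_majorant (μ := (volume : Measure (κ → PhasePoint)))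
    (ν := (volume : Measure (κ' → PhasePoint)))
    (S := fun W W' => S W W' ∧ energy Φ ε W + B * K ≤ n)
    (c := c * (D * ENNReal.ofReal ((1 + 2 * n + 2 * (2 * B) * K * K) * 1) ^ q)) (by
      intro A hA
      refine (measure_mono ?_).trans (hvol n A hA)
      rintro W ⟨y, hy, h4, h5⟩
      exact ⟨h5, y, hy, h4⟩) hF'm
  choose G hG h1 h2 using hmaj
  set En : ℕ → Set (κ → PhasePoint) := fun n => (fun W => lvK Φ ε K W) ⁻¹' {n} ∩ Dom Φ κ with hEn
  have hEnm : ∀ n, MeasurableSet (En n) := fun n =>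
    (measurable_lvK hΦ hε K κ (measurableSet_singleton n)).inter (measurableSet_Dom Φ)
  set w : ℕ → ℝ≥0∞ := fun n => ENNReal.ofReal (Real.exp (γ' * (n + B * K * K))) with hw
  refine ⟨fun W => ∑' n, (En n).indicator (fun W => w n * G n W) W,
    Measurable.tsum fun n => ((hG n).const_mul _).indicator (hEnm n), ?_, ?_⟩
  · intro W W' hWW
    obtain ⟨hWd, hWE⟩ := hS W W' hWW
    set n : ℕ := lvK Φ ε K W with hn
    have hkin : 0 ≤ energy Φ ε W + B * K := by
      have h3 := kin_le hΦ hε hWd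
      have h4 : (Fintype.card κ : ℝ) ≤ K := by exact_mod_cast hK
      have h5 : B * Fintype.card κ ≤ B * K := mul_le_mul_of_nonneg_left h4 hB
      have h6 := kin_nonneg W
      linarith
    have hn1 : energy Φ ε W + B * K ≤ n := Nat.le_ceil _
    refine le_trans ?_ (ENNReal.le_tsum n)
    rw [indicator_of_mem (show W ∈ En n from ⟨rfl, hWd⟩)]
    have h3 := h1 n W W' ⟨hWW, hn1⟩
    have h4 : F W' ≤ w n * F' W' := by
      rw [hF', hw]
      simp only
      rw [← mul_assoc, ← ENNReal.ofReal_mul (by positivity), ← Real.exp_add]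
      refine le_mul_of_one_le_left' ?_
      rw [← ENNReal.ofReal_one]
      refine ENNReal.ofReal_le_ofReal (Real.one_le_exp ?_)
      have h5 : 0 ≤ B * K := by positivity
      have h6 : γ' * energy Φ ε W' ≤ γ' * (n + B * K * K) :=
        mul_le_mul_of_nonneg_left (by linarith) h0.le
      linarith
    exact h4.trans (mul_le_mul_right h3 _)
  · have e0 : ∀ W : κ → PhasePoint, ENNReal.ofReal (Real.exp (-(γ * energy Φ ε W))) *
        ∑' n, (En n).indicator (fun W => w n * G n W) W =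
        ∑' n, ENNReal.ofReal (Real.exp (-(γ * energy Φ ε W))) *
          (En n).indicator (fun W => w n * G n W) W := fun W => ENNReal.tsum_mul_left.symm
    simp_rw [e0]
    have hexpm : Measurable fun W : κ → PhasePoint =>
        ENNReal.ofReal (Real.exp (-(γ * energy Φ ε W))) := by fun_prop
    have hlt : ∫⁻ W : κ → PhasePoint, ∑' n, ENNReal.ofReal (Real.exp (-(γ * energy Φ ε W))) *
          (En n).indicator (fun W => w n * G n W) W =
        ∑' n, ∫⁻ W : κ → PhasePoint, ENNReal.ofReal (Real.exp (-(γ * energy Φ ε W))) *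
          (En n).indicator (fun W => w n * G n W) W :=
      lintegral_tsum fun n =>
        (hexpm.mul (((hG n).const_mul (w n)).indicator (hEnm n))).aemeasurable
    rw [hlt]
    have hterm : ∀ n : ℕ, ∫⁻ W, ENNReal.ofReal (Real.exp (-(γ * energy Φ ε W))) *
          (En n).indicator (fun W => w n * G n W) W ≤
        a * (ENNReal.ofReal (Real.exp (2 * (γ - γ') * (1 + 2 * B * K)) *
          Real.exp (-(2 * (γ - γ') / 2 * n))) *
          (D * ENNReal.ofReal ((1 + 2 * n + 2 * (2 * B) * K * K) * 1) ^ q)) *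
          (c * ∫⁻ y, F' y) := by
      intro n
      have h3 : ∀ W : κ → PhasePoint, ENNReal.ofReal (Real.exp (-(γ * energy Φ ε W))) *
          (En n).indicator (fun W => w n * G n W) W ≤
          ENNReal.ofReal (Real.exp (-(γ * (n - 1 - B * K)))) * w n * G n W := by
        intro W
        by_cases hW : W ∈ En n
        swap
        · rw [indicator_of_notMem hW, mul_zero]; exact bot_le
        rw [indicator_of_mem hW, mul_assoc]
        refine mul_le_mul_left ?_ _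
        refine ENNReal.ofReal_le_ofReal (Real.exp_le_exp.2 ?_)
        have hWd : W ∈ Dom Φ κ := hW.2
        have hkin : 0 ≤ energy Φ ε W + B * K := by
          have h3 := kin_le hΦ hε hWd
          have h4 : (Fintype.card κ : ℝ) ≤ K := by exact_mod_cast hK
          have h5 : B * Fintype.card κ ≤ B * K := mul_le_mul_of_nonneg_left h4 hB
          have h6 := kin_nonneg W
          linarith
        have hn2 : (n : ℝ) < energy Φ ε W + B * K + 1 := by
          have h7 : lvK Φ ε K W = n := hW.1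
          have h8 := Nat.ceil_lt_add_one hkin
          rw [← h7]; exact h8
        have h9 : γ * (n - 1 - B * K) ≤ γ * energy Φ ε W :=
          mul_le_mul_of_nonneg_left (by linarith) (by linarith)
        linarith
      refine (lintegral_mono h3).trans ?_
      rw [lintegral_const_mul _ (hG n)]
      refine (mul_le_mul_right (h2 n) _).trans ?_
      have h4 : ENNReal.ofReal (Real.exp (-(γ * (n - 1 - B * K)))) * w n ≤
          a * ENNReal.ofReal (Real.exp (2 * (γ - γ') * (1 + 2 * B * K)) *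
          Real.exp (-(2 * (γ - γ') / 2 * n))) := by
        rw [hw, ha]
        simp only
        rw [← ENNReal.ofReal_mul (by positivity), ← ENNReal.ofReal_mul (by positivity)]
        refine ENNReal.ofReal_le_ofReal ?_
        rw [← Real.exp_add, ← Real.exp_add, ← Real.exp_add]
        refine Real.exp_le_exp.2 ?_
        have h5 : 0 ≤ 2 * (γ - γ') * (1 + 2 * B * K) := by
          have : 0 < γ - γ' := by linarith
          positivity
        have h6 : -(γ * (n - 1 - B * K)) + γ' * (n + B * K * K) =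
            (γ * (1 + B * K) + γ' * (B * K * K)) + -(2 * (γ - γ') / 2 * n) := by ring
        rw [h6]
        linarith
      calc ENNReal.ofReal (Real.exp (-(γ * (n - 1 - B * K)))) * w n *
            (c * (D * ENNReal.ofReal ((1 + 2 * n + 2 * (2 * B) * K * K) * 1) ^ q) * ∫⁻ y, F' y)
          ≤ (a * ENNReal.ofReal (Real.exp (2 * (γ - γ') * (1 + 2 * B * K)) *
            Real.exp (-(2 * (γ - γ') / 2 * n)))) *
            (c * (D * ENNReal.ofReal ((1 + 2 * n + 2 * (2 * B) * K * K) * 1) ^ q) * ∫⁻ y, F' y) :=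
            mul_le_mul_left h4 _
        _ = _ := by ring
    refine (ENNReal.tsum_le_tsum hterm).trans (le_of_eq ?_)
    rw [ENNReal.tsum_mul_right, ENNReal.tsum_mul_left]
    unfold Cg
    ring

/-- **Majorant for one release step.** -/
theorem step_majorant (hΦ : AdmissiblePotential Φ) {γ' γ : ℝ} (h0 : 0 < γ') (hγ : γ' < γ)
    {T : ℝ} (hT : 0 ≤ T) (K : ℕ) : ∃ C : ℝ≥0∞, C ≠ ∞ ∧ ∀ ε : ℝ, 0 < ε →
    ∀ (κ : Type) [Fintype κ], Fintype.card κ ≤ K → ∀ (p : κ → Prop),
    ∀ F : ({i // p i} → PhasePoint) → ℝ≥0∞, Measurable F →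
    ∃ M : (κ → PhasePoint) → ℝ≥0∞, Measurable M ∧
      (∀ s ∈ Icc 0 T, ∀ W W', GStep Φ ε s p W W' → F W' ≤ M W) ∧
      ∫⁻ W, ENNReal.ofReal (Real.exp (-(γ * energy Φ ε W))) * M W ≤
        C * ENNReal.ofReal ε ^ (2 + 3 * (Fintype.card {i // ¬ p i} - 1)) *
          ∫⁻ W', ENNReal.ofReal (Real.exp (-(γ' * energy Φ ε W'))) * F W' := by
  have hB := stabB_nonneg Φ
  obtain ⟨C, hC, h⟩ := weighted_majorant hΦ h0 hγ K (D := C5 K ^ K)
    (ENNReal.pow_ne_top (C5_ne_top K)) (4 * K)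
  refine ⟨C * ENNReal.ofReal (T + 1), ENNReal.mul_ne_top hC ENNReal.ofReal_ne_top, ?_⟩
  intro ε hε κ _ hK p F hF
  obtain ⟨M, hM, h1, h2⟩ := h ε hε κ {i // p i} hK
    (fun W W' => ∃ s ∈ Icc 0 T, GStep Φ ε s p W W')
    (ENNReal.ofReal (T + 1) * ENNReal.ofReal ε ^ (2 + 3 * (Fintype.card {i // ¬ p i} - 1)))
    (by
      rintro W W' ⟨s, hs, hst⟩
      refine ⟨hst.1, (hst.energy_le hΦ hε).trans ?_⟩
      have hK' : (Fintype.card κ : ℝ) ≤ K := by exact_mod_cast hK
      have : stabB Φ * Fintype.card κ * Fintype.card κ ≤ stabB Φ * K * K := by gcongr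
      linarith) (by
      intro n Y hY
      set V : ℝ := (1 + 2 * n + 2 * (2 * stabB Φ) * K * K) * 1 with hV
      have hn : (0 : ℝ) ≤ n := by positivity
      have hV1 : 1 ≤ V := by
        rw [hV]
        have : 0 ≤ 2 * (2 * stabB Φ) * K * K := by positivity
        linarith
      have hV2 : 2 * (n : ℝ) ≤ V := by
        rw [hV]
        have : 0 ≤ 2 * (2 * stabB Φ) * K * K := by positivity
        linarith
      have hK' : (Fintype.card κ : ℝ) ≤ K := by exact_mod_cast hK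
      have hBK : stabB Φ * Fintype.card κ ≤ stabB Φ * K := mul_le_mul_of_nonneg_left hK' hB
      have h3 := vol_step hΦ hε hT hK p (E := n - stabB Φ * K) (V := V) (by linarith)
        (by nlinarith) (Y := Y)
      have h4 : {W : κ → PhasePoint | energy Φ ε W + stabB Φ * K ≤ n ∧
          ∃ W' ∈ Y, ∃ s ∈ Icc 0 T, GStep Φ ε s p W W'} ⊆
          {W : κ → PhasePoint | energy Φ ε W ≤ n - stabB Φ * K ∧
            ∃ s ∈ Icc 0 T, ∃ W' ∈ Y, GStep Φ ε s p W W'} := by
        rintro W ⟨h5, W', hW', s, hs, h6⟩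
        exact ⟨by linarith, s, hs, W', hW', h6⟩
      refine (measure_mono h4).trans (h3.trans ?_)
      refine mul_le_mul_left ?_ _
      have h5 : M0 K V (2 * K + 2) ^ Fintype.card {i // ¬ p i} ≤
          C5 K ^ K * ENNReal.ofReal V ^ (4 * K) := by
        have h6 : 1 ≤ C5 K * ENNReal.ofReal V ^ 4 := by
          refine one_le_mul (one_le_C5 K) (one_le_pow₀ ?_)
          rw [← ENNReal.ofReal_one]; exact ENNReal.ofReal_le_ofReal hV1
        calc M0 K V (2 * K + 2) ^ Fintype.card {i // ¬ p i}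
            ≤ (C5 K * ENNReal.ofReal V ^ 4) ^ Fintype.card {i // ¬ p i} :=
              pow_le_pow_left' (M0_le K hV1) _
          _ ≤ (C5 K * ENNReal.ofReal V ^ 4) ^ K :=
              pow_le_pow_right₀ h6 ((Fintype.card_subtype_le _).trans hK)
          _ = _ := by rw [mul_pow, ← pow_mul]
      calc ENNReal.ofReal (T + 1) * (M0 K V (2 * K + 2) ^ Fintype.card {i // ¬ p i} *
            ENNReal.ofReal ε ^ (2 + 3 * (Fintype.card {i // ¬ p i} - 1)))
          ≤ ENNReal.ofReal (T + 1) * ((C5 K ^ K * ENNReal.ofReal V ^ (4 * K)) *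
            ENNReal.ofReal ε ^ (2 + 3 * (Fintype.card {i // ¬ p i} - 1))) := by gcongr
        _ = _ := by ring) F hF
  refine ⟨M, hM, fun s hs W W' hst => h1 W W' ⟨s, hs, hst⟩, h2.trans (le_of_eq ?_)⟩
  ring

end Crest.Agent.R122.Vol365

end
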