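import Crest.Agent.R122.VolMain_365

/-!
Row 122, helper365: tapered histories.  A group of particles evolves by its own flow; at grid times
some particles may be deleted, if they just left the `ε`-neighbourhood of the surviving ones.
Volume bound for all initial configurations which have a tapered history ending in a given set.
-/

set_option autoImplicit false

open MeasureTheory Set
open Crest.AnalysisR.Kinetic
open scoped ENNReal Classical

noncomputable section

namespace Crest.Agent.R122.Vol365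

/-- The particles outside `p` have just left through a thin shell. -/
def Shell (ε V L δ : ℝ) {ι : Type} (p : ι → Prop) (z : ι → PhasePoint) : Prop :=
  (∃ k i, ¬ p k ∧ p i ∧ ε < dist (z k).1 (z i).1 ∧ dist (z k).1 (z i).1 ≤ ε + 2 * V * δ) ∧
  (∀ k, ¬ p k → ∃ i, p i ∧ dist (z k).1 (z i).1 ≤ L * ε) ∧ (∀ k, ¬ p k → ‖(z k).2‖ ≤ V)

/-- Final condition: roots in `A`, everybody close to a root. -/
def Base {ρ : Type} (ε : ℝ) (A : Set (ρ → PhasePoint)) (V L : ℝ) {ι : Type} (e : ρ → ι)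
    (z : ι → PhasePoint) : Prop :=
  (fun r => z (e r)) ∈ A ∧ (∀ k, ∃ r, dist (z k).1 (z (e r)).1 ≤ L * ε) ∧ ∀ k, ‖(z k).2‖ ≤ V

/-- Tapered histories with `n` time steps of length `δ`. -/
def Tap {ε B : ℝ} (S : Bodies ε B) {ρ : Type} (A : Set (ρ → PhasePoint)) (V L δ : ℝ) :
    ℕ → (ι : Type) → (ρ → ι) → (ι → PhasePoint) → Prop
  | 0, _, e, z => Base ε A V L e z
  | n + 1, ι, e, z => Tap S A V L δ n ι e (S.flow ι δ z) ∨
      ∃ (p : ι → Prop) (h : ∀ r, p (e r)), Shell ε V L δ p (S.flow ι δ z) ∧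
        Tap S A V L δ n {i // p i} (fun r => ⟨e r, h r⟩) (res p (S.flow ι δ z))

theorem measure_preimage_le' {α β : Type*} [MeasurableSpace α] [MeasurableSpace β] {μ : Measure α}
    {ν : Measure β} {f : α → β} (hf : MeasurePreserving f μ ν) (s : Set β) : μ (f ⁻¹' s) ≤ ν s := by
  calc μ (f ⁻¹' s) ≤ μ (f ⁻¹' (toMeasurable ν s)) :=
        measure_mono (preimage_mono (subset_toMeasurable ν s))
    _ = ν (toMeasurable ν s) := hf.measure_preimage (measurableSet_toMeasurable ν s).nullMeasurableSet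
    _ = ν s := measure_toMeasurable s

/-- Volume of a shell. -/
theorem vol_shell (c : Space3) {ε h : ℝ} (hε : 0 < ε) (h0 : 0 ≤ h) (hh : h ≤ ε) :
    volume {x : Space3 | ε < dist x c ∧ dist x c ≤ ε + h} ≤
      7 * ENNReal.ofReal h * ENNReal.ofReal ε ^ 2 * kap := by
  have hsub : {x : Space3 | ε < dist x c ∧ dist x c ≤ ε + h} =
      Metric.closedBall c (ε + h) \ Metric.closedBall c ε := by
    ext x
    simp only [mem_sdiff, Metric.mem_closedBall, not_le]
    exact ⟨fun h => ⟨h.2, h.1⟩, fun h => ⟨h.2, h.1⟩⟩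
  rw [hsub, measure_sdiff (Metric.closedBall_subset_closedBall (by linarith))
    Metric.isClosed_closedBall.measurableSet.nullMeasurableSet measure_closedBall_lt_top.ne,
    vol_closedBall _ (by linarith), vol_closedBall _ hε.le, ← ENNReal.ofReal_pow (by linarith),
    ← ENNReal.ofReal_pow hε.le]
  rw [tsub_le_iff_right]
  have h7 : (7 : ℝ≥0∞) = ENNReal.ofReal 7 := by simp
  rw [← ENNReal.ofReal_pow hε.le, h7, ← ENNReal.ofReal_mul (by norm_num),
    ← ENNReal.ofReal_mul (by positivity), ← add_mul, ← ENNReal.ofReal_add (by positivity)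
      (by positivity)]
  refine mul_le_mul_left ?_ _
  refine ENNReal.ofReal_le_ofReal ?_
  have h1 : 0 ≤ ε * h := by positivity
  have h2 : h * h ≤ ε * h := mul_le_mul_of_nonneg_right hh h0
  nlinarith [mul_nonneg hε.le h1, mul_le_mul_of_nonneg_left h2 hε.le,
    mul_le_mul_of_nonneg_left h2 h0]

/-- Constants. -/
def M0 (K : ℕ) (V L : ℝ) : ℝ≥0∞ :=
  14 * (K : ℝ≥0∞) ^ 2 * kap ^ 2 * ENNReal.ofReal V ^ 4 +
    (K : ℝ≥0∞) * ENNReal.ofReal L ^ 3 * kap ^ 2 * ENNReal.ofReal V ^ 3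

def MM (K : ℕ) (V L : ℝ) : ℝ≥0∞ := 2 ^ K * M0 K V L

/-- One released particle near some survivor. -/
theorem vol_near {κ : Type} [Fintype κ] {K : ℕ} (hK : Fintype.card κ ≤ K) (x : κ → PhasePoint)
    {ε V L : ℝ} (hε : 0 < ε) (hV : 0 ≤ V) (hL : 0 ≤ L) :
    volume {y : PhasePoint | (∃ i, dist y.1 (x i).1 ≤ L * ε) ∧ ‖y.2‖ ≤ V} ≤
      (K : ℝ≥0∞) * ENNReal.ofReal L ^ 3 * kap ^ 2 * ENNReal.ofReal V ^ 3 * ENNReal.ofReal ε ^ 3 := by
  have hsub : {y : PhasePoint | (∃ i, dist y.1 (x i).1 ≤ L * ε) ∧ ‖y.2‖ ≤ V} ⊆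
      ⋃ i, cell (x i).1 (L * ε) V := by
    rintro y ⟨⟨i, hi⟩, hv⟩
    exact mem_iUnion.2 ⟨i, hi, by rwa [mem_closedBall_zero_iff]⟩
  refine (measure_mono hsub).trans ((measure_iUnion_fintype_le _ _).trans ?_)
  simp_rw [vol_cell _ (mul_nonneg hL hε.le) hV]
  rw [Finset.sum_const, nsmul_eq_mul, Finset.card_univ, ENNReal.ofReal_mul hL]
  have hK' : (Fintype.card κ : ℝ≥0∞) ≤ K := by exact_mod_cast hK
  calc (Fintype.card κ : ℝ≥0∞) * ((ENNReal.ofReal L * ENNReal.ofReal ε) ^ 3 * kap *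
        (ENNReal.ofReal V ^ 3 * kap))
      ≤ (K : ℝ≥0∞) * ((ENNReal.ofReal L * ENNReal.ofReal ε) ^ 3 * kap *
        (ENNReal.ofReal V ^ 3 * kap)) := by gcongr
    _ = _ := by ring

/-- One released particle in the shell of some survivor. -/
theorem vol_sh {κ : Type} [Fintype κ] {K : ℕ} (hK : Fintype.card κ ≤ K) (x : κ → PhasePoint)
    {ε V δ : ℝ} (hε : 0 < ε) (hV : 0 ≤ V) (hδ : 0 ≤ δ) (hh : 2 * V * δ ≤ ε) :
    volume {y : PhasePoint | (∃ i, ε < dist y.1 (x i).1 ∧ dist y.1 (x i).1 ≤ ε + 2 * V * δ) ∧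
        ‖y.2‖ ≤ V} ≤
      (K : ℝ≥0∞) * 14 * kap ^ 2 * ENNReal.ofReal V ^ 4 * ENNReal.ofReal δ * ENNReal.ofReal ε ^ 2 := by
  have hsub : {y : PhasePoint | (∃ i, ε < dist y.1 (x i).1 ∧ dist y.1 (x i).1 ≤ ε + 2 * V * δ) ∧
        ‖y.2‖ ≤ V} ⊆
      ⋃ i, ({y : Space3 | ε < dist y (x i).1 ∧ dist y (x i).1 ≤ ε + 2 * V * δ} ×ˢ
        Metric.closedBall (0 : Space3) V) := by
    rintro y ⟨⟨i, hi⟩, hv⟩
    exact mem_iUnion.2 ⟨i, hi, by rwa [mem_closedBall_zero_iff]⟩
  refine (measure_mono hsub).trans ((measure_iUnion_fintype_le _ _).trans ?_)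
  have h1 : ∀ i, volume ({y : Space3 | ε < dist y (x i).1 ∧ dist y (x i).1 ≤ ε + 2 * V * δ} ×ˢ
        Metric.closedBall (0 : Space3) V) ≤
      (7 * ENNReal.ofReal (2 * V * δ) * ENNReal.ofReal ε ^ 2 * kap) * (ENNReal.ofReal V ^ 3 * kap) := by
    intro i
    rw [Measure.volume_eq_prod, Measure.prod_prod, vol_closedBall _ hV]
    exact mul_le_mul_left (vol_shell _ hε (by positivity) hh) _
  refine (Finset.sum_le_card_nsmul _ _ _ (fun i _ => h1 i)).trans ?_
  rw [nsmul_eq_mul, Finset.card_univ]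
  have hK' : (Fintype.card κ : ℝ≥0∞) ≤ K := by exact_mod_cast hK
  have h2 : ENNReal.ofReal (2 * V * δ) = 2 * ENNReal.ofReal V * ENNReal.ofReal δ := by
    rw [ENNReal.ofReal_mul (by positivity), ENNReal.ofReal_mul (by norm_num)]; simp
  rw [h2]
  calc (Fintype.card κ : ℝ≥0∞) * (7 * (2 * ENNReal.ofReal V * ENNReal.ofReal δ) *
        ENNReal.ofReal ε ^ 2 * kap * (ENNReal.ofReal V ^ 3 * kap))
      ≤ (K : ℝ≥0∞) * (7 * (2 * ENNReal.ofReal V * ENNReal.ofReal δ) *
        ENNReal.ofReal ε ^ 2 * kap * (ENNReal.ofReal V ^ 3 * kap)) := by gcongr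
    _ = _ := by ring

/-- Fibre bound. -/
theorem vol_fib {κ μ : Type} [Fintype κ] [Fintype μ] [Nonempty μ] {K : ℕ} (hK : Fintype.card κ ≤ K)
    (hK' : Fintype.card μ ≤ K) (x : κ → PhasePoint) {ε V L δ : ℝ} (hε : 0 < ε) (hε1 : ε ≤ 1)
    (hV : 0 ≤ V) (hL : 0 ≤ L) (hδ : 0 ≤ δ) (hh : 2 * V * δ ≤ ε) :
    volume {y : μ → PhasePoint |
        (∃ k i, ε < dist (y k).1 (x i).1 ∧ dist (y k).1 (x i).1 ≤ ε + 2 * V * δ) ∧
        (∀ k, ∃ i, dist (y k).1 (x i).1 ≤ L * ε) ∧ ∀ k, ‖(y k).2‖ ≤ V} ≤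
      ENNReal.ofReal δ * (M0 K V L * ENNReal.ofReal ε ^ 2) ^ Fintype.card μ := by
  set Dn : Set PhasePoint := {y : PhasePoint | (∃ i, dist y.1 (x i).1 ≤ L * ε) ∧ ‖y.2‖ ≤ V}
    with hDn
  set Sh : Set PhasePoint := {y : PhasePoint | (∃ i, ε < dist y.1 (x i).1 ∧
      dist y.1 (x i).1 ≤ ε + 2 * V * δ) ∧ ‖y.2‖ ≤ V} with hSh
  have hsub : {y : μ → PhasePoint |
        (∃ k i, ε < dist (y k).1 (x i).1 ∧ dist (y k).1 (x i).1 ≤ ε + 2 * V * δ) ∧
        (∀ k, ∃ i, dist (y k).1 (x i).1 ≤ L * ε) ∧ ∀ k, ‖(y k).2‖ ≤ V} ⊆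
      ⋃ k : μ, Set.pi univ (fun q => if q = k then Sh else Dn) := by
    rintro y ⟨⟨k, i, h1⟩, h2, h3⟩
    refine mem_iUnion.2 ⟨k, fun q _ => ?_⟩
    show y q ∈ (if q = k then Sh else Dn)
    by_cases hq : q = k
    · subst hq; rw [if_pos rfl]; exact ⟨⟨i, h1⟩, h3 _⟩
    · rw [if_neg hq]; exact ⟨h2 q, h3 q⟩
  refine (measure_mono hsub).trans ((measure_iUnion_fintype_le _ _).trans ?_)
  have hm : 1 ≤ Fintype.card μ := Fintype.card_pos
  have h1 : ∀ k : μ, volume (Set.pi univ (fun q => if q = k then Sh else Dn)) =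
      volume Sh * volume Dn ^ (Fintype.card μ - 1) := by
    intro k
    rw [volume_pi, Measure.pi_pi, ← Finset.mul_prod_erase _ _ (Finset.mem_univ k), if_pos rfl]
    congr 1
    rw [Finset.prod_congr rfl (g := fun _ => volume Dn)
      (fun q hq => by rw [if_neg (Finset.ne_of_mem_erase hq)]), Finset.prod_const,
      Finset.card_erase_of_mem (Finset.mem_univ _), Finset.card_univ]
  simp_rw [h1]
  rw [Finset.sum_const, nsmul_eq_mul, Finset.card_univ]
  have hs := vol_sh hK x hε hV hδ hh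
  have hd := vol_near hK x hε hV hL
  have he1 : ENNReal.ofReal ε ≤ 1 := by
    rw [← ENNReal.ofReal_one]; exact ENNReal.ofReal_le_ofReal hε1
  have he : ENNReal.ofReal ε ^ 3 ≤ ENNReal.ofReal ε ^ 2 := pow_le_pow_right_of_le_one' he1 (by norm_num)
  have hd' : volume Dn ≤ M0 K V L * ENNReal.ofReal ε ^ 2 := by
    refine hd.trans ?_
    refine (mul_le_mul_right he _).trans ?_
    refine mul_le_mul_left ?_ _
    unfold M0
    exact le_add_self
  have hKm : (Fintype.card μ : ℝ≥0∞) ≤ K := by exact_mod_cast hK'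
  have hs' : (Fintype.card μ : ℝ≥0∞) * volume Sh ≤
      ENNReal.ofReal δ * (M0 K V L * ENNReal.ofReal ε ^ 2) := by
    calc (Fintype.card μ : ℝ≥0∞) * volume Sh
        ≤ K * ((K : ℝ≥0∞) * 14 * kap ^ 2 * ENNReal.ofReal V ^ 4 * ENNReal.ofReal δ *
            ENNReal.ofReal ε ^ 2) := mul_le_mul' hKm hs
      _ = ENNReal.ofReal δ * ((14 * (K : ℝ≥0∞) ^ 2 * kap ^ 2 * ENNReal.ofReal V ^ 4) *
            ENNReal.ofReal ε ^ 2) := by ring
      _ ≤ ENNReal.ofReal δ * (M0 K V L * ENNReal.ofReal ε ^ 2) := by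
          refine mul_le_mul_right (mul_le_mul_left ?_ _) _
          unfold M0
          exact le_self_add
  calc (Fintype.card μ : ℝ≥0∞) * (volume Sh * volume Dn ^ (Fintype.card μ - 1))
      = ((Fintype.card μ : ℝ≥0∞) * volume Sh) * volume Dn ^ (Fintype.card μ - 1) := by ring
    _ ≤ (ENNReal.ofReal δ * (M0 K V L * ENNReal.ofReal ε ^ 2)) *
          (M0 K V L * ENNReal.ofReal ε ^ 2) ^ (Fintype.card μ - 1) :=
        mul_le_mul' hs' (pow_le_pow_left' hd' _)
    _ = _ := by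
        rw [mul_assoc, ← pow_succ']
        congr 2
        omega

/-- The base volume. -/
theorem vol_base {ρ ι : Type} [Fintype ρ] [Fintype ι] {A : Set (ρ → PhasePoint)}
    (hA : MeasurableSet A) {e : ρ → ι} (he : Function.Injective e) {K : ℕ}
    (hK : Fintype.card ι ≤ K) {ε V L : ℝ} (hε : 0 < ε) (hε1 : ε ≤ 1) (hV : 0 ≤ V) (hL : 0 ≤ L) :
    volume {z : ι → PhasePoint | Base ε A V L e z} ≤
      (MM K V L * ENNReal.ofReal ε ^ 2) ^ (Fintype.card ι - Fintype.card ρ) * volume A := by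
  obtain ⟨p, hp⟩ : ∃ p : ι → Prop, ∀ j, p j ↔ j ∈ range e := ⟨fun j => j ∈ range e, fun _ => Iff.rfl⟩
  -- the roots
  let f : ρ → {j // p j} := fun r => ⟨e r, (hp _).2 ⟨r, rfl⟩⟩
  have hf : Function.Bijective f := by
    constructor
    · intro r r' h; exact he (congrArg Subtype.val h)
    · rintro ⟨j, hj⟩
      obtain ⟨r, rfl⟩ := (hp _).1 hj
      exact ⟨r, rfl⟩
  let σ : ρ ≃ {j // p j} := Equiv.ofBijective f hf
  set X : Set ({j // p j} → PhasePoint) := {x | (fun r => x (σ r)) ∈ A} with hXdef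
  have hmeas : Measurable fun x : {j // p j} → PhasePoint => (fun r => x (σ r)) :=
    measurable_pi_lambda _ fun r => measurable_pi_apply _
  have hX : MeasurableSet X := hmeas hA
  have hvolX : volume X = volume A := by
    have hmp := volume_measurePreserving_piCongrLeft (fun _ : {j // p j} => PhasePoint) σ
    have h2 := (hmp.symm).measure_preimage hA.nullMeasurableSet
    rw [← h2]
    congr 1
  have hcard : Fintype.card {j // ¬ p j} = Fintype.card ι - Fintype.card ρ := by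
    rw [Fintype.card_subtype_compl, Fintype.card_congr σ]
  set W : Set (({j // p j} → PhasePoint) × ({j // ¬ p j} → PhasePoint)) :=
    {w | w.1 ∈ X ∧ ∀ k, (∃ r, dist (w.2 k).1 (w.1 (σ r)).1 ≤ L * ε) ∧ dist (w.2 k).2 0 ≤ V} with hWdef
  have hW : MeasurableSet W := by
    have h2 : ∀ k, MeasurableSet {w : ({j // p j} → PhasePoint) × ({j // ¬ p j} → PhasePoint) |
        (∃ r, dist (w.2 k).1 (w.1 (σ r)).1 ≤ L * ε) ∧ dist (w.2 k).2 0 ≤ V} := by
      intro k
      have hk : Measurable fun w : ({j // p j} → PhasePoint) × ({j // ¬ p j} → PhasePoint) => w.2 k :=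
        (measurable_pi_apply k).comp measurable_snd
      have hex : MeasurableSet {w : ({j // p j} → PhasePoint) × ({j // ¬ p j} → PhasePoint) |
          ∃ r, dist (w.2 k).1 (w.1 (σ r)).1 ≤ L * ε} := by
        have : {w : ({j // p j} → PhasePoint) × ({j // ¬ p j} → PhasePoint) |
          ∃ r, dist (w.2 k).1 (w.1 (σ r)).1 ≤ L * ε} = ⋃ r,
          {w | dist (w.2 k).1 (w.1 (σ r)).1 ≤ L * ε} := by ext w; simp
        rw [this]
        exact MeasurableSet.iUnion fun r => measurableSet_le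
          (hk.fst.dist ((measurable_pi_apply (σ r)).comp measurable_fst).fst) measurable_const
      exact hex.inter (measurableSet_le (hk.snd.dist measurable_const) measurable_const)
    have : W = {w | w.1 ∈ X} ∩ ⋂ k, {w | (∃ r, dist (w.2 k).1 (w.1 (σ r)).1 ≤ L * ε) ∧
        dist (w.2 k).2 0 ≤ V} := by
      ext w; simp only [hWdef, mem_inter_iff, mem_iInter]; rfl
    rw [this]; exact (measurable_fst hX).inter (MeasurableSet.iInter h2)
  have hsub : {z : ι → PhasePoint | Base ε A V L e z} ⊆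
      {z : ι → PhasePoint | (res p z, res (fun i => ¬ p i) z) ∈ W} := by
    rintro z ⟨h1, h2, h3⟩
    refine ⟨h1, fun k => ⟨?_, ?_⟩⟩
    · obtain ⟨r, hr⟩ := h2 k
      exact ⟨r, hr⟩
    · rw [dist_zero_right]; exact h3 k
  refine (measure_mono hsub).trans ?_
  have hρK : Fintype.card {j // p j} ≤ K := (Fintype.card_subtype_le _).trans hK
  refine (fub1 p hX hW (fun w hw => hw.1)
    (M := (MM K V L * ENNReal.ofReal ε ^ 2) ^ (Fintype.card ι - Fintype.card ρ)) ?_).trans ?_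
  · intro x hx
    have : {y : {j // ¬ p j} → PhasePoint | (x, y) ∈ W} ⊆ Set.pi univ fun _ =>
        {y : PhasePoint | (∃ i, dist y.1 (x i).1 ≤ L * ε) ∧ ‖y.2‖ ≤ V} := by
      intro y hy j _
      obtain ⟨⟨r, hr⟩, h2⟩ := hy.2 j
      exact ⟨⟨σ r, hr⟩, by rwa [dist_zero_right] at h2⟩
    refine (measure_mono this).trans ?_
    rw [volume_pi, Measure.pi_pi, Finset.prod_const, Finset.card_univ, hcard]
    refine pow_le_pow_left' ?_ _
    refine (vol_near hρK x hε hV hL).trans ?_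
    have he1 : ENNReal.ofReal ε ≤ 1 := by
      rw [← ENNReal.ofReal_one]; exact ENNReal.ofReal_le_ofReal hε1
    have he' : ENNReal.ofReal ε ^ 3 ≤ ENNReal.ofReal ε ^ 2 :=
      pow_le_pow_right_of_le_one' he1 (by norm_num)
    refine mul_le_mul' ?_ he'
    unfold MM M0
    refine le_trans le_add_self (le_mul_of_one_le_left' (one_le_pow₀ (by norm_num)))
  · rw [hvolX, mul_comm]

theorem measurableSet_W {κ μ : Type} [Fintype κ] [Fintype μ] (ε V L δ : ℝ) :
    MeasurableSet {w : (κ → PhasePoint) × (μ → PhasePoint) |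
        (∃ k i, ε < dist (w.2 k).1 (w.1 i).1 ∧ dist (w.2 k).1 (w.1 i).1 ≤ ε + 2 * V * δ) ∧
        (∀ k, ∃ i, dist (w.2 k).1 (w.1 i).1 ≤ L * ε) ∧ ∀ k, ‖(w.2 k).2‖ ≤ V} := by
  have hk : ∀ k : μ, Measurable fun w : (κ → PhasePoint) × (μ → PhasePoint) => w.2 k := fun k =>
    (measurable_pi_apply k).comp measurable_snd
  have hi : ∀ i : κ, Measurable fun w : (κ → PhasePoint) × (μ → PhasePoint) => w.1 i := fun k =>
    (measurable_pi_apply k).comp measurable_fst
  have hd : ∀ (k : μ) (i : κ), Measurable fun w : (κ → PhasePoint) × (μ → PhasePoint) =>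
      dist (w.2 k).1 (w.1 i).1 := fun k i => (hk k).fst.dist (hi i).fst
  have e : {w : (κ → PhasePoint) × (μ → PhasePoint) |
        (∃ k i, ε < dist (w.2 k).1 (w.1 i).1 ∧ dist (w.2 k).1 (w.1 i).1 ≤ ε + 2 * V * δ) ∧
        (∀ k, ∃ i, dist (w.2 k).1 (w.1 i).1 ≤ L * ε) ∧ ∀ k, ‖(w.2 k).2‖ ≤ V} =
      (⋃ k, ⋃ i, {w | ε < dist (w.2 k).1 (w.1 i).1 ∧ dist (w.2 k).1 (w.1 i).1 ≤ ε + 2 * V * δ}) ∩
      ((⋂ k, ⋃ i, {w | dist (w.2 k).1 (w.1 i).1 ≤ L * ε}) ∩ ⋂ k, {w | ‖(w.2 k).2‖ ≤ V}) := by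
    ext w
    simp only [mem_ofPred_eq, mem_inter_iff, mem_iUnion, mem_iInter]
  rw [e]
  refine (MeasurableSet.iUnion fun k => MeasurableSet.iUnion fun i => ?_).inter
    ((MeasurableSet.iInter fun k => MeasurableSet.iUnion fun i => ?_).inter
      (MeasurableSet.iInter fun k => ?_))
  · exact (measurableSet_lt measurable_const (hd k i)).inter
      (measurableSet_le (hd k i) measurable_const)
  · exact measurableSet_le (hd k i) measurable_const
  · exact measurableSet_le (hk k).snd.norm measurable_const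

/-- One deletion. -/
theorem vol_delete {ι : Type} [Fintype ι] {K : ℕ} (hK : Fintype.card ι ≤ K) (p : ι → Prop)
    (X : Set ({i // p i} → PhasePoint)) {ε V L δ : ℝ} (hε : 0 < ε) (hε1 : ε ≤ 1) (hV : 0 ≤ V)
    (hL : 0 ≤ L) (hδ : 0 ≤ δ) (hh : 2 * V * δ ≤ ε) :
    volume {z : ι → PhasePoint | Shell ε V L δ p z ∧ res p z ∈ X} ≤
      ENNReal.ofReal δ * (M0 K V L * ENNReal.ofReal ε ^ 2) ^ Fintype.card {i // ¬ p i} * volume X := by
  by_cases hne : ∃ k, ¬ p k
  swap
  · have : {z : ι → PhasePoint | Shell ε V L δ p z ∧ res p z ∈ X} = ∅ := by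
      ext z; constructor
      · rintro ⟨⟨⟨k, i, hk, -⟩, -⟩, -⟩; exact absurd ⟨k, hk⟩ hne
      · intro h; exact absurd h (notMem_empty _)
    rw [this]; simp
  obtain ⟨k₀, hk₀⟩ := hne
  have : Nonempty {i // ¬ p i} := ⟨⟨k₀, hk₀⟩⟩
  set X' := toMeasurable volume X with hX'
  have hX'm : MeasurableSet X' := measurableSet_toMeasurable _ _
  set W : Set (({j // p j} → PhasePoint) × ({j // ¬ p j} → PhasePoint)) :=
    {w | w.1 ∈ X'} ∩ {w | (∃ k i, ε < dist (w.2 k).1 (w.1 i).1 ∧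
        dist (w.2 k).1 (w.1 i).1 ≤ ε + 2 * V * δ) ∧
        (∀ k, ∃ i, dist (w.2 k).1 (w.1 i).1 ≤ L * ε) ∧ ∀ k, ‖(w.2 k).2‖ ≤ V} with hWdef
  have hW : MeasurableSet W := (measurable_fst hX'm).inter (measurableSet_W ε V L δ)
  have hsub : {z : ι → PhasePoint | Shell ε V L δ p z ∧ res p z ∈ X} ⊆
      {z : ι → PhasePoint | (res p z, res (fun i => ¬ p i) z) ∈ W} := by
    rintro z ⟨⟨⟨k, i, hk, hi, h1, h2⟩, h3, h4⟩, h5⟩
    refine ⟨subset_toMeasurable _ _ h5, ⟨⟨k, hk⟩, ⟨i, hi⟩, h1, h2⟩, fun k => ?_, fun k => h4 k k.2⟩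
    obtain ⟨i, hi, hd⟩ := h3 k k.2
    exact ⟨⟨i, hi⟩, hd⟩
  refine (measure_mono hsub).trans ?_
  refine (fub1 p hX'm hW (fun w hw => hw.1)
    (M := ENNReal.ofReal δ * (M0 K V L * ENNReal.ofReal ε ^ 2) ^ Fintype.card {i // ¬ p i})
    ?_).trans ?_
  · intro x hx
    have : {y : {j // ¬ p j} → PhasePoint | (x, y) ∈ W} ⊆ {y : {j // ¬ p j} → PhasePoint |
        (∃ k i, ε < dist (y k).1 (x i).1 ∧ dist (y k).1 (x i).1 ≤ ε + 2 * V * δ) ∧
        (∀ k, ∃ i, dist (y k).1 (x i).1 ≤ L * ε) ∧ ∀ k, ‖(y k).2‖ ≤ V} := fun y hy => hy.2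
    refine (measure_mono this).trans ?_
    exact vol_fib ((Fintype.card_subtype_le _).trans hK) ((Fintype.card_subtype_le _).trans hK) x
      hε hε1 hV hL hδ hh
  · rw [hX', measure_toMeasurable, mul_comm]

/-- **Volume of tapered histories** on a grid. -/
theorem vol_Tap {ε B : ℝ} (S : Bodies ε B) {ρ : Type} [Fintype ρ] {A : Set (ρ → PhasePoint)}
    (hA : MeasurableSet A) {K : ℕ} {V L δ : ℝ} (hε1 : ε ≤ 1) (hV : 0 ≤ V) (hL : 0 ≤ L) (hδ : 0 ≤ δ)
    (hh : 2 * V * δ ≤ ε) (n : ℕ) : ∀ (ι : Type) [Fintype ι] (e : ρ → ι), Function.Injective e →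
    Fintype.card ι ≤ K →
    volume {z : ι → PhasePoint | Tap S A V L δ n ι e z} ≤
      (MM K V L * ENNReal.ofReal ε ^ 2) ^ (Fintype.card ι - Fintype.card ρ) *
        (1 + ENNReal.ofReal δ) ^ n * volume A := by
  have hε := S.eps_pos
  induction n with
  | zero =>
    intro ι _ e he hK
    rw [pow_zero, mul_one]
    exact vol_base hA he hK hε hε1 hV hL
  | succ n ih =>
    intro ι _ e he hK
    set g := Fintype.card ι - Fintype.card ρ with hg
    set Q : ℝ≥0∞ := MM K V L * ENNReal.ofReal ε ^ 2 with hQ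
    set Y : Set (ι → PhasePoint) := {z | Tap S A V L δ n ι e z} with hY
    set D : (Set ι) → Set (ι → PhasePoint) := fun p =>
      {z | ∃ h : ∀ r, e r ∈ p, Shell ε V L δ (fun i => i ∈ p) z ∧
        Tap S A V L δ n {i // i ∈ p} (fun r => ⟨e r, h r⟩) (res (fun i => i ∈ p) z)} with hD
    have hsub : {z : ι → PhasePoint | Tap S A V L δ (n + 1) ι e z} ⊆
        S.flow ι δ ⁻¹' (Y ∪ ⋃ p, D p) := by
      intro z hz
      rcases hz with hz | ⟨p, h, h1, h2⟩
      · exact Or.inl hz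
      · exact Or.inr (mem_iUnion.2 ⟨{i | p i}, h, h1, h2⟩)
    refine (measure_mono hsub).trans ((measure_preimage_le' (S.flow_mp ι δ) _).trans ?_)
    refine (measure_union_le _ _).trans ?_
    have hDb : ∀ p : Set ι, volume (D p) ≤
        (2 ^ K)⁻¹ * (ENNReal.ofReal δ * (Q ^ g * (1 + ENNReal.ofReal δ) ^ n * volume A)) := by
      intro p
      by_cases hp : ∀ r, e r ∈ p
      swap
      · have : D p = ∅ := by
          ext z; constructor
          · rintro ⟨h, -⟩; exact absurd h hp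
          · intro h; exact absurd h (notMem_empty _)
        rw [this]; simp
      by_cases hne : ∃ k, k ∉ p
      swap
      · have : D p = ∅ := by
          ext z; constructor
          · rintro ⟨h, ⟨⟨k, i, hk, -⟩, -⟩, -⟩; exact absurd ⟨k, hk⟩ hne
          · intro h; exact absurd h (notMem_empty _)
        rw [this]; simp
      -- opaque predicate
      have key : ∀ q : ι → Prop, (∀ r, q (e r)) → (∃ k, ¬ q k) →
          volume {z : ι → PhasePoint | ∃ h : ∀ r, q (e r), Shell ε V L δ q z ∧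
            Tap S A V L δ n {i // q i} (fun r => ⟨e r, h r⟩) (res q z)} ≤
          (2 ^ K)⁻¹ * (ENNReal.ofReal δ * (Q ^ g * (1 + ENNReal.ofReal δ) ^ n * volume A)) := by
        intro q hq hneq
        set X : Set ({i // q i} → PhasePoint) :=
          {x | Tap S A V L δ n {i // q i} (fun r => ⟨e r, hq r⟩) x} with hX
        have h1 : {z : ι → PhasePoint | ∃ h : ∀ r, q (e r), Shell ε V L δ q z ∧
            Tap S A V L δ n {i // q i} (fun r => ⟨e r, h r⟩) (res q z)} ⊆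
            {z : ι → PhasePoint | Shell ε V L δ q z ∧ res q z ∈ X} := by
          rintro z ⟨h, h2, h3⟩; exact ⟨h2, h3⟩
        refine (measure_mono h1).trans ((vol_delete hK q X hε hε1 hV hL hδ hh).trans ?_)
        have hinj : Function.Injective (fun r => (⟨e r, hq r⟩ : {i // q i})) := fun r r' h =>
          he (congrArg Subtype.val h)
        have hcK : Fintype.card {i // q i} ≤ K := (Fintype.card_subtype_le _).trans hK
        have h2 := ih {i // q i} (fun r => ⟨e r, hq r⟩) hinj hcK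
        refine (mul_le_mul_right h2 _).trans ?_
        set c := Fintype.card {i // q i} with hc
        set m := Fintype.card {i // ¬ q i} with hm
        have hcm : c + m = Fintype.card ι := by
          rw [hm, Fintype.card_subtype_compl]
          have := Fintype.card_subtype_le q
          omega
        have hrc : Fintype.card ρ ≤ c := Fintype.card_le_of_injective _ hinj
        have hm1 : 1 ≤ m := by
          obtain ⟨k, hk⟩ := hneq
          exact Fintype.card_pos_iff.2 ⟨⟨k, hk⟩⟩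
        have hg' : g = m + (c - Fintype.card ρ) := by omega
        have hpow : (M0 K V L * ENNReal.ofReal ε ^ 2) ^ m ≤ (2 ^ K)⁻¹ * Q ^ m := by
          have e1 : Q = 2 ^ K * (M0 K V L * ENNReal.ofReal ε ^ 2) := by
            rw [hQ]; unfold MM; ring
          obtain ⟨m', hm'⟩ : ∃ m', m = m' + 1 := ⟨m - 1, by omega⟩
          rw [e1, hm']
          have h2K : (2 ^ K : ℝ≥0∞)⁻¹ * (2 ^ K) = 1 :=
            ENNReal.inv_mul_cancel (by positivity) (by simp)
          calc (M0 K V L * ENNReal.ofReal ε ^ 2) ^ (m' + 1)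
              = ((2 ^ K : ℝ≥0∞)⁻¹ * (2 ^ K)) * (M0 K V L * ENNReal.ofReal ε ^ 2) ^ (m' + 1) := by
                rw [h2K, one_mul]
            _ ≤ ((2 ^ K : ℝ≥0∞)⁻¹ * (2 ^ K)) * (M0 K V L * ENNReal.ofReal ε ^ 2) ^ (m' + 1) *
                  (2 ^ K) ^ m' := le_mul_of_one_le_right' (one_le_pow₀ (one_le_pow₀ (by norm_num)))
            _ = _ := by ring
        calc ENNReal.ofReal δ * (M0 K V L * ENNReal.ofReal ε ^ 2) ^ m *
              (Q ^ (c - Fintype.card ρ) * (1 + ENNReal.ofReal δ) ^ n * volume A)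
            ≤ ENNReal.ofReal δ * ((2 ^ K)⁻¹ * Q ^ m) *
              (Q ^ (c - Fintype.card ρ) * (1 + ENNReal.ofReal δ) ^ n * volume A) := by gcongr
          _ = (2 ^ K)⁻¹ * (ENNReal.ofReal δ * ((Q ^ m * Q ^ (c - Fintype.card ρ)) *
                (1 + ENNReal.ofReal δ) ^ n * volume A)) := by ring
          _ = _ := by rw [← pow_add, ← hg']
      exact key (fun i => i ∈ p) hp hne
    have hYb : volume Y ≤ Q ^ g * (1 + ENNReal.ofReal δ) ^ n * volume A := ih ι e he hK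
    have hUb : volume (⋃ p, D p) ≤
        ENNReal.ofReal δ * (Q ^ g * (1 + ENNReal.ofReal δ) ^ n * volume A) := by
      refine (measure_iUnion_fintype_le _ _).trans ((Finset.sum_le_card_nsmul _ _ _
        (fun p _ => hDb p)).trans ?_)
      rw [nsmul_eq_mul, Finset.card_univ, ← mul_assoc]
      have h1 : (Fintype.card (Set ι) : ℝ≥0∞) * (2 ^ K)⁻¹ ≤ 1 := by
        rw [Fintype.card_set]
        have : ((2 ^ Fintype.card ι : ℕ) : ℝ≥0∞) ≤ 2 ^ K := by
          push_cast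
          exact pow_le_pow_right₀ (by norm_num) hK
        refine (mul_le_mul_left this _).trans (le_of_eq ?_)
        exact ENNReal.mul_inv_cancel (by positivity) (by simp)
      calc (Fintype.card (Set ι) : ℝ≥0∞) * (2 ^ K)⁻¹ * (ENNReal.ofReal δ *
            (Q ^ g * (1 + ENNReal.ofReal δ) ^ n * volume A))
          ≤ 1 * (ENNReal.ofReal δ * (Q ^ g * (1 + ENNReal.ofReal δ) ^ n * volume A)) := by gcongr
        _ = _ := one_mul _
    calc volume Y + volume (⋃ p, D p)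
        ≤ Q ^ g * (1 + ENNReal.ofReal δ) ^ n * volume A +
          ENNReal.ofReal δ * (Q ^ g * (1 + ENNReal.ofReal δ) ^ n * volume A) := add_le_add hYb hUb
      _ = _ := by ring

/-- **Volume of tapered histories**, limit of fine grids. -/
theorem vol_taper {ε B : ℝ} (S : Bodies ε B) {ρ : Type} [Fintype ρ] {A : Set (ρ → PhasePoint)}
    (hA : MeasurableSet A) {K : ℕ} {V L t : ℝ} (hε1 : ε ≤ 1) (hV : 0 ≤ V) (hL : 0 ≤ L) (ht : 0 ≤ t)
    {ι : Type} [Fintype ι] {e : ρ → ι} (he : Function.Injective e) (hK : Fintype.card ι ≤ K) :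
    volume {z : ι → PhasePoint | ∀ᶠ N : ℕ in Filter.atTop, Tap S A V L (t / N) N ι e z} ≤
      (MM K V L * ENNReal.ofReal ε ^ 2) ^ (Fintype.card ι - Fintype.card ρ) *
        ENNReal.ofReal (Real.exp t) * volume A := by
  have hε := S.eps_pos
  obtain ⟨N₀, hN₀⟩ : ∃ N₀ : ℕ, ∀ N : ℕ, N₀ ≤ N → 2 * V * (t / N) ≤ ε := by
    have h1 : Filter.Tendsto (fun N : ℕ => 2 * V * (t / N)) Filter.atTop (nhds (2 * V * 0)) :=
      (tendsto_const_div_atTop_nhds_zero_nat t).const_mul _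
    rw [mul_zero] at h1
    have h2 := h1.eventually (Iio_mem_nhds hε)
    obtain ⟨N₀, h⟩ := Filter.eventually_atTop.1 h2
    exact ⟨N₀, fun N hN => (h N hN).le⟩
  have hb : ∀ N : ℕ, N₀ ≤ N → volume {z : ι → PhasePoint | Tap S A V L (t / N) N ι e z} ≤
      (MM K V L * ENNReal.ofReal ε ^ 2) ^ (Fintype.card ι - Fintype.card ρ) *
        ENNReal.ofReal (Real.exp t) * volume A := by
    intro N hN
    refine (vol_Tap S hA hε1 hV hL (by positivity) (hN₀ N hN) N ι e he hK).trans ?_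
    refine mul_le_mul_left (mul_le_mul_right ?_ _) _
    have h1 : (1 : ℝ≥0∞) + ENNReal.ofReal (t / N) = ENNReal.ofReal (1 + t / N) := by
      rw [ENNReal.ofReal_add zero_le_one (by positivity), ENNReal.ofReal_one]
    rw [h1, ← ENNReal.ofReal_pow (by positivity)]
    refine ENNReal.ofReal_le_ofReal ?_
    rcases Nat.eq_zero_or_pos N with h0 | h0
    · subst h0; simpa using Real.one_le_exp ht
    have h2 : 1 + t / N ≤ Real.exp (t / N) := by
      have := Real.add_one_le_exp (t / N); linarith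
    calc (1 + t / N) ^ N ≤ Real.exp (t / N) ^ N :=
          pow_le_pow_left₀ (by positivity) h2 N
      _ = Real.exp t := by
          rw [← Real.exp_nat_mul]
          congr 1
          have : (N : ℝ) ≠ 0 := by positivity
          field_simp
  have hsub : {z : ι → PhasePoint | ∀ᶠ N : ℕ in Filter.atTop, Tap S A V L (t / N) N ι e z} =
      ⋃ M : ℕ, {z : ι → PhasePoint | ∀ N : ℕ, M ≤ N → Tap S A V L (t / N) N ι e z} := by
    ext z
    simp only [mem_ofPred_eq, mem_iUnion, Filter.eventually_atTop]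
  have hmono : Monotone fun M : ℕ => {z : ι → PhasePoint | ∀ N : ℕ, M ≤ N →
      Tap S A V L (t / N) N ι e z} := fun M M' h z hz N hN => hz N (h.trans hN)
  rw [hsub, hmono.measure_iUnion]
  refine iSup_le fun M => (measure_mono ?_).trans (hb (max M N₀) (le_max_right _ _))
  intro z hz
  exact hz _ (le_max_left _ _)

end Crest.Agent.R122.Vol365
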