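import Crest.Agent.R122.VolPin_365
import Crest.Agent.R122.VolGas_365

/-!
Row 122, helper365: terminal groups of D5: connected groups at one time (`near_majorant`), at some
time of `[0, T]` (`conn_majorant`), two particles in contact at the horizon, and a single particle.
-/

set_option autoImplicit false

open MeasureTheory Set Filter
open Crest.AnalysisR.Kinetic
open Crest.Agent.R122.Flow671 Crest.Agent.R122.Loc45 Crest.Agent.R122.Chain726
open scoped ENNReal Classical Topology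

noncomputable section

namespace Crest.Agent.R122.Vol365

variable {Φ : Space3 → ℝ} {ε : ℝ}

/-- velocity scale of a configuration -/
def spV (Φ : Space3 → ℝ) (ε : ℝ) (K : ℕ) {κ : Type} [Fintype κ] (W : κ → PhasePoint) : ℝ :=
  1 + 2 * (energy Φ ε W + stabB Φ * K)

/-- At time `τ` everybody is connected with `i` by steps `≤ (1 + 2 V) ε`. -/
def NearAt (Φ : Space3 → ℝ) (ε : ℝ) (K : ℕ) {κ : Type} [Fintype κ] (τ : ℝ) (i : κ)
    (W : κ → PhasePoint) : Prop :=
  ∀ k, Relation.ReflTransGen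
    (fun a b => dst (flow Φ ε τ W) a b ≤ (1 + 2 * spV Φ ε K W) * ε) i k

/-- Gaussian mass of one velocity. -/
def gv (γ : ℝ) : ℝ≥0∞ := ∫⁻ v : Space3, ENNReal.ofReal (Real.exp (-(γ / 2 * ‖v‖ ^ 2)))

theorem gv_ne_top {γ : ℝ} (hγ : 0 < γ) : gv γ ≠ ∞ := by
  have h := GaussianFourier.integrable_cexp_neg_mul_sq_norm_add (V := Space3) (b := (γ / 2 : ℝ))
    (by simpa using half_pos hγ) 0 0
  have h2 : Integrable (fun v : Space3 => Real.exp (-(γ / 2 * ‖v‖ ^ 2))) := by
    have h3 := h.norm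
    refine h3.congr (Eventually.of_forall fun v => ?_)
    simp only [Complex.norm_exp]
    congr 1
    simp [← Complex.ofReal_pow]
  have h4 := h2.lintegral_lt_top
  exact h4.ne

theorem lintegral_single {γ : ℝ} {κ : Type} [inst : Fintype κ] [Unique κ] (h : Space3 → ℝ≥0∞)
    (hh : Measurable h) :
    eint Φ ε γ (fun W : κ → PhasePoint => h (W default).1) = gv γ * ∫⁻ x, h x := by
  have hinst : inst = Unique.fintype := Subsingleton.elim _ _
  subst hinst
  have hmp := volume_preserving_funUnique κ PhasePoint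
  have he : ∀ W : κ → PhasePoint, energy Φ ε W = 1 / 2 * ‖(W default).2‖ ^ 2 := by
    intro W
    unfold energy
    simp
  have e1 : ∀ y : κ → PhasePoint, ENNReal.ofReal (Real.exp (-(γ * energy Φ ε y))) *
      h (y default).1 = (fun z : PhasePoint => ENNReal.ofReal (Real.exp (-(γ / 2 * ‖z.2‖ ^ 2))) *
        h z.1) (MeasurableEquiv.funUnique κ PhasePoint y) := by
    intro y
    have e2 : MeasurableEquiv.funUnique κ PhasePoint y = y default := rfl
    simp only [e2, he]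
    congr 3
    ring
  unfold eint
  simp_rw [e1]
  have hm : Measurable fun v : Space3 => ENNReal.ofReal (Real.exp (-(γ / 2 * ‖v‖ ^ 2))) := by
    fun_prop
  have e3 := hmp.lintegral_comp (f := fun z : PhasePoint =>
    ENNReal.ofReal (Real.exp (-(γ / 2 * ‖z.2‖ ^ 2))) * h z.1)
    ((hm.comp measurable_snd).mul (hh.comp measurable_fst))
  have hgm : Measurable fun z : Space3 × Space3 =>
      ENNReal.ofReal (Real.exp (-(γ / 2 * ‖z.2‖ ^ 2))) * h z.1 :=
    (hm.comp measurable_snd).mul (hh.comp measurable_fst)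
  have e5 : ∫⁻ z : Space3 × Space3, ENNReal.ofReal (Real.exp (-(γ / 2 * ‖z.2‖ ^ 2))) * h z.1 =
      ∫⁻ x : Space3, ∫⁻ v : Space3, ENNReal.ofReal (Real.exp (-(γ / 2 * ‖v‖ ^ 2))) * h x :=
    lintegral_prod (μ := (volume : Measure Space3)) (ν := (volume : Measure Space3)) _
      hgm.aemeasurable
  have e4 : ∀ x : Space3, ∫⁻ v : Space3, ENNReal.ofReal (Real.exp (-(γ / 2 * ‖v‖ ^ 2))) * h x =
      gv γ * h x := fun x => lintegral_mul_const _ hm
  refine e3.trans (e5.trans ?_)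
  simp only [e4]
  exact lintegral_const_mul _ hh

/-- constant of the static bound -/
def C6 (K : ℕ) : ℝ≥0∞ := 1 + ENNReal.ofReal (3 * K) ^ 3 * kap * kap

theorem C6_ne_top (K : ℕ) : C6 K ≠ ∞ :=
  ENNReal.add_ne_top.2 ⟨ENNReal.one_ne_top, ENNReal.mul_ne_top (ENNReal.mul_ne_top
    (ENNReal.pow_ne_top ENNReal.ofReal_ne_top) kap_ne_top) kap_ne_top⟩

/-- **Static part**: near-connected at a fixed time. -/
theorem near_majorant (hΦ : AdmissiblePotential Φ) {γ : ℝ} (hγ : 0 < γ) (K : ℕ) :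
    ∃ C : ℝ≥0∞, C ≠ ∞ ∧ ∀ ε : ℝ, 0 < ε → ∀ (κ : Type) [Fintype κ], Fintype.card κ ≤ K →
    ∀ (i : κ) (τ : ℝ), PinMaj Φ ε γ (fun W : κ → PhasePoint => NearAt Φ ε K τ i W)
      (C * ENNReal.ofReal ε ^ (3 * (Fintype.card κ - 1))) := by
  have hB := stabB_nonneg Φ
  obtain ⟨C, hC, h⟩ := weighted_majorant hΦ (half_pos hγ) (half_lt_self hγ) K (D := C6 K ^ K)
    (ENNReal.pow_ne_top (C6_ne_top K)) (6 * K)
  refine ⟨C * gv (γ / 2), ENNReal.mul_ne_top hC (gv_ne_top (half_pos hγ)), ?_⟩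
  intro ε hε κ _ hK i τ f hf
  have hK1 : 1 ≤ Fintype.card κ := Fintype.card_pos_iff.2 ⟨i⟩
  have hK' : (Fintype.card κ : ℝ) ≤ K := by exact_mod_cast hK
  have hKr : (1 : ℝ) ≤ K := le_trans (by exact_mod_cast hK1) hK'
  have hBK : stabB Φ * Fintype.card κ ≤ stabB Φ * K := mul_le_mul_of_nonneg_left hK' hB
  obtain ⟨M, hM, h1, h2⟩ := h ε hε κ Unit hK
    (fun W z => W ∈ Dom Φ κ ∧ NearAt Φ ε K τ i W ∧ z = fun _ => flow Φ ε τ W i)
    (ENNReal.ofReal ε ^ (3 * (Fintype.card κ - 1)))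
    (by
      rintro W z ⟨hW, -, rfl⟩
      refine ⟨hW, ?_⟩
      rw [energy_unit]
      have h3 := norm_sq_le_two_kin (flow Φ ε τ W) i
      have h4 := kin_le hΦ hε (flow_mem hΦ hε hW τ)
      rw [energy_flow hΦ hε] at h4
      have h5 : stabB Φ * K ≤ stabB Φ * K * K := by nlinarith [mul_nonneg hB (by linarith : (0:ℝ) ≤ K)]
      linarith)
    (by
      intro n Y hY
      set V : ℝ := (1 + 2 * n + 2 * (2 * stabB Φ) * K * K) * 1 with hV
      have hn : (0 : ℝ) ≤ n := by positivity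
      have hV1 : 1 ≤ V := by
        rw [hV]
        have : 0 ≤ 2 * (2 * stabB Φ) * K * K := by positivity
        linarith
      have hV2 : 1 + 2 * (n : ℝ) ≤ V := by
        rw [hV]
        have : 0 ≤ 2 * (2 * stabB Φ) * K * K := by positivity
        linarith
      set A : Set PhasePoint := (fun y : PhasePoint => (fun _ : Unit => y)) ⁻¹' Y with hA
      have hAm : MeasurableSet A := (measurable_pi_lambda _ fun _ => measurable_id) hY
      have hvA : volume A = volume Y := by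
        have hmp := volume_preserving_funUnique Unit PhasePoint
        have h3 := hmp.measure_preimage (s := A) hAm.nullMeasurableSet
        rw [← h3]
        congr 1
      have hsub : {W : κ → PhasePoint | energy Φ ε W + stabB Φ * K ≤ n ∧ ∃ W' ∈ Y,
          W ∈ Dom Φ κ ∧ NearAt Φ ε K τ i W ∧ W' = fun _ => flow Φ ε τ W i} ⊆
          (newton hΦ hε).flow κ τ ⁻¹' {z : κ → PhasePoint | z i ∈ A ∧
            ∀ j, z j ∈ cell (z i).1 (3 * K * (V * ε)) V} := by
        rintro W ⟨h3, W', hW', hW, hN, rfl⟩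
        show (newton hΦ hε).flow κ τ W ∈ {z : κ → PhasePoint | z i ∈ A ∧
            ∀ j, z j ∈ cell (z i).1 (3 * K * (V * ε)) V}
        rw [newton_flow]
        refine ⟨hW', fun j => ⟨?_, ?_⟩⟩
        · have h4 : spV Φ ε K W ≤ V := by unfold spV; linarith
          have h5 := dist_le_of_rtg (x := fun a => (flow Φ ε τ W a).1)
            (ε := 3 * (V * ε)) (by positivity) (i := i) (j := j) (by
              refine Relation.ReflTransGen.mono (r := fun a b =>
                dst (flow Φ ε τ W) a b ≤ (1 + 2 * spV Φ ε K W) * ε) ?_ _ _ (hN j)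
              intro a b hab
              refine hab.trans ?_
              have : 1 + 2 * spV Φ ε K W ≤ 3 * V := by linarith
              calc (1 + 2 * spV Φ ε K W) * ε ≤ (3 * V) * ε := by gcongr
                _ = _ := by ring)
          rw [Metric.mem_closedBall, dist_comm]
          refine h5.trans ?_
          calc (Fintype.card κ : ℝ) * (3 * (V * ε)) ≤ K * (3 * (V * ε)) := by gcongr
            _ = _ := by ring
        · rw [mem_closedBall_zero_iff]
          have h6 := norm_sq_le_two_kin (flow Φ ε τ W) j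
          have h4 := kin_le hΦ hε (flow_mem hΦ hε hW τ)
          rw [energy_flow hΦ hε] at h4
          refine (sq_le_sq₀ (norm_nonneg _) (by linarith)).1 ?_
          nlinarith
      have hmp := (newton hΦ hε).flow_mp κ τ
      refine (measure_mono hsub).trans ((measure_preimage_le' hmp _).trans ?_)
      refine (static_bound i hAm (r := 3 * K * (V * ε)) (V := V) (by positivity)
        (by linarith)).trans ?_
      rw [hvA, mul_comm]
      refine mul_le_mul_left ?_ _
      have e1 : (ENNReal.ofReal (3 * K * (V * ε)) ^ 3 * kap) * (ENNReal.ofReal V ^ 3 * kap) =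
          ENNReal.ofReal ε ^ 3 * ((ENNReal.ofReal (3 * K) ^ 3 * kap * kap) *
            ENNReal.ofReal V ^ 6) := by
        have e2 : ENNReal.ofReal (3 * K * (V * ε)) =
            ENNReal.ofReal (3 * K) * (ENNReal.ofReal V * ENNReal.ofReal ε) := by
          rw [ENNReal.ofReal_mul (by positivity), ENNReal.ofReal_mul (p := V) (by linarith)]
        rw [e2]
        ring
      rw [e1, mul_pow, ← pow_mul]
      refine mul_le_mul_right ?_ _
      have hX : (1 : ℝ≥0∞) ≤ C6 K * ENNReal.ofReal V ^ 6 := by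
        refine one_le_mul (by unfold C6; exact le_self_add) (one_le_pow₀ ?_)
        rw [← ENNReal.ofReal_one]; exact ENNReal.ofReal_le_ofReal hV1
      calc ((ENNReal.ofReal (3 * K) ^ 3 * kap * kap) * ENNReal.ofReal V ^ 6) ^
            (Fintype.card κ - 1)
          ≤ (C6 K * ENNReal.ofReal V ^ 6) ^ (Fintype.card κ - 1) := by
            gcongr
            unfold C6; exact le_add_self
        _ ≤ (C6 K * ENNReal.ofReal V ^ 6) ^ K := pow_le_pow_right₀ hX (by omega)
        _ = _ := by rw [mul_pow, ← pow_mul])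
    (fun z => f (z ()).1) (hf.comp (measurable_pi_apply ()).fst)
  refine ⟨M, hM, ?_, ?_⟩
  · intro W hW hN
    refine ⟨(flow Φ ε τ W i).1, fun a => ?_⟩
    have h3 := h1 (shiftX a W) (fun _ => flow Φ ε τ (shiftX a W) i) ⟨(Dom_shiftX a).2 hW, ?_, rfl⟩
    · rw [flow_shiftX hΦ hε] at h3
      exact h3
    · intro k
      have h4 : energy Φ ε (shiftX a W) = energy Φ ε W := by
        unfold energy shiftX
        simp
      unfold spV
      simp only [dst_flow_shiftX hΦ hε, h4]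
      exact hN k
  · refine (show eint Φ ε γ M ≤ _ from h2).trans ?_
    have h5 : eint Φ ε (γ / 2) (fun z : Unit → PhasePoint => f (z ()).1) =
      gv (γ / 2) * ∫⁻ x, f x := lintegral_single f hf
    have h6 : ∫⁻ W' : Unit → PhasePoint, ENNReal.ofReal (Real.exp (-(γ / 2 * energy Φ ε W'))) *
        f (W' ()).1 = gv (γ / 2) * ∫⁻ x, f x := h5
    rw [h6]
    exact le_of_eq (by ring)

theorem spV_ge (hΦ : AdmissiblePotential Φ) (hε : 0 < ε) {K : ℕ} {κ : Type} [Fintype κ]
    (hK : Fintype.card κ ≤ K) {W : κ → PhasePoint} (hW : W ∈ Dom Φ κ) :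
    1 ≤ spV Φ ε K W ∧ 2 * (energy Φ ε W + stabB Φ * Fintype.card κ) ≤ spV Φ ε K W ^ 2 := by
  have hB := stabB_nonneg Φ
  have h1 := kin_le hΦ hε hW
  have h2 := kin_nonneg W
  have hK' : (Fintype.card κ : ℝ) ≤ K := by exact_mod_cast hK
  have hBK : stabB Φ * Fintype.card κ ≤ stabB Φ * K := mul_le_mul_of_nonneg_left hK' hB
  unfold spV
  constructor
  · linarith
  · nlinarith [sq_nonneg (2 * (energy Φ ε W + stabB Φ * K))]

/-- Connected at time `u` implies near-connected at `t` with `|t - u| ≤ ε`. -/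
theorem nearAt_of_conn (hΦ : AdmissiblePotential Φ) (hε : 0 < ε) {K : ℕ} {κ : Type} [Fintype κ]
    (hK : Fintype.card κ ≤ K) {W : κ → PhasePoint} (hW : W ∈ Dom Φ κ) {i : κ} {u t : ℝ}
    (hut : |u - t| ≤ ε)
    (h : ∀ k, Relation.ReflTransGen (fun a b => dst (flow Φ ε u W) a b ≤ ε) i k) :
    NearAt Φ ε K t i W := by
  obtain ⟨h1, h2⟩ := spV_ge hΦ hε hK hW
  have hlip : ∀ a, dist (flow Φ ε u W a).1 (flow Φ ε t W a).1 ≤ spV Φ ε K W * ε := by
    intro a
    have h3 := (newton hΦ hε).lip κ W hW a u t (spV Φ ε K W) (by linarith)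
      (by rw [newton_energy]; exact h2)
    rw [newton_flow, newton_flow] at h3
    exact h3.trans (mul_le_mul_of_nonneg_left hut (by linarith))
  intro k
  refine Relation.ReflTransGen.mono (r := fun a b => dst (flow Φ ε u W) a b ≤ ε) ?_ _ _ (h k)
  intro a b hab
  have h4 := dist_triangle4 (flow Φ ε t W a).1 (flow Φ ε u W a).1 (flow Φ ε u W b).1
    (flow Φ ε t W b).1
  have h5 := hlip a
  have h6 := hlip b
  rw [dist_comm] at h5
  unfold dst at hab ⊢
  linarith

/-- **Connected at some time of `[0, T]`.** -/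
theorem conn_majorant (hΦ : AdmissiblePotential Φ) {γ : ℝ} (hγ : 0 < γ) {T : ℝ} (hT : 0 ≤ T)
    (K : ℕ) : ∃ C : ℝ≥0∞, C ≠ ∞ ∧ ∀ ε : ℝ, 0 < ε → ε ≤ 1 → ∀ (κ : Type) [Fintype κ],
    Fintype.card κ ≤ K → 2 ≤ Fintype.card κ → ∀ i : κ,
    PinMaj Φ ε γ (fun W : κ → PhasePoint => ∃ u ∈ Icc 0 T,
      ∀ k, Relation.ReflTransGen (fun a b => dst (flow Φ ε u W) a b ≤ ε) i k)
      (C * ENNReal.ofReal ε ^ (3 * (Fintype.card κ - 1) - 1)) := by
  obtain ⟨C, hC, h⟩ := near_majorant hΦ hγ K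
  refine ⟨C * ENNReal.ofReal (T + 2), ENNReal.mul_ne_top hC ENNReal.ofReal_ne_top, ?_⟩
  intro ε hε hε1 κ _ hK hK2 i
  have hN := PinMaj.finset hΦ hε (γ := γ) (Finset.range (⌊T / ε⌋₊ + 2))
    (Bad := fun m W => NearAt Φ ε K (m * ε) i W)
    (δ := fun _ => C * ENNReal.ofReal ε ^ (3 * (Fintype.card κ - 1)))
    (fun m _ => h ε hε κ hK i (m * ε))
  refine hN.mono ?_ ?_
  · rintro W hW ⟨u, hu, hc⟩
    have h0 : 0 ≤ u / ε := div_nonneg hu.1 hε.le
    have h1 := Nat.ceil_lt_add_one h0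
    have h2 := Nat.le_ceil (u / ε)
    refine ⟨⌈u / ε⌉₊, ?_, nearAt_of_conn hΦ hε hK hW (u := u) ?_ hc⟩
    · rw [Finset.mem_range]
      have h3 : u / ε ≤ T / ε := by gcongr; exact hu.2
      have h4 : ⌈u / ε⌉₊ ≤ ⌈T / ε⌉₊ := Nat.ceil_mono h3
      have h5 := Nat.ceil_le_floor_add_one (T / ε)
      omega
    · rw [abs_le]
      constructor
      · have : (⌈u / ε⌉₊ : ℝ) * ε < (u / ε + 1) * ε := by gcongr
        have e : (u / ε + 1) * ε = u + ε := by field_simp
        linarith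
      · have : u / ε * ε ≤ ⌈u / ε⌉₊ * ε := by gcongr
        have e : u / ε * ε = u := by field_simp
        linarith
  · rw [Finset.sum_const, Finset.card_range, nsmul_eq_mul]
    have h3 : ((⌊T / ε⌋₊ + 2 : ℕ) : ℝ≥0∞) * ENNReal.ofReal ε ≤ ENNReal.ofReal (T + 2) := by
      have e1 : ((⌊T / ε⌋₊ + 2 : ℕ) : ℝ≥0∞) = ENNReal.ofReal ((⌊T / ε⌋₊ + 2 : ℕ) : ℝ) :=
        (ENNReal.ofReal_natCast _).symm
      rw [e1, ← ENNReal.ofReal_mul (by positivity)]
      refine ENNReal.ofReal_le_ofReal ?_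
      push_cast
      have h4 := Nat.floor_le (div_nonneg hT hε.le)
      calc ((⌊T / ε⌋₊ : ℝ) + 2) * ε ≤ (T / ε + 2) * ε := by gcongr
        _ = T + 2 * ε := by field_simp
        _ ≤ _ := by linarith
    have h5 : 3 * (Fintype.card κ - 1) = (3 * (Fintype.card κ - 1) - 1) + 1 := by omega
    rw [h5, pow_succ]
    calc ((⌊T / ε⌋₊ + 2 : ℕ) : ℝ≥0∞) * (C * (ENNReal.ofReal ε ^ (3 * (Fintype.card κ - 1) - 1) *
          ENNReal.ofReal ε))
        = (((⌊T / ε⌋₊ + 2 : ℕ) : ℝ≥0∞) * ENNReal.ofReal ε) *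
          (C * ENNReal.ofReal ε ^ (3 * (Fintype.card κ - 1) - 1)) := by ring
      _ ≤ ENNReal.ofReal (T + 2) * (C * ENNReal.ofReal ε ^ (3 * (Fintype.card κ - 1) - 1)) :=
          mul_le_mul_left h3 _
      _ = C * ENNReal.ofReal (T + 2) * ENNReal.ofReal ε ^ (3 * (Fintype.card κ - 1) - 1) := by ring

/-- **Bad terminal groups.** -/
theorem term_majorant (hΦ : AdmissiblePotential Φ) {γ : ℝ} (hγ : 0 < γ) {T te : ℝ} (hte : 0 ≤ te)
    (K : ℕ) : ∃ C : ℝ≥0∞, C ≠ ∞ ∧ ∀ ε : ℝ, 0 < ε → ε ≤ 1 → ∀ (ι : Type) (A : Finset ι) (i : ι),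
    A.card ≤ K → PinMaj Φ ε γ (fun W : A → PhasePoint => TermBad Φ ε T te i W)
      (C * ENNReal.ofReal ε ^ (2 * (A.card - 1)) * ENNReal.ofReal ε) := by
  obtain ⟨C₁, hC₁, h1⟩ := conn_majorant hΦ hγ hte K
  obtain ⟨C₂, hC₂, h2⟩ := near_majorant hΦ hγ K
  refine ⟨C₁ + C₂, ENNReal.add_ne_top.2 ⟨hC₁, hC₂⟩, ?_⟩
  intro ε hε hε1 ι A i hA
  have hε1' : ENNReal.ofReal ε ≤ 1 := by
    rw [← ENNReal.ofReal_one]; exact ENNReal.ofReal_le_ofReal hε1
  by_cases hi : i ∈ A
  swap
  · refine (PinMaj.false (Bad := fun W : A → PhasePoint => TermBad Φ ε T te i W) ?_).mono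
      (fun W _ h => h) bot_le
    rintro W - ⟨i', hi', -⟩
    exact hi (hi' ▸ i'.2)
  have hAc : Fintype.card A = A.card := Fintype.card_coe A
  by_cases h3 : 3 ≤ A.card
  · refine (h1 ε hε hε1 A (hAc.trans_le hA) (by omega) ⟨i, hi⟩).mono ?_ ?_
    · rintro W hW ⟨i', hi', (⟨-, h⟩ | ⟨h, -⟩)⟩
      · have : i' = ⟨i, hi⟩ := Subtype.ext hi'
        rw [this] at h
        exact h
      · omega
    · rw [hAc, mul_assoc, ← pow_succ]
      refine mul_le_mul' le_self_add (pow_le_pow_right_of_le_one' hε1' (by omega))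
  · by_cases h4 : A.card = 2
    · refine (h2 ε hε A (hAc.trans_le hA) ⟨i, hi⟩ T).mono ?_ ?_
      · rintro W hW ⟨i', hi', (⟨h, -⟩ | ⟨-, j, hj, hd⟩)⟩
        · omega
        · have h5 : i' = ⟨i, hi⟩ := Subtype.ext hi'
          rw [← h5]
          intro k
          by_cases hk : k = i'
          · rw [hk]
          · have hkj : k = j := by
              by_contra hkj
              have h6 : ({i', j, k} : Finset A).card ≤ Fintype.card A := Finset.card_le_univ _
              rw [Finset.card_eq_three.2 ⟨i', j, k, Ne.symm hj, fun h => hk h.symm,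
                fun h => hkj h.symm, rfl⟩] at h6
              omega
            rw [hkj]
            refine .single (hd.trans ?_)
            have h7 := (spV_ge hΦ hε (hAc.trans_le hA) hW).1
            nlinarith
      · rw [hAc, mul_assoc, ← pow_succ, h4]
        exact mul_le_mul' le_add_self (pow_le_pow_right_of_le_one' hε1' (by omega))
    · refine (PinMaj.false (Bad := fun W : A → PhasePoint => TermBad Φ ε T te i W) ?_).mono
        (fun W _ h => h) bot_le
      rintro W - ⟨i', hi', (⟨h, -⟩ | ⟨h, -⟩)⟩ <;> omega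

/-- **At least two particles released together**, and the chain goes on to the root. -/
theorem big_majorant (hΦ : AdmissiblePotential Φ) {γ : ℝ} (hγ : 0 < γ) {T : ℝ} (hT : 0 ≤ T)
    (K : ℕ) : ∃ C : ℝ≥0∞, C ≠ ∞ ∧ ∀ ε : ℝ, 0 < ε → ε ≤ 1 → ∀ (ι : Type) (A A' : Finset ι) (i : ι),
    A.card ≤ K → PinMaj Φ ε γ (fun W : A → PhasePoint => ∃ s ∈ Icc 0 T, ∃ W' : A' → PhasePoint,
      Step Φ ε s W W' ∧ (A'.card + 2 ≤ A.card ∧ ∃ W'' : ({i} : Finset ι) → PhasePoint,
        Chain Φ ε T A' W' {i} W''))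
      (C * ENNReal.ofReal ε ^ (2 * (A.card - 1)) * ENNReal.ofReal ε) := by
  obtain ⟨C₁, hC₁, h1⟩ := exists_pinMaj_chain hΦ hT K (γ₁ := γ / 3) (γ₂ := γ / 2) (by linarith)
    (by linarith)
  obtain ⟨C₂, hC₂, h2⟩ := exists_pinMaj_step hΦ hT K (half_pos hγ) (half_lt_self hγ)
  refine ⟨C₂ * (C₁ * gv (γ / 3)), ENNReal.mul_ne_top hC₂ (ENNReal.mul_ne_top hC₁
    (gv_ne_top (by linarith))), ?_⟩
  intro ε hε hε1 ι A A' i hA
  have hε1' : ENNReal.ofReal ε ≤ 1 := by
    rw [← ENNReal.ofReal_one]; exact ENNReal.ofReal_le_ofReal hε1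
  by_cases h3 : A'.card + 2 ≤ A.card
  swap
  · refine (PinMaj.false ?_).mono (fun W _ h => h) bot_le
    rintro W - ⟨s, hs, W', hst, h4, -⟩
    exact h3 h4
  by_cases h5 : 1 ≤ A'.card
  swap
  · refine (PinMaj.false ?_).mono (fun W _ h => h) bot_le
    rintro W - ⟨s, hs, W', hst, -⟩
    obtain ⟨j, hj, ⟨m, hm, -⟩, -⟩ := hst.touch
    exact h5 (Finset.card_pos.2 ⟨m, hm⟩)
  have h0 : PinMaj Φ ε (γ / 3) (fun _ : ({i} : Finset ι) → PhasePoint => True) (gv (γ / 3)) := by
    intro f hf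
    refine ⟨fun W => f (W default).1, hf.comp (measurable_pi_apply default).fst,
      fun W _ _ => ⟨(W default).1, fun a => le_rfl⟩, ?_⟩
    exact (lintegral_single f hf).le
  have h6 := h2 ε hε ι A A' hA _ _ (h1 ε hε hε1 ι A' {i} (by omega) _ _ h0)
  refine h6.mono ?_ ?_
  · rintro W hW ⟨s, hs, W', hst, -, W'', hc⟩
    exact ⟨s, hs, W', hst, W'', hc, trivial⟩
  · rw [Finset.card_singleton]
    calc C₂ * ENNReal.ofReal ε ^ (2 + 3 * (A.card - A'.card - 1)) *
          (C₁ * ENNReal.ofReal ε ^ (2 * (A'.card - 1)) * gv (γ / 3))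
        = C₂ * (C₁ * gv (γ / 3)) * ENNReal.ofReal ε ^ (2 + 3 * (A.card - A'.card - 1) +
          2 * (A'.card - 1)) := by rw [pow_add]; ring
      _ ≤ C₂ * (C₁ * gv (γ / 3)) * ENNReal.ofReal ε ^ (2 * (A.card - 1) + 1) :=
          mul_le_mul_right (pow_le_pow_right_of_le_one' hε1' (by omega)) _
      _ = _ := by rw [pow_succ]; ring

end Crest.Agent.R122.Vol365

end
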