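import Crest.Agent.R122.BadHit_370
import Crest.Agent.R122.Mom_974

/-!
# Translation average of the entrance of one cluster into a tube family (row 122, helper370)

`RootHit Φ ε γ t x V j` : in the isolated world `V` the particle `j` comes within `ε` of a curve
`γ a + x` before `t`.
* `lintegral_rootHit_le` : for fixed `V` the volume of the translations with `RootHit` is at most
  `8 c₃ |α| ε² (ε + ∫₀ᵗ (M + |v_j|))`, through a jointly measurable majorant.
* `lintegral_root_le` : the configuration form. An `x`-dependent functional of `(V, j)` which is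
  bounded by `1[RootHit] * E V j` integrates over `x` to at most
  `C ε² ∫ gcWeight V ∑_j Wt(V) E V j`.
-/

set_option autoImplicit false
open MeasureTheory Set
open scoped Classical ENNReal
open Crest.AnalysisR.Kinetic
open Crest.Agent.R122.GC311 Crest.Agent.R122.Causal291 Crest.Agent.R122.Master566
open Crest.Agent.R122.EW370 Crest.Agent.R122.NEK370 Crest.Agent.R122.Sweep815
open Crest.Agent.R122.BadHit370
noncomputable section

namespace Crest.Agent.R122.XAvg370

variable {Φ : Space3 → ℝ} {f₀ : PhasePoint → ℝ} {ε : ℝ} {α : Type*}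

/-- In the isolated world `V` the particle `j` meets the translated family before `t`. -/
def RootHit (Φ : Space3 → ℝ) (ε : ℝ) (γ : α → ℝ → Space3) (t : ℝ) (x : Space3) {k : ℕ}
    (V : Config k) (j : Fin k) : Prop :=
  ∃ s ∈ Icc 0 t, ∃ a, dist (γ a s + x) (pth Φ ε V s j).1 ≤ ε

/-- occupation indicator -/
def hocc (Φ : Space3 → ℝ) (ε : ℝ) (γ : α → ℝ → Space3) (x : Space3) {k : ℕ}
    (V : Config k) (u : ℝ) (a : α) (j : Fin k) : ℝ≥0∞ :=
  if dist (γ a u + x) (pth Φ ε V u j).1 ≤ 2 * ε then 1 else 0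

/-- The majorant of the indicator of `RootHit`. -/
def hmaj [Fintype α] (Φ : Space3 → ℝ) (ε : ℝ) (γ : α → ℝ → Space3) (M t : ℝ) (x : Space3) {k : ℕ}
    (V : Config k) (j : Fin k) : ℝ≥0∞ :=
  ∑ a, (hocc Φ ε γ x V t a j + (ENNReal.ofReal ε)⁻¹ * ∫⁻ u in Icc 0 t,
    hocc Φ ε γ x V u a j * spd Φ ε M V u j)

theorem rootHit_le_hmaj [Fintype α] (hΦ : AdmissiblePotential Φ) (hε : 0 < ε)
    {γ : α → ℝ → Space3} {M t : ℝ}
    (hM : 0 ≤ M) (hγ : ∀ a, ∀ s ∈ Icc 0 t, ∀ s' ∈ Icc 0 t, dist (γ a s) (γ a s') ≤ M * |s - s'|)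
    (x : Space3) {k : ℕ} {V : Config k} (hV : V ∈ PairExcluded ε k) (j : Fin k) :
    (if RootHit Φ ε γ t x V j then (1 : ℝ≥0∞) else 0) ≤ hmaj Φ ε γ M t x V j := by
  split_ifs with h
  swap
  · exact bot_le
  obtain ⟨s0, hs0, a, hd⟩ := h
  have hfar : ∀ i j : Fin k, i ≠ j → ε ≤ dist (V i).1 (V j).1 := fun i j h => (hV i j h).le
  have hDom : V ∈ Flow671.Dom Φ (Fin k) := Loc45.Dom_of_far hε hfar
  have hcont : Continuous fun s => Flow671.flow Φ ε s V := Flow671.flow_continuous_time hΦ hε V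
  have hder : ∀ s, HasDerivAt (fun s => (Flow671.flow Φ ε s V j).1)
      (Flow671.flow Φ ε s V j).2 s := by
    intro s
    have h1 := (hasDerivAt_pi.1 (Flow671.flow_hasDerivAt hΦ hε hDom s)) j
    exact h1.fst
  have hc2 : Continuous fun s => (Flow671.flow Φ ε s V j).2 :=
    (((continuous_apply j).comp hcont)).snd
  have hσc : Continuous fun s => M + ‖(Flow671.flow Φ ε s V j).2‖ := by fun_prop
  have hs := sweep_back (a := 0) (b := t) hε
    (d := fun s => dist (γ a s + x) (Flow671.flow Φ ε s V j).1)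
    (σ := fun s => M + ‖(Flow671.flow Φ ε s V j).2‖)
    (fun s _ => by positivity) (hσc.continuousOn.integrableOn_compact isCompact_Icc)
    (by
      intro s hs s' hs' hss'
      have h1 : (∫ u in s..s', (M + ‖(Flow671.flow Φ ε u V j).2‖)) =
          M * (s' - s) + ∫ u in s..s', ‖(Flow671.flow Φ ε u V j).2‖ := by
        rw [intervalIntegral.integral_add (by simp) (hc2.norm.intervalIntegrable _ _),
          intervalIntegral.integral_const, smul_eq_mul, mul_comm]
      have h2 : ‖(Flow671.flow Φ ε s' V j).1 - (Flow671.flow Φ ε s V j).1‖ ≤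
          ∫ u in s..s', ‖(Flow671.flow Φ ε u V j).2‖ := by
        rw [← intervalIntegral.integral_eq_sub_of_hasDerivAt (fun u _ => hder u)
          (hc2.intervalIntegrable _ _)]
        exact intervalIntegral.norm_integral_le_integral_norm hss'
      have h3 := hγ a s' hs' s hs
      rw [abs_of_nonneg (by linarith : 0 ≤ s' - s)] at h3
      have h4 : dist (γ a s' + x) (γ a s + x) = dist (γ a s') (γ a s) := by
        rw [dist_add_right]
      have h5 : dist (γ a s' + x) (Flow671.flow Φ ε s' V j).1 ≤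
          dist (γ a s' + x) (γ a s + x) + dist (γ a s + x) (Flow671.flow Φ ε s V j).1 +
            dist (Flow671.flow Φ ε s V j).1 (Flow671.flow Φ ε s' V j).1 := dist_triangle4 _ _ _ _
      rw [dist_comm (Flow671.flow Φ ε s V j).1, dist_eq_norm (Flow671.flow Φ ε s' V j).1] at h5
      rw [h1]
      linarith)
    hs0 hd
  unfold hmaj
  refine le_trans ?_ (Finset.single_le_sum (f := fun a => hocc Φ ε γ x V t a j +
    (ENNReal.ofReal ε)⁻¹ * ∫⁻ u in Icc 0 t, hocc Φ ε γ x V u a j * spd Φ ε M V u j)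
    (fun _ _ => bot_le) (Finset.mem_univ a))
  rcases hs with hs | hs
  · refine le_trans (le_of_eq ?_) le_self_add
    unfold hocc
    exact (if_pos hs).symm
  · refine le_trans ?_ le_add_self
    have h0 : ENNReal.ofReal ε ≠ 0 := by simpa using hε
    calc (1 : ℝ≥0∞) = (ENNReal.ofReal ε)⁻¹ * ENNReal.ofReal ε :=
          (ENNReal.inv_mul_cancel h0 ENNReal.ofReal_ne_top).symm
      _ ≤ (ENNReal.ofReal ε)⁻¹ * ∫⁻ u in Icc s0 t,
          {u | dist (γ a u + x) (Flow671.flow Φ ε u V j).1 ≤ 2 * ε}.indicator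
            (fun u => ENNReal.ofReal (M + ‖(Flow671.flow Φ ε u V j).2‖)) u := by gcongr
      _ ≤ (ENNReal.ofReal ε)⁻¹ * ∫⁻ u in Icc s0 t,
          hocc Φ ε γ x V u a j * spd Φ ε M V u j := by
          refine mul_le_mul_right (setLIntegral_mono' measurableSet_Icc fun u hu => ?_) _
          refine indicator_apply_le' (fun h => ?_) fun _ => bot_le
          have h' : dist (γ a u + x) (pth Φ ε V u j).1 ≤ 2 * ε := h
          unfold hocc spd
          rw [if_pos h', one_mul]
          exact le_rfl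
      _ ≤ _ := mul_le_mul_right (lintegral_mono_set (Icc_subset_Icc_left hs0.1)) _

theorem measurable_hocc (hΦ : AdmissiblePotential Φ) (hε : 0 < ε) {γ : α → ℝ → Space3}
    (hγ : ∀ a, Measurable (γ a)) {k : ℕ} (a : α) (j : Fin k) :
    Measurable fun p : ℝ × Space3 × Config k => hocc Φ ε γ p.2.1 p.2.2 p.1 a j := by
  unfold hocc
  refine Measurable.ite ?_ measurable_const measurable_const
  refine measurableSet_le (Measurable.dist ?_ ?_) measurable_const
  · exact ((hγ a).comp measurable_fst).add (measurable_fst.comp measurable_snd)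
  · have h := (measurable_pth_joint (ι := Fin k) hΦ hε j).comp measurable_proj
    exact h.fst

theorem measurable_hmaj [Fintype α] (hΦ : AdmissiblePotential Φ) (hε : 0 < ε)
    {γ : α → ℝ → Space3} (hγ : ∀ a, Measurable (γ a)) (M t : ℝ) {k : ℕ} (j : Fin k) :
    Measurable (Function.uncurry fun (x : Space3) (V : Config k) => hmaj Φ ε γ M t x V j) := by
  unfold hmaj
  simp only [Function.uncurry_def]
  refine Finset.measurable_sum _ fun a _ => ?_
  refine Measurable.add ?_ (Measurable.const_mul ?_ _)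
  · have h := (measurable_hocc hΦ hε hγ a j).comp
      ((measurable_const (a := t)).prodMk (measurable_id (α := Space3 × Config k)))
    exact h
  · have h1 : Measurable fun q : (Space3 × Config k) × ℝ => (q.2, q.1) :=
      measurable_snd.prodMk measurable_fst
    have h2 := (measurable_hocc hΦ hε hγ a j).comp h1
    have h3 : Measurable fun q : (Space3 × Config k) × ℝ => (q.2, q.1.2) :=
      measurable_snd.prodMk (measurable_snd.comp measurable_fst)
    have h4 := (measurable_spd hΦ hε M j).comp h3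
    have h5 := (h2.mul h4).lintegral_prod_right' (ν := volume.restrict (Icc 0 t))
    exact h5

theorem lintegral_hocc {γ : α → ℝ → Space3} {k : ℕ} (V : Config k) (u : ℝ) (a : α) (j : Fin k) :
    ∫⁻ x, hocc Φ ε γ x V u a j = ENNReal.ofReal (2 * ε) ^ 3 * c3 := by
  have h1 : ∀ x, hocc Φ ε γ x V u a j =
      (Metric.closedBall ((pth Φ ε V u j).1 - γ a u) (2 * ε)).indicator 1 x := by
    intro x
    unfold hocc
    have h2 : (x ∈ Metric.closedBall ((pth Φ ε V u j).1 - γ a u) (2 * ε)) ↔
        dist (γ a u + x) (pth Φ ε V u j).1 ≤ 2 * ε := by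
      rw [Metric.mem_closedBall, dist_eq_norm, dist_eq_norm,
        show x - ((pth Φ ε V u j).1 - γ a u) = γ a u + x - (pth Φ ε V u j).1 by abel]
    by_cases h3 : dist (γ a u + x) (pth Φ ε V u j).1 ≤ 2 * ε
    · rw [if_pos h3, indicator_of_mem (h2.2 h3)]; rfl
    · rw [if_neg h3, indicator_of_notMem (fun h4 => h3 (h2.1 h4))]
  simp_rw [h1]
  rw [lintegral_indicator_one Metric.isClosed_closedBall.measurableSet, vol_closedBall]

/-- The translation average of the majorant. -/
theorem lintegral_hmaj [Fintype α] (hΦ : AdmissiblePotential Φ) (hε : 0 < ε)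
    {γ : α → ℝ → Space3} (hγ : ∀ a, Measurable (γ a)) (M t : ℝ) {k : ℕ} (V : Config k)
    (j : Fin k) :
    ∫⁻ x, hmaj Φ ε γ M t x V j = 8 * c3 * (Fintype.card α : ℝ≥0∞) * ENNReal.ofReal ε ^ 2 *
      (ENNReal.ofReal ε + ∫⁻ u in Icc 0 t, spd Φ ε M V u j) := by
  have he0 : ENNReal.ofReal ε ≠ 0 := by simpa using hε
  have het : ENNReal.ofReal ε ≠ ∞ := ENNReal.ofReal_ne_top
  have hB : ENNReal.ofReal (2 * ε) ^ 3 * c3 = 8 * c3 * ENNReal.ofReal ε ^ 3 := by
    rw [ENNReal.ofReal_mul (by norm_num), mul_pow]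
    norm_num
    ring
  have hm1 : ∀ a : α, Measurable fun p : ℝ × Space3 => hocc Φ ε γ p.2 V p.1 a j := by
    intro a
    have h := (measurable_hocc hΦ hε hγ a j).comp
      ((measurable_fst (α := ℝ) (β := Space3)).prodMk
        ((measurable_snd (α := ℝ) (β := Space3)).prodMk (measurable_const (a := V))))
    exact h
  have hu : Measurable fun u : ℝ => spd Φ ε M V u j := by
    have h1 : Measurable fun u : ℝ => (u, V) := measurable_id.prodMk measurable_const
    have h := (measurable_spd hΦ hε M j).comp h1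
    exact h
  have hm2 : Measurable fun p : ℝ × Space3 => spd Φ ε M V p.1 j := by
    have h2 : Measurable fun q : ℝ × Space3 => q.1 := measurable_fst
    exact hu.comp h2
  have hm3 : ∀ a : α, Measurable fun x : Space3 =>
      (ENNReal.ofReal ε)⁻¹ * ∫⁻ u in Icc 0 t, hocc Φ ε γ x V u a j * spd Φ ε M V u j := by
    intro a
    refine Measurable.const_mul ?_ _
    have h5 := (((hm1 a).mul hm2).comp measurable_swap).lintegral_prod_right'
      (ν := volume.restrict (Icc 0 t))
    exact h5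
  have hm4 : ∀ a : α, ∀ u : ℝ, Measurable fun x : Space3 => hocc Φ ε γ x V u a j := by
    intro a u
    have h := (hm1 a).comp ((measurable_const (a := u)).prodMk (measurable_id (α := Space3)))
    exact h
  calc ∫⁻ x, hmaj Φ ε γ M t x V j = ∑ a : α, ∫⁻ x, (hocc Φ ε γ x V t a j +
        (ENNReal.ofReal ε)⁻¹ * ∫⁻ u in Icc 0 t, hocc Φ ε γ x V u a j * spd Φ ε M V u j) := by
        unfold hmaj
        rw [lintegral_finsetSum]
        exact fun a _ => (hm4 a t).add (hm3 a)
    _ = ∑ _a : α, 8 * c3 * ENNReal.ofReal ε ^ 2 *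
        (ENNReal.ofReal ε + ∫⁻ u in Icc 0 t, spd Φ ε M V u j) := by
        refine Finset.sum_congr rfl fun a _ => ?_
        rw [lintegral_add_left (hm4 a t), lintegral_hocc, hB,
          lintegral_const_mul' _ _ (ENNReal.inv_ne_top.2 he0),
          lintegral_lintegral_swap (f := fun (x : Space3) (u : ℝ) =>
            hocc Φ ε γ x V u a j * spd Φ ε M V u j)
            (((hm1 a).mul hm2).comp measurable_swap).aemeasurable]
        have h1 : ∀ u : ℝ, ∫⁻ x, hocc Φ ε γ x V u a j * spd Φ ε M V u j =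
            8 * c3 * ENNReal.ofReal ε ^ 3 * spd Φ ε M V u j := by
          intro u
          rw [lintegral_mul_const _ (hm4 a u), lintegral_hocc, hB]
        simp_rw [h1]
        rw [lintegral_const_mul _ hu]
        have h4 : (ENNReal.ofReal ε)⁻¹ * (8 * c3 * ENNReal.ofReal ε ^ 3) =
            8 * c3 * ENNReal.ofReal ε ^ 2 := by
          rw [show ENNReal.ofReal ε ^ 3 = ENNReal.ofReal ε * ENNReal.ofReal ε ^ 2 by ring]
          calc (ENNReal.ofReal ε)⁻¹ * (8 * c3 * (ENNReal.ofReal ε * ENNReal.ofReal ε ^ 2))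
              = ((ENNReal.ofReal ε)⁻¹ * ENNReal.ofReal ε) * (8 * c3 * ENNReal.ofReal ε ^ 2) := by
                ring
            _ = _ := by rw [ENNReal.inv_mul_cancel he0 het, one_mul]
        rw [← mul_assoc (ENNReal.ofReal ε)⁻¹, h4]
        ring
    _ = _ := by
        rw [Finset.sum_const, nsmul_eq_mul, Finset.card_univ]
        ring

/-- energy weight of a configuration -/
def wt (k : ℕ) (V : Config k) : ℝ≥0∞ := ∑ i, ENNReal.ofReal (1 + ‖(V i).2‖ ^ 2)

theorem measurable_wt (k : ℕ) : Measurable (wt k) := by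
  unfold wt
  refine Finset.measurable_sum _ fun i _ => ?_
  have h : Measurable fun V : Config k => V i := measurable_pi_apply i
  exact ((h.snd.norm.pow_const 2).const_add 1).ennreal_ofReal

theorem spd_le_wt (hΦ : AdmissiblePotential Φ) (hε : 0 < ε) {M : ℝ} (hM : 0 ≤ M) {k : ℕ}
    {V : Config k} (hV : V ∈ PairExcluded ε k) (u : ℝ) (j : Fin k) :
    spd Φ ε M V u j ≤ ENNReal.ofReal ((M + 1) * (1 + 2 * Loc45.stabB Φ)) * wt k V := by
  have h1 := Mom974.weight_flow_le' hΦ hε hV u
  have hB := Loc45.stabB_nonneg Φ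
  calc spd Φ ε M V u j ≤ ENNReal.ofReal (M + 1) *
        ENNReal.ofReal (1 + ‖(Flow671.flow Φ ε u V j).2‖ ^ 2) := by
        unfold spd
        rw [← ENNReal.ofReal_mul (by positivity)]
        refine ENNReal.ofReal_le_ofReal ?_
        have h2 : pth Φ ε V u j = Flow671.flow Φ ε u V j := rfl
        rw [h2]
        set v := ‖(Flow671.flow Φ ε u V j).2‖
        have hv : 0 ≤ v := norm_nonneg _
        nlinarith [sq_nonneg (v - 1), mul_nonneg hM (sq_nonneg v)]
    _ ≤ ENNReal.ofReal (M + 1) * ∑ i, ENNReal.ofReal (1 + ‖(Flow671.flow Φ ε u V i).2‖ ^ 2) := by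
        refine mul_le_mul_right ?_ _
        exact Finset.single_le_sum
          (f := fun i => ENNReal.ofReal (1 + ‖(Flow671.flow Φ ε u V i).2‖ ^ 2))
          (fun _ _ => bot_le) (Finset.mem_univ j)
    _ ≤ ENNReal.ofReal (M + 1) * (ENNReal.ofReal (1 + 2 * Loc45.stabB Φ) * wt k V) :=
        mul_le_mul_right h1 _
    _ = _ := by rw [← mul_assoc, ← ENNReal.ofReal_mul (by positivity)]

/-- The constant of the translation average. -/
def cX (Φ : Space3 → ℝ) (N : ℕ) (M t : ℝ) : ℝ≥0∞ :=
  8 * c3 * (N : ℝ≥0∞) * (1 + ENNReal.ofReal t * ENNReal.ofReal ((M + 1) * (1 + 2 * Loc45.stabB Φ)))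

theorem lintegral_hmaj_le [Fintype α] (hΦ : AdmissiblePotential Φ) (hε : 0 < ε) (hε1 : ε ≤ 1)
    {γ : α → ℝ → Space3} (hγ : ∀ a, Measurable (γ a)) {M : ℝ} (hM : 0 ≤ M) (t : ℝ) {k : ℕ}
    {V : Config k} (hV : V ∈ PairExcluded ε k) (j : Fin k) :
    ∫⁻ x, hmaj Φ ε γ M t x V j ≤
      ENNReal.ofReal ε ^ 2 * cX Φ (Fintype.card α) M t * wt k V := by
  have h1 : (1 : ℝ≥0∞) ≤ wt k V := by
    unfold wt
    refine le_trans ?_ (Finset.single_le_sum (f := fun i => ENNReal.ofReal (1 + ‖(V i).2‖ ^ 2))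
      (fun _ _ => bot_le) (Finset.mem_univ j))
    rw [← ENNReal.ofReal_one]
    exact ENNReal.ofReal_le_ofReal (by linarith [sq_nonneg ‖(V j).2‖])
  have h2 : ∫⁻ u in Icc 0 t, spd Φ ε M V u j ≤
      ENNReal.ofReal t * (ENNReal.ofReal ((M + 1) * (1 + 2 * Loc45.stabB Φ)) * wt k V) := by
    calc ∫⁻ u in Icc 0 t, spd Φ ε M V u j ≤ ∫⁻ _ in Icc 0 t,
          ENNReal.ofReal ((M + 1) * (1 + 2 * Loc45.stabB Φ)) * wt k V :=
          lintegral_mono fun u => spd_le_wt hΦ hε hM hV u j
      _ = _ := by rw [setLIntegral_const, Real.volume_Icc, sub_zero, mul_comm]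
  have h3 : ENNReal.ofReal ε ≤ 1 := by
    rw [← ENNReal.ofReal_one]; exact ENNReal.ofReal_le_ofReal hε1
  rw [lintegral_hmaj hΦ hε hγ]
  calc 8 * c3 * (Fintype.card α : ℝ≥0∞) * ENNReal.ofReal ε ^ 2 *
        (ENNReal.ofReal ε + ∫⁻ u in Icc 0 t, spd Φ ε M V u j)
      ≤ 8 * c3 * (Fintype.card α : ℝ≥0∞) * ENNReal.ofReal ε ^ 2 * (1 * wt k V +
        ENNReal.ofReal t * (ENNReal.ofReal ((M + 1) * (1 + 2 * Loc45.stabB Φ)) * wt k V)) := by
        gcongr
        rw [one_mul]
        exact h3.trans h1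
    _ = _ := by unfold cX; ring

/-- **Translation average, configuration form, with a measurable majorant.** -/
theorem exists_root_maj [Fintype α] (hΦ : AdmissiblePotential Φ) (hf : Measurable f₀)
    (hε : 0 < ε) (hε1 : ε ≤ 1) {γ : α → ℝ → Space3} {M t : ℝ} (hM : 0 ≤ M) (ht : 0 ≤ t)
    (hγ : ∀ a, ∀ s ∈ Icc 0 t, ∀ s' ∈ Icc 0 t, dist (γ a s) (γ a s') ≤ M * |s - s'|)
    {k : ℕ} {E : Config k → Fin k → ℝ≥0∞} (hE : ∀ j, Measurable fun V => E V j)
    {H : Space3 → Config k → Fin k → ℝ≥0∞}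
    (hH : ∀ x V j, V ∈ PairExcluded ε k →
      H x V j ≤ (if RootHit Φ ε γ t x V j then 1 else 0) * E V j) :
    ∃ g : Space3 → ℝ≥0∞, Measurable g ∧
      (∀ x, ∫⁻ V, gcWeight f₀ ε k V * ∑ j, H x V j ≤ g x) ∧
      ∫⁻ x, g x ≤ ENNReal.ofReal ε ^ 2 * cX Φ (Fintype.card α) M t *
        ∫⁻ V, gcWeight f₀ ε k V * ∑ j, wt k V * E V j := by
  set γ' : α → ℝ → Space3 := fun a s => γ a (projIcc 0 t ht s) with hγ'
  have hγeq : ∀ a, ∀ s ∈ Icc 0 t, γ' a s = γ a s := by
    intro a s hs
    simp only [hγ', projIcc_of_mem ht hs]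
  have hγL : ∀ a, ∀ s s' : ℝ, dist (γ' a s) (γ' a s') ≤ M * |s - s'| := by
    intro a s s'
    refine (hγ a _ (projIcc 0 t ht s).2 _ (projIcc 0 t ht s').2).trans ?_
    exact mul_le_mul_of_nonneg_left (abs_projIcc_sub_projIcc ht) hM
  have hγm : ∀ a, Measurable (γ' a) := by
    intro a
    have h1 : LipschitzWith (Real.toNNReal M) (γ' a) := LipschitzWith.of_dist_le_mul fun s s' => by
      rw [Real.coe_toNNReal M hM, Real.dist_eq]
      exact hγL a s s'
    exact h1.continuous.measurable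
  have hHit : ∀ (x : Space3) (V : Config k) (j : Fin k),
      RootHit Φ ε γ t x V j → RootHit Φ ε γ' t x V j := by
    rintro x V j ⟨s, hs, a, ha⟩
    exact ⟨s, hs, a, by rw [hγeq a s hs]; exact ha⟩
  have hmm : ∀ j, Measurable fun p : Space3 × Config k => hmaj Φ ε γ' M t p.1 p.2 j :=
    fun j => measurable_hmaj hΦ hε hγm M t j
  have hmg : Measurable fun p : Space3 × Config k => gcWeight f₀ ε k p.2 *
      ∑ j, hmaj Φ ε γ' M t p.1 p.2 j * E p.2 j :=
    ((measurable_gcWeight hf ε k).comp measurable_snd).mul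
      (Finset.measurable_sum _ fun j _ => (hmm j).mul ((hE j).comp measurable_snd))
  refine ⟨fun x => ∫⁻ V, gcWeight f₀ ε k V * ∑ j, hmaj Φ ε γ' M t x V j * E V j,
    hmg.lintegral_prod_right', ?_, ?_⟩
  · intro x
    refine lintegral_mono fun V => ?_
    by_cases hV : V ∈ PairExcluded ε k
    · refine mul_le_mul_right (Finset.sum_le_sum fun j _ => (hH x V j hV).trans ?_) _
      refine mul_le_mul_left (le_trans ?_
        (rootHit_le_hmaj hΦ hε hM (fun a s _ s' _ => hγL a s s') x hV j)) _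
      by_cases h : RootHit Φ ε γ t x V j
      · rw [if_pos h, if_pos (hHit x V j h)]
      · rw [if_neg h]; exact bot_le
    · simp [gcWeight, indicator_of_notMem hV]
  calc ∫⁻ x, ∫⁻ V, gcWeight f₀ ε k V * ∑ j, hmaj Φ ε γ' M t x V j * E V j
      = ∫⁻ V, ∫⁻ x, gcWeight f₀ ε k V * ∑ j, hmaj Φ ε γ' M t x V j * E V j :=
        lintegral_lintegral_swap (f := fun (x : Space3) (V : Config k) => gcWeight f₀ ε k V *
          ∑ j, hmaj Φ ε γ' M t x V j * E V j) hmg.aemeasurable
    _ ≤ ∫⁻ V, (ENNReal.ofReal ε ^ 2 * cX Φ (Fintype.card α) M t) *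
        (gcWeight f₀ ε k V * ∑ j, wt k V * E V j) := by
        refine lintegral_mono fun V => ?_
        by_cases hV : V ∈ PairExcluded ε k
        · have hmx : ∀ j, Measurable fun x : Space3 => hmaj Φ ε γ' M t x V j := by
            intro j
            have h1 : Measurable fun x : Space3 => (x, V) := measurable_id.prodMk measurable_const
            have h2 := (hmm j).comp h1
            exact h2
          calc ∫⁻ x, gcWeight f₀ ε k V * ∑ j, hmaj Φ ε γ' M t x V j * E V j
              = gcWeight f₀ ε k V * ∑ j, (∫⁻ x, hmaj Φ ε γ' M t x V j) * E V j := by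
                rw [lintegral_const_mul _ (Finset.measurable_sum _ fun j _ =>
                  (hmx j).mul_const _), lintegral_finsetSum _ fun j _ => (hmx j).mul_const _]
                congr 1
                exact Finset.sum_congr rfl fun j _ => lintegral_mul_const _ (hmx j)
            _ ≤ gcWeight f₀ ε k V * ∑ j, (ENNReal.ofReal ε ^ 2 * cX Φ (Fintype.card α) M t *
                  wt k V) * E V j := by
                gcongr with j _
                exact lintegral_hmaj_le hΦ hε hε1 hγm hM t hV j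
            _ = _ := by
                rw [Finset.mul_sum, Finset.mul_sum, Finset.mul_sum]
                refine Finset.sum_congr rfl fun j _ => ?_
                ring
        · simp [gcWeight, indicator_of_notMem hV]
    _ = _ := by
        have h1 : Measurable fun V : Config k => gcWeight f₀ ε k V * ∑ j, wt k V * E V j :=
          (measurable_gcWeight hf ε k).mul
            (Finset.measurable_sum _ fun j _ => (measurable_wt k).mul (hE j))
        exact lintegral_const_mul _ h1

/-- **Translation average, configuration form.** -/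
theorem lintegral_root_le [Fintype α] (hΦ : AdmissiblePotential Φ) (hf : Measurable f₀)
    (hε : 0 < ε) (hε1 : ε ≤ 1) {γ : α → ℝ → Space3} {M t : ℝ} (hM : 0 ≤ M) (ht : 0 ≤ t)
    (hγ : ∀ a, ∀ s ∈ Icc 0 t, ∀ s' ∈ Icc 0 t, dist (γ a s) (γ a s') ≤ M * |s - s'|)
    {k : ℕ} {E : Config k → Fin k → ℝ≥0∞} (hE : ∀ j, Measurable fun V => E V j)
    {H : Space3 → Config k → Fin k → ℝ≥0∞}
    (hH : ∀ x V j, V ∈ PairExcluded ε k →
      H x V j ≤ (if RootHit Φ ε γ t x V j then 1 else 0) * E V j) :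
    ∫⁻ x, ∫⁻ V, gcWeight f₀ ε k V * ∑ j, H x V j ≤
      ENNReal.ofReal ε ^ 2 * cX Φ (Fintype.card α) M t *
        ∫⁻ V, gcWeight f₀ ε k V * ∑ j, wt k V * E V j := by
  obtain ⟨g, _, h1, h2⟩ := exists_root_maj (Φ := Φ) (f₀ := f₀) hΦ hf hε hε1 hM ht hγ hE hH
  exact (lintegral_mono h1).trans h2

end Crest.Agent.R122.XAvg370
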